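import Vale.Agent.P218F.AlgS
import Vale.Agent.P298.H744.CS

/-!
# P218 (helper61), block ALG: flat series along a filter, real formal arcs in their zero set
-/

open Filter Topology PowerSeries Asymptotics

namespace Vale.Agent.P218F.Alg

variable {E : Type} [NormedAddCommGroup E] [NormedSpace ℝ E]

/-- the germ of the first coordinate -/
noncomputable def eps (E : Type) [NormedAddCommGroup E] [NormedSpace ℝ E] : O (ℝ × E) :=
  lin (ContinuousLinearMap.fst ℝ ℝ E)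

/-- polynomials in `eps` -/
noncomputable def polyO (E : Type) [NormedAddCommGroup E] [NormedSpace ℝ E] :
    Polynomial (O E) →+* O (ℝ × E) :=
  Polynomial.eval₂RingHom (pullL (ContinuousLinearMap.snd ℝ ℝ E)).toRingHom (eps E)

/-- the truncated sum as an analytic germ -/
noncomputable def tau (N : ℕ) (h : (O E)⟦X⟧) : O (ℝ × E) := polyO E (trunc N h)

theorem polyO_dvd {N : ℕ} {P : Polynomial (O E)} (h : ∀ d < N, P.coeff d = 0) :
    eps E ^ N ∣ polyO E P := by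
  have := map_dvd (polyO E) (Polynomial.X_pow_dvd_iff.2 h)
  simpa [polyO] using this

theorem tau_add (N : ℕ) (h h' : (O E)⟦X⟧) : tau N (h + h') = tau N h + tau N h' := by
  simp [tau]

theorem tau_mul (N : ℕ) (h h' : (O E)⟦X⟧) : eps E ^ N ∣ tau N (h * h') - tau N h * tau N h' := by
  rw [tau, tau, tau, ← map_mul, ← map_sub]
  refine polyO_dvd fun d hd => ?_
  rw [Polynomial.coeff_sub, coeff_trunc, if_pos hd, coeff_mul_eq_coeff_trunc_mul_trunc h h' hd,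
    ← Polynomial.coe_mul, Polynomial.coeff_coe, sub_self]

theorem tau_mono {M N : ℕ} (hMN : M ≤ N) (h : (O E)⟦X⟧) : eps E ^ M ∣ tau N h - tau M h := by
  rw [tau, tau, ← map_sub]
  refine polyO_dvd fun d hd => ?_
  rw [Polynomial.coeff_sub, coeff_trunc, coeff_trunc, if_pos hd, if_pos (by omega), sub_self]

theorem tau_X : tau 2 (X : (O E)⟦X⟧) = eps E := by
  rw [tau, trunc_X_of le_rfl]
  simp [polyO]

theorem tau_congr {R : Type*} [CommRing R] (S : (O E)⟦X⟧ →+* R) (Ψ : O (ℝ × E) →+* R)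
    (hX : Ψ (eps E) = S X) (hC : ∀ a, Ψ (pullL (ContinuousLinearMap.snd ℝ ℝ E) a) = S (C a))
    (N : ℕ) (h : (O E)⟦X⟧) : S X ^ N ∣ S h - Ψ (tau N h) := by
  have h1 : Ψ (tau N h) = S (trunc N h) := by
    rw [← Polynomial.eval₂_C_X_eq_coe, Polynomial.hom_eval₂, tau, polyO,
      Polynomial.coe_eval₂RingHom, Polynomial.hom_eval₂, hX]
    congr 1
    exact RingHom.ext hC
  rw [h1]
  conv_lhs => rw [← map_pow]
  rw [← map_sub]
  refine map_dvd S ⟨PowerSeries.mk fun i => coeff (i + N) h, ?_⟩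
  linear_combination eq_X_pow_mul_shift_add_trunc N h

theorem rep_add (a b : O E) : rep (a + b) =ᶠ[𝓝 0] fun z => rep a z + rep b z := by
  conv_lhs => rw [← mk_rep a, ← mk_rep b, mk_add]
  exact rep_mk _

theorem rep_sub (a b : O E) : rep (a - b) =ᶠ[𝓝 0] fun z => rep a z - rep b z := by
  conv_lhs => rw [← mk_rep a, ← mk_rep b, mk_sub]
  exact rep_mk _

theorem rep_mul (a b : O E) : rep (a * b) =ᶠ[𝓝 0] fun z => rep a z * rep b z := by
  conv_lhs => rw [← mk_rep a, ← mk_rep b, mk_mul]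
  exact rep_mk _

theorem rep_isBigO (a : O E) : rep a =O[𝓝 0] fun _ => (1 : ℝ) :=
  (rep_an a).continuousAt.isBigO_one ℝ

/-- the germ is `O(eps ^ N)` along the filter -/
def OO (l : Filter (ℝ × E)) (a : O (ℝ × E)) (N : ℕ) : Prop := rep a =O[l] fun z => z.1 ^ N

variable {l : Filter (ℝ × E)}

theorem OO.add (hl : l ≤ 𝓝 0) {a b : O (ℝ × E)} {N : ℕ} (ha : OO l a N) (hb : OO l b N) :
    OO l (a + b) N := (IsBigO.add ha hb).congr' ((rep_add a b).filter_mono hl).symm EventuallyEq.rfl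

theorem OO.sub (hl : l ≤ 𝓝 0) {a b : O (ℝ × E)} {N : ℕ} (ha : OO l a N) (hb : OO l b N) :
    OO l (a - b) N := (IsBigO.sub ha hb).congr' ((rep_sub a b).filter_mono hl).symm EventuallyEq.rfl

theorem OO.mul_left (hl : l ≤ 𝓝 0) (c : O (ℝ × E)) {a : O (ℝ × E)} {N : ℕ} (ha : OO l a N) :
    OO l (c * a) N :=
  (((rep_isBigO c).mono hl).mul ha).congr' ((rep_mul c a).filter_mono hl).symm
    (Eventually.of_forall fun _ => one_mul _)

theorem OO.of_dvd (hl : l ≤ 𝓝 0) {a : O (ℝ × E)} {N : ℕ} (h : eps E ^ N ∣ a) : OO l a N := by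
  obtain ⟨c, rfl⟩ := h
  rw [mul_comm]
  refine OO.mul_left hl c ?_
  rw [eps, lin, mk_pow]
  exact (isBigO_refl _ _).congr' ((rep_mk _).filter_mono hl).symm EventuallyEq.rfl

theorem OO.congr (hl : l ≤ 𝓝 0) {a b : O (ℝ × E)} {N : ℕ} (ha : OO l a N)
    (h : eps E ^ N ∣ b - a) : OO l b N := by
  simpa using ha.add hl (OO.of_dvd hl h)

omit [NormedSpace ℝ E] in
theorem pow_isBigO (hl : l ≤ 𝓝 0) {M N : ℕ} (h : M ≤ N) :
    (fun z : ℝ × E => z.1 ^ N) =O[l] fun z => z.1 ^ M := by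
  obtain ⟨d, rfl⟩ := Nat.exists_eq_add_of_le h
  have h1 : (fun z : ℝ × E => z.1 ^ d) =O[𝓝 0] fun _ => (1 : ℝ) :=
    (continuous_fst.pow d).continuousAt.isBigO_one ℝ
  simpa [pow_add] using (isBigO_refl (fun z : ℝ × E => z.1 ^ M) l).mul (h1.mono hl)

theorem OO.mono (hl : l ≤ 𝓝 0) {a : O (ℝ × E)} {M N : ℕ} (ha : OO l a N) (h : M ≤ N) :
    OO l a M := IsBigO.trans ha (pow_isBigO hl h)

omit [NormedSpace ℝ E] in
theorem not_pow_isBigO [l.NeBot] (hl : l ≤ 𝓝 0) (hpos : ∀ᶠ z in l, 0 < z.1) (n : ℕ) :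
    ¬ (fun z : ℝ × E => z.1 ^ n) =O[l] fun z => z.1 ^ (n + 1) := by
  intro h
  obtain ⟨c, hc, h⟩ := h.exists_pos
  have h1 : ∀ᶠ z : ℝ × E in 𝓝 0, c * z.1 < 1 :=
    (continuous_const.mul continuous_fst).continuousAt.eventually_lt continuousAt_const (by simp)
  obtain ⟨z, h2, h3, h4⟩ := (h.bound.and (hpos.and (h1.filter_mono hl))).exists
  rw [Real.norm_of_nonneg (by positivity), Real.norm_of_nonneg (by positivity), pow_succ] at h2
  nlinarith [pow_pos h3 n]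

/-- series which are flat along the filter -/
def flat (l : Filter (ℝ × E)) (hl : l ≤ 𝓝 0) : Ideal (O E)⟦X⟧ where
  carrier := {h | ∀ N, OO l (tau N h) N}
  add_mem' := fun ha hb N => by
    rw [tau_add]
    exact (ha N).add hl (hb N)
  zero_mem' := fun N => OO.of_dvd hl (by simp [tau])
  smul_mem' := fun c a ha N => ((ha N).mul_left hl (tau N c)).congr hl (tau_mul N c a)

theorem mem_flat {hl : l ≤ 𝓝 0} {h : (O E)⟦X⟧} : h ∈ flat l hl ↔ ∀ N, OO l (tau N h) N :=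
  Iff.rfl

theorem X_notMem_flat [l.NeBot] (hl : l ≤ 𝓝 0) (hpos : ∀ᶠ z in l, 0 < z.1) :
    X ∉ flat l hl := by
  intro h
  have h1 := mem_flat.1 h 2
  rw [tau_X, OO, eps, lin] at h1
  refine not_pow_isBigO hl hpos 1 (h1.congr' ?_ EventuallyEq.rfl)
  simpa using (rep_mk ((ContinuousLinearMap.fst ℝ ℝ E).analyticAt 0)).filter_mono hl

theorem lower_of_notMem {U : Ultrafilter (ℝ × E)} (hl : (U : Filter (ℝ × E)) ≤ 𝓝 0)
    {h : (O E)⟦X⟧} (hh : h ∉ flat U hl) :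
    ∃ M, ∀ K, M ≤ K → ∀ᶠ z in (U : Filter (ℝ × E)), ‖z.1 ^ M‖ ≤ ‖rep (tau K h) z‖ := by
  rw [mem_flat] at hh
  push Not at hh
  obtain ⟨M, hM⟩ := hh
  refine ⟨M, fun K hK => ?_⟩
  by_contra h1
  rw [← Ultrafilter.eventually_not] at h1
  have h2 : OO U (tau K h) M := IsBigO.of_bound' (h1.mono fun z hz => (not_le.1 hz).le)
  exact hM (h2.congr hl (by simpa using (tau_mono hK h).neg_right))

theorem flat_isPrime {U : Ultrafilter (ℝ × E)} (hl : (U : Filter (ℝ × E)) ≤ 𝓝 0)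
    (hpos : ∀ᶠ z in (U : Filter (ℝ × E)), 0 < z.1) :
    (flat (U : Filter (ℝ × E)) hl).IsPrime := by
  refine ⟨fun h => X_notMem_flat hl hpos (h ▸ Submodule.mem_top), fun {a b} hab => ?_⟩
  by_contra hc
  push Not at hc
  obtain ⟨M, hM⟩ := lower_of_notMem hl hc.1
  obtain ⟨M', hM'⟩ := lower_of_notMem hl hc.2
  have h1 := (mem_flat.1 hab (M + M' + 1)).congr hl (b := tau _ a * tau _ b)
    (by simpa using (tau_mul (M + M' + 1) a b).neg_right)
  have h2 := (IsBigO.of_bound' (hM (M + M' + 1) (by omega))).mul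
    (IsBigO.of_bound' (hM' (M + M' + 1) (by omega)))
  refine not_pow_isBigO hl hpos (M + M') ?_
  simp only [← pow_add] at h2
  exact h2.trans (IsBigO.congr' h1 ((rep_mul _ _).filter_mono hl) EventuallyEq.rfl)

theorem exists_tay : ∃ T : O ℝ →ₐ[ℝ] ℝ⟦X⟧, T (mk (fun s => s) analyticAt_id) = X := by
  obtain ⟨Φ, -, -, h⟩ := exists_ev (E := ℝ) (R := ℝ) 0 (dvd_zero _)
    ((LinearMap.toSpanSingleton ℝ ℝ⟦X⟧ X) ∘ₗ (ContinuousLinearMap.apply ℝ ℝ (1 : ℝ)).toLinearMap)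
    fun l => by
      simp only [LinearMap.comp_apply, LinearMap.toSpanSingleton_apply, Algebra.smul_def]
      exact Dvd.intro_left _ rfl
  refine ⟨Φ.comp (IsScalarTower.toAlgHom ℝ (O ℝ) (O ℝ)⟦X⟧), ?_⟩
  have h1 := h (ContinuousLinearMap.id ℝ ℝ)
  simp only [LinearMap.comp_apply, ContinuousLinearMap.coe_coe, ContinuousLinearMap.apply_apply,
    ContinuousLinearMap.id_apply, LinearMap.toSpanSingleton_apply, one_smul] at h1
  exact h1

/-- the Taylor series of a germ of one variable -/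
noncomputable def tay : O ℝ →ₐ[ℝ] ℝ⟦X⟧ := exists_tay.choose

theorem tay_id : tay (mk (fun s => s) analyticAt_id) = X := exists_tay.choose_spec

theorem tay_cases {f : ℝ → ℝ} (hf : AnalyticAt ℝ f 0) : (∀ᶠ s in 𝓝 0, f s = 0) ∨
    ∃ (n : ℕ) (g : ℝ → ℝ) (v : ℝ⟦X⟧), ContinuousAt g 0 ∧ g 0 ≠ 0 ∧ IsUnit v ∧
      (∀ᶠ s in 𝓝 0, f s = s ^ n * g s) ∧ tay (mk f hf) = X ^ n * v := by
  refine or_iff_not_imp_left.2 fun h => ?_
  obtain ⟨n, g, hg, hg0, hfg⟩ := hf.exists_eventuallyEq_pow_smul_nonzero_iff.2 h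
  simp only [sub_zero, smul_eq_mul] at hfg
  refine ⟨n, g, tay (mk g hg), hg.continuousAt, hg0, ((isUnit_iff _).2 hg0).map _, hfg, ?_⟩
  rw [← tay_id, ← map_pow, ← map_mul, mk_pow, mk_mul]
  exact congrArg tay (mk_congr _ _ hfg)

theorem isBigO_of_dvd_tay {f : ℝ → ℝ} (hf : AnalyticAt ℝ f 0) {N : ℕ}
    (h : (X : ℝ⟦X⟧) ^ N ∣ tay (mk f hf)) : f =O[𝓝 0] fun s => s ^ N := by
  rcases tay_cases hf with h0 | ⟨n, g, v, hg, -, hv, hfg, ht⟩
  · exact (isBigO_zero _ _).congr' (EventuallyEq.symm h0) EventuallyEq.rfl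
  · rw [ht, hv.dvd_mul_right, pow_dvd_pow_iff X_ne_zero X_prime.not_isUnit] at h
    obtain ⟨d, rfl⟩ := Nat.exists_eq_add_of_le h
    have h1 := (isBigO_refl (fun s : ℝ => s ^ N) (𝓝 0)).mul
      (((continuous_pow d).continuousAt.mul hg).isBigO_one ℝ)
    refine h1.congr' ?_ (Eventually.of_forall fun _ => mul_one _)
    filter_upwards [hfg] with s hs
    rw [hs, pow_add, mul_assoc]
    rfl

theorem dvd_tay_of_isBigO {f : ℝ → ℝ} (hf : AnalyticAt ℝ f 0) {N : ℕ}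
    (h : f =O[𝓝[>] 0] fun s => s ^ N) : (X : ℝ⟦X⟧) ^ N ∣ tay (mk f hf) := by
  rcases tay_cases hf with h0 | ⟨n, g, v, hg, hg0, hv, hfg, ht⟩
  · rw [(mk_eq_zero_iff hf).2 h0, map_zero]
    exact dvd_zero _
  · rw [ht]
    refine Dvd.dvd.mul_right (pow_dvd_pow _ ?_) _
    by_contra hn
    obtain ⟨d, rfl⟩ := Nat.exists_eq_add_of_lt (not_le.1 hn)
    obtain ⟨c, -, h⟩ := h.exists_pos
    have h1 : ∀ᶠ s in 𝓝 (0 : ℝ), c * s ^ (d + 1) < |g s| :=
      ContinuousAt.eventually_lt (by fun_prop) hg.abs (by simpa using hg0)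
    obtain ⟨s, h2, h3, h4⟩ := (h.bound.and (((hfg.and h1).filter_mono nhdsWithin_le_nhds).and
      self_mem_nhdsWithin)).exists
    have h5 : 0 < s := h4
    rw [h3.1, norm_mul, Real.norm_of_nonneg (by positivity), Real.norm_eq_abs (g s),
      Real.norm_of_nonneg (by positivity), add_assoc, pow_add] at h2
    nlinarith [pow_pos h5 n, h3.2]

theorem an_arc {y : ℝ → E} (hy : AnalyticAt ℝ y 0) (k : ℕ) :
    AnalyticAt ℝ (fun s : ℝ => (s ^ k, y s)) 0 := (analyticAt_id.pow k).prod hy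

/-- the formal arc of an analytic arc -/
theorem exists_arc [FiniteDimensional ℝ E] {y : ℝ → E} (hy : AnalyticAt ℝ y 0) (h0 : y 0 = 0)
    {k : ℕ} (hk : 0 < k) : ∃ S : (O E)⟦X⟧ →ₐ[ℝ] ℝ⟦X⟧, Loc S ∧ S X = X ^ k ∧
      (∀ a, S (C a) = tay (pull y hy h0 a)) ∧ ∀ K h, (X : ℝ⟦X⟧) ^ (k * K) ∣ S h -
        tay (mk (fun s => rep (tau K h) (s ^ k, y s)) (AnalyticAt.comp_of_eq (rep_an _)
          (an_arc hy k) (by simp [h0, hk.ne']))) := by
  have hγ : ∀ l : E →L[ℝ] ℝ, X ∣ tay (pull y hy h0 (lin l)) := fun l => by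
    rw [← pow_one X, lin, pull_mk]
    refine dvd_tay_of_isBigO _ (IsBigO.mono ?_ nhdsWithin_le_nhds)
    simpa [h0] using ((l.analyticAt _).comp hy).differentiableAt.isBigO_sub
  let γ : (E →L[ℝ] ℝ) →ₗ[ℝ] ℝ⟦X⟧ :=
    { toFun := fun l => tay (pull y hy h0 (lin l))
      map_add' := fun l l' => by
        rw [show lin (l + l') = lin l + lin l' from rfl, map_add, map_add]
      map_smul' := fun c l => by
        rw [show lin (c • l) = c • lin l from rfl, map_smul, map_smul, RingHom.id_apply] }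
  obtain ⟨S, h1, h2, h3⟩ := exists_ev (X ^ k) (dvd_pow_self _ hk.ne') γ hγ
  have h4 : ∀ a, S (C a) = tay (pull y hy h0 a) := fun a =>
    sub_eq_zero.1 (eq_zero_of_dvd fun N => by
      rw [← Ideal.mem_span_singleton]
      exact (had_O (Module.finBasis ℝ E)).congr
        (S.comp (IsScalarTower.toAlgHom ℝ (O E) (O E)⟦X⟧)) (tay.comp (pull y hy h0))
        (J := Ideal.span {X}) (N := N) (Ideal.span_singleton_pow _ _).le
        (fun i => Ideal.mem_span_singleton.2 (h1.2 _)) (fun i => Ideal.mem_span_singleton.2 (hγ _))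
        (fun i => by
          have := sub_eq_zero.2 (h3 (crd (Module.finBasis ℝ E) i))
          exact this ▸ Ideal.zero_mem _) a)
  refine ⟨S, h1, h2, h4, fun K h => ?_⟩
  have h5 := tau_congr S.toRingHom
    (tay.comp (pull (fun s : ℝ => (s ^ k, y s)) (an_arc hy k) (by simp [h0, hk.ne']))).toRingHom
    (by
      show tay _ = S X
      rw [h2, ← tay_id, ← map_pow]
      rfl) (fun a => by
      show tay _ = S (C a)
      obtain ⟨f, hf, rfl⟩ := exists_rep a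
      rw [h4]
      rfl) K h
  rw [← mk_rep (tau K h)] at h5
  have h6 : S.toRingHom X = X ^ k := h2
  rwa [h6, ← pow_mul] at h5

theorem reparam {e : ℝ → ℝ} (he : AnalyticAt ℝ e 0) (h0 : e 0 = 0)
    (hpos : ∀ᶠ s in 𝓝[>] (0 : ℝ), 0 < e s) : ∃ (k : ℕ) (φ : ℝ → ℝ), 0 < k ∧ AnalyticAt ℝ φ 0 ∧
      φ 0 = 0 ∧ Tendsto φ (𝓝[>] 0) (𝓝[>] 0) ∧ ∀ᶠ t in 𝓝 0, e (φ t) = t ^ k := by
  obtain ⟨k, u, hu, hu0, heu⟩ := he.exists_eventuallyEq_pow_smul_nonzero_iff.2 fun h => by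
    obtain ⟨s, h1, h2⟩ := (hpos.and (h.filter_mono nhdsWithin_le_nhds)).exists
    exact h1.ne' h2
  simp only [sub_zero, smul_eq_mul] at heu
  have hk : 0 < k := Nat.pos_of_ne_zero fun h => by
    have := heu.self_of_nhds
    rw [h, pow_zero, one_mul, h0] at this
    exact hu0 this.symm
  have hup : 0 < u 0 := by
    refine lt_of_le_of_ne (ge_of_tendsto (hu.continuousAt.tendsto.mono_left
      (nhdsWithin_le_nhds (s := Set.Ioi 0))) ?_) hu0.symm
    filter_upwards [hpos, heu.filter_mono nhdsWithin_le_nhds, self_mem_nhdsWithin] with s h1 h2 h3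
    rw [h2] at h1
    exact ((mul_pos_iff_of_pos_left (pow_pos h3 k)).1 h1).le
  have hw : AnalyticAt ℝ (fun s => Real.exp (Real.log (u s) / k)) 0 :=
    ((hu.log hup).div_const).rexp'
  have hρ : AnalyticAt ℝ (fun s => s * Real.exp (Real.log (u s) / k)) 0 := analyticAt_id.mul hw
  have hd : deriv (fun s => s * Real.exp (Real.log (u s) / k)) 0 ≠ 0 := by
    rw [deriv_fun_mul differentiableAt_fun_id hw.differentiableAt]
    simp
  have h1 := hρ.analyticAt_localInverse hd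
  have h2 := hρ.hasStrictDerivAt.eventually_right_inverse hd
  have h3 : hρ.hasStrictDerivAt.localInverse _ _ _ hd _ = 0 :=
    HasStrictFDerivAt.localInverse_apply_image ..
  generalize hρ.hasStrictDerivAt.localInverse _ _ _ hd = φ at h1 h2 h3
  simp only [zero_mul] at h1 h2 h3
  have h4 := tendsto_of_an h1 h3
  refine ⟨k, φ, hk, h1, h3, tendsto_nhdsWithin_iff.2 ⟨h4.mono_left nhdsWithin_le_nhds, ?_⟩, ?_⟩
  · filter_upwards [h2.filter_mono nhdsWithin_le_nhds, self_mem_nhdsWithin] with t h5 h6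
    have h7 : 0 < t := h6
    rw [← h5] at h7
    exact (mul_pos_iff_of_pos_right (Real.exp_pos _)).1 h7
  · filter_upwards [h2, h4.eventually heu,
      h4.eventually (hu.continuousAt.eventually (lt_mem_nhds hup))] with t h5 h6 h7
    rw [h6, ← h5, mul_pow, ← Real.exp_nat_mul, mul_div_cancel₀ _ (by positivity),
      Real.exp_log h7, h5]

/-- A real formal arc on which all flat series vanish and a given non-flat series does not. -/
theorem exists_formal_arc [FiniteDimensional ℝ E] {U : Ultrafilter (ℝ × E)}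
    (hl : (U : Filter (ℝ × E)) ≤ 𝓝 0) (hpos : ∀ᶠ z in (U : Filter (ℝ × E)), 0 < z.1)
    {δ : (O E)⟦X⟧} (hδ : δ ∉ flat U hl) : ∃ (k : ℕ) (Φ : (O E)⟦X⟧ →ₐ[ℝ] ℝ⟦X⟧), 0 < k ∧ Loc Φ ∧
      Φ X = X ^ k ∧ (∀ h ∈ flat U hl, Φ h = 0) ∧ Φ δ ≠ 0 := by
  have hp := flat_isPrime hl hpos
  obtain ⟨G, w, c, hG, hw, hSA⟩ := sa_of_prime _ E rfl _ hp (X_notMem_flat hl hpos)
  obtain ⟨M, hM⟩ := lower_of_notMem hl (h := w * δ) fun h => (hp.mem_or_mem h).elim hw hδ
  obtain ⟨L, hL⟩ : ∃ L, L = (c + 1) * (M + 1) + 1 := ⟨_, rfl⟩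
  obtain ⟨K, hK⟩ : ∃ K, K = L + M + 1 := ⟨_, rfl⟩
  obtain ⟨u, hu⟩ : ∃ u : ℝ × E → ℝ, u = fun z => ∑ g ∈ G, rep (tau K g) z ^ 2 := ⟨_, rfl⟩
  obtain ⟨v, hv⟩ : ∃ v : ℝ × E → ℝ, v = rep (tau K (w * δ)) := ⟨_, rfl⟩
  have hua : AnalyticAt ℝ u 0 := hu ▸ Finset.analyticAt_fun_sum _ fun g _ => (rep_an _).pow 2
  have hva : AnalyticAt ℝ v 0 := hv ▸ rep_an _
  have hu0 : ∀ z, 0 ≤ u z := fun z => hu ▸ Finset.sum_nonneg fun g _ => sq_nonneg _
  have huO : u =O[U] fun z => z.1 ^ (2 * K) := by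
    rw [hu]
    refine IsBigO.fun_sum fun g hg => ?_
    simpa [← pow_mul, mul_comm] using IsBigO.pow (mem_flat.1 (hG g hg) K) 2
  obtain ⟨σ, hσ, hσ0, hσG⟩ := Vale.Agent.P298.H744.curve_selection
    (G := fun z : ℝ × E => u z + z.1 ^ (2 * K) - z.1 ^ (2 * L + 1) * v z ^ 2)
    ((hua.add (analyticAt_fst.pow _)).sub ((analyticAt_fst.pow _).mul (hva.pow 2))) (by
      refine Frequently.filter_mono (Eventually.frequently ?_) hl
      obtain ⟨c, hc, h⟩ := huO.exists_pos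
      have h1 : ∀ᶠ z : ℝ × E in 𝓝 0, (c + 1) * z.1 < 1 :=
        (continuous_const.mul continuous_fst).continuousAt.eventually_lt continuousAt_const
          (by simp)
      filter_upwards [h.bound, hpos, h1.filter_mono hl, hM K (by omega)] with z h2 h3 h4 h5
      rw [Real.norm_of_nonneg (hu0 z), Real.norm_of_nonneg (by positivity)] at h2
      rw [← hv, Real.norm_of_nonneg (by positivity), Real.norm_eq_abs] at h5
      have h6 : (z.1 ^ M) ^ 2 ≤ v z ^ 2 := by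
        rw [← sq_abs (v z)]
        exact pow_le_pow_left₀ (by positivity) h5 2
      have h7 : z.1 ^ (2 * K) = z.1 * (z.1 ^ (2 * L + 1) * (z.1 ^ M) ^ 2) := by
        rw [hK]
        ring
      have h8 : 0 < z.1 ^ (2 * L + 1) * (z.1 ^ M) ^ 2 := by positivity
      have h9 := mul_le_mul_of_nonneg_left h6 (pow_pos h3 (2 * L + 1)).le
      rw [h7] at h2 ⊢
      nlinarith)
  have hσ1 : ∀ᶠ s in 𝓝[>] (0 : ℝ), 0 < (σ s).1 := by
    filter_upwards [hσG] with s hs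
    by_contra h1
    have h2 : (σ s).1 ^ (2 * L + 1) ≤ 0 := (Odd.pow_nonpos_iff ⟨L, rfl⟩).2 (not_lt.1 h1)
    have h3 : 0 ≤ (σ s).1 ^ (2 * K) := (even_two_mul K).pow_nonneg _
    nlinarith [hu0 (σ s), sq_nonneg (v (σ s))]
  obtain ⟨k, φ, hk, hφ, hφ0, hφt, hφk⟩ := reparam (e := fun s => (σ s).1)
    (analyticAt_fst.comp hσ) (by rw [hσ0]; rfl) hσ1
  have hy : AnalyticAt ℝ (fun t => (σ (φ t)).2) 0 :=
    analyticAt_snd.comp (AnalyticAt.comp_of_eq hσ hφ hφ0)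
  have hy0 : (σ (φ 0)).2 = 0 := by rw [hφ0, hσ0]; rfl
  generalize hyd : (fun t => (σ (φ t)).2) = y at hy
  have hy0' : y 0 = 0 := hyd ▸ hy0
  have hG' : ∀ᶠ t in 𝓝[>] (0 : ℝ), u (t ^ k, y t) + (t ^ k) ^ (2 * K) -
      (t ^ k) ^ (2 * L + 1) * v (t ^ k, y t) ^ 2 < 0 := by
    filter_upwards [hφt.eventually hσG, hφk.filter_mono nhdsWithin_le_nhds] with t h1 h2
    have : σ (φ t) = (t ^ k, y t) := Prod.ext h2 (congrFun hyd t)
    rwa [this] at h1
  obtain ⟨S, hS, hSX, -, hS2⟩ := exists_arc hy hy0' hk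
  have harc : Tendsto (fun t : ℝ => (t ^ k, y t)) (𝓝[>] 0) (𝓝 0) :=
    (tendsto_of_an (an_arc hy k) (by simp [hy0', hk.ne'])).mono_left nhdsWithin_le_nhds
  have hm : ¬ (X : ℝ⟦X⟧) ^ (k * (M + 1) + 1) ∣ S (w * δ) := by
    intro h1
    have h2 := dvd_sub h1 (dvd_mono (hS2 K (w * δ)) (by rw [hK, hL]; nlinarith))
    rw [sub_sub_cancel] at h2
    obtain ⟨c, hc, h3⟩ := ((isBigO_of_dvd_tay _ h2).mono
      (nhdsWithin_le_nhds (s := Set.Ioi 0))).exists_pos
    have h4 : ∀ᶠ t : ℝ in 𝓝 0, c ^ 2 * (t ^ k * t ^ 2) < 1 :=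
      ContinuousAt.eventually_lt (by fun_prop) continuousAt_const (by simp)
    obtain ⟨t, h5, h6, h7, h8⟩ := (h3.bound.and (hG'.and ((h4.filter_mono nhdsWithin_le_nhds).and
      self_mem_nhdsWithin))).exists
    have h9 : 0 < t := h8
    rw [← hv, Real.norm_eq_abs, Real.norm_of_nonneg (by positivity)] at h5
    have h10 : v (t ^ k, y t) ^ 2 ≤ (c * t ^ (k * (M + 1) + 1)) ^ 2 := by
      rw [← sq_abs (v _)]
      exact pow_le_pow_left₀ (abs_nonneg _) h5 2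
    have h11 : (t ^ k) ^ (2 * L + 1) * (c * t ^ (k * (M + 1) + 1)) ^ 2 =
        c ^ 2 * (t ^ k * t ^ 2) * (t ^ k) ^ (2 * K) := by
      rw [hK]
      ring
    have h12 := mul_le_mul_of_nonneg_left h10 (by positivity : 0 ≤ (t ^ k) ^ (2 * L + 1))
    have h13 : 0 < (t ^ k) ^ (2 * K) := by positivity
    nlinarith [hu0 (t ^ k, y t)]
  obtain ⟨Φ, h1, h2, h3, h4⟩ := hSA S hS (k * (M + 1)) (k * (M + 1) + 1) (by omega)
    (fun h => hm (map_mul S w δ ▸ h.mul_right _)) fun g hg => by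
      have h1 : (fun t : ℝ => rep (tau K g) (t ^ k, y t)) =O[𝓝[>] 0] fun t => t ^ (k * L) := by
        have h2 : (fun t : ℝ => t ^ k * v (t ^ k, y t) ^ 2) =O[𝓝[>] 0] fun _ => (1 : ℝ) :=
          (harc.congr fun _ => rfl : Tendsto _ _ _) |> fun h =>
            ((analyticAt_fst.mul (hva.pow 2)).continuousAt.isBigO_one ℝ).comp_tendsto h
        refine IsBigO.of_pow two_ne_zero ?_
        refine IsBigO.trans (IsBigO.of_bound' ?_)
          (((isBigO_refl (fun t : ℝ => (t ^ (k * L)) ^ 2) _).mul h2).congr_right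
            fun _ => mul_one _)
        filter_upwards [hG', self_mem_nhdsWithin] with t h3 h4
        have h5 : 0 < t := h4
        have h6 : rep (tau K g) (t ^ k, y t) ^ 2 ≤ u (t ^ k, y t) := by
          rw [hu]
          exact Finset.single_le_sum (f := fun g => rep (tau K g) (t ^ k, y t) ^ 2)
            (fun _ _ => sq_nonneg _) hg
        rw [Pi.pow_apply, Real.norm_of_nonneg (sq_nonneg _), Real.norm_of_nonneg (by positivity)]
        have h7 : (t ^ (k * L)) ^ 2 * (t ^ k * v (t ^ k, y t) ^ 2) =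
            (t ^ k) ^ (2 * L + 1) * v (t ^ k, y t) ^ 2 := by ring
        have h8 : 0 < (t ^ k) ^ (2 * K) := by positivity
        linarith
      have h2 := dvd_add (dvd_mono (hS2 K g) (M := k * L) (by rw [hK]; nlinarith))
        (dvd_tay_of_isBigO (f := fun t : ℝ => rep (tau K g) (t ^ k, y t)) (AnalyticAt.comp_of_eq
          (rep_an _) (an_arc hy k) (by simp [hy0', hk.ne'])) h1)
      rw [sub_add_cancel] at h2
      exact dvd_mono h2 (by rw [hL]; nlinarith)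
  refine ⟨k, Φ, hk, h1, h2.trans hSX, h4, fun h5 => ?_⟩
  refine not_dvd_of_congr hm (lt_add_one _) (h3 (w * δ)) ?_
  rw [map_mul, h5, mul_zero]
  exact dvd_zero _

end Vale.Agent.P218F.Alg
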