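import Vale.Agent.P218F.AlgS

/-!
# P218 (helper61), block ALG: the differential ideal; moving an arc along the zero set
-/

open Filter Topology PowerSeries

namespace Vale.Agent.P218F.Alg

theorem exists_integral : ∃ I : Polynomial ℝ → Polynomial ℝ,
    (∀ p, Polynomial.derivative (I p) = p) ∧ ∀ p, (I p).eval 0 = 0 := by
  have : ∀ p : Polynomial ℝ, ∃ P : Polynomial ℝ, Polynomial.derivative P = p ∧ P.eval 0 = 0 := by
    intro p
    induction p using Polynomial.induction_on' with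
    | add p q hp hq =>
      obtain ⟨P, h1, h2⟩ := hp
      obtain ⟨Q, h3, h4⟩ := hq
      exact ⟨P + Q, by rw [map_add, h1, h3], by rw [Polynomial.eval_add, h2, h4, add_zero]⟩
    | monomial n a =>
      refine ⟨Polynomial.monomial (n + 1) (a / (n + 1)), ?_, by simp⟩
      rw [Polynomial.derivative_monomial_succ, div_mul_cancel₀ _ (by positivity)]
  choose I h1 h2 using this
  exact ⟨I, h1, h2⟩

theorem poly_eq_zero {P : Polynomial ℝ} (h1 : Polynomial.derivative P = 0) (h2 : P.eval 0 = 0) :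
    P = 0 := by
  rw [Polynomial.eq_C_of_derivative_eq_zero h1] at h2 ⊢
  rw [Polynomial.eval_C] at h2
  rw [h2, Polynomial.C_0]

/-- a maximal nondegenerate system in a differential ideal -/
theorem exists_max_system {D σ : Type} [CommRing D] [Fintype σ] (d : σ → D → D) (I : Ideal D)
    [hI : I.IsPrime] : ∃ (r : ℕ) (S : Fin r ↪ σ) (g : Fin r → D), (∀ l, g l ∈ I) ∧
      (Matrix.of fun i l => d (S i) (g l)).det ∉ I ∧ ∃ c : σ → Fin r → D, ∀ i ∉ Set.range S,
        ∀ h ∈ I, (Matrix.of fun i l => d (S i) (g l)).det * d i h - ∑ j, c i j * d (S j) h ∈ I := by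
  classical
  let P : ℕ → Prop := fun r => ∃ (S : Fin r ↪ σ) (g : Fin r → D), (∀ l, g l ∈ I) ∧
    (Matrix.of fun i l => d (S i) (g l)).det ∉ I
  have h0 : P 0 := ⟨Function.Embedding.ofIsEmpty, Fin.elim0, fun l => l.elim0, by
    simpa using (Ideal.ne_top_iff_one I).1 hI.ne_top⟩
  obtain ⟨S, g, hg, hδ⟩ := Nat.findGreatest_spec (P := P) (Nat.zero_le (Fintype.card σ)) h0
  have hmax : ¬ P (Nat.findGreatest P (Fintype.card σ) + 1) := fun h =>
    Nat.findGreatest_is_greatest (lt_add_one _) (by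
      obtain ⟨S', -⟩ := h
      simpa using Fintype.card_le_of_embedding S') h
  generalize Nat.findGreatest P (Fintype.card σ) = r at S g hg hδ hmax
  obtain ⟨J, hJ⟩ : ∃ J : Matrix (Fin r) (Fin r) D, J = Matrix.of fun i l => d (S i) (g l) :=
    ⟨_, rfl⟩
  refine ⟨r, S, g, hg, hδ, fun i j => ∑ l, d i (g l) * J.adjugate l j, fun i hi h hh => ?_⟩
  rw [← hJ] at hδ ⊢
  let e : Fin (r + 1) ≃ Fin r ⊕ Unit := (Fintype.equivFinOfCardEq (by simp)).symm
  have hinj : Function.Injective (Sum.elim S fun _ : Unit => i) :=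
    S.injective.sumElim (fun _ _ _ => rfl) fun a _ h => hi ⟨a, h⟩
  let v : Matrix (Fin r) Unit D := Matrix.of fun j _ => d (S j) h
  let w : Matrix Unit (Fin r) D := Matrix.of fun _ l => d i (g l)
  let M : Matrix (Fin r ⊕ Unit) (Fin r ⊕ Unit) D :=
    Matrix.fromBlocks J v w (Matrix.of fun _ _ => d i h)
  have hM : M.det ∈ I := by
    by_contra h1
    refine hmax ⟨e.toEmbedding.trans ⟨_, hinj⟩, (Sum.elim g fun _ => h) ∘ e, fun l => ?_, ?_⟩
    · rw [Function.comp_apply]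
      rcases e l with l | l
      exacts [hg l, hh]
    · rw [← Matrix.det_submatrix_equiv_self e] at h1
      convert h1 using 3
      ext a b
      simp only [Matrix.of_apply, Function.Embedding.trans_apply,
        Function.Embedding.coeFn_mk, Function.comp_apply, Matrix.submatrix_apply]
      rcases e a with a | a <;> rcases e b with b | b <;> simp [M, hJ, v, w]
  have h1 : M * Matrix.fromBlocks 1 (-(J.adjugate * v)) 0 (Matrix.of fun _ _ => J.det) =
      Matrix.fromBlocks J 0 w (Matrix.of fun _ _ =>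
        J.det * d i h - ∑ j, (∑ l, d i (g l) * J.adjugate l j) * d (S j) h) := by
    rw [Matrix.fromBlocks_multiply]
    congr 1
    · simp
    · rw [Matrix.mul_neg, ← Matrix.mul_assoc, Matrix.mul_adjugate]
      ext a b
      simp [Matrix.mul_apply, mul_comm]
    · simp
    · rw [Matrix.mul_neg, ← Matrix.mul_assoc]
      ext a b
      simp [Matrix.mul_apply, v, w]
      ring
  have h2 := congrArg Matrix.det h1
  rw [Matrix.det_mul, Matrix.det_fromBlocks_zero₁₂, Matrix.det_unique (n := Unit),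
    Matrix.of_apply] at h2
  exact (hI.mem_or_mem (h2 ▸ I.mul_mem_right _ hM)).resolve_left hδ

variable {E : Type} [NormedAddCommGroup E] [NormedSpace ℝ E] [FiniteDimensional ℝ E]

omit [FiniteDimensional ℝ E] in
theorem Loc.map {R R' : Type*} [CommRing R] [Algebra ℝ R] [CommRing R'] [Algebra ℝ R']
    {Φ : (O E)⟦X⟧ →ₐ[ℝ] R⟦X⟧} (h : Loc Φ) (f : R →ₐ[ℝ] R') : Loc ((mapAlgHom f).comp Φ) := by
  have key : ∀ u : R⟦X⟧, X ∣ u → X ∣ mapAlgHom f u := fun u hu => by
    have := map_dvd (mapAlgHom f) hu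
    rwa [mapAlgHom_apply, map_X] at this
  exact ⟨key _ h.1, fun l => key _ (h.2 l)⟩

theorem chain_rule {σ : Type} [Fintype σ] (b : Module.Basis σ ℝ E) {R : Type*} [CommRing R]
    [Algebra ℝ R] {Φ : (O E)⟦X⟧ →ₐ[ℝ] R⟦X⟧} (hΦ : Loc Φ) {D : R⟦X⟧ → R⟦X⟧}
    (hD : IsDer (AlgHom.id ℝ R⟦X⟧) D) (hX : D (Φ X) = 0) (a : (O E)⟦X⟧) :
    D (Φ a) = ∑ i, Φ (dA (b i) a) * D (Φ (C (lin (crd b i)))) := by
  classical
  refine sub_eq_zero.1 (eq_zero_of_dvd fun N => ?_)
  rw [← Ideal.mem_span_singleton, ← Ideal.span_singleton_pow]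
  refine (had_A b).der_congr (φ := Φ) (D := fun a => D (Φ a))
    (D' := fun a => ∑ i, Φ (dA (b i) a) * D (Φ (C (lin (crd b i)))))
    ⟨fun u v => by rw [map_add, hD.add], fun u v => by rw [map_mul, hD.mul]; rfl,
      fun c => by rw [AlgHom.commutes, hD.const]⟩
    ⟨fun u v => ?_, fun u v => ?_, fun c => ?_⟩ (fun o => ?_) (fun o => ?_) N a
  · simp only [(isDer_dA _).add, map_add, add_mul, Finset.sum_add_distrib]
  · simp only [(isDer_dA _).mul, map_add, map_mul, add_mul, Finset.sum_add_distrib,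
      Finset.mul_sum, AlgHom.id_apply, mul_assoc]
  · simp [(isDer_dA _).const]
  · rw [Ideal.mem_span_singleton]
    cases o
    exacts [hΦ.1, hΦ.2 _]
  · cases o with
    | none => simp [xs, hX, dA_X]
    | some j =>
      simp only [xs, Option.elim, dA_C, dO_lin, ← PowerSeries.algebraMap_apply, AlgHom.commutes]
      rw [Finset.sum_eq_single j]
      · simp [crd]
      · intro i _ hi
        simp [crd, hi]
      · simp

theorem vel_sum {σ B : Type*} [Fintype σ] [DecidableEq σ] [CommRing B] {r : ℕ} (S : Fin r → σ)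
    (κ η a : σ → B) (δ : B) (c : σ → Fin r → B) (h : ∀ i, κ i * δ = η i) :
    ∑ i, a i * (η i - ∑ j, if i = S j then ∑ i', κ i' * c i' j else 0) =
      ∑ i, κ i * (δ * a i - ∑ j, c i j * a (S j)) := by
  simp only [mul_sub, Finset.sum_sub_distrib, Finset.mul_sum, mul_ite, mul_zero]
  congr 1
  · exact Finset.sum_congr rfl fun i _ => by rw [← h]; ring
  · rw [Finset.sum_comm]
    simp only [Finset.sum_ite_eq', Finset.mem_univ, if_true]
    rw [Finset.sum_comm]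
    exact Finset.sum_congr rfl fun i _ => Finset.sum_congr rfl fun j _ => by ring

/-- the flow along the zero set, as a fixed point -/
theorem exists_flow {σ : Type} [Fintype σ] [DecidableEq σ] (b : Module.Basis σ ℝ E) {r : ℕ}
    (S : Fin r → σ) (δ : (O E)⟦X⟧) (c : σ → Fin r → (O E)⟦X⟧) {R : Type} [CommRing R]
    [Algebra ℝ R] {Φ0 : (O E)⟦X⟧ →ₐ[ℝ] R⟦X⟧} (h0 : Loc Φ0) {N0 : ℕ} {v0 : R⟦X⟧}
    (hv0 : IsUnit v0) (hδ : Φ0 δ = X ^ N0 * v0) (η : σ → R⟦X⟧) {It : R → R} (hIt : It 0 = 0) :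
    ∃ (Φ : (O E)⟦X⟧ →ₐ[ℝ] R⟦X⟧) (κ : σ → R⟦X⟧), Loc Φ ∧ Φ X = Φ0 X ∧
      (∀ h, (X : R⟦X⟧) ^ (N0 + 1) ∣ Φ h - Φ0 h) ∧ (∀ i, X * η i ∣ κ i) ∧
      (∀ i, κ i * Φ δ = X ^ (2 * N0 + 1) * η i) ∧
      ∀ i, Φ (C (lin (crd b i))) = Φ0 (C (lin (crd b i))) + PowerSeries.mk fun n => It (coeff n
        (X ^ (2 * N0 + 1) * η i - ∑ j, if i = S j then ∑ i', κ i' * Φ (c i' j) else 0)) := by
  obtain ⟨Int, hI⟩ : ∃ Int : R⟦X⟧ → R⟦X⟧, Int = fun u => PowerSeries.mk fun n => It (coeff n u) :=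
    ⟨_, rfl⟩
  have hInt : ∀ N u u', (X : R⟦X⟧) ^ N ∣ u - u' → (X : R⟦X⟧) ^ N ∣ Int u - Int u' :=
    fun N u u' h => X_pow_dvd_iff.2 fun m hm => by
      have h1 := X_pow_dvd_iff.1 h m hm
      rw [map_sub, sub_eq_zero] at h1
      simp [hI, h1]
  have hInt0 : Int 0 = 0 := by
    ext1 n
    simp [hI, hIt]
  have hInt1 : ∀ N u, (X : R⟦X⟧) ^ N ∣ u → (X : R⟦X⟧) ^ N ∣ Int u := fun N u h => by
    simpa [hInt0] using hInt N u 0 (by simpa using h)
  have hev : ∀ γ : σ → R⟦X⟧, ∃ (Φ : (O E)⟦X⟧ →ₐ[ℝ] R⟦X⟧) (V W : R⟦X⟧),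
      (∀ i, (X : R⟦X⟧) ^ (N0 + 1) ∣ γ i - Φ0 (C (lin (crd b i)))) →
      Loc Φ ∧ Φ X = Φ0 X ∧ (∀ i, Φ (C (lin (crd b i))) = γ i) ∧ Φ δ = X ^ N0 * V ∧ V * W = 1 ∧
        ∀ h, (X : R⟦X⟧) ^ (N0 + 1) ∣ Φ h - Φ0 h := by
    intro γ
    by_cases hγ : ∀ i, (X : R⟦X⟧) ^ (N0 + 1) ∣ γ i - Φ0 (C (lin (crd b i)))
    swap
    · exact ⟨Φ0, 0, 0, fun h => absurd h hγ⟩
    obtain ⟨Φ, h1, h2, h3⟩ := exists_ev_basis b _ h0.1 γ fun i => by
      have := dvd_add ((dvd_pow_self _ N0.succ_ne_zero).trans (hγ i)) (h0.2 (crd b i))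
      rwa [sub_add_cancel] at this
    have h4 := congr_basis b h1 h0 (N := N0 + 1) (by simp [h2])
      (fun i => by rw [h3]; exact hγ i)
    obtain ⟨e, he⟩ := h4 δ
    rw [hδ] at he
    have h5 : IsUnit (v0 + X * e) := by
      rwa [isUnit_iff_constantCoeff, map_add, map_mul, constantCoeff_X, zero_mul, add_zero,
        ← isUnit_iff_constantCoeff]
    obtain ⟨W, hW⟩ := h5.exists_right_inv
    exact ⟨Φ, _, W, fun _ => ⟨h1, h2, h3, by linear_combination he, hW, h4⟩⟩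
  choose ev V W hev using hev
  obtain ⟨γ, hγ, hfix⟩ := exists_fixed (fun γ i => Φ0 (C (lin (crd b i))) +
      Int (X ^ (2 * N0 + 1) * η i - ∑ j, if i = S j then
        ∑ i', X ^ (N0 + 1) * η i' * W γ * ev γ (c i' j) else 0))
    (fun i => Φ0 (C (lin (crd b i)))) (N0 + 1)
    (fun γ _ i => by
      rw [add_sub_cancel_left]
      refine hInt1 _ _ ?_
      refine dvd_sub ((pow_dvd_pow _ (by omega)).mul_right _) (Finset.dvd_sum fun j _ => ?_)
      split_ifs
      · exact Finset.dvd_sum fun i' _ => (((dvd_refl _).mul_right _).mul_right _).mul_right _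
      · exact dvd_zero _)
    (fun N γ γ' h1 h2 h3 i => by
      obtain ⟨a1, a2, a3, a4, a5, -⟩ := hev γ h1
      obtain ⟨b1, b2, b3, b4, b5, -⟩ := hev γ' h2
      have h4 := congr_basis b a1 b1 (N := N) (by simp [a2, b2]) fun i => by
        rw [a3, b3]; exact h3 i
      obtain ⟨e, he⟩ := h4 δ
      rw [a4, b4] at he
      rw [add_sub_add_left_eq_sub]
      refine hInt _ _ _ ?_
      rw [sub_sub_sub_cancel_left, ← Finset.sum_sub_distrib]
      refine Finset.dvd_sum fun j _ => ?_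
      split_ifs
      · rw [← Finset.sum_sub_distrib]
        refine Finset.dvd_sum fun i' _ => ?_
        obtain ⟨e', he'⟩ := h4 (c i' j)
        refine ⟨η i' * (W γ * W γ' * e * ev γ' (c i' j) - X ^ N0 * W γ * e'), ?_⟩
        linear_combination (X * η i' * W γ * W γ' * ev γ' (c i' j)) * he -
          (X ^ (N0 + 1) * η i' * W γ) * he' -
          (X ^ (N0 + 1) * η i' * W γ' * ev γ' (c i' j)) * a5 +
          (X ^ (N0 + 1) * η i' * W γ * ev γ' (c i' j)) * b5
      · simp)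
  obtain ⟨a1, a2, a3, a4, a5, a6⟩ := hev γ hγ
  refine ⟨ev γ, fun i => X ^ (N0 + 1) * η i * W γ, a1, a2, a6,
    fun i => ⟨X ^ N0 * W γ, by ring⟩, fun i => ?_, fun i => ?_⟩
  · rw [a4]
    linear_combination (X ^ (2 * N0 + 1) * η i) * a5
  · rw [a3, ← congrFun hfix i, hI]

theorem coeff_spec (s : ℝ) (u : (Polynomial ℝ)⟦X⟧) (n : ℕ) :
    coeff n (mapAlgHom (Polynomial.aeval s) u) = Polynomial.eval s (coeff n u) := by
  rw [mapAlgHom_apply, coeff_map]
  exact congrFun (Polynomial.coe_aeval_eq_eval s) _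

theorem coeff_inc (u : ℝ⟦X⟧) (n : ℕ) :
    coeff n (mapAlgHom (Algebra.ofId ℝ (Polynomial ℝ)) u) = Polynomial.C (coeff n u) := by
  rw [mapAlgHom_apply, coeff_map]
  rfl

/-- An arc in the zero set of a differential ideal can be moved, inside the zero set, to an arc
whose free coordinates are polynomials. -/
theorem move_arc {σ : Type} [Fintype σ] (b : Module.Basis σ ℝ E) {I : Set (O E)⟦X⟧} {r : ℕ}
    (S : Fin r ↪ σ) (δ : (O E)⟦X⟧) (c : σ → Fin r → (O E)⟦X⟧)
    (hI : ∀ i ∉ Set.range S, ∀ h ∈ I, δ * dA (b i) h - ∑ j, c i j * dA (b (S j)) h ∈ I)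
    {Φ0 : (O E)⟦X⟧ →ₐ[ℝ] ℝ⟦X⟧} (h0 : Loc Φ0) {k : ℕ} (hk : Φ0 X = X ^ k)
    (hI0 : ∀ h ∈ I, Φ0 h = 0) {N0 : ℕ} {v0 : ℝ⟦X⟧} (hv0 : IsUnit v0) (hδ : Φ0 δ = X ^ N0 * v0) :
    ∃ Φ : (O E)⟦X⟧ →ₐ[ℝ] ℝ⟦X⟧, Loc Φ ∧ Φ X = X ^ k ∧ (∀ h ∈ I, Φ h = 0) ∧
      (∀ h, (X : ℝ⟦X⟧) ^ (N0 + 1) ∣ Φ h - Φ0 h) ∧
      ∀ i ∉ Set.range S, ∀ n, 2 * N0 < n → coeff n (Φ (C (lin (crd b i)))) = 0 := by
  classical
  obtain ⟨It, hIt1, hIt2⟩ := exists_integral
  have hItC : ∀ a : ℝ, (It (Polynomial.C a)).eval 1 = a := fun a => by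
    have : It (Polynomial.C a) - Polynomial.C a * Polynomial.X = 0 :=
      poly_eq_zero (by simp [hIt1]) (by simp [hIt2])
    simp [sub_eq_zero.1 this]
  obtain ⟨η, hη1, hη2⟩ : ∃ η : σ → ℝ⟦X⟧, (∀ j, η (S j) = 0) ∧ ∀ i ∉ Set.range S, ∀ n, 2 * N0 < n →
      coeff n (Φ0 (C (lin (crd b i))) + X ^ (2 * N0 + 1) * η i) = 0 := by
    refine ⟨fun i => if i ∈ Set.range S then 0 else
      -PowerSeries.mk fun n => coeff (n + (2 * N0 + 1)) (Φ0 (C (lin (crd b i)))),
      fun j => if_pos ⟨j, rfl⟩, fun i hi n hn => ?_⟩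
    simp only [if_neg hi]
    rw [map_add, coeff_X_pow_mul', if_pos (by omega), map_neg, coeff_mk,
      Nat.sub_add_cancel (by omega), add_neg_cancel]
  have hincc := coeff_inc
  have hloc := h0.map (Algebra.ofId ℝ (Polynomial ℝ))
  have hincX : mapAlgHom (Algebra.ofId ℝ (Polynomial ℝ)) (X : ℝ⟦X⟧) = X := by
    rw [mapAlgHom_apply, map_X]
  generalize mapAlgHom (Algebra.ofId ℝ (Polynomial ℝ)) = inc at hincc hloc hincX
  obtain ⟨Φ, κ, a1, a2, a3, a4, a5, a6⟩ := exists_flow b S δ c hloc (hv0.map inc) (N0 := N0)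
    (by rw [AlgHom.comp_apply, hδ, map_mul, map_pow, hincX]) (fun i => inc (η i))
    (poly_eq_zero (hIt1 0) (hIt2 0))
  simp only [AlgHom.comp_apply] at a2 a3 a6
  rw [hk, map_pow, hincX] at a2
  have hder : IsDer (AlgHom.id ℝ (Polynomial ℝ)) fun p => Polynomial.derivative p :=
    ⟨fun u v => map_add _ u v, fun u v => by
      rw [Polynomial.derivative_mul, AlgHom.id_apply, AlgHom.id_apply]; ring, fun c => by simp⟩
  have hchain : ∀ a, (PowerSeries.mk fun n => Polynomial.derivative (coeff n (Φ a))) =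
      ∑ i, κ i * Φ (δ * dA (b i) a - ∑ j, c i j * dA (b (S j)) a) := by
    intro a
    have h1 := chain_rule b a1 hder.coeffwise (by
      ext1 n
      rw [a2, coeff_mk, coeff_X_pow]
      split_ifs <;> simp) a
    have h2 : ∀ i, (PowerSeries.mk fun n => Polynomial.derivative
        (coeff n (Φ (C (lin (crd b i)))))) = X ^ (2 * N0 + 1) * inc (η i) -
          ∑ j, if i = S j then ∑ i', κ i' * Φ (c i' j) else 0 := fun i => by
      ext1 n
      rw [a6, coeff_mk, map_add, map_add, hincc, coeff_mk, hIt1, Polynomial.derivative_C,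
        zero_add]
    simp only [h2] at h1
    rw [h1, vel_sum S κ _ _ (Φ δ) _ a5]
    simp only [map_sub, map_mul, map_sum]
  have hspX : ∀ s : ℝ, mapAlgHom (Polynomial.aeval s) (Φ X) = X ^ k := fun s => by
    rw [a2, map_pow, mapAlgHom_apply, map_X]
  have hzero : (mapAlgHom (Polynomial.aeval (0 : ℝ))).comp Φ = Φ0 := by
    refine AlgHom.ext fun h => sub_eq_zero.1 (eq_zero_of_dvd fun N =>
      congr_basis b (a1.map _) h0 (by simp [hspX, hk]) (fun i => ?_) h)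
    have : mapAlgHom (Polynomial.aeval (0 : ℝ)) (Φ (C (lin (crd b i)))) =
        Φ0 (C (lin (crd b i))) := by
      ext n
      rw [coeff_spec, a6, map_add, hincc, coeff_mk, Polynomial.eval_add, hIt2, Polynomial.eval_C,
        add_zero]
    simp [this]
  have hvan : ∀ m, ∀ h ∈ I, (X : (Polynomial ℝ)⟦X⟧) ^ m ∣ Φ h := by
    intro m
    induction m with
    | zero => simp
    | succ m ih =>
      intro h hh
      have h1 : (X : (Polynomial ℝ)⟦X⟧) ^ (m + 1) ∣
          PowerSeries.mk fun n => Polynomial.derivative (coeff n (Φ h)) := by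
        rw [hchain]
        refine Finset.dvd_sum fun i _ => ?_
        by_cases hi : i ∈ Set.range S
        · obtain ⟨j, rfl⟩ := hi
          have := a4 (S j)
          rw [hη1, map_zero, mul_zero, zero_dvd_iff] at this
          simp [this]
        · rw [pow_succ']
          exact mul_dvd_mul ((Dvd.intro _ rfl).trans (a4 i)) (ih _ (hI i hi h hh))
      refine X_pow_dvd_iff.2 fun n hn => poly_eq_zero ?_ ?_
      · simpa using X_pow_dvd_iff.1 h1 n hn
      · rw [← coeff_spec, ← AlgHom.comp_apply, hzero, hI0 h hh, map_zero]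
  refine ⟨(mapAlgHom (Polynomial.aeval (1 : ℝ))).comp Φ, a1.map _, hspX 1, fun h hh => ?_,
    fun h => ?_, fun i hi n hn => ?_⟩
  · rw [AlgHom.comp_apply, eq_zero_of_dvd fun m => hvan m h hh, map_zero]
  · refine X_pow_dvd_iff.2 fun n hn => ?_
    have h1 := X_pow_dvd_iff.1 (a3 h) n hn
    rw [map_sub, sub_eq_zero, hincc] at h1
    rw [map_sub, AlgHom.comp_apply, coeff_spec, h1, Polynomial.eval_C, sub_self]
  · rw [AlgHom.comp_apply, coeff_spec, a6,
      Finset.sum_eq_zero fun j _ => if_neg fun h => hi ⟨j, h.symm⟩, sub_zero, ← hincX, ← map_pow,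
      ← map_mul, map_add, hincc, Polynomial.eval_add, Polynomial.eval_C, coeff_mk, hincc, hItC,
      ← map_add]
    exact hη2 i hi n hn

end Vale.Agent.P218F.Alg
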