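import Vale.Agent.P218F.KDefs

/-! Block K: the statements of the leaves. -/

open Filter Topology Set Asymptotics

noncomputable section

namespace Vale.Agent.P218F.K

/-- TIP: the Stokes constant of the translating tip is not zero. -/
def TipStmt : Prop :=
  ∀ (Λ : ℝ) (sig : ℂ → ℂ) (k₀ C : ℝ), 1 ≤ Λ → DifferentiableOn ℂ sig {s | Λ < s.re} →
    (∀ s : ℂ, Λ < s.re → ‖sig s - 2 * s - Complex.log (2 * s) - k₀‖ ≤ C * ‖s‖ ^ (-3 / 4 : ℝ)) →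
    TipChar Λ sig → TipNondeg sig

/-- K-B (1): the limit function inherits holomorphy and the asymptotic formula. -/
def SigStmt : Prop :=
  ∀ (R₀ Λ : ℝ) (Y : ℝ → ℂ → ℂ) (sig : ℂ → ℂ), SymData R₀ Λ Y sig →
    DifferentiableOn ℂ sig {s | Λ < s.re} ∧ ∃ k₀ C : ℝ, ∀ s : ℂ, Λ < s.re →
      ‖sig s - 2 * s - Complex.log (2 * s) - k₀‖ ≤ C * ‖s‖ ^ (-3 / 4 : ℝ)

/-- K-B (2): Cauchy estimates for the boundary term. -/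
def BStmt : Prop :=
  ∀ (R₀ Λ : ℝ) (Y : ℝ → ℂ → ℂ) (sig : ℂ → ℂ), SymData R₀ Λ Y sig → BOut Y sig

/-- K-TA: a family converging like `exp (-R²/4)` has an expansion in the end parameters. -/
def TAStmt : Prop :=
  ∀ (ι κ : Type) [Fintype ι] [Fintype κ] (r₀ Λ R₀ : ℝ) (F : ℝ → (ι ⊕ κ → ℂ) → ℂ), Big Λ R₀ →
    ExpFam r₀ Λ R₀ F → ∃ P : ℕ → (ι ⊕ κ → ℂ) → ℂ, IsExp r₀ Λ R₀ F P ∧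
      ((∀ R, R₀ ≤ R → ∀ x ∈ Dom ι κ r₀ Λ R, IsRe x → (F R x).im = 0) →
        ∀ n, ∀ x ∈ St ι κ r₀, IsRe x → (P n x).im = 0)

/-- K-RING (1): a family with an expansion, read in the blow-up chart. -/
def ChartStmt : Prop :=
  ∀ (ι κ : Type) [Fintype ι] [Fintype κ] (r₀ r₁ Λ R₀ : ℝ) (ls : κ → ℝ)
    (F : ℝ → (ι ⊕ κ → ℂ) → ℂ) (P : ℕ → (ι ⊕ κ → ℂ) → ℂ), Big Λ R₀ → ‖ls‖ = 1 → 0 < r₁ →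
    r₁ ≤ r₀ → r₁ ≤ 1 / 2 → ExpFam r₀ Λ R₀ F → IsExp r₀ Λ R₀ F P →
    ∃ A : ℕ, Fam ls r₁ Λ R₀ A (fun R p => F R (chart ls p)) fun n y => P n (shift ls y)

/-- K-RING (2): the families with real expansions form a differential ring. -/
def RingStmt : Prop :=
  ∀ (ι κ : Type) [Fintype ι] [Fintype κ] [DecidableEq (ι ⊕ κ)] (r₁ Λ R₀ : ℝ) (ls : κ → ℝ),
    Big Λ R₀ → ‖ls‖ = 1 → 0 < r₁ → r₁ ≤ 1 / 2 →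
    ∃ (D : Subring (ℝ → ℂ × (ι ⊕ κ → ℂ) → ℂ)) (d : ι ⊕ κ → D → D)
      (ex : D → ℕ → (ι ⊕ κ → ℂ) → ℂ), ExRing d ex ∧
      (∀ F : D, ∃ A₀ : ℕ, ∀ A, A₀ ≤ A → Fam ls r₁ Λ R₀ A F.1 (ex F)) ∧
      (∀ i (F : D), (d i F).1 = fun R p => fderiv ℂ (F.1 R) p (0, Pi.single i 1)) ∧
      ∀ (A : ℕ) (F : ℝ → ℂ × (ι ⊕ κ → ℂ) → ℂ) (H : ℕ → (ι ⊕ κ → ℂ) → ℂ),
        Fam ls r₁ Λ R₀ A F H → (∀ n, ∀ y ∈ Metric.ball (0 : ι ⊕ κ → ℂ) r₁, IsRe y → (H n y).im = 0) →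
        ∃ hF : F ∈ D, ∀ n, EqOn (ex ⟨F, hF⟩ n) (H n) (Metric.ball 0 r₁)

/-- ALG: either a Lojasiewicz inequality in the chart, or a real formal arc cut out
transversally. -/
def ArcStmt : Prop :=
  ∀ (σ τ D : Type) [Fintype σ] [DecidableEq σ] [Fintype τ] [CommRing D] (d : σ → D → D)
    (ex : D → ℕ → (σ → ℂ) → ℂ), ExRing d ex → ∀ h : τ → D,
    (∃ (M : ℕ) (C : ℝ), ∀ᶠ q : ℝ × (σ → ℝ) in 𝓝 0, 0 < q.1 →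
      q.1 ^ M ≤ C * ∑ i, ‖tr (ex (h i)) (M + 1) q.1 (ofRe q.2)‖) ∨
    ∃ (k r N₀ N₁ : ℕ) (S : Fin r ↪ σ) (g : Fin r → D) (a : ℕ → σ → ℝ), 0 < k ∧ a 0 = 0 ∧
      (∀ n, N₁ < n → ∀ i, i ∉ range S → a n i = 0) ∧ (∀ i, FlatOn (ex (h i)) k a) ∧
      (∀ l, FlatOn (ex (g l)) k a) ∧
      OrdOn (ex (Matrix.det (Matrix.of fun i l => d (S i) (g l)))) k a N₀

/-- K-NEWTON: realisation of a transversally cut out formal arc. -/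
def NewtonStmt : Prop :=
  ∀ (ι κ : Type) [Fintype ι] [Fintype κ] [DecidableEq (ι ⊕ κ)] (r₁ Λ R₀ : ℝ) (ls : κ → ℝ)
    (A k r N₀ N₁ : ℕ) (S : Fin r ↪ ι ⊕ κ) (g : Fin r → ℝ → ℂ × (ι ⊕ κ → ℂ) → ℂ)
    (Hg : Fin r → ℕ → (ι ⊕ κ → ℂ) → ℂ) (Hd : ℕ → (ι ⊕ κ → ℂ) → ℂ) (a : ℕ → ι ⊕ κ → ℝ),
    Big Λ R₀ → ‖ls‖ = 1 → 0 < r₁ → r₁ ≤ 1 / 2 → (∀ l, Fam ls r₁ Λ R₀ A (g l) (Hg l)) →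
    Fam ls r₁ Λ R₀ A (fun R p => Matrix.det
      (Matrix.of fun i l => fderiv ℂ (g l R) p (0, Pi.single (S i) 1))) Hd →
    0 < k → a 0 = 0 → (∀ n, N₁ < n → ∀ i, i ∉ range S → a n i = 0) →
    (∀ l, FlatOn (Hg l) k a) → OrdOn Hd k a N₀ →
    ∃ (K : ℕ) (y : ℝ → ℂ → (ι ⊕ κ → ℂ)), NewtonData ls r₁ Λ k a K y

/-- the integrated form of the derivative in `R` -/
def JumpStmt : Prop :=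
  ∀ (ι κ τ : Type) [Fintype ι] [Fintype κ] [Fintype τ] (r₀ Λ Λ' R₀ : ℝ)
    (f : ℝ → (ι ⊕ κ → ℂ) → ℂ) (G : ℝ → (ι ⊕ κ → ℂ) → (τ → ℂ)) (φ : κ → (ι ⊕ κ → ℂ) → ℂ)
    (Y : ℝ → ℂ → ℂ) (sig : ℂ → ℂ), KData r₀ Λ Λ' R₀ f G φ Y sig →
    JumpOut r₀ Λ f φ Y ∧ ExpFam r₀ Λ R₀ f

/-- K-REAL: the reduced functions along the realised arc. -/
def RealStmt : Prop :=
  ∀ (ι κ τ : Type) [Fintype ι] [Fintype κ] [Fintype τ] (r₀ r₁ Λ Λ' R₀ : ℝ)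
    (f : ℝ → (ι ⊕ κ → ℂ) → ℂ) (G : ℝ → (ι ⊕ κ → ℂ) → (τ → ℂ)) (φ : κ → (ι ⊕ κ → ℂ) → ℂ)
    (Y : ℝ → ℂ → ℂ) (sig : ℂ → ℂ) (PG : τ → ℕ → (ι ⊕ κ → ℂ) → ℂ) (Pf : ℕ → (ι ⊕ κ → ℂ) → ℂ)
    (ls : κ → ℝ) (k K : ℕ) (a : ℕ → ι ⊕ κ → ℝ) (y : ℝ → ℂ → (ι ⊕ κ → ℂ)),
    KData r₀ Λ Λ' R₀ f G φ Y sig → JumpOut r₀ Λ f φ Y →
    (∀ i, IsExp r₀ Λ R₀ (fun R x => G R x i) (PG i)) → IsExp r₀ Λ R₀ f Pf →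
    ‖ls‖ = 1 → 0 < r₁ → r₁ ≤ r₀ → r₁ ≤ 1 / 2 → 0 < k → a 0 = 0 →
    (∀ i, FlatOn (fun n z => PG i n (shift ls z)) k a) → NewtonData ls r₁ Λ k a K y →
    EndArc k ls (fun i t => φ i (chart ls (t ^ k, arc a K t))) ∧
      ∃ (Λ₁ : ℝ) (ψ : ℕ → ℂ → ℂ),
        StokesData Λ₁ Y k (fun i t => φ i (chart ls (t ^ k, arc a K t))) ψ

/-- K-MU: flat functions with exponentially small jumps are exponentially small. -/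
def MuStmt : Prop :=
  ∀ (n : ℕ) (A : ℕ → Set ℂ) (ψ : ℕ → ℂ → ℂ), 0 < n →
    (∀ a : ℝ, a < 2 → ∀ᶠ j : ℕ in atTop, ∀ t : ℂ, 1 / (4 * (j : ℝ)) < ‖t‖ ^ n →
      ‖t‖ ^ n < a / j → t ∈ A j) →
    (∀ᶠ i : ℕ in atTop, ∀ j, i ≤ j → ∀ t ∈ A j, 1 / (4 * (i : ℝ)) < ‖t‖ ^ n →
      ‖t‖ ^ n < 3 / (i : ℝ) → t ∈ A i) →
    (∀ᶠ j in atTop, DifferentiableOn ℂ (ψ j) (A j)) →
    (∀ M : ℕ, ∃ C : ℝ, ∀ᶠ j in atTop, ∀ t ∈ A j, ‖ψ j t‖ ≤ C / (j : ℝ) ^ M) →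
    (∃ C : ℝ, ∀ᶠ j in atTop, ∀ t ∈ A j, t ∈ A (j + 1) →
      ‖ψ (j + 1) t - ψ j t‖ ≤ C * Real.exp (-(j : ℝ) / 4)) →
    ∀ μ : ℝ, μ < 1 / 4 → ∃ δ C : ℝ, 0 < δ ∧ ∀ᶠ j : ℕ in atTop, ∀ t ∈ A j,
      1 / (2 * (j : ℝ)) ≤ ‖t‖ ^ n → ‖t‖ ^ n ≤ (2 + δ) / j → ‖ψ j t‖ ≤ C * Real.exp (-μ * j)

/-- K-NF: normal form of the end parameters along the arc. -/
def NFStmt : Prop :=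
  ∀ (κ : Type) [Fintype κ] (n : ℕ) (ls : κ → ℝ) (p : κ → ℂ → ℂ), EndArc n ls p →
    ∃ (κ₀ ω₀ : ℝ) (tO : ℂ → ℂ), 0 < κ₀ ∧ κ₀ ≤ 1 / 2 ∧ DifferentiableOn ℂ tO (Sec ω₀ κ₀) ∧
      Tendsto (fun ω => ‖tO ω‖ ^ n * ‖ω‖ ^ 2) (atSec κ₀) (𝓝 1) ∧
      (∃ i k, Tied κ₀ (fun ω => p i (tO ω)) 0 k) ∧
      (∀ i, ∃ μ : ℝ, |μ| ≤ 1 ∧ Tendsto (fun ω => p i (tO ω) * ω ^ 2) (atSec κ₀) (𝓝 (-(μ : ℂ)))) ∧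
      ∀ i, (∃ a k, Tied κ₀ (fun ω => p i (tO ω)) a k) ∨ Lost κ₀ fun ω => p i (tO ω)

/-- K-RECT (1): Cauchy's theorem on a staircase of rectangles. -/
def RectStmt : Prop :=
  ∀ (Ψ : ℕ → ℂ → ℂ) (Λ₂ κ₁ B : ℝ), 0 ≤ Λ₂ → 0 < κ₁ → 8 ≤ B →
    (∀ᶠ j in atTop, DifferentiableOn ℂ (Ψ j) (Rect Λ₂ κ₁ j)) →
    (∀ μ : ℝ, μ < 1 / 4 → ∃ C : ℝ, ∀ᶠ j : ℕ in atTop, ∀ ω ∈ Rect Λ₂ κ₁ j,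
      ‖Ψ j ω‖ ≤ C * Real.exp (-μ * j)) →
    Tendsto (cSum Λ₂ κ₁ B fun j β => Ψ (j + 1) (pt (al Λ₂ √((j : ℝ) + 1)) β) -
      Ψ j (pt (al Λ₂ √((j : ℝ) + 1)) β)) atTop (𝓝 0)

/-- K-RECT (2): the errors of the jump formula do not contribute. -/
def ErrStmt : Prop :=
  ∀ (E : ℕ → ℝ → ℂ) (η : ℕ → ℝ) (W : ℕ → ℝ → ℝ) (Λ₂ κ₁ B C : ℝ), 0 ≤ Λ₂ → 0 < κ₁ → 8 ≤ B →
    Tendsto η atTop (𝓝 0) →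
    (∀ᶠ j : ℕ in atTop,
      ContinuousOn (W j) (Icc (-(κ₁ * al Λ₂ √((j : ℝ) + 1))) (κ₁ * al Λ₂ √((j : ℝ) + 1))) ∧
      (∫ β in (-(κ₁ * al Λ₂ √((j : ℝ) + 1)))..(κ₁ * al Λ₂ √((j : ℝ) + 1)),
        W j β * Real.exp (-(3 / 8) * β ^ 2)) ≤ C ∧
      ∀ β : ℝ, |β| ≤ κ₁ * al Λ₂ √((j : ℝ) + 1) → 0 ≤ W j β ∧
        ‖E j β‖ ≤ η j * Real.exp (-(j : ℝ) / 4) / (j : ℝ) ^ (3 / 2 : ℝ) * W j β) →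
    Tendsto (cSum Λ₂ κ₁ B E) atTop (𝓝 0)

/-- K-WT: the weight of the error is integrable along the contours. -/
def WtStmt : Prop :=
  ∀ (P : ℂ → ℂ) (μ ω₀ κ₀ κ₁ Λ₂ : ℝ), DifferentiableOn ℂ P (Sec ω₀ κ₀) → |μ| ≤ 1 →
    Tendsto (fun ω => P ω * ω ^ 2) (atSec κ₀) (𝓝 (-(μ : ℂ))) → 0 < κ₁ → κ₁ < κ₀ → κ₀ ≤ 1 / 2 →
    0 ≤ Λ₂ → (∀ᶠ j : ℕ in atTop, ∀ β : ℝ, |β| ≤ κ₁ * al Λ₂ √((j : ℝ) + 1) →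
      1 ≤ (sOf √(j : ℝ) (P (pt (al Λ₂ √((j : ℝ) + 1)) β))).re) →
    ∃ C : ℝ, ∀ᶠ j : ℕ in atTop,
      (∫ β in (-(κ₁ * al Λ₂ √((j : ℝ) + 1)))..(κ₁ * al Λ₂ √((j : ℝ) + 1)),
        (j : ℝ) ^ (1 / 4 : ℝ) *
          ‖sOf √(j : ℝ) (P (pt (al Λ₂ √((j : ℝ) + 1)) β))‖ ^ (-(1 / 2) : ℝ) *
          Real.exp (-(3 / 8) * β ^ 2)) ≤ C

/-- K-J: the contour integral of a tied end (two integrations by parts). -/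
def JStmt : Prop :=
  ∀ (Y : ℝ → ℂ → ℂ) (sig P : ℂ → ℂ) (I₀ : ℂ) (κ₀ a k : ℝ), BOut Y sig → TipConst sig I₀ →
    0 < κ₀ → κ₀ ≤ 1 / 2 → Tied κ₀ P a k → ∃ Λ₃ : ℝ, ∀ Λ₂ κ₁ B : ℝ, Λ₃ ≤ Λ₂ → 0 < κ₁ → κ₁ < κ₀ →
      8 ≤ B → JOut Y P a k I₀ Λ₂ κ₁ B

/-- K-SUM (1): lost ends do not contribute. -/
def LEndStmt : Prop :=
  ∀ (R₀ Λ : ℝ) (Y : ℝ → ℂ → ℂ) (sig P : ℂ → ℂ) (κ₀ Λ₂ κ₁ B : ℝ), SymData R₀ Λ Y sig →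
    0 < κ₀ → κ₀ ≤ 1 / 2 → Lost κ₀ P → 0 ≤ Λ₂ → 0 < κ₁ → κ₁ < κ₀ → 8 ≤ B →
    Tendsto (cSum Λ₂ κ₁ B (endJ Y P Λ₂)) atTop (𝓝 0)

/-- K-SUM (2): the contribution of a tied end. -/
def TSumStmt : Prop :=
  ∀ (R₀ Λ : ℝ) (Y : ℝ → ℂ → ℂ) (sig P : ℂ → ℂ) (κ₀ a k : ℝ), SymData R₀ Λ Y sig →
    0 < κ₀ → κ₀ ≤ 1 / 2 → Tied κ₀ P a k → ∃ Λ₃ : ℝ, ∀ (Λ₂ κ₁ B : ℝ) (I₀ : ℂ), Λ₃ ≤ Λ₂ →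
      0 < κ₁ → κ₁ < κ₀ → 8 ≤ B → JOut Y P a k I₀ Λ₂ κ₁ B →
      Tendsto (fun N : ℕ => cSum Λ₂ κ₁ B (endJ Y P Λ₂) N *
        Complex.exp (-(Complex.I * a * √(2 * (N : ℝ)) / 2))) atTop
        (𝓝 ((8 * Real.pi * √(Real.pi * B) *
          Real.exp (k / 2 + a ^ 2 / 8 - a ^ 2 * B / 16) : ℝ) * I₀))

/-- The Stokes argument: no flat family with these jumps exists. -/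
def StokesStmt : Prop :=
  ∀ (κ : Type) [Fintype κ] (R₀ Λ' Λ : ℝ) (Y : ℝ → ℂ → ℂ) (sig : ℂ → ℂ) (n : ℕ) (ls : κ → ℝ)
    (p : κ → ℂ → ℂ) (ψ : ℕ → ℂ → ℂ), SymData R₀ Λ' Y sig → TipNondeg sig → EndArc n ls p →
    StokesData Λ Y n p ψ → False

/-- K-KL (1): compactness of the sphere of directions. -/
def CKStmt : Prop :=
  ∀ (ι κ τ : Type) [Fintype ι] [Fintype κ] [Fintype τ] (r₀ Λ R₀ : ℝ)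
    (G : ℝ → (ι ⊕ κ → ℂ) → (τ → ℂ)) (PG : τ → ℕ → (ι ⊕ κ → ℂ) → ℂ), 0 < r₀ → Big Λ R₀ →
    (∀ i, IsExp r₀ Λ R₀ (fun R x => G R x i) (PG i)) →
    (∀ ls : κ → ℝ, ‖ls‖ = 1 → ∃ (M : ℕ) (C : ℝ), ∀ᶠ q : ℝ × (ι ⊕ κ → ℝ) in 𝓝 0, 0 < q.1 →
      q.1 ^ M ≤ C * ∑ i, ‖tr (fun n z => PG i n (shift ls z)) (M + 1) q.1 (ofRe q.2)‖) →
    ClaimK R₀ G

/-- the gradient inequality for holomorphic functions (`Loj.lojC`) -/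
def LojStmt : Prop :=
  ∀ (σ : Type) [Fintype σ] (g : (σ → ℂ) → ℂ), AnalyticAt ℂ g 0 → ∃ θ C : ℝ, 0 < θ ∧ θ < 1 ∧
    0 < C ∧ ∀ᶠ x in 𝓝 0, ‖g x - g 0‖ ^ θ ≤ C * ‖fderiv ℂ g x‖

/-- K-KL (2): the gradient inequality for the family. -/
def KLStmt : Prop :=
  LojStmt → ∀ (ι κ τ : Type) [Fintype ι] [Fintype κ] [Fintype τ] (r₀ Λ R₀ : ℝ)
    (f : ℝ → (ι ⊕ κ → ℂ) → ℂ) (G : ℝ → (ι ⊕ κ → ℂ) → (τ → ℂ)) (Pf : ℕ → (ι ⊕ κ → ℂ) → ℂ),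
    0 < r₀ → Big Λ R₀ → ExpFam r₀ Λ R₀ G → ExpFam r₀ Λ R₀ f → IsExp r₀ Λ R₀ f Pf →
    (∃ (C : ℝ) (A : ℕ), ∀ R, R₀ ≤ R → ∀ x ∈ Dom ι κ r₀ Λ R,
      ‖fderiv ℂ (f R) x‖ ≤ C * R ^ A * ‖G R x‖) →
    ClaimK R₀ G → KOut R₀ f G

end Vale.Agent.P218F.K
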