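import Vale.Agent.P218F.AlgC
import Vale.Agent.P218F.AlgD
import Vale.Agent.P218F.KSpec

/-!
# P218 (helper61), block ALG: proof of `K.ArcStmt`
-/

open Filter Topology PowerSeries Asymptotics

namespace Vale.Agent.P218F.Alg

open Vale.Agent.P218F.K

theorem isBigO_complex {F : ℂ → ℂ} (hF : AnalyticAt ℂ F 0) {N : ℕ}
    (h : (fun s : ℝ => F s) =O[𝓝 0] fun s => s ^ N) : F =O[𝓝 0] fun t => t ^ N := by
  by_cases h0 : ∀ᶠ t in 𝓝 0, F t = 0
  · exact (isBigO_zero _ _).congr' (EventuallyEq.symm h0) EventuallyEq.rfl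
  obtain ⟨n, g, hg, hg0, hfg⟩ := hF.exists_eventuallyEq_pow_smul_nonzero_iff.2 h0
  simp only [sub_zero, smul_eq_mul] at hfg
  have hN : N ≤ n := by
    by_contra hn
    obtain ⟨d, rfl⟩ := Nat.exists_eq_add_of_lt (not_le.1 hn)
    obtain ⟨c, -, h⟩ := h.exists_pos
    have ht : Tendsto (fun s : ℝ => (s : ℂ)) (𝓝 0) (𝓝 0) :=
      Complex.continuous_ofReal.tendsto' 0 0 rfl
    have h1 : ∀ᶠ s : ℝ in 𝓝 0, c * s ^ (d + 1) < ‖g s‖ :=
      Tendsto.eventually_lt (((continuous_pow (d + 1)).const_mul c).tendsto 0)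
        (hg.continuousAt.tendsto.comp ht).norm (by simpa using hg0)
    obtain ⟨s, ⟨h2, h3, h4⟩, h5⟩ := (((h.bound.and ((ht.eventually hfg).and h1)).filter_mono
      (nhdsWithin_le_nhds (s := Set.Ioi 0))).and self_mem_nhdsWithin).exists
    have h6 : 0 < s := h5
    rw [h3, norm_mul, norm_pow, Complex.norm_real, Real.norm_of_nonneg h6.le,
      Real.norm_of_nonneg (by positivity), add_assoc, pow_add] at h2
    nlinarith [pow_pos h6 n]
  obtain ⟨d, rfl⟩ := Nat.exists_eq_add_of_le hN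
  have h1 := (isBigO_refl (fun s : ℂ => s ^ N) (𝓝 0)).mul
    (((continuous_pow d).continuousAt.mul hg.continuousAt).isBigO_one ℂ)
  refine h1.congr' ?_ (Eventually.of_forall fun _ => mul_one _)
  filter_upwards [hfg] with s hs
  rw [hs, pow_add, mul_assoc]
  rfl

theorem isBigO_of_dvd_tay_sub {f g : ℝ → ℝ} {hf : AnalyticAt ℝ f 0} {hg : AnalyticAt ℝ g 0}
    {N : ℕ} (h : (X : ℝ⟦X⟧) ^ N ∣ tay (mk f hf - mk g hg)) :
    (fun s => f s - g s) =O[𝓝 0] fun s => s ^ N := isBigO_of_dvd_tay (hf.sub hg) h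

theorem tau_mk {E : Type} [NormedAddCommGroup E] [NormedSpace ℝ E] (f : ℕ → E → ℝ)
    (hf : ∀ n, AnalyticAt ℝ (f n) 0) (N : ℕ) :
    rep (tau N (PowerSeries.mk fun n => mk (f n) (hf n))) =ᶠ[𝓝 0]
      fun z => ∑ n ∈ Finset.range N, z.1 ^ n * f n z.2 := by
  rw [tau, polyO, Polynomial.coe_eval₂RingHom, eval₂_trunc_eq_sum_range]
  simp only [coeff_mk, eps, lin, AlgHom.toRingHom_eq_coe, RingHom.coe_coe, pullL, pull_mk, mk_pow,
    mk_mul]
  rw [mk_sum]
  refine (rep_mk _).trans (Eventually.of_forall fun z => ?_)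
  exact Finset.sum_congr rfl fun n _ => mul_comm _ _

theorem exists_ultra {E τ : Type} [NormedAddCommGroup E] [NormedSpace ℝ E] [Fintype τ]
    (h : τ → (O E)⟦X⟧) (hf : ∀ M, ∃ᶠ z : ℝ × E in 𝓝 0, 0 < z.1 ∧
      ∀ i, ‖rep (tau (M + 1) (h i)) z‖ ≤ z.1 ^ M) :
    ∃ (U : Ultrafilter (ℝ × E)) (hl : (U : Filter (ℝ × E)) ≤ 𝓝 0),
      (∀ᶠ z in (U : Filter (ℝ × E)), 0 < z.1) ∧ ∀ i, h i ∈ flat U hl := by
  let T : ℕ → Set (ℝ × E) := fun M => {z | 0 < z.1 ∧
    ∀ i, ∀ m ≤ M, ‖rep (tau (m + 1) (h i)) z‖ ≤ 2 * ‖z.1 ^ m‖}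
  have hT : ∀ M, (𝓝 (0 : ℝ × E) ⊓ 𝓟 (T M)).NeBot := by
    intro M
    refine frequently_iff_neBot.1 ?_
    have h1 : ∀ᶠ z : ℝ × E in 𝓝 0, ∀ i, ∀ m ∈ Finset.range (M + 1),
        ‖rep (tau (M + 1) (h i)) z - rep (tau (m + 1) (h i)) z‖ ≤ ‖z.1 ^ m‖ := by
      refine eventually_all.2 fun i => (eventually_all_finset _).2 fun m hm => ?_
      have h2 := OO.of_dvd le_rfl (tau_mono (M := m + 1) (N := M + 1)
        (by simpa using hm) (h i))
      have h3 := (isLittleO_pow_pow (𝕜 := ℝ) m.lt_succ_self).comp_tendsto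
        (continuous_fst.tendsto (0 : ℝ × E))
      filter_upwards [(IsBigO.trans_isLittleO h2 h3).eventuallyLE, rep_sub _ _] with z h4 h5
      rwa [h5] at h4
    have h2 : ∀ᶠ z : ℝ × E in 𝓝 0, z.1 < 1 :=
      continuous_fst.continuousAt.eventually_lt continuousAt_const (by simp)
    refine ((hf M).and_eventually (h1.and h2)).mono fun z ⟨⟨h3, h4⟩, h5, h6⟩ => ⟨h3, ?_⟩
    intro i m hm
    have h7 := h5 i m (Finset.mem_range.2 (by omega))
    have h8 := (h4 i).trans (pow_le_pow_of_le_one h3.le h6.le hm)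
    have h9 := norm_sub_norm_le (rep (tau (m + 1) (h i)) z) (rep (tau (M + 1) (h i)) z)
    rw [norm_sub_rev] at h9
    rw [Real.norm_of_nonneg (by positivity : 0 ≤ z.1 ^ m)] at h7 ⊢
    linarith
  have hne : (⨅ M, 𝓝 (0 : ℝ × E) ⊓ 𝓟 (T M)).NeBot := by
    refine iInf_neBot_of_directed (Antitone.directed_ge fun M M' hM => ?_) hT
    exact inf_le_inf_left _ (principal_mono.2 fun z hz => ⟨hz.1, fun i m hm =>
      hz.2 i m (hm.trans hM)⟩)
  have hU := fun M => (Ultrafilter.of_le (⨅ M, 𝓝 (0 : ℝ × E) ⊓ 𝓟 (T M))).trans (iInf_le _ M)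
  generalize Ultrafilter.of (⨅ M, 𝓝 (0 : ℝ × E) ⊓ 𝓟 (T M)) = U at hU
  have hl := (hU 0).trans inf_le_left
  have hUT := fun M => le_principal_iff.1 ((hU M).trans inf_le_right)
  refine ⟨_, hl, mem_of_superset (hUT 0) fun z hz => hz.1, fun i => mem_flat.2 fun N => ?_⟩
  have h1 : OO U (tau (N + 1) (h i)) N :=
    IsBigO.of_bound 2 (mem_of_superset (hUT N) fun z hz => hz.2 i N le_rfl)
  exact h1.congr hl (by simpa using (tau_mono N.le_succ (h i)).neg_right)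

variable {σ D : Type} [Fintype σ] [DecidableEq σ] [CommRing D] {d : σ → D → D}
  {ex : D → ℕ → (σ → ℂ) → ℂ}

/-- the inclusion of real points -/
noncomputable def ofReL (σ : Type) [Fintype σ] : (σ → ℝ) →L[ℝ] (σ → ℂ) :=
  ContinuousLinearMap.pi fun j => Complex.ofRealCLM ∘L ContinuousLinearMap.proj j

omit [DecidableEq σ] in
theorem tendsto_ofRe : Tendsto (ofRe : (σ → ℝ) → σ → ℂ) (𝓝 0) (𝓝 0) :=
  (ofReL σ).continuous.tendsto' 0 0 (ofReL σ).map_zero

theorem an_re (H : ExRing d ex) (h : D) (n : ℕ) :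
    AnalyticAt ℝ (fun y : σ → ℝ => (ex h n (ofRe y)).re) 0 :=
  (Complex.reCLM.analyticAt _).comp (AnalyticAt.comp_of_eq (H.ana h n).restrictScalars
    ((ofReL σ).analyticAt 0) (ofReL σ).map_zero)

/-- the homomorphism to series of real germs -/
noncomputable def theta (H : ExRing d ex) : D →+* (O (σ → ℝ))⟦X⟧ :=
  RingHom.mk'
    { toFun := fun h => PowerSeries.mk fun n => mk _ (an_re H h n)
      map_one' := by
        ext n
        rw [coeff_mk, coeff_one]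
        have h1 := tendsto_ofRe.eventually (H.one n)
        split_ifs with hn
        · exact mk_congr _ _ (h1.mono fun y hy => by rw [hy]; simp [hn])
        · exact mk_congr _ _ (h1.mono fun y hy => by simp [hy, hn])
      map_mul' := fun a b => by
        ext n
        simp only [coeff_mk, coeff_mul, mk_mul]
        rw [mk_sum]
        refine mk_congr _ _ ?_
        filter_upwards [tendsto_ofRe.eventually (H.mul a b n), (eventually_all_finset
          (Finset.HasAntidiagonal.antidiagonal n)).2 fun q _ => H.re a q.1] with y h1 h2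
        rw [h1, Complex.re_sum]
        exact Finset.sum_congr rfl fun q hq => by rw [Complex.mul_re, h2 q hq, zero_mul, sub_zero] }
    fun a b => by
      ext n
      simp only [MonoidHom.coe_mk, OneHom.coe_mk, coeff_mk, map_add, mk_add]
      exact mk_congr _ _ ((tendsto_ofRe.eventually (H.add a b n)).mono fun y hy => by
        rw [hy, Complex.add_re])

theorem theta_apply (H : ExRing d ex) (h : D) :
    theta H h = PowerSeries.mk fun n => mk _ (an_re H h n) := rfl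

theorem theta_d (H : ExRing d ex) (i : σ) (h : D) :
    theta H (d i h) = dA (Pi.basisFun ℝ σ i) (theta H h) := by
  ext n
  simp only [theta_apply, dA, coeff_mk, dO_mk]
  refine mk_congr _ _ ?_
  filter_upwards [tendsto_ofRe.eventually (H.der i h n),
    tendsto_ofRe.eventually (H.ana h n).eventually_analyticAt] with y h1 h2
  have h3 := Complex.reCLM.hasFDerivAt.comp y
    ((h2.differentiableAt.hasFDerivAt.restrictScalars ℝ).comp y (ofReL σ).hasFDerivAt)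
  have h4 : ofReL σ (Pi.basisFun ℝ σ i) = Pi.single i 1 := by
    ext j
    by_cases hj : j = i <;> simp [ofReL, hj]
  rw [h1, HasFDerivAt.fderiv (f := fun y => (ex h n (ofRe y)).re) h3]
  simp [← h4]

theorem rep_theta (H : ExRing d ex) (h : D) (M : ℕ) : ∀ᶠ z : ℝ × (σ → ℝ) in 𝓝 0,
    tr (ex h) M z.1 (ofRe z.2) = (rep (tau M (theta H h)) z : ℝ) := by
  filter_upwards [tau_mk _ (an_re H h) M, (continuous_snd.tendsto (0 : ℝ × (σ → ℝ))).eventually
    ((eventually_all_finset (Finset.range M)).2 fun n _ => H.re h n)] with z h1 h2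
  rw [theta_apply, h1, tr]
  push_cast
  refine Finset.sum_congr rfl fun n hn => ?_
  congr 1
  exact Complex.ext rfl (h2 n hn)

theorem isBigO_arc (H : ExRing d ex) {Φ : (O (σ → ℝ))⟦X⟧ →ₐ[ℝ] ℝ⟦X⟧} (hΦ : Loc Φ) {k : ℕ}
    (hk : 0 < k) (hX : Φ X = X ^ k) {a : ℕ → σ → ℝ}
    (ha : ∀ n i, a n i = coeff n (Φ (C (lin (crd (Pi.basisFun ℝ σ) i))))) (h : D) (u : ℝ)
    {N₀ N M : ℕ} (hNM : N ≤ M) (hh : (X : ℝ⟦X⟧) ^ N ∣ Φ (theta H h) - C u * X ^ N₀) :
    (fun t : ℂ => tr (ex h) M (t ^ k) (arc a M t) - u * t ^ N₀) =O[𝓝 0] fun t => t ^ N := by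
  have ha0 : ∀ i, a 0 i = 0 := fun i => by
    rw [ha, coeff_zero_eq_constantCoeff_apply]
    exact X_dvd_iff.1 (hΦ.2 _)
  have hsum : ∀ i, ∑ n ∈ Finset.range M, a n i * (0 : ℝ) ^ n = 0 := fun i =>
    Finset.sum_eq_zero fun n _ => by rcases n with _ | n <;> simp [ha0]
  have hmon : ∀ n i, AnalyticAt ℝ (fun s : ℝ => a n i * s ^ n) 0 := fun n i =>
    analyticAt_const.mul (analyticAt_id.pow n)
  have hy : AnalyticAt ℝ (fun (s : ℝ) (i : σ) => ∑ n ∈ Finset.range M, a n i * s ^ n) 0 :=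
    analyticAt_pi_iff.2 fun i => Finset.analyticAt_fun_sum _ fun n _ => hmon n i
  obtain ⟨S, hS, hSX, hSC, hS2⟩ := exists_arc hy (funext hsum) hk
  have htay : ∀ (c : ℝ) (n : ℕ), tay (mk (fun s => c * s ^ n)
      (analyticAt_const.mul (analyticAt_id.pow n))) = C c * X ^ n := fun c n => by
    rw [← tay_id, ← map_pow, C_eq_algebraMap, ← tay.commutes, ← map_mul]
    rfl
  have h1 := congr_basis (Pi.basisFun ℝ σ) hS hΦ (N := M) (by simp [hSX, hX]) (fun i => by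
    have h2 : pull _ hy (funext hsum) (lin (crd (Pi.basisFun ℝ σ) i)) =
        ∑ n ∈ Finset.range M, mk _ (hmon n i) := by
      rw [mk_sum]
      exact mk_congr _ _ (Eventually.of_forall fun s => by simp [crd])
    rw [hSC, h2, map_sum]
    refine X_pow_dvd_iff.2 fun m hm => ?_
    simp only [htay, map_sub, map_sum, coeff_C_mul_X_pow, ← ha, Finset.sum_ite_eq,
      Finset.mem_range, hm, if_true, sub_self]) (theta H h)
  have h2 := dvd_sub (dvd_add (dvd_mono h1 hNM) hh)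
    (dvd_mono (hS2 M (theta H h)) (hNM.trans (Nat.le_mul_of_pos_left M hk)))
  rw [← htay, sub_add_sub_cancel, sub_sub_sub_cancel_left, ← map_sub] at h2
  have h3 := isBigO_of_dvd_tay_sub h2
  have harc : AnalyticAt ℂ (arc a M) 0 := analyticAt_pi_iff.2 fun i =>
    Finset.analyticAt_fun_sum _ fun n _ => analyticAt_const.mul (analyticAt_id.pow n)
  have harc0 : arc a M 0 = 0 := funext fun i => by
    have := congrArg (fun x : ℝ => (x : ℂ)) (hsum i)
    push_cast at this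
    exact this
  refine isBigO_complex (AnalyticAt.sub (Finset.analyticAt_fun_sum _ fun n _ =>
    ((analyticAt_id.pow k).pow n).mul (AnalyticAt.comp_of_eq (H.ana h n) harc harc0))
      (analyticAt_const.mul (analyticAt_id.pow N₀))) ?_
  refine (Complex.isBigO_ofReal_left.2 h3).congr' ?_ EventuallyEq.rfl
  filter_upwards [(tendsto_of_an (an_arc hy k) (by
    simp only [hsum, zero_pow hk.ne']; rfl)).eventually (rep_theta H h M)] with s hs
  have h4 : arc a M s = ofRe fun i => ∑ n ∈ Finset.range M, a n i * s ^ n := by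
    funext i
    simp [arc, ofRe]
  rw [Complex.ofReal_sub, ← hs, ← h4]
  simp [tr]

theorem exists_hom (H : ExRing d ex) {U : Ultrafilter (ℝ × (σ → ℝ))}
    (hl : (U : Filter (ℝ × (σ → ℝ))) ≤ 𝓝 0) (hpos : ∀ᶠ z in (U : Filter (ℝ × (σ → ℝ))), 0 < z.1) :
    ∃ (k r N₀ : ℕ) (S : Fin r ↪ σ) (g : Fin r → D) (Φ : (O (σ → ℝ))⟦X⟧ →ₐ[ℝ] ℝ⟦X⟧) (u : ℝ),
      0 < k ∧ Loc Φ ∧ Φ X = X ^ k ∧ u ≠ 0 ∧ (∀ h, theta H h ∈ flat U hl → Φ (theta H h) = 0) ∧
      (∀ l, theta H (g l) ∈ flat U hl) ∧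
      (∀ i ∉ Set.range S, ∀ n, 2 * N₀ < n →
        coeff n (Φ (C (lin (crd (Pi.basisFun ℝ σ) i)))) = 0) ∧
      (X : ℝ⟦X⟧) ^ (N₀ + 1) ∣ Φ (theta H (Matrix.of fun i l => d (S i) (g l)).det) -
        C u * X ^ N₀ := by
  have hp := flat_isPrime hl hpos
  have hI : ((flat U hl).comap (theta H)).IsPrime := Ideal.comap_isPrime _ _
  obtain ⟨r, S, g, hg, hδ, c, hc⟩ := exists_max_system d ((flat U hl).comap (theta H))
  obtain ⟨δ, hδd⟩ : ∃ δ, δ = (Matrix.of fun i l => d (S i) (g l)).det := ⟨_, rfl⟩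
  rw [← hδd] at hδ hc
  obtain ⟨k, Φ0, hk, h1, h2, h3, h4⟩ := exists_formal_arc hl hpos (δ := theta H δ) hδ
  obtain ⟨N₀, v, hv, hδv⟩ : ∃ (N₀ : ℕ) (v : ℝ⟦X⟧), IsUnit v ∧ Φ0 (theta H δ) = X ^ N₀ * v :=
    ⟨_, _, isUnit_divided_by_X_pow_order h4, X_pow_order_mul_divXPowOrder.symm⟩
  obtain ⟨Φ, h5, h6, h7, h8, h9⟩ := move_arc (Pi.basisFun ℝ σ)
    (I := theta H '' {h | theta H h ∈ flat U hl}) S (theta H δ) (fun i j => theta H (c i j))
    (by
      rintro i hi _ ⟨u, hu, rfl⟩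
      refine ⟨_, hc i hi u hu, ?_⟩
      simp only [map_sub, map_mul, map_sum, theta_d]) h1 h2 (by
      rintro _ ⟨u, hu, rfl⟩
      exact h3 _ hu) hv hδv
  refine ⟨k, r, N₀, S, g, Φ, constantCoeff v, hk, h5, h6, (isUnit_iff_constantCoeff.1 hv).ne_zero,
    fun h hh => h7 _ ⟨h, hh, rfl⟩, hg, h9, ?_⟩
  obtain ⟨e, he⟩ := h8 (theta H δ)
  refine ⟨e + PowerSeries.mk fun p => coeff (p + 1) v, ?_⟩
  rw [← hδd]
  linear_combination he + hδv + X ^ N₀ * eq_X_mul_shift_add_const v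

theorem arc_proof : ArcStmt := by
  intro σ τ D _ _ _ _ d ex H h
  refine or_iff_not_imp_left.2 fun hn => ?_
  push Not at hn
  obtain ⟨U, hl, hpos, hU⟩ := exists_ultra (fun i => theta H (h i)) fun M => by
    refine ((hn M 1).and_eventually (eventually_all.2 fun i =>
      rep_theta H (h i) (M + 1))).mono fun z ⟨⟨h1, h2⟩, h3⟩ => ⟨h1, fun i => ?_⟩
    have h4 := Finset.single_le_sum (f := fun i => ‖tr (ex (h i)) (M + 1) z.1 (ofRe z.2)‖)
      (fun _ _ => norm_nonneg _) (Finset.mem_univ i)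
    rw [h3 i, Complex.norm_real] at h4
    linarith
  obtain ⟨k, r, N₀, S, g, Φ, u, hk, h5, h6, hu, h7, hg, h9, h8⟩ := exists_hom H hl hpos
  obtain ⟨a, ha⟩ : ∃ a : ℕ → σ → ℝ,
      ∀ n i, a n i = coeff n (Φ (C (lin (crd (Pi.basisFun ℝ σ) i)))) := ⟨_, fun _ _ => rfl⟩
  have hflat : ∀ v, theta H v ∈ flat U hl → FlatOn (ex v) k a := by
    intro v hv M
    simpa using isBigO_arc H h5 hk h6 ha v 0 (N₀ := 0) (le_refl M) (by simp [h7 v hv])
  refine ⟨k, r, N₀, 2 * N₀, S, g, a, hk, funext fun i => ?_, fun n hn i hi => ?_,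
    fun i => hflat _ (hU i), fun l => hflat _ (hg l), u, hu, fun M hM =>
      isBigO_arc H h5 hk h6 ha _ _ hM h8⟩
  · rw [ha, coeff_zero_eq_constantCoeff_apply]
    exact X_dvd_iff.1 (h5.2 _)
  · rw [ha]
    exact h9 i hi n hn

end Vale.Agent.P218F.Alg
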