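import Vale.Agent.P218F.AlgT
import Vale.Agent.P218F.AlgW

/-!
# P218 (helper61), block ALG: real-analytic germs `O E`, the ring `(O E)⟦X⟧`, arcs, division
-/

open Filter Topology PowerSeries

namespace Vale.Agent.P218F.Alg

section basic

variable (E : Type) [NormedAddCommGroup E] [NormedSpace ℝ E]

/-- functions analytic at the origin -/
def An : Subalgebra ℝ (E → ℝ) where
  carrier := {f | AnalyticAt ℝ f 0}
  mul_mem' := fun hf hg => hf.mul hg
  add_mem' := fun hf hg => hf.add hg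
  algebraMap_mem' := fun _ => analyticAt_const

/-- functions vanishing near the origin -/
def nu : Ideal (An E) where
  carrier := {f | (f : E → ℝ) =ᶠ[𝓝 0] 0}
  add_mem' := by
    intro a b ha hb
    have h : ((a + b : An E) : E → ℝ) = (a : E → ℝ) + (b : E → ℝ) := rfl
    have h2 := Filter.EventuallyEq.add ha hb
    show ((a + b : An E) : E → ℝ) =ᶠ[𝓝 0] 0
    rw [h]
    simpa using h2
  zero_mem' := Filter.EventuallyEq.rfl
  smul_mem' := by
    intro c a ha
    filter_upwards [ha] with x hx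
    have h : ((c • a : An E) : E → ℝ) x = (c : E → ℝ) x * (a : E → ℝ) x := rfl
    rw [h, hx]
    simp

/-- the ring of germs -/
def O : Type := An E ⧸ nu E

noncomputable instance : CommRing (O E) := inferInstanceAs (CommRing (An E ⧸ nu E))

noncomputable instance : Algebra ℝ (O E) := inferInstanceAs (Algebra ℝ (An E ⧸ nu E))

end basic

variable {E : Type} [NormedAddCommGroup E] [NormedSpace ℝ E]
variable {E' : Type} [NormedAddCommGroup E'] [NormedSpace ℝ E']

/-- the germ of a function -/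
noncomputable def mk (f : E → ℝ) (hf : AnalyticAt ℝ f 0) : O E :=
  Ideal.Quotient.mk (nu E) ⟨f, hf⟩

theorem exists_rep (a : O E) : ∃ (f : E → ℝ) (hf : AnalyticAt ℝ f 0), mk f hf = a := by
  obtain ⟨⟨f, hf⟩, rfl⟩ := Ideal.Quotient.mk_surjective a
  exact ⟨f, hf, rfl⟩

theorem mk_eq_iff {f g : E → ℝ} (hf : AnalyticAt ℝ f 0) (hg : AnalyticAt ℝ g 0) :
    mk f hf = mk g hg ↔ f =ᶠ[𝓝 0] g := by
  have h0 : mk f hf = mk g hg ↔ (⟨f, hf⟩ : An E) - ⟨g, hg⟩ ∈ nu E := Ideal.Quotient.eq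
  rw [h0]
  constructor
  · intro h
    have h1 : (fun x => f x - g x) =ᶠ[𝓝 0] 0 := h
    filter_upwards [h1] with x hx
    exact sub_eq_zero.1 hx
  · intro h
    show (fun x => f x - g x) =ᶠ[𝓝 0] 0
    filter_upwards [h] with x hx
    rw [hx, sub_self]
    rfl

theorem mk_eq_zero_iff {f : E → ℝ} (hf : AnalyticAt ℝ f 0) :
    mk f hf = 0 ↔ ∀ᶠ x in 𝓝 0, f x = 0 := by
  have h : (0 : O E) = mk (fun _ => 0) analyticAt_const := rfl
  rw [h, mk_eq_iff]
  rfl

theorem mk_congr {f g : E → ℝ} (hf : AnalyticAt ℝ f 0) (hg : AnalyticAt ℝ g 0)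
    (h : ∀ᶠ x in 𝓝 0, f x = g x) : mk f hf = mk g hg := (mk_eq_iff hf hg).2 h

theorem mk_add {f g : E → ℝ} (hf : AnalyticAt ℝ f 0) (hg : AnalyticAt ℝ g 0) :
    mk f hf + mk g hg = mk (fun x => f x + g x) (hf.add hg) := rfl

theorem mk_mul {f g : E → ℝ} (hf : AnalyticAt ℝ f 0) (hg : AnalyticAt ℝ g 0) :
    mk f hf * mk g hg = mk (fun x => f x * g x) (hf.mul hg) := rfl

theorem mk_sub {f g : E → ℝ} (hf : AnalyticAt ℝ f 0) (hg : AnalyticAt ℝ g 0) :
    mk f hf - mk g hg = mk (fun x => f x - g x) (hf.sub hg) := rfl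

theorem mk_pow {f : E → ℝ} (hf : AnalyticAt ℝ f 0) (n : ℕ) :
    mk f hf ^ n = mk (fun x => f x ^ n) (hf.pow n) := rfl

theorem mk_one : (1 : O E) = mk (fun _ => 1) analyticAt_const := rfl

theorem mk_zero : (0 : O E) = mk (fun _ => 0) analyticAt_const := rfl

theorem algebraMap_eq (c : ℝ) : algebraMap ℝ (O E) c = mk (fun _ => c) analyticAt_const := rfl

theorem mk_sum {ι : Type*} (s : Finset ι) (f : ι → E → ℝ) (hf : ∀ i, AnalyticAt ℝ (f i) 0) :
    ∑ i ∈ s, mk (f i) (hf i) =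
      mk (fun x => ∑ i ∈ s, f i x) (Finset.analyticAt_fun_sum s fun i _ => hf i) := by
  classical
  induction s using Finset.induction_on with
  | empty => rfl
  | insert a s ha ih =>
    rw [Finset.sum_insert ha, ih, mk_add]
    refine mk_congr _ _ (Eventually.of_forall fun x => ?_)
    rw [Finset.sum_insert ha]

theorem tendsto_of_an {g : E' → E} (hg : AnalyticAt ℝ g 0) (h0 : g 0 = 0) :
    Tendsto g (𝓝 0) (𝓝 0) := by
  have := hg.continuousAt.tendsto
  rwa [h0] at this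

/-- pullback of functions -/
def pullAn (g : E' → E) (hg : AnalyticAt ℝ g 0) (h0 : g 0 = 0) : An E →ₐ[ℝ] An E' where
  toFun f := ⟨fun x => (f : E → ℝ) (g x), AnalyticAt.comp_of_eq f.2 hg h0⟩
  map_one' := rfl
  map_mul' _ _ := rfl
  map_zero' := rfl
  map_add' _ _ := rfl
  commutes' _ := rfl

/-- pullback of germs -/
noncomputable def pull (g : E' → E) (hg : AnalyticAt ℝ g 0) (h0 : g 0 = 0) : O E →ₐ[ℝ] O E' :=
  Ideal.Quotient.liftₐ (nu E) ((Ideal.Quotient.mkₐ ℝ (nu E')).comp (pullAn g hg h0))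
    fun _ ha => Ideal.Quotient.eq_zero_iff_mem.2 ((tendsto_of_an hg h0).eventually ha)

theorem pull_mk (g : E' → E) (hg : AnalyticAt ℝ g 0) (h0 : g 0 = 0) {f : E → ℝ}
    (hf : AnalyticAt ℝ f 0) : pull g hg h0 (mk f hf) =
      mk (fun x => f (g x)) (AnalyticAt.comp_of_eq hf hg h0) := rfl

/-- the value at the origin -/
noncomputable def ev0 (E : Type) [NormedAddCommGroup E] [NormedSpace ℝ E] : O E →ₐ[ℝ] ℝ :=
  Ideal.Quotient.liftₐ (nu E)
    { toFun := fun f => (f : E → ℝ) 0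
      map_one' := rfl
      map_mul' := fun _ _ => rfl
      map_zero' := rfl
      map_add' := fun _ _ => rfl
      commutes' := fun _ => rfl }
    fun a ha => Filter.Eventually.self_of_nhds (p := fun x => (a : E → ℝ) x = 0) ha

theorem ev0_mk {f : E → ℝ} (hf : AnalyticAt ℝ f 0) : ev0 E (mk f hf) = f 0 := rfl

theorem isUnit_iff (a : O E) : IsUnit a ↔ ev0 E a ≠ 0 := by
  constructor
  · intro h
    exact (h.map (ev0 E)).ne_zero
  · intro h
    obtain ⟨f, hf, rfl⟩ := exists_rep a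
    rw [ev0_mk] at h
    refine IsUnit.of_mul_eq_one (b := mk (fun x => (f x)⁻¹) (hf.inv h)) ?_
    rw [mk_mul, mk_one]
    refine mk_congr _ _ ?_
    filter_upwards [hf.continuousAt.eventually_ne h] with x hx
    exact mul_inv_cancel₀ hx

/-- a chosen representative -/
noncomputable def rep (a : O E) : E → ℝ := (exists_rep a).choose

theorem rep_an (a : O E) : AnalyticAt ℝ (rep a) 0 := (exists_rep a).choose_spec.choose

theorem mk_rep (a : O E) : mk (rep a) (rep_an a) = a := (exists_rep a).choose_spec.choose_spec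

theorem rep_mk {f : E → ℝ} (hf : AnalyticAt ℝ f 0) : rep (mk f hf) =ᶠ[𝓝 0] f :=
  (mk_eq_iff _ _).1 (mk_rep _)

theorem an_fderiv {f : E → ℝ} (hf : AnalyticAt ℝ f 0) (v : E) :
    AnalyticAt ℝ (fun y => fderiv ℝ f y v) 0 :=
  AnalyticAt.comp_of_eq ((ContinuousLinearMap.apply ℝ ℝ v).analyticAt _) hf.fderiv rfl

/-- directional derivative of a germ -/
noncomputable def dO (v : E) (a : O E) : O E :=
  mk (fun y => fderiv ℝ (rep a) y v) (an_fderiv (rep_an a) v)

theorem dO_mk (v : E) {f : E → ℝ} (hf : AnalyticAt ℝ f 0) :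
    dO v (mk f hf) = mk (fun y => fderiv ℝ f y v) (an_fderiv hf v) := by
  refine mk_congr _ _ ?_
  filter_upwards [(rep_mk hf).fderiv (𝕜 := ℝ)] with y hy
  rw [hy]

theorem isDer_dO (v : E) : IsDer (AlgHom.id ℝ (O E)) (dO v) := by
  refine ⟨fun a b => ?_, fun a b => ?_, fun c => ?_⟩
  · obtain ⟨f, hf, rfl⟩ := exists_rep a
    obtain ⟨g, hg, rfl⟩ := exists_rep b
    rw [mk_add, dO_mk, dO_mk, dO_mk, mk_add]
    refine mk_congr _ _ ?_
    filter_upwards [hf.eventually_analyticAt, hg.eventually_analyticAt] with y h1 h2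
    rw [fderiv_fun_add h1.differentiableAt h2.differentiableAt]
    rfl
  · obtain ⟨f, hf, rfl⟩ := exists_rep a
    obtain ⟨g, hg, rfl⟩ := exists_rep b
    simp only [AlgHom.id_apply]
    rw [mk_mul, dO_mk, dO_mk, dO_mk, mk_mul, mk_mul, mk_add]
    refine mk_congr _ _ ?_
    filter_upwards [hf.eventually_analyticAt, hg.eventually_analyticAt] with y h1 h2
    rw [fderiv_fun_mul h1.differentiableAt h2.differentiableAt]
    rfl
  · rw [algebraMap_eq, dO_mk, mk_eq_zero_iff]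
    simp

/-- the germ of a linear functional -/
noncomputable def lin (l : E →L[ℝ] ℝ) : O E := mk l (l.analyticAt 0)

theorem dO_lin (v : E) (l : E →L[ℝ] ℝ) : dO v (lin l) = algebraMap ℝ (O E) (l v) := by
  rw [lin, dO_mk, algebraMap_eq]
  refine mk_congr _ _ (Eventually.of_forall fun y => ?_)
  rw [l.fderiv]

/-- pullback by a linear map -/
noncomputable def pullL (L : E' →L[ℝ] E) : O E →ₐ[ℝ] O E' := pull L (L.analyticAt 0) L.map_zero

theorem pullL_lin (L : E' →L[ℝ] E) (l : E →L[ℝ] ℝ) : pullL L (lin l) = lin (l ∘L L) := rfl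

theorem hadamard {f : E → ℝ} (hf : AnalyticAt ℝ f 0) :
    ∃ L : E → (E →L[ℝ] ℝ), AnalyticAt ℝ L 0 ∧ ∀ᶠ y in 𝓝 0, f y = f 0 + L y y := by
  obtain ⟨p, r, hp⟩ := hf
  have hr : 0 < p.shift.radius := by
    rw [p.radius_shift]
    exact hp.radius_pos
  have hL := p.shift.hasFPowerSeriesOnBall hr
  refine ⟨p.shift.sum, hL.analyticAt, ?_⟩
  filter_upwards [Metric.eball_mem_nhds (0 : E) hp.r_pos, Metric.eball_mem_nhds (0 : E) hr]
    with y h1 h2
  have h3 := hp.hasSum h1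
  have h4 := (hL.hasSum h2).mapL (ContinuousLinearMap.apply ℝ ℝ y)
  rw [zero_add] at h3 h4
  have h5 : ∀ n, (ContinuousLinearMap.apply ℝ ℝ y) (p.shift n fun _ => y) =
      p (n + 1) fun _ => y := by
    intro n
    simp only [FormalMultilinearSeries.shift, ContinuousLinearMap.apply_apply,
      ContinuousMultilinearMap.curryRight_apply]
    congr 1
    funext i
    refine Fin.lastCases ?_ (fun j => ?_) i <;> simp
  simp only [h5] at h4
  have h6 := (hasSum_nat_add_iff' 1).2 h3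
  rw [Finset.sum_range_one, hp.coeff_zero] at h6
  have h7 := h6.unique h4
  rw [ContinuousLinearMap.apply_apply] at h7
  linarith

section coords

variable {σ : Type} [Fintype σ] [FiniteDimensional ℝ E] (b : Module.Basis σ ℝ E)

/-- coordinate functionals -/
noncomputable def crd (i : σ) : E →L[ℝ] ℝ := LinearMap.toContinuousLinearMap (b.coord i)

theorem apply_eq_sum (l : E →L[ℝ] ℝ) (y : E) : l y = ∑ i, l (b i) * crd b i y := by
  conv_lhs => rw [← b.sum_repr y, map_sum]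
  refine Finset.sum_congr rfl fun i _ => ?_
  rw [map_smul, smul_eq_mul, mul_comm]
  rfl

theorem lin_eq_sum (l : E →L[ℝ] ℝ) :
    lin l = ∑ i, algebraMap ℝ (O E) (l (b i)) * lin (crd b i) := by
  simp only [lin, algebraMap_eq, mk_mul]
  rw [mk_sum]
  exact mk_congr _ _ (Eventually.of_forall fun y => apply_eq_sum b l y)

theorem had_O : Had fun i => lin (crd b i) := by
  intro a
  obtain ⟨f, hf, rfl⟩ := exists_rep a
  obtain ⟨L, hL, h⟩ := hadamard hf
  have hLi : ∀ i, AnalyticAt ℝ (fun y => L y (b i)) 0 := fun i =>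
    AnalyticAt.comp_of_eq ((ContinuousLinearMap.apply ℝ ℝ (b i)).analyticAt _) hL rfl
  refine ⟨f 0, Ideal.mem_span_range_iff_exists_fun.2 ⟨fun i => mk _ (hLi i), ?_⟩⟩
  simp only [lin, algebraMap_eq, mk_mul, mk_sub]
  rw [mk_sum]
  refine mk_congr _ _ ?_
  filter_upwards [h] with y hy
  rw [hy, add_sub_cancel_left, apply_eq_sum b (L y) y]

/-- coordinates of the power series ring -/
noncomputable def xs (o : Option σ) : (O E)⟦X⟧ := o.elim X fun i => C (lin (crd b i))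

theorem had_A : Had (xs b) := by
  intro h
  obtain ⟨c, hc⟩ := had_O b (constantCoeff h)
  obtain ⟨a, ha⟩ := Ideal.mem_span_range_iff_exists_fun.1 hc
  refine ⟨c, ?_⟩
  have h1 : h - algebraMap ℝ _ c = (PowerSeries.mk fun p => coeff (p + 1) h) * xs b none +
      ∑ i, C (a i) * xs b (some i) := by
    simp only [xs, Option.elim, ← map_mul, ← map_sum, ha, map_sub, PowerSeries.algebraMap_apply]
    have := eq_shift_mul_X_add_const h
    linear_combination this
  rw [h1]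
  exact Ideal.add_mem _ (Ideal.mul_mem_left _ _ (Ideal.subset_span ⟨_, rfl⟩))
    (Ideal.sum_mem _ fun i _ => Ideal.mul_mem_left _ _ (Ideal.subset_span ⟨_, rfl⟩))

end coords

theorem IsDer.sum {A B : Type*} [CommRing A] [Algebra ℝ A] [CommRing B] [Algebra ℝ B]
    {φ : A →ₐ[ℝ] B} {D : A → B} (h : IsDer φ D) {ι : Type*} (s : Finset ι) (f : ι → A) :
    D (∑ i ∈ s, f i) = ∑ i ∈ s, D (f i) := by
  classical
  induction s using Finset.induction_on with
  | empty => simpa using h.zero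
  | insert a s ha ih => rw [Finset.sum_insert ha, Finset.sum_insert ha, h.add, ih]

/-- a coefficientwise derivation -/
theorem IsDer.coeffwise {A : Type*} [CommRing A] [Algebra ℝ A] {D : A → A}
    (h : IsDer (AlgHom.id ℝ A) D) :
    IsDer (AlgHom.id ℝ A⟦X⟧) fun u => PowerSeries.mk fun n => D (coeff n u) := by
  refine ⟨fun a b => ?_, fun a b => ?_, fun c => ?_⟩
  · ext n
    simp [h.add]
  · ext n
    simp only [coeff_mk, AlgHom.id_apply, map_add, coeff_mul, h.sum, h.mul,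
      Finset.sum_add_distrib]
    congr 1
    exact Finset.Nat.sum_antidiagonal_swap (f := fun p => coeff p.1 b * D (coeff p.2 a))
  · ext n
    rw [coeff_mk, PowerSeries.algebraMap_apply, coeff_C]
    split_ifs
    · simp [h.const]
    · simp [h.zero]

/-- directional derivative of a series of germs -/
noncomputable def dA (v : E) (u : (O E)⟦X⟧) : (O E)⟦X⟧ := PowerSeries.mk fun n => dO v (coeff n u)

theorem isDer_dA (v : E) : IsDer (AlgHom.id ℝ (O E)⟦X⟧) (dA v) := (isDer_dO v).coeffwise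

theorem dA_C (v : E) (a : O E) : dA v (C a) = C (dO v a) := by
  ext n
  simp only [dA, coeff_mk, coeff_C]
  split_ifs
  · rfl
  · exact (isDer_dO v).zero

theorem dA_X (v : E) : dA v (X : (O E)⟦X⟧) = 0 := by
  ext n
  simp only [dA, coeff_mk, coeff_X]
  split_ifs
  · simpa using (isDer_dO v).const 1
  · exact (isDer_dO v).zero

/-- local homomorphisms to a power series ring (formal arcs) -/
def Loc {R : Type*} [CommRing R] [Algebra ℝ R] (Φ : (O E)⟦X⟧ →ₐ[ℝ] R⟦X⟧) : Prop :=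
  (X : R⟦X⟧) ∣ Φ X ∧ ∀ l : E →L[ℝ] ℝ, (X : R⟦X⟧) ∣ Φ (C (lin l))

section arcs

variable [FiniteDimensional ℝ E] {R : Type*} [CommRing R] [Algebra ℝ R]

theorem exists_ev_basis {σ : Type} [Fintype σ] (b : Module.Basis σ ℝ E) (e : R⟦X⟧)
    (he : X ∣ e) (γ : σ → R⟦X⟧) (hγ : ∀ i, X ∣ γ i) :
    ∃ Φ : (O E)⟦X⟧ →ₐ[ℝ] R⟦X⟧, Loc Φ ∧ Φ X = e ∧ ∀ i, Φ (C (lin (crd b i))) = γ i := by
  classical
  let d : Option σ → (O E)⟦X⟧ → (O E)⟦X⟧ := fun o =>
    o.elim (fun u => d⁄dX (O E) u) fun i => dA (b i)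
  have hne : Ideal.span (Set.range (xs b)) ≠ ⊤ := by
    intro h
    have h1 : Ideal.span (Set.range (xs b)) ≤
        RingHom.ker ((ev0 E).toRingHom.comp constantCoeff) := by
      rw [Ideal.span_le]
      rintro _ ⟨o, rfl⟩
      cases o with
      | none => simp [xs]
      | some i =>
        simp only [xs, Option.elim, SetLike.mem_coe, RingHom.mem_ker, RingHom.comp_apply,
          constantCoeff_C]
        exact (crd b i).map_zero
    have h2 := h1 (h ▸ Submodule.mem_top : (1 : (O E)⟦X⟧) ∈ _)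
    simp at h2
  have hd : ∀ o, IsDer (AlgHom.id ℝ (O E)⟦X⟧) (d o) := by
    intro o
    cases o with
    | none =>
      refine ⟨fun a b => map_add _ a b, fun a b => ?_, fun c => ?_⟩
      · simp [d, Derivation.leibniz]
      · simp [d, PowerSeries.algebraMap_apply]
    | some i => exact isDer_dA (b i)
  have hdx : ∀ i j, d i (xs b j) = if i = j then 1 else 0 := by
    intro i j
    cases i with
    | none => cases j <;> simp [d, xs]
    | some i =>
      cases j with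
      | none => simp [d, xs, dA_X]
      | some j =>
        simp only [d, xs, Option.elim, dA_C, dO_lin, crd, Option.some.injEq]
        by_cases h : i = j
        · simp [h]
        · simp [h, Ne.symm h]
  obtain ⟨Φ, hΦ⟩ := (had_A b).exists_ev hne hd hdx (fun o => o.elim e γ) (fun o => by
    cases o with
    | none => exact he
    | some i => exact hγ i)
  refine ⟨Φ, ⟨?_, fun l => ?_⟩, hΦ none, fun i => hΦ (some i)⟩
  · exact (hΦ none).symm ▸ he
  · rw [lin_eq_sum b l, map_sum, map_sum]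
    refine Finset.dvd_sum fun i _ => ?_
    rw [map_mul, map_mul]
    exact ((hΦ (some i)).symm ▸ hγ i : X ∣ Φ (xs b (some i))).mul_left _

theorem exists_ev (e : R⟦X⟧) (he : X ∣ e) (γ : (E →L[ℝ] ℝ) →ₗ[ℝ] R⟦X⟧) (hγ : ∀ l, X ∣ γ l) :
    ∃ Φ : (O E)⟦X⟧ →ₐ[ℝ] R⟦X⟧, Loc Φ ∧ Φ X = e ∧ ∀ l, Φ (C (lin l)) = γ l := by
  let b := Module.finBasis ℝ E
  obtain ⟨Φ, h1, h2, h3⟩ := exists_ev_basis b e he (fun i => γ (crd b i)) fun i => hγ _
  refine ⟨Φ, h1, h2, fun l => ?_⟩
  have h4 : l = ∑ i, l (b i) • crd b i := by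
    ext y
    rw [apply_eq_sum b l y]
    simp
  rw [lin_eq_sum b l, map_sum, map_sum]
  conv_rhs => rw [h4, map_sum]
  refine Finset.sum_congr rfl fun i _ => ?_
  rw [map_mul, map_mul, h3, ← PowerSeries.algebraMap_apply, AlgHom.commutes, map_smul,
    Algebra.smul_def]

theorem congr_basis {σ : Type} [Fintype σ] (b : Module.Basis σ ℝ E)
    {Φ Ψ : (O E)⟦X⟧ →ₐ[ℝ] R⟦X⟧} (hΦ : Loc Φ) (hΨ : Loc Ψ) {N : ℕ}
    (hX : (X : R⟦X⟧) ^ N ∣ Φ X - Ψ X)
    (hl : ∀ i, (X : R⟦X⟧) ^ N ∣ Φ (C (lin (crd b i))) - Ψ (C (lin (crd b i)))) (h : (O E)⟦X⟧) :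
    (X : R⟦X⟧) ^ N ∣ Φ h - Ψ h := by
  rw [← Ideal.mem_span_singleton]
  refine (had_A b).congr Φ Ψ (J := Ideal.span {X}) (N := N)
    (Ideal.span_singleton_pow _ _).le ?_ ?_ ?_ h <;> intro o <;> rw [Ideal.mem_span_singleton] <;>
    cases o
  exacts [hΦ.1, hΦ.2 _, hΨ.1, hΨ.2 _, hX, hl _]

theorem loc_congr {Φ Ψ : (O E)⟦X⟧ →ₐ[ℝ] R⟦X⟧} (hΦ : Loc Φ) (hΨ : Loc Ψ) {N : ℕ}
    (hX : (X : R⟦X⟧) ^ N ∣ Φ X - Ψ X)
    (hl : ∀ l, (X : R⟦X⟧) ^ N ∣ Φ (C (lin l)) - Ψ (C (lin l))) (h : (O E)⟦X⟧) :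
    (X : R⟦X⟧) ^ N ∣ Φ h - Ψ h :=
  congr_basis (Module.finBasis ℝ E) hΦ hΨ hX (fun _ => hl _) h

theorem loc_ext {Φ Ψ : (O E)⟦X⟧ →ₐ[ℝ] R⟦X⟧} (hΦ : Loc Φ) (hΨ : Loc Ψ) (hX : Φ X = Ψ X)
    (hl : ∀ l, Φ (C (lin l)) = Ψ (C (lin l))) : Φ = Ψ :=
  AlgHom.ext fun h => sub_eq_zero.1 (eq_zero_of_dvd fun N =>
    loc_congr hΦ hΨ (by simp [hX]) (fun l => by simp [hl]) h)

end arcs

/-- pullback of series by a linear map -/
noncomputable def pullA (L : E' →L[ℝ] E) : (O E)⟦X⟧ →ₐ[ℝ] (O E')⟦X⟧ :=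
  PowerSeries.mapAlgHom (pullL L)

theorem coeff_pullA (L : E' →L[ℝ] E) (u : (O E)⟦X⟧) (n : ℕ) :
    coeff n (pullA L u) = pullL L (coeff n u) := by
  rw [pullA, mapAlgHom_apply, coeff_map]
  rfl

theorem pullA_X (L : E' →L[ℝ] E) : pullA L X = X := by
  rw [pullA, mapAlgHom_apply, map_X]

theorem pullA_C (L : E' →L[ℝ] E) (a : O E) : pullA L (C a) = C (pullL L a) := by
  rw [pullA, mapAlgHom_apply, map_C]
  rfl

theorem Loc.comp_pullA {R : Type*} [CommRing R] [Algebra ℝ R] {Φ : (O E')⟦X⟧ →ₐ[ℝ] R⟦X⟧}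
    (h : Loc Φ) (L : E' →L[ℝ] E) : Loc (Φ.comp (pullA L)) :=
  ⟨by simpa [pullA_X] using h.1, fun l => by simpa [pullA_C, pullL_lin] using h.2 _⟩

theorem pullA_pullA (L : E' →L[ℝ] E) (L' : E →L[ℝ] E') (h : ∀ y, L (L' y) = y)
    (u : (O E)⟦X⟧) : pullA L' (pullA L u) = u := by
  ext n
  rw [coeff_pullA, coeff_pullA]
  obtain ⟨f, hf, hfe⟩ := exists_rep (coeff n u)
  rw [← hfe]
  exact mk_congr _ _ (Eventually.of_forall fun y => congrArg f (h y))

/-- Weierstrass division for series of germs. -/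
theorem div_A {h : (O (ℝ × E))⟦X⟧} {F : ℝ × E → ℝ} {hF : AnalyticAt ℝ F 0}
    (h0 : constantCoeff h = mk F hF) {b : ℕ} {u : ℝ → ℝ} (hu : AnalyticAt ℝ u 0) (hu0 : u 0 ≠ 0)
    (hFu : ∀ᶠ x in 𝓝 (0 : ℝ), F (x, 0) = x ^ b * u x) (g : (O (ℝ × E))⟦X⟧) :
    ∃ (v : (O (ℝ × E))⟦X⟧) (r : Fin b → (O E)⟦X⟧), g = v * h +
      ∑ i, pullA (ContinuousLinearMap.snd ℝ ℝ E) (r i) *
        C (lin (ContinuousLinearMap.fst ℝ ℝ E)) ^ (i : ℕ) := by
  have hO : ∀ g : O (ℝ × E), ∃ (v : O (ℝ × E)) (r : Fin b → O E), g = v * mk F hF +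
      ∑ i, pullL (ContinuousLinearMap.snd ℝ ℝ E) (r i) *
        lin (ContinuousLinearMap.fst ℝ ℝ E) ^ (i : ℕ) := by
    intro g
    obtain ⟨f, hf, rfl⟩ := exists_rep g
    obtain ⟨v, r, hv, hr, h⟩ := weierstrass_division (p0 := (0 : E)) hF hu hu0 hFu hf
    refine ⟨mk v hv, fun i => mk (r i) (hr i), ?_⟩
    simp only [pullL, pull_mk, lin, mk_pow, mk_mul]
    rw [mk_sum, mk_add]
    exact mk_congr _ _ h
  choose vq rq hq using hO
  obtain ⟨h1, hh1⟩ : ∃ h1, h = X * h1 + C (mk F hF) :=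
    ⟨_, by rw [← h0]; exact eq_X_mul_shift_add_const h⟩
  obtain ⟨v, -, hv⟩ := exists_fixed (ι := Unit)
    (fun v _ => PowerSeries.mk fun n => vq (coeff n (g - X * h1 * v ()))) 0 0
    (fun _ _ _ => by simp) (fun N v v' _ _ hvv _ => by
      obtain ⟨c, hc⟩ := hvv ()
      refine X_pow_dvd_iff.2 fun m hm => ?_
      have h2 : (X : (O (ℝ × E))⟦X⟧) ^ (N + 1) ∣ (g - X * h1 * v ()) - (g - X * h1 * v' ()) :=
        ⟨-(h1 * c), by linear_combination (-(X * h1)) * hc⟩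
      have h3 := X_pow_dvd_iff.1 h2 m hm
      rw [map_sub, sub_eq_zero] at h3
      rw [map_sub, coeff_mk, coeff_mk, h3, sub_self])
  refine ⟨v (), fun i => PowerSeries.mk fun n => rq (coeff n (g - X * h1 * v ())) i, ?_⟩
  have h2 : g - X * h1 * v () = v () * C (mk F hF) +
      ∑ i, pullA (ContinuousLinearMap.snd ℝ ℝ E)
        (PowerSeries.mk fun n => rq (coeff n (g - X * h1 * v ())) i) *
        C (lin (ContinuousLinearMap.fst ℝ ℝ E)) ^ (i : ℕ) := by
    ext n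
    have h3 : coeff n (v ()) = vq (coeff n (g - X * h1 * v ())) := by
      conv_lhs => rw [← hv]
      rw [coeff_mk]
    rw [map_add, map_sum, coeff_mul_C, h3]
    simp only [← map_pow, coeff_mul_C, coeff_pullA, coeff_mk]
    exact hq _
  rw [hh1]
  linear_combination h2

end Vale.Agent.P218F.Alg
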