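import Vale.Agent.P218F.AlgG

/-!
# P218 (helper61), block ALG: strong approximation for primes of `(O E)⟦X⟧` not containing `X`
-/

open Filter Topology PowerSeries

namespace Vale.Agent.P218F.Alg

theorem exists_minpoly {B : Type*} [CommRing B] [IsDomain B] [CharZero B]
    (Q : Ideal (Polynomial B)) (hQ : ∀ b, Polynomial.C b ∈ Q → b = 0) (hne : ∃ W ∈ Q, W ≠ 0) :
    ∃ G ∈ Q, G ≠ 0 ∧ G.derivative ∉ Q ∧ ∀ (ψ : B →+* ℝ⟦X⟧) (s : ℝ⟦X⟧), ψ G.leadingCoeff ≠ 0 →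
      G.eval₂ ψ s = 0 → ∀ ρ ∈ Q, ρ.eval₂ ψ s = 0 := by
  classical
  have hex : ∃ n, ∃ W ∈ Q, W ≠ 0 ∧ W.natDegree = n :=
    let ⟨W, h1, h2⟩ := hne; ⟨_, W, h1, h2, rfl⟩
  obtain ⟨G, hG, hG0, hGd⟩ := Nat.find_spec hex
  have hmin : ∀ W ∈ Q, W ≠ 0 → G.natDegree ≤ W.natDegree := fun W h1 h2 =>
    hGd ▸ Nat.find_min' hex ⟨W, h1, h2, rfl⟩
  have hpos : G.natDegree ≠ 0 := by
    intro h
    have h1 := Polynomial.eq_C_of_natDegree_eq_zero h
    rw [h1] at hG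
    rw [hQ _ hG, Polynomial.C_0] at h1
    exact hG0 h1
  refine ⟨G, hG, hG0, fun h => ?_, fun ψ s hψ hs => ?_⟩
  · have h1 := hmin _ h (Polynomial.derivative_ne_zero.2 hpos)
    have h2 := Polynomial.natDegree_derivative_lt hpos
    omega
  · have key : ∀ n, ∀ ρ ∈ Q, ρ.natDegree = n → ρ.eval₂ ψ s = 0 := by
      intro n
      induction n using Nat.strong_induction_on with
      | _ n ih =>
        intro ρ hρ hn
        by_cases h0 : ρ = 0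
        · simp [h0]
        have h1 := hmin ρ hρ h0
        have h2 := Polynomial.natDegree_cancelLeads_lt_of_natDegree_le_natDegree h1 (by omega)
        have h3 := ih _ (hn ▸ h2) (G.cancelLeads ρ)
          (Q.sub_mem (Q.mul_mem_left _ hρ) (Q.mul_mem_left _ hG)) rfl
        rw [Polynomial.cancelLeads, Nat.sub_eq_zero_of_le h1] at h3
        simp only [Polynomial.eval₂_sub, Polynomial.eval₂_mul, Polynomial.eval₂_C, hs, mul_zero,
          sub_zero, pow_zero, mul_one] at h3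
        exact (mul_eq_zero.1 h3).resolve_left hψ
    exact fun ρ hρ => key _ ρ hρ rfl

theorem eval₂_congr {A R : Type*} [CommRing A] [CommRing R] {φ ψ : A →+* R⟦X⟧} {N : ℕ}
    (h : ∀ a, (X : R⟦X⟧) ^ N ∣ φ a - ψ a) (s : R⟦X⟧) (ρ : Polynomial A) :
    (X : R⟦X⟧) ^ N ∣ ρ.eval₂ φ s - ρ.eval₂ ψ s := by
  induction ρ using Polynomial.induction_on' with
  | add p q hp hq =>
    have := dvd_add hp hq
    rw [Polynomial.eval₂_add, Polynomial.eval₂_add]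
    convert this using 1
    ring
  | monomial n a =>
    rw [Polynomial.eval₂_monomial, Polynomial.eval₂_monomial, ← sub_mul]
    exact (h a).mul_right _

theorem exists_unit_of_not_dvd {m : ℕ} {u : ℝ⟦X⟧} (h : ¬ (X : ℝ⟦X⟧) ^ (m + 1) ∣ u) :
    ∃ j ≤ m, ∃ v : ℝ⟦X⟧, IsUnit v ∧ u = X ^ j * v := by
  have h0 : u ≠ 0 := fun h0 => h (h0 ▸ dvd_zero _)
  refine ⟨u.order.toNat, ?_, divXPowOrder u, isUnit_divided_by_X_pow_order h0,
    X_pow_order_mul_divXPowOrder.symm⟩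
  by_contra h1
  exact h (dvd_mono X_pow_order_dvd (by omega))

theorem not_dvd_of_congr {m N : ℕ} {u v : ℝ⟦X⟧} (h : ¬ (X : ℝ⟦X⟧) ^ (m + 1) ∣ u) (hN : m < N)
    (huv : (X : ℝ⟦X⟧) ^ N ∣ v - u) : ¬ (X : ℝ⟦X⟧) ^ (m + 1) ∣ v := fun h1 => h (by
  have := dvd_sub h1 (dvd_mono huv hN)
  rwa [sub_sub_cancel] at this)

variable {E : Type} [NormedAddCommGroup E] [NormedSpace ℝ E]
variable {E' : Type} [NormedAddCommGroup E'] [NormedSpace ℝ E']

/-- strong approximation property of an ideal -/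
def SA (p : Ideal (O E)⟦X⟧) : Prop :=
  ∃ (G : Finset (O E)⟦X⟧) (w : (O E)⟦X⟧) (c : ℕ), (∀ g ∈ G, g ∈ p) ∧ w ∉ p ∧
    ∀ S : (O E)⟦X⟧ →ₐ[ℝ] ℝ⟦X⟧, Loc S → ∀ m N : ℕ, m < N → ¬ (X : ℝ⟦X⟧) ^ (m + 1) ∣ S w →
      (∀ g ∈ G, (X : ℝ⟦X⟧) ^ (N + c * m) ∣ S g) →
      ∃ Φ : (O E)⟦X⟧ →ₐ[ℝ] ℝ⟦X⟧, Loc Φ ∧ Φ X = S X ∧ (∀ h, (X : ℝ⟦X⟧) ^ N ∣ Φ h - S h) ∧
        ∀ h ∈ p, Φ h = 0

theorem SA.transport (L : E ≃L[ℝ] E') {p : Ideal (O E)⟦X⟧}
    (h : SA (p.comap (pullA (L : E →L[ℝ] E')))) : SA p := by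
  classical
  obtain ⟨G, w, c, hG, hw, h⟩ := h
  have hαβ : ∀ u, pullA (L : E →L[ℝ] E') (pullA (L.symm : E' →L[ℝ] E) u) = u :=
    pullA_pullA _ _ fun y => by simp
  refine ⟨G.image (pullA (L : E →L[ℝ] E')), pullA (L : E →L[ℝ] E') w, c, ?_, hw, ?_⟩
  · intro g hg
    obtain ⟨g', hg', rfl⟩ := Finset.mem_image.1 hg
    exact hG g' hg'
  · intro S hS m N hmN h1 h2
    obtain ⟨Φ, h3, h4, h5, h6⟩ := h (S.comp (pullA (L : E →L[ℝ] E'))) (hS.comp_pullA _) m N hmN h1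
      fun g hg => h2 _ (Finset.mem_image_of_mem _ hg)
    refine ⟨Φ.comp (pullA (L.symm : E' →L[ℝ] E)), h3.comp_pullA _, ?_, fun u => ?_,
      fun u hu => h6 _ ?_⟩
    · simpa [pullA_X] using h4
    · simpa [hαβ] using h5 (pullA (L.symm : E' →L[ℝ] E) u)
    · exact Ideal.mem_comap.2 ((hαβ u).symm ▸ hu)

theorem lin_split (l : ℝ × E →L[ℝ] ℝ) : lin l = algebraMap ℝ _ (l (1, 0)) *
    lin (ContinuousLinearMap.fst ℝ ℝ E) +
      pullL (ContinuousLinearMap.snd ℝ ℝ E) (lin (l ∘L ContinuousLinearMap.inr ℝ ℝ E)) := by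
  rw [pullL_lin]
  simp only [lin, algebraMap_eq, mk_mul, mk_add]
  refine mk_congr _ _ (Eventually.of_forall fun y => ?_)
  have : y = y.1 • ((1 : ℝ), (0 : E)) + (0, y.2) := by simp
  conv_lhs => rw [this, map_add, map_smul]
  simp [mul_comm]

/-- extension of an arc by one more coordinate -/
theorem exists_extend [FiniteDimensional ℝ E] {Φ' : (O E)⟦X⟧ →ₐ[ℝ] ℝ⟦X⟧} (h : Loc Φ')
    {s : ℝ⟦X⟧} (hs : X ∣ s) : ∃ Φ : (O (ℝ × E))⟦X⟧ →ₐ[ℝ] ℝ⟦X⟧, Loc Φ ∧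
      Φ.comp (pullA (ContinuousLinearMap.snd ℝ ℝ E)) = Φ' ∧
      Φ (C (lin (ContinuousLinearMap.fst ℝ ℝ E))) = s := by
  let γ : (ℝ × E →L[ℝ] ℝ) →ₗ[ℝ] ℝ⟦X⟧ :=
    { toFun := fun l => l (1, 0) • s + Φ' (C (lin (l ∘L ContinuousLinearMap.inr ℝ ℝ E)))
      map_add' := fun l l' => by
        have : lin ((l + l') ∘L ContinuousLinearMap.inr ℝ ℝ E) =
          lin (l ∘L ContinuousLinearMap.inr ℝ ℝ E) +
            lin (l' ∘L ContinuousLinearMap.inr ℝ ℝ E) := rfl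
        rw [this, map_add, map_add, _root_.add_apply, add_smul]
        ring
      map_smul' := fun c l => by
        have : lin ((c • l) ∘L ContinuousLinearMap.inr ℝ ℝ E) =
          algebraMap ℝ _ c * lin (l ∘L ContinuousLinearMap.inr ℝ ℝ E) := rfl
        rw [this, map_mul, map_mul, ← PowerSeries.algebraMap_apply, AlgHom.commutes,
          _root_.smul_apply, RingHom.id_apply, smul_add, smul_smul,
          ← Algebra.smul_def, smul_eq_mul] }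
  obtain ⟨Φ, h1, h2, h3⟩ := exists_ev (Φ' X) h.1 γ fun l => by
    refine dvd_add ?_ (h.2 _)
    rw [Algebra.smul_def]
    exact hs.mul_left _
  refine ⟨Φ, h1, loc_ext (h1.comp_pullA _) h (by simpa [pullA_X] using h2) fun l => ?_, ?_⟩
  · rw [AlgHom.comp_apply, pullA_C, pullL_lin, h3]
    have : (l ∘L ContinuousLinearMap.snd ℝ ℝ E) ∘L ContinuousLinearMap.inr ℝ ℝ E = l := by
      ext y
      simp
    simp [γ, this]
  · rw [h3]
    have : lin (0 : E →L[ℝ] ℝ) = 0 :=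
      (mk_eq_zero_iff _).2 (Eventually.of_forall fun y => by simp)
    simp [γ, this]

theorem cofactor_ne_zero [FiniteDimensional ℝ E] {h : (O (ℝ × E))⟦X⟧} {F : ℝ × E → ℝ}
    {hF : AnalyticAt ℝ F 0} (h0 : constantCoeff h = mk F hF) {b : ℕ} {u : ℝ → ℝ}
    (hu : AnalyticAt ℝ u 0) (hFu : ∀ᶠ x in 𝓝 (0 : ℝ), F (x, 0) = x ^ b * u x)
    {v : (O (ℝ × E))⟦X⟧} {r : Fin b → (O E)⟦X⟧}
    (hv : C (lin (ContinuousLinearMap.fst ℝ ℝ E)) ^ b = v * h +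
      ∑ i, pullA (ContinuousLinearMap.snd ℝ ℝ E) (r i) *
        C (lin (ContinuousLinearMap.fst ℝ ℝ E)) ^ (i : ℕ))
    {Φ : (O (ℝ × E))⟦X⟧ →ₐ[ℝ] ℝ⟦X⟧} (hΦ : Loc Φ) : Φ v ≠ 0 := by
  let e0 : (O E)⟦X⟧ →ₐ[ℝ] ℝ⟦X⟧ := (Algebra.ofId ℝ ℝ⟦X⟧).comp ((ev0 E).comp
    { constantCoeff (R := O E) with
      commutes' := fun c => by simp [PowerSeries.algebraMap_apply] })
  have he0 : ∀ a, e0 a = C (ev0 E (constantCoeff a)) := fun a => rfl
  have hl0 : ∀ l : E →L[ℝ] ℝ, ev0 E (lin l) = 0 := fun l => l.map_zero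
  have hloc : Loc e0 := ⟨by simp [he0], fun l => by simp [he0, hl0]⟩
  obtain ⟨Φ0, h1, h2, h3⟩ := exists_extend hloc (dvd_refl X)
  have hX : Φ0 X = 0 := by
    have := congrArg (fun φ : (O E)⟦X⟧ →ₐ[ℝ] ℝ⟦X⟧ => φ X) h2
    simpa [pullA_X, he0] using this
  have hι : ∀ a, Φ0 (pullA (ContinuousLinearMap.snd ℝ ℝ E) a) = C (ev0 E (constantCoeff a)) :=
    fun a => congrArg (fun φ : (O E)⟦X⟧ →ₐ[ℝ] ℝ⟦X⟧ => φ a) h2
  let π : ℝ × E →L[ℝ] ℝ × E := ContinuousLinearMap.inl ℝ ℝ E ∘L ContinuousLinearMap.fst ℝ ℝ E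
  have hπ : Φ0.comp (pullA π) = Φ0 := by
    refine loc_ext (h1.comp_pullA _) h1 (by simp [pullA_X]) fun l => ?_
    rw [AlgHom.comp_apply, pullA_C, pullL_lin, lin_split l, lin_split (l ∘L π)]
    simp only [map_add, ← pullA_C, hι, constantCoeff_C, hl0]
    simp [π]
  have hU : AnalyticAt ℝ (fun z : ℝ × E => u z.1) 0 :=
    AnalyticAt.comp_of_eq hu analyticAt_fst rfl
  have hh : Φ0 h = X ^ b * Φ0 (C (mk _ hU)) := by
    have h4 : pullL π (mk F hF) = lin (ContinuousLinearMap.fst ℝ ℝ E) ^ b * mk _ hU := by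
      simp only [pullL, pull_mk, lin, mk_pow, mk_mul]
      refine mk_congr _ _ ?_
      have : Tendsto (Prod.fst : ℝ × E → ℝ) (𝓝 0) (𝓝 0) := continuous_fst.tendsto _
      filter_upwards [this.eventually hFu] with y hy
      simpa [π] using hy
    have h5 := congrArg (fun φ : (O (ℝ × E))⟦X⟧ →ₐ[ℝ] ℝ⟦X⟧ => φ (C (mk F hF))) hπ
    simp only [AlgHom.comp_apply, pullA_C, h4, map_mul, map_pow, h3] at h5
    rw [eq_X_mul_shift_add_const h, map_add, map_mul, hX, zero_mul, zero_add, h0, ← h5]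
  have h6 := congrArg Φ0 hv
  simp only [map_pow, map_add, map_mul, map_sum, h3, hι, hh] at h6
  have h7 := congrArg (coeff b) h6
  have h8 : ∀ i : Fin b, coeff b (C (ev0 E (constantCoeff (r i))) * (X : ℝ⟦X⟧) ^ (i : ℕ)) = 0 := by
    intro i
    rw [coeff_C_mul_X_pow, if_neg i.2.ne']
  rw [map_add, map_sum, Finset.sum_eq_zero fun i _ => h8 i, add_zero, coeff_X_pow_self,
    mul_left_comm, coeff_X_pow_mul', if_pos le_rfl, Nat.sub_self, coeff_zero_eq_constantCoeff,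
    map_mul] at h7
  intro h9
  have h10 := loc_congr hΦ h1 (N := 1) (by simpa using dvd_sub hΦ.1 h1.1)
    (fun l => by simpa using dvd_sub (hΦ.2 l) (h1.2 l)) v
  rw [h9, zero_sub, pow_one, dvd_neg, X_dvd_iff] at h10
  rw [h10, zero_mul] at h7
  exact one_ne_zero h7

theorem SA.step [FiniteDimensional ℝ E] {p : Ideal (O (ℝ × E))⟦X⟧} [hp : p.IsPrime]
    {h : (O (ℝ × E))⟦X⟧} (hh : h ∈ p) {F : ℝ × E → ℝ}
    {hF : AnalyticAt ℝ F 0} (h0 : constantCoeff h = mk F hF) {b : ℕ} {u : ℝ → ℝ}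
    (hu : AnalyticAt ℝ u 0) (hu0 : u 0 ≠ 0) (hFu : ∀ᶠ x in 𝓝 (0 : ℝ), F (x, 0) = x ^ b * u x)
    (hSA : SA (p.comap (pullA (ContinuousLinearMap.snd ℝ ℝ E)))) : SA p := by
  classical
  obtain ⟨ι, hι⟩ : ∃ ι, ι = pullA (ContinuousLinearMap.snd ℝ ℝ E) := ⟨_, rfl⟩
  obtain ⟨Y, hY⟩ : ∃ Y : (O (ℝ × E))⟦X⟧, Y = C (lin (ContinuousLinearMap.fst ℝ ℝ E)) := ⟨_, rfl⟩
  rw [← hι] at hSA
  obtain ⟨p', hp'⟩ : ∃ p', p' = p.comap ι := ⟨_, rfl⟩
  rw [← hp'] at hSA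
  have hmem : ∀ a, a ∈ p' ↔ ι a ∈ p := fun a => by rw [hp', Ideal.mem_comap]
  have hp'p : p'.IsPrime := hp' ▸ Ideal.comap_isPrime ι p
  have hdiv : ∀ g, ∃ (v : (O (ℝ × E))⟦X⟧) (r : Fin b → (O E)⟦X⟧),
      g = v * h + ∑ i, ι (r i) * Y ^ (i : ℕ) := by
    rw [hι, hY]
    exact div_A h0 hu hu0 hFu
  let π : Polynomial (O E)⟦X⟧ →+* (O (ℝ × E))⟦X⟧ := Polynomial.eval₂RingHom ι.toRingHom Y
  have hπ : ∀ r : Fin b → (O E)⟦X⟧, π (∑ i, Polynomial.C (r i) * Polynomial.X ^ (i : ℕ)) =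
      ∑ i, ι (r i) * Y ^ (i : ℕ) := fun r => by simp [π]
  let q := Ideal.Quotient.mk p'
  let ιq : (O E)⟦X⟧ ⧸ p' →+* (O (ℝ × E))⟦X⟧ ⧸ p :=
    Ideal.Quotient.lift p' ((Ideal.Quotient.mk p).comp ι.toRingHom) fun a ha =>
      Ideal.Quotient.eq_zero_iff_mem.2 ((hmem a).1 ha)
  let Q := RingHom.ker (Polynomial.eval₂RingHom ιq (Ideal.Quotient.mk p Y))
  have hQ : ∀ ρ, ρ.map q ∈ Q ↔ π ρ ∈ p := by
    intro ρ
    rw [RingHom.mem_ker, Polynomial.coe_eval₂RingHom, Polynomial.eval₂_map,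
      ← Ideal.Quotient.eq_zero_iff_mem]
    have : Ideal.Quotient.mk p (π ρ) = Polynomial.eval₂ (ιq.comp q) (Ideal.Quotient.mk p Y) ρ :=
      Polynomial.hom_eval₂ ρ ι.toRingHom (Ideal.Quotient.mk p) Y
    rw [this]
  obtain ⟨v0, r0, hv0⟩ := hdiv (Y ^ b)
  have hW : π (Polynomial.X ^ b - ∑ i, Polynomial.C (r0 i) * Polynomial.X ^ (i : ℕ)) = v0 * h := by
    rw [map_sub, hπ, map_pow]
    have : π Polynomial.X = Y := by simp [π]
    rw [this, hv0]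
    ring
  have : CharZero ((O E)⟦X⟧ ⧸ p') := charZero_of_injective_ringHom
    (f := q.comp (algebraMap ℝ (O E)⟦X⟧)) (RingHom.injective _)
  obtain ⟨G, hGQ, hG0, hG', hG⟩ := exists_minpoly Q (fun a ha => by
    obtain ⟨a, rfl⟩ := Ideal.Quotient.mk_surjective a
    have h1 := (hQ (Polynomial.C a)).1 (by simpa using ha)
    exact Ideal.Quotient.eq_zero_iff_mem.2 ((hmem a).2 (by simpa [π] using h1)))
    ⟨_, (hQ _).2 (hW ▸ p.mul_mem_left _ hh), by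
      refine Polynomial.Monic.ne_zero (Polynomial.Monic.map _ ?_)
      exact Polynomial.monic_X_pow_sub (Polynomial.degree_sum_fin_lt r0)⟩
  obtain ⟨G0, rfl⟩ := Polynomial.map_surjective q Ideal.Quotient.mk_surjective G
  obtain ⟨a0, ha0⟩ := Ideal.Quotient.mk_surjective (I := p') (G0.map q).leadingCoeff
  have ha0' : ι a0 ∉ p := fun h1 => hG0 (Polynomial.leadingCoeff_eq_zero.1
    (ha0 ▸ Ideal.Quotient.eq_zero_iff_mem.2 ((hmem a0).2 h1)))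
  rw [Polynomial.derivative_map, hQ] at hG'
  rw [hQ] at hGQ
  obtain ⟨G', w', c', hG'p, hw', hSA⟩ := hSA
  refine ⟨insert (π G0) (G'.image ι), ι w' * ι a0 * π G0.derivative, c' + 2, ?_, ?_, ?_⟩
  · intro g hg
    rcases Finset.mem_insert.1 hg with rfl | hg
    · exact hGQ
    · obtain ⟨g', hg', rfl⟩ := Finset.mem_image.1 hg
      exact (hmem g').1 (hG'p g' hg')
  · intro h1
    rcases hp.mem_or_mem h1 with h2 | h2
    · rcases hp.mem_or_mem h2 with h3 | h3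
      · exact hw' ((hmem w').2 h3)
      · exact ha0' h3
    · exact hG' h2
  intro S hS m N hmN h1 h2
  rw [map_mul, map_mul] at h1
  have hw1 : ¬ (X : ℝ⟦X⟧) ^ (m + 1) ∣ S (ι w') := fun h => h1 ((h.mul_right _).mul_right _)
  have hw2 : ¬ (X : ℝ⟦X⟧) ^ (m + 1) ∣ S (ι a0) := fun h => h1 ((h.mul_left _).mul_right _)
  have hw3 : ¬ (X : ℝ⟦X⟧) ^ (m + 1) ∣ S (π G0.derivative) := fun h => h1 (h.mul_left _)
  have hSι : Loc (S.comp ι) := hι ▸ hS.comp_pullA _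
  obtain ⟨Φ', hΦ1, hΦ2, hΦ3, hΦ4⟩ := hSA (S.comp ι) hSι m (N + 2 * m) (by omega) hw1
    fun g hg => by
      have := h2 (ι g) (Finset.mem_insert_of_mem (Finset.mem_image_of_mem _ hg))
      rwa [show N + (c' + 2) * m = N + 2 * m + c' * m by ring] at this
  have hSπ : ∀ ρ : Polynomial (O E)⟦X⟧, (X : ℝ⟦X⟧) ^ (N + 2 * m) ∣
      (ρ.map Φ'.toRingHom).eval (S Y) - S (π ρ) := by
    intro ρ
    have h3 : S (π ρ) = ρ.eval₂ (S.comp ι).toRingHom (S Y) :=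
      Polynomial.hom_eval₂ ρ ι.toRingHom S.toRingHom Y
    rw [h3, Polynomial.eval_map]
    exact eval₂_congr hΦ3 _ _
  obtain ⟨j, hj, v, hv, hjv⟩ := exists_unit_of_not_dvd
    (not_dvd_of_congr hw3 (by omega) (hSπ G0.derivative))
  rw [← Polynomial.derivative_map] at hjv
  obtain ⟨s, hs1, hs2⟩ := hensel (G0.map Φ'.toRingHom) (S Y) v j (N + 2 * m - 2 * j) hv
    (by omega) hjv (by
      have h3 := dvd_add (hSπ G0) (dvd_mono (h2 _ (Finset.mem_insert_self _ _))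
        (by nlinarith : N + 2 * m ≤ N + (c' + 2) * m))
      rw [sub_add_cancel] at h3
      rwa [show N + 2 * m - 2 * j + 2 * j = N + 2 * m by omega])
  have hsN : (X : ℝ⟦X⟧) ^ N ∣ s - S Y := dvd_mono hs1 (by omega)
  obtain ⟨Φ, h3, h4, h5⟩ := exists_extend hΦ1 (s := s) (by
    have h3 := dvd_add (dvd_mono hsN (M := 1) (by omega)) (by simpa [hY] using hS.2 _ :
      (X : ℝ⟦X⟧) ^ 1 ∣ S Y)
    rwa [sub_add_cancel, pow_one] at h3)
  rw [← hι] at h4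
  rw [← hY] at h5
  have hΦι : ∀ a, Φ (ι a) = Φ' a := fun a =>
    congrArg (fun φ : (O E)⟦X⟧ →ₐ[ℝ] ℝ⟦X⟧ => φ a) h4
  have hιX : ι X = X := hι ▸ pullA_X _
  have hΦX : Φ X = S X := by
    rw [← hιX, hΦι, hΦ2, AlgHom.comp_apply]
  let ψ : (O E)⟦X⟧ ⧸ p' →+* ℝ⟦X⟧ := Ideal.Quotient.lift p' Φ'.toRingHom hΦ4
  have hΦπ : ∀ ρ, π ρ ∈ p → Φ (π ρ) = 0 := by
    intro ρ hρ
    have h6 := hG ψ s (by
      rw [← ha0]
      intro h6
      have h7 : Φ' a0 = 0 := h6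
      exact not_dvd_of_congr hw2 (by omega) (hΦ3 a0) (h7 ▸ dvd_zero _)) (by
      rw [Polynomial.eval₂_map, ← hs2, Polynomial.eval_map]
      rfl) _ ((hQ ρ).2 hρ)
    have h7 : Φ (π ρ) = ρ.eval₂ (Φ.comp ι).toRingHom (Φ Y) :=
      Polynomial.hom_eval₂ ρ ι.toRingHom Φ.toRingHom Y
    rw [h7, h4, h5, ← h6, Polynomial.eval₂_map]
    rfl
  have hΦh : Φ h = 0 := by
    have h6 := hΦπ _ (hW ▸ p.mul_mem_left _ hh)
    rw [hW, map_mul] at h6
    rw [hι, hY] at hv0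
    exact (mul_eq_zero.1 h6).resolve_left (cofactor_ne_zero h0 hu hFu hv0 h3)
  refine ⟨Φ, h3, hΦX, loc_congr h3 hS (by simp [hΦX]) fun l => ?_, fun g hg => ?_⟩
  · rw [lin_split l]
    simp only [map_add, map_mul, ← pullA_C, ← PowerSeries.algebraMap_apply, AlgHom.commutes,
      ← hι, ← hY, hΦι, h5]
    have h6 := dvd_add (hsN.mul_left (algebraMap ℝ ℝ⟦X⟧ (l (1, 0))))
      (dvd_mono (hΦ3 (C (lin (l ∘L ContinuousLinearMap.inr ℝ ℝ E)))) (Nat.le_add_right N _))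
    convert h6 using 1
    rw [AlgHom.comp_apply]
    ring
  · obtain ⟨v1, r1, hv1⟩ := hdiv g
    rw [← hπ] at hv1
    have h6 := hΦπ _ (by
      have := p.sub_mem hg (p.mul_mem_left v1 hh)
      rwa [hv1, add_sub_cancel_left] at this)
    rw [hv1, map_add, map_mul, hΦh, h6, mul_zero, add_zero]

theorem exists_direction {f : E → ℝ} (hf : AnalyticAt ℝ f 0) (h : ¬ ∀ᶠ y in 𝓝 0, f y = 0) :
    ∃ v : E, ¬ ∀ᶠ s in 𝓝 (0 : ℝ), f (s • v) = 0 := by
  by_contra hc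
  push Not at hc
  apply h
  obtain ⟨r, hr, hball⟩ := Metric.eventually_nhds_iff_ball.1 hf.eventually_analyticAt
  filter_upwards [Metric.ball_mem_nhds 0 hr] with y hy
  let L : ℝ →L[ℝ] E := ContinuousLinearMap.toSpanSingleton ℝ y
  have h1 : AnalyticOnNhd ℝ (fun s : ℝ => f (L s)) (L ⁻¹' Metric.ball 0 r) := fun s hs =>
    (hball _ hs).comp (L.analyticAt s)
  have h2 := h1.eqOn_zero_of_preconnected_of_eventuallyEq_zero
    ((convex_ball (0 : E) r).linear_preimage L.toLinearMap).isPreconnected (z₀ := 0)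
    (by simpa using hr) (hc y) (x := 1) (by simpa [L] using hy)
  simpa [L] using h2

theorem sa_of_prime (n : ℕ) : ∀ (E : Type) [NormedAddCommGroup E] [NormedSpace ℝ E]
    [FiniteDimensional ℝ E], Module.finrank ℝ E = n → ∀ p : Ideal (O E)⟦X⟧, p.IsPrime →
      X ∉ p → SA p := by
  induction n using Nat.strong_induction_on with
  | _ n ih =>
    intro E _ _ _ hn p hp hX
    by_cases h0 : p = ⊥
    · refine ⟨∅, 1, 0, by simp, (Ideal.ne_top_iff_one p).1 hp.ne_top, fun S hS m N _ _ _ =>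
        ⟨S, hS, rfl, by simp, fun h hh => ?_⟩⟩
      rw [h0, Ideal.mem_bot] at hh
      rw [hh, map_zero]
    obtain ⟨g, hg, hg0⟩ := Submodule.exists_mem_ne_zero_of_ne_bot h0
    have hh : divXPowOrder g ∈ p := by
      rw [← X_pow_order_mul_divXPowOrder (f := g)] at hg
      exact (hp.mem_or_mem hg).resolve_left fun h => hX (hp.mem_of_pow_mem _ h)
    obtain ⟨f, hf, hfe⟩ := exists_rep (constantCoeff (divXPowOrder g))
    obtain ⟨v, hv⟩ := exists_direction hf fun h =>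
      hg0 (constantCoeff_divXPowOrder_eq_zero_iff.1 (hfe ▸ (mk_eq_zero_iff hf).2 h))
    have hv0 : v ≠ 0 := by
      rintro rfl
      refine hp.ne_top (Ideal.eq_top_of_isUnit_mem _ hh (isUnit_iff_constantCoeff.2 ?_))
      rw [← hfe, isUnit_iff, ev0_mk]
      intro h1
      exact hv (Eventually.of_forall fun s => by rw [smul_zero, h1])
    obtain ⟨W, hW⟩ := Submodule.exists_isCompl (Submodule.span ℝ {v})
    let L : (ℝ × W) ≃L[ℝ] E := (((LinearEquiv.toSpanNonzeroSingleton ℝ E v hv0).prodCongr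
      (LinearEquiv.refl ℝ W)).trans (Submodule.prodEquivOfIsCompl _ _ hW)).toContinuousLinearEquiv
    have hL : ∀ x : ℝ, L (x, 0) = x • v := fun x => by
      simp [L, Submodule.coe_prodEquivOfIsCompl']
    have hdim : Module.finrank ℝ W < n := by
      have := Submodule.finrank_add_eq_of_isCompl hW
      rw [finrank_span_singleton hv0] at this
      omega
    have hfv : AnalyticAt ℝ (fun s : ℝ => f (s • v)) 0 :=
      AnalyticAt.comp_of_eq hf (analyticAt_id.smul analyticAt_const) (zero_smul _ _)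
    obtain ⟨b, u, hu, hu0, hfu⟩ := hfv.exists_eventuallyEq_pow_smul_nonzero_iff.2 hv
    refine SA.transport L.symm ?_
    have hp1 : (p.comap (pullA (L.symm : E →L[ℝ] ℝ × W))).IsPrime := Ideal.comap_isPrime _ p
    have hF : AnalyticAt ℝ (fun z => f (L z)) 0 :=
      AnalyticAt.comp_of_eq hf ((L : ℝ × W →L[ℝ] E).analyticAt 0) L.map_zero
    refine SA.step (h := pullA (L : ℝ × W →L[ℝ] E) (divXPowOrder g)) ?_ (hF := hF) ?_ (b := b)
      hu hu0 ?_ (ih _ hdim W rfl _ (Ideal.comap_isPrime _ _) ?_)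
    · rw [Ideal.mem_comap, pullA_pullA _ _ fun y => by simp]
      exact hh
    · rw [← coeff_zero_eq_constantCoeff_apply, coeff_pullA, coeff_zero_eq_constantCoeff_apply,
        ← hfe]
      rfl
    · filter_upwards [hfu] with x hx
      rw [hL, hx, sub_zero, smul_eq_mul]
    · rw [Ideal.mem_comap, Ideal.mem_comap, pullA_X, pullA_X]
      exact hX

end Vale.Agent.P218F.Alg
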