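import Mathlib.RingTheory.PowerSeries.Trunc
import Mathlib.RingTheory.MvPolynomial.Ideal
import Mathlib.Algebra.MvPolynomial.PDeriv
import Mathlib.Data.Real.Basic
import Mathlib.Algebra.Polynomial.Taylor
import Mathlib.Tactic.LinearCombination

/-!
# P218 (helper61), block ALG: `t`-adic limits and algebras with a Hadamard lemma
-/

namespace Vale.Agent.P218F.Alg

open PowerSeries

section adic

variable {R : Type*} [CommRing R]

theorem eq_zero_of_dvd {u : R⟦X⟧} (h : ∀ N, (X : R⟦X⟧) ^ N ∣ u) : u = 0 := by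
  ext n
  simpa using X_pow_dvd_iff.1 (h (n + 1)) n n.lt_succ_self

theorem dvd_mono {u : R⟦X⟧} {N M : ℕ} (h : (X : R⟦X⟧) ^ N ∣ u) (hM : M ≤ N) :
    (X : R⟦X⟧) ^ M ∣ u := (pow_dvd_pow _ hM).trans h

theorem exists_limit (u : ℕ → R⟦X⟧) (h : ∀ N, (X : R⟦X⟧) ^ N ∣ u (N + 1) - u N) :
    ∃ v : R⟦X⟧, ∀ N, (X : R⟦X⟧) ^ N ∣ v - u N := by
  have key : ∀ n N, n ≤ N → (X : R⟦X⟧) ^ n ∣ u N - u n := by
    intro n N hN
    induction N, hN using Nat.le_induction with
    | base => simp
    | succ N hN ih =>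
      have : u (N + 1) - u n = (u (N + 1) - u N) + (u N - u n) := by ring
      rw [this]
      exact dvd_add (dvd_mono (h N) hN) ih
  refine ⟨PowerSeries.mk fun n => coeff n (u (n + 1)), fun N => X_pow_dvd_iff.2 fun m hm => ?_⟩
  have h1 := X_pow_dvd_iff.1 (key (m + 1) N hm) m m.lt_succ_self
  rw [map_sub] at h1
  rw [map_sub, coeff_mk]
  linear_combination -h1

/-- `t`-adic fixed point theorem in a ball. -/
theorem exists_fixed {ι : Type*} (Φ : (ι → R⟦X⟧) → ι → R⟦X⟧) (u0 : ι → R⟦X⟧) (m : ℕ)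
    (hm : ∀ u, (∀ i, (X : R⟦X⟧) ^ m ∣ u i - u0 i) → ∀ i, (X : R⟦X⟧) ^ m ∣ Φ u i - u0 i)
    (hc : ∀ N u v, (∀ i, (X : R⟦X⟧) ^ m ∣ u i - u0 i) → (∀ i, (X : R⟦X⟧) ^ m ∣ v i - u0 i) →
      (∀ i, (X : R⟦X⟧) ^ N ∣ u i - v i) → ∀ i, (X : R⟦X⟧) ^ (N + 1) ∣ Φ u i - Φ v i) :
    ∃ u, (∀ i, (X : R⟦X⟧) ^ m ∣ u i - u0 i) ∧ Φ u = u := by
  have h1 : ∀ N i, (X : R⟦X⟧) ^ m ∣ (Φ^[N] u0) i - u0 i := by
    intro N
    induction N with
    | zero => simp
    | succ N ih =>
      rw [Function.iterate_succ_apply']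
      exact hm _ ih
  have h2 : ∀ N i, (X : R⟦X⟧) ^ N ∣ (Φ^[N + 1] u0) i - (Φ^[N] u0) i := by
    intro N
    induction N with
    | zero => simp
    | succ N ih =>
      have := hc N _ _ (h1 (N + 1)) (h1 N) ih
      rwa [← Function.iterate_succ_apply' Φ (N + 1), ← Function.iterate_succ_apply' Φ N] at this
  choose v hv using fun i => exists_limit (fun N => (Φ^[N] u0) i) (fun N => h2 N i)
  have h3 : ∀ i, (X : R⟦X⟧) ^ m ∣ v i - u0 i := by
    intro i
    have : v i - u0 i = (v i - (Φ^[m] u0) i) + ((Φ^[m] u0) i - u0 i) := by ring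
    rw [this]
    exact dvd_add (hv i m) (h1 m i)
  refine ⟨v, h3, funext fun i => sub_eq_zero.1 (eq_zero_of_dvd fun N => ?_)⟩
  have h4 := hc N _ _ h3 (h1 N) (fun i => hv i N) i
  rw [← Function.iterate_succ_apply' Φ N] at h4
  have : Φ v i - v i = (Φ v i - (Φ^[N + 1] u0) i) - (v i - (Φ^[N + 1] u0) i) := by ring
  rw [this]
  exact dvd_mono (dvd_sub h4 (hv i (N + 1))) N.le_succ

theorem eval_sub_dvd (G : Polynomial R⟦X⟧) {N : ℕ} {u v : R⟦X⟧} (h : (X : R⟦X⟧) ^ N ∣ u - v) :
    (X : R⟦X⟧) ^ N ∣ G.eval u - G.eval v :=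
  h.trans (Polynomial.sub_dvd_eval_sub u v G)

/-- Hensel's lemma (Newton's method) in one variable. -/
theorem hensel (G : Polynomial R⟦X⟧) (s v : R⟦X⟧) (m N : ℕ) (hv : IsUnit v) (hN : 0 < N)
    (hd : G.derivative.eval s = X ^ m * v) (hG : (X : R⟦X⟧) ^ (N + 2 * m) ∣ G.eval s) :
    ∃ s' : R⟦X⟧, (X : R⟦X⟧) ^ (N + m) ∣ s' - s ∧ G.eval s' = 0 := by
  obtain ⟨e, he⟩ := hG
  obtain ⟨w, hvv⟩ := hv.exists_right_inv
  obtain ⟨Q, hQ⟩ : ∃ Q : Polynomial R⟦X⟧, ∀ z, G.eval (s + z) =
      G.eval s + G.derivative.eval s * z + z ^ 2 * Q.eval z := by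
    refine ⟨(Polynomial.taylor s G).divX.divX, fun z => ?_⟩
    have h1 := Polynomial.X_mul_divX_add (Polynomial.taylor s G)
    have h2 := Polynomial.X_mul_divX_add (Polynomial.taylor s G).divX
    rw [Polynomial.coeff_divX, zero_add, Polynomial.taylor_coeff_one] at h2
    rw [Polynomial.taylor_coeff_zero] at h1
    have h3 := congrArg (Polynomial.eval z) h1
    have h4 := congrArg (Polynomial.eval z) h2
    simp only [Polynomial.eval_add, Polynomial.eval_mul, Polynomial.eval_X, Polynomial.eval_C,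
      Polynomial.taylor_eval] at h3 h4
    rw [add_comm s z, ← h3, ← h4]
    ring
  obtain ⟨n, rfl⟩ : ∃ n, N = n + 1 := ⟨N - 1, by omega⟩
  let Φ : (Unit → R⟦X⟧) → Unit → R⟦X⟧ := fun z _ =>
    -(w * (e + X ^ (n + 1) * (z () ^ 2 * Q.eval (X ^ (n + 1 + m) * z ()))))
  obtain ⟨z, -, hz⟩ := exists_fixed Φ 0 0 (fun _ _ _ => by simp) (fun N u u' _ _ h _ => by
    have h1 := eval_sub_dvd (Polynomial.X ^ 2 * Q.comp (Polynomial.C (X ^ (n + 1 + m)) *
      Polynomial.X)) (h ())
    simp only [Polynomial.eval_mul, Polynomial.eval_pow, Polynomial.eval_X, Polynomial.eval_comp,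
      Polynomial.eval_C] at h1
    obtain ⟨c, hc⟩ := h1
    refine ⟨-(w * X ^ n * c), ?_⟩
    simp only [Φ]
    linear_combination (-(w * X ^ (n + 1) : R⟦X⟧)) * hc)
  have hz' : z () = -(w * (e + X ^ (n + 1) *
      (z () ^ 2 * Q.eval (X ^ (n + 1 + m) * z ())))) := (congrFun hz ()).symm
  refine ⟨s + X ^ (n + 1 + m) * z (), ⟨z (), by ring⟩, ?_⟩
  rw [hQ, hd, he]
  linear_combination (X ^ (n + 1 + 2 * m) * (v : R⟦X⟧)) * hz' - (X ^ (n + 1 + 2 * m) *
    (e + X ^ (n + 1) * (z () ^ 2 * Q.eval (X ^ (n + 1 + m) * z ())))) * hvv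

end adic

section had

variable {A B σ : Type*} [CommRing A] [Algebra ℝ A] [CommRing B] [Algebra ℝ B]

/-- Hadamard property of the coordinates `x` -/
def Had (x : σ → A) : Prop :=
  ∀ a : A, ∃ c : ℝ, a - algebraMap ℝ A c ∈ Ideal.span (Set.range x)

theorem Had.approx [Fintype σ] {x : σ → A} (hx : Had x) (N : ℕ) (a : A) :
    ∃ P : MvPolynomial σ ℝ, a - MvPolynomial.aeval x P ∈ Ideal.span (Set.range x) ^ N := by
  induction N generalizing a with
  | zero => exact ⟨0, by simp⟩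
  | succ N ih =>
    obtain ⟨c, hc⟩ := hx a
    obtain ⟨b, hb⟩ := Ideal.mem_span_range_iff_exists_fun.1 hc
    choose P hP using fun i => ih (b i)
    refine ⟨MvPolynomial.C c + ∑ i, P i * MvPolynomial.X i, ?_⟩
    have : a - MvPolynomial.aeval x (MvPolynomial.C c + ∑ i, P i * MvPolynomial.X i) =
        ∑ i, (b i - MvPolynomial.aeval x (P i)) * x i := by
      simp only [map_add, map_sum, map_mul, MvPolynomial.aeval_X, MvPolynomial.aeval_C, sub_mul,
        Finset.sum_sub_distrib, hb]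
      ring
    rw [this, pow_succ]
    exact Ideal.sum_mem _ fun i _ =>
      Ideal.mul_mem_mul (hP i) (Ideal.subset_span ⟨i, rfl⟩)

theorem map_mem_pow {x : σ → A} (Φ : A →ₐ[ℝ] B) {J : Ideal B} (h : ∀ i, Φ (x i) ∈ J) {N : ℕ}
    {a : A} (ha : a ∈ Ideal.span (Set.range x) ^ N) : Φ a ∈ J ^ N := by
  have h1 : Ideal.map Φ (Ideal.span (Set.range x)) ≤ J := by
    rw [Ideal.map_span, Ideal.span_le]
    rintro _ ⟨_, ⟨i, rfl⟩, rfl⟩
    exact h i
  have h2 := Ideal.mem_map_of_mem Φ ha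
  rw [Ideal.map_pow] at h2
  exact Ideal.pow_right_mono h1 N h2

theorem aeval_sub_mem {K : Ideal B} {u v : σ → B} (h : ∀ i, u i - v i ∈ K)
    (P : MvPolynomial σ ℝ) : MvPolynomial.aeval u P - MvPolynomial.aeval v P ∈ K := by
  induction P using MvPolynomial.induction_on with
  | C c => simp
  | add p q hp hq =>
    have := K.add_mem hp hq
    rw [map_add, map_add]
    convert this using 1
    ring
  | mul_X p i hp =>
    have := K.add_mem (K.mul_mem_right (u i) hp) (K.mul_mem_left (MvPolynomial.aeval v p) (h i))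
    simp only [map_mul, MvPolynomial.aeval_X]
    convert this using 1
    ring

/-- Two local homomorphisms which are congruent on the coordinates are congruent. -/
theorem Had.congr [Fintype σ] {x : σ → A} (hx : Had x) (Φ Ψ : A →ₐ[ℝ] B) {J K : Ideal B} {N : ℕ}
    (hJK : J ^ N ≤ K) (hΦ : ∀ i, Φ (x i) ∈ J) (hΨ : ∀ i, Ψ (x i) ∈ J)
    (h : ∀ i, Φ (x i) - Ψ (x i) ∈ K) (a : A) : Φ a - Ψ a ∈ K := by
  obtain ⟨P, hP⟩ := hx.approx N a
  have h1 := hJK (map_mem_pow Φ hΦ hP)
  have h2 := hJK (map_mem_pow Ψ hΨ hP)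
  have h3 := aeval_sub_mem h P
  rw [map_sub, MvPolynomial.comp_aeval_apply] at h1 h2
  have := K.add_mem (K.sub_mem h1 h2) h3
  convert this using 1
  ring

/-- derivations along a homomorphism -/
structure IsDer (φ : A →ₐ[ℝ] B) (D : A → B) : Prop where
  add : ∀ a b, D (a + b) = D a + D b
  mul : ∀ a b, D (a * b) = φ a * D b + φ b * D a
  const : ∀ c : ℝ, D (algebraMap ℝ A c) = 0

theorem IsDer.zero {φ : A →ₐ[ℝ] B} {D : A → B} (h : IsDer φ D) : D 0 = 0 := by
  simpa using h.const 0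

theorem IsDer.sub {φ : A →ₐ[ℝ] B} {D : A → B} (h : IsDer φ D) (a b : A) :
    D (a - b) = D a - D b := by
  have := h.add (a - b) b
  rw [sub_add_cancel] at this
  rw [this]
  ring

theorem IsDer.aeval [Fintype σ] {φ : A →ₐ[ℝ] B} {D : A → B} (h : IsDer φ D) (x : σ → A)
    (P : MvPolynomial σ ℝ) : D (MvPolynomial.aeval x P) =
      ∑ i, φ (MvPolynomial.aeval x (MvPolynomial.pderiv i P)) * D (x i) := by
  classical
  induction P using MvPolynomial.induction_on with
  | C c => simp [h.const]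
  | add p q hp hq => simp [h.add, hp, hq, add_mul, Finset.sum_add_distrib]
  | mul_X p j hp =>
    simp only [map_mul, MvPolynomial.aeval_X, h.mul, hp, MvPolynomial.pderiv_mul, map_add,
      add_mul, Finset.sum_add_distrib, MvPolynomial.pderiv_X, Finset.mul_sum]
    rw [add_comm]
    congr 1
    · exact Finset.sum_congr rfl fun i _ => by ring
    · rw [Finset.sum_eq_single j]
      · simp
      · intro i _ hi
        simp [Pi.single_eq_of_ne hi.symm]
      · simp

theorem IsDer.mem_pow {φ : A →ₐ[ℝ] B} {D : A → B} (h : IsDer φ D) {x : σ → A} {J : Ideal B}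
    (hJ : ∀ i, φ (x i) ∈ J) (N : ℕ) {a : A} (ha : a ∈ Ideal.span (Set.range x) ^ (N + 1)) :
    D a ∈ J ^ N := by
  induction N generalizing a with
  | zero => simp
  | succ N ih =>
    rw [pow_succ] at ha
    refine Submodule.mul_induction_on ha (fun m hm n hn => ?_) (fun u v hu hv => ?_)
    · rw [h.mul]
      refine Ideal.add_mem _ (Ideal.mul_mem_right _ _ (map_mem_pow φ hJ hm)) ?_
      rw [pow_succ']
      have h1 := map_mem_pow φ hJ (N := 1) (by rwa [pow_one])
      rw [pow_one] at h1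
      exact Ideal.mul_mem_mul h1 (ih hm)
    · rw [h.add]
      exact Ideal.add_mem _ hu hv

/-- Derivations along a local homomorphism are determined by the values on the coordinates. -/
theorem Had.der_congr [Fintype σ] {x : σ → A} (hx : Had x) {φ : A →ₐ[ℝ] B} {D D' : A → B}
    (h : IsDer φ D) (h' : IsDer φ D') {J : Ideal B} (hJ : ∀ i, φ (x i) ∈ J)
    (he : ∀ i, D (x i) = D' (x i)) (N : ℕ) (a : A) : D a - D' a ∈ J ^ N := by
  obtain ⟨P, hP⟩ := hx.approx (N + 1) a
  have h1 := h.mem_pow hJ N hP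
  have h2 := h'.mem_pow hJ N hP
  rw [h.sub, h.aeval] at h1
  rw [h'.sub, h'.aeval] at h2
  simp only [he] at h1
  have := Ideal.sub_mem _ h1 h2
  convert this using 1
  ring

theorem faithful [Fintype σ] [DecidableEq σ] {x : σ → A} (hne : Ideal.span (Set.range x) ≠ ⊤)
    {d : σ → A → A} (hd : ∀ i, IsDer (AlgHom.id ℝ A) (d i))
    (hdx : ∀ i j, d i (x j) = if i = j then 1 else 0) (N : ℕ) (P : MvPolynomial σ ℝ)
    (hP : MvPolynomial.aeval x P ∈ Ideal.span (Set.range x) ^ N) :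
    P ∈ MvPolynomial.idealOfVars σ ℝ ^ N := by
  induction N generalizing P with
  | zero => simp
  | succ N ih =>
    have h1 : ∀ i, MvPolynomial.pderiv i P ∈ MvPolynomial.idealOfVars σ ℝ ^ N := by
      intro i
      refine ih _ ?_
      have h2 := (hd i).mem_pow (x := x) (J := Ideal.span (Set.range x))
        (fun j => Ideal.subset_span ⟨j, rfl⟩) N hP
      rw [(hd i).aeval] at h2
      simpa [hdx] using h2
    rw [MvPolynomial.mem_pow_idealOfVars_iff']
    intro m hm
    by_cases h0 : m = 0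
    · subst h0
      by_contra hc
      apply hne
      have h2 : P - MvPolynomial.C (P.coeff 0) ∈ MvPolynomial.idealOfVars σ ℝ ^ 1 := by
        rw [MvPolynomial.mem_pow_idealOfVars_iff']
        intro m hm
        have : m = 0 := by
          rw [← Finsupp.degree_eq_zero_iff]
          omega
        subst this
        simp
      have h3 := map_mem_pow (x := MvPolynomial.X) (MvPolynomial.aeval x)
        (J := Ideal.span (Set.range x)) (fun j => by
          rw [MvPolynomial.aeval_X]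
          exact Ideal.subset_span ⟨j, rfl⟩) h2
      rw [pow_one, map_sub, MvPolynomial.aeval_C] at h3
      have h4 := Ideal.pow_le_self (Nat.succ_ne_zero N) hP
      have h5 := Ideal.sub_mem _ h4 h3
      rw [sub_sub_cancel] at h5
      exact Ideal.eq_top_of_isUnit_mem _ h5 ((IsUnit.mk0 _ hc).map (algebraMap ℝ A))
    · obtain ⟨i, hi⟩ := Finsupp.ne_iff.1 h0
      have hi' : 1 ≤ m i := Nat.one_le_iff_ne_zero.2 hi
      obtain ⟨m', rfl⟩ : ∃ m', m = m' + Finsupp.single i 1 :=
        ⟨m - Finsupp.single i 1, (tsub_add_cancel_of_le (Finsupp.single_le_iff.2 hi')).symm⟩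
      have h2 := (MvPolynomial.mem_pow_idealOfVars_iff' N _).1 (h1 i) m' (by
        rw [map_add, Finsupp.degree_single] at hm
        omega)
      rw [MvPolynomial.coeff_pderiv] at h2
      rcases mul_eq_zero.1 h2 with h3 | h3
      · exact h3
      · exact absurd h3 (by positivity)

/-- Existence of the evaluation homomorphism at a formal arc. -/
theorem Had.exists_ev [Fintype σ] [DecidableEq σ] {x : σ → A} (hx : Had x)
    (hne : Ideal.span (Set.range x) ≠ ⊤) {d : σ → A → A} (hd : ∀ i, IsDer (AlgHom.id ℝ A) (d i))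
    (hdx : ∀ i j, d i (x j) = if i = j then 1 else 0) {R : Type*} [CommRing R] [Algebra ℝ R]
    (γ : σ → R⟦X⟧) (hγ : ∀ i, (X : R⟦X⟧) ∣ γ i) :
    ∃ Φ : A →ₐ[ℝ] R⟦X⟧, ∀ i, Φ (x i) = γ i := by
  have key : ∀ N (P : MvPolynomial σ ℝ), MvPolynomial.aeval x P ∈ Ideal.span (Set.range x) ^ N →
      (X : R⟦X⟧) ^ N ∣ MvPolynomial.aeval γ P := by
    intro N P hP
    have h1 := map_mem_pow (x := MvPolynomial.X) (MvPolynomial.aeval γ)
      (J := Ideal.span {(X : R⟦X⟧)}) (fun j => by
        rw [MvPolynomial.aeval_X]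
        exact Ideal.mem_span_singleton.2 (hγ j)) (faithful hne hd hdx N P hP)
    rwa [Ideal.span_singleton_pow, Ideal.mem_span_singleton] at h1
  choose P hP using fun a N => hx.approx N a
  have h1 : ∀ a N, (X : R⟦X⟧) ^ N ∣
      MvPolynomial.aeval γ (P a (N + 1)) - MvPolynomial.aeval γ (P a N) := by
    intro a N
    rw [← map_sub]
    refine key N _ ?_
    have := Ideal.sub_mem _ (hP a N) (Ideal.pow_le_pow_right N.le_succ (hP a (N + 1)))
    rw [map_sub]
    convert this using 1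
    ring
  choose F hF using fun a => exists_limit (fun N => MvPolynomial.aeval γ (P a N)) (h1 a)
  have h2 : ∀ a N (Q : MvPolynomial σ ℝ), a - MvPolynomial.aeval x Q ∈ Ideal.span (Set.range x) ^ N →
      (X : R⟦X⟧) ^ N ∣ F a - MvPolynomial.aeval γ Q := by
    intro a N Q hQ
    have h3 : (X : R⟦X⟧) ^ N ∣ MvPolynomial.aeval γ (P a N - Q) := by
      refine key N _ ?_
      have := Ideal.sub_mem _ hQ (hP a N)
      rw [map_sub]
      convert this using 1
      ring
    have := dvd_add (hF a N) h3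
    rw [map_sub] at this
    convert this using 1
    ring
  have h3 : ∀ Q : MvPolynomial σ ℝ, F (MvPolynomial.aeval x Q) = MvPolynomial.aeval γ Q := fun Q =>
    sub_eq_zero.1 (eq_zero_of_dvd fun N => h2 _ N Q (by simp))
  have hadd : ∀ a b, F (a + b) = F a + F b := by
    intro a b
    refine sub_eq_zero.1 (eq_zero_of_dvd fun N => ?_)
    have h4 := h2 (a + b) N (P a N + P b N) (by
      have := Ideal.add_mem _ (hP a N) (hP b N)
      rw [map_add]
      convert this using 1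
      ring)
    have := dvd_sub (dvd_sub h4 (hF a N)) (hF b N)
    rw [map_add] at this
    convert this using 1
    ring
  have hmul : ∀ a b, F (a * b) = F a * F b := by
    intro a b
    refine sub_eq_zero.1 (eq_zero_of_dvd fun N => ?_)
    have h4 := h2 (a * b) N (P a N * P b N) (by
      have := Ideal.add_mem _ (Ideal.mul_mem_right b _ (hP a N))
        (Ideal.mul_mem_left _ (MvPolynomial.aeval x (P a N)) (hP b N))
      rw [map_mul]
      convert this using 1
      ring)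
    have := dvd_sub (dvd_sub h4 ((hF a N).mul_right (F b)))
      ((hF b N).mul_left (MvPolynomial.aeval γ (P a N)))
    rw [map_mul] at this
    convert this using 1
    ring
  have hc : ∀ c : ℝ, F (algebraMap ℝ A c) = algebraMap ℝ R⟦X⟧ c := by
    intro c
    simpa using h3 (MvPolynomial.C c)
  refine ⟨⟨⟨⟨⟨F, by simpa using hc 1⟩, hmul⟩, by simpa using hc 0, hadd⟩, hc⟩, fun i => ?_⟩
  simpa using h3 (MvPolynomial.X i)

end had

end Vale.Agent.P218F.Alg
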