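import Mathlib.Analysis.Analytic.Constructions
import Mathlib.Analysis.Calculus.FDeriv.Analytic
import Mathlib.Analysis.Calculus.FDeriv.Mul
import Mathlib.Analysis.Calculus.ContDiff.Operations
import Mathlib.Analysis.Complex.Basic

/-!
Conical ends: the scale invariant part `Mc` of the shrinker equation `Mc = (e^{2y}/2) ψ_y` for
`X = e^y (γ + ψ ν)` as a rational function of the jets `(ψ, ψ_y, ψ_θ, ψ_yy, ψ_yθ, ψ_θθ)`, and its
nonlinear remainder in a commutative Banach algebra.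
-/

namespace Vale.Agent.P218F.Cone

open Filter Topology
open scoped ContDiff

noncomputable section

/-- jets `(ψ, ψ_y, ψ_θ, ψ_yy, ψ_yθ, ψ_θθ)` -/
abbrev J6 (B : Type*) := B × B × B × B × B × B

section ring
variable {B : Type*} [CommRing B]

/-- determinant of the rescaled metric -/
def detg (l κ u uy q : B) : B := l * (1 - κ * u) ^ 2 * (1 + (u + uy) ^ 2) + q ^ 2

/-- the part of the numerator that vanishes to second order; `Ai` is the inverse of `1 - κ u` -/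
def Q2 (l li κ κ' Ai u uy q uyy uyt utt : B) : B :=
  (u + uy) * (-2 * q * (uyt + κ * uy * q * Ai) +
      (u + uy) * (utt + l * κ * (1 - κ * u) + l * (1 - κ * u) * (u + uy)) - l * κ * u -
      κ * l * (1 - κ * u) ^ 2 * (u + uy)) +
    q * ((1 + (u + uy) ^ 2) * (κ' * u + 2 * κ * q) * Ai - κ * q) +
    (uy + uyy) * (l * ((1 - κ * u) ^ 2 - 1) + q ^ 2) +
    (detg l κ u uy q - l) * (-(uyy + 2 * uy + u + li * utt + κ ^ 2 * u)) +
    u * (-(κ * l * κ ^ 2 * u))

/-- the quadratic part of the remainder -/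
def quad (l li κ κ' : B) (J : J6 B) : B :=
  Q2 l li κ κ' (Ring.inverse (1 - κ * J.1)) J.1 J.2.1 J.2.2.1 J.2.2.2.1 J.2.2.2.2.1 J.2.2.2.2.2 *
    Ring.inverse (detg l κ J.1 J.2.1 J.2.2.1)

/-- the remainder `Mc - (ψ_yy + 2 ψ_y + ψ + ψ_θθ / l)` -/
def rem (l li κ κ' : B) (J : J6 B) : B := κ + κ ^ 2 * J.1 + quad l li κ κ' J

lemma map_inverse {B' : Type*} [CommRing B'] (φ : B →+* B') {x : B} (hx : IsUnit x) :
    φ (Ring.inverse x) = Ring.inverse (φ x) := by
  obtain ⟨u, rfl⟩ := hx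
  rw [Ring.inverse_unit]
  have : φ u = (Units.map (φ : B →* B') u : B') := rfl
  rw [this, Ring.inverse_unit]
  rfl

lemma map_detg {B' : Type*} [CommRing B'] (φ : B →+* B') (l κ u uy q : B) :
    φ (detg l κ u uy q) = detg (φ l) (φ κ) (φ u) (φ uy) (φ q) := by
  simp [detg]

lemma map_rem {B' : Type*} [CommRing B'] (φ : B →+* B') (l li κ κ' : B) (J : J6 B)
    (h1 : IsUnit (1 - κ * J.1)) (h2 : IsUnit (detg l κ J.1 J.2.1 J.2.2.1)) :
    φ (rem l li κ κ' J) = rem (φ l) (φ li) (φ κ) (φ κ')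
      (φ J.1, φ J.2.1, φ J.2.2.1, φ J.2.2.2.1, φ J.2.2.2.2.1, φ J.2.2.2.2.2) := by
  have e1 := map_inverse φ h1
  have e2 := map_inverse φ h2
  simp only [map_sub, map_one, map_mul] at e1
  rw [map_detg] at e2
  simp only [rem, quad, Q2, map_add, map_mul, map_sub, map_neg, map_pow, map_one, map_ofNat, e1, e2,
    map_detg]

end ring

/-- the scale invariant part of the shrinker operator, `e^y g^{ij} <X_ij, n>` -/
def Mc (l κ κ' u uy q uyy uyt utt : ℂ) : ℂ :=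
  ((l * (1 - κ * u) ^ 2 + q ^ 2) * (uy + uyy)
    - 2 * (u + uy) * q * (uyt + κ * uy * q / (1 - κ * u))
    + (1 + (u + uy) ^ 2) * (utt + l * κ * (1 - κ * u) + l * (1 - κ * u) * (u + uy)
        + (κ' * u + 2 * κ * q) * q / (1 - κ * u))) / detg l κ u uy q

lemma rem_eq {l κ κ' u uy q uyy uyt utt : ℂ} (hl : l ≠ 0) (h1 : 1 - κ * u ≠ 0)
    (h2 : detg l κ u uy q ≠ 0) :
    rem l l⁻¹ κ κ' (u, uy, q, uyy, uyt, utt) =
      Mc l κ κ' u uy q uyy uyt utt - (uyy + 2 * uy + u + l⁻¹ * utt) := by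
  simp only [rem, quad, Q2, Mc, Ring.inverse_eq_inv']
  field_simp
  simp only [detg]
  ring

section banach
variable {B : Type*} [NormedCommRing B] [NormedAlgebra ℂ B] [CompleteSpace B]

lemma contDiffAt_inv_comp {E : Type*} [NormedAddCommGroup E] [NormedSpace ℂ E] {f : E → B} {x : E}
    (hf : ContDiffAt ℂ ω f x) (hu : IsUnit (f x)) :
    ContDiffAt ℂ ω (fun z => Ring.inverse (f z)) x := by
  obtain ⟨u, hu⟩ := hu
  exact ContDiffAt.comp (g := Ring.inverse) x (hu ▸ contDiffAt_ringInverse ℂ u) hf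

lemma contDiffAt_quad (l li κ κ' : B) {J : J6 B} (h1 : IsUnit (1 - κ * J.1))
    (h2 : IsUnit (detg l κ J.1 J.2.1 J.2.2.1)) : ContDiffAt ℂ ω (quad l li κ κ') J := by
  have a1 : ContDiffAt ℂ ω (fun J : J6 B => Ring.inverse (1 - κ * J.1)) J :=
    contDiffAt_inv_comp (f := fun J : J6 B => 1 - κ * J.1) (by fun_prop) h1
  have a2 : ContDiffAt ℂ ω (fun J : J6 B => Ring.inverse (detg l κ J.1 J.2.1 J.2.2.1)) J :=
    contDiffAt_inv_comp (f := fun J : J6 B => detg l κ J.1 J.2.1 J.2.2.1)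
      (by unfold detg; fun_prop) h2
  refine ContDiffAt.mul ?_ a2
  unfold Q2 detg
  fun_prop

lemma contDiffAt_rem (l li κ κ' : B) {J : J6 B} (h1 : IsUnit (1 - κ * J.1))
    (h2 : IsUnit (detg l κ J.1 J.2.1 J.2.2.1)) : ContDiffAt ℂ ω (rem l li κ κ') J := by
  have := contDiffAt_quad l li κ κ' h1 h2
  unfold rem
  fun_prop

omit [CompleteSpace B] in
lemma hasFDerivAt_mul_zero {E : Type*} [NormedAddCommGroup E] [NormedSpace ℂ E] {f g : E → B}
    {x : E} (hf : DifferentiableAt ℂ f x) (hg : DifferentiableAt ℂ g x) (f0 : f x = 0)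
    (g0 : g x = 0) : HasFDerivAt (fun z => f z * g z) (0 : E →L[ℂ] B) x := by
  refine (hf.hasFDerivAt.fun_mul hg.hasFDerivAt).congr_fderiv ?_
  ext v
  simp [f0, g0]

lemma hasFDerivAt_quad {l : B} (hl : IsUnit l) (li κ κ' : B) :
    HasFDerivAt (quad l li κ κ') (0 : J6 B →L[ℂ] B) 0 := by
  have h1 : IsUnit (1 - κ * (0 : J6 B).1) := by simp
  have h2 : IsUnit (detg l κ (0 : J6 B).1 (0 : J6 B).2.1 (0 : J6 B).2.2.1) := by simpa [detg]
  have a1 : DifferentiableAt ℂ (fun J : J6 B => Ring.inverse (1 - κ * J.1)) 0 :=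
    (contDiffAt_inv_comp (f := fun J : J6 B => 1 - κ * J.1) (by fun_prop) h1).differentiableAt
      (by simp)
  have a2 : DifferentiableAt ℂ (fun J : J6 B => Ring.inverse (detg l κ J.1 J.2.1 J.2.2.1)) 0 :=
    (contDiffAt_inv_comp (f := fun J : J6 B => detg l κ J.1 J.2.1 J.2.2.1)
      (by unfold detg; fun_prop) h2).differentiableAt (by simp)
  have hq : HasFDerivAt (fun J : J6 B => Q2 l li κ κ' (Ring.inverse (1 - κ * J.1)) J.1 J.2.1
      J.2.2.1 J.2.2.2.1 J.2.2.2.2.1 J.2.2.2.2.2) (0 : J6 B →L[ℂ] B) 0 := by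
    unfold Q2
    rw [show (0 : J6 B →L[ℂ] B) = 0 + 0 + 0 + 0 + 0 by simp]
    refine ((((?_ : HasFDerivAt _ _ _).fun_add ?_).fun_add ?_).fun_add ?_).fun_add ?_ <;>
      refine hasFDerivAt_mul_zero ?_ ?_ ?_ ?_
    all_goals first
      | (simp [detg]; done)
      | (try unfold detg
         fun_prop)
  refine (hq.fun_mul a2.hasFDerivAt).congr_fderiv ?_
  ext v <;> simp [Q2, detg]

/-- near `0` the remainder is analytic and its derivative is almost `κ ^ 2 ψ` -/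
lemma exists_small {l : B} (hl : IsUnit l) (li κ κ' : B) {ε : ℝ} (hε : 0 < ε) :
    ∃ η > 0, ∀ J : J6 B, ‖J‖ ≤ η → IsUnit (1 - κ * J.1) ∧ IsUnit (detg l κ J.1 J.2.1 J.2.2.1) ∧
      ‖fderiv ℂ (quad l li κ κ') J‖ ≤ ε := by
  have h1 : IsUnit (1 - κ * (0 : J6 B).1) := by simp
  have h2 : IsUnit (detg l κ (0 : J6 B).1 (0 : J6 B).2.1 (0 : J6 B).2.2.1) := by simpa [detg]
  have e1 : ∀ᶠ J : J6 B in 𝓝 0, IsUnit (1 - κ * J.1) :=
    (by fun_prop : Continuous fun J : J6 B => 1 - κ * J.1).continuousAt.eventually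
      (Units.isOpen.mem_nhds h1)
  have e2 : ∀ᶠ J : J6 B in 𝓝 0, IsUnit (detg l κ J.1 J.2.1 J.2.2.1) :=
    (by unfold detg; fun_prop :
      Continuous fun J : J6 B => detg l κ J.1 J.2.1 J.2.2.1).continuousAt.eventually
      (Units.isOpen.mem_nhds h2)
  have e3 : ∀ᶠ J : J6 B in 𝓝 0, ‖fderiv ℂ (quad l li κ κ') J‖ ≤ ε := by
    have := (contDiffAt_quad l li κ κ' h1 h2).analyticAt.fderiv.continuousAt.norm.tendsto
    rw [(hasFDerivAt_quad hl li κ κ').fderiv, norm_zero] at this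
    exact this.eventually (ge_mem_nhds hε)
  obtain ⟨η, hη, h⟩ := Metric.eventually_nhds_iff.1 (e1.and (e2.and e3))
  exact ⟨η / 2, by positivity, fun J hJ => h (by rw [dist_zero_right]; linarith)⟩

end banach

end

end Vale.Agent.P218F.Cone
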