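import Vale.Agent.P218FT.ConvSpec
import Vale.Agent.P218FT.Local

/-! The ends of a self-shrinker of class `C(D, G)`: definitions and statements. -/

open MeasureTheory Set Filter Topology Metric
open scoped ENNReal NNReal RealInnerProductSpace ContDiff

namespace Vale.Agent.P218F.Ends

open Vale.Agent.P218FT

/-- cylindrical coordinates about the axis `c` -/
noncomputable def cylPt (a b c : E3) (z θ ρ : ℝ) : E3 :=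
  (ρ * Real.cos θ) • a + (ρ * Real.sin θ) • b + z • c

/-- the solid cone of opening `δ` about the half axis `c` -/
def cylReg (c : E3) (δ : ℝ) : Set E3 := {x | 0 < ⟪c, x⟫ ∧ ‖pt c x‖ ≤ δ * ⟪c, x⟫}

/-- coordinates about the cone over the spherical curve `γ` with conormal `n` -/
noncomputable def conePt (γ n : ℝ → E3) (y θ t : ℝ) : E3 := Real.exp y • (γ θ + t • n θ)

/-- the conical neighbourhood of opening `δ` of the cone over `γ` -/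
def coneReg (γ n : ℝ → E3) (δ : ℝ) : Set E3 := {x | ∃ y θ t, |t| ≤ δ ∧ x = conePt γ n y θ t}

/-- all derivatives of `f (z, θ)` tend to zero, uniformly in `θ`, as `z → ∞` -/
def Decay (f : ℝ × ℝ → ℝ) : Prop :=
  ∀ (k : ℕ) (ε : ℝ), 0 < ε → ∃ Z : ℝ, ∀ z θ : ℝ, Z ≤ z → ‖iteratedFDeriv ℝ k f (z, θ)‖ ≤ ε

/-- a cylindrical end of `S` with axis `c`: in the solid cone of opening `δ`, above the height
`z₀`, the surface is the polar graph `ρ = r (z, θ)`, and `r → √2` smoothly -/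
structure CylEnd (S : Set E3) (a b c : E3) (z₀ δ : ℝ) (r : ℝ × ℝ → ℝ) : Prop where
  tri : Triple a b c
  smooth : ContDiff ℝ ∞ r
  per : ∀ z θ, r (z, θ + 2 * Real.pi) = r (z, θ)
  bd : ∀ p, 1 < r p ∧ r p < 2
  mem : ∀ z θ ρ, z₀ ≤ z → 0 ≤ ρ → ρ ≤ δ * z → (cylPt a b c z θ ρ ∈ S ↔ ρ = r (z, θ))
  lim : Decay fun p => r p - √2

/-- a closed embedded curve on the unit sphere, of period `2π` and speed `l`, with conormal `n`;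
the coordinates `conePt` are injective for `|t| ≤ δ` -/
structure SphCurve (γ n : ℝ → E3) (l δ : ℝ) : Prop where
  lpos : 0 < l
  smooth : ContDiff ℝ ∞ γ
  smooth_n : ContDiff ℝ ∞ n
  per : ∀ θ, γ (θ + 2 * Real.pi) = γ θ
  per_n : ∀ θ, n (θ + 2 * Real.pi) = n θ
  tri : ∀ θ, Triple (γ θ) (l⁻¹ • deriv γ θ) (n θ)
  inj : ∀ y θ t y' θ' t', |t| ≤ δ → |t'| ≤ δ → conePt γ n y θ t = conePt γ n y' θ' t' →
    y = y' ∧ t = t' ∧ ∃ k : ℤ, θ' = θ + k * (2 * Real.pi)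

/-- a conical end of `S`: in the conical neighbourhood of opening `δ` of the cone over `γ`, for
`y ≥ y₀`, the surface is the graph `t = ψ (y, θ)`, and `ψ → 0` smoothly -/
structure ConeEnd (S : Set E3) (γ n : ℝ → E3) (l y₀ δ : ℝ) (ψ : ℝ × ℝ → ℝ) : Prop where
  crv : SphCurve γ n l δ
  smooth : ContDiff ℝ ∞ ψ
  per : ∀ y θ, ψ (y, θ + 2 * Real.pi) = ψ (y, θ)
  bd : ∀ p, |ψ p| < δ / 2
  mem : ∀ y θ t, y₀ ≤ y → |t| ≤ δ → (conePt γ n y θ t ∈ S ↔ t = ψ (y, θ))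
  lim : Decay ψ

/-- the decomposition of `S` outside a ball into cylindrical and conical ends -/
structure EndData (S : Set E3) where
  /-- number of cylindrical ends -/
  m : ℕ
  /-- frames of the axes -/
  a : Fin m → E3
  b : Fin m → E3
  c : Fin m → E3
  /-- polar graphs -/
  r : Fin m → ℝ × ℝ → ℝ
  /-- number of conical ends -/
  k : ℕ
  /-- links of the cones -/
  γ : Fin k → ℝ → E3
  n : Fin k → ℝ → E3
  l : Fin k → ℝ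
  /-- graphs over the cones -/
  ψ : Fin k → ℝ × ℝ → ℝ
  /-- radius -/
  R₀ : ℝ
  /-- opening -/
  δ : ℝ
  δpos : 0 < δ
  δle : δ ≤ 1
  big : 4 ≤ δ * R₀
  cyl : ∀ j, CylEnd S (a j) (b j) (c j) R₀ δ (r j)
  cone : ∀ i, ConeEnd S (γ i) (n i) (l i) (Real.log R₀) δ (ψ i)
  cover : ∀ x ∈ S, 2 * R₀ ≤ ‖x‖ →
    (∃ j z θ, R₀ ≤ z ∧ x = cylPt (a j) (b j) (c j) z θ (r j (z, θ))) ∨
    ∃ i y θ, Real.log R₀ ≤ y ∧ x = conePt (γ i) (n i) y θ (ψ i (y, θ))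
  disj_cc : ∀ j j', j ≠ j' → Disjoint (cylReg (c j) δ) (cylReg (c j') δ)
  disj_ck : ∀ j i, Disjoint (cylReg (c j) δ) (coneReg (γ i) (n i) δ)
  disj_kk : ∀ i i', i ≠ i' → Disjoint (coneReg (γ i) (n i) δ) (coneReg (γ i') (n i') δ)
  twoPt : ∃ r C : ℝ, 0 < r ∧ 0 < C ∧ ∀ x ∈ S, TwoPt S x r C

/-- **Block E**: the ends of a shrinker of class `C(D, G)` -/
def EndsStmt : Prop :=
  ∀ (D G : ℝ) (S : Set E3), IsShr S → InC D G (ssFlow S) (Iio 0) → Nonempty (EndData S)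

/-- a properly embedded surface has a global equation (two-sidedness) -/
def OrientStmt : Prop :=
  ∀ N : Set E3, IsSurf N → ∃ w : E3 → ℝ, ContDiff ℝ ∞ w ∧ (∀ x, x ∈ N ↔ w x = 0) ∧
    ∀ x ∈ N, gradient w x ≠ 0

/-- the link of a smooth cone is a finite union of closed embedded curves -/
def CurveStmt : Prop :=
  ∀ Γ : Set E3, IsCompact Γ → (∀ x ∈ Γ, ‖x‖ = 1) →
    (∀ x ∈ Γ, ∃ w, IsEqn {p | ∃ s : ℝ, 0 < s ∧ s • p ∈ Γ} x w) →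
    ∃ (k : ℕ) (γ n : Fin k → ℝ → E3) (l : Fin k → ℝ) (δ₀ : ℝ), 0 < δ₀ ∧
      (∀ i, SphCurve (γ i) (n i) (l i) δ₀) ∧ (∀ x, x ∈ Γ ↔ ∃ i θ, x = γ i θ) ∧
      (∀ i i', i ≠ i' → Disjoint (coneReg (γ i) (n i) δ₀) (coneReg (γ i') (n i') δ₀)) ∧
      ∀ δ : ℝ, 0 < δ → ∃ η : ℝ, 0 < η ∧ ∀ x : E3, ∀ g ∈ Γ, ‖x - g‖ ≤ η →
        ∃ i, x ∈ coneReg (γ i) (n i) δ

/-- shrinkers which are tangent to a fixed direction -/
def ClassifyStmt : Prop :=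
  ∀ (S : Set E3) (y : E3), IsSurf S → (∀ x ∈ S, relV S 0 1 x = 0) → ‖y‖ = 1 →
    (∀ x ∈ S, ⟪nu S x, y⟫ = 0) →
    S = ∅ ∨ (∃ n : E3, ‖n‖ = 1 ∧ ⟪n, y⟫ = 0 ∧ S = {x | ⟪x, n⟫ = 0}) ∨
      S = {x | ‖x‖ ^ 2 - ⟪x, y⟫ ^ 2 = 2}

/-- local compactness at the top of backward cylinders -/
def LocCompStmt : Prop :=
  ∀ (ι : Type) (U : Ultrafilter ι) (M : ι → ℝ → Set E3) (J : ι → Set ℝ) (t : ι → ℝ) (x : E3)
    (r C : ℝ), 0 < r →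
    (∀ᶠ i in U, IsMCF (M i) (J i) ∧ Icc (t i - r ^ 2) (t i) ⊆ J i ∧
      ∀ s ∈ Icc (t i - r ^ 2) (t i), ∀ y ∈ M i s, ‖y - x‖ ≤ r → TwoPt (M i s) y r C) →
    (∀ ε : ℝ, 0 < ε → ∀ᶠ i in U, ∃ y ∈ M i (t i), ‖y - x‖ < ε) →
    ∃ (W : Set E3) (w : ι → E3 → ℝ) (v : E3 → ℝ), IsOpen W ∧ x ∈ W ∧ (∀ i, ContDiff ℝ ∞ (w i)) ∧
      ContDiff ℝ ∞ v ∧ CInf U W w v ∧ gradient v x ≠ 0 ∧ v x = 0 ∧
      ∀ᶠ i in U, ∀ y ∈ W, y ∈ M i (t i) ↔ w i y = 0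

/-- implicit functions in a smooth chart `Ξ` converge smoothly -/
def ImplStmt : Prop :=
  ∀ (ι : Type) (U : Filter ι) (W : Set E3) (w : ι → E3 → ℝ) (v : E3 → ℝ)
    (Ξ : (ℝ × ℝ) × ℝ → E3) (q₀ : ℝ × ℝ) (τ₀ : ℝ), IsOpen W → CInf U W w v → ContDiff ℝ ∞ Ξ →
    Ξ (q₀, 0) ∈ W → 0 < τ₀ → (∀ᶠ q in 𝓝 q₀, v (Ξ (q, 0)) = 0) →
    fderiv ℝ v (Ξ (q₀, 0)) (fderiv ℝ Ξ (q₀, 0) (0, 1)) ≠ 0 →
    ∃ (ρ τ : ℝ) (u : ι → ℝ × ℝ → ℝ), 0 < ρ ∧ 0 < τ ∧ τ ≤ τ₀ ∧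
      (∀ q ∈ ball q₀ ρ, ∀ t, |t| ≤ τ → Ξ (q, t) ∈ W) ∧ CInf U (ball q₀ ρ) u (fun _ => 0) ∧
      ∀ᶠ i in U, ∀ q ∈ ball q₀ ρ, ∀ t, |t| ≤ τ → (w i (Ξ (q, t)) = 0 ↔ t = u i q)

/-- time slices of a smoothly convergent family of flows -/
def SliceStmt : Prop :=
  ∀ (ι : Type) (U : Filter ι) (M : ι → ℝ → Set E3) (L : ℝ → Set E3) (I : Set ℝ), SLim U M L I →
    ∀ t ∈ I, SLimS U (fun i => M i t) (L t)

end Vale.Agent.P218F.Ends
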