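import Vale.Agent.P218F.CoreJet
import Vale.Agent.P218FS.Bridge

/-! The dictionary between real parametrised surfaces and surfaces as sets. -/

open MeasureTheory Set Filter Topology Matrix
open scoped ContDiff RealInnerProductSpace ENNReal

set_option maxSynthPendingDepth 3

noncomputable section

namespace Vale.Agent.P218F.Ft

open Vale.Agent.P218FT Vale.Agent.P218F.Core Vale.Agent.P218GA

/-- the cross product -/
def crs (a b : E3) : E3 := WithLp.toLp 2 (a.ofLp ⨯₃ b.ofLp)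

/-- the real normal `Y₁ × Y₂` -/
def rn (D : P2 →L[ℝ] E3) : E3 := crs (D (1, 0)) (D (0, 1))

lemma cE_dot (a b : E3) : cE a ⬝ᵥ cE b = (⟪a, b⟫ : ℝ) := by
  simp [dotProduct, Fin.sum_univ_three, PiLp.inner_apply]; ring

lemma cE_crs (a b : E3) : cE (crs a b) = cE a ⨯₃ cE b := by
  ext i
  fin_cases i <;> simp [crs, cross_apply]

lemma cE_injective : Function.Injective cE := by
  intro a b h
  ext i
  simpa using congrFun h i

lemma cE_rn (D : P2 →L[ℝ] E3) : cE (rn D) = nor (cE.comp D) := cE_crs _ _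

lemma gdet_cE (D : P2 →L[ℝ] E3) : gdet (cE.comp D) = ((‖rn D‖ ^ 2 : ℝ) : ℂ) := by
  rw [gdet_eq, ← cE_rn, cE_dot, real_inner_self_eq_norm_sq]

lemma inner_rn (D : P2 →L[ℝ] E3) (u : P2) : ⟪D u, rn D⟫ = 0 := by
  have := dot_nor (cE.comp D) u
  rw [← cE_rn, ContinuousLinearMap.comp_apply, cE_dot] at this
  exact_mod_cast this

lemma norm_rn_sq (D : P2 →L[ℝ] E3) :
    ‖rn D‖ ^ 2 = ‖D (1, 0)‖ ^ 2 * ‖D (0, 1)‖ ^ 2 - ⟪D (1, 0), D (0, 1)⟫ ^ 2 := by
  have := gdet_cE D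
  rw [gdet] at this
  simp only [t1, t2, ContinuousLinearMap.comp_apply, cE_dot, real_inner_self_eq_norm_sq] at this
  exact_mod_cast this.symm

lemma norm_rn (D : P2 →L[ℝ] E3) : ‖rn D‖ = par (D (1, 0)) (D (0, 1)) := by
  rw [par, ← norm_rn_sq, Real.sqrt_sq (norm_nonneg _)]

lemma jac2_eq (D : P2 →L[ℝ] E3) : jac2 D = cH 2 * ‖rn D‖ := by rw [jac2, norm_rn]

lemma rn_ne_zero {D : P2 →L[ℝ] E3} (h : Function.Injective D) : rn D ≠ 0 := by
  have := isJac_prod.pos D h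
  rw [jac2_eq] at this
  exact norm_pos_iff.1 ((mul_pos_iff_of_pos_left (cH_pos' 2)).1 this)

lemma injective_of_rn {D : P2 →L[ℝ] E3} (h : rn D ≠ 0) : Function.Injective D := by
  rw [injective_iff_map_eq_zero]
  intro u hu
  rw [lin_eq D u] at hu
  have h1 : u.1 • rn D = 0 := by
    have := congrArg (fun y => crs y (D (0, 1))) hu
    simpa [rn, crs, ← WithLp.toLp_smul] using this
  have h2 : u.2 • rn D = 0 := by
    have := congrArg (fun y => crs (D (1, 0)) y) hu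
    simpa [rn, crs, ← WithLp.toLp_smul] using this
  exact Prod.ext ((smul_eq_zero.1 h1).resolve_right h) ((smul_eq_zero.1 h2).resolve_right h)

lemma continuous_rn : Continuous rn := by
  unfold rn crs
  refine (PiLp.continuous_toLp 2 _).comp (continuous_pi fun i => ?_)
  fin_cases i <;> simp [cross_apply] <;> fun_prop

lemma lag_cE (y : E3) (D : P2 →L[ℝ] E3) :
    lag (cE y, cE.comp D) = ((Real.exp (-‖y‖ ^ 2 / 4) * ‖rn D‖ : ℝ) : ℂ) := by
  rw [lag, cE_dot, gdet_cE, real_inner_self_eq_norm_sq, Complex.sqrt, ← Complex.ofReal_ofNat 2,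
    ← Complex.ofReal_inv, ← Complex.ofReal_cpow (sq_nonneg _), ← one_div, ← Real.sqrt_eq_rpow,
    Real.sqrt_sq (norm_nonneg _)]
  push_cast
  rfl

lemma jet1_cE {Y : P2 → E3} {u : P2} (hY : DifferentiableAt ℝ Y u) :
    jet1 (fun v => cE (Y v)) u = (cE (Y u), cE.comp (fderiv ℝ Y u)) :=
  Prod.ext rfl (cE.hasFDerivAt.comp u hY.hasFDerivAt).fderiv

/-- the Lagrangian of a real surface is the Gaussian area density -/
lemma lag_jet1 {Y : P2 → E3} {u : P2} (hY : DifferentiableAt ℝ Y u) :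
    lag (jet1 (fun v => cE (Y v)) u) =
      ((Real.exp (-‖Y u‖ ^ 2 / 4) * ‖rn (fderiv ℝ Y u)‖ : ℝ) : ℂ) := by
  rw [jet1_cE hY, lag_cE]

section area

variable {Y : P2 → E3} {O s : Set P2}

/-- **Area formula** -/
theorem lintegral_param (hO : IsOpen O) (hY : ContDiffOn ℝ 1 Y O)
    (hi : ∀ u ∈ O, rn (fderiv ℝ Y u) ≠ 0) (hs : MeasurableSet s) (hsO : s ⊆ O) (hinj : InjOn Y s)
    (g : E3 → ℝ≥0∞) :
    ∫⁻ x in Y '' s, g x ∂(μHE[2] : Measure E3) =
      ∫⁻ u in s, ENNReal.ofReal ‖rn (fderiv ℝ Y u)‖ * g (Y u) := by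
  have key := isJac_prod.lintegral_image hO hY (fun u hu => injective_of_rn (hi u hu)) hs hsO hinj g
  have e : (μH[2] : Measure E3) = cH 2 • μHE[2] := by simpa using hausdorff_eq_smul (X := E3) 2
  rw [e, Measure.restrict_smul, lintegral_smul_measure] at key
  have h2 : ∫⁻ u in s, ENNReal.ofReal (jac2 (fderiv ℝ Y u)) * g (Y u)
      = (cH 2 : ℝ≥0∞) * ∫⁻ u in s, ENNReal.ofReal ‖rn (fderiv ℝ Y u)‖ * g (Y u) := by
    rw [← lintegral_const_mul' _ _ ENNReal.coe_ne_top]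
    refine setLIntegral_congr_fun hs fun u _ => ?_
    rw [jac2_eq, ENNReal.ofReal_mul (cH 2).coe_nonneg, ENNReal.ofReal_coe_nnreal, mul_assoc]
  rw [h2, ENNReal.smul_def, smul_eq_mul] at key
  exact (ENNReal.mul_right_inj (by exact_mod_cast (cH_pos 2).ne') ENNReal.coe_ne_top).1 key

/-- **Area formula**, Bochner integrals -/
theorem integral_param (hO : IsOpen O) (hY : ContDiffOn ℝ 1 Y O)
    (hi : ∀ u ∈ O, rn (fderiv ℝ Y u) ≠ 0) (hs : MeasurableSet s) (hsO : s ⊆ O) (hinj : InjOn Y s)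
    {G : Type*} [NormedAddCommGroup G] [NormedSpace ℝ G] (g : E3 → G) :
    ∫ x in Y '' s, g x ∂(μHE[2] : Measure E3) = ∫ u in s, ‖rn (fderiv ℝ Y u)‖ • g (Y u) := by
  have key := isJac_prod.integral_image hO hY (fun u hu => injective_of_rn (hi u hu)) hs hsO hinj g
  have e : (μH[2] : Measure E3) = cH 2 • μHE[2] := by simpa using hausdorff_eq_smul (X := E3) 2
  rw [e, Measure.restrict_smul, integral_smul_nnreal_measure] at key
  have h2 : ∫ u in s, jac2 (fderiv ℝ Y u) • g (Y u)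
      = (cH 2 : ℝ) • ∫ u in s, ‖rn (fderiv ℝ Y u)‖ • g (Y u) := by
    rw [← integral_smul]
    refine setIntegral_congr_fun hs fun u _ => ?_
    rw [jac2_eq, mul_smul]
  rw [h2, NNReal.smul_def] at key
  exact smul_right_injective G (cH_pos' 2).ne' key

theorem integrableOn_param (hO : IsOpen O) (hY : ContDiffOn ℝ 1 Y O)
    (hi : ∀ u ∈ O, rn (fderiv ℝ Y u) ≠ 0) (hs : MeasurableSet s) (hsO : s ⊆ O) (hinj : InjOn Y s)
    {G : Type*} [NormedAddCommGroup G] [NormedSpace ℝ G] (g : E3 → G) :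
    IntegrableOn g (Y '' s) (μHE[2] : Measure E3) ↔
      IntegrableOn (fun u => ‖rn (fderiv ℝ Y u)‖ • g (Y u)) s := by
  have key := isJac_prod.integrableOn_image hO hY (fun u hu => injective_of_rn (hi u hu)) hs hsO
    hinj g
  have e : (μH[2] : Measure E3) = cH 2 • μHE[2] := by simpa using hausdorff_eq_smul (X := E3) 2
  rw [e, IntegrableOn, Measure.restrict_smul, ENNReal.smul_def,
    integrable_smul_measure (by exact_mod_cast (cH_pos 2).ne') ENNReal.coe_ne_top] at key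
  rw [IntegrableOn, key]
  simp only [jac2_eq, mul_smul]
  exact integrable_smul_iff (cH_pos' 2).ne' (fun u => ‖rn (fderiv ℝ Y u)‖ • g (Y u))

lemma measurableSet_param (hY : ContinuousOn Y O) (hs : MeasurableSet s) (hsO : s ⊆ O)
    (hinj : InjOn Y s) : MeasurableSet (Y '' s) :=
  hs.image_of_continuousOn_injOn (hY.mono hsO) hinj

lemma restrict_area_param {N : Set E3} (hY : ContinuousOn Y O) (hs : MeasurableSet s)
    (hsO : s ⊆ O) (hinj : InjOn Y s) (hN : Y '' s ⊆ N) :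
    (area N).restrict (Y '' s) = (μHE[2] : Measure E3).restrict (Y '' s) := by
  rw [area, Measure.restrict_restrict (measurableSet_param hY hs hsO hinj), inter_eq_left.2 hN]

end area

section jets

variable {E : Type} [NormedAddCommGroup E] [NormedSpace ℝ E]

/-- tangency and the second fundamental form of a parametrised piece of a level set -/
theorem II_param {f : E → E3} {u : E} (hf : ContDiffAt ℝ 2 f u) {w : E3 → ℝ}
    (hw : ContDiff ℝ 2 w) (h0 : ∀ᶠ v in 𝓝 u, w (f v) = 0) :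
    (∀ a, ⟪fderiv ℝ f u a, nuw w (f u)⟫ = 0) ∧
      ∀ a b, ⟪shw w (f u) (fderiv ℝ f u a), fderiv ℝ f u b⟫ =
        ⟪fderiv ℝ (fderiv ℝ f) u a b, nuw w (f u)⟫ := by
  obtain ⟨-, h1, h2⟩ := jet2_comp hw.contDiffAt hf
  rw [jet2_congr (g := fun _ => (0 : ℝ)) h0, jet2_const] at h1 h2
  have hn : ∀ a, ⟪fderiv ℝ f u a, nuw w (f u)⟫ = 0 := fun a => by
    have : 0 = fderiv ℝ w (f u) (fderiv ℝ f u a) := h1 a
    rw [nuw, inner_smul_right, real_inner_comm, inner_grad, ← this, mul_zero]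
  refine ⟨hn, fun a b => ?_⟩
  have h3 : 0 = fderiv ℝ w (f u) (fderiv ℝ (fderiv ℝ f) u a b) +
      fderiv ℝ (fderiv ℝ w) (f u) (fderiv ℝ f u a) (fderiv ℝ f u b) := h2 a b
  rw [inner_shw, pt_of_orth (by rw [real_inner_comm]; exact hn a),
    pt_of_orth (by rw [real_inner_comm]; exact hn b), inner_hess hw, nuw, inner_smul_right,
    real_inner_comm, inner_grad]
  linear_combination ‖gradient w (f u)‖⁻¹ * h3

theorem IsEqn.param {N : Set E3} {f : E → E3} {u : E} {w : E3 → ℝ} (hw : IsEqn N (f u) w)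
    (hf : ContDiffAt ℝ 2 f u) (hN : ∀ᶠ v in 𝓝 u, f v ∈ N) :
    (∀ a, ⟪fderiv ℝ f u a, nu N (f u)⟫ = 0) ∧
      ∀ a b, ⟪sh N (f u) (fderiv ℝ f u a), fderiv ℝ f u b⟫ =
        ⟪fderiv ℝ (fderiv ℝ f) u a b, nu N (f u)⟫ := by
  have he := hw.isEqn_eqn
  refine II_param hf he.two ?_
  filter_upwards [hN, hf.continuousAt.eventually he.2.2] with v h1 h2
  exact h2.1 h1

end jets

/-- a unit vector orthogonal to the image is the unit normal, up to sign -/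
lemma eq_smul_rn {D : P2 →L[ℝ] E3} (hD : rn D ≠ 0) {n : E3} (h : ∀ a, ⟪D a, n⟫ = 0) :
    n = (⟪n, rn D⟫ / ‖rn D‖ ^ 2) • rn D := by
  have h1 := h (1, 0)
  have h2 := h (0, 1)
  have hn : ‖rn D‖ ^ 2 ≠ 0 := pow_ne_zero 2 (norm_ne_zero_iff.2 hD)
  rw [div_eq_inv_mul, mul_smul, eq_inv_smul_iff₀ hn, ← real_inner_self_eq_norm_sq]
  simp only [rn, crs, PiLp.inner_apply, Fin.sum_univ_three] at h1 h2 ⊢
  ext i
  fin_cases i
  · simp [cross_apply] at h1 h2 ⊢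
    linear_combination (D (0, 1) 1 * (D (1, 0) 0 * D (0, 1) 1 - D (1, 0) 1 * D (0, 1) 0) -
      D (0, 1) 2 * (D (1, 0) 2 * D (0, 1) 0 - D (1, 0) 0 * D (0, 1) 2)) * h1 -
      (D (1, 0) 1 * (D (1, 0) 0 * D (0, 1) 1 - D (1, 0) 1 * D (0, 1) 0) -
      D (1, 0) 2 * (D (1, 0) 2 * D (0, 1) 0 - D (1, 0) 0 * D (0, 1) 2)) * h2
  · simp [cross_apply] at h1 h2 ⊢
    linear_combination (D (0, 1) 2 * (D (1, 0) 1 * D (0, 1) 2 - D (1, 0) 2 * D (0, 1) 1) -
      D (0, 1) 0 * (D (1, 0) 0 * D (0, 1) 1 - D (1, 0) 1 * D (0, 1) 0)) * h1 -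
      (D (1, 0) 2 * (D (1, 0) 1 * D (0, 1) 2 - D (1, 0) 2 * D (0, 1) 1) -
      D (1, 0) 0 * (D (1, 0) 0 * D (0, 1) 1 - D (1, 0) 1 * D (0, 1) 0)) * h2
  · simp [cross_apply] at h1 h2 ⊢
    linear_combination (D (0, 1) 0 * (D (1, 0) 2 * D (0, 1) 0 - D (1, 0) 0 * D (0, 1) 2) -
      D (0, 1) 1 * (D (1, 0) 1 * D (0, 1) 2 - D (1, 0) 2 * D (0, 1) 1)) * h1 -
      (D (1, 0) 0 * (D (1, 0) 2 * D (0, 1) 0 - D (1, 0) 0 * D (0, 1) 2) -
      D (1, 0) 1 * (D (1, 0) 1 * D (0, 1) 2 - D (1, 0) 2 * D (0, 1) 1)) * h2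

/-- the trace over the plane `D (ℝ²)` is the metric trace -/
lemma tr_eq_gtr {D : P2 →L[ℝ] E3} (hD : rn D ≠ 0) {n : E3} (hn : ‖n‖ = 1)
    (h : ∀ a, ⟪D a, n⟫ = 0) {A : E3 →L[ℝ] E3} (hA : A n = 0) :
    ((tr A : ℝ) : ℂ) = gtr (cE.comp D) fun u v => ((⟪A (D u), D v⟫ : ℝ) : ℂ) := by
  obtain ⟨a, b, ht⟩ := exists_triple hn
  have hn0 : n ≠ 0 := by intro h0; rw [h0, norm_zero] at hn; exact zero_ne_one hn
  have hsurj : ∀ e : E3, ⟪e, n⟫ = 0 → ∃ x, D x = e := fun e he => by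
    obtain ⟨x, hx⟩ := Vale.Agent.P218FS.exists_preimage
      (L := D.comp (toProd : EuclideanSpace ℝ (Fin 2) →L[ℝ] ℝ × ℝ))
      ((injective_of_rn hD).comp toProd.injective) hn0 (fun v => h _) he
    exact ⟨_, hx⟩
  obtain ⟨x, hx⟩ := hsurj a ht.ac
  obtain ⟨y, hy⟩ := hsurj b ht.bc
  let B : P2 →L[ℝ] P2 := (ContinuousLinearMap.fst ℝ ℝ ℝ).smulRight x +
    (ContinuousLinearMap.snd ℝ ℝ ℝ).smulRight y
  have hB1 : B (1, 0) = x := by simp [B]
  have hB2 : B (0, 1) = y := by simp [B]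
  have hg : gdet ((cE.comp D).comp B) = 1 := by
    simp only [gdet, t1, t2, ContinuousLinearMap.comp_apply, hB1, hB2, hx, hy, cE_dot,
      real_inner_self_eq_norm_sq, ht.ab, ht.na, ht.nb]
    norm_num
  have hdet : det2 B ≠ 0 := by
    intro h0
    rw [gdet_comp, h0] at hg
    simp at hg
  let H : P2 →L[ℝ] P2 →L[ℝ] ℂ := (ContinuousLinearMap.compL ℝ P2 ℝ ℂ Complex.ofRealCLM).comp
    (((innerSL ℝ).bilinearComp (A.comp D) D))
  have hH : ∀ u v, H u v = ((⟪A (D u), D v⟫ : ℝ) : ℂ) := fun u v => by simp [H]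
  have := gtr_comp (cE.comp D) B hdet H
  rw [gtr_congr _ hH] at this
  rw [← this, gtr, hg, ht.tr_eq, hA]
  simp only [t1, t2, ContinuousLinearMap.comp_apply, hB1, hB2, hx, hy, cE_dot, hH,
    real_inner_self_eq_norm_sq, ht.ab, ht.na, ht.nb]
  simp [add_comm]

/-- **The speed of a surface relative to the shrinking, in a parametrisation.** -/
theorem relV_param {N : Set E3} {Y : P2 → E3} {u : P2} {w : E3 → ℝ} (hw : IsEqn N (Y u) w)
    (hY : ContDiffAt ℝ 2 Y u) (hN : ∀ᶠ v in 𝓝 u, Y v ∈ N) (hD : rn (fderiv ℝ Y u) ≠ 0) {W : C3}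
    (hW : W ⬝ᵥ cE (rn (fderiv ℝ Y u)) ≠ 0) :
    ((⟪relV N 0 1 (Y u), rn (fderiv ℝ Y u)⟫ : ℝ) : ℂ) =
      shr (jet2 (fun v => cE (Y v)) u) W * (W ⬝ᵥ cE (rn (fderiv ℝ Y u))) := by
  obtain ⟨h1, h2⟩ := IsEqn.param hw hY hN
  have he := hw.isEqn_eqn
  have hn : ‖nu N (Y u)‖ = 1 := norm_nuw he.2.1
  have h3 := tr_eq_gtr hD hn h1 (A := sh N (Y u)) (shw_nuw he.2.1)
  set m := rn (fderiv ℝ Y u) with hm
  set n := nu N (Y u) with hn'
  have hmn : ∀ z : E3, ⟪z, m⟫ = ⟪n, m⟫ * ⟪z, n⟫ := by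
    intro z
    have e := eq_smul_rn hD h1
    have hm0 : ‖m‖ ^ 2 ≠ 0 := pow_ne_zero 2 (norm_ne_zero_iff.2 hD)
    have e1 : ⟪n, n⟫ = ⟪n, m⟫ / ‖m‖ ^ 2 * ⟪n, m⟫ := by
      rw [← real_inner_smul_right, ← e]
    rw [real_inner_self_eq_norm_sq, hn] at e1
    have e2 : ⟪z, n⟫ = ⟪n, m⟫ / ‖m‖ ^ 2 * ⟪z, m⟫ := by
      rw [← real_inner_smul_right, ← e]
    rw [e2]
    linear_combination ⟪z, m⟫ * e1
  rw [jet2_clm cE hY, shr]
  simp only [J2.map, jet2, ← cE_rn, ← hm]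
  rw [div_mul_cancel₀ _ hW, cE_dot]
  rw [gtr_congr (k := fun a b => ((⟪n, m⟫ : ℝ) : ℂ) *
      ((⟪sh N (Y u) (fderiv ℝ Y u a), fderiv ℝ Y u b⟫ : ℝ) : ℂ)) _ fun a b => by
    simp only [ContinuousLinearMap.comp_apply, ContinuousLinearMap.compL_apply, cE_dot]
    rw [hmn, h2]; push_cast; rfl, gtr_mul, ← h3, relV, Hv, inner_add_left, real_inner_smul_left,
    real_inner_smul_left, hmn (Y u), sub_zero]
  push_cast
  ring

/-- a set which is locally the image of a smooth immersion has a local equation -/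
theorem exists_isEqn {N : Set E3} {Y : P2 → E3} {u : P2} (hY : ∀ᶠ v in 𝓝 u, ContDiffAt ℝ ∞ Y v)
    (hD : rn (fderiv ℝ Y u) ≠ 0) (hN : map Y (𝓝 u) = 𝓝[N] (Y u)) : ∃ w, IsEqn N (Y u) w := by
  obtain ⟨Z, hZ, hZe⟩ := Chart.exists_contDiff_eventuallyEq (k := ⊤) hY
  have hu : toProd (toProd.symm u) = u := toProd.apply_symm_apply u
  have hf : ContDiff ℝ ∞ fun z : ℝ × Vale.Agent.P218FS.R2 => Z (toProd z.2) := by fun_prop
  have hL : Function.Injective (fderiv ℝ (fun v => Z (toProd v)) (toProd.symm u)) := by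
    have : HasFDerivAt Z (fderiv ℝ Y u) (toProd (toProd.symm u)) := by
      rw [hu, ← hZe.fderiv_eq]
      exact (hZ.differentiable (by simp) u).hasFDerivAt
    have h' : HasFDerivAt (fun v => Z (toProd v)) _ (toProd.symm u) :=
      this.comp _ toProd.hasFDerivAt
    rw [h'.fderiv]
    exact (injective_of_rn hD).comp toProd.injective
  obtain ⟨w, hw, hg, h1, h2⟩ := Vale.Agent.P218FS.exists_level hf (t := 0) hL
  simp only [hu, hZe.eq_of_nhds] at hg h2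
  refine ⟨fun y => w (0, y), by fun_prop, hg, ?_⟩
  have a1 : ∀ᶠ y in 𝓝[N] (Y u), w (0, y) = 0 := by
    rw [← hN, eventually_map]
    have : Tendsto (fun v : P2 => ((0 : ℝ), toProd.symm v)) (𝓝 u) (𝓝 (0, toProd.symm u)) :=
      Continuous.tendsto' (by fun_prop) _ _ rfl
    filter_upwards [this.eventually h1, hZe] with v hv1 hv2
    simpa [hv2] using hv1
  have a2 : ∀ᶠ v in 𝓝 u, Z v ∈ N := by
    have : ∀ᶠ v in 𝓝 u, Y v ∈ N := by
      rw [← eventually_map (P := fun y => y ∈ N), hN]; exact self_mem_nhdsWithin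
    filter_upwards [this, hZe] with v h1 h2
    rwa [h2]
  have a3 := h2 (fun z => Z (toProd z.2) ∈ N)
    ((Continuous.tendsto' (f := fun z : ℝ × Vale.Agent.P218FS.R2 => toProd z.2) (by fun_prop) _ _
      hu).eventually a2)
  filter_upwards [eventually_nhdsWithin_iff.1 a1, (Continuous.tendsto'
    (f := fun y : E3 => ((0 : ℝ), y)) (by fun_prop) _ _ rfl).eventually a3] with y hy1 hy2
  refine ⟨hy1, fun h => ?_⟩
  obtain ⟨v, hv1, hv2⟩ := hy2 h
  exact hv2 ▸ hv1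

end Vale.Agent.P218F.Ft
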