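import Vale.Agent.P218F.ConeMain
import Vale.Agent.P218F.FtParam
import Vale.Agent.P218F.EndsSpec

/-! Conical ends: from the ends of a shrinker to the data of the end solver. -/

namespace Vale.Agent.P218F.Cone

open Set Filter Topology Core Matrix
open Vale.Agent.P218FT hiding P2
open scoped ContDiff Real RealInnerProductSpace

noncomputable section

/-- a parametrised piece of a shrinker solves the equation, for every transversal direction -/
theorem shr_of_isShr {S : Set E3} (hS : IsShr S) {Y : P2 → E3} {u : P2} (hY : ContDiffAt ℝ 2 Y u)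
    (hN : ∀ᶠ v in 𝓝 u, Y v ∈ S) (W : C3) : shr (jet2 (fun v => cE (Y v)) u) W = 0 := by
  have e : nor (jet2 (fun v => cE (Y v)) u).2.1 = cE (Ft.rn (fderiv ℝ Y u)) := by
    rw [Ft.cE_rn, jet2_clm cE hY]; rfl
  by_cases hW : W ⬝ᵥ cE (Ft.rn (fderiv ℝ Y u)) = 0
  · rw [shr, e, hW, div_zero]
  obtain ⟨w, hw⟩ := hS.1.2 _ hN.self_of_nhds
  have h := Ft.relV_param hw hY hN (fun h0 => hW (by rw [h0]; simp)) hW
  rw [hS.2 _ hN.self_of_nhds, inner_zero_left, Complex.ofReal_zero] at h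
  exact (mul_eq_zero.1 h.symm).resolve_right hW

/-- the data of a conical end -/
def ofEnd (γ n : ℝ → E3) (l y₀ : ℝ) (ψ : P2 → ℝ) : ConeData := ⟨γ, n, l ^ 2, y₀, ψ⟩

lemma cE_conePt (c : ConeData) (u : P2 → ℝ) (z : P2) :
    cE (Ends.conePt c.γ c.ν z.1 z.2 (u z)) = c.Y (fun z => (u z : ℂ)) z := by
  ext i
  simp [Ends.conePt, ConeData.Y, mul_add]

theorem frame_ofEnd {γ n : ℝ → E3} {l δ : ℝ} (h : Ends.SphCurve γ n l δ) (y₀ : ℝ) (ψ : P2 → ℝ) :
    (ofEnd γ n l y₀ ψ).Frame where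
  l_pos := pow_pos h.lpos 2
  smooth_γ := h.smooth
  smooth_ν := h.smooth_n
  per_γ := h.per
  per_ν := h.per_n
  norm_γ θ := (h.tri θ).na
  norm_ν θ := (h.tri θ).nc
  inner_γν θ := (h.tri θ).ac
  speed θ := by
    have h1 := (h.tri θ).nb
    rw [norm_smul, norm_inv, Real.norm_of_nonneg h.lpos.le,
      inv_mul_eq_one₀ h.lpos.ne'] at h1
    exact congrArg (· ^ 2) h1.symm
  inner_dν θ := by
    have h1 := (h.tri θ).bc
    rw [real_inner_smul_left] at h1
    exact (mul_eq_zero.1 h1).resolve_left (inv_ne_zero h.lpos.ne')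

lemma ConeData.Frame.contDiffAt_pt {c : ConeData} (h : c.Frame) {u : P2 → ℝ} {z : P2} {k : ℕ∞}
    (hu : ContDiffAt ℝ k u z) :
    ContDiffAt ℝ k (fun z : P2 => Ends.conePt c.γ c.ν z.1 z.2 (u z)) z := by
  have hk : (k : ℕ∞ω) ≤ ∞ := WithTop.coe_le_coe.2 le_top
  exact (Real.contDiff_exp.comp contDiff_fst).contDiffAt.smul
    (((h.smooth_γ.of_le hk).comp contDiff_snd).contDiffAt.add
      (hu.smul ((h.smooth_ν.of_le hk).comp contDiff_snd).contDiffAt))

theorem ok_ofEnd {S : Set E3} (hS : IsShr S) {γ n : ℝ → E3} {l y₀ δ : ℝ} {ψ : P2 → ℝ}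
    (h : Ends.ConeEnd S γ n l y₀ δ ψ) : (ofEnd γ n l y₀ ψ).OK where
  toFrame := frame_ofEnd h.crv y₀ ψ
  smooth_ψ := h.smooth.contDiffOn
  per_ψ := h.per
  decay k ε hε := let ⟨Z, hZ⟩ := h.lim k ε hε; ⟨Z, fun z hz => hZ z.1 z.2 hz⟩
  shr z hz := by
    rw [Shr, ← funext (cE_conePt (ofEnd γ n l y₀ ψ) _)]
    refine shr_of_isShr hS ((frame_ofEnd h.crv y₀ ψ).contDiffAt_pt (k := 2)
      (h.smooth.contDiffAt.of_le (WithTop.coe_le_coe.2 le_top))) ?_ _
    filter_upwards [(isOpen_lt continuous_const continuous_fst).mem_nhds hz] with w hw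
    have := h.bd w
    exact (h.mem w.1 w.2 _ (le_of_lt hw) (by linarith [abs_nonneg (ψ w)])).2 rfl

end

end Vale.Agent.P218F.Cone
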