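import Vale.Agent.P272.K.LIN.Hol
import Mathlib.Analysis.Complex.Schwarz
import Mathlib.Analysis.Complex.CauchyIntegral
import Mathlib.Analysis.Analytic.IsolatedZeros
import Mathlib.Analysis.Normed.Operator.Compact.FredholmAlternative
import Mathlib.Topology.MetricSpace.Contracting
import Mathlib.Analysis.Calculus.MeanValue

/-!
# Holomorphic maps between Banach spaces: Cauchy estimates, maps into Hölder spaces, fixed points
with parameters, the identity theorem for real points, the Fredholm alternative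
-/

open Set Metric Filter Topology Asymptotics
open scoped NNReal
open Vale.Agent.P272.K.LIN

set_option linter.unusedSectionVars false

noncomputable section

namespace Vale.Agent.P218F.Core

section cauchy

variable {P W : Type*} [NormedAddCommGroup P] [NormedSpace ℂ P] [NormedAddCommGroup W]
  [NormedSpace ℂ W] {f : P → W} {a : P} {r M : ℝ}

theorem maps_of_bdd (hr : 0 < r) (hb : ∀ q ∈ ball a r, ‖f q‖ ≤ M) :
    MapsTo f (ball a r) (closedBall (f a) (2 * M)) := fun q hq => by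
  rw [mem_closedBall, dist_eq_norm]
  have := norm_sub_le (f q) (f a)
  linarith [hb q hq, hb a (mem_ball_self hr)]

/-- Cauchy estimate for the derivative -/
theorem fderiv_le (hr : 0 < r) (hd : DifferentiableOn ℂ f (ball a r))
    (hb : ∀ q ∈ ball a r, ‖f q‖ ≤ M) : ‖fderiv ℂ f a‖ ≤ 2 * M / r :=
  Complex.norm_fderiv_le_div_of_mapsTo_ball hd (maps_of_bdd hr hb) hr

/-- Cauchy estimate for differences -/
theorem sub_le (hd : DifferentiableOn ℂ f (ball a r)) (hb : ∀ q ∈ ball a r, ‖f q‖ ≤ M) {q : P}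
    (hq : q ∈ ball a r) : ‖f q - f a‖ ≤ 2 * M / r * ‖q - a‖ := by
  have := Complex.dist_le_div_mul_dist_of_mapsTo_ball hd
    (maps_of_bdd (pos_of_mem_ball hq) hb) hq
  rwa [dist_eq_norm, dist_eq_norm] at this

/-- Cauchy estimate for the remainder of first order -/
theorem rem_le (hd : DifferentiableOn ℂ f (ball a r)) (hb : ∀ q ∈ ball a r, ‖f q‖ ≤ M) {q : P}
    (hq : q ∈ ball a r) : ‖f q - f a - fderiv ℂ f a (q - a)‖ ≤ 4 * M / r ^ 2 * ‖q - a‖ ^ 2 := by
  have hr := pos_of_mem_ball hq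
  have hda : DifferentiableAt ℂ f a := hd.differentiableAt (ball_mem_nhds a hr)
  set L := fderiv ℂ f a with hL
  have hLn : ‖L‖ ≤ 2 * M / r := fderiv_le hr hd hb
  let g : P → W := fun z => f z - L (z - a)
  have hg : DifferentiableOn ℂ g (ball a r) :=
    hd.sub (L.differentiable.comp (differentiable_id.sub_const a)).differentiableOn
  have hga : g a = f a := by simp [g]
  have hm : MapsTo g (ball a r) (closedBall (g a) (4 * M)) := fun z hz => by
    rw [mem_closedBall, dist_eq_norm, hga]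
    have h1 := maps_of_bdd hr hb hz
    rw [mem_closedBall, dist_eq_norm] at h1
    have h2 : ‖L (z - a)‖ ≤ 2 * M / r * r :=
      (L.le_opNorm _).trans (mul_le_mul hLn (mem_ball_iff_norm.1 hz).le (norm_nonneg _)
        ((norm_nonneg _).trans hLn))
    rw [div_mul_cancel₀ _ hr.ne'] at h2
    calc ‖f z - L (z - a) - f a‖ = ‖(f z - f a) - L (z - a)‖ := by congr 1; abel
      _ ≤ ‖f z - f a‖ + ‖L (z - a)‖ := norm_sub_le _ _
      _ ≤ 4 * M := by linarith
  have ho : (fun z => g z - g a) =o[𝓝 a] fun w => ‖w - a‖ ^ 1 := by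
    have h1 := hda.hasFDerivAt.isLittleO
    simp only [pow_one, isLittleO_norm_right]
    refine h1.congr_left fun z => ?_
    rw [hga]
    simp only [g, hL]
    abel
  have h := Complex.dist_le_mul_div_pow_of_mapsTo_ball_of_isLittleO hg hm ho hq
  rw [dist_eq_norm, dist_eq_norm, hga] at h
  calc ‖f q - f a - L (q - a)‖ = ‖g q - f a‖ := by congr 1; simp only [g]; abel
    _ ≤ 4 * M * (‖q - a‖ / r) ^ (1 + 1) := h
    _ = _ := by rw [one_add_one_eq_two, div_pow]; ring

/-- Lipschitz bound on the ball of half the radius -/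
theorem lip_half (hd : DifferentiableOn ℂ f (ball a (2 * r)))
    (hb : ∀ q ∈ ball a (2 * r), ‖f q‖ ≤ M) {x y : P} (hx : x ∈ ball a r) (hy : y ∈ ball a r) :
    ‖f x - f y‖ ≤ 2 * M / r * ‖x - y‖ := by
  have hr := pos_of_mem_ball hx
  have hs : ∀ z ∈ ball a r, ball z r ⊆ ball a (2 * r) := fun z hz =>
    ball_subset_ball' (by have := mem_ball.1 hz; linarith)
  refine (convex_ball a r).norm_image_sub_le_of_norm_fderiv_le (𝕜 := ℂ) (fun z hz => ?_)
    (fun z hz => ?_) hy hx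
  · exact hd.differentiableAt (isOpen_ball.mem_nhds (hs z hz (mem_ball_self hr)))
  · exact fderiv_le hr (hd.mono (hs z hz)) fun q hq => hb q (hs z hz hq)

theorem hasFDerivAt_of_quad {L : P →L[ℂ] W} {C : ℝ} (hr : 0 < r)
    (h : ∀ q ∈ ball a r, ‖f q - f a - L (q - a)‖ ≤ C * ‖q - a‖ ^ 2) : HasFDerivAt f L a := by
  rw [hasFDerivAt_iff_isLittleO_nhds_zero]
  have h1 : (fun v : P => f (a + v) - f a - L v) =O[𝓝 0] fun v => ‖v‖ ^ 2 := by
    refine IsBigO.of_bound C ?_
    filter_upwards [ball_mem_nhds (0 : P) hr] with v hv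
    have := h (a + v) (by rwa [mem_ball_iff_norm, add_sub_cancel_left, ← mem_ball_zero_iff])
    rwa [add_sub_cancel_left, ← Real.norm_of_nonneg (sq_nonneg ‖v‖)] at this
  exact h1.trans_isLittleO (isLittleO_norm_pow_id one_lt_two)

end cauchy

section hol

variable {P V Y : Type*} [NormedAddCommGroup P] [NormedSpace ℂ P] [NormedAddCommGroup V]
  [NormedSpace ℂ V] {w : Y → Y → ℝ≥0}

/-- a bounded map into a Hölder space with holomorphic evaluations is holomorphic -/
theorem hol_differentiableAt {g : P → Hol w V} {a : P} {r M : ℝ} (hr : 0 < r)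
    (hb : ∀ q ∈ ball a r, ‖g q‖ ≤ M)
    (hd : ∀ x, DifferentiableOn ℂ (fun q => g q x) (ball a r)) : DifferentiableAt ℂ g a := by
  have hM : 0 ≤ M := (norm_nonneg _).trans (hb a (mem_ball_self hr))
  have b0 : ∀ x, ∀ q ∈ ball a r, ‖g q x‖ ≤ M := fun x q hq =>
    ((g q).norm_apply_le x).trans (hb q hq)
  have b1 : ∀ x y, ∀ q ∈ ball a r, ‖g q x - g q y‖ ≤ M * w x y := fun x y q hq =>
    ((g q).norm_sub_le' x y).trans (mul_le_mul_of_nonneg_right (hb q hq) (w x y).2)
  have da : ∀ x, DifferentiableAt ℂ (fun q => g q x) a := fun x =>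
    (hd x).differentiableAt (ball_mem_nhds a hr)
  have e1 : ∀ x y, fderiv ℂ (fun q => g q x - g q y) a =
      fderiv ℂ (fun q => g q x) a - fderiv ℂ (fun q => g q y) a := fun x y =>
    fderiv_fun_sub (da x) (da y)
  have c0 : ∀ (v : P) x, ‖fderiv ℂ (fun q => g q x) a v‖ ≤ 2 * M / r * ‖v‖ := fun v x =>
    (ContinuousLinearMap.le_opNorm _ _).trans
      (mul_le_mul_of_nonneg_right (fderiv_le hr (hd x) (b0 x)) (norm_nonneg _))
  have c1 : ∀ (v : P) x y, ‖fderiv ℂ (fun q => g q x) a v - fderiv ℂ (fun q => g q y) a v‖ ≤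
      2 * M / r * ‖v‖ * w x y := fun v x y => by
    rw [← _root_.sub_apply, ← e1]
    refine (ContinuousLinearMap.le_opNorm _ _).trans ?_
    refine (mul_le_mul_of_nonneg_right (fderiv_le hr ((hd x).sub (hd y)) (b1 x y))
      (norm_nonneg _)).trans (le_of_eq ?_)
    ring
  let L0 : P →ₗ[ℂ] Hol w V :=
    { toFun := fun v => ⟨fun x => fderiv ℂ (fun q => g q x) a v, ⟨_, c0 v⟩, ⟨_, c1 v⟩⟩
      map_add' := fun u v => Hol.ext fun x => map_add _ _ _
      map_smul' := fun c v => Hol.ext fun x => map_smul _ _ _ }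
  let L : P →L[ℂ] Hol w V := L0.mkContinuous (4 * M / r) fun v =>
    (Hol.norm_le_of (f := L0 v) (by positivity) (by positivity) (c0 v) (c1 v)).trans
      (le_of_eq (by ring))
  refine (hasFDerivAt_of_quad (L := L) (C := 8 * M / r ^ 2) hr fun q hq => ?_).differentiableAt
  refine (Hol.norm_le_of (A := 4 * M / r ^ 2 * ‖q - a‖ ^ 2) (B := 4 * M / r ^ 2 * ‖q - a‖ ^ 2)
    (by positivity) (by positivity) (fun x => rem_le (hd x) (b0 x) hq) fun x y => ?_).trans
      (le_of_eq (by ring))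
  have h := rem_le ((hd x).sub (hd y)) (b1 x y) hq
  rw [show ((fun q => g q x) - fun q => g q y) = fun q => g q x - g q y from rfl, e1] at h
  refine le_trans (le_of_eq ?_) (h.trans (le_of_eq (by ring)))
  congr 1
  change g q x - g a x - fderiv ℂ (fun q => g q x) a (q - a) -
    (g q y - g a y - fderiv ℂ (fun q => g q y) a (q - a)) = _
  rw [_root_.sub_apply]
  beta_reduce
  abel

theorem hol_differentiableOn {g : P → Hol w V} {U : Set P} (hU : IsOpen U) {M : ℝ}
    (hb : ∀ q ∈ U, ‖g q‖ ≤ M) (hd : ∀ x, DifferentiableOn ℂ (fun q => g q x) U) :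
    DifferentiableOn ℂ g U := fun a ha => by
  obtain ⟨r, hr, hs⟩ := Metric.isOpen_iff.1 hU a ha
  exact (hol_differentiableAt hr (fun q hq => hb q (hs hq))
    fun x => (hd x).mono hs).differentiableWithinAt

end hol

section fix

variable {𝕜 : Type*} [RCLike 𝕜] {Z P : Type*} [NormedAddCommGroup Z] [NormedSpace 𝕜 Z]
  [CompleteSpace Z] [NormedAddCommGroup P] [NormedSpace 𝕜 P]

/-- differentiability of a fixed point with respect to a parameter -/
theorem fix_differentiableAt {R : Z × P → Z} {ζ : P → Z} {p₀ : P} {B : Set Z}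
    (hB : B ∈ 𝓝 (ζ p₀)) (hζ : ∀ᶠ p in 𝓝 p₀, ζ p ∈ B ∧ R (ζ p, p) = ζ p ∧
      ∀ x ∈ B, ∀ y ∈ B, ‖R (x, p) - R (y, p)‖ ≤ 1 / 2 * ‖x - y‖)
    (hR : DifferentiableAt 𝕜 R (ζ p₀, p₀)) : DifferentiableAt 𝕜 ζ p₀ := by
  obtain ⟨h0, e0, l0⟩ := hζ.self_of_nhds
  set D := fderiv 𝕜 R (ζ p₀, p₀) with hD
  set A : Z →L[𝕜] Z := D.comp (ContinuousLinearMap.inl 𝕜 Z P) with hA
  set C : P →L[𝕜] Z := D.comp (ContinuousLinearMap.inr 𝕜 Z P) with hC
  have hA1 : HasFDerivAt (fun z => R (z, p₀)) A (ζ p₀) :=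
    hR.hasFDerivAt.comp (ζ p₀) (hasFDerivAt_prodMk_left (ζ p₀) p₀)
  have hAn : ‖A‖ ≤ 1 / 2 := by
    refine hA1.le_of_lip' (by norm_num) ?_
    filter_upwards [hB] with z hz using l0 z hz _ h0
  have hA2 : ‖A‖ < 1 := by linarith
  let u : (Z →L[𝕜] Z)ˣ := Units.oneSub A hA2
  -- the fixed point is Lipschitz at `p₀`
  have hC1 : HasFDerivAt (fun p => R (ζ p₀, p)) C p₀ :=
    hR.hasFDerivAt.comp p₀ (hasFDerivAt_prodMk_right (ζ p₀) p₀)
  have hO : (fun p => ζ p - ζ p₀) =O[𝓝 p₀] fun p => p - p₀ := by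
    refine IsBigO.trans (g := fun p => R (ζ p₀, p) - R (ζ p₀, p₀)) ?_ hC1.isBigO_sub
    refine IsBigO.of_bound 2 ?_
    filter_upwards [hζ] with p ⟨h1, e1, l1⟩
    have h2 := l1 _ h1 _ h0
    have h3 : ζ p - ζ p₀ = (R (ζ p, p) - R (ζ p₀, p)) + (R (ζ p₀, p) - R (ζ p₀, p₀)) := by
      rw [e1, e0]; abel
    have h4 := norm_add_le (R (ζ p, p) - R (ζ p₀, p)) (R (ζ p₀, p) - R (ζ p₀, p₀))
    rw [← h3] at h4
    linarith
  have hc : ContinuousAt ζ p₀ := by
    have : Tendsto (fun p => ζ p - ζ p₀) (𝓝 p₀) (𝓝 0) :=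
      hO.trans_tendsto (tendsto_sub_nhds_zero_iff.2 tendsto_id)
    exact tendsto_sub_nhds_zero_iff.1 this
  have hO2 : (fun p => (ζ p, p) - (ζ p₀, p₀)) =O[𝓝 p₀] fun p => p - p₀ :=
    hO.prod_left (isBigO_refl _ _)
  have ht : Tendsto (fun p => (ζ p, p)) (𝓝 p₀) (𝓝 (ζ p₀, p₀)) := hc.prodMk_nhds tendsto_id
  have h1 := (hR.hasFDerivAt.isLittleO.comp_tendsto ht).trans_isBigO hO2
  refine (show HasFDerivAt ζ ((↑u⁻¹ : Z →L[𝕜] Z).comp C) p₀ from ?_).differentiableAt
  rw [hasFDerivAt_iff_isLittleO]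
  refine (((↑u⁻¹ : Z →L[𝕜] Z).isBigO_comp _ _).trans_isLittleO h1).congr' ?_ EventuallyEq.rfl
  filter_upwards [hζ] with p ⟨_, e1, _⟩
  have h2 : D ((ζ p, p) - (ζ p₀, p₀)) = A (ζ p - ζ p₀) + C (p - p₀) := by
    simp only [hA, hC, ContinuousLinearMap.comp_apply, ← map_add]
    congr 1
    simp
  have h3 : ∀ v, (↑u⁻¹ : Z →L[𝕜] Z) (v - A v) = v := fun v => by
    have := congrArg (fun T : Z →L[𝕜] Z => T v) u.inv_mul
    simpa [u] using this
  simp only [Function.comp_apply, ContinuousLinearMap.comp_apply]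
  rw [e1, e0, ← hD, h2, ← sub_sub, map_sub, h3]

end fix

section uift

variable {Z P : Type*} [NormedAddCommGroup Z] [NormedSpace ℂ Z] [CompleteSpace Z]

/-- the fixed point of a small holomorphic map -/
theorem exists_fix {R : Z → Z} {r : ℝ} (hr : 0 < r) (hd : DifferentiableOn ℂ R (ball 0 (2 * r)))
    (hb : ∀ z ∈ ball (0 : Z) (2 * r), ‖R z‖ ≤ r / 4) :
    ∃ ζ, ‖ζ‖ ≤ r / 4 ∧ R ζ = ζ ∧ (∀ x ∈ ball (0 : Z) r, ∀ y ∈ ball (0 : Z) r,
      ‖R x - R y‖ ≤ 1 / 2 * ‖x - y‖) ∧ (∀ z ∈ ball (0 : Z) r, ‖z - ζ‖ ≤ 2 * ‖z - R z‖) ∧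
      ∀ A : Set Z, IsClosed A → 0 ∈ A → (∀ z ∈ A, ‖z‖ ≤ r / 4 → R z ∈ A) → ζ ∈ A := by
  have hl : ∀ x ∈ ball (0 : Z) r, ∀ y ∈ ball (0 : Z) r, ‖R x - R y‖ ≤ 1 / 2 * ‖x - y‖ :=
    fun x hx y hy => (lip_half hd hb hx hy).trans (le_of_eq (by field_simp; norm_num))
  have hs : closedBall (0 : Z) (r / 4) ⊆ ball 0 r := closedBall_subset_ball (by linarith)
  have hs2 : ball (0 : Z) r ⊆ ball 0 (2 * r) := ball_subset_ball (by linarith)
  have hm : MapsTo R (closedBall (0 : Z) (r / 4)) (closedBall 0 (r / 4)) := fun z hz =>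
    mem_closedBall_zero_iff.2 (hb z (hs2 (hs hz)))
  have hc : ContractingWith (1 / 2 : ℝ≥0) (hm.restrict R _ _) := by
    refine ⟨by norm_num, LipschitzWith.of_dist_le_mul fun x y => ?_⟩
    rw [Subtype.dist_eq, Subtype.dist_eq, dist_eq_norm, dist_eq_norm]
    simpa using hl x (hs x.2) y (hs y.2)
  have h00 : (0 : Z) ∈ closedBall (0 : Z) (r / 4) := mem_closedBall_self (by positivity)
  obtain ⟨ζ, h1, h2, h5, -⟩ := ContractingWith.exists_fixedPoint' isClosed_closedBall.isComplete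
    hm hc h00 (edist_ne_top _ _)
  refine ⟨ζ, mem_closedBall_zero_iff.1 h1, h2, hl, fun z hz => ?_, fun A hA h0 hi => ?_⟩
  · have h3 := hl z hz ζ (hs h1)
    have h4 := norm_add_le (z - R z) (R z - R ζ)
    rw [show z - R z + (R z - R ζ) = z - ζ by rw [show R ζ = ζ from h2]; abel] at h4
    linarith
  · refine hA.mem_of_tendsto h5 (Eventually.of_forall fun n => ?_)
    induction n with
    | zero => exact h0
    | succ n ih =>
      rw [Function.iterate_succ_apply']
      exact hi _ ih (mem_closedBall_zero_iff.1 (hm.iterate n h00))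

variable [NormedAddCommGroup P] [NormedSpace ℂ P]

/-- the fixed point depends holomorphically on parameters -/
theorem exists_fix_param {R : Z × P → Z} {r : ℝ} (hr : 0 < r) {U : Set P} (hU : IsOpen U)
    (hd : DifferentiableOn ℂ R (ball 0 (2 * r) ×ˢ U))
    (hb : ∀ z ∈ ball (0 : Z) (2 * r), ∀ p ∈ U, ‖R (z, p)‖ ≤ r / 4) :
    ∃ ζ : P → Z, DifferentiableOn ℂ ζ U ∧ ∀ p ∈ U, ‖ζ p‖ ≤ r / 4 ∧ R (ζ p, p) = ζ p ∧
      (∀ z ∈ ball (0 : Z) r, ‖z - ζ p‖ ≤ 2 * ‖z - R (z, p)‖) ∧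
      ∀ A : Set Z, IsClosed A → 0 ∈ A → (∀ z ∈ A, ‖z‖ ≤ r / 4 → R (z, p) ∈ A) → ζ p ∈ A := by
  have h : ∀ p ∈ U, _ := fun p hp => exists_fix (R := fun z => R (z, p)) hr
    (hd.comp (by fun_prop) fun z hz => ⟨hz, hp⟩) fun z hz => hb z hz p hp
  choose! ζ h1 h2 h3 h4 h5 using h
  refine ⟨ζ, fun p hp => ?_, fun p hp => ⟨h1 p hp, h2 p hp, h4 p hp, h5 p hp⟩⟩
  have hm : ∀ p ∈ U, ζ p ∈ ball (0 : Z) r := fun p hp =>
    mem_ball_zero_iff.2 ((h1 p hp).trans_lt (by linarith))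
  refine (fix_differentiableAt (R := R) (B := ball 0 r) (isOpen_ball.mem_nhds (hm p hp)) ?_
    (hd.differentiableAt ((isOpen_ball.prod hU).mem_nhds
      ⟨ball_subset_ball (by linarith) (hm p hp), hp⟩))).differentiableWithinAt
  filter_upwards [hU.mem_nhds hp] with q hq using ⟨hm q hq, h2 q hq, h3 q hq⟩

end uift

section ident

/-- a holomorphic function of one variable which vanishes near `0` on the real axis vanishes -/
theorem eq_zero_of_real {W : Type*} [NormedAddCommGroup W] [NormedSpace ℂ W] [CompleteSpace W]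
    {f : ℂ → W} {U : Set ℂ} (hU : IsOpen U) (hc : IsPreconnected U) (h0 : (0 : ℂ) ∈ U)
    (hd : DifferentiableOn ℂ f U) (h : ∀ᶠ t : ℝ in 𝓝 0, f t = 0) : EqOn f 0 U := by
  refine (hd.analyticOnNhd hU).eqOn_zero_of_preconnected_of_frequently_eq_zero hc h0 ?_
  have h1 : Tendsto (fun t : ℝ => (t : ℂ)) (𝓝[≠] 0) (𝓝[≠] 0) := by
    refine tendsto_nhdsWithin_iff.2 ⟨?_, ?_⟩
    · have := Complex.continuous_ofReal.tendsto 0
      rw [Complex.ofReal_zero] at this
      exact this.mono_left nhdsWithin_le_nhds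
    · filter_upwards [self_mem_nhdsWithin] with t ht
      exact Complex.ofReal_ne_zero.2 ht
  exact h1.frequently (h.filter_mono nhdsWithin_le_nhds).frequently

variable {P W : Type*} [NormedAddCommGroup P] [NormedSpace ℂ P] [NormedAddCommGroup W]
  [NormedSpace ℂ W] [CompleteSpace W]

/-- **identity theorem for real points**: `σ` is a continuous conjugation -/
theorem eqOn_zero_of_fixed {σ : P → P} (hσc : Continuous σ) (hadd : ∀ x y, σ (x + y) = σ x + σ y)
    (hsm : ∀ (c : ℂ) x, σ (c • x) = (starRingEnd ℂ) c • σ x) (hinv : ∀ x, σ (σ x) = x)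
    {f : P → W} {U : Set P} (hU : IsOpen U) (hc : Convex ℝ U) {a : P} (ha : a ∈ U) (haσ : σ a = a)
    (hd : DifferentiableOn ℂ f U) (h : ∀ p ∈ U, σ p = p → f p = 0) : EqOn f 0 U := by
  have σ0 : σ 0 = 0 := by simpa using hsm 0 0
  have line : ∀ (b v : P), b ∈ U → (∀ᶠ t : ℝ in 𝓝 0, f (b + (t : ℂ) • v) = 0) →
      ∀ s : ℂ, b + s • v ∈ U → f (b + s • v) = 0 := by
    intro b v hb hev s hs
    have hcont : Continuous fun t : ℂ => b + t • v := by fun_prop
    have hO : IsOpen ((fun t : ℂ => b + t • v) ⁻¹' U) := hU.preimage hcont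
    have hcv : Convex ℝ ((fun t : ℂ => b + t • v) ⁻¹' U) := by
      intro x hx y hy c d hc0 hd0 hcd
      have := hc hx hy hc0 hd0 hcd
      refine (congrArg (· ∈ U) ?_).mp this
      have e : (c : ℂ) + d = 1 := by exact_mod_cast hcd
      simp only [smul_add, add_smul, smul_assoc]
      rw [add_add_add_comm, ← add_smul, hcd, one_smul]
    exact eq_zero_of_real (f := fun t : ℂ => f (b + t • v)) hO hcv.isPreconnected
      (by simpa using hb) (hd.comp (by fun_prop) fun _ h => h) hev hs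
  -- near `a`
  have near : ∀ᶠ p in 𝓝 a, f p = 0 := by
    have c1 : Continuous fun p : P => a + (2⁻¹ : ℂ) • ((p - a) + σ (p - a)) := by fun_prop
    have t1 := c1.tendsto a
    simp only [sub_self, σ0, add_zero, smul_zero] at t1
    filter_upwards [t1.eventually (hU.mem_nhds ha), hU.mem_nhds ha] with p hp hpU
    set b := a + (2⁻¹ : ℂ) • ((p - a) + σ (p - a)) with hb
    set v := (-(2⁻¹ : ℂ) * Complex.I) • ((p - a) - σ (p - a)) with hv
    have σneg : ∀ x, σ (-x) = -σ x := fun x => by simpa using hsm (-1) x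
    have hbσ : σ b = b := by
      rw [hb, hadd, hsm, hadd, hinv, haσ, add_comm (σ (p - a)), map_inv₀, map_ofNat]
    have hvσ : σ v = v := by
      rw [hv, hsm, sub_eq_add_neg (p - a), hadd, σneg, hinv]
      simp only [map_mul, map_neg, map_inv₀, map_ofNat, Complex.conj_I]
      module
    have e : b + Complex.I • v = p := by
      rw [hb, hv, smul_smul]
      have : Complex.I * (-(2⁻¹ : ℂ) * Complex.I) = 2⁻¹ := by
        rw [mul_comm, mul_assoc, Complex.I_mul_I]; ring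
      rw [this]
      module
    rw [← e]
    refine line b v hp ?_ _ (e ▸ hpU)
    have c2 : Continuous fun t : ℝ => b + (t : ℂ) • v := by fun_prop
    have t2 := c2.tendsto 0
    simp only [Complex.ofReal_zero, zero_smul, add_zero] at t2
    filter_upwards [t2.eventually (hU.mem_nhds hp)] with t ht
    refine h _ ht ?_
    rw [hadd, hsm, hbσ, hvσ, Complex.conj_ofReal]
  intro p hp
  have c2 : Continuous fun t : ℝ => a + (t : ℂ) • (p - a) := by fun_prop
  have t2 := c2.tendsto 0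
  simp only [Complex.ofReal_zero, zero_smul, add_zero] at t2
  have := line a (p - a) ha (t2.eventually near) 1 (by simpa using hp)
  simpa using this

end ident

section fred

variable {Z : Type*} [NormedAddCommGroup Z] [NormedSpace ℂ Z] [CompleteSpace Z]

/-- **Fredholm alternative** -/
theorem exists_equiv_of_injective {K : Z →L[ℂ] Z} (hK : IsCompactOperator K)
    (hinj : ∀ z, z + K z = 0 → z = 0) : ∃ T : Z ≃L[ℂ] Z, ∀ z, T z = z + K z := by
  rcases hK.hasEigenvalue_or_mem_resolventSet (μ := -1) (by norm_num) with h | h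
  · obtain ⟨v, hv⟩ := h.exists_hasEigenvector
    have h1 : K v = (-1 : ℂ) • v := hv.apply_eq_smul
    exact absurd (hinj v (by rw [h1]; simp)) hv.2
  · rw [spectrum.mem_resolventSet_iff] at h
    obtain ⟨u, hu⟩ := h.neg
    refine ⟨ContinuousLinearEquiv.unitsEquiv ℂ Z u, fun z => ?_⟩
    rw [ContinuousLinearEquiv.unitsEquiv_apply, hu]
    simp [Algebra.algebraMap_eq_smul_one, add_comm]

end fred

end Vale.Agent.P218F.Core
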