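import Vale.Agent.P218F.CoreJet
import Vale.Agent.P218F.CoreHol
import Mathlib.MeasureTheory.Integral.DivergenceTheorem

/-!
# First variation of the Gaussian area of a complex parametrised surface
-/

open Filter Topology Matrix MeasureTheory Set
open scoped ContDiff

set_option maxSynthPendingDepth 3

noncomputable section

namespace Vale.Agent.P218F.LS

open Core

/-- one-jets of maps of the plane to complex three-space -/
abbrev Jt : Type := J1 P2 C3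

/-- the set of one-jets on which the Lagrangian is holomorphic -/
def good : Set Jt := {q | gdet q.2 ∈ Complex.slitPlane}

/-- `det g · g^{1j} Y_j` -/
def co1 (D : P2 →L[ℝ] C3) : C3 := (t2 D ⬝ᵥ t2 D) • t1 D - (t1 D ⬝ᵥ t2 D) • t2 D

/-- `det g · g^{2j} Y_j` -/
def co2 (D : P2 →L[ℝ] C3) : C3 := (t1 D ⬝ᵥ t1 D) • t2 D - (t1 D ⬝ᵥ t2 D) • t1 D

/-- the momentum `∂L/∂Y₁` -/
def mom1 (q : Jt) : C3 := (lag q / gdet q.2) • co1 q.2

/-- the momentum `∂L/∂Y₂` -/
def mom2 (q : Jt) : C3 := (lag q / gdet q.2) • co2 q.2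

/-- the derivative of the Lagrangian at `q` in the direction `η` -/
def dlag (q η : Jt) : ℂ :=
  -(lag q * (q.1 ⬝ᵥ η.1) / 2) + mom1 q ⬝ᵥ t1 η.2 + mom2 q ⬝ᵥ t2 η.2

/-- the Euler-Lagrange expression is `el q • nor` -/
def el (q : J2 P2 C3) : ℂ := lag q.one / gdet q.2.1 *
  (gtr q.2.1 (fun u v => q.2.2 u v ⬝ᵥ nor q.2.1) + q.1 ⬝ᵥ nor q.2.1 / 2)

theorem el_eq_shr (q : J2 P2 C3) {W : C3} (hW : W ⬝ᵥ nor q.2.1 ≠ 0) :
    el q = lag q.one / gdet q.2.1 * (W ⬝ᵥ nor q.2.1) * shr q W := by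
  unfold el shr
  rw [mul_assoc, mul_div_cancel₀ _ hW]

/-! ### Holomorphy -/

/-- evaluation of the derivative part of a jet, as a complex linear map -/
def evC (v : P2) : Jt →L[ℂ] C3 where
  toFun q := q.2 v
  map_add' _ _ := rfl
  map_smul' _ _ := rfl
  cont := by fun_prop

section smooth

variable {E : Type*} [NormedAddCommGroup E] [NormedSpace ℂ E] {x : E}

theorem analyticAt_dot {a b : E → C3} (ha : AnalyticAt ℂ a x) (hb : AnalyticAt ℂ b x) :
    AnalyticAt ℂ (fun y => a y ⬝ᵥ b y) x := by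
  simp only [dotProduct]
  exact Finset.analyticAt_fun_sum _ fun i _ =>
    (analyticAt_pi_iff.1 ha i).mul (analyticAt_pi_iff.1 hb i)

end smooth

theorem an_t1 (q : Jt) : AnalyticAt ℂ (fun q : Jt => t1 q.2) q := (evC (1, 0)).analyticAt q

theorem an_t2 (q : Jt) : AnalyticAt ℂ (fun q : Jt => t2 q.2) q := (evC (0, 1)).analyticAt q

theorem an_gdet (q : Jt) : AnalyticAt ℂ (fun q : Jt => gdet q.2) q :=
  ((analyticAt_dot (an_t1 q) (an_t1 q)).mul (analyticAt_dot (an_t2 q) (an_t2 q))).sub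
    ((analyticAt_dot (an_t1 q) (an_t2 q)).pow 2)

theorem an_co1 (q : Jt) : AnalyticAt ℂ (fun q : Jt => co1 q.2) q :=
  ((analyticAt_dot (an_t2 q) (an_t2 q)).smul (an_t1 q)).sub
    ((analyticAt_dot (an_t1 q) (an_t2 q)).smul (an_t2 q))

theorem an_co2 (q : Jt) : AnalyticAt ℂ (fun q : Jt => co2 q.2) q :=
  ((analyticAt_dot (an_t1 q) (an_t1 q)).smul (an_t2 q)).sub
    ((analyticAt_dot (an_t1 q) (an_t2 q)).smul (an_t1 q))

theorem isOpen_good : IsOpen good :=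
  Complex.isOpen_slitPlane.preimage
    (continuous_iff_continuousAt.2 fun q => (an_gdet q).continuousAt)

theorem good_ne {q : Jt} (h : q ∈ good) : gdet q.2 ≠ 0 := Complex.slitPlane_ne_zero h

theorem good_ne₂ {q : J2 P2 C3} (h : q.one ∈ good) : gdet q.2.1 ≠ 0 := by
  have := good_ne h
  simpa only [J2.one] using this

theorem an_lag {q : Jt} (h : q ∈ good) : AnalyticAt ℂ lag q := by
  have h1 : AnalyticAt ℂ Complex.sqrt (gdet q.2) :=
    Complex.differentiableOn_sqrt.analyticAt (Complex.isOpen_slitPlane.mem_nhds h)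
  have h2 : AnalyticAt ℂ (fun q : Jt => -(q.1 ⬝ᵥ q.1) / 4) q :=
    (analyticAt_dot analyticAt_fst analyticAt_fst).neg.div_const
  exact h2.cexp'.mul (AnalyticAt.comp (g := Complex.sqrt) h1 (an_gdet q))

theorem an_mom1 {q : Jt} (h : q ∈ good) : AnalyticAt ℂ mom1 q :=
  ((an_lag h).div (an_gdet q) (good_ne h)).smul (an_co1 q)

theorem an_mom2 {q : Jt} (h : q ∈ good) : AnalyticAt ℂ mom2 q :=
  ((an_lag h).div (an_gdet q) (good_ne h)).smul (an_co2 q)

/-! ### Derivatives along lines of jets -/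

theorem hasDerivAt_dot {a b : ℂ → C3} {a' b' : C3} {s : ℂ} (ha : HasDerivAt a a' s)
    (hb : HasDerivAt b b' s) : HasDerivAt (fun s => a s ⬝ᵥ b s) (a' ⬝ᵥ b s + a s ⬝ᵥ b') s := by
  simp only [dotProduct, ← Finset.sum_add_distrib]
  exact HasDerivAt.fun_sum fun i _ => (hasDerivAt_pi.1 ha i).fun_mul (hasDerivAt_pi.1 hb i)

theorem hasDerivAt_sqrt' {z : ℂ} (hz : z ∈ Complex.slitPlane) :
    HasDerivAt Complex.sqrt (Complex.sqrt z / (2 * z)) z := by
  have h0 := Complex.slitPlane_ne_zero hz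
  convert Complex.hasDerivAt_sqrt hz using 1
  rw [show (-1 / 2 : ℂ) = 2⁻¹ - 1 by norm_num, Complex.cpow_sub _ _ h0, Complex.cpow_one,
    Complex.sqrt]
  field_simp

/-- the derivative of the determinant of the metric -/
def dgdet (D E : P2 →L[ℝ] C3) : ℂ := 2 * (co1 D ⬝ᵥ t1 E + co2 D ⬝ᵥ t2 E)

theorem line_q (q η : Jt) : HasDerivAt (fun s : ℂ => q + s • η) η 0 := by
  simpa using ((hasDerivAt_id (0 : ℂ)).smul_const η).const_add q

theorem line_fst (q η : Jt) : HasDerivAt (fun s : ℂ => (q + s • η).1) η.1 0 :=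
  (ContinuousLinearMap.fst ℂ C3 (P2 →L[ℝ] C3)).hasFDerivAt.comp_hasDerivAt (0 : ℂ) (line_q q η)

theorem line_t1 (q η : Jt) : HasDerivAt (fun s : ℂ => t1 (q + s • η).2) (t1 η.2) 0 :=
  (evC (1, 0)).hasFDerivAt.comp_hasDerivAt (0 : ℂ) (line_q q η)

theorem line_t2 (q η : Jt) : HasDerivAt (fun s : ℂ => t2 (q + s • η).2) (t2 η.2) 0 :=
  (evC (0, 1)).hasFDerivAt.comp_hasDerivAt (0 : ℂ) (line_q q η)

theorem line_gdet (q η : Jt) :
    HasDerivAt (fun s : ℂ => gdet (q + s • η).2) (dgdet q.2 η.2) 0 := by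
  have h := ((hasDerivAt_dot (line_t1 q η) (line_t1 q η)).fun_mul
    (hasDerivAt_dot (line_t2 q η) (line_t2 q η))).fun_sub
    ((hasDerivAt_dot (line_t1 q η) (line_t2 q η)).fun_pow 2)
  refine h.congr_deriv ?_
  simp only [dgdet, co1, co2, zero_smul, add_zero, sub_dotProduct, smul_dotProduct, smul_eq_mul,
    dotProduct_comm (t1 η.2), dotProduct_comm (t2 η.2)]
  push_cast
  ring

theorem line_lag {q : Jt} (h : q ∈ good) (η : Jt) : HasDerivAt (fun s : ℂ => lag (q + s • η))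
    (lag q * (-(q.1 ⬝ᵥ η.1) / 2 + dgdet q.2 η.2 / (2 * gdet q.2))) 0 := by
  have h1 := ((hasDerivAt_dot (line_fst q η) (line_fst q η)).fun_neg.div_const 4).cexp
  have h2 := (hasDerivAt_sqrt' h).comp_of_eq (0 : ℂ) (line_gdet q η) (by simp)
  refine (h1.fun_mul h2).congr_deriv ?_
  simp only [lag, zero_smul, add_zero, Function.comp, dotProduct_comm η.1]
  ring

theorem fderiv_of_line {V : Type} [NormedAddCommGroup V] [NormedSpace ℂ V] {f : Jt → V} {q η : Jt}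
    {v : V} (hf : DifferentiableAt ℂ f q) (h : HasDerivAt (fun s : ℂ => f (q + s • η)) v 0) :
    fderiv ℂ f q η = v :=
  (hf.hasFDerivAt.comp_hasDerivAt_of_eq (0 : ℂ) (line_q q η) (by simp)).unique h

/-- **the derivative of the Lagrangian** -/
theorem fderiv_lag {q : Jt} (h : q ∈ good) (η : Jt) : fderiv ℂ lag q η = dlag q η := by
  rw [fderiv_of_line (an_lag h).differentiableAt (line_lag h η)]
  have := good_ne h
  simp only [dlag, mom1, mom2, dgdet, smul_dotProduct, smul_eq_mul]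
  field_simp
  ring

theorem line_quot {q : Jt} (h : q ∈ good) (η : Jt) :
    HasDerivAt (fun s : ℂ => lag (q + s • η) / gdet (q + s • η).2)
      (lag q / gdet q.2 * (-(q.1 ⬝ᵥ η.1) / 2 - dgdet q.2 η.2 / (2 * gdet q.2))) 0 := by
  have h0 := good_ne h
  refine ((line_lag h η).fun_div (line_gdet q η) (by simpa using h0)).congr_deriv ?_
  simp only [zero_smul, add_zero]
  field_simp
  ring

theorem fderiv_mom1 {q : Jt} (h : q ∈ good) (η : Jt) : fderiv ℂ mom1 q η =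
    (lag q / gdet q.2) • ((-(q.1 ⬝ᵥ η.1) / 2 - dgdet q.2 η.2 / (2 * gdet q.2)) • co1 q.2 +
      ((t2 q.2 ⬝ᵥ t2 q.2) • t1 η.2 + (2 * (t2 q.2 ⬝ᵥ t2 η.2)) • t1 q.2 -
        ((t1 q.2 ⬝ᵥ t2 q.2) • t2 η.2 + (t1 η.2 ⬝ᵥ t2 q.2 + t1 q.2 ⬝ᵥ t2 η.2) • t2 q.2))) := by
  refine fderiv_of_line (an_mom1 h).differentiableAt ?_
  have h1 := ((hasDerivAt_dot (line_t2 q η) (line_t2 q η)).fun_smul (line_t1 q η)).fun_sub
    ((hasDerivAt_dot (line_t1 q η) (line_t2 q η)).fun_smul (line_t2 q η))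
  refine ((line_quot h η).fun_smul h1).congr_deriv ?_
  simp only [zero_smul, add_zero, co1, dotProduct_comm (t2 η.2), two_mul (t2 q.2 ⬝ᵥ t2 η.2)]
  rw [smul_add, smul_smul, add_comm]

theorem fderiv_mom2 {q : Jt} (h : q ∈ good) (η : Jt) : fderiv ℂ mom2 q η =
    (lag q / gdet q.2) • ((-(q.1 ⬝ᵥ η.1) / 2 - dgdet q.2 η.2 / (2 * gdet q.2)) • co2 q.2 +
      ((t1 q.2 ⬝ᵥ t1 q.2) • t2 η.2 + (2 * (t1 q.2 ⬝ᵥ t1 η.2)) • t2 q.2 -
        ((t1 q.2 ⬝ᵥ t2 q.2) • t1 η.2 + (t1 η.2 ⬝ᵥ t2 q.2 + t1 q.2 ⬝ᵥ t2 η.2) • t1 q.2))) := by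
  refine fderiv_of_line (an_mom2 h).differentiableAt ?_
  have h1 := ((hasDerivAt_dot (line_t1 q η) (line_t1 q η)).fun_smul (line_t2 q η)).fun_sub
    ((hasDerivAt_dot (line_t1 q η) (line_t2 q η)).fun_smul (line_t1 q η))
  refine ((line_quot h η).fun_smul h1).congr_deriv ?_
  simp only [zero_smul, add_zero, co2, dotProduct_comm (t1 η.2) (t1 q.2),
    two_mul (t1 q.2 ⬝ᵥ t1 η.2)]
  rw [smul_add, smul_smul, add_comm]

/-! ### The Euler-Lagrange expression -/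

theorem el_alg (Y a b A B C : C3) (g : ℂ) (hg : g = (a ⬝ᵥ a) * (b ⬝ᵥ b) - (a ⬝ᵥ b) ^ 2)
    (h0 : g ≠ 0) :
    ((-(Y ⬝ᵥ a) / 2 - 2 * (((b ⬝ᵥ b) • a - (a ⬝ᵥ b) • b) ⬝ᵥ A +
          ((a ⬝ᵥ a) • b - (a ⬝ᵥ b) • a) ⬝ᵥ B) / (2 * g)) • ((b ⬝ᵥ b) • a - (a ⬝ᵥ b) • b) +
        ((b ⬝ᵥ b) • A + (2 * (b ⬝ᵥ B)) • a - ((a ⬝ᵥ b) • B + (A ⬝ᵥ b + a ⬝ᵥ B) • b))) +
      ((-(Y ⬝ᵥ b) / 2 - 2 * (((b ⬝ᵥ b) • a - (a ⬝ᵥ b) • b) ⬝ᵥ B +
          ((a ⬝ᵥ a) • b - (a ⬝ᵥ b) • a) ⬝ᵥ C) / (2 * g)) • ((a ⬝ᵥ a) • b - (a ⬝ᵥ b) • a) +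
        ((a ⬝ᵥ a) • C + (2 * (a ⬝ᵥ B)) • b - ((a ⬝ᵥ b) • B + (B ⬝ᵥ b + a ⬝ᵥ C) • a))) +
      (g / 2) • Y =
    (((b ⬝ᵥ b) * (A ⬝ᵥ (a ⨯₃ b)) - (a ⬝ᵥ b) * (B ⬝ᵥ (a ⨯₃ b) + B ⬝ᵥ (a ⨯₃ b)) +
      (a ⬝ᵥ a) * (C ⬝ᵥ (a ⨯₃ b))) / g + Y ⬝ᵥ (a ⨯₃ b) / 2) • (a ⨯₃ b) := by
  have proj : ∀ Z : C3, g • Z = (Z ⬝ᵥ a) • ((b ⬝ᵥ b) • a - (a ⬝ᵥ b) • b) +
      (Z ⬝ᵥ b) • ((a ⬝ᵥ a) • b - (a ⬝ᵥ b) • a) + (Z ⬝ᵥ (a ⨯₃ b)) • (a ⨯₃ b) := by
    intro Z
    rw [hg]
    ext i
    fin_cases i <;> simp [cross_apply, dotProduct, Fin.sum_univ_three] <;> ring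
  have eA : A = g⁻¹ • (g • A) := (inv_smul_smul₀ h0 A).symm
  have eB : B = g⁻¹ • (g • B) := (inv_smul_smul₀ h0 B).symm
  have eC : C = g⁻¹ • (g • C) := (inv_smul_smul₀ h0 C).symm
  rw [proj] at eA eB eC
  have eY := proj Y
  simp only [sub_dotProduct, smul_dotProduct, smul_eq_mul, dotProduct_comm a A,
    dotProduct_comm b A, dotProduct_comm a B, dotProduct_comm b B, dotProduct_comm a C,
    dotProduct_comm b C]
  rw [show (g / 2) • Y = (1 / 2 : ℂ) • (g • Y) by rw [smul_smul]; congr 1; ring, eY]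
  generalize a ⨯₃ b = m at *
  generalize A ⬝ᵥ a = A1 at *
  generalize A ⬝ᵥ b = A2 at *
  generalize A ⬝ᵥ m = A3 at *
  generalize B ⬝ᵥ a = B1 at *
  generalize B ⬝ᵥ b = B2 at *
  generalize B ⬝ᵥ m = B3 at *
  generalize C ⬝ᵥ a = C1 at *
  generalize C ⬝ᵥ b = C2 at *
  generalize C ⬝ᵥ m = C3 at *
  generalize Y ⬝ᵥ a = Y1 at *
  generalize Y ⬝ᵥ b = Y2 at *
  generalize Y ⬝ᵥ m = Y3 at *
  generalize a ⬝ᵥ a = E at *
  generalize a ⬝ᵥ b = F at *
  generalize b ⬝ᵥ b = G at *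
  rw [eA, eB, eC]
  match_scalars <;> field_simp <;> rw [hg] <;> ring

/-- the Euler-Lagrange identity on jets -/
theorem el_jet {q : J2 P2 C3} (h : q.one ∈ good)
    (hs : q.2.2 (0, 1) (1, 0) = q.2.2 (1, 0) (0, 1)) :
    fderiv ℂ mom1 q.one (t1 q.2.1, q.2.2 (1, 0)) + fderiv ℂ mom2 q.one (t2 q.2.1, q.2.2 (0, 1)) +
      (lag q.one / 2) • q.1 = el q • nor q.2.1 := by
  have h0 := good_ne h
  have e := el_alg q.1 (t1 q.2.1) (t2 q.2.1) (q.2.2 (1, 0) (1, 0)) (q.2.2 (1, 0) (0, 1))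
    (q.2.2 (0, 1) (0, 1)) (gdet q.2.1) rfl h0
  rw [fderiv_mom1 h, fderiv_mom2 h, el, mul_smul (lag q.one / gdet q.2.1),
    show (lag q.one / 2) • q.1 = (lag q.one / gdet q.2.1) • ((gdet q.2.1 / 2) • q.1) by
      rw [smul_smul]; congr 1; exact (div_mul_div_cancel₀ h0).symm]
  simp only [J2.one] at *
  rw [← smul_add, ← smul_add]
  congr 1
  simp only [dgdet, co1, co2, gtr, nor] at *
  simp only [t1, t2, hs] at *
  exact e

theorem hasFDerivAt_jet1 {V : Type} [NormedAddCommGroup V] [NormedSpace ℝ V] {Y : P2 → V} {y : P2}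
    (hY : ContDiffAt ℝ 2 Y y) :
    HasFDerivAt (jet1 Y) ((fderiv ℝ Y y).prod (fderiv ℝ (fderiv ℝ Y) y)) y :=
  (ev_diff hY).self_of_nhds.hasFDerivAt.prodMk (diff_fderiv hY).hasFDerivAt

theorem fderiv_comp_jet1 {V : Type} [NormedAddCommGroup V] [NormedSpace ℂ V] {f : Jt → V}
    {Y : P2 → C3} {y : P2} (hY : ContDiffAt ℝ 2 Y y) (hf : DifferentiableAt ℂ f (jet1 Y y)) :
    DifferentiableAt ℝ (fun z => f (jet1 Y z)) y ∧ ∀ v, fderiv ℝ (fun z => f (jet1 Y z)) y v =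
      fderiv ℂ f (jet1 Y y) (fderiv ℝ Y y v, fderiv ℝ (fderiv ℝ Y) y v) := by
  have h := (hf.hasFDerivAt.restrictScalars ℝ).comp y (hasFDerivAt_jet1 hY)
  refine ⟨h.differentiableAt, fun v => ?_⟩
  rw [show (fun z => f (jet1 Y z)) = f ∘ jet1 Y from rfl, h.fderiv]
  rfl

theorem fderiv_dot {E : Type} [NormedAddCommGroup E] [NormedSpace ℝ E] {a b : E → C3} {y : E}
    (ha : DifferentiableAt ℝ a y) (hb : DifferentiableAt ℝ b y) :
    DifferentiableAt ℝ (fun z => a z ⬝ᵥ b z) y ∧ ∀ v, fderiv ℝ (fun z => a z ⬝ᵥ b z) y v =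
      fderiv ℝ a y v ⬝ᵥ b y + a y ⬝ᵥ fderiv ℝ b y v := by
  have h : HasFDerivAt (fun z => ∑ i, a z i * b z i) _ y := HasFDerivAt.fun_sum fun i _ =>
    (hasFDerivAt_pi'.1 ha.hasFDerivAt i).fun_mul (hasFDerivAt_pi'.1 hb.hasFDerivAt i)
  refine ⟨h.differentiableAt, fun v => ?_⟩
  simp only [dotProduct]
  rw [h.fderiv]
  simp [Finset.sum_add_distrib, add_comm, mul_comm]

/-- the flux through the lines `y₁ = const` -/
def flux1 (Y W : P2 → C3) (y : P2) : ℂ := mom1 (jet1 Y y) ⬝ᵥ W y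

/-- the flux through the lines `y₂ = const` -/
def flux2 (Y W : P2 → C3) (y : P2) : ℂ := mom2 (jet1 Y y) ⬝ᵥ W y

/-- the source term of the first variation -/
def src (Y W : P2 → C3) (y : P2) : ℂ := el (jet2 Y y) * (W y ⬝ᵥ nor (fderiv ℝ Y y))

/-- **First variation, pointwise form** -/
theorem var_pt {Y W : P2 → C3} {y : P2} (hY : ContDiffAt ℝ 2 Y y) (hW : DifferentiableAt ℝ W y)
    (h : jet1 Y y ∈ good) :
    DifferentiableAt ℝ (flux1 Y W) y ∧ DifferentiableAt ℝ (flux2 Y W) y ∧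
      fderiv ℝ (flux1 Y W) y (1, 0) + fderiv ℝ (flux2 Y W) y (0, 1) =
        dlag (jet1 Y y) (jet1 W y) + src Y W y := by
  obtain ⟨a1, a2⟩ := fderiv_comp_jet1 hY (an_mom1 h).differentiableAt
  obtain ⟨b1, b2⟩ := fderiv_comp_jet1 hY (an_mom2 h).differentiableAt
  obtain ⟨c1, c2⟩ := fderiv_dot a1 hW
  obtain ⟨d1, d2⟩ := fderiv_dot b1 hW
  refine ⟨c1, d1, ?_⟩
  have e := congrArg (· ⬝ᵥ W y) (el_jet (q := jet2 Y y) h (jet2_symm hY _ _))
  simp only [add_dotProduct, smul_dotProduct, smul_eq_mul] at e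
  unfold flux1 flux2
  rw [c2, d2, a2, b2, src, dotProduct_comm (W y)]
  change _ = _ + el (jet2 Y y) * (nor (jet2 Y y).2.1 ⬝ᵥ W y)
  rw [← e, dlag]
  simp only [jet1, jet2, J2.one, t1, t2]
  ring

/-! ### Linearity and continuity -/

theorem dlag_add (q η ζ : Jt) : dlag q (η + ζ) = dlag q η + dlag q ζ := by
  simp only [dlag, t1, t2, Prod.fst_add, Prod.snd_add, _root_.add_apply, dotProduct_add]
  ring

theorem dlag_smul (q : Jt) (c : ℂ) (η : Jt) : dlag q (c • η) = c * dlag q η := by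
  simp only [dlag, t1, t2, Prod.smul_fst, Prod.smul_snd, _root_.smul_apply, dotProduct_smul,
    smul_eq_mul]
  ring

theorem dlag_zero (q : Jt) : dlag q 0 = 0 := by simp [dlag, t1, t2]

theorem dlag_sub (q η ζ : Jt) : dlag q (η - ζ) = dlag q η - dlag q ζ := by
  rw [eq_sub_iff_add_eq, ← dlag_add, sub_add_cancel]

section cont

variable {X : Type*} [TopologicalSpace X] {s : Set X} {x : X}

theorem cwa_dot {a b : X → C3} (ha : ContinuousWithinAt a s x) (hb : ContinuousWithinAt b s x) :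
    ContinuousWithinAt (fun y => a y ⬝ᵥ b y) s x :=
  ContinuousAt.comp_continuousWithinAt (g := fun p : C3 × C3 => p.1 ⬝ᵥ p.2)
    (f := fun y => (a y, b y)) (continuous_fst.dotProduct continuous_snd).continuousAt
    (ha.prodMk hb)

theorem continuous_nor : Continuous (nor : (P2 →L[ℝ] C3) → C3) := by
  refine continuous_pi fun i => ?_
  fin_cases i <;> simp [nor, cross_apply, t1, t2] <;> fun_prop

theorem cwa_lag {q : X → Jt} (hq : ContinuousWithinAt q s x) (h : q x ∈ good) :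
    ContinuousWithinAt (fun y => lag (q y)) s x :=
  (an_lag h).continuousAt.comp_continuousWithinAt hq

theorem cwa_mom1 {q : X → Jt} (hq : ContinuousWithinAt q s x) (h : q x ∈ good) :
    ContinuousWithinAt (fun y => mom1 (q y)) s x :=
  (an_mom1 h).continuousAt.comp_continuousWithinAt hq

theorem cwa_mom2 {q : X → Jt} (hq : ContinuousWithinAt q s x) (h : q x ∈ good) :
    ContinuousWithinAt (fun y => mom2 (q y)) s x :=
  (an_mom2 h).continuousAt.comp_continuousWithinAt hq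

theorem cwa_dlag {q η : X → Jt} (hq : ContinuousWithinAt q s x) (hη : ContinuousWithinAt η s x)
    (h : q x ∈ good) : ContinuousWithinAt (fun y => dlag (q y) (η y)) s x :=
  ((((cwa_lag hq h).mul (cwa_dot hq.fst hη.fst)).div_const 2).neg.add
    (cwa_dot (cwa_mom1 hq h) ((evC (1, 0)).continuous.continuousAt.comp_continuousWithinAt hη))).add
    (cwa_dot (cwa_mom2 hq h) ((evC (0, 1)).continuous.continuousAt.comp_continuousWithinAt hη))

theorem continuous_t1 : Continuous (t1 : (P2 →L[ℝ] C3) → C3) :=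
  continuous_id.clm_apply continuous_const

theorem continuous_t2 : Continuous (t2 : (P2 →L[ℝ] C3) → C3) :=
  continuous_id.clm_apply continuous_const

theorem continuous_gdet : Continuous (gdet : (P2 →L[ℝ] C3) → ℂ) :=
  ((continuous_t1.dotProduct continuous_t1).mul (continuous_t2.dotProduct continuous_t2)).sub
    ((continuous_t1.dotProduct continuous_t2).pow 2)

theorem cwa_gtr {D : X → P2 →L[ℝ] C3} {k : X → P2 → P2 → ℂ} (hD : ContinuousWithinAt D s x)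
    (b : ∀ u v, ContinuousWithinAt (fun y => k y u v) s x) (h : gdet (D x) ≠ 0) :
    ContinuousWithinAt (fun y => gtr (D y) (k y)) s x := by
  have a1 := continuous_t1.continuousAt.comp_continuousWithinAt hD
  have a2 := continuous_t2.continuousAt.comp_continuousWithinAt hD
  have hg := continuous_gdet.continuousAt.comp_continuousWithinAt hD
  exact ((((cwa_dot a2 a2).mul (b (1, 0) (1, 0))).sub ((cwa_dot a1 a2).mul
    ((b (1, 0) (0, 1)).add (b (0, 1) (1, 0))))).add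
    ((cwa_dot a1 a1).mul (b (0, 1) (0, 1)))).div hg h

theorem cwa_el {q : X → J2 P2 C3} (hq : ContinuousWithinAt q s x) (h : (q x).one ∈ good) :
    ContinuousWithinAt (fun y => el (q y)) s x := by
  have h0 : ContinuousWithinAt (fun y => (q y).2.1) s x := hq.snd.fst
  have h2 : ContinuousWithinAt (fun y => (q y).2.2) s x := hq.snd.snd
  have h1 : ContinuousWithinAt (fun y => (q y).one) s x := hq.fst.prodMk h0
  have hn : ContinuousWithinAt (fun y => nor (q y).2.1) s x :=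
    ContinuousAt.comp_continuousWithinAt (g := nor) continuous_nor.continuousAt h0
  have hg : ContinuousWithinAt (fun y => gdet (q y).2.1) s x :=
    ContinuousAt.comp_continuousWithinAt (g := gdet) continuous_gdet.continuousAt h0
  have b : ∀ u v : P2, ContinuousWithinAt (fun y => (q y).2.2 u v ⬝ᵥ nor (q y).2.1) s x := by
    intro u v
    have b1 : ContinuousWithinAt (fun y => (q y).2.2 u) s x :=
      h2.clm_apply continuousWithinAt_const
    have b2 : ContinuousWithinAt (fun y => (q y).2.2 u v) s x :=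
      b1.clm_apply continuousWithinAt_const
    exact cwa_dot b2 hn
  have h3 : gdet (q x).2.1 ≠ 0 := good_ne₂ h
  have c0 : ContinuousWithinAt (fun y => lag (q y).one) s x := cwa_lag (q := fun y => (q y).one) h1 h
  have c1 := c0.div hg h3
  have c2 := cwa_gtr (k := fun y u v => (q y).2.2 u v ⬝ᵥ nor (q y).2.1) h0 b h3
  have c3 := (cwa_dot hq.fst hn).div_const 2
  unfold el
  exact c1.mul (c2.add c3)

end cont

theorem continuousAt_jet1 {E V : Type} [NormedAddCommGroup E] [NormedSpace ℝ E]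
    [NormedAddCommGroup V] [NormedSpace ℝ V] {W : E → V} {y : E}
    (hW : ContDiffAt ℝ 1 W y) : ContinuousAt (jet1 W) y :=
  hW.continuousAt.prodMk (hW.fderiv_right (m := 0) (by norm_num)).continuousAt

theorem continuousAt_jet2 {E V : Type} [NormedAddCommGroup E] [NormedSpace ℝ E]
    [NormedAddCommGroup V] [NormedSpace ℝ V] {W : E → V} {y : E}
    (hW : ContDiffAt ℝ 2 W y) : ContinuousAt (jet2 W) y :=
  hW.continuousAt.prodMk (continuousAt_jet1 (hW.fderiv_right (m := 1) (by norm_num)))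

theorem continuousAt_src {Y W : P2 → C3} {y : P2} (hY : ContDiffAt ℝ 2 Y y)
    (hW : ContinuousAt W y) (h : jet1 Y y ∈ good) : ContinuousAt (src Y W) y := by
  rw [← continuousWithinAt_univ]
  exact (cwa_el (continuousAt_jet2 hY).continuousWithinAt h).mul (cwa_dot hW.continuousWithinAt
    (continuous_nor.continuousAt.comp (continuousAt_jet2 hY).snd.fst).continuousWithinAt)

theorem continuousAt_dlag {Y W : P2 → C3} {y : P2} (hY : ContDiffAt ℝ 1 Y y)
    (hW : ContDiffAt ℝ 1 W y) (h : jet1 Y y ∈ good) :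
    ContinuousAt (fun z => dlag (jet1 Y z) (jet1 W z)) y := by
  rw [← continuousWithinAt_univ]
  exact cwa_dlag (continuousAt_jet1 hY).continuousWithinAt
    (continuousAt_jet1 hW).continuousWithinAt h

/-! ### Integrated forms -/

/-- **First variation on a box.** `Φ₁`, `Φ₂` are continuous extensions of the fluxes. -/
theorem var_box {Y W : P2 → C3} {a b : P2} (hab : a ≤ b) {Φ₁ Φ₂ : P2 → ℂ}
    (c₁ : ContinuousOn Φ₁ (Icc a b)) (c₂ : ContinuousOn Φ₂ (Icc a b))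
    (h : ∀ y ∈ Ioo a.1 b.1 ×ˢ Ioo a.2 b.2, ContDiffAt ℝ 2 Y y ∧ DifferentiableAt ℝ W y ∧
      jet1 Y y ∈ good ∧ Φ₁ y = flux1 Y W y ∧ Φ₂ y = flux2 Y W y)
    (hi : IntegrableOn (fun y => dlag (jet1 Y y) (jet1 W y) + src Y W y) (Icc a b)) :
    ∫ y in Icc a b, (dlag (jet1 Y y) (jet1 W y) + src Y W y) =
      (((∫ x in a.1..b.1, Φ₂ (x, b.2)) - ∫ x in a.1..b.1, Φ₂ (x, a.2)) +
        ∫ θ in a.2..b.2, Φ₁ (b.1, θ)) - ∫ θ in a.2..b.2, Φ₁ (a.1, θ) := by
  have ho : IsOpen (Ioo a.1 b.1 ×ˢ Ioo a.2 b.2) := isOpen_Ioo.prod isOpen_Ioo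
  have hae : (Icc a b : Set P2) =ᵐ[volume] Ioo a.1 b.1 ×ˢ Ioo a.2 b.2 := by
    rw [Icc_prod_eq]
    exact Measure.set_prod_ae_eq Ioo_ae_eq_Icc.symm Ioo_ae_eq_Icc.symm
  have he : (fun y => fderiv ℝ (flux1 Y W) y (1, 0) + fderiv ℝ (flux2 Y W) y (0, 1))
      =ᵐ[volume.restrict (Icc a b)] fun y => dlag (jet1 Y y) (jet1 W y) + src Y W y := by
    rw [Measure.restrict_congr_set hae]
    filter_upwards [ae_restrict_mem ho.measurableSet] with y hy
    exact (var_pt (h y hy).1 (h y hy).2.1 (h y hy).2.2.1).2.2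
  rw [← integral_congr_ae he]
  refine integral_divergence_prod_Icc_of_hasFDerivAt_of_le Φ₁ Φ₂ _ _ a b hab c₁ c₂
    (fun y hy => ?_) (fun y hy => ?_) (hi.congr he.symm)
  · refine (var_pt (h y hy).1 (h y hy).2.1 (h y hy).2.2.1).1.hasFDerivAt.congr_of_eventuallyEq ?_
    filter_upwards [ho.mem_nhds hy] with z hz using (h z hz).2.2.2.1
  · refine (var_pt (h y hy).1 (h y hy).2.1 (h y hy).2.2.1).2.1.hasFDerivAt.congr_of_eventuallyEq ?_
    filter_upwards [ho.mem_nhds hy] with z hz using (h z hz).2.2.2.2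

/-- **First variation, compactly supported field.** -/
theorem var_cpt {Y W : P2 → C3} {K : Set P2} (hK : IsCompact K) (h0 : ∀ y ∉ K, W y = 0)
    (h : ∀ y ∈ K, ContDiffAt ℝ 2 Y y ∧ ContDiffAt ℝ 1 W y ∧ jet1 Y y ∈ good) :
    Integrable (fun y => dlag (jet1 Y y) (jet1 W y)) ∧ Integrable (src Y W) ∧
      ∫ y, dlag (jet1 Y y) (jet1 W y) = -∫ y, src Y W y := by
  have hz : ∀ y ∉ K, W =ᶠ[𝓝 y] fun _ => 0 := fun y hy => by
    filter_upwards [hK.isClosed.isOpen_compl.mem_nhds hy] with z hz using h0 z hz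
  have z1 : ∀ y ∉ K, dlag (jet1 Y y) (jet1 W y) = 0 := fun y hy => by
    have : jet1 W y = 0 := by simp [jet1, h0 y hy, (hz y hy).fderiv_eq]
    rw [this, dlag_zero]
  have z2 : ∀ y ∉ K, src Y W y = 0 := fun y hy => by simp [src, h0 y hy]
  have i1 : Integrable fun y => dlag (jet1 Y y) (jet1 W y) :=
    (ContinuousOn.integrableOn_compact hK fun y hy => (continuousAt_dlag
      ((h y hy).1.of_le (by norm_num)) (h y hy).2.1 (h y hy).2.2).continuousWithinAt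
      ).integrable_of_forall_notMem_eq_zero z1
  have i2 : Integrable (src Y W) :=
    (ContinuousOn.integrableOn_compact hK fun y hy => (continuousAt_src (h y hy).1
      (h y hy).2.1.continuousAt (h y hy).2.2).continuousWithinAt
      ).integrable_of_forall_notMem_eq_zero z2
  refine ⟨i1, i2, ?_⟩
  rw [eq_neg_iff_add_eq_zero, ← integral_add i1 i2]
  have f1 : ∀ y ∉ K, flux1 Y W =ᶠ[𝓝 y] fun _ => 0 := fun y hy =>
    (hz y hy).mono fun z hz => by simp [flux1, hz]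
  have f2 : ∀ y ∉ K, flux2 Y W =ᶠ[𝓝 y] fun _ => 0 := fun y hy =>
    (hz y hy).mono fun z hz => by simp [flux2, hz]
  have key : ∀ y, DifferentiableAt ℝ (flux1 Y W) y ∧ DifferentiableAt ℝ (flux2 Y W) y ∧
      fderiv ℝ (flux1 Y W) y (1, 0) + fderiv ℝ (flux2 Y W) y (0, 1) =
        dlag (jet1 Y y) (jet1 W y) + src Y W y := by
    intro y
    by_cases hy : y ∈ K
    · exact var_pt (h y hy).1 ((h y hy).2.1.differentiableAt one_ne_zero) (h y hy).2.2
    · refine ⟨(differentiableAt_const _).congr_of_eventuallyEq (f1 y hy),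
        (differentiableAt_const _).congr_of_eventuallyEq (f2 y hy), ?_⟩
      rw [(f1 y hy).fderiv_eq, (f2 y hy).fderiv_eq, z1 y hy, z2 y hy]
      simp
  obtain ⟨R, hR⟩ := hK.isBounded.subset_ball (0 : P2)
  have hR' : ∀ y : P2, y ∈ K → |y.1| < |R| ∧ |y.2| < |R| := fun y hy => by
    have := (mem_ball_zero_iff.1 (hR hy)).trans_le (le_abs_self R)
    exact ⟨(norm_fst_le y).trans_lt this, (norm_snd_le y).trans_lt this⟩
  have hab : ((-|R|, -|R|) : P2) ≤ (|R|, |R|) :=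
    ⟨neg_le_self (abs_nonneg R), neg_le_self (abs_nonneg R)⟩
  have D := integral_divergence_prod_Icc_of_hasFDerivAt_of_le (flux1 Y W) (flux2 Y W)
    (fderiv ℝ (flux1 Y W)) (fderiv ℝ (flux2 Y W)) (-|R|, -|R|) (|R|, |R|) hab
    (fun y _ => (key y).1.continuousAt.continuousWithinAt)
    (fun y _ => (key y).2.1.continuousAt.continuousWithinAt)
    (fun y _ => (key y).1.hasFDerivAt) (fun y _ => (key y).2.1.hasFDerivAt)
    (by simp only [(key _).2.2]; exact (i1.add i2).integrableOn)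
  simp only [(key _).2.2] at D
  have b1 : ∀ x, flux2 Y W (x, |R|) = 0 := fun x =>
    (f2 _ fun hy => by simpa using (hR' _ hy).2).self_of_nhds
  have b2 : ∀ x, flux2 Y W (x, -|R|) = 0 := fun x =>
    (f2 _ fun hy => by simpa using (hR' _ hy).2).self_of_nhds
  have b3 : ∀ x, flux1 Y W (|R|, x) = 0 := fun x =>
    (f1 _ fun hy => by simpa using (hR' _ hy).1).self_of_nhds
  have b4 : ∀ x, flux1 Y W (-|R|, x) = 0 := fun x =>
    (f1 _ fun hy => by simpa using (hR' _ hy).1).self_of_nhds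
  simp only [b1, b2, b3, b4, intervalIntegral.integral_zero, sub_zero, add_zero] at D
  rw [← D]
  refine (setIntegral_eq_integral_of_forall_compl_eq_zero fun y hy => ?_).symm
  have : y ∉ K := fun hy' => hy
    ⟨⟨(abs_lt.1 (hR' y hy').1).1.le, (abs_lt.1 (hR' y hy').2).1.le⟩,
      ⟨(abs_lt.1 (hR' y hy').1).2.le, (abs_lt.1 (hR' y hy').2).2.le⟩⟩
  rw [z1 y this, z2 y this, add_zero]

/-- **First variation on a periodic strip.** `q`, `ω` are continuous extensions to the closed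
strip of the jets. -/
theorem var_strip {Y W : P2 → C3} {a b T : ℝ} (hab : a ≤ b) (hT : 0 ≤ T) {q η : P2 → Jt}
    {σ : P2 → ℂ} (cq : ContinuousOn q (Icc a b ×ˢ univ)) (cη : ContinuousOn η (Icc a b ×ˢ univ))
    (cσ : ContinuousOn σ (Icc a b ×ˢ univ)) (hg : ∀ y ∈ Icc a b ×ˢ (univ : Set ℝ), q y ∈ good)
    (pq : ∀ s ∈ Icc a b, q (s, T) = q (s, 0)) (pη : ∀ s ∈ Icc a b, (η (s, T)).1 = (η (s, 0)).1)
    (h : ∀ y ∈ Ioo a b ×ˢ (univ : Set ℝ), ContDiffAt ℝ 2 Y y ∧ DifferentiableAt ℝ W y ∧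
      q y = jet1 Y y ∧ η y = jet1 W y ∧ σ y = src Y W y) :
    ∫ y in Icc a b ×ˢ Icc 0 T, dlag (q y) (η y) =
      (∫ θ in (0 : ℝ)..T, mom1 (q (b, θ)) ⬝ᵥ (η (b, θ)).1) -
        (∫ θ in (0 : ℝ)..T, mom1 (q (a, θ)) ⬝ᵥ (η (a, θ)).1) - ∫ y in Icc a b ×ˢ Icc 0 T, σ y := by
  have e : Icc ((a, 0) : P2) (b, T) = Icc a b ×ˢ Icc 0 T := Icc_prod_eq _ _
  have hs : Icc a b ×ˢ Icc 0 T ⊆ Icc a b ×ˢ (univ : Set ℝ) := prod_mono subset_rfl (subset_univ _)
  have hs' : Ioo a b ×ˢ Ioo 0 T ⊆ Ioo a b ×ˢ (univ : Set ℝ) := prod_mono subset_rfl (subset_univ _)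
  have hs'' : Ioo a b ×ˢ (univ : Set ℝ) ⊆ Icc a b ×ˢ univ := prod_mono Ioo_subset_Icc_self subset_rfl
  have hK : IsCompact (Icc a b ×ˢ Icc 0 T) := isCompact_Icc.prod isCompact_Icc
  have i1 : IntegrableOn (fun y => dlag (q y) (η y)) (Icc a b ×ˢ Icc 0 T) :=
    ContinuousOn.integrableOn_compact hK fun y hy =>
      (cwa_dlag (cq y (hs hy)) (cη y (hs hy)) (hg y (hs hy))).mono hs
  have i2 : IntegrableOn σ (Icc a b ×ˢ Icc 0 T) := (cσ.mono hs).integrableOn_compact hK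
  have he : (fun y => dlag (q y) (η y) + σ y) =ᵐ[volume.restrict (Icc a b ×ˢ Icc 0 T)]
      fun y => dlag (jet1 Y y) (jet1 W y) + src Y W y := by
    have hae : (Icc a b ×ˢ Icc 0 T : Set P2) =ᵐ[volume] Ioo a b ×ˢ Ioo 0 T :=
      Measure.set_prod_ae_eq Ioo_ae_eq_Icc.symm Ioo_ae_eq_Icc.symm
    rw [Measure.restrict_congr_set hae]
    filter_upwards [ae_restrict_mem (measurableSet_Ioo.prod measurableSet_Ioo)] with y hy
    obtain ⟨-, -, h1, h2, h3⟩ := h y (hs' hy)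
    rw [h1, h2, h3]
  have D := var_box (Y := Y) (W := W) (a := (a, 0)) (b := (b, T)) ⟨hab, hT⟩
    (Φ₁ := fun y => mom1 (q y) ⬝ᵥ (η y).1) (Φ₂ := fun y => mom2 (q y) ⬝ᵥ (η y).1)
    (by
      rw [e]
      exact fun y hy => (cwa_dot (cwa_mom1 (cq y (hs hy)) (hg y (hs hy))) (cη y (hs hy)).fst).mono hs)
    (by
      rw [e]
      exact fun y hy => (cwa_dot (cwa_mom2 (cq y (hs hy)) (hg y (hs hy))) (cη y (hs hy)).fst).mono hs)
    (fun y hy => by
      obtain ⟨h1, h2, h3, h4, -⟩ := h y (hs' hy)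
      refine ⟨h1, h2, h3 ▸ hg y (hs'' (hs' hy)), ?_, ?_⟩ <;> simp only [h3, h4] <;> rfl)
    (by rw [e]; exact (i1.add i2).congr he)
  rw [e, ← integral_congr_ae he, integral_add i1 i2] at D
  have p : ∫ x in a..b, mom2 (q (x, T)) ⬝ᵥ (η (x, T)).1 =
      ∫ x in a..b, mom2 (q (x, 0)) ⬝ᵥ (η (x, 0)).1 :=
    intervalIntegral.integral_congr fun x hx => by
      rw [uIcc_of_le hab] at hx
      simp only [pq x hx, pη x hx]
  simp only [p, sub_self, zero_add] at D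
  rw [← D, add_sub_cancel_right]

/-! ### Invariance -/

theorem sqrt_sq_mul (a : ℝ) (g : ℂ) :
    Complex.sqrt ((a : ℂ) ^ 2 * g) = (|a| : ℝ) * Complex.sqrt g := by
  rcases eq_or_ne a 0 with rfl | ha
  · simp
  rcases eq_or_ne g 0 with rfl | hg
  · simp
  have h1 : 0 < |a| := abs_pos.2 ha
  have h2 : ((a : ℂ) ^ 2) = ((|a| ^ 2 : ℝ) : ℂ) := by rw [sq_abs]; push_cast; rfl
  rw [h2, sqrt_eq_exp (mul_ne_zero (Complex.ofReal_ne_zero.2 (by positivity)) hg), sqrt_eq_exp hg,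
    Complex.log_ofReal_mul (by positivity) hg, add_div, Complex.exp_add, Real.log_pow]
  congr 1
  rw [show (((2 : ℕ) * Real.log |a| : ℝ) : ℂ) / 2 = (Real.log |a| : ℝ) by push_cast; ring,
    ← Complex.ofReal_exp, Real.exp_log h1]

theorem lag_comp (Y : C3) (D : P2 →L[ℝ] C3) (A : P2 →L[ℝ] P2) :
    lag (Y, D.comp A) = (|det2 A| : ℝ) * lag (Y, D) := by
  simp only [lag, gdet_comp, sqrt_sq_mul]
  ring

theorem good_comp {Y Y' : C3} {D : P2 →L[ℝ] C3} {A : P2 →L[ℝ] P2} (hA : det2 A ≠ 0)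
    (h : ((Y, D) : Jt) ∈ good) : ((Y', D.comp A) : Jt) ∈ good := by
  change gdet (D.comp A) ∈ Complex.slitPlane
  have h0 : 0 < det2 A ^ 2 := by positivity
  have h' : gdet D ∈ Complex.slitPlane := h
  rw [gdet_comp, ← Complex.ofReal_pow, Complex.mem_slitPlane_iff, Complex.re_ofReal_mul,
    Complex.im_ofReal_mul]
  rcases Complex.mem_slitPlane_iff.1 h' with h | h
  · exact Or.inl (mul_pos h0 h)
  · exact Or.inr (mul_ne_zero h0.ne' h)

theorem real_line_lag {q : Jt} (h : q ∈ good) (η : Jt) :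
    HasDerivAt (fun s : ℝ => lag (q + s • η)) (dlag q η) 0 := by
  have h1 : HasDerivAt (fun s : ℝ => q + s • η) η 0 := by
    simpa using ((hasDerivAt_id (0 : ℝ)).smul_const η).const_add q
  rw [← fderiv_lag h]
  exact ((an_lag h).differentiableAt.hasFDerivAt.restrictScalars ℝ).comp_hasDerivAt_of_eq
    (0 : ℝ) h1 (by simp)

theorem dlag_of_inv (T : Jt →ₗ[ℝ] Jt) (c : ℂ) (hT : ∀ p, lag (T p) = c * lag p) {q : Jt}
    (h : q ∈ good) (h' : T q ∈ good) (η : Jt) : dlag (T q) (T η) = c * dlag q η := by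
  have h1 := real_line_lag h' (T η)
  simp only [← map_smul, ← map_add, hT] at h1
  exact h1.unique ((real_line_lag h η).const_mul c)

/-- invariance of the first variation density under reparametrisation -/
theorem dlag_comp {q : Jt} (h : q ∈ good) (η : Jt) {A : P2 →L[ℝ] P2} (hA : det2 A ≠ 0) :
    dlag (q.1, q.2.comp A) (η.1, η.2.comp A) = (|det2 A| : ℝ) * dlag q η :=
  dlag_of_inv
    { toFun := fun p => (p.1, p.2.comp A)
      map_add' := fun _ _ => rfl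
      map_smul' := fun _ _ => rfl } _ (fun p => lag_comp p.1 p.2 A) h (good_comp hA h) η

theorem good_rot {O : C3 →L[ℝ] C3} (hO : IsRot O) {q : Jt} (h : q ∈ good) :
    ((O q.1, O.comp q.2) : Jt) ∈ good := by
  change gdet (O.comp q.2) ∈ Complex.slitPlane
  rw [hO.gdet]
  exact h

/-- invariance of the first variation density under rotations -/
theorem dlag_rot {O : C3 →L[ℝ] C3} (hO : IsRot O) {q : Jt} (h : q ∈ good) (η : Jt) :
    dlag (O q.1, O.comp q.2) (O η.1, O.comp η.2) = dlag q η := by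
  have := dlag_of_inv
    { toFun := fun p => (O p.1, O.comp p.2)
      map_add' := fun a b => Prod.ext (map_add O a.1 b.1) (ContinuousLinearMap.comp_add O a.2 b.2)
      map_smul' := fun c a => Prod.ext (map_smul O c a.1) (ContinuousLinearMap.comp_smul O c a.2) }
    1 (fun p => by rw [one_mul]; exact hO.lag p.1 p.2) h (good_rot hO h) η
  rwa [one_mul] at this

theorem el_rot {O : C3 →L[ℝ] C3} (hO : IsRot O) (q : J2 P2 C3) : el (q.map O) = el q := by
  unfold el gtr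
  simp only [J2.map, J2.one]
  rw [hO.gdet, hO.nor, hO.lag]
  simp only [t1, t2, ContinuousLinearMap.comp_apply, ContinuousLinearMap.compL_apply, hO.dot]

theorem jet1_clm {V W : Type} [NormedAddCommGroup V] [NormedSpace ℝ V] [NormedAddCommGroup W]
    [NormedSpace ℝ W] (T : V →L[ℝ] W) {f : P2 → V} {y : P2} (hf : DifferentiableAt ℝ f y) :
    jet1 (fun z => T (f z)) y = (T (f y), T.comp (fderiv ℝ f y)) :=
  Prod.ext rfl (T.hasFDerivAt.comp y hf.hasFDerivAt).fderiv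

theorem jet1_comp {V : Type} [NormedAddCommGroup V] [NormedSpace ℝ V] {f : P2 → V} {φ : P2 → P2}
    {y : P2} (hf : DifferentiableAt ℝ f (φ y)) (hφ : DifferentiableAt ℝ φ y) :
    jet1 (fun z => f (φ z)) y = (f (φ y), (fderiv ℝ f (φ y)).comp (fderiv ℝ φ y)) :=
  Prod.ext rfl (fderiv_comp y hf hφ)

theorem jet1_congr {E V : Type} [NormedAddCommGroup E] [NormedSpace ℝ E] [NormedAddCommGroup V]
    [NormedSpace ℝ V] {f g : E → V} {y : E} (h : f =ᶠ[𝓝 y] g) : jet1 f y = jet1 g y := by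
  unfold jet1
  rw [h.self_of_nhds, h.fderiv_eq]

theorem src_congr {Y Y' W W' : P2 → C3} {y : P2} (h : Y =ᶠ[𝓝 y] Y') (hW : W y = W' y) :
    src Y W y = src Y' W' y := by
  unfold src
  rw [jet2_congr h, h.fderiv_eq, hW]

theorem src_rot {O : C3 →L[ℝ] C3} (hO : IsRot O) {Y W : P2 → C3} {y : P2}
    (hY : ContDiffAt ℝ 2 Y y) : src (fun z => O (Y z)) (fun z => O (W z)) y = src Y W y := by
  unfold src
  rw [jet2_clm O hY, el_rot hO, show fderiv ℝ (fun z => O (Y z)) y = O.comp (fderiv ℝ Y y) from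
    (O.hasFDerivAt.comp y (ev_diff hY).self_of_nhds.hasFDerivAt).fderiv, hO.nor, hO.dot]

/-- the source term in terms of the shrinker operator -/
theorem src_eq_Shr {Y V W : P2 → C3} {y : P2} (hV : V y ⬝ᵥ nor (fderiv ℝ Y y) ≠ 0) :
    src Y W y = lag (jet1 Y y) / gdet (fderiv ℝ Y y) * (V y ⬝ᵥ nor (fderiv ℝ Y y)) *
      (W y ⬝ᵥ nor (fderiv ℝ Y y)) * Shr Y V y := by
  unfold src Shr
  rw [el_eq_shr (jet2 Y y) hV]
  simp only [jet2, J2.one, jet1]
  ring

/-- invariance of the source density under reparametrisation -/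
theorem src_comp {Y W : P2 → C3} {φ : P2 → P2} {y : P2} (hY : ContDiffAt ℝ 2 Y (φ y))
    (hφ : ContDiffAt ℝ 2 φ y) (hA : det2 (fderiv ℝ φ y) ≠ 0) (h : jet1 Y (φ y) ∈ good) :
    src (fun z => Y (φ z)) (fun z => W (φ z)) y =
      (|det2 (fderiv ℝ φ y)| : ℝ) * src Y W (φ y) := by
  have hA' : (det2 (fderiv ℝ φ y) : ℂ) ≠ 0 := Complex.ofReal_ne_zero.2 hA
  have g0 : gdet (fderiv ℝ Y (φ y)) ≠ 0 := Complex.slitPlane_ne_zero h
  have e := jet1_comp (ev_diff hY).self_of_nhds (ev_diff hφ).self_of_nhds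
  have e2 : fderiv ℝ (fun z => Y (φ z)) y = (fderiv ℝ Y (φ y)).comp (fderiv ℝ φ y) :=
    congrArg Prod.snd e
  have v1 : nor (fderiv ℝ Y (φ y)) ⬝ᵥ nor (fderiv ℝ Y (φ y)) ≠ 0 := by rwa [← gdet_eq]
  rw [src_eq_Shr (V := fun _ => nor (fderiv ℝ Y (φ y))) (by
      rw [e2, nor_comp, dotProduct_smul]; exact mul_ne_zero hA' v1),
    src_eq_Shr (V := fun _ => nor (fderiv ℝ Y (φ y))) v1,
    Shr_comp (W := fun _ => nor (fderiv ℝ Y (φ y))) hY hφ hA, e, lag_comp, e2, gdet_comp, nor_comp,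
    dotProduct_smul, dotProduct_smul, smul_eq_mul, smul_eq_mul]
  simp only [jet1]
  field_simp

theorem src_add (Y W W' : P2 → C3) (y : P2) :
    src Y (fun z => W z + W' z) y = src Y W y + src Y W' y := by
  simp only [src, add_dotProduct, mul_add]

theorem src_smul (Y W : P2 → C3) (a : P2 → ℂ) (y : P2) :
    src Y (fun z => a z • W z) y = a y * src Y W y := by
  simp only [src, smul_dotProduct, smul_eq_mul]
  ring

/-- **Noether**: infinitesimal rotations do not change the Lagrangian -/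
theorem dlag_skew {A : C3 →L[ℝ] C3} (hA : ∀ x y, A x ⬝ᵥ y = -(x ⬝ᵥ A y)) (q : Jt) :
    dlag q (A q.1, A.comp q.2) = 0 := by
  have h0 : ∀ x, x ⬝ᵥ A x = 0 := fun x => by
    have := hA x x
    rw [dotProduct_comm] at this
    exact self_eq_neg.1 this
  have h1 : t2 q.2 ⬝ᵥ A (t1 q.2) = -(t1 q.2 ⬝ᵥ A (t2 q.2)) := by
    rw [dotProduct_comm]; exact hA _ _
  have e1 : t1 (A.comp q.2) = A (t1 q.2) := rfl
  have e2 : t2 (A.comp q.2) = A (t2 q.2) := rfl
  simp only [dlag, mom1, mom2, co1, co2, e1, e2, smul_dotProduct, sub_dotProduct, h0, h1,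
    smul_eq_mul]
  ring

/-! ### Taylor expansion on compact sets of jets -/

theorem exists_taylor {K : Set Jt} (hK : IsCompact K) (hg : K ⊆ good) : ∃ δ C : ℝ, 0 < δ ∧ 0 ≤ C ∧
    ∀ q ∈ K, ‖lag q‖ ≤ C ∧ (∀ η, ‖dlag q η‖ ≤ C * ‖η‖) ∧ ∀ q', ‖q' - q‖ < δ → q' ∈ good ∧
      ‖lag q' - lag q‖ ≤ C * ‖q' - q‖ ∧
      ‖lag q' - lag q - dlag q (q' - q)‖ ≤ C * ‖q' - q‖ ^ 2 := by
  have : ProperSpace Jt := FiniteDimensional.proper ℝ Jt
  obtain ⟨δ, hδ, hs⟩ := hK.exists_cthickening_subset_open isOpen_good hg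
  obtain ⟨M, hM⟩ := (hK.cthickening (r := δ)).exists_bound_of_continuousOn (f := lag)
    fun q hq => (an_lag (hs hq)).continuousAt.continuousWithinAt
  have hb : ∀ q ∈ K, Metric.ball q δ ⊆ Metric.cthickening δ K := fun q hq =>
    Metric.ball_subset_closedBall.trans (Metric.closedBall_subset_cthickening hq δ)
  set M' := max M 0 with hM'
  have h0 : 0 ≤ M' := le_max_right _ _
  have a1 : 0 ≤ 2 * M' / δ := by positivity
  have a2 : 0 ≤ 4 * M' / δ ^ 2 := by positivity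
  refine ⟨δ, M' + 2 * M' / δ + 4 * M' / δ ^ 2, hδ, by positivity, fun q hq => ?_⟩
  have hd : DifferentiableOn ℂ lag (Metric.ball q δ) := fun p hp =>
    (an_lag (hs (hb q hq hp))).differentiableAt.differentiableWithinAt
  have hB : ∀ p ∈ Metric.ball q δ, ‖lag p‖ ≤ M' := fun p hp =>
    (hM p (hb q hq hp)).trans (le_max_left _ _)
  refine ⟨(hB q (Metric.mem_ball_self hδ)).trans (by linarith), fun η => ?_, fun q' hq' => ?_⟩
  · rw [← fderiv_lag (hg hq)]
    refine ((fderiv ℂ lag q).le_opNorm η).trans ?_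
    gcongr
    exact (fderiv_le hδ hd hB).trans (by linarith)
  · have hm : q' ∈ Metric.ball q δ := mem_ball_iff_norm.2 hq'
    refine ⟨hs (hb q hq hm), (sub_le hd hB hm).trans (by gcongr; linarith), ?_⟩
    rw [← fderiv_lag (hg hq)]
    exact (rem_le hd hB hm).trans (by gcongr; linarith)

end Vale.Agent.P218F.LS
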