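import Vale.Agent.P218F.ConeBridge
import Vale.Agent.P218F.LSVar
import Mathlib.Analysis.SpecialFunctions.ImproperIntegrals

/-! Conical ends: the Gaussian area and its first variation. -/

namespace Vale.Agent.P218F.Cone

open Set Filter Topology Wien Core Metric Matrix MeasureTheory LS
open scoped ContDiff Real

set_option maxSynthPendingDepth 3

noncomputable section

/-- integrals of holomorphic functions with an integrable bound are holomorphic -/
theorem hasFDerivAt_integral_hol {P X : Type*} [NormedAddCommGroup P] [NormedSpace ℂ P]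
    [MeasurableSpace X] {μ : Measure X} {F : P → X → ℂ} {B : X → ℝ} {p : P} {r : ℝ} (hr : 0 < r)
    (hB : Integrable B μ) (hd : ∀ x, DifferentiableOn ℂ (F · x) (ball p r))
    (hb : ∀ x, ∀ q ∈ ball p r, ‖F q x‖ ≤ B x) (hm : ∀ q ∈ ball p r, AEStronglyMeasurable (F q) μ)
    (hm' : ∀ h, AEStronglyMeasurable (fun x => fderiv ℂ (F · x) p h) μ) :
    (∀ h, Integrable (fun x => fderiv ℂ (F · x) p h) μ) ∧
      DifferentiableAt ℂ (fun q => ∫ x, F q x ∂μ) p ∧
      ∀ h, fderiv ℂ (fun q => ∫ x, F q x ∂μ) p h = ∫ x, fderiv ℂ (F · x) p h ∂μ := by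
  have h1 : ∀ h x, ‖fderiv ℂ (F · x) p h‖ ≤ 2 / r * ‖h‖ * B x := fun h x =>
    ((fderiv ℂ (F · x) p).le_of_opNorm_le (fderiv_le hr (hd x) (hb x)) h).trans_eq (by ring)
  have hi : ∀ h, Integrable (fun x => fderiv ℂ (F · x) p h) μ := fun h =>
    (hB.const_mul _).mono' (hm' h) (.of_forall (h1 h))
  have hF : ∀ q ∈ ball p r, Integrable (F q) μ := fun q hq =>
    hB.mono' (hm q hq) (.of_forall fun x => hb x q hq)
  let L0 : P →ₗ[ℂ] ℂ :=
    { toFun := fun h => ∫ x, fderiv ℂ (F · x) p h ∂μ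
      map_add' := fun h k => by simp only [map_add]; exact integral_add (hi h) (hi k)
      map_smul' := fun c h => by simp only [map_smul]; exact integral_smul _ _ }
  let L : P →L[ℂ] ℂ := L0.mkContinuous (2 / r * ∫ x, B x ∂μ) fun h =>
    (norm_integral_le_of_norm_le (hB.const_mul _) (.of_forall (h1 h))).trans_eq (by
      rw [integral_const_mul]; ring)
  have hL : HasFDerivAt (fun q => ∫ x, F q x ∂μ) L p := by
    refine hasFDerivAt_of_quad (C := 4 / r ^ 2 * ∫ x, B x ∂μ) hr fun q hq => ?_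
    change ‖_ - _ - ∫ x, fderiv ℂ (F · x) p (q - p) ∂μ‖ ≤ _
    rw [← integral_sub (hF q hq) (hF p (mem_ball_self hr)),
      ← integral_sub (f := fun x => F q x - F p x) ((hF q hq).sub (hF p (mem_ball_self hr))) (hi _)]
    refine (norm_integral_le_of_norm_le (hB.const_mul (4 / r ^ 2 * ‖q - p‖ ^ 2))
      (.of_forall fun x => (rem_le (hd x) (hb x) hq).trans_eq (by ring))).trans_eq ?_
    rw [integral_const_mul]; ring
  exact ⟨hi, hL.differentiableAt, fun h => by rw [hL.fderiv]; rfl⟩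

variable {a : ℝ} {s : ℕ} {c : ConeData}

/-- `e^y` -/
def ex (z : P2) : ℂ := ((Real.exp z.1 : ℝ) : ℂ)

/-- the one-jet of the cone -/
def j0 (c : ConeData) (z : P2) : Jt :=
  (ex z • cE (c.γ z.2), lin2 (ex z • cE (c.γ z.2), ex z • cE (deriv c.γ z.2)))

/-- the one-jet of `e^y u ν` as a function of `(u, u_y, u_θ)` -/
def jW (c : ConeData) (z : P2) : ℂ × ℂ × ℂ →L[ℂ] Jt :=
  (ContinuousLinearMap.fst ℂ ℂ _).smulRight
      (ex z • c.V z, lin2 (ex z • c.V z, ex z • cE (deriv c.ν z.2))) +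
    ((ContinuousLinearMap.fst ℂ ℂ ℂ).comp (.snd ℂ ℂ _)).smulRight (0, lin2 (ex z • c.V z, 0)) +
    ((ContinuousLinearMap.snd ℂ ℂ ℂ).comp (.snd ℂ ℂ _)).smulRight (0, lin2 (0, ex z • c.V z))

/-- the values `(u, u_y, u_θ)` -/
def ev3 (s : ℕ) (z : P2) : T3 s →L[ℂ] ℂ × ℂ × ℂ :=
  ((valL (s + 2) ℂ z.1 z.2).comp (.fst ℂ _ _)).prod
    (((valL (s + 1) ℂ z.1 z.2).comp ((ContinuousLinearMap.fst ℂ _ _).comp (.snd ℂ _ _))).prod
      ((valL (s + 1) ℂ z.1 z.2).comp ((dth (s + 1) BC).comp (.fst ℂ _ _))))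

lemma ev3_apply (p : T3 s) (z : P2) :
    ev3 s z p = (fn p z, val p.2.1 z.1 z.2, vT p z.1 z.2) := rfl

lemma norm_ev3_le (p : T3 s) (z : P2) : ‖ev3 s z p‖ ≤ ‖p‖ := by
  simp only [ev3_apply, Prod.norm_def, max_le_iff]
  exact ⟨(norm_val_le _ _ _).trans (le_max_left _ _),
    (norm_val_le _ _ _).trans ((le_max_left _ _).trans (le_max_right _ _)),
    ((norm_val_le _ _ _).trans (norm_dth_apply_le _)).trans (le_max_left _ _)⟩

lemma continuous_ev3 (p : T3 s) : Continuous fun z => ev3 s z p :=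
  (continuous_fn p).prodMk ((continuous_val' _).prodMk (continuous_val' _))

/-- the one-jet of the surface, continuous up to the boundary -/
def jY (c : ConeData) (p : T3 s) (z : P2) : Jt := j0 c z + jW c z (ev3 s z p)

/-- the Gaussian area of the end -/
def Ec (c : ConeData) (a : ℝ) (p : T3 s) : ℂ := ∫ z in Ici a ×ˢ Icc 0 (2 * π), lag (jY c p z)

lemma lin2_apply {V : Type*} [NormedAddCommGroup V] [NormedSpace ℝ V] (x y : V) (v : P2) :
    lin2 (x, y) v = v.1 • x + v.2 • y := by simp [lin2]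

lemma jW_fst (z : P2) (v : ℂ × ℂ × ℂ) : (jW c z v).1 = ex z • v.1 • c.V z := by
  simp [jW, smul_comm v.1]

lemma jW_snd (z : P2) (v : ℂ × ℂ × ℂ) : (jW c z v).2 = lin2 (ex z • (v.1 + v.2.1) • c.V z,
    ex z • (v.2.2 • c.V z + v.1 • cE (deriv c.ν z.2))) := by
  refine ContinuousLinearMap.ext fun w => ?_
  simp [jW, lin2_apply]
  module

lemma jY_fst (p : T3 s) (z : P2) : (jY c p z).1 = c.Y (fn p) z := by
  simp [jY, jW_fst, j0, ev3_apply, ConeData.Y, ConeData.V, ex]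

lemma hasFDerivAt_ex (z : P2) : HasFDerivAt ex (lin2 (ex z, 0)) z := by
  refine ((Real.hasDerivAt_exp z.1).ofReal_comp.hasFDerivAt.comp z hasFDerivAt_fst).congr_fderiv ?_
  refine ContinuousLinearMap.ext fun w => ?_
  simp [lin2_apply, ex]

lemma hasFDerivAt_snd_comp {f : ℝ → EuclideanSpace ℝ (Fin 3)} {f' : EuclideanSpace ℝ (Fin 3)}
    {z : P2} (h : HasDerivAt f f' z.2) :
    HasFDerivAt (fun z : P2 => cE (f z.2)) (lin2 (0, cE f')) z := by
  refine ((cE.hasFDerivAt.comp_hasDerivAt z.2 h).hasFDerivAt.comp z hasFDerivAt_snd).congr_fderiv ?_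
  refine ContinuousLinearMap.ext fun w => ?_
  simp [lin2_apply]

namespace ConeData.Frame

variable (h : c.Frame)
include h

lemma hasFDerivWithinAt_W {p : T3 s} (hp : IsTri a p) {z : P2} (hz : a ≤ z.1) :
    HasFDerivWithinAt (fun z => ex z • fn p z • c.V z) (jW c z (ev3 s z p)).2 (Ici a ×ˢ univ) z := by
  refine ((hasFDerivAt_ex z).hasFDerivWithinAt.fun_smul ((hp.hasFDerivWithinAt hz).fun_smul
    (hasFDerivAt_snd_comp (h.hd_ν z.2)).hasFDerivWithinAt)).congr_fderiv ?_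
  refine ContinuousLinearMap.ext fun w => ?_
  simp [jW_snd, lin2_apply, ev3_apply, fn1, ConeData.V]
  module

lemma hasFDerivWithinAt_Y {p : T3 s} (hp : IsTri a p) {z : P2} (hz : a ≤ z.1) :
    HasFDerivWithinAt (c.Y (fn p)) (jY c p z).2 (Ici a ×ˢ univ) z := by
  have h1 := ((hasFDerivAt_ex z).fun_smul
    (hasFDerivAt_snd_comp (h.hd_γ z.2))).hasFDerivWithinAt.fun_add (h.hasFDerivWithinAt_W hp hz)
  refine (h1.congr_fderiv ?_).congr (fun w _ => smul_add _ _ _) (smul_add _ _ _)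
  change _ = (j0 c z).2 + _
  congr 1
  refine ContinuousLinearMap.ext fun w => ?_
  simp [j0, lin2_apply]
  module

lemma jet1_Y {p : T3 s} (hp : IsTri a p) {z : P2} (hz : a < z.1) :
    jet1 (c.Y (fn p)) z = jY c p z :=
  Prod.ext (jY_fst p z).symm
    ((h.hasFDerivWithinAt_Y hp hz.le).hasFDerivAt (mem_nhds_half hz)).fderiv

lemma jet1_W {p : T3 s} (hp : IsTri a p) {z : P2} (hz : a < z.1) :
    jet1 (fun z => ex z • fn p z • c.V z) z = jW c z (ev3 s z p) :=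
  Prod.ext (jW_fst (c := c) z (ev3 s z p)).symm
    ((h.hasFDerivWithinAt_W hp hz.le).hasFDerivAt (mem_nhds_half hz)).fderiv

lemma continuous_j0 : Continuous (j0 c) := by
  have c1 : Continuous ex := contDiff_ex.continuous
  have c2 := h.smooth_γ.continuous
  have c3 := h.smooth_dγ.continuous
  unfold j0
  fun_prop

lemma continuous_jW {v : P2 → ℂ × ℂ × ℂ} (hv : Continuous v) : Continuous fun z => jW c z (v z) := by
  have c1 : Continuous ex := contDiff_ex.continuous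
  have c2 := h.contDiff_V.continuous
  have c3 := (contDiff_infty_iff_deriv.1 h.smooth_ν).2.continuous
  rw [show (fun z => jW c z (v z)) = fun z => (_, _) from
    funext fun z => Prod.ext (jW_fst z _) (jW_snd z _)]
  fun_prop

lemma continuous_jY (p : T3 s) : Continuous (jY c p) :=
  h.continuous_j0.add (h.continuous_jW (continuous_ev3 p))

lemma jW_per (y θ : ℝ) : jW c (y, θ + 2 * π) = jW c (y, θ) := by
  simp only [jW, ConeData.V, ex, h.per_ν θ, periodic_deriv h.hd_ν h.per_ν θ]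

omit h in
lemma ev3_per (p : T3 s) (y θ : ℝ) : ev3 s (y, θ + 2 * π) p = ev3 s (y, θ) p := by
  simp only [ev3_apply, fn, vT, val_eq, val_periodic _ y θ]

lemma jY_per (p : T3 s) (y θ : ℝ) : jY c p (y, θ + 2 * π) = jY c p (y, θ) := by
  simp only [jY, h.jW_per, ev3_per, j0, ex, h.per_γ θ, periodic_deriv h.hd_γ h.per_γ θ]

lemma lag_eq (z : P2) (v : ℂ × ℂ × ℂ) :
    gdet (j0 c z + jW c z v).2 = ex z ^ 4 * detg (c.l : ℂ) (c.κ z.2) v.1 v.2.1 v.2.2 ∧
    lag (j0 c z + jW c z v) = Complex.exp (-(ex z ^ 2 * (1 + v.1 ^ 2)) / 4) *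
      (ex z ^ 2 * Complex.sqrt (detg (c.l : ℂ) (c.κ z.2) v.1 v.2.1 v.2.2)) := by
  have hdot := vec_dot ((cE_dot _ _).trans (congrArg _ (h.γγ z.2)))
    ((cE_dot _ _).trans (congrArg _ (h.dd z.2))) ((cE_dot _ _).trans (congrArg _ (h.νν z.2)))
    ((cE_dot _ _).trans (congrArg _ (h.γd z.2))) ((cE_dot _ _).trans (congrArg _ (h.inner_γν z.2)))
    ((cE_dot _ _).trans (congrArg _ (h.inner_dν z.2)))
  set w := vec (cE (c.γ z.2)) (cE (deriv c.γ z.2)) (cE (c.ν z.2)) with hw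
  have e0 : (j0 c z + jW c z v).1 = w (ex z) 0 (ex z * v.1) := by
    simp [j0, jW_fst, hw, vec, ConeData.V, smul_smul]
  have e1 : t1 (j0 c z + jW c z v).2 = w (ex z) 0 (ex z * (v.1 + v.2.1)) := by
    simp [t1, j0, jW_snd, hw, vec, ConeData.V, lin2_apply, smul_smul]
  have e2 : t2 (j0 c z + jW c z v).2 = w 0 (ex z * (1 - c.κ z.2 * v.1)) (ex z * v.2.2) := by
    ext i
    simp [t2, j0, jW_snd, hw, vec, ConeData.V, lin2_apply, h.dν_eq]
    ring
  have eg : gdet (j0 c z + jW c z v).2 = ex z ^ 4 * detg (c.l : ℂ) (c.κ z.2) v.1 v.2.1 v.2.2 := by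
    rw [gdet, e1, e2, hdot, hdot, hdot, detg]; ring
  refine ⟨eg, ?_⟩
  have e4 : ex z ^ 4 = ((Real.exp z.1 ^ 2 : ℝ) : ℂ) ^ 2 := by simp only [ex]; push_cast; ring
  rw [lag, eg, e0, hdot, e4, sqrt_sq_mul, abs_of_nonneg (sq_nonneg _)]
  simp only [ex]
  push_cast
  ring_nf

/-- uniform smallness -/
lemma exists_good : ∃ ε0 > 0, ∀ (θ : ℝ) (v : ℂ × ℂ × ℂ), ‖v‖ < ε0 →
    ‖detg (c.l : ℂ) (c.κ θ) v.1 v.2.1 v.2.2 - c.l‖ < c.l / 2 ∧ 1 - c.κ θ * v.1 ≠ 0 ∧
      ‖v.1‖ < 1 / 2 := by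
  have hK := h.per_κ.compact_of_continuous (by positivity) h.smooth_κ.continuous
  have hl := h.l_pos
  have h1 : ∀ᶠ v : ℂ × ℂ × ℂ in 𝓝 0, ∀ k ∈ range c.κ,
      ‖detg (c.l : ℂ) k v.1 v.2.1 v.2.2 - c.l‖ < c.l / 2 ∧ 1 - k * v.1 ≠ 0 ∧ ‖v.1‖ < 1 / 2 := by
    refine hK.eventually_forall_of_forall_eventually fun k _ => Eventually.and ?_ (Eventually.and ?_ ?_)
    · refine ContinuousAt.eventually_lt (by unfold detg; fun_prop) continuousAt_const ?_
      simpa [detg] using hl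
    · exact ContinuousAt.eventually_ne (g := fun z : (ℂ × ℂ × ℂ) × ℝ => 1 - z.2 * z.1.1)
        (by fun_prop) (by simp)
    · exact ContinuousAt.eventually_lt (by fun_prop) continuousAt_const (by simp)
  obtain ⟨ε0, h0, h2⟩ := Metric.eventually_nhds_iff.1 h1
  exact ⟨ε0, h0, fun θ v hv => h2 (by rwa [dist_zero_right]) _ (mem_range_self θ)⟩

lemma good_bd {z : P2} {v : ℂ × ℂ × ℂ}
    (h1 : ‖detg (c.l : ℂ) (c.κ z.2) v.1 v.2.1 v.2.2 - c.l‖ < c.l / 2) (h2 : ‖v.1‖ < 1 / 2) :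
    j0 c z + jW c z v ∈ good ∧
      ‖lag (j0 c z + jW c z v)‖ ≤ 128 * (1 + 2 * c.l) * Real.exp (-2 * z.1) := by
  have hl := h.l_pos
  set D := detg (c.l : ℂ) (c.κ z.2) v.1 v.2.1 v.2.2 with hD
  have hE := Real.exp_pos z.1
  constructor
  · change gdet _ ∈ Complex.slitPlane
    rw [(h.lag_eq z v).1, ex, ← Complex.ofReal_pow]
    refine Or.inl ?_
    rw [Complex.re_ofReal_mul]
    have := (abs_lt.1 ((Complex.abs_re_le_norm _).trans_lt h1)).1
    rw [Complex.sub_re, Complex.ofReal_re] at this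
    exact mul_pos (by positivity) (by linarith)
  · have h3 : ‖Complex.sqrt D‖ ≤ 1 + 2 * c.l := by
      have e : ‖Complex.sqrt D‖ ^ 2 = ‖D‖ := by
        rw [← norm_pow, Complex.sqrt, show (2 : ℂ)⁻¹ = ((2 : ℕ) : ℂ)⁻¹ by simp,
          Complex.cpow_nat_inv_pow _ two_ne_zero]
      have := norm_le_norm_sub_add D c.l
      rw [Complex.norm_real, Real.norm_of_nonneg hl.le] at this
      nlinarith [norm_nonneg (Complex.sqrt D), sq_nonneg (‖Complex.sqrt D‖ - 1)]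
    set x := Real.exp z.1 ^ 2 with hx
    have hx0 : 0 < x := by positivity
    have e2 : ex z ^ 2 = (x : ℂ) := by simp [ex, hx]
    have h4 : (-((x : ℂ) * (1 + v.1 ^ 2)) / 4).re ≤ -(x / 8) := by
      have h5 : ‖v.1 ^ 2‖ ≤ 1 / 2 := by rw [norm_pow]; nlinarith [norm_nonneg v.1]
      have := (abs_le.1 ((Complex.abs_re_le_norm _).trans h5)).1
      simp only [Complex.div_ofNat_re, Complex.neg_re, Complex.re_ofReal_mul, Complex.add_re,
        Complex.one_re]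
      nlinarith
    have h6 : Real.exp (-(x / 8)) ≤ 128 / x ^ 2 := by
      have := Real.quadratic_le_exp_of_nonneg (x := x / 8) (by positivity)
      rw [Real.exp_neg, inv_le_comm₀ (Real.exp_pos _) (by positivity), inv_div]
      nlinarith
    have h7 : Real.exp (-2 * z.1) = x⁻¹ := by
      rw [hx, ← Real.exp_nat_mul, ← Real.exp_neg]; norm_num
    rw [(h.lag_eq z v).2, e2, norm_mul, norm_mul, Complex.norm_exp, Complex.norm_real,
      Real.norm_of_nonneg hx0.le, h7]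
    calc _ ≤ 128 / x ^ 2 * (x * (1 + 2 * c.l)) := by
          gcongr; exact (Real.exp_le_exp.2 h4).trans h6
      _ = _ := by field_simp

end ConeData.Frame

/-- the flux through the circle `y = b` -/
def Fl (c : ConeData) (p q : T3 s) (b : ℝ) : ℂ :=
  ∫ θ in (0 : ℝ)..2 * π, mom1 (jY c p (b, θ)) ⬝ᵥ (ex (b, θ) • fn q (b, θ) • c.V (b, θ))

lemma integrableOn_exp_end (a : ℝ) :
    IntegrableOn (fun z : P2 => Real.exp (-2 * z.1)) (Ici a ×ˢ Icc 0 (2 * π)) := by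
  rw [IntegrableOn, Measure.volume_eq_prod, ← Measure.prod_restrict]
  exact ((integrableOn_Ici_iff_integrableOn_Ioi).2
    (integrableOn_exp_mul_Ioi (a := -2) (by norm_num) a)).comp_fst _

lemma im_val_of_star {u : W s} (h : star u = u) (y θ : ℝ) : ((val u y θ).re : ℂ) = val u y θ :=
  Complex.conj_eq_iff_re.1 (by rw [← Complex.star_def, ← val_star, h])

/-- the small jets are good -/
def GoodC (c : ConeData) (ε : ℝ) : Prop := ∀ (θ : ℝ) (v : ℂ × ℂ × ℂ), ‖v‖ < ε →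
  ‖detg (c.l : ℂ) (c.κ θ) v.1 v.2.1 v.2.2 - c.l‖ < c.l / 2 ∧ 1 - c.κ θ * v.1 ≠ 0 ∧ ‖v.1‖ < 1 / 2

/-- the Lagrangian as a function of `(u, u_y, u_θ)` -/
def lagC (c : ConeData) (z : P2) (v : ℂ × ℂ × ℂ) : ℂ := lag (j0 c z + jW c z v)

lemma norm_lt_of_ball {E : Type*} [SeminormedAddCommGroup E] {p q : E} {ε : ℝ} (hp : ‖p‖ < ε / 2)
    (hq : q ∈ ball p (ε / 2)) : ‖q‖ < ε := by
  linarith [norm_le_norm_sub_add q p, mem_ball_iff_norm.1 hq]

namespace ConeData.Frame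

variable (h : c.Frame) {ε : ℝ} (hg : GoodC c ε)
include h

lemma im_lag {p : T3 s} (hs : star p = p) (z : P2) : (lag (jY c p z)).im = 0 := by
  have e0 : ((fn p z).re : ℂ) = fn p z := im_val_of_star (congrArg Prod.fst hs) _ _
  have e1 := im_val_of_star (u := p.2.1) (congrArg (fun p : T3 s => p.2.1) hs) z.1 z.2
  have e2 : ((vT p z.1 z.2).re : ℂ) = vT p z.1 z.2 := by
    have : star p.1 = p.1 := congrArg Prod.fst hs
    exact im_val_of_star (by rw [star_dth, this]) _ _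
  have e3 : ∀ u uy q : ℝ, Complex.sqrt (detg (c.l : ℂ) (c.κ z.2) u uy q) =
      (√(detg c.l (c.κ z.2) u uy q) : ℝ) := fun u uy q => by
    have := h.l_pos
    have e : detg (c.l : ℂ) (c.κ z.2) u uy q = (detg c.l (c.κ z.2) u uy q : ℝ) := by simp [detg]
    rw [e, Complex.sqrt_of_nonneg (Complex.zero_le_real.2 (by unfold detg; positivity))]
    simp
  rw [jY, (h.lag_eq z _).2, ev3_apply, ← e0, ← e1, ← e2, e3, ex]
  dsimp only
  norm_cast

include hg

lemma good_C (z : P2) {v : ℂ × ℂ × ℂ} (hv : ‖v‖ < ε) : j0 c z + jW c z v ∈ good :=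
  (h.good_bd (hg z.2 v hv).1 (hg z.2 v hv).2.2).1

lemma norm_lagC (z : P2) {v : ℂ × ℂ × ℂ} (hv : ‖v‖ < ε) :
    ‖lagC c z v‖ ≤ 128 * (1 + 2 * c.l) * Real.exp (-2 * z.1) :=
  (h.good_bd (hg z.2 v hv).1 (hg z.2 v hv).2.2).2

lemma hasFDerivAt_lagC (z : P2) {v : ℂ × ℂ × ℂ} (hv : ‖v‖ < ε) :
    HasFDerivAt (lagC c z) ((fderiv ℂ lag (j0 c z + jW c z v)).comp (jW c z)) v :=
  HasFDerivAt.comp (f := fun v => j0 c z + jW c z v) v
    (an_lag (h.good_C hg z hv)).differentiableAt.hasFDerivAt ((jW c z).hasFDerivAt.const_add _)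

lemma fderiv_lagC (z : P2) {v : ℂ × ℂ × ℂ} (hv : ‖v‖ < ε) (w : ℂ × ℂ × ℂ) :
    fderiv ℂ (lagC c z) v w = dlag (j0 c z + jW c z v) (jW c z w) := by
  rw [(h.hasFDerivAt_lagC hg z hv).fderiv, ← fderiv_lag (h.good_C hg z hv)]
  rfl

lemma norm_dlag_le (z : P2) {v : ℂ × ℂ × ℂ} (hv : ‖v‖ < ε / 2) (w : ℂ × ℂ × ℂ) :
    ‖dlag (j0 c z + jW c z v) (jW c z w)‖ ≤
      2 * (128 * (1 + 2 * c.l) * Real.exp (-2 * z.1)) / (ε / 2) * ‖w‖ := by
  have hε : 0 < ε / 2 := (norm_nonneg _).trans_lt hv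
  rw [← h.fderiv_lagC hg z (by linarith)]
  exact ContinuousLinearMap.le_of_opNorm_le _ (fderiv_le hε (fun _ hv' =>
    (h.hasFDerivAt_lagC hg z (norm_lt_of_ball hv hv')).differentiableAt.differentiableWithinAt)
    fun _ hv' => h.norm_lagC hg z (norm_lt_of_ball hv hv')) _

lemma good_jY {p : T3 s} (hp : ‖p‖ < ε) (z : P2) : jY c p z ∈ good :=
  h.good_C hg z ((norm_ev3_le p z).trans_lt hp)

lemma continuous_lag {p : T3 s} (hp : ‖p‖ < ε) : Continuous fun z => lag (jY c p z) :=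
  continuous_iff_continuousAt.2 fun z => ContinuousAt.comp (g := lag)
    (an_lag (h.good_jY hg hp z)).continuousAt (h.continuous_jY p).continuousAt

lemma tendsto_Fl {p : T3 s} (hp : ‖p‖ < ε / 2) (q : T3 s) : Tendsto (Fl c p q) atTop (𝓝 0) := by
  refine squeeze_zero_norm (a := fun b => 2 * (128 * (1 + 2 * c.l) * Real.exp (-2 * b)) / (ε / 2) *
      ‖q‖ * |2 * π - 0|)
    (fun b => intervalIntegral.norm_integral_le_of_norm_le_const fun θ _ => ?_) ?_
  · have h1 := h.norm_dlag_le hg (b, θ) ((norm_ev3_le p (b, θ)).trans_lt hp) (0, fn q (b, θ), 0)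
    have e : dlag (j0 c (b, θ) + jW c (b, θ) (ev3 s (b, θ) p)) (jW c (b, θ) (0, fn q (b, θ), 0)) =
        mom1 (jY c p (b, θ)) ⬝ᵥ (ex (b, θ) • fn q (b, θ) • c.V (b, θ)) := by
      simp [dlag, jW_fst, jW_snd, t1, t2, lin2_apply, jY]
    have hε : 0 < ε / 2 := (norm_nonneg _).trans_lt hp
    have := h.l_pos
    rw [e] at h1
    refine h1.trans ?_
    gcongr
    simpa [Prod.norm_def, fn] using (norm_val_le q.1 b θ).trans (norm_fst_le q)
  · have := Real.tendsto_exp_atBot.comp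
      (tendsto_id.const_mul_atTop_of_neg (show (-2 : ℝ) < 0 by norm_num))
    simpa using ((((this.const_mul (128 * (1 + 2 * c.l))).const_mul 2).div_const
      (ε / 2)).mul_const ‖q‖).mul_const |2 * π - 0|

lemma V_nor_ne {p : T3 s} (hp : ‖p‖ < ε) (tp : IsTri a p) {z : P2} (hz : a < z.1) :
    c.V z ⬝ᵥ nor (fderiv ℝ (c.Y (fn p)) z) ≠ 0 := fun h0 => by
  have h1 := (geom_proof c h (fn p) z (tp.contDiffAt hz)).2.2.1
  rw [h0, zero_pow two_ne_zero] at h1
  exact mul_ne_zero (mul_ne_zero (by simp) (by simpa using h.l_pos.ne'))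
    (pow_ne_zero 2 (hg z.2 _ ((norm_ev3_le p z).trans_lt hp)).2.1) h1.symm

lemma var_end {p q : T3 s} (hp : ‖p‖ < ε) (tp : IsTri a p)
    (hs : ∀ z : P2, a < z.1 → Shr (c.Y (fn p)) c.V z = 0) (tq : IsTri a q) {b : ℝ} (hb : a ≤ b) :
    ∫ z in Icc a b ×ˢ Icc 0 (2 * π), dlag (jY c p z) (jW c z (ev3 s z q)) =
      Fl c p q b - Fl c p q a := by
  rw [var_strip (Y := c.Y (fn p)) (W := fun z => ex z • fn q z • c.V z) (σ := fun _ => 0) hb
    (by positivity) (h.continuous_jY p).continuousOn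
    (h.continuous_jW (continuous_ev3 q)).continuousOn continuousOn_const
    (fun z _ => h.good_jY hg hp z) (fun y _ => by simpa using h.jY_per p y 0)
    (fun y _ => by
      have e1 := h.jW_per y 0
      have e2 := ev3_per q y 0
      rw [zero_add] at e1 e2
      rw [e1, e2]) fun z hz => ?_]
  · simp [Fl, jW_fst, ev3_apply]
  · refine ⟨h.contDiffAt_Y (n := 2) (tp.contDiffAt hz.1.1), ((h.hasFDerivWithinAt_W tq
      hz.1.1.le).hasFDerivAt (mem_nhds_half hz.1.1)).differentiableAt, (h.jet1_Y tp hz.1.1).symm,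
      (h.jet1_W tq hz.1.1).symm, ?_⟩
    rw [src_eq_Shr (h.V_nor_ne hg hp tp hz.1.1), hs z hz.1.1, mul_zero]

lemma integrableOn_lag {p : T3 s} (hp : ‖p‖ < ε) (a : ℝ) :
    IntegrableOn (fun z => lag (jY c p z)) (Ici a ×ˢ Icc 0 (2 * π)) :=
  ((integrableOn_exp_end a).const_mul _).mono' (h.continuous_lag hg hp).aestronglyMeasurable
    (.of_forall fun z => h.norm_lagC hg z ((norm_ev3_le p z).trans_lt hp))

lemma fderiv_Ec {p : T3 s} (hp : ‖p‖ < ε / 2) (a : ℝ) : DifferentiableAt ℂ (Ec c a) p ∧ ∀ q,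
    IntegrableOn (fun z => dlag (jY c p z) (jW c z (ev3 s z q))) (Ici a ×ˢ Icc 0 (2 * π)) ∧
    fderiv ℂ (Ec c a) p q =
      ∫ z in Ici a ×ˢ Icc 0 (2 * π), dlag (jY c p z) (jW c z (ev3 s z q)) := by
  have hε : 0 < ε / 2 := (norm_nonneg _).trans_lt hp
  have hp' : ‖p‖ < ε := by linarith
  have hb : ∀ q ∈ ball p (ε / 2), ∀ z, ‖ev3 s z q‖ < ε := fun q hq z =>
    (norm_ev3_le q z).trans_lt (norm_lt_of_ball hp hq)
  have hd : ∀ z q, fderiv ℂ (fun p => lagC c z (ev3 s z p)) p q =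
      dlag (jY c p z) (jW c z (ev3 s z q)) := fun z q => by
    have h1 := (norm_ev3_le p z).trans_lt hp'
    have : fderiv ℂ (fun p => lagC c z (ev3 s z p)) p = _ :=
      ((h.hasFDerivAt_lagC hg z h1).comp p (ev3 s z).hasFDerivAt).fderiv
    rw [this, ← fderiv_lag (h.good_jY hg hp' z)]
    rfl
  obtain ⟨i1, d1, d2⟩ := hasFDerivAt_integral_hol (F := fun q z => lagC c z (ev3 s z q)) hε
    ((integrableOn_exp_end a).const_mul _)
    (fun z q hq => ((h.hasFDerivAt_lagC hg z (hb q hq z)).comp q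
      (ev3 s z).hasFDerivAt).differentiableAt.differentiableWithinAt)
    (fun z q hq => h.norm_lagC hg z (hb q hq z))
    (fun q hq => (h.continuous_lag hg (norm_lt_of_ball hp hq)).aestronglyMeasurable)
    (fun q => by
      simp only [hd]
      exact Continuous.aestronglyMeasurable (continuousOn_univ.1 fun z _ =>
        cwa_dlag (h.continuous_jY p).continuousWithinAt
          (h.continuous_jW (continuous_ev3 q)).continuousWithinAt (h.good_jY hg hp' z)))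
  simp only [hd] at i1 d2
  exact ⟨d1, fun q => ⟨i1 q, d2 q⟩⟩

/-- **first variation of the Gaussian area of the end** -/
lemma fderiv_Ec_eq {p q : T3 s} (hp : ‖p‖ < ε / 2) (tp : IsTri a p)
    (hs : ∀ z : P2, a < z.1 → Shr (c.Y (fn p)) c.V z = 0) (tq : IsTri a q) :
    fderiv ℂ (Ec c a) p q = -Fl c p q a := by
  obtain ⟨i1, d2⟩ := (h.fderiv_Ec hg hp a).2 q
  have hU : ⋃ b : ℝ, Icc a b ×ˢ Icc 0 (2 * π) = Ici a ×ˢ Icc 0 (2 * π) := by
    rw [← iUnion_prod_const, iUnion_Icc_right]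
  have t1 := tendsto_setIntegral_of_monotone (s := fun b : ℝ => Icc a b ×ˢ Icc 0 (2 * π))
    (fun _ => measurableSet_Icc.prod measurableSet_Icc)
    (fun b b' hb => prod_mono (Icc_subset_Icc_right hb) subset_rfl) (hU ▸ i1)
  rw [d2, ← hU]
  refine tendsto_nhds_unique t1
    (Tendsto.congr' ?_ (zero_sub (Fl c p q a) ▸ (h.tendsto_Fl hg hp q).sub_const _))
  filter_upwards [eventually_ge_atTop a] with b hb
  exact (h.var_end hg (by linarith [norm_nonneg p]) tp hs tq hb).symm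

lemma norm_Ec_le {p : T3 s} (hp : ‖p‖ < ε) (ha : 0 ≤ a) : ‖Ec c a p‖ ≤
    128 * (1 + 2 * c.l) * ∫ z in Ici (0 : ℝ) ×ˢ Icc 0 (2 * π), Real.exp (-2 * z.1) := by
  refine (norm_integral_le_of_norm_le ((integrableOn_exp_end a).const_mul _)
    (.of_forall fun z => h.norm_lagC hg z ((norm_ev3_le p z).trans_lt hp))).trans ?_
  rw [integral_const_mul]
  have := h.l_pos
  exact mul_le_mul_of_nonneg_left (setIntegral_mono_set (integrableOn_exp_end 0)
    (.of_forall fun _ => (Real.exp_pos _).le)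
    (prod_mono (Ici_subset_Ici.2 ha) subset_rfl).eventuallyLE) (by positivity)

omit hg in
lemma Ec_real {p : T3 s} (hs : star p = p) (a : ℝ) :
    Ec c a p = (∫ z in Ici a ×ˢ Icc 0 (2 * π), (lag (jY c p z)).re : ℝ) := by
  rw [← integral_complex_ofReal, Ec]
  congr 1
  exact funext fun z => Complex.ext (by simp) (by simp [h.im_lag hs z])

end ConeData.Frame

/-! ### Real ends -/

/-- the real surface -/
def ConeData.X (c : ConeData) (p : T3 s) (z : P2) : P218FT.E3 :=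
  Ends.conePt c.γ c.ν z.1 z.2 (fn p z).re

lemma cE_X {p : T3 s} (hs : star p = p) : (fun z => cE (c.X p z)) = c.Y (fn p) := by
  funext z
  rw [ConeData.X, cE_conePt c (fun z => (fn p z).re)]
  congr 1
  exact funext fun z => im_val_of_star (congrArg Prod.fst hs) _ _

lemma ConeData.Frame.contDiffAt_X (h : c.Frame) {p : T3 s} (tp : IsTri a p) {z : P2}
    (hz : a < z.1) : ContDiffAt ℝ 2 (c.X p) z :=
  h.contDiffAt_pt (k := 2) (Complex.reCLM.contDiff.contDiffAt.comp z (tp.contDiffAt hz))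

lemma ConeData.Frame.rn_X_ne (h : c.Frame) {ε : ℝ} (hg : GoodC c ε) {p : T3 s} (hp : ‖p‖ < ε)
    (hs : star p = p) (tp : IsTri a p) {z : P2} (hz : a < z.1) :
    Ft.rn (fderiv ℝ (c.X p) z) ≠ 0 := fun h0 => by
  have h1 := good_ne (h.good_jY hg hp z)
  rw [← h.jet1_Y tp hz, ← cE_X hs,
    Ft.jet1_cE ((h.contDiffAt_X tp hz).differentiableAt two_ne_zero), Ft.gdet_cE, h0] at h1
  simp at h1

lemma abs_re_fn_le (p : T3 s) (z : P2) : |(fn p z).re| ≤ ‖p‖ :=
  (Complex.abs_re_le_norm _).trans ((norm_val_le _ _ _).trans (norm_fst_le p))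

lemma injOn_X {l δ : ℝ} (hc : Ends.SphCurve c.γ c.ν l δ) {p : T3 s} (hp : ‖p‖ ≤ δ) :
    InjOn (c.X p) (univ ×ˢ Ico 0 (2 * π)) := fun z hz w hw e => by
  obtain ⟨h1, -, k, hk⟩ := hc.inj _ _ _ _ _ _ ((abs_re_fn_le p z).trans hp)
    ((abs_re_fn_le p w).trans hp) e
  have h2 : (-1 : ℝ) < k := by nlinarith [hz.2.2, hw.2.1, Real.pi_pos]
  have h3 : (k : ℝ) < 1 := by nlinarith [hz.2.1, hw.2.2, Real.pi_pos]
  have h4 : k = 0 := by
    have : (-1 : ℤ) < k := by exact_mod_cast h2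
    have : k < 1 := by exact_mod_cast h3
    omega
  exact Prod.ext h1 (by rw [hk, h4]; simp)

/-- for real data `Ec` is the Gaussian area of the end -/
theorem ConeData.Frame.Ec_area (h : c.Frame) {l δ ε : ℝ} (hc : Ends.SphCurve c.γ c.ν l δ)
    (hg : GoodC c ε) {p : T3 s} (hp : ‖p‖ < ε) (hδ : ‖p‖ ≤ δ) (hs : star p = p) (tp : IsTri a p) :
    Ec c a p = (∫ x in c.X p '' (Ioi a ×ˢ Ico 0 (2 * π)), Real.exp (-‖x‖ ^ 2 / 4)
      ∂(μHE[2] : Measure P218FT.E3) : ℝ) := by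
  have hm : MeasurableSet (Ioi a ×ˢ Ico 0 (2 * π)) := measurableSet_Ioi.prod measurableSet_Ico
  have hae : (Ici a ×ˢ Icc 0 (2 * π) : Set P2) =ᵐ[volume] Ioi a ×ˢ Ico 0 (2 * π) :=
    Measure.set_prod_ae_eq Ioi_ae_eq_Ici.symm Ico_ae_eq_Icc.symm
  rw [Ft.integral_param (isOpen_half a)
    (fun z hz => ((h.contDiffAt_X tp hz.1).of_le one_le_two).contDiffWithinAt)
    (fun z hz => h.rn_X_ne hg hp hs tp hz.1) hm (prod_mono subset_rfl (subset_univ _))
    ((injOn_X hc hδ).mono (prod_mono (subset_univ _) subset_rfl)), ← integral_complex_ofReal, Ec,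
    setIntegral_congr_set hae]
  refine setIntegral_congr_fun hm fun z hz => ?_
  rw [← h.jet1_Y tp hz.1, ← cE_X hs,
    Ft.lag_jet1 ((h.contDiffAt_X tp hz.1).differentiableAt two_ne_zero), smul_eq_mul, mul_comm]

/-- the jet at the boundary circle of a map which continues the end -/
lemma ConeData.Frame.jet1_collar (h : c.Frame) {p : T3 s} (tp : IsTri a p) {Z : P2 → C3} {b θ : ℝ}
    (hb : 0 < b) (hZ : DifferentiableAt ℝ Z (0, θ))
    (e : ∀ w : P2, w.1 ∈ Icc 0 b → Z w = c.Y (fn p) (a + w.1, w.2)) :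
    jet1 Z (0, θ) = jY c p (a, θ) := by
  have h0 : ((0, θ) : P2) ∈ Icc 0 b ×ˢ (univ : Set ℝ) := ⟨⟨le_rfl, hb.le⟩, trivial⟩
  refine Prod.ext (by rw [jY_fst]; simpa [jet1] using e _ h0.1) ?_
  have h1 : HasFDerivWithinAt (fun w : P2 => (a, 0) + w) (ContinuousLinearMap.id ℝ P2)
      (Icc 0 b ×ˢ univ) (0, θ) := (hasFDerivWithinAt_id _ _).const_add _
  have h2 := (h.hasFDerivWithinAt_Y tp (z := (a, 0) + (0, θ)) (by simp)).comp (0, θ) h1
    fun w hw => ⟨by simpa using hw.1.1, trivial⟩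
  have h3 : HasFDerivWithinAt Z _ _ _ := h2.congr (fun w hw => by
    rw [e w hw.1]; congr 1; ext <;> simp) (by rw [e _ h0.1]; congr 1; ext <;> simp)
  have := (((uniqueDiffOn_Icc hb).prod uniqueDiffOn_univ) _ h0).eq
    hZ.hasFDerivAt.hasFDerivWithinAt h3
  simpa [jet1] using this

/-- **The energy of a conical end.** -/
theorem ConeData.Frame.energy (h : c.Frame) : ∃ ε0 > 0, ∃ C : ℝ, GoodC c ε0 ∧
    ∀ {s : ℕ} {ε a r M : ℝ} {g0 : A (s + 2)} {e : A (s + 2) → T3 s} {eE : A (s + 2) → W s},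
      IsSolver c ε a r M g0 e eE → ε < ε0 / 2 → 0 ≤ a → ∀ g ∈ ball g0 r,
      ‖Ec c a (e g)‖ ≤ C ∧ DifferentiableAt ℂ (fun g => Ec c a (e g)) g ∧
      (star g = g → (Ec c a (e g)).im = 0) ∧
      ∀ v, fderiv ℂ (fun g => Ec c a (e g)) g v = -∫ θ in (0 : ℝ)..2 * π,
        mom1 (jY c (e g) (a, θ)) ⬝ᵥ (ex (a, θ) • ev (s + 2) ℂ θ v • c.V (a, θ)) := by
  obtain ⟨ε0, h0, hg⟩ := h.exists_good
  refine ⟨ε0, h0, 128 * (1 + 2 * c.l) * ∫ z in Ici (0 : ℝ) ×ˢ Icc 0 (2 * π), Real.exp (-2 * z.1),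
    hg, fun {s ε a r M g0 e eE} hs hε ha g hg' => ?_⟩
  have h1 : ‖e g‖ < ε0 / 2 := (hs.small g hg').trans_lt hε
  have h2 := (h.fderiv_Ec hg h1 a).1
  have h3 := (hs.an g hg').differentiableAt
  refine ⟨h.norm_Ec_le hg (by linarith) ha, h2.comp g h3, fun hr => ?_, fun v => ?_⟩
  · rw [h.Ec_real (hs.real g hg' hr), Complex.ofReal_im]
  · have : fderiv ℂ (fun g => Ec c a (e g)) g = _ := fderiv_comp (g := Ec c a) (f := e) g h2 h3
    rw [this, ContinuousLinearMap.comp_apply,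
      h.fderiv_Ec_eq hg h1 (hs.tri g hg') (hs.shr g hg') (hs.dtri g hg' v), Fl]
    simp only [hs.dtrace g hg' v]

end

end Vale.Agent.P218F.Cone
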