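import Vale.Agent.P218F.ConeTri
import Vale.Agent.P218FT.Local
import Mathlib.Analysis.InnerProductSpace.Calculus

/-! Conical ends: the shrinker operator in the cone chart. -/

namespace Vale.Agent.P218F.Cone

open Set Filter Topology Core Matrix
open scoped ContDiff Real RealInnerProductSpace

noncomputable section

section jets
variable {V : Type} [NormedAddCommGroup V] [NormedSpace ℝ V]

lemma jet2_clm_comp (L : P2 →L[ℝ] ℝ) {f f' f'' : ℝ → V} (h1 : ∀ t, HasDerivAt f (f' t) t)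
    (h2 : ∀ t, HasDerivAt f' (f'' t) t) (z : P2) :
    (jet2 (fun z => f (L z)) z).1 = f (L z) ∧
    (∀ u, (jet2 (fun z => f (L z)) z).2.1 u = L u • f' (L z)) ∧
    ∀ u v, (jet2 (fun z => f (L z)) z).2.2 u v = (L u * L v) • f'' (L z) := by
  have e : fderiv ℝ (fun z => f (L z)) = fun z => L.smulRight (f' (L z)) := by
    funext w
    have : fderiv ℝ (fun z => f (L z)) w = _ := ((h1 (L w)).hasFDerivAt.comp w L.hasFDerivAt).fderiv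
    rw [this]
    ext <;> simp
  refine ⟨rfl, fun u => by simp [jet2, e], fun u v => ?_⟩
  have h3 := (ContinuousLinearMap.smulRightL ℝ P2 V L).hasFDerivAt.comp z
    ((h2 (L z)).hasFDerivAt.comp z L.hasFDerivAt)
  have h4 : fderiv ℝ (fun z => L.smulRight (f' (L z))) z = _ := h3.fderiv
  simp only [jet2, e, h4]
  simp [smul_smul]

end jets

lemma cE_dot (x y : EuclideanSpace ℝ (Fin 3)) : cE x ⬝ᵥ cE y = (⟪x, y⟫ : ℝ) := by
  simp [dotProduct, PiLp.inner_apply, Fin.sum_univ_three, mul_comm]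

/-- a vector in the frame -/
def vec (g t n : C3) (x1 x2 x3 : ℂ) : C3 := x1 • g + x2 • t + x3 • n

lemma vec_triple (g t n : C3) (x1 x2 x3 y1 y2 y3 z1 z2 z3 : ℂ) :
    vec g t n x1 x2 x3 ⬝ᵥ (vec g t n y1 y2 y3 ⨯₃ vec g t n z1 z2 z3) =
      (x1 * (y2 * z3 - y3 * z2) - x2 * (y1 * z3 - y3 * z1) + x3 * (y1 * z2 - y2 * z1)) *
        (g ⬝ᵥ (t ⨯₃ n)) := by
  simp [vec, cross_apply, dotProduct, Fin.sum_univ_three]
  ring

lemma vec_dot {g t n : C3} {l : ℂ} (gg : g ⬝ᵥ g = 1) (tt : t ⬝ᵥ t = l) (nn : n ⬝ᵥ n = 1)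
    (gt : g ⬝ᵥ t = 0) (gn : g ⬝ᵥ n = 0) (tn : t ⬝ᵥ n = 0) (x1 x2 x3 y1 y2 y3 : ℂ) :
    vec g t n x1 x2 x3 ⬝ᵥ vec g t n y1 y2 y3 = x1 * y1 + l * x2 * y2 + x3 * y3 := by
  simp only [vec, add_dotProduct, dotProduct_add, smul_dotProduct, dotProduct_smul, gg, tt, nn, gt,
    gn, tn, dotProduct_comm t g, dotProduct_comm n g, dotProduct_comm n t, smul_eq_mul]
  ring

lemma triple_sq (g t n : C3) : (g ⬝ᵥ (t ⨯₃ n)) ^ 2 =
    (g ⬝ᵥ g) * ((t ⬝ᵥ t) * (n ⬝ᵥ n) - (t ⬝ᵥ n) ^ 2) -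
      (g ⬝ᵥ t) * ((g ⬝ᵥ t) * (n ⬝ᵥ n) - (t ⬝ᵥ n) * (g ⬝ᵥ n)) +
      (g ⬝ᵥ n) * ((g ⬝ᵥ t) * (t ⬝ᵥ n) - (t ⬝ᵥ t) * (g ⬝ᵥ n)) := by
  simp [cross_apply, dotProduct, Fin.sum_univ_three]
  ring

namespace ConeData.Frame

variable {c : ConeData} (h : c.Frame)
include h

lemma smooth_dγ : ContDiff ℝ ∞ (deriv c.γ) := (contDiff_infty_iff_deriv.1 h.smooth_γ).2
lemma smooth_ddγ : ContDiff ℝ ∞ (deriv (deriv c.γ)) := (contDiff_infty_iff_deriv.1 h.smooth_dγ).2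
lemma hd_γ (θ : ℝ) : HasDerivAt c.γ (deriv c.γ θ) θ :=
  (h.smooth_γ.differentiable (by simp) θ).hasDerivAt
lemma hd_dγ (θ : ℝ) : HasDerivAt (deriv c.γ) (deriv (deriv c.γ) θ) θ :=
  (h.smooth_dγ.differentiable (by simp) θ).hasDerivAt
lemma hd_ν (θ : ℝ) : HasDerivAt c.ν (deriv c.ν θ) θ :=
  (h.smooth_ν.differentiable (by simp) θ).hasDerivAt

lemma smooth_κ : ContDiff ℝ ∞ c.κ := (h.smooth_ddγ.inner ℝ h.smooth_ν).div_const _

lemma per_κ : Function.Periodic c.κ (2 * π) := fun θ => by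
  have p1 := Wien.periodic_deriv h.hd_γ h.per_γ
  have p2 := Wien.periodic_deriv h.hd_dγ p1
  simp only [ConeData.κ, p2 θ, h.per_ν θ]

lemma hd_κ (θ : ℝ) : HasDerivAt c.κ (deriv c.κ θ) θ :=
  (h.smooth_κ.differentiable (by simp) θ).hasDerivAt

omit h in
lemma inner_deriv {f g : ℝ → EuclideanSpace ℝ (Fin 3)} {f' g' : EuclideanSpace ℝ (Fin 3)}
    {θ k : ℝ} (hf : HasDerivAt f f' θ) (hg : HasDerivAt g g' θ) (e : ∀ θ, ⟪f θ, g θ⟫ = k) :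
    ⟪f θ, g'⟫ + ⟪f', g θ⟫ = 0 := by
  have h1 := hf.inner ℝ hg
  rw [funext e] at h1
  exact h1.unique (hasDerivAt_const θ k)

lemma γγ (θ : ℝ) : ⟪c.γ θ, c.γ θ⟫ = 1 := by rw [real_inner_self_eq_norm_sq, h.norm_γ]; simp
lemma νν (θ : ℝ) : ⟪c.ν θ, c.ν θ⟫ = 1 := by rw [real_inner_self_eq_norm_sq, h.norm_ν]; simp
lemma dd (θ : ℝ) : ⟪deriv c.γ θ, deriv c.γ θ⟫ = c.l := by
  rw [real_inner_self_eq_norm_sq, h.speed]

lemma γd (θ : ℝ) : ⟪c.γ θ, deriv c.γ θ⟫ = 0 := by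
  have := inner_deriv (h.hd_γ θ) (h.hd_γ θ) h.γγ
  rw [real_inner_comm (c.γ θ) (deriv c.γ θ)] at this
  linarith

lemma expand (θ : ℝ) (v : EuclideanSpace ℝ (Fin 3)) :
    v = ⟪c.γ θ, v⟫ • c.γ θ + (⟪deriv c.γ θ, v⟫ / c.l) • deriv c.γ θ + ⟪c.ν θ, v⟫ • c.ν θ := by
  have hl := h.l_pos
  have hs : 0 < √c.l := Real.sqrt_pos.2 hl
  have hn : ‖deriv c.γ θ‖ = √c.l := by rw [← h.speed θ, Real.sqrt_sq (norm_nonneg _)]
  have T : P218FT.Triple (c.γ θ) ((√c.l)⁻¹ • deriv c.γ θ) (c.ν θ) :=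
    ⟨h.norm_γ θ, by rw [norm_smul, hn, norm_inv, Real.norm_of_nonneg hs.le]; field_simp,
      h.norm_ν θ, by rw [real_inner_smul_right, h.γd, mul_zero], h.inner_γν θ,
      by rw [real_inner_smul_left, h.inner_dν, mul_zero]⟩
  conv_lhs => rw [T.expand v]
  rw [real_inner_smul_left, smul_smul]
  congr 3
  field_simp
  rw [Real.sq_sqrt hl.le]
  ring

lemma ddγ_eq (θ : ℝ) : deriv (deriv c.γ) θ = (-c.l) • c.γ θ + (c.l * c.κ θ) • c.ν θ := by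
  have h1 := inner_deriv (h.hd_γ θ) (h.hd_dγ θ) h.γd
  have h2 := inner_deriv (h.hd_dγ θ) (h.hd_dγ θ) h.dd
  rw [real_inner_comm (deriv c.γ θ) (deriv (deriv c.γ) θ)] at h2
  have h3 : ⟪c.ν θ, deriv (deriv c.γ) θ⟫ = c.l * c.κ θ := by
    have := h.l_pos
    rw [ConeData.κ, real_inner_comm]; field_simp
  rw [h.dd] at h1
  conv_lhs => rw [h.expand θ (deriv (deriv c.γ) θ)]
  rw [h3, show ⟪c.γ θ, deriv (deriv c.γ) θ⟫ = -c.l by linarith,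
    show ⟪deriv c.γ θ, deriv (deriv c.γ) θ⟫ = 0 by linarith]
  simp

lemma dν_eq (θ : ℝ) : deriv c.ν θ = (-c.κ θ) • deriv c.γ θ := by
  have h1 := inner_deriv (h.hd_γ θ) (h.hd_ν θ) h.inner_γν
  have h2 := inner_deriv (h.hd_dγ θ) (h.hd_ν θ) h.inner_dν
  have h3 := inner_deriv (h.hd_ν θ) (h.hd_ν θ) h.νν
  rw [real_inner_comm (c.ν θ) (deriv c.ν θ)] at h3
  rw [h.inner_dν] at h1
  conv_lhs => rw [h.expand θ (deriv c.ν θ)]
  rw [show ⟪c.γ θ, deriv c.ν θ⟫ = 0 by linarith, show ⟪c.ν θ, deriv c.ν θ⟫ = 0 by linarith,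
    show ⟪deriv c.γ θ, deriv c.ν θ⟫ = -⟪deriv (deriv c.γ) θ, c.ν θ⟫ by linarith]
  simp [ConeData.κ, neg_div]

lemma hd_ν' (θ : ℝ) : HasDerivAt c.ν ((-c.κ θ) • deriv c.γ θ) θ := h.dν_eq θ ▸ h.hd_ν θ

lemma hd_ν'' (θ : ℝ) : HasDerivAt (fun θ => (-c.κ θ) • deriv c.γ θ)
    ((-c.κ θ) • deriv (deriv c.γ) θ + (-deriv c.κ θ) • deriv c.γ θ) θ :=
  (h.hd_κ θ).neg.smul (h.hd_dγ θ)

lemma contDiff_Γ : ContDiff ℝ ∞ fun z : P2 => cE (c.γ z.2) :=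
  cE.contDiff.comp (h.smooth_γ.comp contDiff_snd)

lemma contDiff_V : ContDiff ℝ ∞ c.V := cE.contDiff.comp (h.smooth_ν.comp contDiff_snd)

omit h in
lemma contDiff_ex : ContDiff ℝ ∞ fun z : P2 => ((Real.exp z.1 : ℝ) : ℂ) :=
  Complex.ofRealCLM.contDiff.comp (Real.contDiff_exp.comp contDiff_fst)

lemma contDiffAt_Y {u : P2 → ℂ} {z : P2} {n : ℕ∞} (hu : ContDiffAt ℝ n u z) :
    ContDiffAt ℝ n (c.Y u) z :=
  (contDiff_ex.contDiffAt.of_le (by exact_mod_cast le_top)).smul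
    ((h.contDiff_Γ.contDiffAt.of_le (by exact_mod_cast le_top)).add
      (hu.smul (h.contDiff_V.contDiffAt.of_le (by exact_mod_cast le_top))))

/-- the two-jet of the surface in the frame -/
lemma jet2_Y {u : P2 → ℂ} {z : P2} (hu : ContDiffAt ℝ 2 u z) :
    let J := jet2 u z
    let E : ℂ := (Real.exp z.1 : ℝ)
    let κ : ℂ := c.κ z.2
    let κ' : ℂ := (deriv c.κ z.2 : ℝ)
    let w := vec (cE (c.γ z.2)) (cE (deriv c.γ z.2)) (cE (c.ν z.2))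
    let q := jet2 (c.Y u) z
    q.1 = w E 0 (E * J.1) ∧
    q.2.1 (1, 0) = w E 0 (E * (J.1 + J.2.1 (1, 0))) ∧
    q.2.1 (0, 1) = w 0 (E * (1 - κ * J.1)) (E * J.2.1 (0, 1)) ∧
    q.2.2 (1, 0) (1, 0) = w E 0 (E * (J.1 + 2 * J.2.1 (1, 0) + J.2.2 (1, 0) (1, 0))) ∧
    q.2.2 (1, 0) (0, 1) = w 0 (E * (1 - κ * J.1 - κ * J.2.1 (1, 0)))
      (E * (J.2.1 (0, 1) + J.2.2 (1, 0) (0, 1))) ∧
    q.2.2 (0, 1) (1, 0) = w 0 (E * (1 - κ * J.1 - κ * J.2.1 (1, 0)))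
      (E * (J.2.1 (0, 1) + J.2.2 (1, 0) (0, 1))) ∧
    q.2.2 (0, 1) (0, 1) = w (-E * c.l * (1 - κ * J.1)) (E * (-κ' * J.1 - 2 * κ * J.2.1 (0, 1)))
      (E * (J.2.2 (0, 1) (0, 1) + c.l * κ * (1 - κ * J.1))) := by
  intro J E κ κ' w q
  have two : (2 : ℕ∞ω) ≤ ∞ := WithTop.coe_le_coe.2 (le_top : (2 : ℕ∞) ≤ ⊤)
  have cΓ := h.contDiff_Γ.contDiffAt.of_le two (x := z)
  have cV := h.contDiff_V.contDiffAt.of_le two (x := z)
  have cE' := contDiff_ex.contDiffAt.of_le two (x := z)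
  have e1 : q = (jet2 (fun z : P2 => ((Real.exp z.1 : ℝ) : ℂ)) z).smul
      (jet2 (fun z : P2 => cE (c.γ z.2)) z + J.smul (jet2 c.V z)) := by
    have k1 : ContDiffAt ℝ 2 (fun z => u z • c.V z) z := hu.smul cV
    have k2 : ContDiffAt ℝ 2 (fun z : P2 => cE (c.γ z.2) + u z • c.V z) z := cΓ.add k1
    rw [← jet2_smul hu cV, ← jet2_add cΓ k1, ← jet2_smul cE' k2]
    rfl
  obtain ⟨a0, a1, a2⟩ := jet2_clm_comp (ContinuousLinearMap.fst ℝ ℝ ℝ)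
    (f := fun t => ((Real.exp t : ℝ) : ℂ)) (fun t => (Real.hasDerivAt_exp t).ofReal_comp)
    (fun t => (Real.hasDerivAt_exp t).ofReal_comp) z
  obtain ⟨b0, b1, b2⟩ := jet2_clm_comp (ContinuousLinearMap.snd ℝ ℝ ℝ)
    (f := fun t => cE (c.γ t)) (fun t => cE.hasFDerivAt.comp_hasDerivAt t (h.hd_γ t))
    (fun t => cE.hasFDerivAt.comp_hasDerivAt t (h.hd_dγ t)) z
  obtain ⟨c0, c1, c2⟩ := jet2_clm_comp (ContinuousLinearMap.snd ℝ ℝ ℝ)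
    (f := fun t => cE (c.ν t)) (fun t => cE.hasFDerivAt.comp_hasDerivAt t (h.hd_ν' t))
    (fun t => cE.hasFDerivAt.comp_hasDerivAt t (h.hd_ν'' t)) z
  simp only [ContinuousLinearMap.coe_fst', ContinuousLinearMap.coe_snd'] at a0 a1 a2 b0 b1 b2 c0 c1 c2
  change (jet2 c.V z).1 = _ at c0
  change ∀ u, (jet2 c.V z).2.1 u = _ at c1
  change ∀ u v, (jet2 c.V z).2.2 u v = _ at c2
  have hs : J.2.2 (0, 1) (1, 0) = J.2.2 (1, 0) (0, 1) := jet2_symm hu _ _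
  rw [e1]
  simp only [J2.smul_fst, J2.smul_one, J2.smul_two, Prod.fst_add, Prod.snd_add, _root_.add_apply,
    a0, a1, a2, b0, b1, b2, c0, c1, c2, h.ddγ_eq, hs, map_add, map_smul]
  refine ⟨?_, ?_, ?_, ?_, ?_, ?_, ?_⟩ <;>
    (ext i; simp [w, vec, E, κ, κ']; try ring)

end ConeData.Frame

theorem geom_proof : GeomStmt := by
  intro c h u z hu J D
  obtain ⟨q0, q1, q2, q11, q12, q21, q22⟩ := h.jet2_Y hu
  have gg := (cE_dot _ _).trans (congrArg _ (h.γγ z.2))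
  have tt := (cE_dot _ _).trans (congrArg _ (h.dd z.2))
  have nn := (cE_dot _ _).trans (congrArg _ (h.νν z.2))
  have gt := (cE_dot _ _).trans (congrArg _ (h.γd z.2))
  have gn := (cE_dot _ _).trans (congrArg _ (h.inner_γν z.2))
  have tn := (cE_dot _ _).trans (congrArg _ (h.inner_dν z.2))
  have hdot := vec_dot gg tt nn gt gn tn
  have hσ := triple_sq (cE (c.γ z.2)) (cE (deriv c.γ z.2)) (cE (c.ν z.2))
  rw [gg, tt, nn, gt, gn, tn] at hσ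
  set σ := cE (c.γ z.2) ⬝ᵥ (cE (deriv c.γ z.2) ⨯₃ cE (c.ν z.2)) with hσd
  have hσ2 : σ ^ 2 = c.l := by simpa using hσ
  set E : ℂ := ((Real.exp z.1 : ℝ) : ℂ) with hE
  have hE0 : E ≠ 0 := by simp [hE]
  have hE2 : ((Real.exp (2 * z.1) : ℝ) : ℂ) = E ^ 2 := by
    rw [hE, ← Complex.ofReal_pow, ← Real.exp_nat_mul]; norm_num
  have hE4 : ((Real.exp (4 * z.1) : ℝ) : ℂ) = E ^ 4 := by
    rw [hE, ← Complex.ofReal_pow, ← Real.exp_nat_mul]; norm_num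
  have hV : c.V z = vec (cE (c.γ z.2)) (cE (deriv c.γ z.2)) (cE (c.ν z.2)) 0 0 1 := by
    simp [vec, ConeData.V]
  have ht1 : t1 (fderiv ℝ (c.Y u) z) = _ := q1
  have ht2 : t2 (fderiv ℝ (c.Y u) z) = _ := q2
  have hg : gdet (fderiv ℝ (c.Y u) z) = E ^ 4 * D := by
    rw [gdet, ht1, ht2, hdot, hdot, hdot]; simp only [D, J, detg]; ring
  have hl : (c.l : ℂ) ≠ 0 := by exact_mod_cast h.l_pos.ne'
  have hσ0 : σ ≠ 0 := fun e => hl (by rw [← hσ2, e]; simp)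
  refine ⟨by rw [hg, hE4], ?_, ?_, fun h1 h2 => ?_⟩
  · have : c.Y u z = _ := q0
    rw [this, hdot, hE2]; simp only [jet2]; ring
  · rw [nor, ht1, ht2, hV, vec_triple, hE4, mul_pow, hσ2]; simp only [jet2]; ring
  · have hg' : gdet (jet2 (c.Y u) z).2.1 = E ^ 4 * D := hg
    have ht1' : t1 (jet2 (c.Y u) z).2.1 = _ := q1
    have ht2' : t2 (jet2 (c.Y u) z).2.1 = _ := q2
    have h1' : 1 - (c.κ z.2 : ℂ) * J.1 ≠ 0 := h1
    rw [Shr, shr, gtr, hg', nor, ht1', ht2', q0, q11, q12, q21, q22, hV]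
    simp only [vec_triple, hdot, ← hσd, hE2, Mc]
    change _ = _ / D - _
    have h3 : (0 * (0 * (E * (jet2 u z).2.1 (0, 1)) - E * ((jet2 u z).1 + (jet2 u z).2.1 (1, 0)) *
        (E * (1 - ↑(c.κ z.2) * (jet2 u z).1))) - 0 * (E * (E * (jet2 u z).2.1 (0, 1)) -
        E * ((jet2 u z).1 + (jet2 u z).2.1 (1, 0)) * 0) +
        1 * (E * (E * (1 - ↑(c.κ z.2) * (jet2 u z).1)) - 0 * 0)) * σ =
        E ^ 2 * (1 - (c.κ z.2 : ℂ) * J.1) * σ := by simp only [J]; ring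
    rw [h3]
    field_simp
    simp only [D, J, detg]
    ring

end

end Vale.Agent.P218F.Cone
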