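import Vale.Agent.P218F.Wien1
import Mathlib.Analysis.Fourier.AddCircle
import Mathlib.Analysis.Normed.Group.Tannery
import Mathlib.Analysis.Calculus.MeanValue
import Mathlib.Analysis.Normed.Algebra.Exponential
import Mathlib.Analysis.SpecialFunctions.Exponential
import Mathlib.Analysis.LocallyConvex.SeparatingDual
import Mathlib.Topology.ContinuousMap.Bounded.Star
import Mathlib.Analysis.PSeries

/-!
# Evaluation of elements of the Wiener spaces on the circle

`ev s E θ u = ∑ e^{i k θ} u_k`; the derivative `dth` in `θ`; Fourier coefficients `coef f k` of a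
periodic function and the embedding of smooth periodic functions; conjugation; truncation.
-/

noncomputable section

namespace Vale.Agent.P218F.Wien

open Filter Topology Set MeasureTheory
open scoped Real

/-- Termwise differentiation of a series within a convex set. -/
theorem hasFDerivWithinAt_tsum {ι V F : Type*} [NormedAddCommGroup V] [NormedSpace ℝ V]
    [NormedAddCommGroup F] [NormedSpace ℝ F] [CompleteSpace F] {S : Set V} (hS : Convex ℝ S)
    {f : ι → V → F} {f' : ι → V → V →L[ℝ] F} {b : ι → ℝ} (hb : Summable b)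
    (hf : ∀ i, ∀ x ∈ S, HasFDerivWithinAt (f i) (f' i x) S x)
    (hf' : ∀ i, ∀ x ∈ S, ‖f' i x‖ ≤ b i) (hs : ∀ x ∈ S, Summable fun i => f i x) {x : V}
    (hx : x ∈ S) : HasFDerivWithinAt (fun y => ∑' i, f i y) (∑' i, f' i x) S x := by
  have hs' : Summable fun i => f' i x := Summable.of_norm_bounded hb fun i => hf' i x hx
  rw [hasFDerivWithinAt_iff_tendsto]
  have key : Tendsto (fun y => ∑' i, ‖y - x‖⁻¹ • (f i y - f i x - f' i x (y - x))) (𝓝[S] x)
      (𝓝 (∑' _ : ι, (0 : F))) := by
    refine tendsto_tsum_of_dominated_convergence (bound := fun i => 2 * b i) (hb.mul_left 2)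
      (fun i => ?_) ?_
    · have h := hasFDerivWithinAt_iff_tendsto.1 (hf i x hx)
      rw [tendsto_zero_iff_norm_tendsto_zero]
      refine h.congr fun y => ?_
      rw [norm_smul, norm_inv, norm_norm]
    · filter_upwards [self_mem_nhdsWithin] with y hy i
      have h1 := hS.norm_image_sub_le_of_norm_hasFDerivWithin_le (hf i) (hf' i) hx hy
      have h2 : ‖f' i x (y - x)‖ ≤ b i * ‖y - x‖ :=
        ((f' i x).le_opNorm _).trans (mul_le_mul_of_nonneg_right (hf' i x hx) (norm_nonneg _))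
      have h3 : ‖f i y - f i x - f' i x (y - x)‖ ≤ 2 * b i * ‖y - x‖ :=
        (norm_sub_le _ _).trans (by linarith)
      have h4 : 0 ≤ b i := (norm_nonneg _).trans (hf' i x hx)
      rw [norm_smul, norm_inv, norm_norm]
      by_cases h0 : ‖y - x‖ = 0
      · rw [h0]; simp [h4]
      · have h5 : 0 < ‖y - x‖ := lt_of_le_of_ne (norm_nonneg _) (Ne.symm h0)
        rw [inv_mul_le_iff₀ h5]
        linarith
  rw [tsum_zero] at key
  have key2 := tendsto_zero_iff_norm_tendsto_zero.1 key
  refine key2.congr' ?_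
  filter_upwards [self_mem_nhdsWithin] with y hy
  have h1 : HasSum (fun i => f' i x (y - x)) ((∑' i, f' i x) (y - x)) :=
    hs'.hasSum.mapL (ContinuousLinearMap.apply ℝ F (y - x))
  have h2 := (((hs y hy).hasSum.sub (hs x hx).hasSum).sub h1).const_smul ‖y - x‖⁻¹
  rw [h2.tsum_eq, norm_smul, norm_inv, norm_norm]

/-- Termwise differentiation of a series of functions of one real variable within a convex set. -/
theorem hasDerivWithinAt_tsum {ι F : Type*} [NormedAddCommGroup F] [NormedSpace ℝ F]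
    [CompleteSpace F] {S : Set ℝ} (hS : Convex ℝ S) {f f' : ι → ℝ → F} {b : ι → ℝ}
    (hb : Summable b) (hf : ∀ i, ∀ x ∈ S, HasDerivWithinAt (f i) (f' i x) S x)
    (hf' : ∀ i, ∀ x ∈ S, ‖f' i x‖ ≤ b i) (hs : ∀ x ∈ S, Summable fun i => f i x) {x : ℝ}
    (hx : x ∈ S) : HasDerivWithinAt (fun y => ∑' i, f i y) (∑' i, f' i x) S x := by
  have h := hasFDerivWithinAt_tsum hS (f := f)
    (f' := fun i x => ContinuousLinearMap.toSpanSingleton ℝ (f' i x)) hb
    (fun i x hx => (hf i x hx).hasFDerivWithinAt)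
    (fun i x hx => by rw [ContinuousLinearMap.norm_toSpanSingleton]; exact hf' i x hx) hs hx
  refine h.hasDerivWithinAt.congr_deriv ?_
  have hs' : Summable fun i => ContinuousLinearMap.toSpanSingleton ℝ (f' i x) :=
    Summable.of_norm_bounded hb fun i => by
      rw [ContinuousLinearMap.norm_toSpanSingleton]; exact hf' i x hx
  have h2 := (hs'.hasSum.mapL (ContinuousLinearMap.apply ℝ F (1 : ℝ))).tsum_eq
  simp only [ContinuousLinearMap.apply_apply, ContinuousLinearMap.toSpanSingleton_apply,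
    one_smul] at h2
  exact h2.symm

/-- The character `e^{i k θ}`. -/
def ch (θ : ℝ) (k : ℤ) : ℂ := Complex.exp (Complex.I * k * θ)

@[simp] theorem norm_ch (θ : ℝ) (k : ℤ) : ‖ch θ k‖ = 1 := by
  have : Complex.I * k * θ = ((k * θ : ℝ) : ℂ) * Complex.I := by push_cast; ring
  rw [ch, this, Complex.norm_exp_ofReal_mul_I]

theorem ch_add (θ : ℝ) (j k : ℤ) : ch θ (j + k) = ch θ j * ch θ k := by
  unfold ch
  rw [← Complex.exp_add]
  congr 1
  push_cast
  ring

theorem ch_add_left (θ η : ℝ) (k : ℤ) : ch (θ + η) k = ch θ k * ch η k := by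
  unfold ch
  rw [← Complex.exp_add]
  congr 1
  push_cast
  ring

@[simp] theorem ch_zero (θ : ℝ) : ch θ 0 = 1 := by simp [ch]

@[simp] theorem ch_zero_left (k : ℤ) : ch 0 k = 1 := by simp [ch]

theorem ch_two_pi (k : ℤ) : ch (2 * π) k = 1 := by
  have : Complex.I * k * ((2 * π : ℝ) : ℂ) = k * (2 * π * Complex.I) := by push_cast; ring
  rw [ch, this, Complex.exp_int_mul_two_pi_mul_I]

theorem ch_periodic (k : ℤ) : Function.Periodic (fun θ => ch θ k) (2 * π) := fun θ => by
  simp only [ch_add_left, ch_two_pi, mul_one]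

theorem star_ch (θ : ℝ) (k : ℤ) : star (ch θ k) = ch θ (-k) := by
  unfold ch
  rw [Complex.star_def, ← Complex.exp_conj]
  congr 1
  simp

theorem hasDerivAt_ch (k : ℤ) (θ : ℝ) :
    HasDerivAt (fun θ => ch θ k) (Complex.I * k * ch θ k) θ := by
  have h1 : HasDerivAt (fun θ : ℝ => Complex.I * k * (θ : ℂ)) (Complex.I * k) θ := by
    simpa using (Complex.ofRealCLM.hasDerivAt (x := θ)).const_mul (Complex.I * k)
  simpa [ch, mul_comm] using h1.cexp

@[fun_prop] theorem continuous_ch (k : ℤ) : Continuous fun θ => ch θ k :=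
  continuous_iff_continuousAt.2 fun θ => (hasDerivAt_ch k θ).continuousAt

theorem integral_ch (k : ℤ) :
    ∫ θ in (0 : ℝ)..(2 * π), ch θ k = if k = 0 then (2 * π : ℂ) else 0 := by
  split_ifs with h
  · subst h; simp
  · have hk : (Complex.I * k : ℂ) ≠ 0 := mul_ne_zero Complex.I_ne_zero (by exact_mod_cast h)
    have h1 : ∀ θ ∈ uIcc (0 : ℝ) (2 * π),
        HasDerivAt (fun θ => (Complex.I * k)⁻¹ * ch θ k) (ch θ k) θ := fun θ _ => by
      refine ((hasDerivAt_ch k θ).const_mul (Complex.I * k)⁻¹).congr_deriv ?_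
      rw [← mul_assoc, inv_mul_cancel₀ hk, one_mul]
    rw [intervalIntegral.integral_eq_sub_of_hasDerivAt h1
      ((continuous_ch k).intervalIntegrable _ _), ch_two_pi, ch_zero_left, sub_self]

theorem norm_int (k : ℤ) : ‖k‖ = |(k : ℝ)| := Int.norm_eq_abs k

theorem wt_int (s : ℕ) (k : ℤ) : wt s k = (1 + |(k : ℝ)|) ^ s := by rw [wt, norm_int]

section Ev

variable {s t : ℕ} {E F H : Type*} [NormedAddCommGroup E] [NormedAddCommGroup F]
  [NormedAddCommGroup H] [NormedSpace ℂ E] [NormedSpace ℂ F] [NormedSpace ℂ H] [CompleteSpace E]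

omit [CompleteSpace E] in
theorem ev_bound (s : ℕ) (θ : ℝ) (k : ℤ) :
    ‖ch θ k • ContinuousLinearMap.id ℂ E‖ ≤ 1 * wt s k := by
  rw [norm_smul, norm_ch, one_mul, one_mul]
  exact ContinuousLinearMap.norm_id_le.trans (one_le_wt s k)

/-- Evaluation at the angle `θ`. -/
def ev (s : ℕ) (E : Type*) [NormedAddCommGroup E] [NormedSpace ℂ E] [CompleteSpace E] (θ : ℝ) :
    WA ℤ s E →L[ℂ] E :=
  lift (fun k => ch θ k • ContinuousLinearMap.id ℂ E) 1 (ev_bound s θ)

theorem hasSum_ev (θ : ℝ) (u : WA ℤ s E) : HasSum (fun k => ch θ k • cf u k) (ev s E θ u) :=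
  hasSum_lift _ _ _ u

theorem ev_apply (θ : ℝ) (u : WA ℤ s E) : ev s E θ u = ∑' k, ch θ k • cf u k := rfl

@[simp] theorem ev_single (θ : ℝ) (k : ℤ) (a : E) : ev s E θ (single s k a) = ch θ k • a :=
  lift_single _ _ _ k a

theorem norm_ev_le (θ : ℝ) : ‖ev s E θ‖ ≤ 1 := norm_lift_le _ _ _

theorem norm_ev_apply_le (θ : ℝ) (u : WA ℤ s E) : ‖ev s E θ u‖ ≤ ‖u‖ :=
  (norm_lift_apply_le _ _ _ u).trans_eq (one_mul _)

@[simp] theorem ev_incl (h : t ≤ s) (θ : ℝ) (u : WA ℤ s E) :
    ev t E θ (incl ℤ E h u) = ev s E θ u := by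
  simp only [ev_apply, cf_incl]

theorem ev_congr {u : WA ℤ s E} {v : WA ℤ t E} (h : ∀ k, cf u k = cf v k) (θ : ℝ) :
    ev s E θ u = ev t E θ v := by
  simp only [ev_apply, h]

@[simp] theorem ev_mapL [CompleteSpace F] (T : E →L[ℂ] F) (θ : ℝ) (u : WA ℤ s E) :
    ev s F θ (mapL ℤ s T u) = T (ev s E θ u) := by
  have h1 := (hasSum_ev θ u).mapL T
  have h2 := hasSum_ev θ (mapL ℤ s T u)
  simp only [cf_mapL, map_smul] at h1 h2
  exact h2.unique h1

theorem ev_conv [CompleteSpace F] [CompleteSpace H] (B : E →L[ℂ] F →L[ℂ] H) (θ : ℝ)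
    (u : WA ℤ s E) (v : WA ℤ s F) :
    ev s H θ (conv ℤ s B u v) = B (ev s E θ u) (ev s F θ v) := by
  have : ((ContinuousLinearMap.compL ℂ (WA ℤ s F) (WA ℤ s H) H) (ev s H θ)).comp (conv ℤ s B) =
      B.bilinearComp (ev s E θ) (ev s F θ) := by
    apply ext_clm₂
    intro j k a b
    simp [ch_add, smul_smul, mul_comm]
  exact congrArg (fun T : WA ℤ s E →L[ℂ] WA ℤ s F →L[ℂ] H => T u v) this

theorem ev_periodic (u : WA ℤ s E) : Function.Periodic (fun θ => ev s E θ u) (2 * π) :=
  fun θ => by simp only [ev_apply, ch_add_left, ch_two_pi, mul_one]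

omit [CompleteSpace E] in
theorem norm_ch_smul (θ : ℝ) (k : ℤ) (a : E) : ‖ch θ k • a‖ = ‖a‖ := by
  rw [norm_smul, norm_ch, one_mul]

theorem continuous_ev (u : WA ℤ s E) : Continuous fun θ => ev s E θ u :=
  continuous_tsum (fun k => (continuous_ch k).smul continuous_const) (summable_norm_cf u)
    fun k θ => (norm_ch_smul θ k _).le

/-- Joint continuity of the evaluation. -/
theorem continuous_ev₂ : Continuous fun p : ℝ × WA ℤ s E => ev s E p.1 p.2 := by
  have h := continuous_prod_of_continuous_lipschitzWith' (fun p : ℝ × WA ℤ s E => ev s E p.1 p.2) 1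
    (fun θ => LipschitzWith.of_dist_le_mul fun u v => by
      rw [dist_eq_norm, dist_eq_norm, ← map_sub]
      simpa using norm_ev_apply_le θ (u - v))
    (fun u => continuous_ev u)
  exact h

@[fun_prop] theorem Continuous.ev {X : Type*} [TopologicalSpace X] {θ : X → ℝ}
    {u : X → WA ℤ s E} (hθ : Continuous θ) (hu : Continuous u) :
    Continuous fun x => ev s E (θ x) (u x) :=
  continuous_ev₂.comp (hθ.prodMk hu)

theorem dth_bound (s : ℕ) (k : ℤ) : wt s k * ‖(Complex.I * k : ℂ)‖ ≤ 1 * wt (s + 1) k := by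
  rw [wt_succ, norm_mul, Complex.norm_I, one_mul, one_mul, Complex.norm_intCast, norm_int]
  have := wt_pos s k
  nlinarith

/-- The additive map `k ↦ i k`. -/
def iMul : ℤ →+ ℂ where
  toFun k := Complex.I * k
  map_zero' := by simp
  map_add' j k := by push_cast; ring

/-- The derivative in `θ`. -/
def dth (s : ℕ) (E : Type*) [NormedAddCommGroup E] [NormedSpace ℂ E] [CompleteSpace E] :
    WA ℤ (s + 1) E →L[ℂ] WA ℤ s E :=
  mult ℤ E iMul 1 (dth_bound s)

@[simp] theorem cf_dth (u : WA ℤ (s + 1) E) (k : ℤ) :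
    cf (dth s E u) k = (Complex.I * k : ℂ) • cf u k := cf_mult _ _ _ _ _

theorem norm_dth_apply_le (u : WA ℤ (s + 1) E) : ‖dth s E u‖ ≤ ‖u‖ :=
  (norm_mult_apply_le _ _ _ u).trans_eq (one_mul _)

theorem norm_dth_le : ‖dth s E‖ ≤ 1 :=
  ContinuousLinearMap.opNorm_le_bound _ zero_le_one fun u => by
    simpa using norm_dth_apply_le u

theorem hasDerivAt_ev (u : WA ℤ (s + 1) E) (θ : ℝ) :
    HasDerivAt (fun θ => ev (s + 1) E θ u) (ev s E θ (dth s E u)) θ := by
  have h := hasDerivWithinAt_tsum (S := univ) convex_univ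
    (f := fun k θ => ch θ k • cf u k) (f' := fun k θ => ch θ k • cf (dth s E u) k)
    (summable_norm_cf (dth s E u))
    (fun k θ _ => (((hasDerivAt_ch k θ).smul_const (cf u k)).congr_deriv (by
      rw [cf_dth, smul_smul, mul_comm])).hasDerivWithinAt)
    (fun k θ _ => (norm_ch_smul _ _ _).le)
    (fun θ _ => (hasSum_ev θ u).summable) (mem_univ θ)
  rw [hasDerivWithinAt_univ] at h
  exact h

/-- The Fourier coefficient of a function of the angle. -/
def coef (f : ℝ → E) (k : ℤ) : E := (2 * π : ℂ)⁻¹ • ∫ θ in (0 : ℝ)..(2 * π), ch θ (-k) • f θ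

theorem two_pi_ne : (2 * π : ℂ) ≠ 0 := by
  exact_mod_cast (by positivity : (2 * π : ℝ) ≠ 0)

omit [CompleteSpace E] in
theorem norm_coef_le {f : ℝ → E} {M : ℝ} (h : ∀ θ ∈ Icc (0 : ℝ) (2 * π), ‖f θ‖ ≤ M) (k : ℤ) :
    ‖coef f k‖ ≤ M := by
  have h1 : ‖∫ θ in (0 : ℝ)..(2 * π), ch θ (-k) • f θ‖ ≤ M * |2 * π - 0| :=
    intervalIntegral.norm_integral_le_of_norm_le_const fun θ hθ => by
      rw [norm_smul, norm_ch, one_mul]
      rw [uIoc_of_le (by positivity)] at hθ
      exact h θ (Ioc_subset_Icc_self hθ)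
  have h2 : ‖(2 * π : ℂ)⁻¹‖ = (2 * π)⁻¹ := by
    rw [norm_inv]
    congr 1
    have : (2 * π : ℂ) = ((2 * π : ℝ) : ℂ) := by push_cast; ring
    rw [this, Complex.norm_real, Real.norm_of_nonneg (by positivity)]
  rw [sub_zero, abs_of_pos (by positivity)] at h1
  rw [coef, norm_smul, h2, inv_mul_le_iff₀ (by positivity)]
  linarith

omit [CompleteSpace E] in
theorem ii_ch {f : ℝ → E} (hf : Continuous f) (k : ℤ) (a b : ℝ) :
    IntervalIntegrable (fun θ => ch θ k • f θ) volume a b :=
  ((continuous_ch k).smul hf).intervalIntegrable _ _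

omit [CompleteSpace E] in
theorem coef_sub {f g : ℝ → E} (hf : Continuous f) (hg : Continuous g) (k : ℤ) :
    coef (fun θ => f θ - g θ) k = coef f k - coef g k := by
  unfold coef
  rw [← smul_sub, ← intervalIntegral.integral_sub (ii_ch hf _ _ _) (ii_ch hg _ _ _)]
  simp only [smul_sub]

theorem coef_map [CompleteSpace F] (T : E →L[ℂ] F) {f : ℝ → E} (hf : Continuous f) (k : ℤ) :
    coef (fun θ => T (f θ)) k = T (coef f k) := by
  unfold coef
  rw [map_smul, ← T.intervalIntegral_comp_comm (ii_ch hf _ _ _)]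
  simp only [map_smul]

theorem coef_ch_smul (j k : ℤ) (a : E) : coef (fun θ => ch θ j • a) k = if k = j then a else 0 := by
  unfold coef
  simp only [smul_smul, ← ch_add]
  rw [intervalIntegral.integral_smul_const, integral_ch]
  by_cases h : k = j
  · subst h
    simp only [neg_add_cancel, if_true]
    rw [smul_smul, inv_mul_cancel₀ two_pi_ne, one_smul]
  · have : -k + j ≠ 0 := fun h' => h (by linarith)
    simp [h, this]

/-- The coefficients of `u` are the Fourier coefficients of its evaluation. -/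
theorem coef_ev (u : WA ℤ s E) (k : ℤ) : coef (fun θ => ev s E θ u) k = cf u k := by
  let T : WA ℤ s E →L[ℂ] E := LinearMap.mkContinuous
    { toFun := fun u => coef (fun θ => ev s E θ u) k
      map_add' := fun u v => by
        unfold coef
        simp only [map_add, smul_add]
        rw [intervalIntegral.integral_add (ii_ch (continuous_ev u) _ _ _)
          (ii_ch (continuous_ev v) _ _ _), smul_add]
      map_smul' := fun c u => by
        unfold coef
        simp only [map_smul, RingHom.id_apply]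
        rw [smul_comm c, ← intervalIntegral.integral_smul c]
        simp only [smul_comm c] } 1 fun u => by
      rw [one_mul]
      exact norm_coef_le (fun θ _ => norm_ev_apply_le θ u) k
  have : T = cfL s E k := by
    apply ext_clm
    intro j a
    change coef (fun θ => ev s E θ (single s j a)) k = cf (single s j a) k
    simp only [ev_single, coef_ch_smul, cf_single]
  exact congrArg (fun T : WA ℤ s E →L[ℂ] E => T u) this

theorem cf_eq_of_ev {u : WA ℤ s E} {v : WA ℤ t E} (h : ∀ θ, ev s E θ u = ev t E θ v) (k : ℤ) :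
    cf u k = cf v k := by
  rw [← coef_ev, ← coef_ev]
  simp only [h]

/-- An element is determined by its evaluations. -/
theorem ext_ev {u v : WA ℤ s E} (h : ∀ θ, ev s E θ u = ev s E θ v) : u = v :=
  ext (cf_eq_of_ev h)

theorem coef_eq_fourierCoeffOn (f : ℝ → ℂ) (k : ℤ) :
    coef f k = fourierCoeffOn (show (0 : ℝ) < 2 * π by positivity) f k := by
  rw [fourierCoeffOn_eq_integral, coef, sub_zero]
  have h1 : ∀ θ : ℝ, fourier (-k) (θ : AddCircle (2 * π)) = ch θ (-k) := fun θ => by
    rw [fourier_coe_apply, ch]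
    congr 1
    have := two_pi_ne
    push_cast
    field_simp
  simp only [h1, one_div]
  rw [Complex.real_smul, smul_eq_mul]
  push_cast
  rfl

/-- Parseval's identity. -/
theorem hasSum_sq_coef {f : ℝ → ℂ} (hf : Continuous f) :
    HasSum (fun k => ‖coef f k‖ ^ 2) ((2 * π)⁻¹ * ∫ θ in (0 : ℝ)..(2 * π), ‖f θ‖ ^ 2) := by
  have hm : MemLp f 2 (volume.restrict (Ioc (0 : ℝ) (2 * π))) := by
    obtain ⟨M, hM⟩ := isCompact_Icc.exists_bound_of_continuousOn
      (hf.continuousOn (s := Icc (0 : ℝ) (2 * π)))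
    refine MemLp.of_bound hf.aestronglyMeasurable M ?_
    filter_upwards [ae_restrict_mem measurableSet_Ioc] with θ hθ
    exact hM θ (Ioc_subset_Icc_self hθ)
  have h := hasSum_sq_fourierCoeffOn (show (0 : ℝ) < 2 * π by positivity) hm
  simp only [← coef_eq_fourierCoeffOn, sub_zero, smul_eq_mul] at h
  exact h

theorem eq_zero_of_coef_scalar {f : ℝ → ℂ} (hf : Continuous f)
    (hp : Function.Periodic f (2 * π)) (h : ∀ k, coef f k = 0) (θ : ℝ) : f θ = 0 := by
  have h1 := hasSum_sq_coef hf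
  simp only [h, norm_zero, ne_eq, OfNat.ofNat_ne_zero, not_false_eq_true, zero_pow] at h1
  have h2 := h1.unique hasSum_zero
  have h3 : ∫ θ in (0 : ℝ)..(2 * π), ‖f θ‖ ^ 2 = 0 := by
    rcases mul_eq_zero.1 h2 with h | h
    · exact absurd h (by positivity)
    · exact h
  have h4 : ∀ θ ∈ Icc (0 : ℝ) (2 * π), f θ = 0 := by
    by_contra hne
    push Not at hne
    obtain ⟨η, hη, hne⟩ := hne
    have := intervalIntegral.integral_pos (f := fun θ => ‖f θ‖ ^ 2)
      (show (0 : ℝ) < 2 * π by positivity) (by fun_prop) (fun _ _ => by positivity)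
      ⟨η, hη, by positivity⟩
    exact this.ne' h3
  obtain ⟨η, hη, he⟩ := hp.exists_mem_Ico₀ (by positivity) θ
  rw [he]
  exact h4 η (Ico_subset_Icc_self hη)

/-- A continuous periodic function is determined by its Fourier coefficients. -/
theorem eq_of_coef {f g : ℝ → E} (hf : Continuous f) (hg : Continuous g)
    (hp : Function.Periodic f (2 * π)) (hq : Function.Periodic g (2 * π))
    (h : ∀ k, coef f k = coef g k) (θ : ℝ) : f θ = g θ := by
  rw [SeparatingDual.eq_iff_forall_dual_eq (R := ℂ)]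
  intro T
  have := eq_zero_of_coef_scalar (f := fun θ => T (f θ) - T (g θ)) (by fun_prop)
    (fun θ => by simp only [hp θ, hq θ]) (fun k => by
      rw [coef_sub (by fun_prop) (by fun_prop), coef_map T hf, coef_map T hg, h, sub_self]) θ
  exact sub_eq_zero.1 this

/-- Fourier inversion. -/
theorem ev_mk_coef {f : ℝ → E} (hf : Continuous f) (hp : Function.Periodic f (2 * π))
    (h : Summable fun k => wt s k * ‖coef f k‖) (θ : ℝ) : ev s E θ (mk (coef f) h) = f θ :=
  eq_of_coef (continuous_ev _) hf (ev_periodic _) hp (fun k => by rw [coef_ev, cf_mk]) θ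

theorem ev_eq_of_cf {f : ℝ → E} (hf : Continuous f) (hp : Function.Periodic f (2 * π))
    {u : WA ℤ s E} (h : ∀ k, cf u k = coef f k) (θ : ℝ) : ev s E θ u = f θ :=
  eq_of_coef (continuous_ev _) hf (ev_periodic _) hp (fun k => by rw [coef_ev, h]) θ

/-- Integration by parts. -/
theorem coef_deriv {f f' : ℝ → E} (hf : ∀ θ, HasDerivAt f (f' θ) θ) (hf' : Continuous f')
    (hp : f (2 * π) = f 0) (k : ℤ) : coef f' k = (Complex.I * k : ℂ) • coef f k := by
  have hc : Continuous f := continuous_iff_continuousAt.2 fun θ => (hf θ).continuousAt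
  have h1 : ∀ θ ∈ uIcc (0 : ℝ) (2 * π), HasDerivAt (fun θ => ch θ (-k) • f θ)
      (ch θ (-k) • f' θ - (Complex.I * k : ℂ) • (ch θ (-k) • f θ)) θ := fun θ _ => by
    refine ((hasDerivAt_ch (-k) θ).smul (hf θ)).congr_deriv ?_
    rw [smul_smul, sub_eq_add_neg, ← neg_smul]
    congr 2
    push_cast
    ring
  have i1 : IntervalIntegrable (fun θ => ch θ (-k) • f' θ) volume 0 (2 * π) :=
    ((continuous_ch _).smul hf').intervalIntegrable _ _
  have i2 : IntervalIntegrable (fun θ => (Complex.I * k : ℂ) • (ch θ (-k) • f θ)) volume 0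
      (2 * π) := (continuous_const.smul ((continuous_ch _).smul hc)).intervalIntegrable _ _
  have h2 := intervalIntegral.integral_eq_sub_of_hasDerivAt h1 (i1.sub i2)
  rw [intervalIntegral.integral_sub i1 i2, ch_two_pi, ch_zero_left, hp, sub_self, sub_eq_zero,
    intervalIntegral.integral_smul] at h2
  unfold coef
  rw [h2, smul_comm]

omit [NormedSpace ℂ E] [CompleteSpace E] in
theorem periodic_deriv [NormedSpace ℝ E] {f f' : ℝ → E} {c : ℝ} (hf : ∀ θ, HasDerivAt f (f' θ) θ)
    (hp : Function.Periodic f c) : Function.Periodic f' c := fun θ => by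
  have h1 : HasDerivAt (fun η => f (η + c)) (f' (θ + c)) θ := (hf (θ + c)).comp_add_const θ c
  have h2 : (fun η => f (η + c)) = f := funext hp
  rw [h2] at h1
  exact h1.unique (hf θ)

theorem coef_iter {f : ℕ → ℝ → E} {n : ℕ} (hf : ∀ j < n, ∀ θ, HasDerivAt (f j) (f (j + 1) θ) θ)
    (hc : Continuous (f n)) (hp : Function.Periodic (f 0) (2 * π)) (k : ℤ) :
    coef (f n) k = (Complex.I * k : ℂ) ^ n • coef (f 0) k := by
  have hper : ∀ j ≤ n, Function.Periodic (f j) (2 * π) := by
    intro j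
    induction j with
    | zero => exact fun _ => hp
    | succ j ih => exact fun hj => periodic_deriv (hf j hj) (ih (Nat.le_of_succ_le hj))
  have hcont : ∀ j ≤ n, Continuous (f j) := by
    intro j hj
    rcases hj.lt_or_eq with h | h
    · exact continuous_iff_continuousAt.2 fun θ => (hf j h θ).continuousAt
    · rw [h]; exact hc
  have : ∀ j ≤ n, coef (f j) k = (Complex.I * k : ℂ) ^ j • coef (f 0) k := by
    intro j
    induction j with
    | zero => simp
    | succ j ih =>
      intro hj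
      rw [coef_deriv (hf j hj) (hcont _ hj) (by simpa using hper j (Nat.le_of_succ_le hj) 0),
        ih (Nat.le_of_succ_le hj), smul_smul, pow_succ']
  exact this n le_rfl

theorem hasSum_inv_sq_le : ∃ c ≤ (4 : ℝ), HasSum (fun k : ℤ => 1 / (k : ℝ) ^ 2) c := by
  have h1 : Summable fun n : ℕ => 1 / (n : ℝ) ^ 2 := Real.summable_one_div_nat_pow.2 one_lt_two
  have h2 : ∑' n : ℕ, 1 / (n : ℝ) ^ 2 ≤ 2 := by
    refine h1.tsum_le_of_sum_range_le fun n => ?_
    have : ∀ n : ℕ, ∑ i ∈ Finset.range (n + 2), 1 / (i : ℝ) ^ 2 ≤ 2 - 1 / (n + 1 : ℝ) := by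
      intro n
      induction n with
      | zero => norm_num [Finset.sum_range_succ]
      | succ n ih =>
        rw [Finset.sum_range_succ]
        push_cast
        have h0 : (0 : ℝ) < n + 1 := by positivity
        have : 1 / ((n : ℝ) + 1 + 1) ^ 2 ≤ 1 / (n + 1 : ℝ) - 1 / (n + 1 + 1 : ℝ) := by
          rw [div_sub_div _ _ h0.ne' (by positivity), div_le_div_iff₀ (by positivity) (by positivity)]
          nlinarith
        have e : ((n : ℝ) + 2) = n + 1 + 1 := by ring
        rw [e]
        linarith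
    refine le_trans (Finset.sum_le_sum_of_subset_of_nonneg
      (Finset.range_mono (Nat.le_add_right n 2)) fun _ _ _ => by positivity) ?_
    have h3 := this n
    have : (0 : ℝ) ≤ 1 / (n + 1 : ℝ) := by positivity
    linarith
  have h3 : HasSum (fun n : ℕ => 1 / (((n : ℤ) : ℝ)) ^ 2) (∑' n : ℕ, 1 / (n : ℝ) ^ 2) := by
    simpa using h1.hasSum
  have h4 : HasSum (fun n : ℕ => 1 / (((-(n : ℤ) : ℤ) : ℝ)) ^ 2) (∑' n : ℕ, 1 / (n : ℝ) ^ 2) := by
    simpa using h1.hasSum
  refine ⟨_, ?_, HasSum.of_nat_of_neg (f := fun k : ℤ => 1 / (k : ℝ) ^ 2) h3 h4⟩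
  simp only [Int.cast_zero]
  norm_num at h2 ⊢
  linarith

/-- Decay of the coefficients gives membership in the Wiener space. -/
theorem summable_of_decay {c : ℤ → ℝ} (hc : ∀ k, 0 ≤ c k) {M₀ M : ℝ} (h0 : c 0 ≤ M₀)
    (h : ∀ k : ℤ, |(k : ℝ)| ^ (s + 2) * c k ≤ M) :
    (Summable fun k => wt s k * c k) ∧ ∑' k, wt s k * c k ≤ M₀ + 2 ^ (s + 2) * M := by
  obtain ⟨a, ha, hs⟩ := hasSum_inv_sq_le
  have hM : 0 ≤ M := le_trans (by simp) (h 0)
  have hb : HasSum (fun k : ℤ => (if k = 0 then M₀ else 0) + 2 ^ s * M * (1 / (k : ℝ) ^ 2))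
      (M₀ + 2 ^ s * M * a) := (hasSum_ite_eq (0 : ℤ) M₀).add (hs.mul_left _)
  have hle : ∀ k : ℤ, wt s k * c k ≤
      (if k = 0 then M₀ else 0) + 2 ^ s * M * (1 / (k : ℝ) ^ 2) := by
    intro k
    by_cases hk : k = 0
    · subst hk
      simpa using h0
    · have h1 : (1 : ℝ) ≤ |(k : ℝ)| := by exact_mod_cast Int.one_le_abs hk
      have h2 : wt s k ≤ 2 ^ s * |(k : ℝ)| ^ s := by
        rw [wt_int, ← mul_pow]
        exact pow_le_pow_left₀ (by positivity) (by linarith) s
      have h3 : (0 : ℝ) < (k : ℝ) ^ 2 := by positivity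
      rw [if_neg hk, zero_add, mul_one_div, le_div_iff₀ h3]
      have h4 := h k
      rw [pow_add, sq_abs] at h4
      calc wt s k * c k * (k : ℝ) ^ 2 ≤ 2 ^ s * |(k : ℝ)| ^ s * c k * (k : ℝ) ^ 2 := by
            have := hc k
            gcongr
        _ = 2 ^ s * (|(k : ℝ)| ^ s * (k : ℝ) ^ 2 * c k) := by ring
        _ ≤ 2 ^ s * M := by gcongr
  have hsum : Summable fun k => wt s k * c k :=
    hb.summable.of_nonneg_of_le (fun k => mul_nonneg (wt_pos s k).le (hc k)) hle
  refine ⟨hsum, (hasSum_le hle hsum.hasSum hb).trans ?_⟩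
  have : 2 ^ s * M * a ≤ 2 ^ s * M * 4 := by gcongr
  calc _ ≤ M₀ + 2 ^ s * M * 4 := by linarith
    _ = _ := by ring

theorem coef_decay {f : ℕ → ℝ → E} {n : ℕ} (hf : ∀ j < n, ∀ θ, HasDerivAt (f j) (f (j + 1) θ) θ)
    (hc : Continuous (f n)) (hp : Function.Periodic (f 0) (2 * π)) {M : ℝ}
    (hM : ∀ θ, ‖f n θ‖ ≤ M) (k : ℤ) : |(k : ℝ)| ^ n * ‖coef (f 0) k‖ ≤ M := by
  have h1 := norm_coef_le (fun θ _ => hM θ) k
  rw [coef_iter hf hc hp, norm_smul, norm_pow, norm_mul, Complex.norm_I, one_mul,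
    Complex.norm_intCast] at h1
  exact h1

/-- A periodic function with `s + 2` continuous derivatives comes from the Wiener space. -/
theorem exists_of_deriv {f : ℕ → ℝ → E}
    (hf : ∀ j < s + 2, ∀ θ, HasDerivAt (f j) (f (j + 1) θ) θ) (hc : Continuous (f (s + 2)))
    (hp : Function.Periodic (f 0) (2 * π)) {M₀ M : ℝ} (h0 : ∀ θ, ‖f 0 θ‖ ≤ M₀)
    (hM : ∀ θ, ‖f (s + 2) θ‖ ≤ M) :
    ∃ u : WA ℤ s E, (∀ θ, ev s E θ u = f 0 θ) ∧ ‖u‖ ≤ M₀ + 2 ^ (s + 2) * M := by
  obtain ⟨h1, h2⟩ := summable_of_decay (s := s) (c := fun k => ‖coef (f 0) k‖)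
    (fun _ => norm_nonneg _) (norm_coef_le (fun θ _ => h0 θ) 0) (coef_decay hf hc hp hM)
  refine ⟨mk _ h1, ev_mk_coef ?_ hp h1, by rw [norm_mk]; exact h2⟩
  exact continuous_iff_continuousAt.2 fun θ => (hf 0 (by omega) θ).continuousAt

/-- The part of `u` with modes in `P`. -/
def proj (G : Type*) [SeminormedAddCommGroup G] (s : ℕ) (E : Type*) [NormedAddCommGroup E]
    [NormedSpace ℂ E] [CompleteSpace E] (P : Set G) : WA G s E →L[ℂ] WA G s E :=
  mult G E (P.indicator fun _ => 1) 1 fun k => by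
    by_cases h : k ∈ P <;> simp [h, (wt_pos s k).le]

section Proj

variable {G : Type*} [SeminormedAddCommGroup G]

theorem cf_proj_of_mem {P : Set G} {k : G} (h : k ∈ P) (u : WA G s E) :
    cf (proj G s E P u) k = cf u k := by
  simp [proj, h]

theorem cf_proj_of_notMem {P : Set G} {k : G} (h : k ∉ P) (u : WA G s E) :
    cf (proj G s E P u) k = 0 := by
  simp [proj, h]

theorem norm_proj_apply_le (P : Set G) (u : WA G s E) : ‖proj G s E P u‖ ≤ ‖u‖ :=
  (norm_mult_apply_le _ _ _ u).trans_eq (one_mul _)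

theorem proj_add_compl (P : Set G) (u : WA G s E) : proj G s E P u + proj G s E Pᶜ u = u := by
  ext k
  by_cases h : k ∈ P
  · simp [cf_proj_of_mem h, cf_proj_of_notMem (show k ∉ Pᶜ from fun h' => h' h)]
  · simp [cf_proj_of_notMem h, cf_proj_of_mem (show k ∈ Pᶜ from h)]

theorem proj_finset (P : Finset G) (u : WA G s E) :
    proj G s E P u = ∑ k ∈ P, single s k (cf u k) := by
  classical
  ext j
  have : cf (∑ k ∈ P, single s k (cf u k)) j = ∑ k ∈ P, cf (single s k (cf u k)) j :=
    map_sum (cfL s E j) _ _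
  rw [this]
  simp only [cf_single, Finset.sum_ite_eq]
  by_cases h : j ∈ P
  · rw [if_pos h, cf_proj_of_mem (by simpa using h)]
  · rw [if_neg h, cf_proj_of_notMem (by simpa using h)]

/-- The high modes are small in the next weaker norm. -/
theorem norm_incl_proj_le {P : Set G} {N : ℝ} (hN : 0 < N) (hP : ∀ k ∈ P, N ≤ 1 + ‖k‖)
    (u : WA G (s + 1) E) : ‖incl G E (Nat.le_succ s) (proj G (s + 1) E P u)‖ ≤ N⁻¹ * ‖u‖ := by
  refine norm_le_of_cf fun k => ?_
  rw [cf_incl]
  by_cases h : k ∈ P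
  · rw [cf_proj_of_mem h, wt_succ, le_inv_mul_iff₀ hN, mul_assoc]
    exact mul_le_mul_of_nonneg_right (hP k h) (mul_nonneg (wt_pos s k).le (norm_nonneg _))
  · rw [cf_proj_of_notMem h, norm_zero, mul_zero]
    have := wt_pos (s + 1) k
    positivity

end Proj

end Ev

section Star

variable {G : Type*} [SeminormedAddCommGroup G] {s t : ℕ} {E F : Type*} [NormedAddCommGroup E]
  [NormedSpace ℂ E] [StarAddMonoid E] [NormedStarGroup E] [NormedAddCommGroup F]
  [NormedSpace ℂ F] [StarAddMonoid F] [NormedStarGroup F]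

theorem hasSum_star (u : WA G s E) : HasSum (fun k => wt s k * ‖star (cf u (-k))‖) ‖u‖ := by
  have h := (Equiv.neg G).hasSum_iff.2 (hasSum_norm u)
  convert h using 1
  funext k
  simp [wt_neg]

instance : Star (WA G s E) := ⟨fun u => mk (fun k => star (cf u (-k))) (hasSum_star u).summable⟩

@[simp] theorem cf_star (u : WA G s E) (k : G) : cf (star u) k = star (cf u (-k)) := cf_mk _ _ _

instance : StarAddMonoid (WA G s E) where
  star_involutive u := by ext k; simp
  star_add u v := by ext k; simp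

instance : NormedStarGroup (WA G s E) where
  norm_star_le u := by
    refine le_of_eq ?_
    rw [norm_eq]
    simp only [cf_star]
    exact (hasSum_star u).tsum_eq

instance [StarModule ℂ E] : StarModule ℂ (WA G s E) where
  star_smul c u := by ext k; simp

theorem star_single (k : G) (a : E) : star (single s k a) = single s (-k) (star a) := by
  classical
  ext j
  simp only [cf_star, cf_single, neg_eq_iff_eq_neg]
  split_ifs <;> simp

theorem star_diag [CompleteSpace F] (m : G → E →L[ℂ] F) (C : ℝ)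
    (h : ∀ k, wt t k * ‖m k‖ ≤ C * wt s k) (hm : ∀ k a, star (m (-k) a) = m k (star a))
    (u : WA G s E) : star (diag m C h u) = diag m C h (star u) := by
  ext k
  simp [hm]

theorem star_mapL [CompleteSpace F] (T : E →L[ℂ] F) (hT : ∀ a, star (T a) = T (star a))
    (u : WA G s E) : star (mapL G s T u) = mapL G s T (star u) := by
  ext k
  simp [hT]

theorem star_incl [CompleteSpace E] (h : t ≤ s) (u : WA G s E) :
    star (incl G E h u) = incl G E h (star u) := by
  ext k
  simp

theorem star_proj [CompleteSpace E] {P : Set G} (hP : ∀ k, -k ∈ P ↔ k ∈ P) (u : WA G s E) :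
    star (proj G s E P u) = proj G s E P (star u) := by
  ext k
  by_cases h : k ∈ P
  · simp [cf_proj_of_mem h, cf_proj_of_mem ((hP k).2 h)]
  · simp [cf_proj_of_notMem h, cf_proj_of_notMem (fun h' => h ((hP k).1 h'))]

theorem star_dth [CompleteSpace E] [StarModule ℂ E] (u : WA ℤ (s + 1) E) :
    star (dth s E u) = dth s E (star u) := by
  ext k
  simp

theorem ev_star [CompleteSpace E] [StarModule ℂ E] (θ : ℝ) (u : WA ℤ s E) :
    ev s E θ (star u) = star (ev s E θ u) := by
  have h1 := (hasSum_ev θ u).star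
  have h2 := (Equiv.neg ℤ).hasSum_iff.2 (hasSum_ev θ (star u))
  refine h2.unique ?_
  convert h1 using 1
  funext k
  simp [star_ch]

theorem star_eq_iff_ev [CompleteSpace E] [StarModule ℂ E] (u : WA ℤ s E) :
    star u = u ↔ ∀ θ, star (ev s E θ u) = ev s E θ u :=
  ⟨fun h θ => by rw [← ev_star, h], fun h => ext_ev fun θ => by rw [ev_star, h]⟩

end Star

section Alg

variable {G : Type*} [SeminormedAddCommGroup G] {s : ℕ} {A : Type*} [NormedCommRing A]
  [NormedAlgebra ℂ A] [CompleteSpace A]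

instance [StarRing A] [NormedStarGroup A] : StarRing (WA G s A) where
  star_add := star_add
  star_mul u v := by
    ext k
    have h1 := (hasSum_cf_mul u v (-k)).star
    have h2 := (Equiv.neg G).hasSum_iff.2 (hasSum_cf_mul (star u) (star v) k)
    rw [mul_comm (star v), cf_star]
    refine h1.unique ?_
    convert h2 using 1
    funext j
    simp only [star_mul', Function.comp, Equiv.neg_apply, cf_star, neg_neg]
    congr 3
    abel

theorem ev_mul (θ : ℝ) (u v : WA ℤ s A) : ev s A θ (u * v) = ev s A θ u * ev s A θ v :=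
  ev_conv (ContinuousLinearMap.mul ℂ A) θ u v

theorem ev_one (θ : ℝ) : ev s A θ 1 = 1 := by simp [one_def]

/-- Evaluation as an algebra homomorphism. -/
def evA (s : ℕ) (A : Type*) [NormedCommRing A] [NormedAlgebra ℂ A] [CompleteSpace A] (θ : ℝ) :
    WA ℤ s A →ₐ[ℂ] A :=
  AlgHom.ofLinearMap (ev s A θ).toLinearMap (ev_one θ) (ev_mul θ)

theorem evA_apply (θ : ℝ) (u : WA ℤ s A) : evA s A θ u = ev s A θ u := rfl

theorem continuous_evA (θ : ℝ) : Continuous (evA s A θ) := (ev s A θ).continuous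

theorem ev_pow (θ : ℝ) (u : WA ℤ s A) (n : ℕ) : ev s A θ (u ^ n) = ev s A θ u ^ n :=
  map_pow (evA s A θ) u n

@[simp] theorem ev_const (θ : ℝ) (a : A) : ev s A θ (const ℤ s A a) = a := by
  simp [const_apply]

theorem dth_mul (u v : WA ℤ (s + 1) A) :
    dth s A (u * v) =
      dth s A u * incl ℤ A (Nat.le_succ s) v + incl ℤ A (Nat.le_succ s) u * dth s A v :=
  mult_mul (Nat.le_succ s) iMul 1 (dth_bound s) u v

@[simp] theorem dth_const (a : A) : dth s A (const ℤ (s + 1) A a) = 0 := by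
  classical
  ext k
  simp only [cf_dth, const_apply, cf_single, cf_zero]
  split_ifs with h <;> simp [h]

variable {B : Type*} [NormedCommRing B] [NormedAlgebra ℂ B]

/-- Continuous homomorphisms of complex Banach algebras commute with the exponential. -/
theorem hom_exp {Φ : Type*} [FunLike Φ A B] [RingHomClass Φ A B] (φ : Φ) (hφ : Continuous φ)
    (a : A) : φ (NormedSpace.exp a) = NormedSpace.exp (φ a) :=
  NormedSpace.map_exp_of_mem_ball (𝕂 := ℂ) φ hφ a
    ((NormedSpace.expSeries_radius_eq_top ℂ A).symm ▸ edist_lt_top _ _)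

omit [NormedAlgebra ℂ A] [CompleteSpace A] [NormedAlgebra ℂ B] in
theorem hom_inverse {Φ : Type*} [FunLike Φ A B] [RingHomClass Φ A B] (φ : Φ) {a : A}
    (ha : IsUnit a) : φ (Ring.inverse a) = Ring.inverse (φ a) := by
  have h1 : φ a * φ (Ring.inverse a) = 1 := by
    rw [← map_mul, Ring.mul_inverse_cancel a ha, map_one]
  have h2 : IsUnit (φ a) := ha.map φ
  rw [← one_mul (φ (Ring.inverse a)), ← Ring.inverse_mul_cancel _ h2, mul_assoc, h1, mul_one]

theorem ev_exp (θ : ℝ) (u : WA ℤ s A) :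
    ev s A θ (NormedSpace.exp u) = NormedSpace.exp (ev s A θ u) :=
  hom_exp (evA s A θ) (continuous_evA θ) u

theorem ev_inverse (θ : ℝ) {u : WA ℤ s A} (hu : IsUnit u) :
    ev s A θ (Ring.inverse u) = Ring.inverse (ev s A θ u) :=
  hom_inverse (evA s A θ) hu

end Alg

end Vale.Agent.P218F.Wien
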