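import Vale.Agent.P218F.ConeMode
import Vale.Agent.P218F.ConeAlg
import Vale.Agent.P218F.Wien2
import Mathlib.Topology.ContinuousMap.Bounded.Star

/-!
Conical ends: the linear problem `ψ_yy + 2 ψ_y + ψ + ψ_θθ / l - (e^{2y}/2) ψ_y = f` on
`[a, ∞) × S¹` with Dirichlet data at `y = a`, solved mode by mode in Wiener spaces.
-/

namespace Vale.Agent.P218F.Cone

open Set Filter Topology Wien

noncomputable section

/-- functions of `(y, θ)` -/
abbrev W (s : ℕ) := WA ℤ s BC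
/-- functions of `θ` -/
abbrev A (s : ℕ) := WA ℤ s ℂ
/-- `(ψ, ψ_y, ψ_yy)` -/
abbrev T3 (s : ℕ) := W (s + 2) × W (s + 1) × W s

/-- constants as bounded functions -/
def cstL : ℂ →L[ℂ] BC := (ContinuousLinearMap.id ℂ ℂ).smulRight 1

@[simp] lemma cstL_apply (c : ℂ) (y : ℝ) : cstL c y = c := by simp [cstL]

lemma norm_cstL_le : ‖cstL‖ ≤ 1 :=
  ContinuousLinearMap.opNorm_le_bound _ zero_le_one fun c =>
    (BoundedContinuousFunction.norm_le (by positivity)).2 fun y => by simp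

/-- evaluation at `y` -/
def evy (y : ℝ) : BC →L[ℂ] ℂ := BoundedContinuousFunction.evalCLM ℂ y

@[simp] lemma evy_apply (y : ℝ) (f : BC) : evy y f = f y := rfl

lemma norm_evy_le (y : ℝ) : ‖evy y‖ ≤ 1 :=
  ContinuousLinearMap.opNorm_le_bound _ zero_le_one fun f => by
    simpa using f.norm_coe_le_norm y

/-- functions of `θ` as functions of `(y, θ)` -/
def up (s : ℕ) : A s →L[ℂ] W s := mapL ℤ s cstL

/-- the trace at `y` -/
def tr (s : ℕ) (y : ℝ) : W s →L[ℂ] A s := mapL ℤ s (evy y)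

@[simp] lemma cf_up {s : ℕ} (g : A s) (k : ℤ) (y : ℝ) : cf (up s g) k y = cf g k := by simp [up]
@[simp] lemma cf_tr {s : ℕ} (y : ℝ) (u : W s) (k : ℤ) : cf (tr s y u) k = cf u k y := by simp [tr]

lemma norm_up_le (s : ℕ) : ‖up s‖ ≤ 1 := (norm_mapL_le _).trans norm_cstL_le
lemma norm_tr_le (s : ℕ) (y : ℝ) : ‖tr s y‖ ≤ 1 := (norm_mapL_le _).trans (norm_evy_le y)

/-- the function of `(y, θ)` -/
def val {s : ℕ} (u : W s) (y θ : ℝ) : ℂ := ev s BC θ u y

lemma val_eq_tr {s : ℕ} (u : W s) (y θ : ℝ) : val u y θ = ev s ℂ θ (tr s y u) := by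
  simp [val, tr]

@[simp] lemma val_up {s : ℕ} (g : A s) (y θ : ℝ) : val (up s g) y θ = ev s ℂ θ g := by
  simp [val, up]

lemma norm_val_le {s : ℕ} (u : W s) (y θ : ℝ) : ‖val u y θ‖ ≤ ‖u‖ :=
  ((ev s BC θ u).norm_coe_le_norm y).trans (norm_ev_apply_le θ u)

/-- the six jets -/
def jets (s : ℕ) : T3 s →L[ℂ] J6 (W s) :=
  let p0 : T3 s →L[ℂ] W (s + 2) := .fst ℂ _ _
  let p1 : T3 s →L[ℂ] W (s + 1) := (ContinuousLinearMap.fst ℂ _ _).comp (.snd ℂ _ _)
  let p2 : T3 s →L[ℂ] W s := (ContinuousLinearMap.snd ℂ _ _).comp (.snd ℂ _ _)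
  ((incl ℤ BC (by omega)).comp p0).prod (((incl ℤ BC (by omega)).comp p1).prod
    (((incl ℤ BC (Nat.le_succ s)).comp ((dth (s + 1) BC).comp p0)).prod (p2.prod
      (((dth s BC).comp p1).prod ((dth s BC).comp ((dth (s + 1) BC).comp p0))))))

lemma jets_apply {s : ℕ} (p : T3 s) : jets s p = (incl ℤ BC (by omega) p.1,
    incl ℤ BC (by omega) p.2.1, incl ℤ BC (Nat.le_succ s) (dth (s + 1) BC p.1), p.2.2,
    dth s BC p.2.1, dth s BC (dth (s + 1) BC p.1)) := rfl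

lemma norm_jets_apply_le {s : ℕ} (p : T3 s) : ‖jets s p‖ ≤ ‖p‖ := by
  have h0 : ‖p.1‖ ≤ ‖p‖ := norm_fst_le p
  have h1 : ‖p.2.1‖ ≤ ‖p‖ := (norm_fst_le p.2).trans (norm_snd_le p)
  have h2 : ‖p.2.2‖ ≤ ‖p‖ := (norm_snd_le p.2).trans (norm_snd_le p)
  have h3 : ‖dth (s + 1) BC p.1‖ ≤ ‖p‖ := (norm_dth_apply_le _).trans h0
  rw [jets_apply]
  simp only [Prod.norm_def, max_le_iff]
  exact ⟨(norm_incl_apply_le _ _).trans h0, (norm_incl_apply_le _ _).trans h1,
    (norm_incl_apply_le _ _).trans h3, h2, (norm_dth_apply_le _).trans h1,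
    (norm_dth_apply_le _).trans h3⟩

/-- the mode parameter -/
def tk (l : ℝ) (k : ℤ) : ℝ := (k : ℝ) ^ 2 / l - 1

lemma tk_ge {l : ℝ} (hl : 0 < l) (k : ℤ) : -1 ≤ tk l k := by
  have : 0 ≤ (k : ℝ) ^ 2 / l := by positivity
  unfold tk; linarith

lemma tk_neg (l : ℝ) (k : ℤ) : tk l (-k) = tk l k := by simp [tk]

lemma sq_le_tk {l : ℝ} (hl : 0 < l) (k : ℤ) : (1 + ‖k‖) ^ 2 ≤ 2 * (1 + l) * (tk l k + 2) := by
  rw [norm_int]
  have h1 : (1 + |(k : ℝ)|) ^ 2 ≤ 2 * (1 + (k : ℝ) ^ 2) := by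
    nlinarith [sq_nonneg (1 - |(k : ℝ)|), sq_abs (k : ℝ)]
  have h2 : (k : ℝ) ^ 2 = l * ((k : ℝ) ^ 2 / l) := by field_simp
  have h3 : 0 ≤ (k : ℝ) ^ 2 / l := by positivity
  unfold tk
  nlinarith

lemma abs_tk_le {l : ℝ} (hl : 0 < l) (k : ℤ) : |tk l k| ≤ (1 + l⁻¹) * (1 + ‖k‖) ^ 2 := by
  rw [norm_int]
  have h3 : 0 ≤ (k : ℝ) ^ 2 / l := by positivity
  have h1 : (k : ℝ) ^ 2 / l = l⁻¹ * |(k : ℝ)| ^ 2 := by rw [sq_abs]; field_simp
  have h2 : 0 < l⁻¹ := by positivity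
  have h4 := abs_nonneg (k : ℝ)
  have h5 : 0 ≤ l⁻¹ * |(k : ℝ)| := by positivity
  unfold tk
  rw [abs_le]; constructor <;> nlinarith

lemma wt_two (s : ℕ) (k : ℤ) : Wien.wt (s + 2) k = (1 + ‖k‖) ^ 2 * Wien.wt s k := by
  rw [wt_succ, wt_succ]; ring

variable {a l : ℝ}

lemma bd_src (hl : 0 < l) (s : ℕ) (k : ℤ) :
    Wien.wt s k * ‖((tk l k : ℝ) : ℂ)‖ ≤ (1 + l⁻¹) * Wien.wt (s + 2) k := by
  rw [Complex.norm_real, wt_two, mul_comm, ← mul_assoc]
  exact mul_le_mul_of_nonneg_right (abs_tk_le hl k) (Wien.wt_pos s k).le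

lemma bd_0 (ha : 1 ≤ a) (hl : 0 < l) (s : ℕ) (k : ℤ) :
    Wien.wt (s + 2) k * ‖(opP a).comp (res a (tk l k))‖ ≤ 8 * (1 + l) * Wien.wt s k := by
  have ht := tk_ge hl k
  have h1 : ‖(opP a).comp (res a (tk l k))‖ ≤ 4 / (tk l k + 2) :=
    ContinuousLinearMap.opNorm_le_bound _ (by have : 0 < tk l k + 2 := by linarith
                                              positivity) fun f => by
      have := norm_P_res_le ha ht f
      rw [div_mul_eq_mul_div, le_div_iff₀ (by linarith)]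
      simpa [mul_comm] using this
  have h2 := sq_le_tk hl k
  have h3 := Wien.wt_pos s k
  rw [wt_two]
  have h4 : 0 < tk l k + 2 := by linarith
  calc _ ≤ (2 * (1 + l) * (tk l k + 2) * Wien.wt s k) * (4 / (tk l k + 2)) := by gcongr
    _ = _ := by
      have : tk l k + 2 ≠ 0 := by linarith
      field_simp; ring

lemma bd_1 (ha : 1 ≤ a) (hl : 0 < l) (s : ℕ) (k : ℤ) :
    Wien.wt (s + 1) k * ‖(opX a).comp (res a (tk l k))‖ ≤ 28 * (1 + l) * Wien.wt s k := by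
  have ht := tk_ge hl k
  have hr : 0 < Real.sqrt (tk l k + 2) := Real.sqrt_pos.2 (by linarith)
  have h1 : ‖(opX a).comp (res a (tk l k))‖ ≤ 14 / Real.sqrt (tk l k + 2) :=
    ContinuousLinearMap.opNorm_le_bound _ (by positivity) fun f => by
      have := norm_X_res_le ha ht f
      rw [div_mul_eq_mul_div, le_div_iff₀ hr]
      simpa [mul_comm] using this
  have h2 : 1 + ‖k‖ ≤ 2 * (1 + l) * Real.sqrt (tk l k + 2) := by
    refine (abs_le_of_sq_le_sq' ?_ (by positivity)).2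
    rw [mul_pow, Real.sq_sqrt (by linarith)]
    have := sq_le_tk hl k
    have h4 : 0 ≤ tk l k + 2 := by linarith
    nlinarith [mul_nonneg h4 hl.le, mul_nonneg (mul_nonneg h4 hl.le) hl.le]
  have h3 := Wien.wt_pos s k
  rw [wt_succ]
  calc _ ≤ (2 * (1 + l) * Real.sqrt (tk l k + 2) * Wien.wt s k) * (14 / Real.sqrt (tk l k + 2)) := by
        gcongr
    _ = _ := by field_simp; ring

lemma bd_gen {S T : BC →L[ℂ] BC} {C : ℝ} (hC : 0 ≤ C) (h : ∀ f, ‖S (T f)‖ ≤ C * ‖f‖) (s : ℕ)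
    (k : ℤ) : Wien.wt s k * ‖S.comp T‖ ≤ C * Wien.wt s k := by
  rw [mul_comm]
  exact mul_le_mul_of_nonneg_right (ContinuousLinearMap.opNorm_le_bound _ hC h)
    (Wien.wt_pos s k).le

/-- solution operators for zero data -/
def D0 (ha : 1 ≤ a) (hl : 0 < l) (s : ℕ) : W s →L[ℂ] W (s + 2) :=
  diag (fun k => (opP a).comp (res a (tk l k))) _ (bd_0 ha hl s)
def D1 (ha : 1 ≤ a) (hl : 0 < l) (s : ℕ) : W s →L[ℂ] W (s + 1) :=
  diag (fun k => (opX a).comp (res a (tk l k))) _ (bd_1 ha hl s)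
def D2 (ha : 1 ≤ a) (hl : 0 < l) (s : ℕ) : W s →L[ℂ] W s :=
  diag (fun k => (opZ a).comp (res a (tk l k))) 6
    (fun k => bd_gen (by norm_num) (norm_Z_res_le ha (tk_ge hl k)) s k)
def DE (ha : 1 ≤ a) (hl : 0 < l) (s : ℕ) : W s →L[ℂ] W s :=
  diag (fun k => (opE a).comp (res a (tk l k))) 4
    (fun k => bd_gen (by norm_num) (norm_E_res_le ha (tk_ge hl k)) s k)

/-- zero data solution -/
def sol0 (ha : 1 ≤ a) (hl : 0 < l) (s : ℕ) : W s →L[ℂ] T3 s :=
  (D0 ha hl s).prod ((D1 ha hl s).prod (D2 ha hl s))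

/-- modified right side -/
def src (hl : 0 < l) (s : ℕ) : A (s + 2) × W s →L[ℂ] W s :=
  .snd ℂ _ _ + ((mult ℤ BC (fun k => ((tk l k : ℝ) : ℂ)) _ (bd_src hl s)).comp
    (up (s + 2))).comp (.fst ℂ _ _)

/-- the solution with data `g` and right side `f` -/
def sol (ha : 1 ≤ a) (hl : 0 < l) (s : ℕ) : A (s + 2) × W s →L[ℂ] T3 s :=
  (ContinuousLinearMap.inl ℂ _ _).comp ((up (s + 2)).comp (.fst ℂ _ _)) +
    (sol0 ha hl s).comp (src hl s)

/-- `e^{2y} ψ_y` -/
def solE (ha : 1 ≤ a) (hl : 0 < l) (s : ℕ) : A (s + 2) × W s →L[ℂ] W s :=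
  (DE ha hl s).comp (src hl s)

variable (ha : 1 ≤ a) (hl : 0 < l) {s : ℕ}

lemma cf_src (g : A (s + 2)) (f : W s) (k : ℤ) (y : ℝ) :
    cf (src hl s (g, f)) k y = cf f k y + tk l k * cf g k := by simp [src]

/-- the auxiliary function of the mode `k` -/
def modeG (g : A (s + 2)) (f : W s) (k : ℤ) : BC := res a (tk l k) (cf (src hl s (g, f)) k)

lemma cf_sol_0 (g : A (s + 2)) (f : W s) (k : ℤ) (y : ℝ) :
    cf (sol ha hl s (g, f)).1 k y = cf g k + rP a (modeG (a := a) hl g f k) (max y a) := by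
  simp [sol, sol0, D0, modeG, opP_apply]

lemma cf_sol_1 (g : A (s + 2)) (f : W s) (k : ℤ) (y : ℝ) :
    cf (sol ha hl s (g, f)).2.1 k y = rX (modeG (a := a) hl g f k) (max y a) := by
  simp [sol, sol0, D1, modeG, opX_apply]

lemma cf_sol_2 (g : A (s + 2)) (f : W s) (k : ℤ) (y : ℝ) :
    cf (sol ha hl s (g, f)).2.2 k y = rZ (modeG (a := a) hl g f k) (max y a) := by
  simp [sol, sol0, D2, modeG, opZ_apply]

lemma cf_solE (g : A (s + 2)) (f : W s) (k : ℤ) (y : ℝ) :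
    cf (solE ha hl s (g, f)) k y = rE (modeG (a := a) hl g f k) (max y a) := by
  simp [solE, DE, modeG, opE_apply]

lemma sol_zero (f : W s) : sol ha hl s (0, f) = sol0 ha hl s f := by simp [sol, src]

lemma norm_sol0_le (f : W s) : ‖sol0 ha hl s f‖ ≤ 28 * (1 + l) * ‖f‖ := by
  have h0 : ‖D0 ha hl s f‖ ≤ 8 * (1 + l) * ‖f‖ := norm_diag_apply_le _ _ _ _
  have h1 : ‖D1 ha hl s f‖ ≤ 28 * (1 + l) * ‖f‖ := norm_diag_apply_le _ _ _ _
  have h2 : ‖D2 ha hl s f‖ ≤ 6 * ‖f‖ := norm_diag_apply_le _ _ _ _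
  have h3 : 0 ≤ l * ‖f‖ := by positivity
  simp only [sol0, ContinuousLinearMap.prod_apply, Prod.norm_def, max_le_iff]
  refine ⟨?_, h1, ?_⟩ <;> nlinarith [norm_nonneg f]

lemma norm_src_le (g : A (s + 2)) (f : W s) : ‖src hl s (g, f)‖ ≤ ‖f‖ + (1 + l⁻¹) * ‖g‖ := by
  have e : src hl s (g, f) =
      f + mult ℤ BC (fun k => ((tk l k : ℝ) : ℂ)) _ (bd_src hl s) (up (s + 2) g) := rfl
  rw [e]
  refine (norm_add_le _ _).trans (add_le_add le_rfl ?_)
  refine (norm_mult_apply_le _ _ _ _).trans ?_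
  have := ((up (s + 2)).le_opNorm g).trans (mul_le_of_le_one_left (norm_nonneg _) (norm_up_le _))
  gcongr

lemma norm_sol_le (g : A (s + 2)) (f : W s) :
    ‖sol ha hl s (g, f)‖ ≤ ‖g‖ + 28 * (1 + l) * (‖f‖ + (1 + l⁻¹) * ‖g‖) := by
  refine (norm_add_le _ _).trans (add_le_add ?_ ?_)
  · have := ((up (s + 2)).le_opNorm g).trans (mul_le_of_le_one_left (norm_nonneg _) (norm_up_le _))
    simpa [Prod.norm_def] using this
  · exact (norm_sol0_le ha hl _).trans (by gcongr; exact norm_src_le hl g f)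

lemma norm_solE_le (g : A (s + 2)) (f : W s) :
    ‖solE ha hl s (g, f)‖ ≤ 4 * (‖f‖ + (1 + l⁻¹) * ‖g‖) := by
  have h : ‖DE ha hl s (src hl s (g, f))‖ ≤ 4 * ‖src hl s (g, f)‖ := norm_diag_apply_le _ _ _ _
  exact h.trans (by gcongr; exact norm_src_le hl g f)

/-- the function itself is small for zero data -/
lemma norm_sol0_small (f : W s) :
    ‖(jets s (sol0 ha hl s f)).1‖ ≤ 2 * Real.exp (-(2 * a)) * ‖f‖ := by
  refine norm_le_of_cf fun k => ?_
  have := norm_P_res_small ha (tk_ge hl k) (cf f k)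
  have e : cf (jets s (sol0 ha hl s f)).1 k = opP a (res a (tk l k) (cf f k)) := by
    simp [jets_apply, sol0, D0]
  rw [e]
  have h3 := Wien.wt_pos s k
  calc _ ≤ Wien.wt s k * (2 * Real.exp (-(2 * a)) * ‖cf f k‖) := by gcongr
    _ = _ := by ring

/-- constant for `y ≤ a` -/
def Clamp (a : ℝ) {s : ℕ} (u : W s) : Prop := ∀ k y, cf u k y = cf u k (max y a)

/-- `(ψ, ψ_y, ψ_yy)` mode by mode on `[a, ∞)` -/
structure IsTri (a : ℝ) {s : ℕ} (p : T3 s) : Prop where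
  c0 : Clamp a p.1
  c1 : Clamp a p.2.1
  c2 : Clamp a p.2.2
  d0 : ∀ k y, a ≤ y → HasDerivWithinAt (fun z => cf p.1 k z) (cf p.2.1 k y) (Ici a) y
  d1 : ∀ k y, a ≤ y → HasDerivWithinAt (fun z => cf p.2.1 k z) (cf p.2.2 k y) (Ici a) y

/-- the linear equation mode by mode -/
def LinEq (a l : ℝ) {s : ℕ} (p : T3 s) (f : W s) : Prop := ∀ k y, a ≤ y →
  cf p.2.2 k y + 2 * cf p.2.1 k y - tk l k * cf p.1 k y -
    (Real.exp (2 * y) : ℝ) / 2 * cf p.2.1 k y = cf f k y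

lemma isTri_sol (g : A (s + 2)) (f : W s) : IsTri a (sol ha hl s (g, f)) where
  c0 k y := by simp [cf_sol_0]
  c1 k y := by simp [cf_sol_1]
  c2 k y := by simp [cf_sol_2]
  d0 k y hy := by
    rw [cf_sol_1, max_eq_left hy]
    refine (((hasDerivAt_rP a _ y).const_add (cf g k)).hasDerivWithinAt).congr ?_ ?_
    · intro z hz; rw [cf_sol_0, max_eq_left hz]
    · rw [cf_sol_0, max_eq_left hy]
  d1 k y hy := by
    rw [cf_sol_2, max_eq_left hy]
    refine ((hasDerivAt_rX _ y).hasDerivWithinAt).congr ?_ ?_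
    · intro z hz; rw [cf_sol_1, max_eq_left hz]
    · rw [cf_sol_1, max_eq_left hy]

lemma linEq_sol (g : A (s + 2)) (f : W s) : LinEq a l (sol ha hl s (g, f)) f := by
  intro k y hy
  have h := congrArg (fun u : BC => u y) (res_eq ha (tk_ge hl k) (cf (src hl s (g, f)) k))
  simp only [BoundedContinuousFunction.coe_add, Pi.add_apply, BoundedContinuousFunction.coe_smul,
    smul_eq_mul, opP_apply, cf_src, max_eq_left hy] at h
  rw [cf_sol_0, cf_sol_1, cf_sol_2, max_eq_left hy, rZ, ← exp_mul_rX]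
  simp only [modeG]
  linear_combination h

lemma tr_sol (g : A (s + 2)) (f : W s) : tr (s + 2) a (sol ha hl s (g, f)).1 = g := by
  ext k
  simp [cf_sol_0]

lemma solE_eq (g : A (s + 2)) (f : W s) (k : ℤ) {y : ℝ} (hy : a ≤ y) :
    cf (solE ha hl s (g, f)) k y = (Real.exp (2 * y) : ℝ) * cf (sol ha hl s (g, f)).2.1 k y := by
  rw [cf_solE, cf_sol_1, max_eq_left hy, exp_mul_rX]

/-- bounded solutions of the first order equation are unique -/
lemma rX_unique {x : ℝ → ℂ} {G : BC} {M : ℝ} (hb : ∀ y, a ≤ y → ‖x y‖ ≤ M)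
    (hd : ∀ y, a ≤ y → HasDerivWithinAt x
      (((Real.exp (2 * y) : ℝ) / 2 - 2) * x y + G y) (Ici a) y) {y : ℝ} (hy : a ≤ y) :
    x y = rX G y := by
  set φ : ℝ → ℝ := fun y => Real.exp (2 * y - Real.exp (2 * y) / 4) with hφ
  have hφd : ∀ y, HasDerivAt φ (φ y * (2 - Real.exp (2 * y) / 2)) y := fun y => by
    have h1 : HasDerivAt (fun y : ℝ => 2 * y) 2 y := by simpa using (hasDerivAt_id y).const_mul 2
    refine ((h1.fun_sub ((hasDerivAt_exp2 y).div_const 4)).exp).congr_deriv ?_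
    simp only [hφ]; ring
  set d : ℝ → ℂ := fun y => (φ y : ℂ) * (x y - rX G y) with hdd
  have hd0 : ∀ y, a ≤ y → HasDerivWithinAt d 0 (Ici a) y := fun y hy => by
    have := (hφd y).ofReal_comp.hasDerivWithinAt.fun_mul
      ((hd y hy).fun_sub (hasDerivAt_rX G y).hasDerivWithinAt)
    refine this.congr_deriv ?_
    rw [rZ, ← exp_mul_rX]
    push_cast; ring
  have hconst : ∀ z, y ≤ z → d z = d y := fun z hz => by
    refine constant_of_has_deriv_right_zero (f := d) (a := y) (b := z) ?_ ?_ z ⟨hz, le_rfl⟩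
    · intro w hw
      exact ((hd0 w (hy.trans hw.1)).continuousWithinAt).mono fun v hv => hy.trans hv.1
    · intro w hw
      exact (hd0 w (hy.trans hw.1)).mono (Ici_subset_Ici.2 (hy.trans hw.1))
  have hlim : Tendsto d atTop (𝓝 0) := by
    have h1 : Tendsto wt atTop (𝓝 0) := by
      have h2 : Tendsto (fun s : ℝ => Real.exp (2 * s) / 4) atTop atTop :=
        (Real.tendsto_exp_atTop.comp (tendsto_id.const_mul_atTop (by norm_num))).atTop_div_const
          (by norm_num)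
      have h3 := ((Real.tendsto_pow_mul_exp_neg_atTop_nhds_zero 1).comp h2).const_mul 4
      rw [mul_zero] at h3
      refine h3.congr fun s => ?_
      simp only [wt, Function.comp]; ring
    refine squeeze_zero_norm' (a := fun z => wt z * (M + 2 * Real.exp (-(2 * a)) * ‖G‖)) ?_
      (by simpa using h1.mul_const _)
    filter_upwards [eventually_ge_atTop a] with z hz
    have e : φ z = wt z := by simp only [hφ, wt]; rw [← Real.exp_add]; ring_nf
    simp only [hdd]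
    rw [norm_mul, Complex.norm_real, e, Real.norm_of_nonneg (wt_pos z).le]
    refine mul_le_mul_of_nonneg_left ((norm_sub_le _ _).trans (add_le_add (hb z hz) ?_))
      (wt_pos z).le
    exact (norm_rX_le G z).trans (by gcongr)
  have h0 : d y = 0 := tendsto_nhds_unique (tendsto_const_nhds.congr'
    ((eventually_ge_atTop y).mono fun z hz => (hconst z hz).symm)) hlim
  have hφ0 : (φ y : ℂ) ≠ 0 := by simp [hφ]
  exact sub_eq_zero.1 ((mul_eq_zero.1 h0).resolve_left hφ0)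

/-- uniqueness for the linear problem -/
lemma sol_unique {p : T3 s} {f : W s} (hp : IsTri a p) (hf : LinEq a l p f) :
    p = sol ha hl s (tr (s + 2) a p.1, f) := by
  set g := tr (s + 2) a p.1 with hg
  have key : ∀ k y, a ≤ y → cf p.1 k y = cf g k + rP a (modeG (a := a) hl g f k) y ∧
      cf p.2.1 k y = rX (modeG (a := a) hl g f k) y ∧
      cf p.2.2 k y = rZ (modeG (a := a) hl g f k) y := by
    intro k
    set G : BC := cf f k + ((tk l k : ℝ) : ℂ) • cf p.1 k with hG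
    have hGy : ∀ y, G y = cf f k y + tk l k * cf p.1 k y := fun y => by simp [hG]
    have e2 : ∀ y, a ≤ y → cf p.2.2 k y =
        ((Real.exp (2 * y) : ℝ) / 2 - 2) * cf p.2.1 k y + G y := fun y hy => by
      rw [hGy]; linear_combination hf k y hy
    have h1 : ∀ y, a ≤ y → cf p.2.1 k y = rX G y := fun y hy =>
      rX_unique (fun z _ => (cf p.2.1 k).norm_coe_le_norm z)
        (fun z hz => e2 z hz ▸ hp.d1 k z hz) hy
    have h0 : ∀ y, a ≤ y → cf p.1 k y = cf g k + rP a G y := fun y hy => by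
      have := eq_of_has_deriv_right_eq (f := fun z => cf p.1 k z) (g := fun z => cf g k + rP a G z)
        (f' := fun z => rX G z) (a := a) (b := y)
        (fun z hz => h1 z hz.1 ▸ (hp.d0 k z hz.1).mono (Ici_subset_Ici.2 hz.1))
        (fun z _ => ((hasDerivAt_rP a G z).const_add _).hasDerivWithinAt)
        (cf p.1 k).continuous.continuousOn (continuous_const.add (continuous_rP a G)).continuousOn
        (by simp [hg])
      exact this y ⟨hy, le_rfl⟩
    have hGm : G = modeG (a := a) hl g f k := by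
      refine res_unique ha (tk_ge hl k) ?_
      ext y
      simp only [BoundedContinuousFunction.coe_add, Pi.add_apply,
        BoundedContinuousFunction.coe_smul, smul_eq_mul, opP_apply, cf_src]
      rw [hGy, hp.c0 k y, h0 _ (le_max_right _ _)]
      ring
    intro y hy
    rw [← hGm]
    refine ⟨h0 y hy, h1 y hy, ?_⟩
    rw [e2 y hy, h1 y hy, rZ, ← exp_mul_rX]; ring
  refine Prod.ext ?_ (Prod.ext ?_ ?_) <;> ext k y
  · rw [cf_sol_0, hp.c0 k y, (key k _ (le_max_right _ _)).1]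
  · rw [cf_sol_1, hp.c1 k y, (key k _ (le_max_right _ _)).2.1]
  · rw [cf_sol_2, hp.c2 k y, (key k _ (le_max_right _ _)).2.2]

end

end Vale.Agent.P218F.Cone
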