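import Vale.Agent.P218F.ConeGeom

/-! Conical ends: existence of the end solver. -/

namespace Vale.Agent.P218F.Cone

open Set Filter Topology Wien Core Metric
open scoped ContDiff Real

noncomputable section

variable {a l : ℝ} {s : ℕ} {c : ConeData}

/-- the operator in terms of the triple -/
lemma exp_mul_shr (h : c.Frame) {κ κ' : A s} (hκ : ∀ θ, ev s ℂ θ κ = c.κ θ)
    (hκ' : ∀ θ, ev s ℂ θ κ' = (deriv c.κ θ : ℝ)) {p : T3 s} (ht : IsTri a p) (hu : Unt c.l κ p)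
    {z : P2} (hz : a < z.1) : (Real.exp z.1 : ℝ) * Shr (c.Y (fn p)) c.V z =
      Mc c.l (ev s ℂ z.2 κ) (ev s ℂ z.2 κ') (val p.1 z.1 z.2) (val p.2.1 z.1 z.2) (vT p z.1 z.2)
        (val p.2.2 z.1 z.2) (vYT p z.1 z.2) (vTT p z.1 z.2) -
      (Real.exp (2 * z.1) : ℝ) / 2 * val p.2.1 z.1 z.2 := by
  have h1 := (geom_proof c h (fn p) z (ht.contDiffAt hz)).2.2.2
  have h2 := hu.ne1 z.1 z.2
  have h3 := hu.ne2 z.1 z.2
  rw [hκ] at h2 h3
  simp only [ht.jet2_eq hz, fn1_y, fn1_t, fn2_yy, fn2_yt, fn2_tt] at h1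
  rw [hκ, hκ']
  exact h1 h2 h3

lemma IsSol.shr (h : c.Frame) {κ κ' : A s} (hκ : ∀ θ, ev s ℂ θ κ = c.κ θ)
    (hκ' : ∀ θ, ev s ℂ θ κ' = (deriv c.κ θ : ℝ)) {p : T3 s} (hp : IsSol a c.l κ κ' p)
    {z : P2} (hz : a < z.1) : Shr (c.Y (fn p)) c.V z = 0 := by
  have h1 := exp_mul_shr h hκ hκ' hp.tri hp.unt hz
  rw [hp.ptEq h.l_pos z.1 z.2 hz.le, sub_self] at h1
  exact (mul_eq_zero.1 h1).resolve_left (by simp)

lemma continuous_val_y (u : W s) (θ : ℝ) : Continuous fun y => val u y θ :=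
  (ev s BC θ u).continuous

lemma isSol_of_shr (h : c.Frame) {κ κ' : A s} (hκ : ∀ θ, ev s ℂ θ κ = c.κ θ)
    (hκ' : ∀ θ, ev s ℂ θ κ' = (deriv c.κ θ : ℝ)) {p : T3 s} (ht : IsTri a p) (hu : Unt c.l κ p)
    (hs : ∀ z : P2, a < z.1 → Shr (c.Y (fn p)) c.V z = 0) : IsSol a c.l κ κ' p := by
  refine ⟨ht, hu, (linEq_iff h.l_pos _ _).2 fun y θ hy => ?_⟩
  have c1 := continuous_val_y p.1 θ
  have c2 := continuous_val_y p.2.1 θ
  have c3 := continuous_val_y p.2.2 θ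
  have c4 : Continuous fun y => vTT p y θ := continuous_val_y _ θ
  have c5 : Continuous fun y : ℝ => ((Real.exp (2 * y) : ℝ) : ℂ) := by fun_prop
  have hcl : IsClosed {y | val p.2.2 y θ + 2 * val p.2.1 y θ + val p.1 y θ +
      (c.l : ℂ)⁻¹ * vTT p y θ - (Real.exp (2 * y) : ℝ) / 2 * val p.2.1 y θ =
      val (-RemW c.l κ κ' p) y θ} := isClosed_eq (by fun_prop) (continuous_val_y _ θ)
  refine (hcl.closure_subset_iff.2 fun y (hy : a < y) => ?_) (closure_Ioi a ▸ hy)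
  have h1 := exp_mul_shr h hκ hκ' ht hu (z := (y, θ)) hy
  rw [hs _ hy, mul_zero] at h1
  have h2 : val (-RemW c.l κ κ' p) y θ = -val (RemW c.l κ κ' p) y θ := map_neg (evR s y θ) _
  rw [mem_ofPred_eq, h2, val_RemW h.l_pos κ' hu]
  linear_combination -h1

lemma val_solE (ha : 1 ≤ a) (hl : 0 < l) (g : A (s + 2)) (f : W s) {y : ℝ} (hy : a ≤ y) (θ : ℝ) :
    val (solE ha hl s (g, f)) y θ =
      (Real.exp (2 * y) : ℝ) * val (sol ha hl s (g, f)).2.1 y θ := by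
  have h1 : val (((Real.exp (2 * y) : ℝ) : ℂ) • incl ℤ BC (Nat.le_succ s) (sol ha hl s (g, f)).2.1)
      y θ = (Real.exp (2 * y) : ℝ) * val (sol ha hl s (g, f)).2.1 y θ := by simp [val]
  rw [← h1, val_eq_tr, val_eq_tr]
  refine ev_congr (fun k => ?_) θ
  rw [cf_tr, cf_tr, solE_eq ha hl g f k hy]
  simp

lemma fn_sol (ha : 1 ≤ a) (hl : 0 < l) (g : A (s + 2)) (f : W s) (θ : ℝ) :
    fn (sol ha hl s (g, f)) (a, θ) = ev (s + 2) ℂ θ g := by
  rw [fn, val_eq_tr, tr_sol]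

lemma ConeData.OK.dec (h : c.OK) : Dec c.y0 c.ψ := ⟨h.smooth_ψ, h.per_ψ, h.decay⟩

theorem cone_proof : ConeStmt := by
  intro s c h ε hε
  have hF := h.toFrame
  have hl := hF.l_pos
  obtain ⟨κ, hκ, sκ⟩ := exists_A hF.smooth_κ hF.per_κ s
  obtain ⟨κ', hκ', sκ'⟩ := exists_A (contDiff_infty_iff_deriv.1 hF.smooth_κ).2
    (periodic_deriv hF.hd_κ hF.per_κ) s
  obtain ⟨η, hη, a1, ha1, hU, hS⟩ := exists_solver hl κ κ'
  have hc0 := ((hU 0 (by simpa using hη.le)).contDiffAt κ').continuousAt.norm.tendsto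
  obtain ⟨η', hη', hR⟩ := Metric.eventually_nhds_iff.1
    (hc0.eventually (gt_mem_nhds (lt_add_one ‖RemW c.l κ κ' 0‖)))
  set δ := min ε (min η η') with hδ
  have hδ0 : 0 < δ := by positivity
  have hδ1 : δ ≤ ε := min_le_left _ _
  have hδ2 : δ ≤ η := (min_le_right _ _).trans (min_le_left _ _)
  have hδ3 : δ ≤ η' := (min_le_right _ _).trans (min_le_right _ _)
  obtain ⟨a2, hT⟩ := h.dec.exists_tri s (half_pos hδ0)
  refine ⟨max (max a1 a2) (c.y0 + 1), 4 * (‖RemW c.l κ κ' 0‖ + 1 + (1 + c.l⁻¹) * ε), fun a ha => ?_⟩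
  simp only [ge_iff_le, max_le_iff] at ha
  have ha' : 1 ≤ a := ha1.trans ha.1.1
  have hy0 : c.y0 < a := by linarith [ha.2]
  obtain ⟨p0, t0, n0, r0, b0⟩ := hT a ha.1.2
  have u0 : Unt c.l κ p0 := hU p0 (by linarith)
  have s0 : IsSol a c.l κ κ' p0 := isSol_of_shr hF hκ hκ' t0 u0 fun z hz => by
    rw [← h.shr z (hy0.trans hz)]
    refine Shr_congr ?_ rfl
    filter_upwards [(isOpen_lt continuous_const continuous_fst).mem_nhds hz] with w hw
    simp only [ConeData.Y, b0 w hw.le]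
  obtain ⟨φ, hφ, e0, hsol, huniq⟩ := hS a ha.1.1 ha' p0 s0 (by linarith)
  set g0 := tr (s + 2) a p0.1 with hg0
  set e : A (s + 2) → T3 s := fun g => sol ha' hl s (g, φ g) with he
  set φ' : A (s + 2) → W s := fun g => -RemW c.l κ κ' (e g) with hφ'
  have hea : AnalyticAt ℂ e g0 :=
    AnalyticAt.comp (g := sol ha' hl s) ((sol ha' hl s).analyticAt _) (analyticAt_id.prod hφ)
  have e0' : e g0 = p0 := e0
  have htr : ∀ g, tr (s + 2) a (e g).1 = g := fun g => tr_sol ha' hl _ _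
  have hreal := real_of_unique hl sκ sκ' r0 hea.continuousAt e0'
    (hsol.mono fun g hg => ⟨hg, htr g⟩) huniq
  have hsmall : ∀ᶠ g in 𝓝 g0, ‖e g‖ < δ :=
    hea.continuousAt.norm.tendsto.eventually (gt_mem_nhds (by rw [e0']; linarith))
  obtain ⟨r, hr, hb⟩ := Metric.eventually_nhds_iff_ball.1
    (hea.eventually_analyticAt.and (hsol.and (hreal.and hsmall)))
  have hφa : ∀ g ∈ ball g0 r, AnalyticAt ℂ (fun g => (g, φ' g)) g := fun g hg =>
    analyticAt_id.prod (AnalyticAt.comp (g := RemW c.l κ κ') (f := e)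
      ((hb g hg).2.1.unt.contDiffAt κ').analyticAt (hb g hg).1).neg
  have hee : ∀ g ∈ ball g0 r, e g = sol ha' hl s (g, φ' g) := fun g hg => by
    have := sol_unique ha' hl (hb g hg).2.1.tri (hb g hg).2.1.eqn
    rwa [tr_sol] at this
  have hpd : ∀ g ∈ ball g0 r, ∀ v, fderiv ℂ (fun g => (g, φ' g)) g v =
      (v, (fderiv ℂ (fun g => (g, φ' g)) g v).2) := fun g hg v => by
    refine Prod.ext ?_ rfl
    have h1 := (hφa g hg).differentiableAt.hasFDerivAt.fst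
    have h2 := h1.unique (hasFDerivAt_id g)
    exact DFunLike.congr_fun h2 v
  have hde : ∀ g ∈ ball g0 r, ∀ v, fderiv ℂ e g v =
      sol ha' hl s (v, (fderiv ℂ (fun g => (g, φ' g)) g v).2) := fun g hg v => by
    have h1 : e =ᶠ[𝓝 g] fun g => sol ha' hl s (g, φ' g) :=
      eventually_of_mem (isOpen_ball.mem_nhds hg) hee
    have h2 := ((sol ha' hl s).hasFDerivAt.comp g (hφa g hg).differentiableAt.hasFDerivAt).fderiv
    rw [h1.fderiv_eq, ← hpd g hg]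
    exact DFunLike.congr_fun h2 v
  have hdE : ∀ g ∈ ball g0 r, ∀ v, fderiv ℂ (fun g => solE ha' hl s (g, φ' g)) g v =
      solE ha' hl s (v, (fderiv ℂ (fun g => (g, φ' g)) g v).2) := fun g hg v => by
    have h2 := ((solE ha' hl s).hasFDerivAt.comp g (hφa g hg).differentiableAt.hasFDerivAt).fderiv
    rw [← hpd g hg]
    exact DFunLike.congr_fun h2 v
  refine ⟨r, g0, e, fun g => solE ha' hl s (g, φ' g), hr, hy0, fun θ => ?_, ?_,
    fun g hg => (hb g hg).1, fun g hg => ?_, fun z hz => ?_, fun g hg => ?_, fun g hg => ?_,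
    fun g hg => (hb g hg).2.1.tri, fun g _ θ => fn_sol ha' hl _ _ θ,
    fun g hg z hz => (hb g hg).2.1.shr hF hκ hκ' hz, fun g hg y θ hy => ?_,
    fun g hg => (hb g hg).2.2.1, fun g hg v => ?_, fun g hg v θ => ?_, fun g hg v y θ hy => ?_⟩
  · rw [hg0, ← val_eq_tr]; exact b0 (a, θ) le_rfl
  · rw [hg0, star_tr]; congr 1; exact congrArg Prod.fst r0
  · exact AnalyticAt.comp (g := solE ha' hl s) ((solE ha' hl s).analyticAt _) (hφa g hg)
  · rw [e0', b0 z hz]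
  · linarith [(hb g hg).2.2.2]
  · have h1 := (hb g hg).2.2.2
    have h2 : ‖φ' g‖ ≤ ‖RemW c.l κ κ' 0‖ + 1 := by
      rw [hφ', norm_neg]
      exact (hR (by rw [dist_zero_right]; linarith)).le
    have h3 : ‖g‖ ≤ ε := by
      conv_lhs => rw [← htr g]
      have := ((tr (s + 2) a).le_opNorm (e g).1).trans
        (mul_le_of_le_one_left (norm_nonneg _) (norm_tr_le _ _))
      linarith [norm_fst_le (e g)]
    exact (norm_solE_le ha' hl _ _).trans (by gcongr)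
  · rw [val_solE ha' hl _ _ hy, ← hee g hg]
  · rw [hde g hg]; exact isTri_sol ha' hl _ _
  · rw [hde g hg]; exact fn_sol ha' hl _ _ θ
  · rw [hde g hg, hdE g hg, val_solE ha' hl _ _ hy]

end

end Vale.Agent.P218F.Cone
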