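import Mathlib.Analysis.Calculus.DerivativeTest
import Mathlib.Analysis.Calculus.MeanValue
import Mathlib.Analysis.Calculus.LocalExtr.Basic
import Mathlib.Analysis.SpecialFunctions.ExpDeriv
import Mathlib.Analysis.Complex.RealDeriv
import Mathlib.Analysis.Normed.Ring.Units
import Mathlib.Analysis.Normed.Operator.Banach
import Mathlib.MeasureTheory.Integral.IntegralEqImproper
import Mathlib.MeasureTheory.Integral.IntervalIntegral.FundThmCalculus
import Mathlib.Topology.ContinuousMap.Bounded.Normed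

/-!
Conical ends, scalar mode equation.  With `y = log ρ` the mode equation on a conical end is
`ψ'' + 2 ψ' - (e^{2y}/2) ψ' - t ψ = f` (`t = μ - 1 ≥ -1`).  We solve it on `[a, ∞)` among bounded
functions, with zero data at `a`, and bounds uniform in `t`.
-/

namespace Vale.Agent.P218F.Cone

open Set MeasureTheory Filter Topology BoundedContinuousFunction

noncomputable section

abbrev BC := ℝ →ᵇ ℂ

/-- the weight `e^{2s} exp(-e^{2s}/4)` -/
def wt (s : ℝ) : ℝ := Real.exp (2 * s) * Real.exp (-(Real.exp (2 * s) / 4))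

lemma wt_pos (s : ℝ) : 0 < wt s := by unfold wt; positivity

lemma continuous_wt : Continuous wt := by unfold wt; fun_prop

lemma hasDerivAt_exp2 (y : ℝ) : HasDerivAt (fun s => Real.exp (2 * s)) (Real.exp (2 * y) * 2) y := by
  simpa using ((hasDerivAt_id y).const_mul 2).exp

lemma hasDerivAt_prim (y : ℝ) :
    HasDerivAt (fun s => -2 * Real.exp (-(Real.exp (2 * s) / 4))) (wt y) y := by
  have h := (((hasDerivAt_exp2 y).div_const 4).neg.exp).const_mul (-2)
  refine h.congr_deriv ?_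
  simp only [wt, Pi.neg_apply]; ring

lemma tendsto_prim : Tendsto (fun s => -2 * Real.exp (-(Real.exp (2 * s) / 4))) atTop (𝓝 0) := by
  have h1 : Tendsto (fun s : ℝ => Real.exp (2 * s) / 4) atTop atTop :=
    (Real.tendsto_exp_atTop.comp (tendsto_id.const_mul_atTop (by norm_num))).atTop_div_const
      (by norm_num)
  have h2 := (Real.tendsto_exp_neg_atTop_nhds_zero.comp h1).const_mul (-2)
  simpa using h2

lemma integrableOn_wt (y : ℝ) : IntegrableOn wt (Ioi y) :=
  integrableOn_Ioi_deriv_of_nonneg' (fun s _ => hasDerivAt_prim s) (fun s _ => (wt_pos s).le)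
    tendsto_prim

lemma integral_wt (y : ℝ) : ∫ s in Ioi y, wt s = 2 * Real.exp (-(Real.exp (2 * y) / 4)) := by
  rw [integral_Ioi_of_hasDerivAt_of_nonneg' (fun s _ => hasDerivAt_prim s)
    (fun s _ => (wt_pos s).le) tendsto_prim]
  ring

lemma integrableOn_wtG (G : BC) (y : ℝ) : IntegrableOn (fun s => (wt s : ℂ) * G s) (Ioi y) := by
  refine Integrable.mono' ((integrableOn_wt y).mul_const ‖G‖) ?_ ?_
  · exact ((Complex.continuous_ofReal.comp continuous_wt).mul G.continuous).aestronglyMeasurable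
  · refine Eventually.of_forall fun s => ?_
    rw [norm_mul, Complex.norm_real, Real.norm_of_nonneg (wt_pos s).le]
    exact mul_le_mul_of_nonneg_left (G.norm_coe_le_norm s) (wt_pos s).le

/-- tail integral -/
def tl (G : BC) (y : ℝ) : ℂ := ∫ s in Ioi y, (wt s : ℂ) * G s

lemma norm_tl_le (G : BC) (y : ℝ) : ‖tl G y‖ ≤ 2 * Real.exp (-(Real.exp (2 * y) / 4)) * ‖G‖ := by
  rw [← integral_wt, ← integral_mul_const]
  refine norm_integral_le_of_norm_le ((integrableOn_wt y).mul_const ‖G‖) ?_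
  refine Eventually.of_forall fun s => ?_
  rw [norm_mul, Complex.norm_real, Real.norm_of_nonneg (wt_pos s).le]
  exact mul_le_mul_of_nonneg_left (G.norm_coe_le_norm s) (wt_pos s).le

lemma hasDerivAt_tl (G : BC) (y : ℝ) : HasDerivAt (tl G) (-((wt y : ℂ) * G y)) y := by
  have hc : Continuous fun s => (wt s : ℂ) * G s :=
    (Complex.continuous_ofReal.comp continuous_wt).mul G.continuous
  have h1 : tl G = fun z => tl G 0 - ∫ s in (0:ℝ)..z, (wt s : ℂ) * G s := by
    funext z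
    rw [← intervalIntegral.integral_Ioi_sub_Ioi' (integrableOn_wtG G 0) (integrableOn_wtG G z)]
    simp [tl]
  rw [h1]
  exact ((hc.integral_hasStrictDerivAt 0 y).hasDerivAt).const_sub _

lemma tl_add (G H : BC) (y : ℝ) : tl (G + H) y = tl G y + tl H y := by
  simp only [tl, BoundedContinuousFunction.coe_add, Pi.add_apply, mul_add]
  exact integral_add (integrableOn_wtG G y) (integrableOn_wtG H y)

lemma tl_smul (c : ℂ) (G : BC) (y : ℝ) : tl (c • G) y = c * tl G y := by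
  simp only [tl, BoundedContinuousFunction.coe_smul, smul_eq_mul]
  rw [← integral_const_mul]
  congr 1; funext s; ring

/-- `E = e^{2y} ψ'` -/
def rE (G : BC) (y : ℝ) : ℂ := -((Real.exp (Real.exp (2 * y) / 4) : ℝ) : ℂ) * tl G y

/-- `χ = ψ'` -/
def rX (G : BC) (y : ℝ) : ℂ := ((Real.exp (-(2 * y)) : ℝ) : ℂ) * rE G y

/-- `χ'` -/
def rZ (G : BC) (y : ℝ) : ℂ := rE G y / 2 - 2 * rX G y + G y

/-- `ψ` -/
def rP (a : ℝ) (G : BC) (y : ℝ) : ℂ := ∫ s in a..y, rX G s

lemma norm_rE_le (G : BC) (y : ℝ) : ‖rE G y‖ ≤ 2 * ‖G‖ := by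
  rw [rE, norm_mul, norm_neg, Complex.norm_real, Real.norm_of_nonneg (Real.exp_pos _).le]
  calc _ ≤ Real.exp (Real.exp (2 * y) / 4) * (2 * Real.exp (-(Real.exp (2 * y) / 4)) * ‖G‖) :=
        mul_le_mul_of_nonneg_left (norm_tl_le G y) (Real.exp_pos _).le
    _ = 2 * (Real.exp (Real.exp (2 * y) / 4) * Real.exp (-(Real.exp (2 * y) / 4))) * ‖G‖ := by ring
    _ = 2 * ‖G‖ := by rw [← Real.exp_add]; simp

lemma norm_rX_le (G : BC) (y : ℝ) : ‖rX G y‖ ≤ 2 * Real.exp (-(2 * y)) * ‖G‖ := by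
  rw [rX, norm_mul, Complex.norm_real, Real.norm_of_nonneg (Real.exp_pos _).le]
  calc _ ≤ Real.exp (-(2 * y)) * (2 * ‖G‖) :=
        mul_le_mul_of_nonneg_left (norm_rE_le G y) (Real.exp_pos _).le
    _ = _ := by ring

lemma exp_mul_rX (G : BC) (y : ℝ) : ((Real.exp (2 * y) : ℝ) : ℂ) * rX G y = rE G y := by
  rw [rX, ← mul_assoc, ← Complex.ofReal_mul, ← Real.exp_add]; simp

lemma hasDerivAt_rE (G : BC) (y : ℝ) :
    HasDerivAt (rE G) (((Real.exp (2 * y) : ℝ) : ℂ) * (rE G y / 2 + G y)) y := by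
  have h1 := (((hasDerivAt_exp2 y).div_const 4).exp.ofReal_comp.neg).mul (hasDerivAt_tl G y)
  refine h1.congr_deriv ?_
  have h2 : ((Real.exp (Real.exp (2 * y) / 4) : ℝ) : ℂ) *
      ((Real.exp (-(Real.exp (2 * y) / 4)) : ℝ) : ℂ) = 1 := by
    rw [← Complex.ofReal_mul, ← Real.exp_add]; simp
  simp only [rE, wt, Pi.neg_apply, Complex.ofReal_mul, Complex.ofReal_div, Complex.ofReal_ofNat]
  linear_combination (((Real.exp (2 * y) : ℝ) : ℂ) * G y) * h2

lemma hasDerivAt_rX (G : BC) (y : ℝ) : HasDerivAt (rX G) (rZ G y) y := by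
  have h0 : HasDerivAt (fun s : ℝ => Real.exp (-(2 * s))) (Real.exp (-(2 * y)) * (-2)) y := by
    simpa using ((hasDerivAt_id y).const_mul 2).neg.exp
  have h1 := h0.ofReal_comp.mul (hasDerivAt_rE G y)
  refine h1.congr_deriv ?_
  have h2 : ((Real.exp (-(2 * y)) : ℝ) : ℂ) * ((Real.exp (2 * y) : ℝ) : ℂ) = 1 := by
    rw [← Complex.ofReal_mul, ← Real.exp_add]; simp
  simp only [rZ, rX, Complex.ofReal_mul, Complex.ofReal_neg, Complex.ofReal_ofNat]
  linear_combination (rE G y / 2 + G y) * h2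

lemma continuous_rE (G : BC) : Continuous (rE G) :=
  continuous_iff_continuousAt.2 fun y => (hasDerivAt_rE G y).continuousAt

lemma continuous_rX (G : BC) : Continuous (rX G) :=
  continuous_iff_continuousAt.2 fun y => (hasDerivAt_rX G y).continuousAt

lemma continuous_rZ (G : BC) : Continuous (rZ G) :=
  (((continuous_rE G).div_const 2).sub (continuous_const.mul (continuous_rX G))).add G.continuous

lemma hasDerivAt_rP (a : ℝ) (G : BC) (y : ℝ) : HasDerivAt (rP a G) (rX G y) y :=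
  ((continuous_rX G).integral_hasStrictDerivAt a y).hasDerivAt

lemma continuous_rP (a : ℝ) (G : BC) : Continuous (rP a G) :=
  continuous_iff_continuousAt.2 fun y => (hasDerivAt_rP a G y).continuousAt

@[simp] lemma rP_self (a : ℝ) (G : BC) : rP a G a = 0 := by simp [rP]

lemma norm_rP_le {a y : ℝ} (h : a ≤ y) (G : BC) : ‖rP a G y‖ ≤ Real.exp (-(2 * a)) * ‖G‖ := by
  have hd : ∀ s, HasDerivAt (fun s : ℝ => -(Real.exp (-(2 * s)) * ‖G‖))
      (2 * Real.exp (-(2 * s)) * ‖G‖) s := by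
    intro s
    have h0 : HasDerivAt (fun s : ℝ => Real.exp (-(2 * s))) (Real.exp (-(2 * s)) * (-2)) s := by
      simpa using ((hasDerivAt_id s).const_mul 2).neg.exp
    refine ((h0.mul_const ‖G‖).neg).congr_deriv ?_
    ring
  have hc : Continuous fun s : ℝ => 2 * Real.exp (-(2 * s)) * ‖G‖ := by fun_prop
  calc ‖rP a G y‖ ≤ ∫ s in a..y, 2 * Real.exp (-(2 * s)) * ‖G‖ :=
        intervalIntegral.norm_integral_le_of_norm_le h
          (Eventually.of_forall fun s _ => norm_rX_le G s) (hc.intervalIntegrable _ _)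
    _ = -(Real.exp (-(2 * y)) * ‖G‖) - -(Real.exp (-(2 * a)) * ‖G‖) :=
        intervalIntegral.integral_eq_sub_of_hasDerivAt (fun s _ => hd s) (hc.intervalIntegrable _ _)
    _ ≤ _ := by
        have : 0 ≤ Real.exp (-(2 * y)) * ‖G‖ := by positivity
        linarith

lemma rE_add (G H : BC) (y : ℝ) : rE (G + H) y = rE G y + rE H y := by
  simp only [rE, tl_add]; ring
lemma rE_smul (c : ℂ) (G : BC) (y : ℝ) : rE (c • G) y = c * rE G y := by
  simp only [rE, tl_smul]; ring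
lemma rX_add (G H : BC) (y : ℝ) : rX (G + H) y = rX G y + rX H y := by
  simp only [rX, rE_add]; ring
lemma rX_smul (c : ℂ) (G : BC) (y : ℝ) : rX (c • G) y = c * rX G y := by
  simp only [rX, rE_smul]; ring
lemma rZ_add (G H : BC) (y : ℝ) : rZ (G + H) y = rZ G y + rZ H y := by
  simp only [rZ, rE_add, rX_add, BoundedContinuousFunction.coe_add, Pi.add_apply]; ring
lemma rZ_smul (c : ℂ) (G : BC) (y : ℝ) : rZ (c • G) y = c * rZ G y := by
  simp only [rZ, rE_smul, rX_smul, BoundedContinuousFunction.coe_smul, smul_eq_mul]; ring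
lemma rP_add (a : ℝ) (G H : BC) (y : ℝ) : rP a (G + H) y = rP a G y + rP a H y := by
  simp only [rP, rX_add]
  exact intervalIntegral.integral_add ((continuous_rX G).intervalIntegrable _ _)
    ((continuous_rX H).intervalIntegrable _ _)
lemma rP_smul (a : ℝ) (c : ℂ) (G : BC) (y : ℝ) : rP a (c • G) y = c * rP a G y := by
  simp only [rP, rX_smul]
  exact intervalIntegral.integral_const_mul _ _

/-- A linear operator `G ↦ (y ↦ T G (max y a))` on bounded continuous functions. -/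
def clampOp (a C : ℝ) (T : BC → ℝ → ℂ) (hc : ∀ G, Continuous (T G))
    (hadd : ∀ G H y, T (G + H) y = T G y + T H y) (hsm : ∀ (c : ℂ) G y, T (c • G) y = c * T G y)
    (hb : ∀ G y, a ≤ y → ‖T G y‖ ≤ C * ‖G‖) (hC : 0 ≤ C) : BC →L[ℂ] BC :=
  LinearMap.mkContinuous
    { toFun := fun G => BoundedContinuousFunction.ofNormedAddCommGroup (fun y => T G (max y a))
        ((hc G).comp (continuous_id.max continuous_const)) (C * ‖G‖)
        (fun y => hb G _ (le_max_right _ _))
      map_add' := fun G H => by ext y; simp [hadd]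
      map_smul' := fun c G => by ext y; simp [hsm] } C
    (fun G => BoundedContinuousFunction.norm_ofNormedAddCommGroup_le _ (by positivity)
      (fun y => hb G _ (le_max_right _ _)))

lemma clampOp_apply {a C T hc hadd hsm hb hC} (G : BC) (y : ℝ) :
    clampOp a C T hc hadd hsm hb hC G y = T G (max y a) := rfl

lemma norm_clampOp_le {a C T hc hadd hsm hb hC} : ‖clampOp a C T hc hadd hsm hb hC‖ ≤ C :=
  LinearMap.mkContinuous_norm_le _ hC _

lemma exp_le_of_le {a y : ℝ} (h : a ≤ y) : Real.exp (-(2 * y)) ≤ Real.exp (-(2 * a)) :=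
  Real.exp_le_exp.2 (by linarith)

def opP (a : ℝ) : BC →L[ℂ] BC :=
  clampOp a (Real.exp (-(2 * a))) (rP a) (continuous_rP a) (rP_add a) (rP_smul a)
    (fun G _ h => norm_rP_le h G) (Real.exp_pos _).le

def opX (a : ℝ) : BC →L[ℂ] BC :=
  clampOp a (2 * Real.exp (-(2 * a))) rX continuous_rX rX_add rX_smul
    (fun G y h => (norm_rX_le G y).trans (by gcongr)) (by positivity)

def opE (a : ℝ) : BC →L[ℂ] BC :=
  clampOp a 2 rE continuous_rE rE_add rE_smul (fun G y _ => norm_rE_le G y) (by positivity)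

lemma norm_rZ_le {a y : ℝ} (h : a ≤ y) (G : BC) :
    ‖rZ G y‖ ≤ (2 + 4 * Real.exp (-(2 * a))) * ‖G‖ := by
  have h1 := norm_rE_le G y
  have h2 := norm_rX_le G y
  have h3 := G.norm_coe_le_norm y
  have h4 : Real.exp (-(2 * y)) * ‖G‖ ≤ Real.exp (-(2 * a)) * ‖G‖ := by gcongr
  calc ‖rZ G y‖ ≤ ‖rE G y / 2‖ + ‖2 * rX G y‖ + ‖G y‖ :=
        (norm_add_le _ _).trans (by gcongr; exact norm_sub_le _ _)
    _ = ‖rE G y‖ / 2 + 2 * ‖rX G y‖ + ‖G y‖ := by simp
    _ ≤ _ := by nlinarith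

def opZ (a : ℝ) : BC →L[ℂ] BC :=
  clampOp a (2 + 4 * Real.exp (-(2 * a))) rZ continuous_rZ' rZ_add rZ_smul
    (fun G _ h => norm_rZ_le h G) (by positivity)
where continuous_rZ' : ∀ G, Continuous (rZ G) := continuous_rZ

lemma opP_apply (a : ℝ) (G : BC) (y : ℝ) : opP a G y = rP a G (max y a) := rfl
lemma opX_apply (a : ℝ) (G : BC) (y : ℝ) : opX a G y = rX G (max y a) := rfl
lemma opE_apply (a : ℝ) (G : BC) (y : ℝ) : opE a G y = rE G (max y a) := rfl
lemma opZ_apply (a : ℝ) (G : BC) (y : ℝ) : opZ a G y = rZ G (max y a) := rfl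

lemma norm_opP_le (a : ℝ) : ‖opP a‖ ≤ Real.exp (-(2 * a)) := norm_clampOp_le
lemma norm_opX_le (a : ℝ) : ‖opX a‖ ≤ 2 * Real.exp (-(2 * a)) := norm_clampOp_le
lemma norm_opE_le (a : ℝ) : ‖opE a‖ ≤ 2 := norm_clampOp_le
lemma norm_opZ_le (a : ℝ) : ‖opZ a‖ ≤ 2 + 4 * Real.exp (-(2 * a)) := norm_clampOp_le

/-- second derivative at a local maximum -/
lemma second_nonpos {h h' : ℝ → ℝ} {h'' y : ℝ} (hm : IsLocalMax h y)
    (hd : ∀ s, HasDerivAt h (h' s) s) (hd2 : HasDerivAt h' h'' y) : h'' ≤ 0 := by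
  by_contra hpos
  push Not at hpos
  have e1 : deriv h = h' := funext fun s => (hd s).deriv
  have hmin : IsLocalMin h y := by
    refine isLocalMin_of_deriv_deriv_pos ?_ ?_ (hd y).continuousAt
    · rw [e1, hd2.deriv]; exact hpos
    · exact hm.deriv_eq_zero
  have hconst : h =ᶠ[𝓝 y] fun _ => h y := by
    filter_upwards [hm, hmin] with s h1 h2 using le_antisymm h1 h2
  have h3 : h' =ᶠ[𝓝 y] fun _ => 0 := by
    filter_upwards [hconst.eventually_nhds] with s hs
    have : HasDerivAt h 0 s := (hasDerivAt_const s (h y)).congr_of_eventuallyEq hs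
    exact (hd s).unique this
  have h4 : HasDerivAt h' 0 y := (hasDerivAt_const y (0:ℝ)).congr_of_eventuallyEq h3
  exact absurd (hd2.unique h4) hpos.ne'

lemma four_le_exp {a : ℝ} (ha : 1 ≤ a) : 4 ≤ Real.exp (2 * a) := by
  have h1 : Real.exp (2 * a) = Real.exp a * Real.exp a := by rw [← Real.exp_add]; ring_nf
  have h2 : a + 1 ≤ Real.exp a := Real.add_one_le_exp a
  nlinarith

lemma exp_neg_le {a : ℝ} (ha : 1 ≤ a) : Real.exp (-(2 * a)) ≤ 1 / 4 := by
  rw [Real.exp_neg, one_div]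
  exact inv_anti₀ (by norm_num) (four_le_exp ha)

/-- maximum principle -/
lemma maxPrinciple {a t : ℝ} (ha : 1 ≤ a) (ht : 0 < t) (G f : BC)
    (hG : ∀ y, a ≤ y → G y = f y + t * rP a G y) {y : ℝ} (hy : a ≤ y) :
    t * ‖rP a G y‖ ≤ ‖f‖ := by
  -- rotate to the real axis
  obtain ⟨ω, hω, hωy⟩ : ∃ ω : ℂ, ‖ω‖ = 1 ∧ (ω * rP a G y).re = ‖rP a G y‖ := by
    by_cases h0 : rP a G y = 0
    · exact ⟨1, by simp, by simp [h0]⟩
    · refine ⟨(starRingEnd ℂ) (rP a G y) / (‖rP a G y‖ : ℂ), ?_, ?_⟩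
      · simp [h0]
      · have hn : (‖rP a G y‖ : ℂ) ≠ 0 := by simpa using h0
        rw [div_mul_eq_mul_div, Complex.conj_mul', sq, mul_div_assoc, div_self hn]; simp
  set φ : ℝ → ℝ := fun s => (ω * rP a G s).re with hφ
  have hφd : ∀ s, HasDerivAt φ (ω * rX G s).re s := fun s =>
    Complex.reCLM.hasFDerivAt.comp_hasDerivAt s ((hasDerivAt_rP a G s).const_mul ω)
  have hφd2 : ∀ s, HasDerivAt (fun s => (ω * rX G s).re) (ω * rZ G s).re s := fun s =>
    Complex.reCLM.hasFDerivAt.comp_hasDerivAt s ((hasDerivAt_rX G s).const_mul ω)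
  have hφb : ∀ s, a ≤ s → φ s ≤ ‖G‖ := fun s hs => by
    have h1 := norm_rP_le hs G
    have h2 := exp_neg_le ha
    calc φ s ≤ ‖ω * rP a G s‖ := Complex.re_le_norm _
      _ = ‖rP a G s‖ := by rw [norm_mul, hω, one_mul]
      _ ≤ ‖G‖ := by nlinarith [norm_nonneg G]
  have key : ∀ ε : ℝ, 0 < ε → t * (φ y - ε * (y - a)) ≤ ‖f‖ := by
    intro ε hε
    set h : ℝ → ℝ := fun s => φ s - ε * (s - a) with hh
    have hd : ∀ s, HasDerivAt h ((ω * rX G s).re - ε) s := fun s => by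
      have := (hφd s).fun_sub (((hasDerivAt_id' s).sub_const a).const_mul ε)
      rwa [mul_one] at this
    have hcont : Continuous h := continuous_iff_continuousAt.2 fun s => (hd s).continuousAt
    set b : ℝ := max y (a + ‖G‖ / ε + 1) with hb
    have hab : a ≤ b := hy.trans (le_max_left _ _)
    obtain ⟨y0, hy0, hmax⟩ := isCompact_Icc.exists_isMaxOn (nonempty_Icc.2 hab) hcont.continuousOn
    have ha0 : h a = 0 := by simp [hh, hφ]
    have hy0' : h y ≤ h y0 := hmax ⟨hy, le_max_left _ _⟩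
    have h00 : 0 ≤ h y0 := ha0 ▸ hmax ⟨le_rfl, hab⟩
    have hbneg : h b < 0 := by
      have h1 := hφb b hab
      have h2 : ‖G‖ / ε + 1 ≤ b - a := by have := le_max_right y (a + ‖G‖ / ε + 1); linarith
      have h3 : ε * (‖G‖ / ε + 1) ≤ ε * (b - a) := by gcongr
      have h4 : ε * (‖G‖ / ε + 1) = ‖G‖ + ε := by field_simp
      simp only [hh]; linarith
    rcases eq_or_lt_of_le hy0.1 with h1 | h1
    · have : h y ≤ 0 := by rw [← ha0, h1]; exact hy0'
      have : t * h y ≤ 0 := mul_nonpos_of_nonneg_of_nonpos ht.le this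
      exact this.trans (norm_nonneg _)
    have h2 : y0 < b := lt_of_le_of_ne hy0.2 (fun e => by rw [e] at h00; linarith)
    have hloc : IsLocalMax h y0 := hmax.isLocalMax (Icc_mem_nhds h1 h2)
    have e1 : (ω * rX G y0).re - ε = 0 := hloc.hasDerivAt_eq_zero (hd y0)
    have e2 : (ω * rZ G y0).re ≤ 0 :=
      second_nonpos hloc hd ((hφd2 y0).sub_const ε)
    have e3 : (ω * rZ G y0).re =
        (Real.exp (2 * y0) / 2 - 2) * (ω * rX G y0).re + (ω * f y0).re + t * φ y0 := by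
      have : ω * rZ G y0 = ((Real.exp (2 * y0) / 2 - 2 : ℝ) : ℂ) * (ω * rX G y0) + ω * f y0
          + (t : ℂ) * (ω * rP a G y0) := by
        rw [rZ, ← exp_mul_rX, hG y0 hy0.1]; push_cast; ring
      rw [this, Complex.add_re, Complex.add_re, Complex.re_ofReal_mul, Complex.re_ofReal_mul]
    have e4 : -‖f‖ ≤ (ω * f y0).re := by
      have := Complex.abs_re_le_norm (ω * f y0)
      rw [norm_mul, hω, one_mul] at this
      have := f.norm_coe_le_norm y0
      have := neg_abs_le (ω * f y0).re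
      linarith
    have e5 : 4 ≤ Real.exp (2 * y0) := four_le_exp (ha.trans hy0.1)
    have e6 : 0 ≤ (Real.exp (2 * y0) / 2 - 2) * (ω * rX G y0).re := by
      apply mul_nonneg <;> linarith
    have e7 : t * φ y0 ≤ ‖f‖ := by linarith
    have e8 : h y0 ≤ φ y0 := by
      have : 0 ≤ ε * (y0 - a) := mul_nonneg hε.le (by linarith)
      simp only [hh]; linarith
    calc t * h y ≤ t * φ y0 := mul_le_mul_of_nonneg_left (hy0'.trans e8) ht.le
      _ ≤ _ := e7
  rw [← hωy]
  refine le_of_forall_pos_le_add fun δ hδ => ?_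
  have := key (δ / (t * (y - a) + 1)) (by have : 0 ≤ t * (y - a) := mul_nonneg ht.le (by linarith)
                                          positivity)
  have h1 : 0 ≤ t * (y - a) := mul_nonneg ht.le (by linarith)
  have h2 : t * (δ / (t * (y - a) + 1) * (y - a)) ≤ δ := by
    rw [show t * (δ / (t * (y - a) + 1) * (y - a)) = δ * (t * (y - a) / (t * (y - a) + 1)) by ring]
    have : t * (y - a) / (t * (y - a) + 1) ≤ 1 := by
      rw [div_le_one (by positivity)]; linarith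
    nlinarith
  change t * φ y ≤ _
  nlinarith

/-- a priori bound -/
lemma apriori {a t : ℝ} (ha : 1 ≤ a) (ht : -1 ≤ t) (G : BC) :
    ‖G‖ ≤ 2 * ‖(1 - (t : ℂ) • opP a) G‖ := by
  set f := (1 - (t : ℂ) • opP a) G with hf
  have hGf : G = f + (t : ℂ) • opP a G := by simp [hf]
  have hq := exp_neg_le ha
  rcases le_or_gt t 1 with h | h
  · have h1 : ‖(t : ℂ) • opP a G‖ ≤ 1 / 4 * ‖G‖ := by
      rw [norm_smul, Complex.norm_real]
      have : ‖t‖ ≤ 1 := abs_le.2 ⟨ht, h⟩
      have h2 : ‖opP a G‖ ≤ 1 / 4 * ‖G‖ :=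
        ((opP a).le_opNorm G).trans (by gcongr; exact (norm_opP_le a).trans hq)
      nlinarith [norm_nonneg (opP a G), norm_nonneg t]
    have h2 : ‖G‖ ≤ ‖f‖ + ‖(t : ℂ) • opP a G‖ := by
      conv_lhs => rw [hGf]
      exact norm_add_le _ _
    nlinarith [norm_nonneg f]
  · have h1 : ‖(t : ℂ) • opP a G‖ ≤ ‖f‖ := by
      refine (BoundedContinuousFunction.norm_le (norm_nonneg _)).2 fun y => ?_
      have := maxPrinciple ha (by linarith : 0 < t) G f (fun y hy => by
        conv_lhs => rw [hGf]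
        simp [opP_apply, max_eq_left hy]) (le_max_right y a)
      simpa [opP_apply, abs_of_pos (by linarith : 0 < t)] using this
    have h2 : ‖G‖ ≤ ‖f‖ + ‖(t : ℂ) • opP a G‖ := by
      conv_lhs => rw [hGf]
      exact norm_add_le _ _
    linarith

section abstract
variable {E : Type*} [NormedAddCommGroup E] [NormedSpace ℂ E] [CompleteSpace E]

omit [CompleteSpace E] in
lemma norm_inv_le {u : E →L[ℂ] E} (hb : ∀ G, ‖G‖ ≤ 2 * ‖u G‖) (hu : IsUnit u) :
    ‖Ring.inverse u‖ ≤ 2 := by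
  refine ContinuousLinearMap.opNorm_le_bound _ (by norm_num) fun f => ?_
  have := hb (Ring.inverse u f)
  rwa [← mul_apply_eq_comp, Ring.mul_inverse_cancel _ hu] at this

lemma isUnit_step {P : E →L[ℂ] E} {t t' : ℝ} (hP : ‖P‖ ≤ 1 / 4)
    (hb : ∀ G, ‖G‖ ≤ 2 * ‖(1 - (t : ℂ) • P) G‖) (hu : IsUnit (1 - (t : ℂ) • P))
    (h : |t' - t| ≤ 1) : IsUnit (1 - (t' : ℂ) • P) := by
  have h2 := norm_inv_le hb hu
  set u := 1 - (t : ℂ) • P
  have h1 : 1 - (t' : ℂ) • P = u * (1 - ((t' - t : ℝ) : ℂ) • (Ring.inverse u * P)) := by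
    rw [mul_sub, mul_one, mul_smul_comm, ← mul_assoc, Ring.mul_inverse_cancel _ hu, one_mul]
    simp only [u]; push_cast; rw [sub_smul]; abel
  rw [h1]
  refine hu.mul (Units.oneSub (((t' - t : ℝ) : ℂ) • (Ring.inverse u * P)) ?_).isUnit
  calc _ ≤ ‖((t' - t : ℝ) : ℂ)‖ * (‖Ring.inverse u‖ * ‖P‖) := by
        rw [norm_smul]; gcongr; exact norm_mul_le _ _
    _ ≤ 1 * (2 * (1 / 4)) := by
        gcongr
        rw [Complex.norm_real]; exact h
    _ < 1 := by norm_num

lemma isUnit_cont {P : E →L[ℂ] E} (hP : ‖P‖ ≤ 1 / 4)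
    (hb : ∀ t : ℝ, -1 ≤ t → ∀ G, ‖G‖ ≤ 2 * ‖(1 - (t : ℂ) • P) G‖) {t : ℝ} (ht : -1 ≤ t) :
    IsUnit (1 - (t : ℂ) • P) := by
  have key : ∀ n : ℕ, ∀ t : ℝ, -1 ≤ t → t ≤ n + 1 → IsUnit (1 - (t : ℂ) • P) := by
    intro n
    induction n with
    | zero =>
      intro t h1 h2
      refine isUnit_step (t := 0) hP (hb 0 (by norm_num)) (by simp) ?_
      rw [sub_zero, abs_le]
      exact ⟨h1, by simpa using h2⟩
    | succ n ih =>
      intro t h1 h2
      rcases le_or_gt t (n + 1) with h | h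
      · exact ih t h1 h
      · have hn : (0:ℝ) ≤ n := Nat.cast_nonneg n
        refine isUnit_step (t := n + 1) hP (hb _ (by linarith)) (ih _ (by linarith) le_rfl) ?_
        push_cast at h2
        rw [abs_le]; constructor <;> linarith
  obtain ⟨n, hn⟩ := exists_nat_ge t
  exact key n t ht (by linarith)

end abstract

lemma isUnit_mode {a t : ℝ} (ha : 1 ≤ a) (ht : -1 ≤ t) : IsUnit (1 - (t : ℂ) • opP a) :=
  isUnit_cont ((norm_opP_le a).trans (exp_neg_le ha)) (fun _ ht => apriori ha ht) ht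

/-- the resolvent: `res a t f = G` solves `G = f + t P G` -/
def res (a t : ℝ) : BC →L[ℂ] BC := Ring.inverse (1 - (t : ℂ) • opP a)

lemma norm_res_le {a t : ℝ} (ha : 1 ≤ a) (ht : -1 ≤ t) : ‖res a t‖ ≤ 2 :=
  norm_inv_le (apriori ha ht) (isUnit_mode ha ht)

lemma res_eq {a t : ℝ} (ha : 1 ≤ a) (ht : -1 ≤ t) (f : BC) :
    res a t f = f + (t : ℂ) • opP a (res a t f) := by
  have h : (1 - (t : ℂ) • opP a) (res a t f) = f := congrArg (fun T : BC →L[ℂ] BC => T f)
    (Ring.mul_inverse_cancel _ (isUnit_mode ha ht))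
  exact sub_eq_iff_eq_add.1 h

lemma res_unique {a t : ℝ} (ha : 1 ≤ a) (ht : -1 ≤ t) {f G : BC}
    (h : G = f + (t : ℂ) • opP a G) : G = res a t f := by
  have h1 : (1 - (t : ℂ) • opP a) G = f := sub_eq_iff_eq_add.2 h
  rw [← h1]
  exact (congrArg (fun T : BC →L[ℂ] BC => T G)
    (Ring.inverse_mul_cancel _ (isUnit_mode ha ht))).symm

lemma norm_res_apply_le {a t : ℝ} (ha : 1 ≤ a) (ht : -1 ≤ t) (f : BC) : ‖res a t f‖ ≤ 2 * ‖f‖ :=
  ((res a t).le_opNorm f).trans (by gcongr; exact norm_res_le ha ht)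

/-- the mode solution is small when `a` is large -/
lemma norm_P_res_small {a t : ℝ} (ha : 1 ≤ a) (ht : -1 ≤ t) (f : BC) :
    ‖opP a (res a t f)‖ ≤ 2 * Real.exp (-(2 * a)) * ‖f‖ := by
  calc _ ≤ ‖opP a‖ * ‖res a t f‖ := (opP a).le_opNorm _
    _ ≤ Real.exp (-(2 * a)) * (2 * ‖f‖) := by
        gcongr
        · exact norm_opP_le a
        · exact norm_res_apply_le ha ht f
    _ = _ := by ring

/-- gain of two derivatives -/
lemma norm_P_res_le {a t : ℝ} (ha : 1 ≤ a) (ht : -1 ≤ t) (f : BC) :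
    (t + 2) * ‖opP a (res a t f)‖ ≤ 4 * ‖f‖ := by
  have h1 := norm_P_res_small ha ht f
  have hq := exp_neg_le ha
  have h2 : ‖(t : ℂ) • opP a (res a t f)‖ ≤ 3 * ‖f‖ := by
    have : (t : ℂ) • opP a (res a t f) = res a t f - f := by
      rw [eq_sub_iff_add_eq', ← res_eq ha ht]
    rw [this]
    have := norm_res_apply_le ha ht f
    linarith [norm_sub_le (res a t f) f]
  rw [norm_smul, Complex.norm_real] at h2
  have h3 : t * ‖opP a (res a t f)‖ ≤ ‖t‖ * ‖opP a (res a t f)‖ := by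
    gcongr; exact le_abs_self t
  nlinarith [norm_nonneg f]

lemma norm_Z_res_le {a t : ℝ} (ha : 1 ≤ a) (ht : -1 ≤ t) (f : BC) :
    ‖opZ a (res a t f)‖ ≤ 6 * ‖f‖ := by
  have hq := exp_neg_le ha
  calc _ ≤ ‖opZ a‖ * ‖res a t f‖ := (opZ a).le_opNorm _
    _ ≤ 3 * (2 * ‖f‖) := by
        gcongr
        · exact (norm_opZ_le a).trans (by linarith)
        · exact norm_res_apply_le ha ht f
    _ = _ := by ring

lemma norm_E_res_le {a t : ℝ} (ha : 1 ≤ a) (ht : -1 ≤ t) (f : BC) :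
    ‖opE a (res a t f)‖ ≤ 4 * ‖f‖ := by
  calc _ ≤ ‖opE a‖ * ‖res a t f‖ := (opE a).le_opNorm _
    _ ≤ 2 * (2 * ‖f‖) := by
        gcongr
        · exact norm_opE_le a
        · exact norm_res_apply_le ha ht f
    _ = _ := by ring

lemma norm_X_res_small {a t : ℝ} (ha : 1 ≤ a) (ht : -1 ≤ t) (f : BC) :
    ‖opX a (res a t f)‖ ≤ 4 * Real.exp (-(2 * a)) * ‖f‖ := by
  calc _ ≤ ‖opX a‖ * ‖res a t f‖ := (opX a).le_opNorm _
    _ ≤ 2 * Real.exp (-(2 * a)) * (2 * ‖f‖) := by
        gcongr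
        · exact norm_opX_le a
        · exact norm_res_apply_le ha ht f
    _ = _ := by ring

/-- Landau's inequality on a half line -/
lemma landau {p x z : ℝ → ℂ} {a B0 B2 h y : ℝ} (hp : ∀ s, HasDerivAt p (x s) s)
    (hx : ∀ s, HasDerivAt x (z s) s) (h0 : ∀ s, a ≤ s → ‖p s‖ ≤ B0) (h2 : ∀ s, a ≤ s → ‖z s‖ ≤ B2)
    (hh : 0 < h) (hy : a ≤ y) : h * ‖x y‖ ≤ 2 * B0 + h ^ 2 * B2 := by
  have hB2 : 0 ≤ B2 := (norm_nonneg _).trans (h2 y hy)
  have e1 : ∀ s ∈ Icc y (y + h), ‖x s - x y‖ ≤ B2 * h := by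
    intro s hs
    have := norm_image_sub_le_of_norm_deriv_le_segment' (f := x) (f' := z) (C := B2)
      (a := y) (b := y + h) (fun s _ => (hx s).hasDerivWithinAt)
      (fun s hs => h2 s (hy.trans hs.1)) s hs
    exact this.trans (by gcongr; linarith [hs.2])
  have e2 := norm_image_sub_le_of_norm_deriv_le_segment' (f := fun s => p s - (s : ℂ) * x y)
    (f' := fun s => x s - x y) (C := B2 * h) (a := y) (b := y + h)
    (fun s _ => by
      have := ((hp s).fun_sub ((hasDerivAt_id' s).ofReal_comp.mul_const (x y))).hasDerivWithinAt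
        (s := Icc y (y + h))
      rwa [Complex.ofReal_one, one_mul] at this)
    (fun s hs => e1 s (Ico_subset_Icc_self hs)) (y + h) ⟨by linarith, le_rfl⟩
  have e3 : (h : ℂ) * x y = p (y + h) - p y -
      (p (y + h) - ((y + h : ℝ) : ℂ) * x y - (p y - (y : ℂ) * x y)) := by push_cast; ring
  have e4 : ‖(h : ℂ) * x y‖ = h * ‖x y‖ := by
    rw [norm_mul, Complex.norm_real, Real.norm_of_nonneg hh.le]
  rw [← e4, e3]
  have := h0 (y + h) (by linarith)
  have := h0 y hy
  have e5 : B2 * h * (y + h - y) = h ^ 2 * B2 := by ring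
  rw [e5] at e2
  refine (norm_sub_le _ _).trans ?_
  linarith [norm_sub_le (p (y + h)) (p y)]

/-- gain of one derivative for `ψ'` -/
lemma norm_X_res_le {a t : ℝ} (ha : 1 ≤ a) (ht : -1 ≤ t) (f : BC) :
    Real.sqrt (t + 2) * ‖opX a (res a t f)‖ ≤ 14 * ‖f‖ := by
  have ht2 : 0 < t + 2 := by linarith
  set r := Real.sqrt (t + 2) with hr
  have hr0 : 0 < r := Real.sqrt_pos.2 ht2
  have hr2 : r ^ 2 = t + 2 := Real.sq_sqrt ht2.le
  have hb : ‖opX a (res a t f)‖ ≤ 14 * ‖f‖ / r := by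
    refine (BoundedContinuousFunction.norm_le (by positivity)).2 fun y => ?_
    rw [opX_apply]
    have := landau (a := a) (B0 := 4 * ‖f‖ / r ^ 2) (B2 := 6 * ‖f‖) (h := 1 / r) (y := max y a)
      (hasDerivAt_rP a (res a t f)) (hasDerivAt_rX (res a t f))
      (fun s hs => by
        have h1 := norm_P_res_le ha ht f
        have h2 := (opP a (res a t f)).norm_coe_le_norm s
        rw [opP_apply, max_eq_left hs] at h2
        rw [hr2, le_div_iff₀ ht2]
        nlinarith)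
      (fun s hs => by
        have h1 := norm_Z_res_le ha ht f
        have h2 := (opZ a (res a t f)).norm_coe_le_norm s
        rw [opZ_apply, max_eq_left hs] at h2
        linarith)
      (by positivity) (le_max_right _ _)
    have e : 2 * (4 * ‖f‖ / r ^ 2) + (1 / r) ^ 2 * (6 * ‖f‖) = 1 / r * (14 * ‖f‖ / r) := by
      field_simp; ring
    rw [e] at this
    exact le_of_mul_le_mul_left this (by positivity)
  rw [le_div_iff₀ hr0] at hb
  linarith

end

end Vale.Agent.P218F.Cone
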