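import Vale.Agent.P218F.ConeLin
import Mathlib.Analysis.Calculus.ImplicitContDiff
import Mathlib.Analysis.Calculus.Deriv.Star

/-!
Conical ends: the nonlinear problem in Wiener spaces (implicit function theorem at a small
solution), the equation at each point, reality.
-/

namespace Vale.Agent.P218F.Cone

open Set Filter Topology Wien
open scoped ContDiff

noncomputable section

variable {a l : ℝ} {s : ℕ}

/-- a number as an element of the algebra -/
def num (s : ℕ) (c : ℂ) : W s := algebraMap ℂ (W s) c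

/-- the nonlinear remainder -/
def RemW (l : ℝ) (κ κ' : A s) (p : T3 s) : W s :=
  rem (num s l) (num s (l : ℂ)⁻¹) (up s κ) (up s κ') (jets s p)

/-- the denominators are invertible -/
def Unt (l : ℝ) (κ : A s) (p : T3 s) : Prop :=
  IsUnit (1 - up s κ * (jets s p).1) ∧
    IsUnit (detg (num s l) (up s κ) (jets s p).1 (jets s p).2.1 (jets s p).2.2.1)

/-- solutions in the Wiener spaces -/
structure IsSol (a l : ℝ) (κ κ' : A s) (p : T3 s) : Prop where
  tri : IsTri a p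
  unt : Unt l κ p
  eqn : LinEq a l p (-RemW l κ κ' p)

lemma isUnit_num {c : ℂ} (hc : c ≠ 0) : IsUnit (num s c) := (IsUnit.mk0 c hc).map _

lemma Unt.eventually {κ : A s} {p : T3 s} (h : Unt l κ p) : ∀ᶠ q in 𝓝 p, Unt l κ q := by
  have c1 : Continuous fun q : T3 s => 1 - up s κ * (jets s q).1 := by fun_prop
  have c2 : Continuous fun q : T3 s =>
      detg (num s l) (up s κ) (jets s q).1 (jets s q).2.1 (jets s q).2.2.1 := by
    unfold detg; fun_prop
  exact (c1.continuousAt.eventually (Units.isOpen.mem_nhds h.1)).and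
    (c2.continuousAt.eventually (Units.isOpen.mem_nhds h.2))

lemma Unt.contDiffAt {κ : A s} (κ' : A s) {p : T3 s} (h : Unt l κ p) :
    ContDiffAt ℂ ω (RemW l κ κ') p :=
  ContDiffAt.comp (g := rem _ _ _ _) p (contDiffAt_rem _ _ _ _ h.1 h.2) (jets s).contDiff.contDiffAt

lemma isInvertible_of_norm_lt {E : Type*} [NormedAddCommGroup E] [NormedSpace ℂ E] [CompleteSpace E]
    {T K : E →L[ℂ] E} (hK : ‖K‖ < 1) (h : ∀ v, T v = v + K v) : T.IsInvertible := by
  refine ⟨ContinuousLinearEquiv.ofUnit (Units.oneSub (-K) (by rwa [norm_neg])), ?_⟩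
  ext v
  rw [h]
  simp [ContinuousLinearEquiv.ofUnit]

/-- The solution map near a small solution. -/
theorem exists_solver (hl : 0 < l) (κ κ' : A s) :
    ∃ η > 0, ∃ a0 ≥ 1, (∀ p : T3 s, ‖p‖ ≤ η → Unt l κ p) ∧
      ∀ a ≥ a0, ∀ ha : 1 ≤ a, ∀ p0 : T3 s, IsSol a l κ κ' p0 → ‖p0‖ ≤ η →
      ∃ φ : A (s + 2) → W s, AnalyticAt ℂ φ (tr (s + 2) a p0.1) ∧
        sol ha hl s (tr (s + 2) a p0.1, φ (tr (s + 2) a p0.1)) = p0 ∧
        (∀ᶠ g in 𝓝 (tr (s + 2) a p0.1), IsSol a l κ κ' (sol ha hl s (g, φ g))) ∧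
        ∀ᶠ p in 𝓝 p0, IsSol a l κ κ' p →
          p = sol ha hl s (tr (s + 2) a p.1, φ (tr (s + 2) a p.1)) := by
  have hl0 : (l : ℂ) ≠ 0 := by exact_mod_cast hl.ne'
  obtain ⟨η, hη, hsm⟩ := exists_small (isUnit_num (s := s) hl0) (num s (l : ℂ)⁻¹) (up s κ)
    (up s κ') (ε := 1 / (4 * (28 * (1 + l)))) (by positivity)
  have hU : ∀ p : T3 s, ‖p‖ ≤ η → Unt l κ p := fun p hp =>
    let h := hsm _ ((norm_jets_apply_le p).trans hp); ⟨h.1, h.2.1⟩
  refine ⟨η, hη, 1 + 4 * ‖up s κ ^ 2‖, by linarith [norm_nonneg (up s κ ^ 2)], hU, ?_⟩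
  intro a ha0 ha p0 hp0 hn
  set g0 := tr (s + 2) a p0.1 with hg0
  set f0 := -RemW l κ κ' p0 with hf0
  have hs0 : sol ha hl s (g0, f0) = p0 := (sol_unique ha hl hp0.tri hp0.eqn).symm
  let F : A (s + 2) × W s → W s := fun v => v.2 + RemW l κ κ' (sol ha hl s v)
  have hF0 : F (g0, f0) = 0 := by simp only [F, hs0]; exact neg_add_cancel _
  have hR : ContDiffAt ℂ ω (RemW l κ κ') (sol ha hl s (g0, f0)) := hs0 ▸ hp0.unt.contDiffAt κ'
  have hF : ContDiffAt ℂ ω F (g0, f0) :=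
    contDiffAt_snd.add (hR.comp _ (sol ha hl s).contDiff.contDiffAt)
  have hq : HasFDerivAt (quad (num s l) (num s (l : ℂ)⁻¹) (up s κ) (up s κ'))
      (fderiv ℂ (quad (num s l) (num s (l : ℂ)⁻¹) (up s κ) (up s κ')) (jets s p0)) (jets s p0) :=
    ((contDiffAt_quad _ _ _ _ hp0.unt.1 hp0.unt.2).differentiableAt (by simp)).hasFDerivAt
  set Q := fderiv ℂ (quad (num s l) (num s (l : ℂ)⁻¹) (up s κ) (up s κ')) (jets s p0) with hQ
  have hQn : ‖Q‖ ≤ 1 / (4 * (28 * (1 + l))) := (hsm _ ((norm_jets_apply_le p0).trans hn)).2.2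
  set K1 : J6 (W s) →L[ℂ] W s := (up s κ ^ 2) • ContinuousLinearMap.fst ℂ _ _ + Q with hK1
  have hrem : HasFDerivAt (rem (num s l) (num s (l : ℂ)⁻¹) (up s κ) (up s κ')) K1 (jets s p0) :=
    ((hasFDerivAt_fst.const_mul (up s κ ^ 2)).const_add (up s κ)).add hq
  have hFd : HasFDerivAt F (ContinuousLinearMap.snd ℂ _ _ +
      K1.comp ((jets s).comp (sol ha hl s))) (g0, f0) := by
    refine hasFDerivAt_snd.add ?_
    have h1 : jets s p0 = ((jets s).comp (sol ha hl s)) (g0, f0) := by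
      rw [ContinuousLinearMap.comp_apply, hs0]
    exact (h1 ▸ hrem).comp (g0, f0) ((jets s).comp (sol ha hl s)).hasFDerivAt
  have hinv : (fderiv ℂ F (g0, f0) ∘L .inr ℂ (A (s + 2)) (W s)).IsInvertible := by
    refine isInvertible_of_norm_lt (K := K1.comp ((jets s).comp (sol0 ha hl s))) ?_ fun v => ?_
    · refine lt_of_le_of_lt (ContinuousLinearMap.opNorm_le_bound _ (M := 1 / 2) (by norm_num)
        fun v => ?_) (by norm_num)
      have e : K1.comp ((jets s).comp (sol0 ha hl s)) v =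
        up s κ ^ 2 * (jets s (sol0 ha hl s v)).1 + Q (jets s (sol0 ha hl s v)) := rfl
      have h1 := norm_sol0_small ha hl v
      have h2 := (norm_jets_apply_le _).trans (norm_sol0_le ha hl v)
      have h3 : Real.exp (-(2 * a)) * ‖up s κ ^ 2‖ ≤ 1 / 8 := by
        rw [Real.exp_neg, inv_mul_le_iff₀ (Real.exp_pos _)]
        have := Real.add_one_le_exp (2 * a)
        linarith
      have h4 : ‖up s κ ^ 2 * (jets s (sol0 ha hl s v)).1‖ ≤ 1 / 4 * ‖v‖ :=
        calc _ ≤ ‖up s κ ^ 2‖ * (2 * Real.exp (-(2 * a)) * ‖v‖) :=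
              (norm_mul_le _ _).trans (by gcongr)
          _ = 2 * (Real.exp (-(2 * a)) * ‖up s κ ^ 2‖) * ‖v‖ := by ring
          _ ≤ 2 * (1 / 8) * ‖v‖ := by gcongr
          _ = _ := by ring
      have h5 : ‖Q (jets s (sol0 ha hl s v))‖ ≤ 1 / 4 * ‖v‖ :=
        calc _ ≤ 1 / (4 * (28 * (1 + l))) * (28 * (1 + l) * ‖v‖) :=
              (Q.le_opNorm _).trans (by gcongr)
          _ = _ := by field_simp
      rw [e]
      linarith [norm_add_le (up s κ ^ 2 * (jets s (sol0 ha hl s v)).1)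
        (Q (jets s (sol0 ha hl s v)))]
    · rw [hFd.fderiv]
      change v + K1 (jets s (sol ha hl s (0, v))) = v + K1 (jets s (sol0 ha hl s v))
      rw [sol_zero]
  set φ := hF.implicitFunction (by simp) hinv with hφ
  have hφ0 : φ g0 = f0 := hF.implicitFunction_apply_self (by simp) hinv
  have hφa : AnalyticAt ℂ (fun g => (g, φ g)) g0 :=
    analyticAt_id.prod (hF.contDiffAt_implicitFunction (by simp) hinv).analyticAt
  have he : AnalyticAt ℂ (fun g => sol ha hl s (g, φ g)) g0 :=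
    AnalyticAt.comp (g := sol ha hl s) ((sol ha hl s).analyticAt _) hφa
  have he0 : sol ha hl s (g0, φ g0) = p0 := by rw [hφ0, hs0]
  refine ⟨φ, (hF.contDiffAt_implicitFunction (by simp) hinv).analyticAt, he0, ?_, ?_⟩
  · have h1 := hF.eventually_apply_implicitFunction (by simp) hinv
    have h2 : ∀ᶠ g in 𝓝 g0, Unt l κ (sol ha hl s (g, φ g)) :=
      he.continuousAt.eventually (by simp only [he0]; exact hp0.unt.eventually)
    filter_upwards [h1, h2] with g h1 h2
    refine ⟨isTri_sol ha hl _ _, h2, ?_⟩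
    rw [hF0] at h1
    have h3 : -RemW l κ κ' (sol ha hl s (g, φ g)) = φ g := (eq_neg_of_add_eq_zero_left h1).symm
    rw [h3]
    exact linEq_sol ha hl _ _
  · have h1 := hF.eventually_apply_eq_iff_implicitFunction (by simp) hinv
    have hc : ContinuousAt (fun p : T3 s => (tr (s + 2) a p.1, -RemW l κ κ' p)) p0 :=
      ((tr (s + 2) a).continuous.comp continuous_fst).continuousAt.prodMk
        (hp0.unt.contDiffAt κ').continuousAt.neg
    filter_upwards [hc.eventually h1] with p hp hs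
    have h2 := sol_unique ha hl hs.tri hs.eqn
    have h3 : φ (tr (s + 2) a p.1) = -RemW l κ κ' p := hp.1 (by
      rw [hF0]; simp only [F]; rw [← h2]; abel)
    rw [h3]; exact h2

/-! ### The equation at each point -/

/-- evaluation at `(y, θ)` as a ring homomorphism -/
def evR (s : ℕ) (y θ : ℝ) : W s →+* ℂ where
  toFun u := val u y θ
  map_one' := by simp [val, ev_one]
  map_mul' u v := by simp [val, ev_mul]
  map_zero' := by simp [val]
  map_add' u v := by simp [val]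

lemma evR_apply (u : W s) (y θ : ℝ) : evR s y θ u = val u y θ := rfl

@[simp] lemma val_incl {t : ℕ} (h : t ≤ s) (u : W s) (y θ : ℝ) :
    val (incl ℤ BC h u) y θ = val u y θ := by simp [val]

@[simp] lemma val_num (c : ℂ) (y θ : ℝ) : val (num s c) y θ = c := by
  have : num s c = c • (1 : W s) := Algebra.algebraMap_eq_smul_one c
  simp [this, val, ev_one]

/-- `ψ_θ` -/
def vT (p : T3 s) (y θ : ℝ) : ℂ := val (dth (s + 1) BC p.1) y θ
/-- `ψ_yθ` -/
def vYT (p : T3 s) (y θ : ℝ) : ℂ := val (dth s BC p.2.1) y θ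
/-- `ψ_θθ` -/
def vTT (p : T3 s) (y θ : ℝ) : ℂ := val (dth s BC (dth (s + 1) BC p.1)) y θ

lemma Unt.ne1 {κ : A s} {p : T3 s} (h : Unt l κ p) (y θ : ℝ) :
    1 - ev s ℂ θ κ * val p.1 y θ ≠ 0 := by
  have := (h.1.map (evR s y θ)).ne_zero
  rw [map_sub, map_one, map_mul] at this
  simpa [evR_apply, jets_apply] using this

lemma Unt.ne2 {κ : A s} {p : T3 s} (h : Unt l κ p) (y θ : ℝ) :
    detg (l : ℂ) (ev s ℂ θ κ) (val p.1 y θ) (val p.2.1 y θ) (vT p y θ) ≠ 0 := by
  have := (h.2.map (evR s y θ)).ne_zero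
  rw [map_detg] at this
  simpa [evR_apply, jets_apply, vT] using this

lemma val_RemW (hl : 0 < l) {κ : A s} (κ' : A s) {p : T3 s} (h : Unt l κ p) (y θ : ℝ) :
    val (RemW l κ κ' p) y θ =
      Mc l (ev s ℂ θ κ) (ev s ℂ θ κ') (val p.1 y θ) (val p.2.1 y θ) (vT p y θ) (val p.2.2 y θ)
        (vYT p y θ) (vTT p y θ) -
      (val p.2.2 y θ + 2 * val p.2.1 y θ + val p.1 y θ + (l : ℂ)⁻¹ * vTT p y θ) := by
  have hl0 : (l : ℂ) ≠ 0 := by exact_mod_cast hl.ne'
  rw [← rem_eq hl0 (h.ne1 y θ) (h.ne2 y θ), ← evR_apply, RemW, map_rem _ _ _ _ _ _ h.1 h.2]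
  simp [evR_apply, jets_apply, vT, vYT, vTT]

lemma linEq_iff (hl : 0 < l) (p : T3 s) (f : W s) : LinEq a l p f ↔ ∀ y θ, a ≤ y →
    val p.2.2 y θ + 2 * val p.2.1 y θ + val p.1 y θ + (l : ℂ)⁻¹ * vTT p y θ -
      (Real.exp (2 * y) : ℝ) / 2 * val p.2.1 y θ = val f y θ := by
  have hl0 : (l : ℂ) ≠ 0 := by exact_mod_cast hl.ne'
  let Z : ℝ → A s := fun y => tr s y (p.2.2 + (2 : ℂ) • incl ℤ BC (Nat.le_succ s) p.2.1 +
    incl ℤ BC (Nat.le_add_right s 2) p.1 + (l : ℂ)⁻¹ • dth s BC (dth (s + 1) BC p.1) -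
    (((Real.exp (2 * y) : ℝ) : ℂ) / 2) • incl ℤ BC (Nat.le_succ s) p.2.1)
  have h1 : ∀ y k, cf (Z y) k = cf p.2.2 k y + 2 * cf p.2.1 k y - tk l k * cf p.1 k y -
      (Real.exp (2 * y) : ℝ) / 2 * cf p.2.1 k y := by
    intro y k
    simp only [Z, cf_tr, cf_add, cf_sub, cf_smul, cf_incl, cf_dth, tk,
      BoundedContinuousFunction.coe_add, BoundedContinuousFunction.coe_sub,
      BoundedContinuousFunction.coe_smul, Pi.add_apply, Pi.sub_apply, smul_eq_mul]
    push_cast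
    linear_combination ((l : ℂ)⁻¹ * (k : ℂ) ^ 2 * cf p.1 k y) * Complex.I_mul_I
  have h2 : ∀ y θ, ev s ℂ θ (Z y) = val p.2.2 y θ + 2 * val p.2.1 y θ + val p.1 y θ +
      (l : ℂ)⁻¹ * vTT p y θ - (Real.exp (2 * y) : ℝ) / 2 * val p.2.1 y θ := by
    intro y θ
    simp only [Z, ← val_eq_tr]
    simp [val, vTT]
  constructor
  · intro h y θ hy
    rw [← h2, val_eq_tr]
    exact ev_congr (fun k => by rw [h1, h k y hy, cf_tr]) θ
  · intro h k y hy
    rw [← h1, ← cf_tr]
    exact cf_eq_of_ev (fun θ => by rw [h2, h y θ hy, val_eq_tr]) k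

/-- the shrinker equation at each point of `[a, ∞) × ℝ` -/
def PtEq (a l : ℝ) (κ κ' : A s) (p : T3 s) : Prop := ∀ y θ, a ≤ y →
  Mc l (ev s ℂ θ κ) (ev s ℂ θ κ') (val p.1 y θ) (val p.2.1 y θ) (vT p y θ) (val p.2.2 y θ)
    (vYT p y θ) (vTT p y θ) = (Real.exp (2 * y) : ℝ) / 2 * val p.2.1 y θ

lemma eqn_iff (hl : 0 < l) {κ : A s} (κ' : A s) {p : T3 s} (h : Unt l κ p) :
    LinEq a l p (-RemW l κ κ' p) ↔ PtEq a l κ κ' p := by
  rw [linEq_iff hl]
  refine forall₃_congr fun y θ _ => ?_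
  have : val (-RemW l κ κ' p) y θ = -val (RemW l κ κ' p) y θ := map_neg (evR s y θ) _
  rw [this, val_RemW hl κ' h]
  constructor <;> intro h <;> linear_combination h

lemma IsSol.ptEq (hl : 0 < l) {κ κ' : A s} {p : T3 s} (h : IsSol a l κ κ' p) : PtEq a l κ κ' p :=
  (eqn_iff hl κ' h.unt).1 h.eqn

/-! ### Reality -/

lemma val_star (u : W s) (y θ : ℝ) : val (star u) y θ = star (val u y θ) := by
  simp [val, ev_star]

lemma star_up (g : A s) : star (up s g) = up s (star g) :=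
  star_mapL _ (fun c => by ext y; simp) _

lemma star_tr (y : ℝ) (u : W s) : star (tr s y u) = tr s y (star u) :=
  star_mapL _ (fun _ => rfl) _

lemma Clamp.star {u : W s} (h : Clamp a u) : Clamp a (star u) := fun k y => by
  simp only [cf_star, BoundedContinuousFunction.star_apply]
  rw [h]

lemma IsTri.star {p : T3 s} (h : IsTri a p) : IsTri a (star p) where
  c0 := h.c0.star
  c1 := h.c1.star
  c2 := h.c2.star
  d0 k y hy := by simpa using HasDerivWithinAt.star (h.d0 (-k) y hy)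
  d1 k y hy := by simpa using HasDerivWithinAt.star (h.d1 (-k) y hy)

lemma Unt.star {κ : A s} (hκ : star κ = κ) {p : T3 s} (h : Unt l κ p) : Unt l κ (star p) := by
  have e0 : (jets s (Star.star p)).1 = Star.star (jets s p).1 :=
    (star_incl (Nat.le_add_right s 2) _).symm
  have e1 : (jets s (Star.star p)).2.1 = Star.star (jets s p).2.1 :=
    (star_incl (Nat.le_succ s) _).symm
  have e2 : (jets s (Star.star p)).2.2.1 = Star.star (jets s p).2.2.1 := by
    simp only [jets_apply, star_incl, star_dth]; rfl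
  have e3 : Star.star (up s κ) = up s κ := by rw [star_up, hκ]
  have e4 : Star.star (num s l) = num s l := by
    have : num s (l : ℂ) = (l : ℂ) • (1 : W s) := Algebra.algebraMap_eq_smul_one _
    rw [this, star_smul, star_one]; simp
  constructor
  · have := h.1.star
    rwa [star_sub, star_one, star_mul', e3, ← e0] at this
  · have := h.2.map (starRingEnd (W s))
    rw [map_detg] at this
    simp only [starRingEnd_apply, e3, e4] at this
    rwa [e0, e1, e2]

lemma conj_Mc (l : ℝ) (κ κ' u uy q uyy uyt utt : ℂ) :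
    star (Mc l κ κ' u uy q uyy uyt utt) = Mc l (star κ) (star κ') (star u) (star uy) (star q)
      (star uyy) (star uyt) (star utt) := by
  simp [Mc, detg]

lemma IsSol.star (hl : 0 < l) {κ κ' : A s} (hκ : star κ = κ) (hκ' : star κ' = κ') {p : T3 s}
    (h : IsSol a l κ κ' p) : IsSol a l κ κ' (star p) := by
  refine ⟨h.tri.star, h.unt.star hκ, (eqn_iff hl κ' (h.unt.star hκ)).2 fun y θ hy => ?_⟩
  have := congrArg Star.star (h.ptEq hl y θ hy)
  rw [conj_Mc, ← ev_star, ← ev_star, hκ, hκ'] at this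
  simp only [vT, vYT, vTT, ← val_star, star_dth] at this
  refine Eq.trans this ?_
  rw [star_mul', ← val_star, star_div₀, Complex.star_def, Complex.conj_ofReal, map_ofNat]
  rfl

/-- real data give real solutions -/
lemma real_of_unique (hl : 0 < l) {κ κ' : A s} (hκ : star κ = κ) (hκ' : star κ' = κ') {p0 : T3 s}
    (h0 : star p0 = p0) {e : A (s + 2) → T3 s} (hc : ContinuousAt e (tr (s + 2) a p0.1))
    (he : e (tr (s + 2) a p0.1) = p0)
    (h1 : ∀ᶠ g in 𝓝 (tr (s + 2) a p0.1), IsSol a l κ κ' (e g) ∧ tr (s + 2) a (e g).1 = g)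
    (h2 : ∀ᶠ p in 𝓝 p0, IsSol a l κ κ' p → p = e (tr (s + 2) a p.1)) :
    ∀ᶠ g in 𝓝 (tr (s + 2) a p0.1), star g = g → star (e g) = e g := by
  have h3 : Tendsto (fun g => star (e g)) (𝓝 (tr (s + 2) a p0.1)) (𝓝 p0) := by
    have := hc.star.tendsto
    rwa [he, h0] at this
  filter_upwards [h1, h3.eventually h2] with g hg h4 hr
  rw [h4 (hg.1.star hl hκ hκ')]
  congr 1
  change tr (s + 2) a (star (e g).1) = g
  rw [← star_tr, hg.2, hr]

end

end Vale.Agent.P218F.Cone
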