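import Mathlib.Analysis.Calculus.ContDiff.Operations
import Mathlib.Analysis.Calculus.FDeriv.CompCLM
import Mathlib.Analysis.Calculus.FDeriv.Symmetric
import Mathlib.Analysis.Complex.SqrtDeriv
import Mathlib.Analysis.InnerProductSpace.PiL2
import Mathlib.Analysis.SpecialFunctions.ExpDeriv
import Mathlib.LinearAlgebra.CrossProduct

/-!
# The shrinker operator of a complex surface, as a rational function of the two-jet
-/

open Filter Topology Matrix
open scoped ContDiff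

set_option linter.unusedSectionVars false
set_option maxSynthPendingDepth 3

noncomputable section

namespace Vale.Agent.P218F.Core

/-- the parameter plane -/
abbrev P2 : Type := ℝ × ℝ

/-- complex three-space, with the bilinear products `⬝ᵥ` and `⨯₃` -/
abbrev C3 : Type := Fin 3 → ℂ

/-- one-jets -/
abbrev J1 (E V : Type) [NormedAddCommGroup E] [NormedSpace ℝ E] [NormedAddCommGroup V]
    [NormedSpace ℝ V] : Type := V × (E →L[ℝ] V)

/-- two-jets -/
abbrev J2 (E V : Type) [NormedAddCommGroup E] [NormedSpace ℝ E] [NormedAddCommGroup V]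
    [NormedSpace ℝ V] : Type := V × (E →L[ℝ] V) × (E →L[ℝ] E →L[ℝ] V)

section jets

variable {E F V W : Type} [NormedAddCommGroup E] [NormedSpace ℝ E] [NormedAddCommGroup F]
  [NormedSpace ℝ F] [NormedAddCommGroup V] [NormedSpace ℝ V] [NormedAddCommGroup W]
  [NormedSpace ℝ W]

/-- the one-jet of `f` at `y` -/
def jet1 (f : E → V) (y : E) : J1 E V := (f y, fderiv ℝ f y)

/-- the two-jet of `f` at `y` -/
def jet2 (f : E → V) (y : E) : J2 E V := (f y, fderiv ℝ f y, fderiv ℝ (fderiv ℝ f) y)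

/-- the one-jet of a two-jet -/
def J2.one (q : J2 E V) : J1 E V := (q.1, q.2.1)

theorem jet2_one (f : E → V) (y : E) : (jet2 f y).one = jet1 f y := rfl

theorem jet2_congr {f g : E → V} {y : E} (h : f =ᶠ[𝓝 y] g) : jet2 f y = jet2 g y := by
  unfold jet2
  rw [h.self_of_nhds, h.fderiv_eq, h.fderiv.fderiv_eq]

theorem ev_diff {f : E → V} {y : E} (hf : ContDiffAt ℝ 2 f y) :
    ∀ᶠ z in 𝓝 y, DifferentiableAt ℝ f z :=
  (hf.eventually (by simp)).mono fun _ hz => hz.differentiableAt (by simp)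

theorem diff_fderiv {f : E → V} {y : E} (hf : ContDiffAt ℝ 2 f y) :
    DifferentiableAt ℝ (fderiv ℝ f) y :=
  (hf.fderiv_right (m := 1) (by norm_num)).differentiableAt (by simp)

theorem jet2_add {f g : E → V} {y : E} (hf : ContDiffAt ℝ 2 f y) (hg : ContDiffAt ℝ 2 g y) :
    jet2 (fun z => f z + g z) y = jet2 f y + jet2 g y := by
  have h1 : fderiv ℝ (fun z => f z + g z) =ᶠ[𝓝 y] fun z => fderiv ℝ f z + fderiv ℝ g z := by
    filter_upwards [ev_diff hf, ev_diff hg] with z h1 h2 using fderiv_fun_add h1 h2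
  unfold jet2
  rw [h1.self_of_nhds, h1.fderiv_eq, fderiv_fun_add (diff_fderiv hf) (diff_fderiv hg)]
  rfl

/-- the action of a linear map on jets -/
def J2.map (T : V →L[ℝ] W) (q : J2 E V) : J2 E W :=
  (T q.1, T.comp q.2.1, (ContinuousLinearMap.compL ℝ E V W T).comp q.2.2)

theorem jet2_clm (T : V →L[ℝ] W) {f : E → V} {y : E} (hf : ContDiffAt ℝ 2 f y) :
    jet2 (fun z => T (f z)) y = (jet2 f y).map T := by
  have h1 : fderiv ℝ (fun z => T (f z)) =ᶠ[𝓝 y]
      fun z => ContinuousLinearMap.compL ℝ E V W T (fderiv ℝ f z) := by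
    filter_upwards [ev_diff hf] with z hz using (T.hasFDerivAt.comp z hz.hasFDerivAt).fderiv
  refine Prod.ext rfl (Prod.ext h1.self_of_nhds (h1.fderiv_eq.trans ?_))
  exact ((ContinuousLinearMap.compL ℝ E V W T).hasFDerivAt.comp y
    (diff_fderiv hf).hasFDerivAt).fderiv

theorem jet2_sub {f g : E → V} {y : E} (hf : ContDiffAt ℝ 2 f y) (hg : ContDiffAt ℝ 2 g y) :
    jet2 (fun z => f z - g z) y = jet2 f y - jet2 g y := by
  have h : jet2 (fun z => (f z - g z) + g z) y = _ := jet2_add (hf.sub hg) hg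
  simp only [sub_add_cancel] at h
  exact eq_sub_of_add_eq h.symm

theorem jet2_const (c : V) (y : E) : jet2 (fun _ : E => c) y = (c, 0, 0) := by
  simp [jet2]

/-- chain rule for two-jets -/
theorem jet2_comp {g : F → V} {φ : E → F} {y : E} (hg : ContDiffAt ℝ 2 g (φ y))
    (hφ : ContDiffAt ℝ 2 φ y) :
    (jet2 (fun z => g (φ z)) y).1 = (jet2 g (φ y)).1 ∧
    (∀ u, (jet2 (fun z => g (φ z)) y).2.1 u = (jet2 g (φ y)).2.1 (fderiv ℝ φ y u)) ∧
    ∀ u v, (jet2 (fun z => g (φ z)) y).2.2 u v =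
      (jet2 g (φ y)).2.1 (fderiv ℝ (fderiv ℝ φ) y u v) +
        (jet2 g (φ y)).2.2 (fderiv ℝ φ y u) (fderiv ℝ φ y v) := by
  have h1 : fderiv ℝ (fun z => g (φ z)) =ᶠ[𝓝 y]
      fun z => (fderiv ℝ g (φ z)).comp (fderiv ℝ φ z) := by
    filter_upwards [hφ.continuousAt.eventually (ev_diff hg), ev_diff hφ] with z hz1 hz2
    exact fderiv_comp z hz1 hz2
  have hφd : DifferentiableAt ℝ φ y := hφ.differentiableAt (by simp)
  have h2 : HasFDerivAt (fun z => (fderiv ℝ g (φ z))) ((fderiv ℝ (fderiv ℝ g) (φ y)).comp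
      (fderiv ℝ φ y)) y := (diff_fderiv hg).hasFDerivAt.comp y hφd.hasFDerivAt
  have h3 := h2.clm_comp (diff_fderiv hφ).hasFDerivAt
  have h4 : fderiv ℝ (fderiv ℝ (fun z => g (φ z))) y = _ := (h3.congr_of_eventuallyEq h1).fderiv
  refine ⟨rfl, fun u => ?_, fun u v => ?_⟩
  · show fderiv ℝ (fun z => g (φ z)) y u = _
    rw [h1.self_of_nhds]
    rfl
  · show fderiv ℝ (fderiv ℝ (fun z => g (φ z))) y u v = _
    rw [h4]
    simp [jet2]

theorem jet2_symm {f : E → V} {y : E} (hf : ContDiffAt ℝ 2 f y) (u v : E) :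
    (jet2 f y).2.2 u v = (jet2 f y).2.2 v u :=
  (hf.isSymmSndFDerivAt (by simp)).eq u v

end jets

section prod

variable {E V : Type} [NormedAddCommGroup E] [NormedSpace ℝ E] [NormedAddCommGroup V]
  [NormedSpace ℂ V]

/-- the two-jet of the product of a scalar function and a vector function -/
def J2.smul (a : J2 E ℂ) (q : J2 E V) : J2 E V :=
  (a.1 • q.1, a.1 • q.2.1 + a.2.1.smulRight q.1,
    a.1 • q.2.2 + a.2.1.smulRight q.2.1 + (a.2.1.smulRight q.2.1).flip +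
      (ContinuousLinearMap.compL ℝ E ℂ V
        ((ContinuousLinearMap.id ℝ ℂ).smulRight q.1)).comp a.2.2)

theorem J2.smul_fst (a : J2 E ℂ) (q : J2 E V) : (a.smul q).1 = a.1 • q.1 := rfl

theorem J2.smul_one (a : J2 E ℂ) (q : J2 E V) (u : E) :
    (a.smul q).2.1 u = a.1 • q.2.1 u + a.2.1 u • q.1 := rfl

theorem J2.smul_two (a : J2 E ℂ) (q : J2 E V) (u v : E) :
    (a.smul q).2.2 u v = a.1 • q.2.2 u v + a.2.1 u • q.2.1 v + a.2.1 v • q.2.1 u +
      a.2.2 u v • q.1 := rfl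

theorem jet2_smul {a : E → ℂ} {f : E → V} {y : E} (ha : ContDiffAt ℝ 2 a y)
    (hf : ContDiffAt ℝ 2 f y) :
    jet2 (fun z => a z • f z) y = (jet2 a y).smul (jet2 f y) := by
  have h1 : fderiv ℝ (fun z => a z • f z) =ᶠ[𝓝 y]
      fun z => a z • fderiv ℝ f z + (fderiv ℝ a z).smulRight (f z) := by
    filter_upwards [ev_diff ha, ev_diff hf] with z h1 h2 using fderiv_fun_smul h1 h2
  refine Prod.ext rfl (Prod.ext h1.self_of_nhds ?_)
  show fderiv ℝ (fderiv ℝ fun z => a z • f z) y = _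
  rw [h1.fderiv_eq]
  refine ContinuousLinearMap.ext fun u => ContinuousLinearMap.ext fun v => ?_
  have a1 := (ev_diff ha).self_of_nhds
  have f1 := (ev_diff hf).self_of_nhds
  have a2 := diff_fderiv ha
  have f2 := diff_fderiv hf
  have d1 : DifferentiableAt ℝ (fun z => a z • fderiv ℝ f z) y := a1.smul f2
  have d2 : DifferentiableAt ℝ (fun z => (fderiv ℝ a z).smulRight (f z)) y := by
    have e : (fun z => (fderiv ℝ a z).smulRight (f z)) = fun z =>
        ((ContinuousLinearMap.lsmul ℝ ℂ (E := V)).flip (f z)).comp (fderiv ℝ a z) := by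
      funext z; ext; simp
    rw [e]
    exact (((ContinuousLinearMap.lsmul ℝ ℂ (E := V)).flip.differentiableAt).comp y f1).clm_comp a2
  have e1 : ∀ (G : E → E →L[ℝ] V), DifferentiableAt ℝ G y →
      fderiv ℝ G y u v = fderiv ℝ (fun z => G z v) y u := fun G hG => by
    rw [fderiv_clm_apply hG (differentiableAt_const v)]
    simp
  rw [e1 _ (d1.fun_add d2), J2.smul_two]
  have g1 : HasFDerivAt (fun z => fderiv ℝ f z v) ((fderiv ℝ (fderiv ℝ f) y).flip v) y := by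
    simpa using f2.hasFDerivAt.clm_apply (hasFDerivAt_const v y)
  have g2 : HasFDerivAt (fun z => fderiv ℝ a z v) ((fderiv ℝ (fderiv ℝ a) y).flip v) y := by
    simpa using a2.hasFDerivAt.clm_apply (hasFDerivAt_const v y)
  have g3 := (a1.hasFDerivAt.smul g1).add (g2.smul f1.hasFDerivAt)
  rw [show (fun z => (a z • fderiv ℝ f z + (fderiv ℝ a z).smulRight (f z)) v) =
    (a • fun z => fderiv ℝ f z v) + (fun z => fderiv ℝ a z v) • f from rfl, g3.fderiv]
  simp [jet2, add_assoc]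

end prod

/-! ### The operator -/

/-- the first tangent vector -/
def t1 (D : P2 →L[ℝ] C3) : C3 := D (1, 0)

/-- the second tangent vector -/
def t2 (D : P2 →L[ℝ] C3) : C3 := D (0, 1)

/-- the normal `Y₁ × Y₂` -/
def nor (D : P2 →L[ℝ] C3) : C3 := t1 D ⨯₃ t2 D

/-- the determinant of the metric -/
def gdet (D : P2 →L[ℝ] C3) : ℂ := (t1 D ⬝ᵥ t1 D) * (t2 D ⬝ᵥ t2 D) - (t1 D ⬝ᵥ t2 D) ^ 2

/-- the trace `g^{ij} h_{ij}` of a scalar bilinear form -/
def gtr (D : P2 →L[ℝ] C3) (h : P2 → P2 → ℂ) : ℂ :=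
  ((t2 D ⬝ᵥ t2 D) * h (1, 0) (1, 0) - (t1 D ⬝ᵥ t2 D) * (h (1, 0) (0, 1) + h (0, 1) (1, 0)) +
    (t1 D ⬝ᵥ t1 D) * h (0, 1) (0, 1)) / gdet D

/-- the shrinker operator `g^{ij} ⟨Y_{ij}, n⟩ + ⟨Y, n⟩ / 2`, `n = Y₁ × Y₂ / ⟨W, Y₁ × Y₂⟩` -/
def shr (q : J2 P2 C3) (W : C3) : ℂ :=
  (gtr q.2.1 (fun u v => q.2.2 u v ⬝ᵥ nor q.2.1) + q.1 ⬝ᵥ nor q.2.1 / 2) / (W ⬝ᵥ nor q.2.1)

/-- the Lagrangian `exp(-⟨Y, Y⟩ / 4) √(det g)` -/
def lag (q : J1 P2 C3) : ℂ := Complex.exp (-(q.1 ⬝ᵥ q.1) / 4) * Complex.sqrt (gdet q.2)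

/-- the operator of a parametrised surface `Y` with transversal direction `W` -/
def Shr (Y W : P2 → C3) (y : P2) : ℂ := shr (jet2 Y y) (W y)

/-- the inclusion of real three-space -/
def cE : EuclideanSpace ℝ (Fin 3) →L[ℝ] C3 :=
  ContinuousLinearMap.pi fun i => Complex.ofRealCLM.comp (EuclideanSpace.proj i)

@[simp] theorem cE_apply (x : EuclideanSpace ℝ (Fin 3)) (i : Fin 3) : cE x i = (x i : ℂ) := rfl

theorem gdet_eq (D : P2 →L[ℝ] C3) : gdet D = nor D ⬝ᵥ nor D := by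
  unfold gdet nor
  rw [cross_dot_cross, dotProduct_comm (t2 D) (t1 D)]
  ring

theorem lin_eq {V : Type} [AddCommGroup V] [Module ℝ V] [TopologicalSpace V] (D : P2 →L[ℝ] V)
    (u : P2) : D u = u.1 • D (1, 0) + u.2 • D (0, 1) := by
  rw [← map_smul, ← map_smul, ← map_add]
  congr 1
  ext <;> simp

theorem dot_nor (D : P2 →L[ℝ] C3) (u : P2) : D u ⬝ᵥ nor D = 0 := by
  rw [lin_eq D u, add_dotProduct, smul_dotProduct, smul_dotProduct]
  have h1 : D (1, 0) ⬝ᵥ nor D = 0 := dot_self_cross _ _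
  have h2 : D (0, 1) ⬝ᵥ nor D = 0 := dot_cross_self _ _
  rw [h1, h2, smul_zero, smul_zero, add_zero]

/-- the determinant of a linear map of the plane -/
def det2 (A : P2 →L[ℝ] P2) : ℝ := (A (1, 0)).1 * (A (0, 1)).2 - (A (1, 0)).2 * (A (0, 1)).1

theorem nor_comp (D : P2 →L[ℝ] C3) (A : P2 →L[ℝ] P2) :
    nor (D.comp A) = (det2 A : ℂ) • nor D := by
  unfold nor t1 t2 det2
  simp only [ContinuousLinearMap.comp_apply]
  rw [lin_eq D (A (1, 0)), lin_eq D (A (0, 1))]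
  ext i
  fin_cases i <;> simp [cross_apply] <;> ring

theorem gdet_comp (D : P2 →L[ℝ] C3) (A : P2 →L[ℝ] P2) :
    gdet (D.comp A) = (det2 A : ℂ) ^ 2 * gdet D := by
  rw [gdet_eq, gdet_eq, nor_comp, smul_dotProduct, dotProduct_smul, smul_eq_mul, smul_eq_mul]
  ring

theorem gtr_comp (D : P2 →L[ℝ] C3) (A : P2 →L[ℝ] P2) (hA : det2 A ≠ 0)
    (h : P2 →L[ℝ] P2 →L[ℝ] ℂ) :
    gtr (D.comp A) (fun u v => h (A u) (A v)) = gtr D fun u v => h u v := by
  have hA' : (det2 A : ℂ) ≠ 0 := Complex.ofReal_ne_zero.2 hA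
  unfold gtr
  rw [gdet_comp, ← div_div, div_right_comm, div_eq_iff (pow_ne_zero 2 hA'), div_mul_eq_mul_div]
  congr 1
  have e : ∀ u v : P2, h u v = u.1 * v.1 * h (1, 0) (1, 0) + u.1 * v.2 * h (1, 0) (0, 1) +
      u.2 * v.1 * h (0, 1) (1, 0) + u.2 * v.2 * h (0, 1) (0, 1) := fun u v => by
    rw [lin_eq h u, _root_.add_apply, _root_.smul_apply, _root_.smul_apply, lin_eq (h (1, 0)) v,
      lin_eq (h (0, 1)) v]
    simp only [Complex.real_smul]
    ring
  unfold t1 t2 det2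
  simp only [ContinuousLinearMap.comp_apply]
  rw [lin_eq D (A (1, 0)), lin_eq D (A (0, 1)), e (A (1, 0)) (A (1, 0)), e (A (1, 0)) (A (0, 1)),
    e (A (0, 1)) (A (1, 0)), e (A (0, 1)) (A (0, 1))]
  simp only [add_dotProduct, dotProduct_add, smul_dotProduct, dotProduct_smul, Complex.real_smul,
    dotProduct_comm (D (0, 1)) (D (1, 0))]
  push_cast
  ring

theorem gtr_congr (D : P2 →L[ℝ] C3) {h k : P2 → P2 → ℂ} (e : ∀ u v, h u v = k u v) :
    gtr D h = gtr D k := by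
  rw [show h = k from funext fun u => funext (e u)]

theorem gtr_add (D : P2 →L[ℝ] C3) (h k : P2 → P2 → ℂ) :
    gtr D (fun u v => h u v + k u v) = gtr D h + gtr D k := by
  unfold gtr; ring

theorem gtr_mul (D : P2 →L[ℝ] C3) (c : ℂ) (h : P2 → P2 → ℂ) :
    gtr D (fun u v => c * h u v) = c * gtr D h := by
  unfold gtr; ring

/-- the pairing of a vector valued bilinear form with a vector -/
def dotL (m : C3) : C3 →L[ℝ] ℂ :=
  ∑ i, m i • (ContinuousLinearMap.proj i : C3 →L[ℝ] ℂ)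

theorem dotL_apply (m x : C3) : dotL m x = x ⬝ᵥ m := by
  simp [dotL, dotProduct, mul_comm]

/-- invariance under reparametrisation, on jets -/
theorem shr_reparam {q q' : J2 P2 C3} {A : P2 →L[ℝ] P2} {B : P2 → P2 → P2} (hA : det2 A ≠ 0)
    (h0 : q'.1 = q.1) (h1 : ∀ u, q'.2.1 u = q.2.1 (A u))
    (h2 : ∀ u v, q'.2.2 u v = q.2.1 (B u v) + q.2.2 (A u) (A v)) (W : C3) :
    shr q' W = shr q W := by
  have hA' : (det2 A : ℂ) ≠ 0 := Complex.ofReal_ne_zero.2 hA
  have e1 : q'.2.1 = q.2.1.comp A := ContinuousLinearMap.ext h1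
  unfold shr
  rw [h0, e1, nor_comp]
  have e2 := gtr_comp q.2.1 A hA
    ((ContinuousLinearMap.compL ℝ P2 C3 ℂ (dotL (nor q.2.1))).comp q.2.2)
  simp only [ContinuousLinearMap.comp_apply, ContinuousLinearMap.compL_apply, dotL_apply] at e2
  rw [gtr_congr (k := fun u v => (det2 A : ℂ) * (q.2.2 (A u) (A v) ⬝ᵥ nor q.2.1)) _ fun u v => by
    rw [h2, dotProduct_smul, add_dotProduct, dot_nor, zero_add, smul_eq_mul], gtr_mul, e2,
    dotProduct_smul, dotProduct_smul, smul_eq_mul, smul_eq_mul, mul_div_assoc, ← mul_add,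
    mul_div_mul_left _ _ hA']

/-- **invariance under reparametrisation** -/
theorem Shr_comp {Y W : P2 → C3} {φ : P2 → P2} {y : P2} (hY : ContDiffAt ℝ 2 Y (φ y))
    (hφ : ContDiffAt ℝ 2 φ y) (hA : det2 (fderiv ℝ φ y) ≠ 0) :
    Shr (fun z => Y (φ z)) (fun z => W (φ z)) y = Shr Y W (φ y) := by
  obtain ⟨h0, h1, h2⟩ := jet2_comp hY hφ
  exact shr_reparam (B := fun u v => fderiv ℝ (fderiv ℝ φ) y u v) hA h0 h1 h2 _

theorem Shr_congr {Y Y' W W' : P2 → C3} {y : P2} (h : Y =ᶠ[𝓝 y] Y') (hW : W y = W' y) :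
    Shr Y W y = Shr Y' W' y := by
  unfold Shr
  rw [jet2_congr h, hW]

/-- complex rotations -/
structure IsRot (O : C3 →L[ℝ] C3) : Prop where
  dot : ∀ x y, O x ⬝ᵥ O y = x ⬝ᵥ y
  cross : ∀ x y, O x ⨯₃ O y = O (x ⨯₃ y)

theorem IsRot.nor {O : C3 →L[ℝ] C3} (h : IsRot O) (D : P2 →L[ℝ] C3) :
    nor (O.comp D) = O (nor D) := h.cross _ _

theorem IsRot.gdet {O : C3 →L[ℝ] C3} (h : IsRot O) (D : P2 →L[ℝ] C3) :
    gdet (O.comp D) = gdet D := by
  rw [gdet_eq, gdet_eq, h.nor, h.dot]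

/-- invariance under rotations -/
theorem IsRot.shr {O : C3 →L[ℝ] C3} (h : IsRot O) (q : J2 P2 C3) (W : C3) :
    shr (q.map O) (O W) = shr q W := by
  unfold Core.shr gtr
  simp only [J2.map]
  rw [h.gdet, h.nor]
  simp only [t1, t2, ContinuousLinearMap.comp_apply, ContinuousLinearMap.compL_apply, h.dot]

theorem IsRot.Shr {O : C3 →L[ℝ] C3} (h : IsRot O) {Y W : P2 → C3} {y : P2}
    (hY : ContDiffAt ℝ 2 Y y) : Shr (fun z => O (Y z)) (fun z => O (W z)) y = Shr Y W y := by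
  unfold Core.Shr
  rw [jet2_clm O hY, h.shr]

theorem IsRot.lag {O : C3 →L[ℝ] C3} (h : IsRot O) (Y : C3) (D : P2 →L[ℝ] C3) :
    lag (O Y, O.comp D) = lag (Y, D) := by
  unfold Core.lag
  simp only [h.dot, h.gdet]

/-- the operator is quasilinear -/
theorem shr_add_two (q : J2 P2 C3) (W : C3) (hW : W ⬝ᵥ nor q.2.1 ≠ 0)
    (h : P2 →L[ℝ] P2 →L[ℝ] ℂ) {H : P2 →L[ℝ] P2 →L[ℝ] C3} (e : ∀ u v, H u v = h u v • W) :
    shr (q.1, q.2.1, q.2.2 + H) W = shr q W + gtr q.2.1 fun u v => h u v := by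
  unfold shr
  simp only
  rw [gtr_congr (k := fun u v => q.2.2 u v ⬝ᵥ nor q.2.1 + (W ⬝ᵥ nor q.2.1) * h u v) _
    fun u v => by
      rw [_root_.add_apply, _root_.add_apply, e, add_dotProduct, smul_dotProduct, smul_eq_mul,
        mul_comm], gtr_add, gtr_mul]
  field_simp
  ring

end Vale.Agent.P218F.Core
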