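import Vale.Agent.P218F.ConeSol
import Vale.Agent.P218F.CoreJet

/-!
# Conical ends: the interface

A conical end is `X(y, θ) = e^y (γ(θ) + ψ(y, θ) ν(θ))`, `y = log ρ`, `γ` a closed curve on the unit
sphere of constant speed `√l` and period `2π`, `ν` the unit normal of the cone over `γ`.
`T3 s = W (s+2) × W (s+1) × W s` holds `(u, u_y, u_yy)`, `W s = WA ℤ s (ℝ →ᵇ ℂ)`, `A s = WA ℤ s ℂ`,
`val w y θ` is the value of `w : W s` at `(y, θ)`, `‖val w y θ‖ ≤ ‖w‖`.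
-/

namespace Vale.Agent.P218F.Cone

open Set Metric Wien Core
open scoped ContDiff RealInnerProductSpace Real

noncomputable section

/-- the data of a conical end -/
structure ConeData where
  γ : ℝ → EuclideanSpace ℝ (Fin 3)
  ν : ℝ → EuclideanSpace ℝ (Fin 3)
  l : ℝ
  y0 : ℝ
  ψ : P2 → ℝ

/-- the complex surface `e^y (γ + u ν)` -/
def ConeData.Y (c : ConeData) (u : P2 → ℂ) : P2 → C3 :=
  fun z => ((Real.exp z.1 : ℝ) : ℂ) • (cE (c.γ z.2) + u z • cE (c.ν z.2))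

/-- the transversal direction -/
def ConeData.V (c : ConeData) : P2 → C3 := fun z => cE (c.ν z.2)

/-- the geodesic curvature of `γ` -/
def ConeData.κ (c : ConeData) (θ : ℝ) : ℝ := ⟪deriv (deriv c.γ) θ, c.ν θ⟫ / c.l

/-- the cone -/
structure ConeData.Frame (c : ConeData) : Prop where
  l_pos : 0 < c.l
  smooth_γ : ContDiff ℝ ∞ c.γ
  smooth_ν : ContDiff ℝ ∞ c.ν
  per_γ : Function.Periodic c.γ (2 * π)
  per_ν : Function.Periodic c.ν (2 * π)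
  norm_γ : ∀ θ, ‖c.γ θ‖ = 1
  norm_ν : ∀ θ, ‖c.ν θ‖ = 1
  inner_γν : ∀ θ, ⟪c.γ θ, c.ν θ⟫ = 0
  speed : ∀ θ, ‖deriv c.γ θ‖ ^ 2 = c.l
  inner_dν : ∀ θ, ⟪deriv c.γ θ, c.ν θ⟫ = 0

/-- what ENDS has to deliver for a conical end -/
structure ConeData.OK (c : ConeData) : Prop extends c.Frame where
  smooth_ψ : ContDiffOn ℝ ∞ c.ψ (Ioi c.y0 ×ˢ univ)
  per_ψ : ∀ y θ, c.ψ (y, θ + 2 * π) = c.ψ (y, θ)
  decay : ∀ (k : ℕ) (ε : ℝ), 0 < ε → ∃ y1, ∀ z : P2, y1 ≤ z.1 → ‖iteratedFDeriv ℝ k c.ψ z‖ ≤ ε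
  shr : ∀ z : P2, c.y0 < z.1 → Shr (c.Y fun z => (c.ψ z : ℂ)) c.V z = 0

/-- the function of `(y, θ)` given by a triple -/
def fn {s : ℕ} (p : T3 s) : P2 → ℂ := fun z => val p.1 z.1 z.2

/-- its first derivative -/
def fn1 {s : ℕ} (p : T3 s) (z : P2) : P2 →L[ℝ] ℂ :=
  (ContinuousLinearMap.fst ℝ ℝ ℝ).smulRight (val p.2.1 z.1 z.2) +
    (ContinuousLinearMap.snd ℝ ℝ ℝ).smulRight (vT p z.1 z.2)

/-- its second derivative -/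
def fn2 {s : ℕ} (p : T3 s) (z : P2) : P2 →L[ℝ] P2 →L[ℝ] ℂ :=
  (ContinuousLinearMap.fst ℝ ℝ ℝ).smulRight
      ((ContinuousLinearMap.fst ℝ ℝ ℝ).smulRight (val p.2.2 z.1 z.2) +
        (ContinuousLinearMap.snd ℝ ℝ ℝ).smulRight (vYT p z.1 z.2)) +
    (ContinuousLinearMap.snd ℝ ℝ ℝ).smulRight
      ((ContinuousLinearMap.fst ℝ ℝ ℝ).smulRight (vYT p z.1 z.2) +
        (ContinuousLinearMap.snd ℝ ℝ ℝ).smulRight (vTT p z.1 z.2))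

/-- a triple is a `C²` function on the closed half plane; all jets are bounded by `‖p‖`
(`norm_val_le`) and are linear in `p` -/
def TriStmt : Prop := ∀ (s : ℕ) (a : ℝ) (p : T3 s), IsTri a p →
  ContDiffOn ℝ 2 (fn p) (Ici a ×ˢ univ) ∧ Continuous (fn p) ∧ Continuous (fn1 p) ∧
  Continuous (fn2 p) ∧
  (∀ z : P2, a ≤ z.1 → HasFDerivWithinAt (fn p) (fn1 p z) (Ici a ×ˢ univ) z ∧
    HasFDerivWithinAt (fn1 p) (fn2 p z) (Ici a ×ˢ univ) z) ∧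
  ∀ z : P2, a < z.1 → ContDiffAt ℝ 2 (fn p) z ∧ jet2 (fn p) z = (fn p z, fn1 p z, fn2 p z)

/-- the operator, the metric and the Lagrangian in the cone chart -/
def GeomStmt : Prop := ∀ c : ConeData, c.Frame → ∀ (u : P2 → ℂ) (z : P2), ContDiffAt ℝ 2 u z →
  let J := jet2 u z
  let D := detg (c.l : ℂ) (c.κ z.2) J.1 (J.2.1 (1, 0)) (J.2.1 (0, 1))
  gdet (fderiv ℝ (c.Y u) z) = (Real.exp (4 * z.1) : ℝ) * D ∧
  c.Y u z ⬝ᵥ c.Y u z = (Real.exp (2 * z.1) : ℝ) * (1 + u z ^ 2) ∧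
  (c.V z ⬝ᵥ nor (fderiv ℝ (c.Y u) z)) ^ 2 = (Real.exp (4 * z.1) : ℝ) * c.l * (1 - c.κ z.2 * u z) ^ 2 ∧
  (1 - c.κ z.2 * u z ≠ 0 → D ≠ 0 → (Real.exp z.1 : ℝ) * Shr (c.Y u) c.V z =
    Mc c.l (c.κ z.2) (deriv c.κ z.2 : ℝ) J.1 (J.2.1 (1, 0)) (J.2.1 (0, 1)) (J.2.2 (1, 0) (1, 0))
      (J.2.2 (1, 0) (0, 1)) (J.2.2 (0, 1) (0, 1)) - (Real.exp (2 * z.1) : ℝ) / 2 * J.2.1 (1, 0))

/-- The end solver.  `e g` is the bounded solution on `[a, ∞) × S¹` with trace `g` at `y = a`,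
`eE g = e^{2y} u_y`; `g0` is the trace of the given end. -/
structure IsSolver {s : ℕ} (c : ConeData) (ε a r M : ℝ) (g0 : A (s + 2)) (e : A (s + 2) → T3 s)
    (eE : A (s + 2) → W s) : Prop where
  r_pos : 0 < r
  y0_lt : c.y0 < a
  ev_g0 : ∀ θ, ev (s + 2) ℂ θ g0 = c.ψ (a, θ)
  star_g0 : star g0 = g0
  an : AnalyticOnNhd ℂ e (ball g0 r)
  anE : AnalyticOnNhd ℂ eE (ball g0 r)
  base : ∀ z : P2, a ≤ z.1 → fn (e g0) z = c.ψ z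
  small : ∀ g ∈ ball g0 r, ‖e g‖ ≤ ε
  bdE : ∀ g ∈ ball g0 r, ‖eE g‖ ≤ M
  tri : ∀ g ∈ ball g0 r, IsTri a (e g)
  trace : ∀ g ∈ ball g0 r, ∀ θ, fn (e g) (a, θ) = ev (s + 2) ℂ θ g
  shr : ∀ g ∈ ball g0 r, ∀ z : P2, a < z.1 → Shr (c.Y (fn (e g))) c.V z = 0
  drift : ∀ g ∈ ball g0 r, ∀ y θ, a ≤ y →
    val (eE g) y θ = (Real.exp (2 * y) : ℝ) * val (e g).2.1 y θ
  real : ∀ g ∈ ball g0 r, star g = g → star (e g) = e g
  dtri : ∀ g ∈ ball g0 r, ∀ h, IsTri a (fderiv ℂ e g h)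
  dtrace : ∀ g ∈ ball g0 r, ∀ h θ, fn (fderiv ℂ e g h) (a, θ) = ev (s + 2) ℂ θ h
  ddrift : ∀ g ∈ ball g0 r, ∀ h y θ, a ≤ y →
    val (fderiv ℂ eE g h) y θ = (Real.exp (2 * y) : ℝ) * val (fderiv ℂ e g h).2.1 y θ

/-- existence of the end solver for every large starting radius -/
def ConeStmt : Prop := ∀ (s : ℕ) (c : ConeData), c.OK → ∀ ε : ℝ, 0 < ε → ∃ a0 M : ℝ, ∀ a ≥ a0,
  ∃ (r : ℝ) (g0 : A (s + 2)) (e : A (s + 2) → T3 s) (eE : A (s + 2) → W s),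
    IsSolver c ε a r M g0 e eE

end

end Vale.Agent.P218F.Cone
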