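import Vale.Agent.P218F.Wien2
import Mathlib.MeasureTheory.Integral.DominatedConvergence
import Mathlib.Analysis.Calculus.ContDiff.Operations
import Mathlib.Analysis.Calculus.Deriv.Star
import Mathlib.Analysis.Calculus.Deriv.Inv

/-!
# Elements of `WA ℤ s (X →ᵇ E)` as functions of two variables

`val u x θ = ∑ e^{i k θ} u_k x`.  Trace `tr x`, derivative in the first variable (`ZDer`, mode by
mode), joint differentiability, and the embedding of functions with bounded `θ`-derivatives.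
-/

noncomputable section

namespace Vale.Agent.P218F.Wien

open Filter Topology Set MeasureTheory BoundedContinuousFunction
open scoped Real

set_option maxSynthPendingDepth 3

instance {G : Type*} [SeminormedAddCommGroup G] {s : ℕ} {A : Type*} [NormedCommRing A]
    [NormedAlgebra ℂ A] [CompleteSpace A] : IsTopologicalRing (WA G s A) := inferInstance

section Tr

variable {G : Type*} [SeminormedAddCommGroup G] {s t : ℕ} {X : Type*} [TopologicalSpace X]
  {E : Type*} [NormedAddCommGroup E] [NormedSpace ℂ E] [CompleteSpace E]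

omit [CompleteSpace E] in
theorem norm_evalCLM_le (x : X) : ‖(evalCLM ℂ x : (X →ᵇ E) →L[ℂ] E)‖ ≤ 1 :=
  ContinuousLinearMap.opNorm_le_bound _ zero_le_one fun f => by
    simpa using f.norm_coe_le_norm x

/-- The trace at the point `x`. -/
def tr (G : Type*) [SeminormedAddCommGroup G] (s : ℕ) (E : Type*) [NormedAddCommGroup E]
    [NormedSpace ℂ E] [CompleteSpace E] (x : X) : WA G s (X →ᵇ E) →L[ℂ] WA G s E :=
  mapL G s (evalCLM ℂ x)

@[simp] theorem cf_tr (x : X) (u : WA G s (X →ᵇ E)) (k : G) : cf (tr G s E x u) k = cf u k x :=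
  cf_mapL _ _ _

theorem norm_tr_apply_le (x : X) (u : WA G s (X →ᵇ E)) : ‖tr G s E x u‖ ≤ ‖u‖ :=
  (norm_mapL_apply_le _ u).trans
    (mul_le_of_le_one_left (norm_nonneg _) (norm_evalCLM_le x))

theorem norm_tr_le (x : X) : ‖tr G s E x‖ ≤ 1 :=
  (norm_mapL_le _).trans (norm_evalCLM_le x)

theorem tr_incl (h : t ≤ s) (x : X) (u : WA G s (X →ᵇ E)) :
    tr G t E x (incl G (X →ᵇ E) h u) = incl G E h (tr G s E x u) := by
  ext k; simp

omit [CompleteSpace E] in
theorem norm_single_cf_le (u : WA G s (X →ᵇ E)) (k : G) (x : X) :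
    ‖single s k (cf u k x)‖ ≤ wt s k * ‖cf u k‖ := by
  rw [norm_single]
  exact mul_le_mul_of_nonneg_left ((cf u k).norm_coe_le_norm x) (wt_pos s k).le

theorem hasSum_tr (x : X) (u : WA G s (X →ᵇ E)) :
    HasSum (fun k => single s k (cf u k x)) (tr G s E x u) := by
  simpa only [cf_tr] using hasSum_single (tr G s E x u)

theorem continuous_tr (u : WA G s (X →ᵇ E)) : Continuous fun x => tr G s E x u := by
  have h : Continuous fun x => ∑' k, (single s k (cf u k x) : WA G s E) :=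
    continuous_tsum (fun k => (single s k : E →L[ℂ] WA G s E).continuous.comp (cf u k).continuous)
      (summable_norm u)
      fun k x => norm_single_cf_le u k x
  simpa only [(hasSum_tr _ u).tsum_eq] using h

theorem continuous_tr₂ : Continuous fun p : X × WA G s (X →ᵇ E) => tr G s E p.1 p.2 :=
  continuous_prod_of_continuous_lipschitzWith' (fun p : X × WA G s (X →ᵇ E) => tr G s E p.1 p.2) 1
    (fun x => LipschitzWith.of_dist_le_mul fun u v => by
      rw [dist_eq_norm, dist_eq_norm, ← map_sub]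
      simpa using norm_tr_apply_le x (u - v))
    (fun u => continuous_tr u)

/-- Functions of the angle as functions which do not depend on `x`. -/
def cst (G : Type*) [SeminormedAddCommGroup G] (s : ℕ) (X : Type*) [TopologicalSpace X]
    (E : Type*) [NormedAddCommGroup E] [NormedSpace ℂ E] [CompleteSpace E] :
    WA G s E →L[ℂ] WA G s (X →ᵇ E) :=
  mapL G s (LinearMap.mkContinuous
    { toFun := fun a => BoundedContinuousFunction.const X a
      map_add' := fun _ _ => by ext; simp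
      map_smul' := fun _ _ => by ext; simp } 1 fun a => by
        simpa using BoundedContinuousFunction.norm_const_le (α := X) a)

@[simp] theorem cf_cst (u : WA G s E) (k : G) (x : X) : cf (cst G s X E u) k x = cf u k := by
  rw [cst, cf_mapL]; rfl

@[simp] theorem tr_cst (x : X) (u : WA G s E) : tr G s E x (cst G s X E u) = u := by
  ext k; simp

theorem norm_cst_apply_le (u : WA G s E) : ‖cst G s X E u‖ ≤ ‖u‖ := by
  have := norm_le_of_cf (u := cst G s X E u) (v := u) (C := 1) fun k => by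
    rw [one_mul]
    refine mul_le_mul_of_nonneg_left ?_ (wt_pos s k).le
    exact (BoundedContinuousFunction.norm_le (norm_nonneg _)).2 fun x => by simp
  simpa using this

/-- Change of the variable `x`. -/
def pull (G : Type*) [SeminormedAddCommGroup G] (s : ℕ) (E : Type*) [NormedAddCommGroup E]
    [NormedSpace ℂ E] [CompleteSpace E] {Y : Type*} [TopologicalSpace Y] (g : C(Y, X)) :
    WA G s (X →ᵇ E) →L[ℂ] WA G s (Y →ᵇ E) :=
  mapL G s (LinearMap.mkContinuous
    { toFun := fun f => f.compContinuous g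
      map_add' := fun _ _ => by ext; simp
      map_smul' := fun _ _ => by ext; simp } 1 fun f => by
        simpa using BoundedContinuousFunction.norm_compContinuous_le f g)

@[simp] theorem cf_pull {Y : Type*} [TopologicalSpace Y] (g : C(Y, X)) (u : WA G s (X →ᵇ E))
    (k : G) (y : Y) : cf (pull G s E g u) k y = cf u k (g y) := by
  rw [pull, cf_mapL]; rfl

theorem norm_pull_apply_le {Y : Type*} [TopologicalSpace Y] (g : C(Y, X)) (u : WA G s (X →ᵇ E)) :
    ‖pull G s E g u‖ ≤ ‖u‖ := by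
  have := norm_le_of_cf (u := pull G s E g u) (v := u) (C := 1) fun k => by
    rw [one_mul]
    refine mul_le_mul_of_nonneg_left ?_ (wt_pos s k).le
    exact (BoundedContinuousFunction.norm_le (norm_nonneg _)).2 fun x => by
      rw [cf_pull]; exact (cf u k).norm_coe_le_norm _
  simpa using this

/-- The value at `(x, θ)` as a continuous linear map. -/
def valL (s : ℕ) (E : Type*) [NormedAddCommGroup E] [NormedSpace ℂ E] [CompleteSpace E] (x : X)
    (θ : ℝ) : WA ℤ s (X →ᵇ E) →L[ℂ] E :=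
  (evalCLM ℂ x).comp (ev s (X →ᵇ E) θ)

/-- The value at `(x, θ)`. -/
def val (u : WA ℤ s (X →ᵇ E)) (x : X) (θ : ℝ) : E := valL s E x θ u

theorem valL_apply (x : X) (θ : ℝ) (u : WA ℤ s (X →ᵇ E)) : valL s E x θ u = val u x θ := rfl

theorem val_eq_ev (u : WA ℤ s (X →ᵇ E)) (x : X) (θ : ℝ) :
    val u x θ = ev s (X →ᵇ E) θ u x := rfl

theorem ev_tr (u : WA ℤ s (X →ᵇ E)) (x : X) (θ : ℝ) : ev s E θ (tr ℤ s E x u) = val u x θ :=
  ev_mapL _ θ u

theorem hasSum_val (u : WA ℤ s (X →ᵇ E)) (x : X) (θ : ℝ) :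
    HasSum (fun k => ch θ k • cf u k x) (val u x θ) := by
  simpa only [cf_tr, ev_tr] using hasSum_ev θ (tr ℤ s E x u)

theorem val_eq_tsum (u : WA ℤ s (X →ᵇ E)) (x : X) (θ : ℝ) :
    val u x θ = ∑' k, ch θ k • cf u k x := (hasSum_val u x θ).tsum_eq.symm

theorem norm_val_le (u : WA ℤ s (X →ᵇ E)) (x : X) (θ : ℝ) : ‖val u x θ‖ ≤ ‖u‖ := by
  rw [← ev_tr]
  exact (norm_ev_apply_le _ _).trans (norm_tr_apply_le x u)

theorem norm_valL_le (x : X) (θ : ℝ) : ‖valL s E x θ‖ ≤ 1 :=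
  ContinuousLinearMap.opNorm_le_bound _ zero_le_one fun u => by
    simpa [valL_apply] using norm_val_le u x θ

@[simp] theorem val_zero (x : X) (θ : ℝ) : val (0 : WA ℤ s (X →ᵇ E)) x θ = 0 :=
  map_zero (valL s E x θ)

@[simp] theorem val_add (u v : WA ℤ s (X →ᵇ E)) (x : X) (θ : ℝ) :
    val (u + v) x θ = val u x θ + val v x θ := map_add (valL s E x θ) u v

@[simp] theorem val_sub (u v : WA ℤ s (X →ᵇ E)) (x : X) (θ : ℝ) :
    val (u - v) x θ = val u x θ - val v x θ := map_sub (valL s E x θ) u v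

@[simp] theorem val_neg (u : WA ℤ s (X →ᵇ E)) (x : X) (θ : ℝ) : val (-u) x θ = -val u x θ :=
  map_neg (valL s E x θ) u

@[simp] theorem val_smul (c : ℂ) (u : WA ℤ s (X →ᵇ E)) (x : X) (θ : ℝ) :
    val (c • u) x θ = c • val u x θ := map_smul (valL s E x θ) c u

@[simp] theorem val_incl (h : t ≤ s) (u : WA ℤ s (X →ᵇ E)) (x : X) (θ : ℝ) :
    val (incl ℤ (X →ᵇ E) h u) x θ = val u x θ := by
  rw [val_eq_ev, ev_incl, val_eq_ev]

@[simp] theorem val_single (k : ℤ) (a : X →ᵇ E) (x : X) (θ : ℝ) :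
    val (single s k a) x θ = ch θ k • a x := by
  rw [val_eq_ev, ev_single]; rfl

@[simp] theorem val_cst (u : WA ℤ s E) (x : X) (θ : ℝ) :
    val (cst ℤ s X E u) x θ = ev s E θ u := by
  rw [← ev_tr, tr_cst]

@[simp] theorem val_pull {Y : Type*} [TopologicalSpace Y] (g : C(Y, X)) (u : WA ℤ s (X →ᵇ E))
    (y : Y) (θ : ℝ) : val (pull ℤ s E g u) y θ = val u (g y) θ := by
  simp only [val_eq_tsum, cf_pull]

theorem val_congr {u : WA ℤ s (X →ᵇ E)} {v : WA ℤ t (X →ᵇ E)} {x y : X}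
    (h : ∀ k, cf u k x = cf v k y) (θ : ℝ) : val u x θ = val v y θ := by
  simp only [val_eq_tsum, h]

theorem val_periodic (u : WA ℤ s (X →ᵇ E)) (x : X) : Function.Periodic (val u x) (2 * π) :=
  fun θ => by rw [← ev_tr, ← ev_tr]; exact ev_periodic _ θ

theorem continuous_val (u : WA ℤ s (X →ᵇ E)) : Continuous fun p : X × ℝ => val u p.1 p.2 := by
  simp only [← ev_tr]
  exact Continuous.ev continuous_snd ((continuous_tr u).comp continuous_fst)

@[fun_prop] theorem Continuous.val {Y : Type*} [TopologicalSpace Y] {u : Y → WA ℤ s (X →ᵇ E)}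
    {x : Y → X} {θ : Y → ℝ} (hu : Continuous u) (hx : Continuous x) (hθ : Continuous θ) :
    Continuous fun y => val (u y) (x y) (θ y) := by
  simp only [← ev_tr]
  exact Continuous.ev hθ (continuous_tr₂.comp (hx.prodMk hu))

theorem coef_val (u : WA ℤ s (X →ᵇ E)) (x : X) (k : ℤ) : coef (val u x) k = cf u k x := by
  rw [← cf_tr, ← coef_ev]
  simp only [ev_tr]

theorem cf_eq_of_val {u : WA ℤ s (X →ᵇ E)} {v : WA ℤ t (X →ᵇ E)} {x y : X}
    (h : ∀ θ, val u x θ = val v y θ) (k : ℤ) : cf u k x = cf v k y := by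
  rw [← coef_val, ← coef_val, funext h]

theorem ext_val {u v : WA ℤ s (X →ᵇ E)} (h : ∀ x θ, val u x θ = val v x θ) : u = v := by
  ext k x
  exact cf_eq_of_val (h x) k

theorem tr_dth (x : X) (u : WA ℤ (s + 1) (X →ᵇ E)) :
    tr ℤ s E x (dth s (X →ᵇ E) u) = dth s E (tr ℤ (s + 1) E x u) := by
  ext k; simp

theorem hasDerivAt_val (u : WA ℤ (s + 1) (X →ᵇ E)) (x : X) (θ : ℝ) :
    HasDerivAt (val u x) (val (dth s (X →ᵇ E) u) x θ) θ := by
  have h := hasDerivAt_ev (tr ℤ (s + 1) E x u) θ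
  simp only [← tr_dth, ev_tr] at h
  exact h

theorem val_star [StarAddMonoid E] [NormedStarGroup E] [StarModule ℂ E] (u : WA ℤ s (X →ᵇ E))
    (x : X) (θ : ℝ) : val (star u) x θ = star (val u x θ) := by
  rw [val_eq_ev, ev_star]; rfl

theorem star_eq_iff_val [StarAddMonoid E] [NormedStarGroup E] [StarModule ℂ E]
    (u : WA ℤ s (X →ᵇ E)) : star u = u ↔ ∀ x θ, star (val u x θ) = val u x θ :=
  ⟨fun h x θ => by rw [← val_star, h], fun h => ext_val fun x θ => by rw [val_star, h]⟩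

theorem star_tr [StarAddMonoid E] [NormedStarGroup E] (x : X) (u : WA G s (X →ᵇ E)) :
    star (tr G s E x u) = tr G s E x (star u) := by
  ext k; simp

/-- A function of `(x, θ)` with bounded `θ`-derivatives up to order `s + 2` comes from the Wiener
space. -/
theorem exists_of_deriv_param {f : ℕ → X → ℝ → E}
    (hf : ∀ j < s + 2, ∀ x θ, HasDerivAt (f j x) (f (j + 1) x θ) θ)
    (hc0 : Continuous fun p : X × ℝ => f 0 p.1 p.2) (hc : ∀ x, Continuous (f (s + 2) x))
    (hp : ∀ x, Function.Periodic (f 0 x) (2 * π)) {M₀ M : ℝ} (hM₀ : 0 ≤ M₀) (hM' : 0 ≤ M)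
    (h0 : ∀ x θ, ‖f 0 x θ‖ ≤ M₀) (hM : ∀ x θ, ‖f (s + 2) x θ‖ ≤ M) :
    ∃ u : WA ℤ s (X →ᵇ E), (∀ x θ, val u x θ = f 0 x θ) ∧ ‖u‖ ≤ M₀ + 2 ^ (s + 2) * M := by
  have hcont : ∀ k : ℤ, Continuous fun x => coef (f 0 x) k := fun k => by
    unfold coef
    refine continuous_const.smul ?_
    exact intervalIntegral.continuous_parametric_intervalIntegral_of_continuous'
      (f := fun x θ => ch θ (-k) • f 0 x θ)
      (((continuous_ch _).comp continuous_snd).smul hc0) _ _
  let c : ℤ → X →ᵇ E := fun k => BoundedContinuousFunction.ofNormedAddCommGroup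
    (fun x => coef (f 0 x) k) (hcont k) M₀ fun x => norm_coef_le (fun θ _ => h0 x θ) k
  have hc1 : ∀ k x, c k x = coef (f 0 x) k := fun _ _ => rfl
  obtain ⟨h1, h2⟩ := summable_of_decay (s := s) (c := fun k => ‖c k‖) (M₀ := M₀) (M := M)
    (fun _ => norm_nonneg _)
    ((BoundedContinuousFunction.norm_le hM₀).2 fun x => norm_coef_le (fun θ _ => h0 x θ) 0)
    (fun k => by
      by_cases hk : k = 0
      · subst hk; simpa using hM'
      · have hpos : 0 < |(k : ℝ)| ^ (s + 2) := by positivity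
        rw [← le_div_iff₀' hpos]
        refine (BoundedContinuousFunction.norm_le (by positivity)).2 fun x => ?_
        rw [le_div_iff₀' hpos]
        exact coef_decay (f := fun j => f j x) (fun j hj => hf j hj x) (hc x) (hp x) (hM x) k)
  refine ⟨mk c h1, fun x θ => ?_, by rw [norm_mk]; exact h2⟩
  rw [← ev_tr]
  exact ev_eq_of_cf (f := f 0 x) (hc0.comp (Continuous.prodMk_right x)) (hp x)
    (fun k => by simp [hc1]) θ

end Tr

section TrAlg

variable {G : Type*} [SeminormedAddCommGroup G] {s : ℕ} {X : Type*} [TopologicalSpace X]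
  {A : Type*} [NormedCommRing A] [NormedAlgebra ℂ A] [CompleteSpace A]

theorem tr_mul (x : X) (u v : WA G s (X →ᵇ A)) :
    tr G s A x (u * v) = tr G s A x u * tr G s A x v :=
  mapL_mul _ (fun _ _ => rfl) u v

theorem tr_one (x : X) : tr G s A x 1 = 1 := mapL_one _ rfl

/-- The trace as an algebra homomorphism. -/
def trA (G : Type*) [SeminormedAddCommGroup G] (s : ℕ) (A : Type*) [NormedCommRing A]
    [NormedAlgebra ℂ A] [CompleteSpace A] (x : X) : WA G s (X →ᵇ A) →ₐ[ℂ] WA G s A :=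
  AlgHom.ofLinearMap (tr G s A x).toLinearMap (tr_one x) (tr_mul x)

theorem trA_apply (x : X) (u : WA G s (X →ᵇ A)) : trA G s A x u = tr G s A x u := rfl

theorem cst_mul (u v : WA G s A) : cst G s X A (u * v) = cst G s X A u * cst G s X A v :=
  mapL_mul _ (fun _ _ => rfl) u v

theorem cst_one : cst G s X A 1 = 1 := mapL_one _ rfl

theorem pull_mul {Y : Type*} [TopologicalSpace Y] (g : C(Y, X)) (u v : WA G s (X →ᵇ A)) :
    pull G s A g (u * v) = pull G s A g u * pull G s A g v :=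
  mapL_mul _ (fun _ _ => rfl) u v

theorem pull_one {Y : Type*} [TopologicalSpace Y] (g : C(Y, X)) : pull G s A g 1 = 1 :=
  mapL_one _ rfl

@[simp] theorem val_mul (u v : WA ℤ s (X →ᵇ A)) (x : X) (θ : ℝ) :
    val (u * v) x θ = val u x θ * val v x θ := by
  rw [val_eq_ev, ev_mul]; rfl

@[simp] theorem val_one (x : X) (θ : ℝ) : val (1 : WA ℤ s (X →ᵇ A)) x θ = 1 := by
  rw [val_eq_ev, ev_one]; rfl

/-- The value at `(x, θ)` as an algebra homomorphism. -/
def valA (s : ℕ) (A : Type*) [NormedCommRing A] [NormedAlgebra ℂ A] [CompleteSpace A] (x : X)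
    (θ : ℝ) : WA ℤ s (X →ᵇ A) →ₐ[ℂ] A :=
  AlgHom.ofLinearMap (valL s A x θ).toLinearMap (val_one x θ) fun u v => val_mul u v x θ

theorem valA_apply (x : X) (θ : ℝ) (u : WA ℤ s (X →ᵇ A)) : valA s A x θ u = val u x θ := rfl

theorem continuous_valA (x : X) (θ : ℝ) : Continuous (valA s A x θ) := (valL s A x θ).continuous

@[simp] theorem val_pow (u : WA ℤ s (X →ᵇ A)) (n : ℕ) (x : X) (θ : ℝ) :
    val (u ^ n) x θ = val u x θ ^ n := map_pow (valA s A x θ) u n

@[simp] theorem val_const (a : X →ᵇ A) (x : X) (θ : ℝ) :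
    val (const ℤ s (X →ᵇ A) a) x θ = a x := by
  rw [val_eq_ev, ev_const]

@[simp] theorem val_ofNat (n : ℕ) [n.AtLeastTwo] (x : X) (θ : ℝ) :
    val (ofNat(n) : WA ℤ s (X →ᵇ A)) x θ = ofNat(n) := map_ofNat (valA s A x θ) n

@[simp] theorem val_algebraMap (c : ℂ) (x : X) (θ : ℝ) :
    val (algebraMap ℂ (WA ℤ s (X →ᵇ A)) c) x θ = algebraMap ℂ A c := (valA s A x θ).commutes c

theorem val_exp (u : WA ℤ s (X →ᵇ A)) (x : X) (θ : ℝ) :
    val (NormedSpace.exp u) x θ = NormedSpace.exp (val u x θ) :=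
  hom_exp (valA s A x θ) (continuous_valA x θ) u

theorem val_inverse {u : WA ℤ s (X →ᵇ A)} (hu : IsUnit u) (x : X) (θ : ℝ) :
    val (Ring.inverse u) x θ = Ring.inverse (val u x θ) :=
  hom_inverse (valA s A x θ) hu

theorem val_cexp (u : WA ℤ s (X →ᵇ ℂ)) (x : X) (θ : ℝ) :
    val (NormedSpace.exp u) x θ = Complex.exp (val u x θ) := by
  rw [val_exp, Complex.exp_eq_exp_ℂ]

theorem val_cinv {u : WA ℤ s (X →ᵇ ℂ)} (hu : IsUnit u) (x : X) (θ : ℝ) :
    val (Ring.inverse u) x θ = (val u x θ)⁻¹ := by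
  rw [val_inverse hu, Ring.inverse_eq_inv]

theorem val_ne_zero {u : WA ℤ s (X →ᵇ ℂ)} (hu : IsUnit u) (x : X) (θ : ℝ) : val u x θ ≠ 0 :=
  (hu.map (valA s ℂ x θ)).ne_zero

end TrAlg

section ZD

variable {G : Type*} [SeminormedAddCommGroup G] {s t r : ℕ}
  {E : Type*} [NormedAddCommGroup E] [NormedSpace ℂ E] [CompleteSpace E] {S : Set ℝ}

/-- `u'` is the derivative of `u` in the first variable within `S`, mode by mode. -/
def ZDer (S : Set ℝ) (u : WA G s (ℝ →ᵇ E)) (u' : WA G t (ℝ →ᵇ E)) : Prop :=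
  ∀ k, ∀ z ∈ S, HasDerivWithinAt (fun y => cf u k y) (cf u' k z) S z

omit [CompleteSpace E] in
theorem ZDer.mono {u : WA G s (ℝ →ᵇ E)} {u' : WA G t (ℝ →ᵇ E)} (h : ZDer S u u') {T : Set ℝ}
    (hT : T ⊆ S) : ZDer T u u' := fun k z hz => (h k z (hT hz)).mono hT

omit [CompleteSpace E] in
theorem ZDer.congr {s' t' : ℕ} {u : WA G s (ℝ →ᵇ E)} {u' : WA G t (ℝ →ᵇ E)} (h : ZDer S u u')
    {v : WA G s' (ℝ →ᵇ E)} {v' : WA G t' (ℝ →ᵇ E)} (h1 : ∀ k, ∀ z ∈ S, cf v k z = cf u k z)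
    (h2 : ∀ k, ∀ z ∈ S, cf v' k z = cf u' k z) : ZDer S v v' := fun k z hz => by
  rw [h2 k z hz]
  exact (h k z hz).congr (h1 k) (h1 k z hz)

omit [CompleteSpace E] in
theorem ZDer.add {u v : WA G s (ℝ →ᵇ E)} {u' v' : WA G t (ℝ →ᵇ E)} (h : ZDer S u u')
    (h' : ZDer S v v') : ZDer S (u + v) (u' + v') := fun k z hz => by
  simp only [cf_add]
  exact (h k z hz).add (h' k z hz)

omit [CompleteSpace E] in
theorem ZDer.sub {u v : WA G s (ℝ →ᵇ E)} {u' v' : WA G t (ℝ →ᵇ E)} (h : ZDer S u u')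
    (h' : ZDer S v v') : ZDer S (u - v) (u' - v') := fun k z hz => by
  simp only [cf_sub]
  exact (h k z hz).sub (h' k z hz)

omit [CompleteSpace E] in
theorem ZDer.neg {u : WA G s (ℝ →ᵇ E)} {u' : WA G t (ℝ →ᵇ E)} (h : ZDer S u u') :
    ZDer S (-u) (-u') := fun k z hz => by
  simp only [cf_neg]
  exact (h k z hz).neg

omit [CompleteSpace E] in
theorem ZDer.smul {u : WA G s (ℝ →ᵇ E)} {u' : WA G t (ℝ →ᵇ E)} (h : ZDer S u u') (c : ℂ) :
    ZDer S (c • u) (c • u') := fun k z hz => by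
  simp only [cf_smul]
  exact (h k z hz).const_smul c

theorem ZDer.incl_left {u : WA G s (ℝ →ᵇ E)} {u' : WA G t (ℝ →ᵇ E)} (h : ZDer S u u')
    (hr : r ≤ s) : ZDer S (incl G (ℝ →ᵇ E) hr u) u' :=
  h.congr (fun k _ _ => by rw [cf_incl]) fun _ _ _ => rfl

theorem ZDer.incl_right {u : WA G s (ℝ →ᵇ E)} {u' : WA G t (ℝ →ᵇ E)} (h : ZDer S u u')
    (hr : r ≤ t) : ZDer S u (incl G (ℝ →ᵇ E) hr u') :=
  h.congr (fun _ _ _ => rfl) fun k _ _ => by rw [cf_incl]

theorem ZDer.dth {u : WA ℤ (s + 1) (ℝ →ᵇ E)} {u' : WA ℤ (t + 1) (ℝ →ᵇ E)} (h : ZDer S u u') :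
    ZDer S (dth s (ℝ →ᵇ E) u) (dth t (ℝ →ᵇ E) u') := fun k z hz => by
  simp only [cf_dth]
  exact (h k z hz).const_smul _

theorem ZDer.proj {u : WA G s (ℝ →ᵇ E)} {u' : WA G t (ℝ →ᵇ E)} (h : ZDer S u u') (P : Set G) :
    ZDer S (proj G s (ℝ →ᵇ E) P u) (proj G t (ℝ →ᵇ E) P u') := fun k z hz => by
  by_cases hk : k ∈ P
  · rw [cf_proj_of_mem hk, cf_proj_of_mem hk]; exact h k z hz
  · rw [cf_proj_of_notMem hk, cf_proj_of_notMem hk]
    exact hasDerivWithinAt_const z S (0 : E)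

theorem zder_cst (u : WA G s E) : ZDer S (cst G s ℝ E u) (0 : WA G t (ℝ →ᵇ E)) := fun k z _ => by
  simp only [cf_cst, cf_zero]
  exact hasDerivWithinAt_const z S _

omit [CompleteSpace E] in
theorem zder_single {a a' : ℝ →ᵇ E} (h : ∀ z ∈ S, HasDerivWithinAt a (a' z) S z) (k : G) :
    ZDer S (single s k a) (single t k a') := fun j z hz => by
  by_cases hj : j = k
  · subst hj; rw [cf_single_same, cf_single_same]; exact h z hz
  · rw [cf_single_ne hj, cf_single_ne hj]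
    exact hasDerivWithinAt_const z S (0 : E)

omit [CompleteSpace E] in
theorem ZDer.star [StarAddMonoid E] [NormedStarGroup E] [StarModule ℝ E] {u : WA G s (ℝ →ᵇ E)}
    {u' : WA G t (ℝ →ᵇ E)} (h : ZDer S u u') : ZDer S (star u) (star u') := fun k z hz => by
  simp only [cf_star]
  exact (h (-k) z hz).star

/-- The trace is differentiable as a curve in the Wiener space. -/
theorem ZDer.hasDerivWithinAt_tr {u : WA G s (ℝ →ᵇ E)} {u' : WA G t (ℝ →ᵇ E)} (h : ZDer S u u')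
    (hS : Convex ℝ S) (hr : t ≤ s) {z : ℝ} (hz : z ∈ S) :
    HasDerivWithinAt (fun z => incl G E hr (tr G s E z u)) (tr G t E z u') S z := by
  have h1 := hasDerivWithinAt_tsum hS (f := fun k z => (single t k (cf u k z) : WA G t E))
    (f' := fun k z => single t k (cf u' k z)) (summable_norm u')
    (fun k z hz => ((single t k : E →L[ℂ] WA G t E).restrictScalars ℝ).hasFDerivAt
      |>.comp_hasDerivWithinAt z (h k z hz))
    (fun k z _ => norm_single_cf_le u' k z)
    (fun z _ => by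
      have := (hasSum_tr z (incl G (ℝ →ᵇ E) hr u)).summable
      simpa only [cf_incl] using this) hz
  have e : ∀ z, ∑' k, (single t k (cf u k z) : WA G t E) = incl G E hr (tr G s E z u) := fun z => by
    have := (hasSum_tr z (incl G (ℝ →ᵇ E) hr u)).tsum_eq
    simpa only [cf_incl, tr_incl] using this
  simpa only [e, (hasSum_tr z u').tsum_eq] using h1

theorem ZDer.hasDerivWithinAt_val {u : WA ℤ s (ℝ →ᵇ E)} {u' : WA ℤ t (ℝ →ᵇ E)} (h : ZDer S u u')
    (hS : Convex ℝ S) {z : ℝ} (hz : z ∈ S) (θ : ℝ) :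
    HasDerivWithinAt (fun z => val u z θ) (val u' z θ) S z := by
  have h1 := hasDerivWithinAt_tsum hS (f := fun k z => ch θ k • cf u k z)
    (f' := fun k z => ch θ k • cf u' k z) (summable_norm_cf u')
    (fun k z hz => (h k z hz).const_smul _)
    (fun k z _ => by rw [norm_ch_smul]; exact (cf u' k).norm_coe_le_norm z)
    (fun z _ => (hasSum_val u z θ).summable) hz
  simpa only [← val_eq_tsum] using h1

/-- A derivative of the function is a derivative mode by mode. -/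
theorem zder_of_val {u : WA ℤ s (ℝ →ᵇ E)} {u' : WA ℤ t (ℝ →ᵇ E)} (hS : Convex ℝ S)
    (h : ∀ θ, ∀ z ∈ S, HasDerivWithinAt (fun z => val u z θ) (val u' z θ) S z) : ZDer S u u' := by
  intro k z hz
  have key : ∀ y ∈ S, cf u k y = cf u k z + ∫ x in z..y, cf u' k x := by
    intro y hy
    have hsub : uIcc z y ⊆ S := hS.ordConnected.uIcc_subset hz hy
    have hc : Continuous fun x => tr ℤ t E x u' := continuous_tr u'
    have h1 : ∀ θ, ev s E θ (tr ℤ s E y u - tr ℤ s E z u) =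
        ev t E θ (∫ x in z..y, tr ℤ t E x u') := by
      intro θ
      rw [map_sub, ev_tr, ev_tr, ← (ev t E θ).intervalIntegral_comp_comm (hc.intervalIntegrable _ _)]
      simp only [ev_tr]
      symm
      refine intervalIntegral.integral_eq_sub_of_hasDeriv_right (f := fun z => val u z θ)
        (fun x hx => ((h θ x (hsub hx)).continuousWithinAt).mono hsub) (fun x hx => ?_)
        (((continuous_val u').comp (Continuous.prodMk_left θ)).intervalIntegrable _ _)
      have hx' : x ∈ uIcc z y := Ioo_subset_Icc_self hx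
      refine ((h θ x (hsub hx')).hasDerivAt ?_).hasDerivWithinAt
      exact mem_of_superset (Ioo_mem_nhds hx.1 hx.2) (Ioo_subset_Icc_self.trans hsub)
    have h2 := cf_eq_of_ev h1 k
    have h3 : cf (∫ x in z..y, tr ℤ t E x u') k = ∫ x in z..y, cf u' k x := by
      rw [← cfL_apply, ← (cfL t E k).intervalIntegral_comp_comm (hc.intervalIntegrable _ _)]
      simp only [cfL_apply, cf_tr]
    rw [cf_sub, cf_tr, cf_tr, h3] at h2
    rw [← h2]; abel
  have h4 : HasDerivAt (fun y => cf u k z + ∫ x in z..y, cf u' k x) (cf u' k z) z :=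
    (((cf u' k).continuous.integral_hasStrictDerivAt z z).hasDerivAt).const_add _
  exact h4.hasDerivWithinAt.congr key (key z hz)

/-- Joint differentiability. -/
theorem ZDer.hasFDerivWithinAt_val {u : WA ℤ (s + 1) (ℝ →ᵇ E)} {u' : WA ℤ t (ℝ →ᵇ E)}
    (h : ZDer S u u') (hS : Convex ℝ S) {p : ℝ × ℝ} (hp : p.1 ∈ S) :
    HasFDerivWithinAt (fun p : ℝ × ℝ => val u p.1 p.2)
      ((ContinuousLinearMap.fst ℝ ℝ ℝ).smulRight (val u' p.1 p.2) +
        (ContinuousLinearMap.snd ℝ ℝ ℝ).smulRight (val (Wien.dth s (ℝ →ᵇ E) u) p.1 p.2))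
      (S ×ˢ univ) p := by
  have nb : ∀ a b : E, ‖(ContinuousLinearMap.fst ℝ ℝ ℝ).smulRight a +
      (ContinuousLinearMap.snd ℝ ℝ ℝ).smulRight b‖ ≤ ‖a‖ + ‖b‖ := fun a b => by
    refine ContinuousLinearMap.opNorm_le_bound _ (by positivity) fun v => ?_
    simp only [_root_.add_apply, ContinuousLinearMap.smulRight_apply,
      ContinuousLinearMap.coe_fst', ContinuousLinearMap.coe_snd']
    refine (norm_add_le _ _).trans ?_
    rw [norm_smul, norm_smul]
    have h1 := norm_fst_le v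
    have h2 := norm_snd_le v
    nlinarith [norm_nonneg a, norm_nonneg b]
  have h1 := hasFDerivWithinAt_tsum (hS.prod (convex_univ (E := ℝ)))
    (f := fun k (p : ℝ × ℝ) => ch p.2 k • cf u k p.1)
    (f' := fun k p => (ContinuousLinearMap.fst ℝ ℝ ℝ).smulRight (ch p.2 k • cf u' k p.1) +
      (ContinuousLinearMap.snd ℝ ℝ ℝ).smulRight (ch p.2 k • cf (Wien.dth s (ℝ →ᵇ E) u) k p.1))
    ((summable_norm_cf u').add (summable_norm_cf (Wien.dth s (ℝ →ᵇ E) u)))
    (fun k p hp => by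
      have a1 : HasFDerivWithinAt (fun p : ℝ × ℝ => ch p.2 k)
          ((ContinuousLinearMap.toSpanSingleton ℝ (Complex.I * k * ch p.2 k)).comp
            (ContinuousLinearMap.snd ℝ ℝ ℝ)) (S ×ˢ univ) p :=
        ((hasDerivAt_ch k p.2).hasFDerivAt.comp p hasFDerivAt_snd).hasFDerivWithinAt
      have a2 : HasFDerivWithinAt (fun p : ℝ × ℝ => cf u k p.1)
          ((ContinuousLinearMap.toSpanSingleton ℝ (cf u' k p.1)).comp
            (ContinuousLinearMap.fst ℝ ℝ ℝ)) (S ×ˢ univ) p :=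
        (h k p.1 hp.1).hasFDerivWithinAt.comp p hasFDerivWithinAt_fst fun q hq => hq.1
      refine (a1.smul a2).congr_fderiv ?_
      refine ContinuousLinearMap.ext fun v => ?_
      simp only [_root_.add_apply, ContinuousLinearMap.smulRight_apply,
        ContinuousLinearMap.coe_fst', ContinuousLinearMap.coe_snd', _root_.smul_apply,
        ContinuousLinearMap.comp_apply, ContinuousLinearMap.toSpanSingleton_apply, cf_dth,
        BoundedContinuousFunction.coe_smul, smul_assoc, smul_smul, smul_comm (ch p.2 k) v.1]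
      rw [mul_comm (ch p.2 k)])
    (fun k p _ => (nb _ _).trans (by
      rw [norm_ch_smul, norm_ch_smul]
      exact add_le_add ((cf u' k).norm_coe_le_norm _) (norm_coe_le_norm _ _)))
    (fun p _ => (hasSum_val u p.1 p.2).summable) (show p ∈ S ×ˢ univ from ⟨hp, mem_univ _⟩)
  have h2 := ((hasSum_val u' p.1 p.2).mapL
    (ContinuousLinearMap.smulRightL ℝ (ℝ × ℝ) E (ContinuousLinearMap.fst ℝ ℝ ℝ))).add
    ((hasSum_val (Wien.dth s (ℝ →ᵇ E) u) p.1 p.2).mapL
    (ContinuousLinearMap.smulRightL ℝ (ℝ × ℝ) E (ContinuousLinearMap.snd ℝ ℝ ℝ)))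
  simp only [ContinuousLinearMap.smulRightL_apply_apply] at h2
  simpa only [← val_eq_tsum, h2.tsum_eq] using h1

/-- `u` has `n` derivatives in the first variable, the `j`-th one in `WA ℤ (n - j)`. -/
def HasJet (S : Set ℝ) : (n : ℕ) → {s : ℕ} → WA ℤ s (ℝ →ᵇ E) → Prop
  | 0, _, _ => True
  | n + 1, _, u => ∃ u' : WA ℤ n (ℝ →ᵇ E), ZDer S u u' ∧ HasJet S n u'

theorem HasJet.dth : ∀ {n s : ℕ} {u : WA ℤ (s + 1) (ℝ →ᵇ E)}, HasJet S (n + 1) u →
    HasJet S n (dth s (ℝ →ᵇ E) u)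
  | 0, _, _, _ => trivial
  | n + 1, _, _, ⟨u', h1, h2⟩ => ⟨Wien.dth n (ℝ →ᵇ E) u', h1.dth, HasJet.dth h2⟩

theorem HasJet.contDiffOn (hS : Convex ℝ S) : ∀ {n s : ℕ} {u : WA ℤ s (ℝ →ᵇ E)}, n ≤ s →
    HasJet S n u → ContDiffOn ℝ n (fun p : ℝ × ℝ => val u p.1 p.2) (S ×ˢ univ)
  | 0, _, u, _, _ => by
      simpa using (continuous_val u).continuousOn
  | n + 1, 0, _, hn, _ => absurd hn (by omega)
  | n + 1, s + 1, u, hn, h => by
      obtain ⟨u', h1, h2⟩ := h
      have c1 := HasJet.contDiffOn hS le_rfl h2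
      have c2 := HasJet.contDiffOn hS (by omega : n ≤ s) (HasJet.dth ⟨u', h1, h2⟩)
      rw [Nat.cast_succ, contDiffOn_succ_iff_hasFDerivWithinAt (by simp)]
      intro p hp
      refine ⟨S ×ˢ univ, by rw [insert_eq_of_mem hp]; exact self_mem_nhdsWithin, by simp,
        fun p => (ContinuousLinearMap.fst ℝ ℝ ℝ).smulRight (val u' p.1 p.2) +
          (ContinuousLinearMap.snd ℝ ℝ ℝ).smulRight (val (Wien.dth s (ℝ →ᵇ E) u) p.1 p.2),
        fun q hq => h1.hasFDerivWithinAt_val hS hq.1, ?_⟩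
      exact ((ContinuousLinearMap.smulRightL ℝ (ℝ × ℝ) E
          (ContinuousLinearMap.fst ℝ ℝ ℝ)).contDiff.comp_contDiffOn c1).add
        ((ContinuousLinearMap.smulRightL ℝ (ℝ × ℝ) E
          (ContinuousLinearMap.snd ℝ ℝ ℝ)).contDiff.comp_contDiffOn c2)

theorem contDiffOn_two_val (hS : Convex ℝ S) {u : WA ℤ (s + 2) (ℝ →ᵇ E)}
    {u₁ : WA ℤ (t + 1) (ℝ →ᵇ E)} {u₂ : WA ℤ r (ℝ →ᵇ E)} (h₁ : ZDer S u u₁) (h₂ : ZDer S u₁ u₂) :
    ContDiffOn ℝ 2 (fun p : ℝ × ℝ => val u p.1 p.2) (S ×ˢ univ) :=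
  HasJet.contDiffOn (n := 2) hS (by omega)
    ⟨incl ℤ _ (Nat.le_add_left 1 t) u₁, h₁.incl_right _, incl ℤ _ (Nat.zero_le r) u₂,
      (h₂.incl_left _).incl_right _, trivial⟩

variable {A : Type*} [NormedCommRing A] [NormedAlgebra ℂ A] [CompleteSpace A]

theorem zder_const {a a' : ℝ →ᵇ A} (h : ∀ z ∈ S, HasDerivWithinAt a (a' z) S z) :
    ZDer S (const G s (ℝ →ᵇ A) a) (const G t (ℝ →ᵇ A) a') := zder_single h 0

theorem ZDer.mul (hS : Convex ℝ S) {u v : WA ℤ s (ℝ →ᵇ A)} {u' v' : WA ℤ t (ℝ →ᵇ A)}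
    (h : ZDer S u u') (h' : ZDer S v v') (hr : t ≤ s) :
    ZDer S (u * v) (u' * incl ℤ _ hr v + incl ℤ _ hr u * v') :=
  zder_of_val hS fun θ z hz => by
    simp only [val_mul, val_add, val_incl]
    exact (h.hasDerivWithinAt_val hS hz θ).mul (h'.hasDerivWithinAt_val hS hz θ)

theorem ZDer.cexp (hS : Convex ℝ S) {u : WA ℤ s (ℝ →ᵇ ℂ)} {u' : WA ℤ t (ℝ →ᵇ ℂ)}
    (h : ZDer S u u') (hr : t ≤ s) :
    ZDer S (NormedSpace.exp u) (incl ℤ _ hr (NormedSpace.exp u) * u') :=
  zder_of_val hS fun θ z hz => by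
    simp only [val_mul, val_incl, val_cexp]
    exact (h.hasDerivWithinAt_val hS hz θ).cexp

theorem ZDer.cinv (hS : Convex ℝ S) {u : WA ℤ s (ℝ →ᵇ ℂ)} {u' : WA ℤ t (ℝ →ᵇ ℂ)}
    (h : ZDer S u u') (hu : IsUnit u) (hr : t ≤ s) :
    ZDer S (Ring.inverse u) (-(incl ℤ _ hr (Ring.inverse u) ^ 2 * u')) :=
  zder_of_val hS fun θ z hz => by
    simp only [val_mul, val_incl, val_cinv hu, val_neg, val_pow]
    refine ((h.hasDerivWithinAt_val hS hz θ).inv (val_ne_zero hu z θ)).congr_deriv ?_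
    rw [inv_pow]; ring

end ZD

end Vale.Agent.P218F.Wien
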