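import Vale.Agent.P218F.ConeSpec
import Vale.Agent.P218F.Wien3
import Mathlib.Analysis.Calculus.ContDiff.Bounds

/-! Conical ends: triples are `C²` functions, smooth decaying functions are small triples. -/

namespace Vale.Agent.P218F.Cone

open Set Filter Topology Wien Core
open scoped ContDiff Real

noncomputable section

variable {a : ℝ} {s : ℕ}

lemma val_eq (u : W s) (y θ : ℝ) : val u y θ = Wien.val u y θ := rfl

lemma IsTri.z0 {p : T3 s} (h : IsTri a p) : ZDer (Ici a) p.1 p.2.1 := h.d0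
lemma IsTri.z1 {p : T3 s} (h : IsTri a p) : ZDer (Ici a) p.2.1 p.2.2 := h.d1

lemma continuous_val' (u : W s) : Continuous fun z : P2 => val u z.1 z.2 := continuous_val u

lemma continuous_fn (p : T3 s) : Continuous (fn p) := continuous_val' _

/-- the linear form `v ↦ v.1 * a + v.2 * b` -/
def lin2 {V : Type*} [NormedAddCommGroup V] [NormedSpace ℝ V] : V × V →L[ℝ] P2 →L[ℝ] V :=
  (ContinuousLinearMap.smulRightL ℝ P2 V (ContinuousLinearMap.fst ℝ ℝ ℝ)).comp (.fst ℝ V V) +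
    (ContinuousLinearMap.smulRightL ℝ P2 V (ContinuousLinearMap.snd ℝ ℝ ℝ)).comp (.snd ℝ V V)

lemma fn1_eq (p : T3 s) (z : P2) : fn1 p z = lin2 (val p.2.1 z.1 z.2, vT p z.1 z.2) := rfl

lemma fn2_eq (p : T3 s) (z : P2) : fn2 p z = lin2 (lin2 (val p.2.2 z.1 z.2, vYT p z.1 z.2),
    lin2 (vYT p z.1 z.2, vTT p z.1 z.2)) := rfl

lemma continuous_fn1 (p : T3 s) : Continuous (fn1 p) :=
  lin2.continuous.comp ((continuous_val' _).prodMk (continuous_val' _))

lemma continuous_fn2 (p : T3 s) : Continuous (fn2 p) := by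
  have h1 : Continuous fun z : P2 => lin2 (val p.2.2 z.1 z.2, vYT p z.1 z.2) :=
    (lin2 (V := ℂ)).continuous.comp ((continuous_val' _).prodMk (continuous_val' _))
  have h2 : Continuous fun z : P2 => lin2 (vYT p z.1 z.2, vTT p z.1 z.2) :=
    (lin2 (V := ℂ)).continuous.comp ((continuous_val' _).prodMk (continuous_val' _))
  rw [funext (fn2_eq p)]
  exact (lin2 (V := P2 →L[ℝ] ℂ)).continuous.comp (h1.prodMk h2)

@[simp] lemma fn1_y (p : T3 s) (z : P2) : fn1 p z (1, 0) = val p.2.1 z.1 z.2 := by simp [fn1]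
@[simp] lemma fn1_t (p : T3 s) (z : P2) : fn1 p z (0, 1) = vT p z.1 z.2 := by simp [fn1]
@[simp] lemma fn2_yy (p : T3 s) (z : P2) : fn2 p z (1, 0) (1, 0) = val p.2.2 z.1 z.2 := by
  simp [fn2]
@[simp] lemma fn2_yt (p : T3 s) (z : P2) : fn2 p z (1, 0) (0, 1) = vYT p z.1 z.2 := by simp [fn2]
@[simp] lemma fn2_ty (p : T3 s) (z : P2) : fn2 p z (0, 1) (1, 0) = vYT p z.1 z.2 := by simp [fn2]
@[simp] lemma fn2_tt (p : T3 s) (z : P2) : fn2 p z (0, 1) (0, 1) = vTT p z.1 z.2 := by simp [fn2]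

lemma IsTri.hasFDerivWithinAt {p : T3 s} (h : IsTri a p) {z : P2} (hz : a ≤ z.1) :
    HasFDerivWithinAt (fn p) (fn1 p z) (Ici a ×ˢ univ) z :=
  h.z0.hasFDerivWithinAt_val (convex_Ici a) hz

lemma IsTri.hasFDerivWithinAt1 {p : T3 s} (h : IsTri a p) {z : P2} (hz : a ≤ z.1) :
    HasFDerivWithinAt (fn1 p) (fn2 p z) (Ici a ×ˢ univ) z := by
  have h1 := h.z1.hasFDerivWithinAt_val (convex_Ici a) hz
  have h2 := h.z0.dth.hasFDerivWithinAt_val (convex_Ici a) hz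
  refine ((lin2 (V := ℂ)).hasFDerivAt.comp_hasFDerivWithinAt z (h1.prodMk h2)).congr_fderiv ?_
  refine ContinuousLinearMap.ext fun v => ContinuousLinearMap.ext fun w => ?_
  simp [lin2, fn2, vYT, vTT, val_eq]
  ring

lemma mem_nhds_half {z : P2} (hz : a < z.1) : Ici a ×ˢ (univ : Set ℝ) ∈ 𝓝 z :=
  prod_mem_nhds (Ici_mem_nhds hz) univ_mem

lemma IsTri.contDiffOn {p : T3 s} (h : IsTri a p) : ContDiffOn ℝ 2 (fn p) (Ici a ×ˢ univ) :=
  contDiffOn_two_val (convex_Ici a) h.z0 h.z1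

lemma IsTri.contDiffAt {p : T3 s} (h : IsTri a p) {z : P2} (hz : a < z.1) :
    ContDiffAt ℝ 2 (fn p) z := h.contDiffOn.contDiffAt (mem_nhds_half hz)

lemma IsTri.hasFDerivAt {p : T3 s} (h : IsTri a p) {z : P2} (hz : a < z.1) :
    HasFDerivAt (fn p) (fn1 p z) z :=
  (h.hasFDerivWithinAt hz.le).hasFDerivAt (mem_nhds_half hz)

lemma IsTri.jet2_eq {p : T3 s} (h : IsTri a p) {z : P2} (hz : a < z.1) :
    jet2 (fn p) z = (fn p z, fn1 p z, fn2 p z) := by
  have e : fderiv ℝ (fn p) =ᶠ[𝓝 z] fn1 p := by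
    filter_upwards [(isOpen_lt continuous_const continuous_fst).mem_nhds hz] with w hw
    exact (h.hasFDerivAt hw).fderiv
  unfold jet2
  rw [e.self_of_nhds, e.fderiv_eq,
    ((h.hasFDerivWithinAt1 hz.le).hasFDerivAt (mem_nhds_half hz)).fderiv]

theorem tri_proof : TriStmt := fun _ _ p h =>
  ⟨h.contDiffOn, continuous_fn p, continuous_fn1 p, continuous_fn2 p,
    fun _ hz => ⟨h.hasFDerivWithinAt hz, h.hasFDerivWithinAt1 hz⟩,
    fun _ hz => ⟨h.contDiffAt hz, h.jet2_eq hz⟩⟩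

/-! ### Smooth functions as elements of the Wiener spaces -/

/-- directional derivative -/
def dir (v : P2) (f : P2 → ℝ) : P2 → ℝ := fun z => fderiv ℝ f z v

/-- smooth for `y > y0`, periodic, all derivatives tend to zero -/
structure Dec (y0 : ℝ) (f : P2 → ℝ) : Prop where
  smooth : ContDiffOn ℝ ∞ f (Ioi y0 ×ˢ univ)
  per : ∀ y θ, f (y, θ + 2 * π) = f (y, θ)
  decay : ∀ (k : ℕ) (ε : ℝ), 0 < ε → ∃ y1, ∀ z : P2, y1 ≤ z.1 → ‖iteratedFDeriv ℝ k f z‖ ≤ ε

lemma isOpen_half (y0 : ℝ) : IsOpen (Ioi y0 ×ˢ (univ : Set ℝ)) := isOpen_Ioi.prod isOpen_univ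

lemma Dec.contDiffAt {y0 : ℝ} {f : P2 → ℝ} (h : Dec y0 f) {z : P2} (hz : y0 < z.1) :
    ContDiffAt ℝ ∞ f z := h.smooth.contDiffAt ((isOpen_half y0).mem_nhds ⟨hz, trivial⟩)

lemma Dec.dir {y0 : ℝ} {f : P2 → ℝ} (h : Dec y0 f) (v : P2) : Dec y0 (dir v f) where
  smooth := fun z hz =>
    (((h.contDiffAt hz.1).fderiv_right (m := ∞) (by simp)).clm_apply contDiffAt_const).contDiffWithinAt
  per y θ := by
    have e : f = fun z => f (z + (0, 2 * π)) := by
      funext z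
      have : z + (0, 2 * π) = (z.1, z.2 + 2 * π) := by ext <;> simp
      rw [this, h.per]
    simp only [Cone.dir]
    conv_rhs => rw [e]
    rw [fderiv_comp_add_right]; simp
  decay k ε hε := by
    obtain ⟨y1, h1⟩ := h.decay (k + 1) (ε / (‖v‖ + 1)) (by positivity)
    refine ⟨max y1 (y0 + 1), fun z hz => ?_⟩
    have hz0 : y0 < z.1 := by linarith [le_max_right y1 (y0 + 1)]
    have hc : ContDiffAt ℝ ∞ (fderiv ℝ f) z := (h.contDiffAt hz0).fderiv_right (m := ∞) (by simp)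
    have h2 := norm_iteratedFDeriv_clm_apply_const (c := v) hc
      (show (k : ℕ∞ω) ≤ ∞ by exact_mod_cast le_top)
    rw [norm_iteratedFDeriv_fderiv] at h2
    have h4 := h1 z ((le_max_left _ _).trans hz)
    calc _ ≤ _ := h2
      _ ≤ ‖v‖ * (ε / (‖v‖ + 1)) := by gcongr
      _ ≤ ε := by
        rw [mul_div_assoc', div_le_iff₀ (by positivity)]; nlinarith

lemma Dec.iter {y0 : ℝ} {f : P2 → ℝ} (h : Dec y0 f) (v : P2) : ∀ j, Dec y0 ((Cone.dir v)^[j] f)
  | 0 => h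
  | j + 1 => by rw [Function.iterate_succ_apply']; exact (h.iter v j).dir v

lemma Dec.hasDerivAt_t {y0 : ℝ} {f : P2 → ℝ} (h : Dec y0 f) {y : ℝ} (hy : y0 < y) (θ : ℝ) :
    HasDerivAt (fun θ => f (y, θ)) (Cone.dir (0, 1) f (y, θ)) θ :=
  ((h.contDiffAt (z := (y, θ)) hy).differentiableAt (by simp)).hasFDerivAt.comp_hasDerivAt θ
    ((hasDerivAt_const θ y).prodMk (hasDerivAt_id θ))

lemma Dec.hasDerivAt_y {y0 : ℝ} {f : P2 → ℝ} (h : Dec y0 f) {y : ℝ} (hy : y0 < y) (θ : ℝ) :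
    HasDerivAt (fun y => f (y, θ)) (Cone.dir (1, 0) f (y, θ)) y :=
  ((h.contDiffAt (z := (y, θ)) hy).differentiableAt (by simp)).hasFDerivAt.comp_hasDerivAt y
    ((hasDerivAt_id y).prodMk (hasDerivAt_const y θ))

lemma Dec.small {y0 : ℝ} {f : P2 → ℝ} (h : Dec y0 f) {ε : ℝ} (hε : 0 < ε) :
    ∃ y1, ∀ z : P2, y1 ≤ z.1 → ‖f z‖ ≤ ε := by
  simpa using h.decay 0 ε hε

/-- a decaying function is a small element of the Wiener space -/
lemma Dec.exists_W {y0 : ℝ} {f : P2 → ℝ} (h : Dec y0 f) (s : ℕ) {ε : ℝ} (hε : 0 < ε) :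
    ∃ a0, ∀ a ≥ a0, ∃ u : W s, (∀ y θ, val u y θ = f (max y a, θ)) ∧ ‖u‖ ≤ ε := by
  obtain ⟨y1, h1⟩ := h.small (ε := ε / 2) (by positivity)
  obtain ⟨y2, h2⟩ := (h.iter (0, 1) (s + 2)).small (ε := ε / 2 / 2 ^ (s + 2)) (by positivity)
  refine ⟨max (max y1 y2) (y0 + 1), fun a ha => ?_⟩
  have ha1 : y1 ≤ a := (le_max_left _ _).trans ((le_max_left _ _).trans ha)
  have ha2 : y2 ≤ a := (le_max_right _ _).trans ((le_max_left _ _).trans ha)
  have ha0 : ∀ y, y0 < max y a := fun y => by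
    linarith [le_max_right (max y1 y2) (y0 + 1), le_max_right y a]
  have hc : ∀ j, Continuous fun p : ℝ × ℝ => (((Cone.dir (0, 1))^[j] f (max p.1 a, p.2) : ℝ) : ℂ) :=
    fun j => Complex.continuous_ofReal.comp ((h.iter (0, 1) j).smooth.continuousOn.comp_continuous
      (by fun_prop) fun p => ⟨ha0 _, trivial⟩)
  obtain ⟨u, hu, hn⟩ := exists_of_deriv_param (s := s)
    (f := fun j y θ => (((Cone.dir (0, 1))^[j] f (max y a, θ) : ℝ) : ℂ))
    (M₀ := ε / 2) (M := ε / 2 / 2 ^ (s + 2))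
    (fun j _ y θ => by
      rw [Function.iterate_succ_apply']
      exact ((h.iter (0, 1) j).hasDerivAt_t (ha0 y) θ).ofReal_comp)
    (hc 0) (fun y => (hc (s + 2)).comp (Continuous.prodMk_right y))
    (fun y θ => by simp [h.per]) (by positivity) (by positivity)
    (fun y θ => by
      rw [Complex.norm_real]; exact h1 _ (ha1.trans (le_max_right _ _)))
    (fun y θ => by
      rw [Complex.norm_real]; exact h2 _ (ha2.trans (le_max_right _ _)))
  refine ⟨u, hu, hn.trans (le_of_eq ?_)⟩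
  field_simp; ring

lemma clamp_of_val {u : W s} {F : ℝ → ℝ → ℂ} (h : ∀ y θ, val u y θ = F (max y a) θ) :
    Clamp a u := fun k y =>
  cf_eq_of_val (fun θ => by rw [← val_eq, ← val_eq, h, h, max_eq_left (le_max_right y a)]) k

/-- a decaying function is a small real triple -/
lemma Dec.exists_tri {y0 : ℝ} {f : P2 → ℝ} (h : Dec y0 f) (s : ℕ) {ε : ℝ} (hε : 0 < ε) :
    ∃ a0, ∀ a ≥ a0, ∃ p : T3 s, IsTri a p ∧ ‖p‖ ≤ ε ∧ star p = p ∧
      ∀ z : P2, a ≤ z.1 → fn p z = f z := by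
  obtain ⟨a0, h0⟩ := h.exists_W (s + 2) hε
  obtain ⟨a1, h1⟩ := (h.dir (1, 0)).exists_W (s + 1) hε
  obtain ⟨a2, h2⟩ := ((h.dir (1, 0)).dir (1, 0)).exists_W s hε
  refine ⟨max (max a0 a1) (max a2 (y0 + 1)), fun a ha => ?_⟩
  simp only [ge_iff_le, max_le_iff] at ha
  obtain ⟨u0, e0, n0⟩ := h0 a ha.1.1
  obtain ⟨u1, e1, n1⟩ := h1 a ha.1.2
  obtain ⟨u2, e2, n2⟩ := h2 a ha.2.1
  have key : ∀ {s t : ℕ} {u : W s} {u' : W t} {g : P2 → ℝ}, Dec y0 g →
      (∀ y θ, val u y θ = g (max y a, θ)) → (∀ y θ, val u' y θ = Cone.dir (1, 0) g (max y a, θ)) →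
      ZDer (Ici a) u u' := by
    intro s t u u' g hg hu hu'
    refine zder_of_val (convex_Ici a) fun θ y hy => ?_
    rw [← val_eq, hu', max_eq_left hy]
    refine ((hg.hasDerivAt_y (by linarith [mem_Ici.1 hy]) θ).ofReal_comp.hasDerivWithinAt).congr
      (fun z hz => ?_) ?_
    · rw [← val_eq, hu, max_eq_left hz]
    · rw [← val_eq, hu, max_eq_left hy]
  have real : ∀ {s : ℕ} {u : W s} {F : ℝ → ℝ → ℝ}, (∀ y θ, val u y θ = F y θ) → star u = u :=
    fun hu => (star_eq_iff_val _).2 fun y θ => by rw [← val_eq, hu]; simp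
  refine ⟨(u0, u1, u2), ⟨clamp_of_val (F := fun y θ => f (y, θ)) e0,
    clamp_of_val (F := fun y θ => Cone.dir (1, 0) f (y, θ)) e1,
    clamp_of_val (F := fun y θ => Cone.dir (1, 0) (Cone.dir (1, 0) f) (y, θ)) e2,
    key h e0 e1, key (h.dir (1, 0)) e1 e2⟩, ?_, ?_, fun z hz => ?_⟩
  · simp only [Prod.norm_def, max_le_iff]; exact ⟨n0, n1, n2⟩
  · exact Prod.ext (real e0) (Prod.ext (real e1) (real e2))
  · simp only [fn]; rw [e0, max_eq_left hz]

/-- a smooth periodic function is a real element of the Wiener algebra -/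
lemma exists_A {κ : ℝ → ℝ} (hκ : ContDiff ℝ ∞ κ) (hp : Function.Periodic κ (2 * π)) (s : ℕ) :
    ∃ u : A s, (∀ θ, ev s ℂ θ u = κ θ) ∧ star u = u := by
  have hc : ∀ j, Continuous (iteratedDeriv j κ) := fun j =>
    hκ.continuous_iteratedDeriv j (by exact_mod_cast le_top)
  have hd : ∀ j θ, HasDerivAt (iteratedDeriv j κ) (iteratedDeriv (j + 1) κ θ) θ := fun j θ => by
    rw [iteratedDeriv_succ]
    exact (hκ.differentiable_iteratedDeriv j (by exact_mod_cast ENat.natCast_lt_top j) θ).hasDerivAt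
  have hper : ∀ j, Function.Periodic (iteratedDeriv j κ) (2 * π) := fun j => by
    induction j with
    | zero => simpa using hp
    | succ j ih => exact periodic_deriv (hd j) ih
  have hb : ∀ j, ∃ M, ∀ θ, ‖iteratedDeriv j κ θ‖ ≤ M := fun j => by
    obtain ⟨M, hM⟩ := ((hper j).isBounded_of_continuous (by positivity) (hc j)).exists_norm_le
    exact ⟨M, fun θ => hM _ (mem_range_self θ)⟩
  obtain ⟨M0, h0⟩ := hb 0
  obtain ⟨M, h1⟩ := hb (s + 2)
  obtain ⟨u, hu, -⟩ := exists_of_deriv (s := s) (f := fun j θ => ((iteratedDeriv j κ θ : ℝ) : ℂ))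
    (M₀ := M0) (M := M) (fun j _ θ => (hd j θ).ofReal_comp)
    (Complex.continuous_ofReal.comp (hc _)) (fun θ => by simp [hp θ])
    (fun θ => by rw [Complex.norm_real]; exact h0 θ) (fun θ => by rw [Complex.norm_real]; exact h1 θ)
  refine ⟨u, fun θ => by simpa using hu θ, (star_eq_iff_ev _).2 fun θ => ?_⟩
  rw [hu]; simp

end

end Vale.Agent.P218F.Cone
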