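import Vale.Agent.P218F.CoreJet
import Vale.Agent.P218FT.Defs
import Vale.Agent.P272.K.LIN.Cov
import Mathlib.Analysis.Normed.Operator.Compact.Basic
import Mathlib.Topology.ContinuousMap.Compact

/-!
# The core problem: statements

`S` is a surface, `C0 ⊆ S` the compact core, `K j` the collar charts (`y.1 = 0` is the trace
circle, `y.1 ≤ 0` lies in the core). The unknowns are a function `w` on the core and the collars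
and `a : ι → ℂ`. The equations are `op a w = 0` on the core, `w = E (trace w)` on the collars and
`B (w, trace w, a) = 0`.
-/

open Set Metric Filter Topology Matrix
open scoped ContDiff Real
open Vale.Agent.P218FT Vale.Agent.P272.K.LIN

set_option maxSynthPendingDepth 3

noncomputable section

namespace Vale.Agent.P218F.Core

/-! ### Geometry -/

/-- `φ` is a local parametrisation of `S` at `y` -/
structure Par (S : Set E3) (φ : P2 → E3) (y : P2) : Prop where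
  smooth : ∀ᶠ z in 𝓝 y, ContDiffAt ℝ ∞ φ z
  inj : Function.Injective (fderiv ℝ φ y)
  mem : ∀ᶠ z in 𝓝 y, φ z ∈ S

/-- the core `C0` and the collar charts `K j` -/
structure Geo (S C0 : Set E3) {J : Type} (K : J → P2 → E3) : Prop where
  surf : IsSurf S
  cpt : IsCompact C0
  ne : C0.Nonempty
  sub : C0 ⊆ S
  par : ∀ j y, y.1 ∈ Ioo (-1 : ℝ) 7 → Par S (K j) y
  per : ∀ j y, K j (y.1, y.2 + 2 * π) = K j y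
  inj : ∀ j j' y y', y.1 ∈ Ioo (-1 : ℝ) 7 → y'.1 ∈ Ioo (-1 : ℝ) 7 → K j y = K j' y' →
    j = j' ∧ y'.1 = y.1 ∧ ∃ k : ℤ, y'.2 = y.2 + k * (2 * π)
  mem : ∀ j y, y.1 ∈ Ioo (-1 : ℝ) 7 → (K j y ∈ C0 ↔ y.1 ≤ 0)
  int : ∀ x ∈ C0, (∃ j θ, x = K j (0, θ)) ∨ ∀ᶠ x' in 𝓝 x, x' ∈ S → x' ∈ C0

/-- the core with the open collars -/
def Mo (C0 : Set E3) {J : Type} (K : J → P2 → E3) : Set E3 :=
  C0 ∪ {x | ∃ j y, y.1 ∈ Ioo (0 : ℝ) 6 ∧ K j y = x}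

/-- the double `X` of the core with the collars `y.1 ≤ 6`: `up`, `dn` are the two sheets, `κ j`
the long collars, folded at `y.1 = 6` -/
structure Dbl (S C0 : Set E3) {J : Type} (K : J → P2 → E3) (X : Type) [TopologicalSpace X]
    [ChartedSpace P2 X] where
  up : E3 → X
  dn : E3 → X
  κ : J → P2 → X
  cases : ∀ x, (∃ x0 ∈ C0, up x0 = x) ∨ (∃ j y, y.1 ∈ Ioo (0 : ℝ) 12 ∧ κ j y = x) ∨
    ∃ x0 ∈ C0, dn x0 = x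
  κ_up : ∀ j y, y.1 ∈ Ioo (-1 : ℝ) 6 → κ j y = up (K j y)
  κ_dn : ∀ j y, y.1 ∈ Ioo (6 : ℝ) 13 → κ j y = dn (K j (12 - y.1, y.2))
  κ_per : ∀ j y, κ j (y.1, y.2 + 2 * π) = κ j y
  κ_inj : ∀ j j' y y', y.1 ∈ Ioo (-1 : ℝ) 13 → y'.1 ∈ Ioo (-1 : ℝ) 13 → κ j y = κ j' y' →
    j = j' ∧ y'.1 = y.1 ∧ ∃ k : ℤ, y'.2 = y.2 + k * (2 * π)
  κ_eq_up : ∀ j y, y.1 ∈ Ioo (-1 : ℝ) 13 → ∀ x0 ∈ C0, κ j y = up x0 → y.1 ≤ 0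
  κ_eq_dn : ∀ j y, y.1 ∈ Ioo (-1 : ℝ) 13 → ∀ x0 ∈ C0, κ j y = dn x0 → 12 ≤ y.1
  up_inj : InjOn up (Mo C0 K)
  dn_inj : InjOn dn (Mo C0 K)
  up_ne : ∀ x ∈ Mo C0 K, ∀ x' ∈ Mo C0 K, up x ≠ dn x'
  up_cont : ContinuousOn up (Mo C0 K)
  dn_cont : ContinuousOn dn (Mo C0 K)
  chart_up : ∀ φ y, Par S φ y → φ y ∈ Mo C0 K →
    ∃ e ∈ atlas P2 X, y ∈ e.target ∧ e.symm =ᶠ[𝓝 y] fun z => up (φ z)
  chart_dn : ∀ φ y, Par S φ y → φ y ∈ Mo C0 K →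
    ∃ e ∈ atlas P2 X, y ∈ e.target ∧ e.symm =ᶠ[𝓝 y] fun z => dn (φ z)
  chart_κ : ∀ j y, y.1 ∈ Ioo (-1 : ℝ) 13 → ∃ e ∈ atlas P2 X, y ∈ e.target ∧ e.symm =ᶠ[𝓝 y] κ j

/-- parametrisations exist, and the transition maps are smooth -/
def ParStmt : Prop :=
  ∀ S : Set E3, IsSurf S → (∀ x ∈ S, ∃ φ y, Par S φ y ∧ φ y = x) ∧
    ∀ φ y, Par S φ y → ∃ ψ : E3 → P2, (∀ᶠ x in 𝓝 (φ y), ContDiffAt ℝ ∞ ψ x) ∧
      (∀ᶠ z in 𝓝 y, ψ (φ z) = z) ∧ ∀ᶠ x in 𝓝 (φ y), x ∈ S → φ (ψ x) = x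

/-- the double exists -/
def DblStmt : Prop :=
  ∀ (S C0 : Set E3) (J : Type) [Fintype J] (K : J → P2 → E3), Geo S C0 K →
    ∃ (X : Type) (_ : TopologicalSpace X) (_ : ChartedSpace P2 X), T2Space X ∧ CompactSpace X ∧
      RSm P2 X ∧ Nonempty (Dbl S C0 K X)

/-! ### The operator -/

/-- local operators: `op a φ y q`, `q` the two-jet of `w ∘ φ` at `y` -/
abbrev Op (ι : Type) : Type := (ι → ℂ) → (P2 → E3) → P2 → J2 P2 ℂ → ℂ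

/-- the linearisation at `a = 0`, `w = 0` -/
def lin {ι : Type} [Fintype ι] (op : Op ι) (φ : P2 → E3) (y : P2) :
    (ι → ℂ) × J2 P2 ℂ →L[ℂ] ℂ :=
  fderiv ℂ (fun v : (ι → ℂ) × J2 P2 ℂ => op v.1 φ y v.2) 0

/-- real vectors -/
def IsRe {ι : Type} (a : ι → ℂ) : Prop := ∀ i, (a i).im = 0

/-- real jets -/
def ReJ (q : J2 P2 ℂ) : Prop :=
  q.1.im = 0 ∧ (∀ u, (q.2.1 u).im = 0) ∧ ∀ u v, (q.2.2 u v).im = 0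

/-- the jet `(0, 0, ξ ⊗ ξ)` -/
def sqJ (ξ : P2 →L[ℝ] ℝ) : J2 P2 ℂ := J2.map Complex.ofRealCLM (0, 0, ξ.smulRight ξ)

/-- the hypotheses on the operator -/
structure OpOK (S C0 : Set E3) {J : Type} (K : J → P2 → E3) {ι : Type} [Fintype ι] (op : Op ι)
    (α δ : ℝ) : Prop where
  inv : ∀ φ y φ' y', Par S φ y → Par S φ' y' → φ y ∈ Mo C0 K → φ' y' = φ y →
    ∀ a, ‖a‖ < δ → ∀ w : E3 → ℂ, ContDiffAt ℝ 2 (fun z => w (φ z)) y →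
      ContDiffAt ℝ 2 (fun z => w (φ' z)) y' →
      op a φ' y' (jet2 (fun z => w (φ' z)) y') = op a φ y (jet2 (fun z => w (φ z)) y)
  loc : ∀ φ y, Par S φ y → φ y ∈ Mo C0 K → ∃ r > 0, ∃ M : ℝ, ∀ z ∈ ball y r,
    DifferentiableOn ℂ (fun v : (ι → ℂ) × J2 P2 ℂ => op v.1 φ z v.2) (ball 0 r) ∧
    ∀ v ∈ ball (0 : (ι → ℂ) × J2 P2 ℂ) r, ‖op v.1 φ z v.2‖ ≤ M ∧
      (∀ z' ∈ ball y r, ‖op v.1 φ z v.2 - op v.1 φ z' v.2‖ ≤ M * ‖z - z'‖ ^ α) ∧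
      (IsRe v.1 → ReJ v.2 → (op v.1 φ z v.2).im = 0)
  zero : ∀ φ y, Par S φ y → φ y ∈ Mo C0 K → op 0 φ y 0 = 0
  ell : ∀ φ y, Par S φ y → φ y ∈ Mo C0 K → ∀ ξ : P2 →L[ℝ] ℝ, ξ ≠ 0 →
    0 < (lin op φ y (0, sqJ ξ)).re
  per : ∀ φ : P2 → E3, (∀ z, φ (z.1, z.2 + 2 * π) = φ z) →
    ∀ a y q, op a φ (y.1, y.2 + 2 * π) q = op a φ y q
  out : ∀ j y, y.1 ∈ Ioo (0 : ℝ) 6 → ∀ a, ‖a‖ < δ → ∀ q, op a (K j) y q = op 0 (K j) y q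
  quasi : ∀ j y, y.1 ∈ Ioo (0 : ℝ) 6 → ∀ (q : J2 P2 ℂ) (t : ℝ),
    op 0 (K j) y (q.1, q.2.1, t • q.2.2) - op 0 (K j) y (q.1, q.2.1, 0) =
      t * (op 0 (K j) y q - op 0 (K j) y (q.1, q.2.1, 0))

/-- the two-jet of the surface `P a + w W a` -/
def surJ {ι : Type} (P W : (ι → ℂ) → E3 → C3) (a : ι → ℂ) (φ : P2 → E3) (y : P2) (q : J2 P2 ℂ) :
    J2 P2 C3 :=
  jet2 (fun z => P a (φ z)) y + q.smul (jet2 (fun z => W a (φ z)) y)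

/-- the Euler-Lagrange operator of the Gaussian area of `P a + w W a` with respect to the Gaussian
area of `S`, minus the sources `∑ a i F i` -/
def elOp {ι : Type} [Fintype ι] (P W : (ι → ℂ) → E3 → C3) (F : ι → E3 → ℝ) : Op ι :=
  fun a φ y q =>
    (W a (φ y) ⬝ᵥ nor (surJ P W a φ y q).2.1) ^ 2 / gdet (surJ P W a φ y q).2.1 *
      (lag (surJ P W a φ y q).one / lag (jet1 (fun z => cE (φ z)) y)) *
        shr (surJ P W a φ y q) (W a (φ y)) - ∑ i, a i * F i (φ y)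

/-- the hypotheses on the family of surfaces and on the sources -/
structure ElOK (S C0 : Set E3) {J : Type} (K : J → P2 → E3) {ι : Type} [Fintype ι]
    (V : E3 → E3) (P W : (ι → ℂ) → E3 → C3) (F : ι → E3 → ℝ) (α δ : ℝ) : Prop where
  P0 : ∀ x, P 0 x = cE x
  W0 : ∀ x, W 0 x = cE (V x)
  shr0 : ∀ φ y, Par S φ y → φ y ∈ Mo C0 K → Shr (fun z => cE (φ z)) (fun z => cE (V (φ z))) y = 0
  trans : ∀ φ y, Par S φ y → φ y ∈ Mo C0 K →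
    cE (V (φ y)) ⬝ᵥ nor (fderiv ℝ (fun z => cE (φ z)) y) ≠ 0
  smooth : ∀ x ∈ Mo C0 K, ∃ φ y, Par S φ y ∧ φ y = x ∧ ∀ a, ‖a‖ < δ →
    ContDiffAt ℝ 3 (fun v : (ι → ℂ) × P2 => (P v.1 (φ v.2), W v.1 (φ v.2))) (a, y)
  hol : ∀ x ∈ Mo C0 K, DifferentiableOn ℂ (fun a => (P a x, W a x)) (ball 0 δ)
  real : ∀ x ∈ Mo C0 K, ∀ a, ‖a‖ < δ → IsRe a → IsRe (P a x) ∧ IsRe (W a x)
  rot : ∀ j a, ‖a‖ < δ → ∃ O : C3 →L[ℂ] C3, IsRot (O.restrictScalars ℝ) ∧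
    ∀ y, y.1 ∈ Ioo (0 : ℝ) 6 → P a (K j y) = O (cE (K j y)) ∧ W a (K j y) = O (cE (V (K j y)))
  F0 : ∀ i j y, y.1 ∈ Ioo (0 : ℝ) 6 → F i (K j y) = 0
  Fhol : ∀ x ∈ Mo C0 K, ∃ φ y, Par S φ y ∧ φ y = x ∧ ∃ r > 0, ∃ C : ℝ, ∀ i, ∀ z ∈ ball y r,
    ∀ z' ∈ ball y r, |F i (φ z) - F i (φ z')| ≤ C * ‖z - z'‖ ^ α

/-- the Euler-Lagrange operator satisfies the hypotheses of the core theorem -/
def OpStmt : Prop :=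
  ∀ (S C0 : Set E3) (J ι : Type) [Fintype J] [Fintype ι] (K : J → P2 → E3) (V : E3 → E3)
    (P W : (ι → ℂ) → E3 → C3) (F : ι → E3 → ℝ) (α δ : ℝ), 0 < α → α < 1 → 0 < δ → Geo S C0 K →
    ElOK S C0 K V P W F α δ → OpOK S C0 K (elOp P W F) α δ

/-! ### The data -/

/-- the traces of `C^{2,α}` functions lie in `G`, compactly -/
def TraceOK (α : ℝ) {J G : Type} [NormedAddCommGroup G] [NormedSpace ℂ G]
    (ev : G →ₗ[ℂ] J → ℝ → ℂ) : Prop :=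
  Function.Injective ev ∧
  ∀ (Z : Type) [NormedAddCommGroup Z] [NormedSpace ℂ Z] (τ : Z →ₗ[ℂ] J → ℝ → ℂ) (C : ℝ),
    (∀ z j, ContDiff ℝ 2 (τ z j) ∧ Function.Periodic (τ z j) (2 * π) ∧ ∀ θ,
      ‖τ z j θ‖ ≤ C * ‖z‖ ∧ ‖deriv (τ z j) θ‖ ≤ C * ‖z‖ ∧ ‖deriv (deriv (τ z j)) θ‖ ≤ C * ‖z‖ ∧
      ∀ θ', ‖deriv (deriv (τ z j)) θ - deriv (deriv (τ z j)) θ'‖ ≤ C * ‖z‖ * |θ - θ'| ^ α) →
    ∃ T : Z →L[ℂ] G, IsCompactOperator T ∧ ∀ z, ev (T z) = τ z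

/-- the arguments of the extra equations: `w` on the core, the trace, the extra unknowns -/
abbrev Arg (C0 : Set E3) (G ι : Type) : Type := C(C0, ℂ) × G × (ι → ℂ)

/-- end solutions and extra equations -/
structure Dat (C0 : Set E3) (J G ι : Type) where
  E : G → J → P2 → ℂ
  B : Arg C0 G ι → ι → ℂ

section data

variable {S C0 : Set E3} [CompactSpace C0] {J G ι : Type} [NormedAddCommGroup G]
  [NormedSpace ℂ G] [Fintype ι]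

/-- real arguments -/
def ReArg (ev : G →ₗ[ℂ] J → ℝ → ℂ) (v : Arg C0 G ι) : Prop :=
  (∀ x, (v.1 x).im = 0) ∧ (∀ j θ, (ev v.2.1 j θ).im = 0) ∧ IsRe v.2.2

/-- the linear model `E'`, `B'`, and the injectivity of the linearised glued system -/
structure LinOK (S : Set E3) (K : J → P2 → E3) (op : Op ι) (ev : G →ₗ[ℂ] J → ℝ → ℂ)
    (E' : G →ₗ[ℂ] J → P2 → ℂ) (B' : Arg C0 G ι →L[ℂ] ι → ℂ) : Prop where
  c2 : ∀ g j y, y.1 ∈ Ioo (0 : ℝ) 6 → ContDiffAt ℝ 2 (E' g j) y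
  per : ∀ g j y, E' g j (y.1, y.2 + 2 * π) = E' g j y
  bd : ∃ C, ∀ g j y, y.1 ∈ Ioo (0 : ℝ) 6 → ‖jet2 (E' g j) y‖ ≤ C * ‖g‖
  eq : ∀ g j y, y.1 ∈ Ioo (0 : ℝ) 6 → lin op (K j) y (0, jet2 (E' g j) y) = 0
  cont : ∀ g j, ContinuousOn (E' g j) (Ico 0 6 ×ˢ univ)
  mat : ∀ v, B' v = 0 → ∀ j θ, E' v.2.1 j (0, θ) = ev v.2.1 j θ
  reE : ∀ g, (∀ j θ, (ev g j θ).im = 0) → ∀ j y, y.1 ∈ Ioo (0 : ℝ) 6 → (E' g j y).im = 0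
  reB : ∀ v, ReArg ev v → IsRe (B' v)
  inj : ∀ (w : E3 → ℂ) (v : Arg C0 G ι), (∀ x : C0, v.1 x = w x) →
    (∀ j θ, ev v.2.1 j θ = w (K j (0, θ))) →
    (∀ φ y, Par S φ y → φ y ∈ Mo C0 K → ContDiffAt ℝ 2 (fun z => w (φ z)) y) →
    (∀ φ y, Par S φ y → φ y ∈ C0 → lin op φ y (v.2.2, jet2 (fun z => w (φ z)) y) = 0) →
    (∀ j y, y.1 ∈ Icc (0 : ℝ) 3 → w (K j y) = E' v.2.1 j y) → B' v = 0 → v.1 = 0 ∧ v.2.2 = 0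

/-- holomorphic data on the ball of radius `ρ`, `ε`-close to the linear model -/
structure Adm (E' : G →ₗ[ℂ] J → P2 → ℂ) (B' : Arg C0 G ι →L[ℂ] ι → ℂ) (ε ρ : ℝ)
    (D : Dat C0 J G ι) : Prop where
  c2 : ∀ g, ‖g‖ < ρ → ∀ j y, y.1 ∈ Ioo (0 : ℝ) 6 → ContDiffAt ℝ 2 (D.E g j) y
  per : ∀ g, ‖g‖ < ρ → ∀ j y, D.E g j (y.1, y.2 + 2 * π) = D.E g j y
  hol : ∀ j y, y.1 ∈ Ioo (0 : ℝ) 6 → DifferentiableOn ℂ (fun g => jet1 (D.E g j) y) (ball 0 ρ)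
  dev : ∀ g, ‖g‖ < ρ → ∀ j y, y.1 ∈ Ioo (0 : ℝ) 6 → ‖jet2 (D.E g j) y - jet2 (E' g j) y‖ ≤ ε
  holB : DifferentiableOn ℂ D.B (ball 0 ρ)
  devB : ∀ v, ‖v‖ < ρ → ‖D.B v - B' v‖ ≤ ε

/-- real data -/
structure ReDat (ev : G →ₗ[ℂ] J → ℝ → ℂ) (ρ : ℝ) (D : Dat C0 J G ι) : Prop where
  reE : ∀ g, ‖g‖ < ρ → (∀ j θ, (ev g j θ).im = 0) → ∀ j y, y.1 ∈ Ioo (0 : ℝ) 6 →
    (D.E g j y).im = 0
  reB : ∀ v, ‖v‖ < ρ → ReArg ev v → IsRe (D.B v)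

/-- the end maps solve the equation, and the extra equations contain the matching condition -/
structure Exact (K : J → P2 → E3) (op : Op ι) (ev : G →ₗ[ℂ] J → ℝ → ℂ) (ρ : ℝ)
    (D : Dat C0 J G ι) : Prop where
  eq : ∀ g, ‖g‖ < ρ → ∀ j y, y.1 ∈ Ioo (0 : ℝ) 6 → op 0 (K j) y (jet2 (D.E g j) y) = 0
  cont : ∀ g, ‖g‖ < ρ → ∀ j, ContinuousOn (D.E g j) (Ico 0 6 ×ˢ univ)
  mat : ∀ v, ‖v‖ < ρ → D.B v = 0 → ∀ j θ, D.E v.2.1 j (0, θ) = ev v.2.1 j θ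

/-- the space `Z` of `C^{2,α}` functions `val z` on the core and the collars; `arg (z, a)` consists
of the restriction to the core, the trace and `a` -/
structure Space (S : Set E3) (K : J → P2 → E3) (α : ℝ) (ev : G →ₗ[ℂ] J → ℝ → ℂ) {Z : Type}
    [NormedAddCommGroup Z] [NormedSpace ℂ Z] (val : Z →ₗ[ℂ] E3 → ℂ)
    (arg : Z × (ι → ℂ) →L[ℂ] Arg C0 G ι) : Prop where
  jet : ∀ φ y, Par S φ y → φ y ∈ Mo C0 K → ∃ r > 0, ∃ C : ℝ, ∀ z, ∀ y' ∈ ball y r,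
    ContDiffAt ℝ 2 (fun t => val z (φ t)) y' ∧ ‖jet2 (fun t => val z (φ t)) y'‖ ≤ C * ‖z‖ ∧
      ∀ y'' ∈ ball y r, ‖jet2 (fun t => val z (φ t)) y' - jet2 (fun t => val z (φ t)) y''‖ ≤
        C * ‖z‖ * ‖y' - y''‖ ^ α
  res : ∀ s (x : C0), (arg s).1 x = val s.1 x
  tr : ∀ s j θ, ev (arg s).2.1 j θ = val s.1 (K j (0, θ))
  snd : ∀ s, (arg s).2.2 = s.2

/-- the solution operator on the ball of radius `ρ` -/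
structure Solver (S : Set E3) (K : J → P2 → E3) (op : Op ι) (ev : G →ₗ[ℂ] J → ℝ → ℂ)
    (E' : G →ₗ[ℂ] J → P2 → ℂ) (B' : Arg C0 G ι →L[ℂ] ι → ℂ) {Z : Type} [NormedAddCommGroup Z]
    [NormedSpace ℂ Z] (val : Z →ₗ[ℂ] E3 → ℂ) (arg : Z × (ι → ℂ) →L[ℂ] Arg C0 G ι) (ε ρ C : ℝ)
    (sol : Dat C0 J G ι → Z × (ι → ℂ)) : Prop where
  norm : ∀ D, Adm E' B' ε ρ D → ‖sol D‖ ≤ ρ / 2 ∧ ‖arg (sol D)‖ ≤ ρ / 2
  extra : ∀ D, Adm E' B' ε ρ D → D.B (arg (sol D)) = 0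
  eq : ∀ D, Adm E' B' ε ρ D → ∀ φ y, Par S φ y → φ y ∈ C0 →
    op (sol D).2 φ y (jet2 (fun t => val (sol D).1 (φ t)) y) = 0
  real : ∀ D, Adm E' B' ε ρ D → ReDat ev ρ D →
    IsRe (sol D).2 ∧ ∀ x ∈ Mo C0 K, (val (sol D).1 x).im = 0
  glue : ∀ D, Adm E' B' ε ρ D → ReDat ev ρ D → Exact K op ev ρ D →
    ∀ j y, y.1 ∈ Icc (0 : ℝ) 3 → val (sol D).1 (K j y) = D.E (arg (sol D)).2.1 j y
  small : ∀ D, Adm E' B' ε ρ D → ∀ η, (∀ j y, y.1 ∈ Ioo (0 : ℝ) 6 → ‖jet2 (D.E 0 j) y‖ ≤ η) →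
    ‖D.B 0‖ ≤ η → ‖sol D‖ ≤ C * η
  stab : ∀ D D', Adm E' B' ε ρ D → Adm E' B' ε ρ D' → ∀ η,
    (∀ j y, y.1 ∈ Ioo (0 : ℝ) 6 →
      ‖jet2 (D.E (arg (sol D')).2.1 j) y - jet2 (D'.E (arg (sol D')).2.1 j) y‖ ≤ η) →
    ‖D.B (arg (sol D'))‖ ≤ η → ‖sol D - sol D'‖ ≤ C * η
  hol : ∀ (P : Type) [NormedAddCommGroup P] [NormedSpace ℂ P] (U : Set P) (D : P → Dat C0 J G ι),
    IsOpen U → (∀ p ∈ U, Adm E' B' ε ρ (D p)) →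
    (∀ j y, y.1 ∈ Ioo (0 : ℝ) 6 →
      DifferentiableOn ℂ (fun q : G × P => jet1 ((D q.2).E q.1 j) y) (ball 0 ρ ×ˢ U)) →
    DifferentiableOn ℂ (fun q : Arg C0 G ι × P => (D q.2).B q.1) (ball 0 ρ ×ˢ U) →
    DifferentiableOn ℂ (fun p => sol (D p)) U ∧
    ∀ R : Set P, (∀ f : P → ℂ, DifferentiableOn ℂ f U → (∀ p ∈ U, p ∈ R → f p = 0) →
      EqOn f 0 U) → (∀ p ∈ U, p ∈ R → ReDat ev ρ (D p)) → (∀ p ∈ U, Exact K op ev ρ (D p)) →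
      ∀ p ∈ U, ∀ j y, y.1 ∈ Icc (0 : ℝ) 3 →
        val (sol (D p)).1 (K j y) = (D p).E (arg (sol (D p))).2.1 j y

end data

/-- **the core theorem** -/
def CoreSolve : Prop :=
  ∀ (S C0 : Set E3) [CompactSpace C0] (J G ι : Type) [Fintype J] [NormedAddCommGroup G]
    [NormedSpace ℂ G] [Fintype ι] (K : J → P2 → E3) (op : Op ι) (α δ : ℝ)
    (ev : G →ₗ[ℂ] J → ℝ → ℂ) (E' : G →ₗ[ℂ] J → P2 → ℂ) (B' : Arg C0 G ι →L[ℂ] ι → ℂ),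
    0 < α → α < 1 → 0 < δ → Geo S C0 K → OpOK S C0 K op α δ → TraceOK α ev →
    LinOK S K op ev E' B' →
    ∃ (Z : Type) (_ : NormedAddCommGroup Z) (_ : NormedSpace ℂ Z) (val : Z →ₗ[ℂ] E3 → ℂ)
      (arg : Z × (ι → ℂ) →L[ℂ] Arg C0 G ι), CompleteSpace Z ∧ Space S K α ev val arg ∧
      ∃ θ > 0, ∃ ρ0 > 0, ∃ C : ℝ, ∀ ρ, 0 < ρ → ρ ≤ ρ0 →
        ∃ sol, Solver S K op ev E' B' val arg (θ * ρ) ρ C sol

end Vale.Agent.P218F.Core
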