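import Vale.Agent.P218F.CoreHol
import Vale.Agent.P218F.CoreSpec
import Vale.Agent.P272.K.LIN.Patch
import Vale.Agent.P272.K.LIN.DescIn
import Mathlib.Topology.ContinuousMap.Bounded.ArzelaAscoli

/-!
# Holomorphic elliptic operators on a closed surface: the Schauder parametrisation of the complex
space `C^{2,α}`, the nonlinear operator as a holomorphic map, the maximum principle
-/

open Set Metric Filter Topology Complex
open scoped NNReal ContDiff BoundedContinuousFunction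
open Vale.Agent.P272.K.LIN Vale.Agent.P272.K

set_option linter.unusedSectionVars false
set_option maxSynthPendingDepth 3

noncomputable section

namespace Vale.Agent.P218F.Core

/-! ### Tools -/

section tools

theorem compact_of_interp {Z W B : Type*} [NormedAddCommGroup Z] [NormedSpace ℝ Z]
    [NormedAddCommGroup W] [NormedSpace ℝ W] [CompleteSpace W] [NormedAddCommGroup B]
    [NormedSpace ℝ B] (T : Z →L[ℝ] W) (S : Z →ₗ[ℝ] B) (hS : TotallyBounded (S '' ball 0 1))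
    (h : ∀ ε > 0, ∃ C, ∀ z, ‖T z‖ ≤ ε * ‖z‖ + C * ‖S z‖) : IsCompactOperator T := by
  refine (isCompactOperator_iff_exists_mem_nhds_isCompact_closure_image T).2
    ⟨ball 0 1, ball_mem_nhds _ one_pos, ?_⟩
  refine (TotallyBounded.closure ?_).isCompact_of_isClosed isClosed_closure
  refine Metric.totallyBounded_iff.2 fun ε hε => ?_
  obtain ⟨C, hC⟩ := h (ε / 4) (by positivity)
  have hε' : 0 < ε / (4 * (|C| + 1)) := by positivity
  obtain ⟨t, ht, hf, hc⟩ := (totallyBounded_iff_subset.1 hS) _ (dist_mem_uniformity hε')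
  have ht' : ∀ b ∈ t, ∃ v ∈ ball (0 : Z) 1, S v = b := fun b hb => ht hb
  choose! z hz hzS using ht'
  refine ⟨(fun b => T (z b)) '' t, hf.image _, ?_⟩
  rintro _ ⟨v, hv, rfl⟩
  obtain ⟨b, hb, hvb⟩ := mem_iUnion₂.1 (hc ⟨v, hv, rfl⟩)
  refine mem_iUnion₂.2 ⟨T (z b), ⟨b, hb, rfl⟩, ?_⟩
  have h1 : ‖v - z b‖ ≤ 2 := (norm_sub_le _ _).trans (by
    have := mem_ball_zero_iff.1 hv; have := mem_ball_zero_iff.1 (hz b hb); linarith)
  have h2 : ‖S (v - z b)‖ ≤ ε / (4 * (|C| + 1)) := by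
    rw [map_sub, hzS b hb, ← dist_eq_norm]; exact le_of_lt hvb
  rw [mem_ball, dist_eq_norm, ← map_sub]
  refine (hC _).trans_lt ?_
  have h3 : C * ‖S (v - z b)‖ ≤ (|C| + 1) * (ε / (4 * (|C| + 1))) :=
    mul_le_mul (by linarith [le_abs_self C]) h2 (norm_nonneg _) (by positivity)
  have h4 : (|C| + 1) * (ε / (4 * (|C| + 1))) = ε / 4 := by field_simp
  nlinarith

variable {Z W : Type*} [NormedAddCommGroup Z] [NormedSpace ℂ Z] [NormedAddCommGroup W]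
  [NormedSpace ℂ W]

/-- the derivative near the centre of the ball -/
theorem fderiv_sub_le {f : Z → W} {δ M s : ℝ} (hd : DifferentiableOn ℂ f (ball 0 δ))
    (hb : ∀ q ∈ ball (0 : Z) δ, ‖f q‖ ≤ M) {v : Z} (hv : ‖v‖ < s) (hs : 2 * s ≤ δ) :
    ‖fderiv ℂ f v - fderiv ℂ f 0‖ ≤ 32 * M / δ ^ 2 * s := by
  have s0 : 0 < s := (norm_nonneg v).trans_lt hv
  have δ0 : 0 < δ := by linarith
  have M0 : 0 ≤ M := (norm_nonneg _).trans (hb 0 (mem_ball_self δ0))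
  have h2 : ∀ q ∈ ball v s, ‖q‖ < 2 * s := fun q hq => by
    have := norm_le_norm_add_norm_sub' q v
    have := mem_ball_iff_norm.1 hq
    linarith
  have hsub : ball v s ⊆ ball 0 δ := fun q hq => mem_ball_zero_iff.2 ((h2 q hq).trans_le hs)
  have hg : DifferentiableOn ℂ (fun q => f q - f 0 - fderiv ℂ f 0 q) (ball v s) :=
    ((hd.mono hsub).sub_const _).sub (fderiv ℂ f 0).differentiable.differentiableOn
  have h3 := fderiv_le (M := 4 * M / δ ^ 2 * (2 * s) ^ 2) s0 hg fun q hq => by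
    have := rem_le hd hb (hsub hq)
    rw [sub_zero] at this
    refine this.trans ?_
    have := (h2 q hq).le
    gcongr
  have hv' : DifferentiableAt ℂ f v := hd.differentiableAt (isOpen_ball.mem_nhds
    (hsub (mem_ball_self s0)))
  rw [((hv'.hasFDerivAt.sub_const (f 0)).fun_sub (fderiv ℂ f 0).hasFDerivAt).fderiv] at h3
  refine h3.trans (le_of_eq ?_)
  field_simp
  ring

theorem hasDerivAt_ray {f : Z → ℂ} {a : Z} (v : Z) {t : ℝ}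
    (hf : DifferentiableAt ℂ f (a + (t : ℂ) • v)) :
    HasDerivAt (fun s : ℝ => f (a + (s : ℂ) • v)) (fderiv ℂ f (a + (t : ℂ) • v) v) t := by
  have h1 : HasDerivAt (fun s : ℂ => a + s • v) v (t : ℂ) := by
    simpa using ((hasDerivAt_id (t : ℂ)).smul_const v).const_add a
  exact (hf.hasFDerivAt.comp_hasDerivAt (t : ℂ) h1).comp_ofReal

theorem smul_split [NormedSpace ℝ Z] [IsScalarTower ℝ ℂ Z] (c : ℂ) (u : Z) :
    c • u = c.re • u + c.im • I • u := by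
  rw [← smul_assoc c.im, ← smul_one_smul ℂ c.re, ← add_smul]
  congr 1
  simp

/-- a real linear map commuting with `I` -/
def cxOf [NormedSpace ℝ Z] [IsScalarTower ℝ ℂ Z] [NormedSpace ℝ W] [IsScalarTower ℝ ℂ W]
    (T : Z →L[ℝ] W) (h : ∀ z, T (I • z) = I • T z) : Z →L[ℂ] W where
  toFun := T
  map_add' := T.map_add
  map_smul' c z := by
    rw [RingHom.id_apply, smul_split c z, smul_split c (T z), map_add, map_smul, map_smul, h]
  cont := T.cont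

end tools

section hol

variable {Y : Type*} {w : Y → Y → ℝ≥0} {V W : Type*} [NormedAddCommGroup V] [NormedSpace ℂ V]
  [NormedAddCommGroup W] [NormedSpace ℂ W]

theorem holTower [NormedSpace ℝ V] [IsScalarTower ℝ ℂ V] : IsScalarTower ℝ ℂ (Hol w V) :=
  ⟨fun a b f => Hol.ext fun x => smul_assoc a b (f x)⟩

attribute [local instance] holTower

/-- evaluation -/
def evC (x : Y) : Hol w V →L[ℂ] V :=
  LinearMap.mkContinuous
    { toFun := fun f => f x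
      map_add' := fun _ _ => rfl
      map_smul' := fun _ _ => rfl } 1 fun f => by simpa using Hol.norm_apply_le f x

@[simp] theorem evC_apply (x : Y) (f : Hol w V) : evC x f = f x := rfl

/-- the complexification of a real linear map -/
def cx [NormedSpace ℝ W] [IsScalarTower ℝ ℂ W] (T : Hol w ℝ →L[ℝ] W) : Hol w ℂ →L[ℂ] W :=
  cxOf (T.comp (Hol.map reCLM) +
    ((I • ContinuousLinearMap.id ℂ W).restrictScalars ℝ).comp (T.comp (Hol.map imCLM))) fun f => by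
    have h1 : Hol.map reCLM (I • f) = -Hol.map imCLM f := Hol.ext fun x => by simp
    have h2 : Hol.map imCLM (I • f) = Hol.map reCLM f := Hol.ext fun x => by simp
    simp [h1, h2, smul_smul, add_comm]

theorem cx_apply [NormedSpace ℝ W] [IsScalarTower ℝ ℂ W] (T : Hol w ℝ →L[ℝ] W) (f : Hol w ℂ) :
    cx T f = T (Hol.map reCLM f) + I • T (Hol.map imCLM f) := rfl

theorem cx_compact [NormedSpace ℝ W] [IsScalarTower ℝ ℂ W] {T : Hol w ℝ →L[ℝ] W}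
    (h : IsCompactOperator T) : IsCompactOperator (cx T) :=
  (h.comp_clm (Hol.map reCLM)).add ((h.comp_clm (Hol.map imCLM)).smul I)

theorem exists_clm {𝕜 Z U : Type*} [NontriviallyNormedField 𝕜] [NormedAddCommGroup Z]
    [NormedSpace 𝕜 Z] [NormedAddCommGroup U] [NormedSpace 𝕜 U] (f : Z → Y → U) (K : ℝ)
    (hadd : ∀ z z' x, f (z + z') x = f z x + f z' x) (hs : ∀ (c : 𝕜) z x, f (c • z) x = c • f z x)
    (h : ∀ z, ∃ g : Hol w U, (∀ x, g x = f z x) ∧ ‖g‖ ≤ K * ‖z‖) :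
    ∃ T : Z →L[𝕜] Hol w U, ∀ z x, T z x = f z x := by
  choose g h1 h2 using h
  refine ⟨LinearMap.mkContinuous
    { toFun := g
      map_add' := fun z z' => Hol.ext fun x => ?_
      map_smul' := fun c z => Hol.ext fun x => ?_ } K h2, h1⟩
  · exact (h1 _ x).trans ((hadd z z' x).trans (by rw [← h1, ← h1]; rfl))
  · exact (h1 _ x).trans ((hs c z x).trans (by rw [← h1]; rfl))

end hol

/-! ### Real jets -/

/-- the inclusion of real jets -/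
def ιJ : Jet P2 →L[ℝ] J2 P2 ℂ :=
  ofRealCLM.prodMap ((ContinuousLinearMap.compL ℝ P2 ℝ ℂ ofRealCLM).prodMap
    (ContinuousLinearMap.compL ℝ P2 (P2 →L[ℝ] ℝ) (P2 →L[ℝ] ℂ)
      (ContinuousLinearMap.compL ℝ P2 ℝ ℂ ofRealCLM)))

theorem ιJ_eq (q : Jet P2) : ιJ q = J2.map ofRealCLM q := rfl

theorem reJ_ιJ (q : Jet P2) : ReJ (ιJ q) := ⟨ofReal_im _, fun _ => ofReal_im _, fun _ _ => ofReal_im _⟩

theorem norm_ιJ_le (q : Jet P2) : ‖ιJ q‖ ≤ ‖q‖ := by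
  refine max_le ((norm_real _).le.trans (norm_fst_le q)) (max_le ?_ ?_)
  · refine ContinuousLinearMap.opNorm_le_bound _ (norm_nonneg _) fun u => (norm_real _).le.trans ?_
    exact q.2.1.le_of_opNorm_le ((norm_fst_le _).trans (norm_snd_le q)) u
  · refine ContinuousLinearMap.opNorm_le_bound₂ _ (norm_nonneg _) fun u v =>
      (norm_real _).le.trans ?_
    exact q.2.2.le_of_opNorm₂_le_of_le ((norm_snd_le _).trans (norm_snd_le q)) le_rfl le_rfl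

theorem norm_cx_le {a b : Jet P2} {t : ℝ} (ha : ‖a‖ ≤ t) (hb : ‖b‖ ≤ t) :
    ‖ιJ a + I • ιJ b‖ ≤ 2 * t := by
  have h1 := norm_smul_le I (ιJ b)
  rw [norm_I] at h1
  linarith [norm_ιJ_le a, norm_ιJ_le b, norm_add_le (ιJ a) (I • ιJ b)]

theorem cx_sub (a b a' b' : Jet P2) :
    ιJ a + I • ιJ b - (ιJ a' + I • ιJ b') = ιJ (a - a') + I • ιJ (b - b') := by
  rw [add_sub_add_comm, ← smul_sub, ← map_sub, ← map_sub]

theorem sqJ_eq (ξ : P2 →L[ℝ] ℝ) : sqJ ξ = ιJ (0, 0, ξ.smulRight ξ) := rfl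

theorem ReJ.smul {q : J2 P2 ℂ} (h : ReJ q) (t : ℝ) : ReJ ((t : ℂ) • q) :=
  ⟨by simp [h.1], fun u => by simp [h.2.1 u], fun u v => by simp [h.2.2 u v]⟩

theorem jet2_ofReal {a : P2 → ℝ} {y : P2} (ha : ContDiffAt ℝ 2 a y) :
    jet2 (fun z => (a z : ℂ)) y = ιJ (jet a y) := jet2_clm ofRealCLM ha

theorem jet2_csmul {E V : Type} [NormedAddCommGroup E] [NormedSpace ℝ E] [NormedAddCommGroup V]
    [NormedSpace ℂ V] (c : ℂ) (f : E → V) (y : E) :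
    jet2 (fun z => c • f z) y = c • jet2 f y := by
  have h1 : fderiv ℝ (c • f) = c • fderiv ℝ f := fderiv_const_smul_field c
  have h2 : fderiv ℝ (c • fderiv ℝ f) = c • fderiv ℝ (fderiv ℝ f) := fderiv_const_smul_field c
  unfold jet2
  rw [show (fun z => c • f z) = c • f from rfl, h1, h2]
  rfl

theorem jet2_re_im {u : P2 → ℂ} {y : P2} (hu : ContDiffAt ℝ 2 u y) :
    jet2 u y = ιJ (jet (fun z => (u z).re) y) + I • ιJ (jet (fun z => (u z).im) y) := by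
  have h1 : ContDiffAt ℝ 2 (fun z => (u z).re) y := reCLM.contDiff.contDiffAt.comp y hu
  have h2 : ContDiffAt ℝ 2 (fun z => (u z).im) y := imCLM.contDiff.contDiffAt.comp y hu
  have h3 : ContDiffAt ℝ 2 (fun z => ((u z).re : ℂ)) y := ofRealCLM.contDiff.contDiffAt.comp y h1
  have h4 : ContDiffAt ℝ 2 (fun z => ((u z).im : ℂ)) y := ofRealCLM.contDiff.contDiffAt.comp y h2
  rw [← jet2_ofReal h1, ← jet2_ofReal h2, ← jet2_csmul, ← jet2_add h3 (h4.const_smul I)]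
  congr 1
  funext z
  simp [mul_comm I]

theorem reJ_jet2 {u : P2 → ℂ} {y : P2} (hu : ContDiffAt ℝ 2 u y) (h : ∀ᶠ z in 𝓝 y, (u z).im = 0) :
    jet2 u y = ιJ (jet (fun z => (u z).re) y) := by
  have h1 : ContDiffAt ℝ 2 (fun z => (u z).re) y := reCLM.contDiff.contDiffAt.comp y hu
  rw [← jet2_ofReal h1]
  refine jet2_congr (h.mono fun z hz => ?_)
  exact Complex.ext (by simp) (by simp [hz])

/-- the real operator of a complex linear form on jets -/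
def rl (A : J2 P2 ℂ →L[ℂ] ℂ) : Jet P2 →L[ℝ] ℝ := reCLM.comp ((A.restrictScalars ℝ).comp ιJ)

theorem rl_apply (A : J2 P2 ℂ →L[ℂ] ℂ) (q : Jet P2) : rl A q = (A (ιJ q)).re := rfl

theorem rl_sub (A B : J2 P2 ℂ →L[ℂ] ℂ) : rl (A - B) = rl A - rl B :=
  ContinuousLinearMap.ext fun q => by simp [rl_apply]

theorem norm_rl_le (A : J2 P2 ℂ →L[ℂ] ℂ) : ‖rl A‖ ≤ ‖A‖ :=
  ContinuousLinearMap.opNorm_le_bound _ (norm_nonneg _) fun q =>
    (abs_re_le_norm _).trans (A.le_of_opNorm_le_of_le le_rfl (norm_ιJ_le q))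

theorem jet_split (A : Jet P2 →L[ℝ] ℝ) (q : Jet P2) :
    A q = q.1 * A (1, 0, 0) + A (0, q.2.1, 0) + A (0, 0, q.2.2) := by
  rw [← smul_eq_mul, ← map_smul, ← map_add, ← map_add]
  congr 1
  simp

/-! ### The maximum principle -/

section mp

variable {X : Type} [TopologicalSpace X]

theorem mp_le {D O : Set X} (hD : IsCompact D) (hO : IsOpen O) (hOD : O ⊆ D) {d h : X → ℝ}
    (hd : ContinuousOn d D) (hh : ContinuousOn h D) (hp : ∀ x ∈ D, 0 < h x)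
    (hb : ∀ x ∈ D, x ∉ O → d x ≤ 0)
    (hi : ∀ x ∈ O, ∃ (e : OpenPartialHomeomorph X P2) (A : Jet P2 →L[ℝ] ℝ), x ∈ e.source ∧
      ContDiffAt ℝ 2 (fun y => d (e.symm y)) (e x) ∧ ContDiffAt ℝ 2 (fun y => h (e.symm y)) (e x) ∧
      A (jet (fun y => d (e.symm y)) (e x)) = 0 ∧ A (jet (fun y => h (e.symm y)) (e x)) < 0 ∧
      ∀ ξ : P2 →L[ℝ] ℝ, 0 ≤ A (0, 0, ξ.smulRight ξ)) : ∀ x ∈ D, d x ≤ 0 := by
  intro x1 hx1
  obtain ⟨x, hx, hmax⟩ := hD.exists_isMaxOn ⟨x1, hx1⟩ (hd.div hh fun x hx => (hp x hx).ne')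
  by_contra hneg
  have hm : 0 < d x / h x := (div_pos (not_le.1 hneg) (hp x1 hx1)).trans_le (hmax hx1)
  set m := d x / h x with hmdef
  have hxO : x ∈ O := by
    by_contra hxO
    exact absurd (div_nonpos_of_nonpos_of_nonneg (hb x hx hxO) (hp x hx).le) (not_le.2 hm)
  obtain ⟨e, A, hs, c1, c2, e1, e2, hA⟩ := hi x hxO
  have h0 : d x + -m * h x = 0 := by rw [hmdef]; field_simp [(hp x hx).ne']; ring
  have hl : IsLocalMax (fun x => d x + -m * h x) x := by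
    filter_upwards [hO.mem_nhds hxO] with z hz
    have h1 : d z / h z ≤ m := hmax (hOD hz)
    rw [div_le_iff₀ (hp z (hOD hz))] at h1
    linarith
  have c3 : ContDiffAt ℝ 2 (fun y => -m * h (e.symm y)) (e x) := contDiffAt_const.mul c2
  have h1 := MP.op_nonpos_of_max (A.comp ((ContinuousLinearMap.inr ℝ _ _).comp
    (ContinuousLinearMap.inr ℝ _ _))) hA (A.comp ((ContinuousLinearMap.inr ℝ _ _).comp
    (ContinuousLinearMap.inl ℝ _ _))) (MP.isLocalMax_chart hs hl) (c1.add c3)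
  have h2 := jet_split A (jet (fun y => d (e.symm y) + -m * h (e.symm y)) (e x))
  have h3 : (jet (fun y => d (e.symm y) + -m * h (e.symm y)) (e x)).1 = 0 := by
    show d (e.symm (e x)) + -m * h (e.symm (e x)) = 0
    rw [e.left_inv hs, h0]
  rw [h3, zero_mul, zero_add, add_comm] at h2
  have h4 := h2.trans_le h1
  rw [Cov.jet_add c1 c3, Cov.jet_smul, map_add, map_smul, e1, smul_eq_mul] at h4
  nlinarith

theorem mp_eq {D O : Set X} (hD : IsCompact D) (hO : IsOpen O) (hOD : O ⊆ D) {d h : X → ℝ}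
    (hd : ContinuousOn d D) (hh : ContinuousOn h D) (hp : ∀ x ∈ D, 0 < h x)
    (hb : ∀ x ∈ D, x ∉ O → d x = 0)
    (hi : ∀ x ∈ O, ∃ (e : OpenPartialHomeomorph X P2) (A : Jet P2 →L[ℝ] ℝ), x ∈ e.source ∧
      ContDiffAt ℝ 2 (fun y => d (e.symm y)) (e x) ∧ ContDiffAt ℝ 2 (fun y => h (e.symm y)) (e x) ∧
      A (jet (fun y => d (e.symm y)) (e x)) = 0 ∧ A (jet (fun y => h (e.symm y)) (e x)) < 0 ∧
      ∀ ξ : P2 →L[ℝ] ℝ, 0 ≤ A (0, 0, ξ.smulRight ξ)) : ∀ x ∈ D, d x = 0 := by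
  intro x hx
  have h1 := mp_le hD hO hOD hd hh hp (fun x hx hx' => (hb x hx hx').le) hi x hx
  have h2 := mp_le (d := fun x => -1 * d x) hD hO hOD (continuousOn_const.mul hd) hh hp
    (fun x hx hx' => by simp [hb x hx hx']) (fun x hx => by
      obtain ⟨e, A, hs, c1, c2, e1, e2, hA⟩ := hi x hx
      refine ⟨e, A, hs, contDiffAt_const.mul c1, c2, ?_, e2, hA⟩
      rw [Cov.jet_smul, map_smul, e1, smul_zero]) x hx
  linarith

end mp

/-! ### Operators on a closed surface -/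

section surf

variable {X : Type} [TopologicalSpace X] [ChartedSpace P2 X] [T2Space X] [CompactSpace X]
  [RSm P2 X] (𝒞 : Cov P2 X) {α : ℝ}

attribute [local instance] holTower

/-- `x` lies in the ball of radius `2 r` of the `i`-th chart -/
def InB (i : Fin 𝒞.N) (x : X) : Prop :=
  x ∈ (𝒞.e i).source ∧ 𝒞.e i x ∈ ball (𝒞.c i) (2 * 𝒞.r i)

/-- the jet in the `i`-th chart -/
def cj {V : Type} [NormedAddCommGroup V] [NormedSpace ℝ V] (i : Fin 𝒞.N) (u : X → V) (x : X) :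
    J2 P2 V := jet2 (fun y => u ((𝒞.e i).symm y)) (𝒞.e i x)

theorem exists_inB (x : X) : ∃ i, InB 𝒞 i x := by
  obtain ⟨i, h1, h2⟩ := 𝒞.cover x
  exact ⟨i, h1, 𝒞.ball_sub h2⟩

variable {𝒞} in
theorem InB.three {i : Fin 𝒞.N} {x : X} (h : InB 𝒞 i x) : 𝒞.e i x ∈ ball (𝒞.c i) (3 * 𝒞.r i) :=
  ball_subset_ball (by linarith [𝒞.r_pos i]) h.2

theorem J_eq {i : Fin 𝒞.N} {x : X} (h : InB 𝒞 i x) (v : 𝒞.C2 α) :
    𝒞.J α i v x = cj 𝒞 i (𝒞.fn v) x := by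
  rw [𝒞.J_apply, 𝒞.Jf_of_ball h.1 h.2]; rfl

theorem hol_of_charts (h0 : 0 < α) : ∃ C, 0 ≤ C ∧ ∀ {V : Type} [NormedAddCommGroup V] (f : X → V)
    (A B : ℝ), 0 ≤ A → 0 ≤ B → (∀ x, ‖f x‖ ≤ A) → (∀ i x x', InB 𝒞 i x → InB 𝒞 i x' →
      ‖𝒞.e i x - 𝒞.e i x'‖ ^ α ≤ 𝒞.w α x x' → ‖f x - f x'‖ ≤ B * 𝒞.w α x x') →
    ∃ g : Hol (𝒞.w α) V, (∀ x, g x = f x) ∧ ‖g‖ ≤ C * A + B := by
  obtain ⟨δ, hδ, h⟩ := 𝒞.exists_near
  refine ⟨1 + 2 * δ ^ (-α), by positivity, fun f A B hA hB hf hd => ?_⟩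
  have key : ∀ x x', ‖f x - f x'‖ ≤ (2 * δ ^ (-α) * A + B) * 𝒞.w α x x' := fun x y => by
    have hw : 0 ≤ 2 * δ ^ (-α) * A * 𝒞.w α x y := by positivity
    rcases lt_or_ge (𝒞.d x y) δ with hxy | hxy
    · obtain ⟨i, hx, hy, hxi, hyi, hi⟩ := h x y hxy
      have := hd i x y ⟨hx, hxi⟩ ⟨hy, hyi⟩ (by rw [𝒞.coe_w]; gcongr)
      linarith
    · have h2 : 1 ≤ δ ^ (-α) * 𝒞.w α x y := by
        rw [𝒞.coe_w, Real.rpow_neg hδ.le, inv_mul_eq_div, one_le_div (by positivity)]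
        gcongr
      have h3 := norm_sub_le (f x) (f y)
      have h4 : 0 ≤ B * 𝒞.w α x y := by positivity
      nlinarith [hf x, hf y]
  refine ⟨⟨f, ⟨A, hf⟩, ⟨_, key⟩⟩, fun _ => rfl, ?_⟩
  exact (Hol.norm_le_of hA (by positivity) hf key).trans (le_of_eq (by ring))

theorem incl_compact (h0 : 0 < α) (h1 : α < 1) : IsCompactOperator (𝒞.incl α) := by
  let S : 𝒞.C2 α →ₗ[ℝ] X →ᵇ ℝ :=
    { toFun := fun v => BoundedContinuousFunction.mkOfCompact ⟨𝒞.fn v, ckFn_continuous (𝒞.fn_ck v)⟩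
      map_add' := fun _ _ => rfl
      map_smul' := fun _ _ => rfl }
  have hb : ∀ (v : 𝒞.C2 α) x, ‖𝒞.fn v x‖ ≤ ‖v‖ := fun v x =>
    ((𝒞.incl α v).norm_apply_le x).trans (𝒞.norm_incl_le v)
  refine compact_of_interp _ S ?_ fun ε hε => ?_
  · refine (BoundedContinuousFunction.arzela_ascoli (closedBall (0 : ℝ) 1) (isCompact_closedBall _ _)
      _ ?_ ?_).totallyBounded.subset subset_closure
    · rintro _ x ⟨v, hv, rfl⟩
      exact mem_closedBall_zero_iff.2 ((hb v x).trans (mem_ball_zero_iff.1 hv).le)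
    · obtain ⟨K, hK, hL⟩ := 𝒞.exists_lip_C2 (α := α)
      refine fun x => Metric.equicontinuousAt_iff_right.2 fun ε hε => ?_
      have hc0 : Continuous fun y : X => (x, y) := continuous_const.prodMk continuous_id
      have hc1 := 𝒞.continuous_d.comp hc0
      have hc : Continuous fun y => K * 𝒞.d x y := continuous_const.mul hc1
      have := (hc.tendsto x).eventually (gt_mem_nhds (by simpa [𝒞.d_self] using hε))
      filter_upwards [this] with y hy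
      rintro ⟨_, v, hv, rfl⟩
      refine ((dist_eq_norm _ _).le.trans (hL v x y)).trans_lt (lt_of_le_of_lt ?_ hy)
      have := 𝒞.d_nonneg x y
      have := (mem_ball_zero_iff.1 hv).le
      calc K * ‖v‖ * 𝒞.d x y ≤ K * 1 * 𝒞.d x y := by gcongr
        _ = _ := by ring
  · obtain ⟨C, hC⟩ := 𝒞.incl_interp h0 h1 ε hε
    refine ⟨|C|, fun v => (hC v).trans (add_le_add le_rfl ?_)⟩
    refine mul_le_mul (le_abs_self C) ?_ (apply_nonneg _ _) (abs_nonneg _)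
    exact Hol.N0_le (norm_nonneg _) fun x => (S v).norm_coe_le_norm x

theorem bound_C2 (s : Hol (𝒞.w α) ℝ →L[ℝ] 𝒞.C2 α) : ∃ K, 0 < K ∧ ∀ f, ‖s f‖ ≤ K * ‖f‖ :=
  ContinuousLinearMap.bound (E := Hol (𝒞.w α) ℝ) (F := 𝒞.C2 α) s

/-- bounds for the jets in an arbitrary chart -/
theorem jet_loc (h0 : 0 < α) (h1 : α < 1) {e : OpenPartialHomeomorph X P2} (he : e ∈ atlas P2 X)
    {y0 : P2} (hy : y0 ∈ e.target) : ∃ r > 0, ∃ C, 0 ≤ C ∧ ball y0 r ⊆ e.target ∧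
      ∀ (v : 𝒞.C2 α), ∀ y ∈ ball y0 r, ‖jet (fun z => 𝒞.fn v (e.symm z)) y‖ ≤ C * ‖v‖ ∧
        ∀ y' ∈ ball y0 r, ‖jet (fun z => 𝒞.fn v (e.symm z)) y -
          jet (fun z => 𝒞.fn v (e.symm z)) y'‖ ≤ C * ‖v‖ * ‖y - y'‖ ^ α := by
  obtain ⟨i, hi⟩ := exists_inB 𝒞 (e.symm y0)
  have hT := contDiffAt_TJ (𝒞.mem i) he hi.1 (e.map_target hy)
  rw [e.right_inv hy] at hT
  obtain ⟨L, t, ht, hL⟩ := (hT.of_le (m := 1) (by simp)).exists_lipschitzOnWith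
  have hO : IsOpen {x | InB 𝒞 i x} := (𝒞.e i).isOpen_inter_preimage isOpen_ball
  have h2 : ∀ᶠ y in 𝓝 y0, InB 𝒞 i (e.symm y) :=
    (e.continuousAt_symm hy).eventually (hO.mem_nhds hi)
  obtain ⟨r, hr, hs⟩ := nhds_basis_closedBall.mem_iff.1
    (inter_mem (inter_mem ht h2) (inter_mem (e.open_target.mem_nhds hy) (ball_mem_nhds y0
      (half_pos one_pos))))
  obtain ⟨D, hD0, hD⟩ := 𝒞.symm_lip he (isCompact_closedBall y0 r) fun y hy => (hs hy).2.1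
  set T := TJ (𝒞.e i) e
  have e1 : ∀ (v : 𝒞.C2 α), ∀ y ∈ closedBall y0 r,
      jet (fun z => 𝒞.fn v (e.symm z)) y = T y (𝒞.J α i v (e.symm y)) := fun v y hy => by
    have := jet_change (𝒞.fn_ck v) (𝒞.mem i) he (hs hy).1.2.1 (e.map_target (hs hy).2.1)
    rw [e.right_inv (hs hy).2.1] at this
    rw [this, J_eq 𝒞 (hs hy).1.2]; rfl
  have hd : ∀ y ∈ closedBall y0 r, ∀ y' ∈ closedBall y0 r, ‖y - y'‖ ≤ 1 := fun y hy y' hy' => by
    have := dist_triangle_right y y' y0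
    have := mem_ball.1 (hs hy).2.2
    have := mem_ball.1 (hs hy').2.2
    rw [← dist_eq_norm]; linarith
  have hTl : ∀ y ∈ closedBall y0 r, ∀ y' ∈ closedBall y0 r, ‖T y - T y'‖ ≤ L * ‖y - y'‖ :=
    fun y hy y' hy' => by
      simpa only [dist_eq_norm] using hL.dist_le_mul y (hs hy).1.1 y' (hs hy').1.1
  have hTb : ∀ y ∈ closedBall y0 r, ‖T y‖ ≤ ‖T y0‖ + L := fun y hy => by
    have h3 := hTl y hy y0 (mem_closedBall_self hr.le)
    have h4 := hd y hy y0 (mem_closedBall_self hr.le)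
    have := norm_le_norm_add_norm_sub' (T y) (T y0)
    nlinarith [L.2]
  have hJ : ∀ (v : 𝒞.C2 α) x, ‖𝒞.J α i v x‖ ≤ ‖v‖ := fun v x =>
    ((𝒞.J α i v).norm_apply_le x).trans (𝒞.norm_J_le i v)
  have hDα : 0 ≤ D ^ α := by positivity
  refine ⟨r, hr, (‖T y0‖ + L) * (1 + D ^ α), by positivity,
    fun y hy => (hs (ball_subset_closedBall hy)).2.1, fun v y hy => ?_⟩
  have hy := ball_subset_closedBall hy
  refine ⟨?_, fun y' hy' => ?_⟩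
  · rw [e1 v y hy]
    refine ((T y).le_of_opNorm_le_of_le (hTb y hy) (hJ v _)).trans ?_
    gcongr
    exact le_mul_of_one_le_right (by positivity) (by linarith)
  · have hy' := ball_subset_closedBall hy'
    rw [e1 v y hy, e1 v y' hy', ← sub_add_sub_cancel _ (T y' (𝒞.J α i v (e.symm y))),
      ← _root_.sub_apply, ← map_sub]
    have h3 : ‖y - y'‖ ≤ ‖y - y'‖ ^ α := by
      have := Real.rpow_le_rpow_of_exponent_ge' (norm_nonneg (y - y')) (hd y hy y' hy') h0.le h1.le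
      rwa [Real.rpow_one] at this
    have h4 : ‖𝒞.J α i v (e.symm y) - 𝒞.J α i v (e.symm y')‖ ≤ ‖v‖ * (D ^ α * ‖y - y'‖ ^ α) := by
      refine ((𝒞.J α i v).norm_sub_le' _ _).trans (mul_le_mul (𝒞.norm_J_le i v) ?_ (by positivity)
        (norm_nonneg _))
      rw [𝒞.coe_w, ← Real.mul_rpow hD0 (norm_nonneg _)]
      exact Real.rpow_le_rpow (𝒞.d_nonneg _ _) (hD y hy y' hy') h0.le
    have h5 := (T y - T y').le_of_opNorm_le_of_le ((hTl y hy y' hy').trans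
      (mul_le_mul_of_nonneg_left h3 L.2)) (hJ v (e.symm y))
    have h6 := (T y').le_of_opNorm_le_of_le (hTb y' hy') h4
    refine (norm_add_le_of_le h5 h6).trans ?_
    have : 0 ≤ ‖T y0‖ * ‖v‖ * ‖y - y'‖ ^ α := by positivity
    nlinarith

variable {H : Type} [NormedAddCommGroup H] [NormedSpace ℂ H]

/-- a holomorphic elliptic operator `𝒬` with the expressions `Q i` in the charts -/
structure QOp (α : ℝ) (𝒬 : H → (X → ℂ) → X → ℂ) (Q : Fin 𝒞.N → P2 → H × J2 P2 ℂ → ℂ)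
    (R : H → Prop) (δ M : ℝ) : Prop where
  pos : 0 < δ
  M0 : 0 ≤ M
  eq : ∀ u, CkFn P2 2 u → ∀ i x, InB 𝒞 i x → ∀ η, ‖η‖ < δ →
    𝒬 η u x = Q i (𝒞.e i x) (η, cj 𝒞 i u x)
  hol : ∀ i, ∀ y ∈ ball (𝒞.c i) (3 * 𝒞.r i), DifferentiableOn ℂ (Q i y) (ball 0 δ)
  bd : ∀ i, ∀ y ∈ ball (𝒞.c i) (3 * 𝒞.r i), ∀ v ∈ ball 0 δ, ‖Q i y v‖ ≤ M
  hld : ∀ i, ∀ y ∈ ball (𝒞.c i) (3 * 𝒞.r i), ∀ y' ∈ ball (𝒞.c i) (3 * 𝒞.r i), ∀ v ∈ ball 0 δ,
    ‖Q i y v - Q i y' v‖ ≤ M * ‖y - y'‖ ^ α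
  zero : ∀ i, ∀ y ∈ ball (𝒞.c i) (3 * 𝒞.r i), Q i y 0 = 0
  R0 : R 0
  real : ∀ i, ∀ y ∈ ball (𝒞.c i) (3 * 𝒞.r i), ∀ v ∈ ball 0 δ, R v.1 → ReJ v.2 → (Q i y v).im = 0
  ell : ∀ i, ∀ y ∈ ball (𝒞.c i) (3 * 𝒞.r i), ∀ ξ : P2 →L[ℝ] ℝ, ξ ≠ 0 →
    0 < (fderiv ℂ (Q i y) 0 (0, sqJ ξ)).re

/-- the derivative in the jet variable -/
def lq (q : H × J2 P2 ℂ → ℂ) (v : H × J2 P2 ℂ) : J2 P2 ℂ →L[ℂ] ℂ :=
  (fderiv ℂ q v).comp (ContinuousLinearMap.inr ℂ H _)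

theorem lq_apply (q : H × J2 P2 ℂ → ℂ) (v : H × J2 P2 ℂ) (p : J2 P2 ℂ) :
    lq q v p = fderiv ℂ q v (0, p) := rfl

theorem norm_lq_sub (q q' : H × J2 P2 ℂ → ℂ) (v v' : H × J2 P2 ℂ) :
    ‖lq q v - lq q' v'‖ ≤ ‖fderiv ℂ q v - fderiv ℂ q' v'‖ :=
  ContinuousLinearMap.opNorm_le_bound _ (norm_nonneg _) fun p =>
    (fderiv ℂ q v - fderiv ℂ q' v').le_of_opNorm_le_of_le (x := (0, p)) le_rfl (by simp)

theorem ev_small {Z : Type*} [NormedAddCommGroup Z] [NormedSpace ℂ Z] {δ : ℝ} (hδ : 0 < δ) (v : Z) :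
    ∀ᶠ t : ℝ in 𝓝 0, (t : ℂ) • v ∈ ball (0 : Z) δ := by
  have : Continuous fun t : ℝ => (t : ℂ) • v := by fun_prop
  exact this.continuousAt.eventually (isOpen_ball.mem_nhds (by simpa using hδ))

theorem hasDerivAt_ray0 {Z : Type*} [NormedAddCommGroup Z] [NormedSpace ℂ Z] {f : Z → ℂ} (v : Z)
    (hf : DifferentiableAt ℂ f 0) :
    HasDerivAt (fun s : ℝ => f ((s : ℂ) • v)) (fderiv ℂ f 0 v) 0 := by
  simpa using hasDerivAt_ray (f := f) (a := 0) v (t := 0) (by simpa using hf)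

/-- the Schauder parametrisation `val` of `C^{2,α}(X; ℂ)` by `C^α(X; ℂ)` -/
structure Sch (α : ℝ) (Q : Fin 𝒞.N → P2 → H × J2 P2 ℂ → ℂ)
    (val : Hol (𝒞.w α) ℂ →L[ℂ] Hol (𝒞.w α) ℂ)
    (jl : Fin 𝒞.N → Hol (𝒞.w α) ℂ →L[ℂ] Hol (𝒞.w α) (J2 P2 ℂ)) (c : Hol (𝒞.w α) ℂ) : Prop where
  cpt : IsCompactOperator val
  ck : ∀ f, CkFn P2 2 (val f)
  jet : ∀ f i x, InB 𝒞 i x → jl i f x = cj 𝒞 i (val f) x
  real : ∀ f : Hol (𝒞.w α) ℂ, (∀ x, (f x).im = 0) → ∀ x, (val f x).im = 0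
  lin : ∀ f i x, InB 𝒞 i x → fderiv ℂ (Q i (𝒞.e i x)) 0 (0, jl i f x) = c x * val f x - f x
  loc : ∀ e ∈ atlas P2 X, ∀ y0 ∈ e.target, ∃ r > 0, ∃ C, 0 ≤ C ∧ ball y0 r ⊆ e.target ∧
    ∀ f, ∀ y ∈ ball y0 r, ‖jet2 (fun z => val f (e.symm z)) y‖ ≤ C * ‖f‖ ∧ ∀ y' ∈ ball y0 r,
      ‖jet2 (fun z => val f (e.symm z)) y - jet2 (fun z => val f (e.symm z)) y'‖ ≤
        C * ‖f‖ * ‖y - y'‖ ^ α

namespace QOp

variable {𝒞} {𝒬 : H → (X → ℂ) → X → ℂ} {Q : Fin 𝒞.N → P2 → H × J2 P2 ℂ → ℂ} {R : H → Prop}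
  {δ M : ℝ} (h : QOp 𝒞 α 𝒬 Q R δ M) {i : Fin 𝒞.N}
include h

theorem diff0 {y : P2} (hy : y ∈ ball (𝒞.c i) (3 * 𝒞.r i)) : DifferentiableAt ℂ (Q i y) 0 :=
  (h.hol i y hy).differentiableAt (ball_mem_nhds _ h.pos)

theorem l_le {y : P2} (hy : y ∈ ball (𝒞.c i) (3 * 𝒞.r i)) : ‖fderiv ℂ (Q i y) 0‖ ≤ 2 * M / δ :=
  fderiv_le h.pos (h.hol i y hy) (h.bd i y hy)

theorem l_hld {y y' : P2} (hy : y ∈ ball (𝒞.c i) (3 * 𝒞.r i))
    (hy' : y' ∈ ball (𝒞.c i) (3 * 𝒞.r i)) :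
    ‖fderiv ℂ (Q i y) 0 - fderiv ℂ (Q i y') 0‖ ≤ 2 * M / δ * ‖y - y'‖ ^ α := by
  rw [← fderiv_fun_sub (h.diff0 hy) (h.diff0 hy')]
  exact (fderiv_le h.pos ((h.hol i y hy).sub (h.hol i y' hy')) (h.hld i y hy y' hy')).trans
    (le_of_eq (by ring))

theorem l_real {y : P2} (hy : y ∈ ball (𝒞.c i) (3 * 𝒞.r i)) {v : H × J2 P2 ℂ}
    (h1 : ∀ t : ℝ, R ((t : ℂ) • v.1)) (h2 : ReJ v.2) : (fderiv ℂ (Q i y) 0 v).im = 0 := by
  have d1 := imCLM.hasFDerivAt.comp_hasDerivAt _ (hasDerivAt_ray0 v (h.diff0 hy))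
  refine d1.unique ((hasDerivAt_const (0 : ℝ) (0 : ℝ)).congr_of_eventuallyEq ?_)
  filter_upwards [ev_small h.pos v] with t ht using h.real i y hy _ ht (h1 t) (h2.smul t)

theorem l_real0 {y : P2} (hy : y ∈ ball (𝒞.c i) (3 * 𝒞.r i)) (q : Jet P2) :
    fderiv ℂ (Q i y) 0 (0, ιJ q) = rl (lq (Q i y) 0) q :=
  Complex.ext rfl (h.l_real hy (fun t => by simpa using h.R0) (reJ_ιJ q))

theorem l_cx {y : P2} (hy : y ∈ ball (𝒞.c i) (3 * 𝒞.r i)) (a b : Jet P2) :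
    fderiv ℂ (Q i y) 0 (0, ιJ a + I • ιJ b) = rl (lq (Q i y) 0) a + I * rl (lq (Q i y) 0) b := by
  rw [← lq_apply, map_add, map_smul, lq_apply, lq_apply, h.l_real0 hy, h.l_real0 hy, smul_eq_mul]

theorem l_compat {u : X → ℂ} (hu : CkFn P2 2 u) {i' : Fin 𝒞.N} {x : X} (hi : InB 𝒞 i x)
    (hi' : InB 𝒞 i' x) (η : H) : fderiv ℂ (Q i (𝒞.e i x)) 0 (η, cj 𝒞 i u x) =
      fderiv ℂ (Q i' (𝒞.e i' x)) 0 (η, cj 𝒞 i' u x) := by
  refine (hasDerivAt_ray0 _ (h.diff0 hi.three)).unique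
    ((hasDerivAt_ray0 _ (h.diff0 hi'.three)).congr_of_eventuallyEq ?_)
  filter_upwards [ev_small h.pos η] with t ht
  have hu' : CkFn P2 2 fun x => (t : ℂ) • u x := fun e he x hx => (hu e he x hx).const_smul _
  have e1 := h.eq _ hu' i x hi _ (mem_ball_zero_iff.1 ht)
  have e2 := h.eq _ hu' i' x hi' _ (mem_ball_zero_iff.1 ht)
  unfold cj at e1 e2
  rw [jet2_csmul] at e1 e2
  exact e1.symm.trans e2

theorem exists_L (h0 : 0 < α) : ∃ L : 𝒞.C2 α →L[ℝ] Hol (𝒞.w α) ℝ, ∀ v i x, InB 𝒞 i x →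
    L v x = rl (lq (Q i (𝒞.e i x)) 0) (𝒞.J α i v x) := by
  choose ix hix using exists_inB 𝒞
  have key : ∀ (v : 𝒞.C2 α) i x, InB 𝒞 i x → rl (lq (Q (ix x) (𝒞.e (ix x) x)) 0)
      (𝒞.J α (ix x) v x) = rl (lq (Q i (𝒞.e i x)) 0) (𝒞.J α i v x) := fun v i x hi => by
    have hu : CkFn P2 2 fun x => (𝒞.fn v x : ℂ) := fun e he x hx =>
      ofRealCLM.contDiff.contDiffAt.comp _ (𝒞.fn_ck v e he x hx)
    have := h.l_compat hu (hix x) hi 0
    unfold cj at this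
    rw [jet2_ofReal (𝒞.fn_ck v _ (𝒞.mem _) x (hix x).1),
      jet2_ofReal (𝒞.fn_ck v _ (𝒞.mem _) x hi.1)] at this
    rw [J_eq 𝒞 hi, J_eq 𝒞 (hix x)]
    exact congrArg re this
  obtain ⟨C, hC, hh⟩ := hol_of_charts 𝒞 h0
  have M1 : 0 ≤ 2 * M / δ := by have := h.M0; have := h.pos; positivity
  have hl : ∀ i x, InB 𝒞 i x → ‖rl (lq (Q i (𝒞.e i x)) 0)‖ ≤ 2 * M / δ := fun i x hi =>
    (norm_rl_le _).trans ((ContinuousLinearMap.opNorm_comp_le _ _).trans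
      ((mul_le_of_le_one_right (norm_nonneg _) (ContinuousLinearMap.norm_inr_le_one _ _ _)).trans
        (h.l_le hi.three)))
  have hJ : ∀ i (v : 𝒞.C2 α) x, ‖𝒞.J α i v x‖ ≤ ‖v‖ := fun i v x =>
    ((𝒞.J α i v).norm_apply_le x).trans (𝒞.norm_J_le i v)
  obtain ⟨L, hL⟩ := exists_clm (𝕜 := ℝ) (w := 𝒞.w α) (fun (v : 𝒞.C2 α) x =>
    rl (lq (Q (ix x) (𝒞.e (ix x) x)) 0) (𝒞.J α (ix x) v x)) ((C + 2) * (2 * M / δ))
    (fun v v' x => by rw [map_add, Hol.add_apply, map_add])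
    (fun c v x => by rw [map_smul, Hol.smul_apply, map_smul])
    fun v => by
      obtain ⟨g, hg, hn⟩ := hh (fun x => rl (lq (Q (ix x) (𝒞.e (ix x) x)) 0) (𝒞.J α (ix x) v x))
        (2 * M / δ * ‖v‖) (2 * (2 * M / δ * ‖v‖)) (by positivity) (by positivity)
        (fun x => ContinuousLinearMap.le_of_opNorm_le_of_le _ (hl _ x (hix x)) (hJ _ v x))
        fun i x x' hx hx' hw => by
          rw [key v i x hx, key v i x' hx', ← sub_add_sub_cancel _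
            (rl (lq (Q i (𝒞.e i x')) 0) (𝒞.J α i v x)), ← _root_.sub_apply, ← map_sub, ← rl_sub]
          have h1 := ContinuousLinearMap.le_of_opNorm_le_of_le _ ((norm_rl_le _).trans
            ((norm_lq_sub _ _ _ _).trans ((h.l_hld hx.three hx'.three).trans
              (mul_le_mul_of_nonneg_left hw M1)))) (hJ i v x)
          have h2 := ContinuousLinearMap.le_of_opNorm_le_of_le _ (hl i x' hx')
            (((𝒞.J α i v).norm_sub_le' x x').trans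
              (mul_le_mul_of_nonneg_right (𝒞.norm_J_le i v) (𝒞.w α x x').2))
          exact (norm_add_le_of_le h1 h2).trans (le_of_eq (by ring))
      exact ⟨g, hg, hn.trans (le_of_eq (by ring))⟩
  exact ⟨L, fun v i x hi => (hL v x).trans (key v i x hi)⟩

theorem exists_s (h0 : 0 < α) (h1 : α < 1) : ∃ (s : Hol (𝒞.w α) ℝ →L[ℝ] 𝒞.C2 α)
    (c : Hol (𝒞.w α) ℝ), ∀ f i x, InB 𝒞 i x →
      rl (lq (Q i (𝒞.e i x)) 0) (𝒞.J α i (s f) x) = c x * 𝒞.fn (s f) x - f x := by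
  obtain ⟨L, hL⟩ := h.exists_L h0
  have := 𝒞.completeSpace_C2 h0
  set c := L (𝒞.ofSmooth h0 h1.le (fun _ => 1) (ckFn_const 1)) with hc
  have hc1 : ∀ i x, InB 𝒞 i x → c x = rl (lq (Q i (𝒞.e i x)) 0) (1, 0, 0) := fun i x hi => by
    rw [hc, hL _ i x hi, J_eq 𝒞 hi]
    exact congrArg _ (jet2_const (1 : ℝ) _)
  set L' := L - (ContinuousLinearMap.mul ℝ _ c).comp (𝒞.incl α) with hL'
  have hL'a : ∀ v x, L' v x = L v x - c x * 𝒞.fn v x := fun v x => rfl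
  have three : ∀ {i y}, y ∈ ball (𝒞.c i) (2 * 𝒞.r i) → y ∈ ball (𝒞.c i) (3 * 𝒞.r i) :=
    fun {i y} hy => ball_subset_ball (by linarith [𝒞.r_pos i]) hy
  have hld : ∀ {W : Type} [NormedAddCommGroup W] [NormedSpace ℝ W] (T : W →L[ℝ] Jet P2) i, ∃ K,
      ∀ y ∈ ball (𝒞.c i) (2 * 𝒞.r i), ∀ y' ∈ ball (𝒞.c i) (2 * 𝒞.r i),
      ‖(rl (lq (Q i y) 0)).comp T - (rl (lq (Q i y') 0)).comp T‖ ≤ K * ‖y - y'‖ ^ α :=
    fun T i => ⟨2 * M / δ * ‖T‖, fun y hy y' hy' => by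
      rw [← ContinuousLinearMap.sub_comp, ← rl_sub, mul_right_comm]
      exact (ContinuousLinearMap.opNorm_comp_le _ _).trans (mul_le_mul_of_nonneg_right
        ((norm_rl_le _).trans ((norm_lq_sub _ _ _ _).trans (h.l_hld (three hy) (three hy'))))
        (norm_nonneg _))⟩
  have hE : 𝒞.Ell α L' (fun i y => (rl (lq (Q i y) 0)).comp ((ContinuousLinearMap.inr ℝ _ _).comp
      (ContinuousLinearMap.inr ℝ _ _))) fun i y => (rl (lq (Q i y) 0)).comp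
        ((ContinuousLinearMap.inr ℝ _ _).comp (ContinuousLinearMap.inl ℝ _ _)) := by
    refine ⟨hld _, hld _, fun i y hy ξ hξ => h.ell i y (three hy) ξ hξ, fun v i x hx hb => ?_⟩
    rw [hL'a, hL v i x ⟨hx, hb⟩, hc1 i x ⟨hx, hb⟩, J_eq 𝒞 ⟨hx, hb⟩, jet_split _ (cj _ _ _ _)]
    have e : (cj 𝒞 i (𝒞.fn v) x).1 = 𝒞.fn v x := congrArg (𝒞.fn v) ((𝒞.e i).left_inv hx)
    rw [e, mul_comm, add_assoc, add_sub_cancel_left, add_comm]
    rfl
  obtain ⟨l, hl, hs⟩ := 𝒞.surj_large h0 h1 hE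
  let G := ContinuousLinearEquiv.ofBijective (l • 𝒞.incl α - L')
    (LinearMap.ker_eq_bot.2 (hE.injective l (by linarith))) (LinearMap.range_eq_top.2 (hs l le_rfl))
  refine ⟨G.symm, c + Hol.const l, fun f i x hi => ?_⟩
  have : l * 𝒞.fn (G.symm f) x - (L (G.symm f) x - c x * 𝒞.fn (G.symm f) x) = f x :=
    congrArg (fun g : Hol (𝒞.w α) ℝ => g x) (G.apply_symm_apply f)
  rw [← hL _ i x hi]
  show L (G.symm f) x = (c x + l) * 𝒞.fn (G.symm f) x - f x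
  linarith

theorem exists_sch (h0 : 0 < α) (h1 : α < 1) : ∃ val jl c, Sch 𝒞 α Q val jl c := by
  obtain ⟨s, c, hs⟩ := h.exists_s h0 h1
  obtain ⟨K, hK0, hK⟩ := bound_C2 𝒞 s
  obtain ⟨val, hv, hk⟩ : ∃ val : Hol (𝒞.w α) ℂ →L[ℂ] Hol (𝒞.w α) ℂ, (∀ f x, val f x =
      (𝒞.fn (s (Hol.map reCLM f)) x : ℂ) + I • (𝒞.fn (s (Hol.map imCLM f)) x : ℂ)) ∧
      IsCompactOperator val :=
    ⟨cx ((Hol.map ofRealCLM).comp ((𝒞.incl α).comp s)), fun _ _ => rfl, cx_compact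
      (((incl_compact 𝒞 h0 h1).comp_clm s).clm_comp (Hol.map ofRealCLM))⟩
  obtain ⟨jl, hjl⟩ : ∃ jl : Fin 𝒞.N → Hol (𝒞.w α) ℂ →L[ℂ] Hol (𝒞.w α) (J2 P2 ℂ), ∀ i f x,
      jl i f x = ιJ (𝒞.J α i (s (Hol.map reCLM f)) x) + I • ιJ (𝒞.J α i (s (Hol.map imCLM f)) x) :=
    ⟨fun i => cx ((Hol.map ιJ).comp ((𝒞.J α i).comp s)), fun _ _ _ => rfl⟩
  have hj : ∀ f, ∀ e ∈ atlas P2 X, ∀ y ∈ e.target, ContDiffAt ℝ 2 (fun z => val f (e.symm z)) y ∧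
      jet2 (fun z => val f (e.symm z)) y = ιJ (jet (fun z => 𝒞.fn (s (Hol.map reCLM f)) (e.symm z))
        y) + I • ιJ (jet (fun z => 𝒞.fn (s (Hol.map imCLM f)) (e.symm z)) y) := by
    intro f e he y hy
    have c1 := (𝒞.fn_ck (s (Hol.map reCLM f))).at_target he hy
    have c2 := (𝒞.fn_ck (s (Hol.map imCLM f))).at_target he hy
    have c3 : ContDiffAt ℝ 2 (fun z => (𝒞.fn (s (Hol.map reCLM f)) (e.symm z) : ℂ)) y :=
      ofRealCLM.contDiff.contDiffAt.comp y c1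
    have c4 : ContDiffAt ℝ 2 (fun z => (𝒞.fn (s (Hol.map imCLM f)) (e.symm z) : ℂ)) y :=
      ofRealCLM.contDiff.contDiffAt.comp y c2
    simp only [hv]
    refine ⟨c3.add (c4.const_smul I), ?_⟩
    rw [jet2_add c3 (c4.const_smul I), jet2_csmul, jet2_ofReal c1, jet2_ofReal c2]
  obtain ⟨c', hc'⟩ : ∃ c' : Hol (𝒞.w α) ℂ, ∀ x, c' x = c x := ⟨Hol.map ofRealCLM c, fun _ => rfl⟩
  refine ⟨val, jl, c', hk, fun f e he x hx => (hj f e he _ (e.map_source hx)).1,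
    fun f i x hi => ?_, fun f hf x => ?_, fun f i x hi => ?_, fun e he y0 hy => ?_⟩
  · unfold cj
    rw [(hj f _ (𝒞.mem i) _ ((𝒞.e i).map_source hi.1)).2, hjl, J_eq 𝒞 hi, J_eq 𝒞 hi]
    rfl
  · rw [hv, show Hol.map imCLM f = 0 from Hol.ext hf, map_zero]
    simp
  · rw [hv f x, hc' x, hjl i f x, h.l_cx hi.three, hs (Hol.map reCLM f) i x hi,
      hs (Hol.map imCLM f) i x hi]
    simp only [Hol.map_apply, reCLM_apply, imCLM_apply, smul_eq_mul]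
    conv_rhs => rw [← re_add_im (f x)]
    push_cast
    ring
  · obtain ⟨r, hr, C, hC, hsub, hb⟩ := jet_loc 𝒞 h0 h1 he hy
    have n1 : ∀ f : Hol (𝒞.w α) ℂ, ‖s (Hol.map reCLM f)‖ ≤ K * ‖f‖ := fun f =>
      (hK _).trans (mul_le_mul_of_nonneg_left ((Hol.norm_map_le reCLM f).trans
        (by rw [reCLM_norm, one_mul])) hK0.le)
    have n2 : ∀ f : Hol (𝒞.w α) ℂ, ‖s (Hol.map imCLM f)‖ ≤ K * ‖f‖ := fun f =>
      (hK _).trans (mul_le_mul_of_nonneg_left ((Hol.norm_map_le imCLM f).trans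
        (by rw [imCLM_norm, one_mul])) hK0.le)
    refine ⟨r, hr, 2 * (C * K), by positivity, hsub, fun f y hy => ⟨?_, fun y' hy' => ?_⟩⟩
    · refine (congrArg norm (hj f e he y (hsub hy)).2).trans_le ((norm_cx_le
        ((hb _ y hy).1.trans (mul_le_mul_of_nonneg_left (n1 f) hC))
        ((hb _ y hy).1.trans (mul_le_mul_of_nonneg_left (n2 f) hC))).trans (le_of_eq ?_))
      ring
    · have p0 : 0 ≤ ‖y - y'‖ ^ α := by positivity
      refine (congrArg norm ((congrArg₂ (· - ·) (hj f e he y (hsub hy)).2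
        (hj f e he y' (hsub hy')).2).trans (cx_sub _ _ _ _))).trans_le ((norm_cx_le
        (((hb _ y hy).2 y' hy').trans (mul_le_mul_of_nonneg_right
          (mul_le_mul_of_nonneg_left (n1 f) hC) p0))
        (((hb _ y hy).2 y' hy').trans (mul_le_mul_of_nonneg_right
          (mul_le_mul_of_nonneg_left (n2 f) hC) p0))).trans (le_of_eq ?_))
      ring

end QOp

end surf

/-! ### The blended operator on the double -/

section blend

open Vale.Agent.P218FT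
open scoped Real

/-- the pointwise data: the one-jet of the end solution and the extra unknowns -/
abbrev Fib (ι : Type) : Type := J1 P2 ℂ × (ι → ℂ)

/-- real pointwise data -/
def ReF {ι : Type} (v : Fib ι) : Prop := v.1.1.im = 0 ∧ (∀ u, (v.1.2 u).im = 0) ∧ IsRe v.2

/-- periodic functions on the collars -/
def Per {J : Type} (e : J → P2 → ℂ) : Prop := ∀ j y, e j (y.1, y.2 + 2 * π) = e j y

/-- periodic `C²` functions on the collars with two-jets bounded by `c` -/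
structure Nice {J : Type} (e : J → P2 → ℂ) (c : ℝ) : Prop where
  nonneg : 0 ≤ c
  c2 : ∀ j y, y.1 ∈ Ioo (0 : ℝ) 6 → ContDiffAt ℝ 2 (e j) y
  per : Per e
  bd : ∀ j y, y.1 ∈ Ioo (0 : ℝ) 6 → ‖jet2 (e j) y‖ ≤ c

variable {S C0 : Set E3} {J ι : Type} [Fintype ι] {K : J → P2 → E3} {X : Type}
  [TopologicalSpace X] [ChartedSpace P2 X]

/-- the complement of the upper core -/
def Dbl.O (𝒟 : Dbl S C0 K X) : Set X := (𝒟.up '' C0)ᶜ

/-- the complement of the upper core, with the trace circles -/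
def Dbl.D (𝒟 : Dbl S C0 K X) : Set X := 𝒟.O ∪ {x | ∃ j θ, 𝒟.κ j (0, θ) = x}

/-- the blended operator `𝒬`, the cut off one-jet `ℰ e` and the cut off extension `U e` of a
function `e` on the collars, the supersolution `h` -/
structure Blend (op : Op ι) (α : ℝ) (𝒟 : Dbl S C0 K X) (𝒞 : Cov P2 X)
    (𝒬 : Fib ι → (X → ℂ) → X → ℂ) (Q : Fin 𝒞.N → P2 → Fib ι × J2 P2 ℂ → ℂ) (δ M C : ℝ)
    (ℰ : (J → P2 → ℂ) → X → J1 P2 ℂ) (U : (J → P2 → ℂ) → X → ℂ) (h : X → ℝ) : Prop where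
  q : QOp 𝒞 α 𝒬 Q ReF δ M
  nonneg : 0 ≤ C
  up : ∀ u, CkFn P2 2 u → ∀ φ y, Par S φ y → φ y ∈ C0 → ∀ η : Fib ι, ‖η‖ < δ →
    𝒬 η u (𝒟.up (φ y)) = op η.2 φ y (jet2 (fun z => u (𝒟.up (φ z))) y)
  pt : ∀ x, (∃ j y, ∃ c : ℝ, y.1 ∈ Ioo (0 : ℝ) 6 ∧ ∀ e, ℰ e x = (c : ℂ) • jet1 (e j) y) ∨
    ∀ e, ℰ e x = 0
  hol : ∀ e c, Nice e c → ∃ g : Hol (𝒞.w α) (J1 P2 ℂ), (∀ x, g x = ℰ e x) ∧ ‖g‖ ≤ C * c
  opn : IsOpen 𝒟.O
  cpt : IsCompact 𝒟.D
  U0 : ∀ x, U 0 x = 0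
  Uκ : ∀ e, Per e → ∀ j y, y.1 ∈ Icc (0 : ℝ) 3 → U e (𝒟.κ j y) = e j y
  Ure : ∀ e, Per e → (∀ j y, y.1 ∈ Ioo (0 : ℝ) 6 → (e j y).im = 0) → ∀ x ∈ 𝒟.O, (U e x).im = 0
  Ucont : ∀ e, Per e → (∀ j, ContinuousOn (e j) (Ico 0 6 ×ˢ univ)) → ContinuousOn (U e) 𝒟.D
  Ujet : ∀ e c, Nice e c → ∀ x ∈ 𝒟.O, ∀ i, InB 𝒞 i x →
    ContDiffAt ℝ 2 (fun y => U e ((𝒞.e i).symm y)) (𝒞.e i x) ∧ ‖cj 𝒞 i (U e) x‖ ≤ C * c
  Ueq : ∀ e c, Nice e c → (∀ j y, y.1 ∈ Ioo (0 : ℝ) 6 → op 0 (K j) y (jet2 (e j) y) = 0) →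
    ∀ a, ‖a‖ < δ → ∀ x ∈ 𝒟.O, ∀ i, InB 𝒞 i x → Q i (𝒞.e i x) ((ℰ e x, a), cj 𝒞 i (U e) x) = 0
  Ulin : ∀ e c, Nice e c → (∀ j y, y.1 ∈ Ioo (0 : ℝ) 6 → lin op (K j) y (0, jet2 (e j) y) = 0) →
    ∀ a, ∀ x ∈ 𝒟.O, ∀ i, InB 𝒞 i x →
      fderiv ℂ (Q i (𝒞.e i x)) 0 ((ℰ e x, a), cj 𝒞 i (U e) x) = 0
  hck : CkFn P2 3 h
  hpos : ∀ x, 0 < h x
  sup : ∀ x ∈ 𝒟.O, ∃ i, InB 𝒞 i x ∧ rl (lq (Q i (𝒞.e i x)) 0) (cj 𝒞 i h x) ≤ -1

/-- the blended operator exists -/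
def BlendStmt : Prop :=
  ∀ (S C0 : Set E3) (J ι : Type) [Fintype J] [Fintype ι] (K : J → P2 → E3) (op : Op ι) (α δ0 : ℝ)
    (X : Type) [TopologicalSpace X] [ChartedSpace P2 X] [T2Space X] [CompactSpace X] [RSm P2 X]
    (𝒟 : Dbl S C0 K X), 0 < α → α < 1 → 0 < δ0 → Geo S C0 K → OpOK S C0 K op α δ0 →
    ∃ 𝒞 𝒬 Q δ M C ℰ U h, Blend op α 𝒟 𝒞 𝒬 Q δ M C ℰ U h

end blend

end Vale.Agent.P218F.Core
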