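import Vale.Agent.P218F.CoreBlend1

/-! The blended operator on the double of the core: the global objects. -/

open Set Metric Filter Topology Complex
open scoped NNReal ContDiff Real
open Vale.Agent.P272.K.LIN Vale.Agent.P272.K Vale.Agent.P218FT

set_option linter.unusedSectionVars false
set_option maxSynthPendingDepth 3

noncomputable section

namespace Vale.Agent.P218F.Core.Bl

variable {S C0 : Set E3} {J ι : Type} [Fintype J] [Fintype ι] {K : J → P2 → E3} {op : Op ι}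
  {α δ0 : ℝ} {X : Type} [TopologicalSpace X] [ChartedSpace P2 X] (𝒟 : Dbl S C0 K X)

/-! ### Functions which are given on the collars -/

open Classical in
/-- `F j` on the long collars, `d` elsewhere -/
def desc {A : Type} (F : J → P2 → A) (d : X → A) (x : X) : A :=
  if h : ∃ p : J × P2, p.2.1 ∈ Ioo (-1 : ℝ) 13 ∧ 𝒟.κ p.1 p.2 = x then F h.choose.1 h.choose.2
  else d x

theorem desc_cases (x : X) : (∃ j y, y.1 ∈ Ioo (-1 : ℝ) 13 ∧ 𝒟.κ j y = x ∧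
    ∀ {A : Type} (F : J → P2 → A) d, desc 𝒟 F d x = F j y) ∨
    ∀ {A : Type} (F : J → P2 → A) d, desc 𝒟 F d x = d x := by
  by_cases h : ∃ p : J × P2, p.2.1 ∈ Ioo (-1 : ℝ) 13 ∧ 𝒟.κ p.1 p.2 = x
  · exact Or.inl ⟨_, _, h.choose_spec.1, h.choose_spec.2, fun F d => dif_pos h⟩
  · exact Or.inr fun F d => dif_neg h

theorem desc_κ {A : Type} {F : J → P2 → A} (d : X → A)
    (hF : ∀ j (y : P2), F j (y.1, y.2 + 2 * π) = F j y) {j : J} {y : P2}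
    (hy : y.1 ∈ Ioo (-1 : ℝ) 13) : desc 𝒟 F d (𝒟.κ j y) = F j y := by
  have h : ∃ p : J × P2, p.2.1 ∈ Ioo (-1 : ℝ) 13 ∧ 𝒟.κ p.1 p.2 = 𝒟.κ j y := ⟨(j, y), hy, rfl⟩
  rw [desc, dif_pos h]
  obtain ⟨h1, h2, k, h3⟩ := 𝒟.κ_inj j _ y _ hy h.choose_spec.1 h.choose_spec.2.symm
  rw [← h1, show h.choose.2 = (y.1, y.2 + k * (2 * π)) from Prod.ext h2 h3]
  exact Function.Periodic.int_mul (f := fun θ => F j (y.1, θ)) (fun θ => hF j (y.1, θ)) k y.2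

theorem desc_eq {A : Type} {F : J → P2 → A} {d : X → A} {x : X} {c : A}
    (h : ∀ j y, y.1 ∈ Ioo (-1 : ℝ) 13 → 𝒟.κ j y = x → F j y = c) (hd : d x = c) :
    desc 𝒟 F d x = c := by
  rcases desc_cases 𝒟 x with ⟨j, y, h1, h2, h3⟩ | h3
  · rw [h3, h j y h1 h2]
  · rw [h3, hd]

variable (K) in
/-- points of the core which are far from the trace circles -/
def Inner (x0 : E3) : Prop := ∀ j (y' : P2), y'.1 ∈ Icc (-1 / 2 : ℝ) 0 → K j y' ≠ x0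

theorem κ_up_eq (G : Geo S C0 K) {x0 : E3} (hx : x0 ∈ C0) {j : J} {y : P2}
    (hy : y.1 ∈ Ioo (-1 : ℝ) 13) (h : 𝒟.κ j y = 𝒟.up x0) : y.1 ≤ 0 ∧ K j y = x0 := by
  have h1 := 𝒟.κ_eq_up j y hy x0 hx h
  have h2 : y.1 ∈ Ioo (-1 : ℝ) 6 := ⟨hy.1, by linarith⟩
  exact ⟨h1, 𝒟.up_inj (G.mem_mo j h2) (Or.inl hx) ((𝒟.κ_up j y h2).symm.trans h)⟩

theorem km_mo (G : Geo S C0 K) (j : J) {y : P2} (hy : y.1 ∈ Ioo (6 : ℝ) 13) :
    Km K j y ∈ Mo C0 K :=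
  G.mem_mo j (y := (12 - y.1, y.2)) ⟨by linarith [hy.2], by linarith [hy.1]⟩

theorem κ_dn_eq (G : Geo S C0 K) {x0 : E3} (hx : x0 ∈ C0) {j : J} {y : P2}
    (hy : y.1 ∈ Ioo (-1 : ℝ) 13) (h : 𝒟.κ j y = 𝒟.dn x0) : 12 ≤ y.1 ∧ Km K j y = x0 := by
  have h1 := 𝒟.κ_eq_dn j y hy x0 hx h
  have h2 : y.1 ∈ Ioo (6 : ℝ) 13 := ⟨by linarith, hy.2⟩
  exact ⟨h1, 𝒟.dn_inj (km_mo G j h2) (Or.inl hx) ((𝒟.κ_dn j y h2).symm.trans h)⟩

theorem up_inner (G : Geo S C0 K) {x0 : E3} (hx : x0 ∈ C0) (hI : Inner K x0) {j : J} {y : P2}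
    (hy : y.1 ∈ Ioo (-1 : ℝ) 13) (h : 𝒟.κ j y = 𝒟.up x0) : y.1 < -1 / 2 := by
  obtain ⟨h1, h2⟩ := κ_up_eq 𝒟 G hx hy h
  exact not_le.1 fun h3 => hI j y ⟨h3, h1⟩ h2

theorem dn_inner (G : Geo S C0 K) {x0 : E3} (hx : x0 ∈ C0) (hI : Inner K x0) {j : J} {y : P2}
    (hy : y.1 ∈ Ioo (-1 : ℝ) 13) (h : 𝒟.κ j y = 𝒟.dn x0) : 25 / 2 < y.1 := by
  obtain ⟨h1, h2⟩ := κ_dn_eq 𝒟 G hx hy h
  exact not_le.1 fun h3 => hI j (12 - y.1, y.2) ⟨by linarith, by linarith⟩ h2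

theorem O_pos (G : Geo S C0 K) {j : J} {y : P2} (hy : y.1 ∈ Ioo (-1 : ℝ) 13)
    (h : 𝒟.κ j y ∈ 𝒟.O) : 0 < y.1 :=
  not_le.1 fun h1 => h ⟨K j y, (G.mem j y ⟨hy.1, by linarith⟩).2 h1,
    (𝒟.κ_up j y ⟨hy.1, by linarith⟩).symm⟩

theorem D_nonneg (G : Geo S C0 K) {j : J} {y : P2} (hy : y.1 ∈ Ioo (-1 : ℝ) 13)
    (h : 𝒟.κ j y ∈ 𝒟.D) : 0 ≤ y.1 := by
  rcases h with h | ⟨j', θ, h⟩
  · exact (O_pos 𝒟 G hy h).le
  · exact (𝒟.κ_inj j' j (0, θ) y ⟨by norm_num, by norm_num⟩ hy h).2.1.ge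

theorem isOpen_O [T2Space X] (G : Geo S C0 K) : IsOpen 𝒟.O :=
  (G.cpt.image_of_continuousOn (𝒟.up_cont.mono subset_union_left)).isClosed.isOpen_compl

theorem isCompact_D (G : Geo S C0 K) : IsCompact 𝒟.D := by
  have h1 : IsCompact {x | ∃ j y, y.1 ∈ Icc (0 : ℝ) 12 ∧ 𝒟.κ j y = x} :=
    isCompact_band (fun j y hy => by
      obtain ⟨e, -, h2, h3⟩ := 𝒟.chart_κ j y ⟨by linarith [hy.1], by linarith [hy.2]⟩
      exact (e.continuousAt_symm h2).congr h3) 𝒟.κ_per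
  convert h1.union (G.cpt.image_of_continuousOn (𝒟.dn_cont.mono subset_union_left)) using 1
  ext x
  constructor
  · rintro (h | ⟨j, θ, h⟩)
    · rcases 𝒟.cases x with h2 | ⟨j, y, hy, h2⟩ | h2
      · exact absurd h2 h
      · exact Or.inl ⟨j, y, Ioo_subset_Icc_self hy, h2⟩
      · exact Or.inr h2
    · exact Or.inl ⟨j, (0, θ), ⟨le_rfl, by norm_num⟩, h⟩
  · rintro (⟨j, y, hy, rfl⟩ | ⟨x0, hx, rfl⟩)
    · rcases hy.1.eq_or_lt with h | h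
      · exact Or.inr ⟨j, y.2, by rw [h]⟩
      · refine Or.inl fun ⟨x0, hx, h2⟩ => ?_
        linarith [𝒟.κ_eq_up j y ⟨by linarith, by linarith [hy.2]⟩ x0 hx h2.symm]
    · exact Or.inl fun ⟨x1, hx1, h2⟩ => 𝒟.up_ne x1 (Or.inl hx1) x0 (Or.inl hx) h2

/-- the supersolution -/
def hh (ε lam : ℝ) : X → ℝ := desc 𝒟 (fun _ y => h0 ε lam y.1) fun _ => 1

/-- the cut off extension -/
def UU (e : J → P2 → ℂ) : X → ℂ := desc 𝒟 (fun j y => (ze y.1 : ℂ) * e j y) fun _ => 0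

/-- the cut off one-jet -/
def EE (ε : ℝ) (e : J → P2 → ℂ) : X → J1 P2 ℂ :=
  desc 𝒟 (fun j y => (om ε y.1 : ℂ) • jet1 (e j) y) fun _ => 0

theorem hh_κ (ε lam : ℝ) {j : J} {y : P2} (hy : y.1 ∈ Ioo (-1 : ℝ) 13) :
    hh 𝒟 ε lam (𝒟.κ j y) = h0 ε lam y.1 := desc_κ 𝒟 _ (fun _ _ => rfl) hy

theorem UU_κ {e : J → P2 → ℂ} (he : Per e) {j : J} {y : P2} (hy : y.1 ∈ Ioo (-1 : ℝ) 13) :
    UU 𝒟 e (𝒟.κ j y) = (ze y.1 : ℂ) * e j y := desc_κ 𝒟 _ (fun j y => by rw [he]) hy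

theorem EE_κ (ε : ℝ) {e : J → P2 → ℂ} (he : Per e) {j : J} {y : P2}
    (hy : y.1 ∈ Ioo (-1 : ℝ) 13) : EE 𝒟 ε e (𝒟.κ j y) = (om ε y.1 : ℂ) • jet1 (e j) y :=
  desc_κ 𝒟 _ (fun j y => by rw [← jet2_one, jet2_shift (he j), jet2_one]) hy

theorem far_val {ε : ℝ} (hε : 0 < ε) (hε1 : ε ≤ 1 / 8) {x : X}
    (h : ∀ j y, y.1 ∈ Ioo (-1 : ℝ) 13 → 𝒟.κ j y = x → y.1 < -1 / 2 ∨ 25 / 2 < y.1) :
    (∀ lam, hh 𝒟 ε lam x = 1) ∧ ∀ e, EE 𝒟 ε e x = 0 := by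
  refine ⟨fun lam => desc_eq 𝒟 (fun j y hy hx => ?_) rfl,
    fun e => desc_eq 𝒟 (fun j y hy hx => ?_) rfl⟩
  · rcases h j y hy hx with h1 | h1
    · exact h0_lo hε lam (by linarith)
    · exact h0_hi hε lam (by linarith)
  · rcases h j y hy hx with h1 | h1
    · rw [om_lo hε (by linarith), ofReal_zero, zero_smul]
    · rw [om_hi ε (by linarith), ofReal_zero, zero_smul]

theorem UU_dn (G : Geo S C0 K) {x0 : E3} (hx : x0 ∈ C0) (e : J → P2 → ℂ) :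
    UU 𝒟 e (𝒟.dn x0) = 0 :=
  desc_eq 𝒟 (fun j y hy h => by
    rw [ze_zero (by linarith [(κ_dn_eq 𝒟 G hx hy h).1]), ofReal_zero, zero_mul]) rfl

/-! ### The global operator -/

variable (op) in
open Classical in
/-- the operator away from the collars -/
def dflt (l : ℝ) (η : Fib ι) (u : X → ℂ) (x : X) : ℂ :=
  if h : ∃ p : (P2 → E3) × P2, Par S p.1 p.2 ∧ p.1 p.2 ∈ C0 ∧ 𝒟.up (p.1 p.2) = x then
    op η.2 h.choose.1 h.choose.2 (jet2 (fun z => u (𝒟.up (h.choose.1 z))) h.choose.2)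
  else if h : ∃ p : (P2 → E3) × P2, Par S p.1 p.2 ∧ p.1 p.2 ∈ C0 ∧ 𝒟.dn (p.1 p.2) = x then
    op 0 h.choose.1 h.choose.2 (jet2 (fun z => u (𝒟.dn (h.choose.1 z))) h.choose.2) +
      (-l : ℝ) * u x
  else 0

variable (op) in
/-- the blended operator -/
def QQ (ε l : ℝ) (η : Fib ι) (u : X → ℂ) : X → ℂ :=
  desc 𝒟 (fun j y => Kg (oq op) K ε j y (η, jet2 (fun z => u (𝒟.κ j z)) y) +
    (-l : ℝ) * K1 ε y (η, jet2 (fun z => u (𝒟.κ j z)) y)) (dflt op 𝒟 l η u)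

theorem cd_up {u : X → ℂ} (hu : CkFn P2 2 u) {φ : P2 → E3} {y : P2} (h : Par S φ y)
    (hm : φ y ∈ Mo C0 K) : ContDiffAt ℝ 2 (fun z => u (𝒟.up (φ z))) y := by
  obtain ⟨e, he, h1, h2⟩ := 𝒟.chart_up φ y h hm
  exact (hu.at_target he h1).congr_of_eventuallyEq (h2.mono fun z hz => congrArg u hz.symm)

theorem cd_dn {u : X → ℂ} (hu : CkFn P2 2 u) {φ : P2 → E3} {y : P2} (h : Par S φ y)
    (hm : φ y ∈ Mo C0 K) : ContDiffAt ℝ 2 (fun z => u (𝒟.dn (φ z))) y := by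
  obtain ⟨e, he, h1, h2⟩ := 𝒟.chart_dn φ y h hm
  exact (hu.at_target he h1).congr_of_eventuallyEq (h2.mono fun z hz => congrArg u hz.symm)

theorem par_km (G : Geo S C0 K) (j : J) {y : P2} (hy : y.1 ∈ Ioo (6 : ℝ) 13) :
    Par S (Km K j) y := G.par_mirror j ⟨by linarith [hy.1], hy.2⟩

section op

variable (G : Geo S C0 K) (H : OpOK S C0 K op α δ0) {ε : ℝ} (hε : 0 < ε) (hε1 : ε ≤ 1 / 8)
include G H

theorem QQ_κ (ε l : ℝ) (η : Fib ι) (u : X → ℂ) {j : J} {y : P2} (hy : y.1 ∈ Ioo (-1 : ℝ) 13) :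
    QQ op 𝒟 ε l η u (𝒟.κ j y) = Kg (oq op) K ε j y (η, jet2 (fun z => u (𝒟.κ j z)) y) +
      (-l : ℝ) * K1 ε y (η, jet2 (fun z => u (𝒟.κ j z)) y) := by
  refine desc_κ 𝒟 _ (fun j y => ?_) hy
  have h1 : zj (y.1, y.2 + 2 * π) = zj y := jet2_shift (fun _ => rfl) y
  have h2 := jet2_shift (f := fun z => u (𝒟.κ j z)) (fun z => congrArg u (𝒟.κ_per j z)) y
  have h3 := H.per (K j) (G.per j)
  have h4 := H.per (Km K j) fun z => G.per j (12 - z.1, z.2)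
  simp only [Kg, K1, oq, h1, h2, h3, h4]

include hε in
theorem QQ_up (l : ℝ) {u : X → ℂ} (hu : CkFn P2 2 u) {φ : P2 → E3} {y : P2} (h : Par S φ y)
    (hm : φ y ∈ C0) {η : Fib ι} (hη : ‖η.2‖ < δ0) :
    QQ op 𝒟 ε l η u (𝒟.up (φ y)) = op η.2 φ y (jet2 (fun z => u (𝒟.up (φ z))) y) := by
  have c1 := cd_up 𝒟 hu h (Or.inl hm)
  refine desc_eq 𝒟 (fun j y' hy' e => ?_) ?_
  · obtain ⟨h1, h2⟩ := κ_up_eq 𝒟 G hm hy' e
    have h3 : y'.1 ∈ Ioo (-1 : ℝ) 6 := ⟨hy'.1, by linarith⟩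
    have h4 := G.par j y' ⟨hy'.1, by linarith⟩
    have h5 : jet2 (fun z => u (𝒟.κ j z)) y' = jet2 (fun z => u (𝒟.up (K j z))) y' :=
      jet2_congr (((ev_gt h3.1).and (ev_lt h3.2)).mono fun z hz => congrArg u (𝒟.κ_up j z hz))
    rw [Kg_lo hε h1, K1_lo hε h1, mul_zero, add_zero, h5]
    exact H.inv φ y (K j) y' h h4 (Or.inl hm) h2 _ hη (fun x => u (𝒟.up x)) c1
      (cd_up 𝒟 hu h4 (G.mem_mo j h3))
  · have h1 : ∃ p : (P2 → E3) × P2, Par S p.1 p.2 ∧ p.1 p.2 ∈ C0 ∧ 𝒟.up (p.1 p.2) = 𝒟.up (φ y) :=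
      ⟨(φ, y), h, hm, rfl⟩
    obtain ⟨h2, h3, h4⟩ := h1.choose_spec
    rw [dflt, dif_pos h1]
    exact H.inv φ y _ _ h h2 (Or.inl hm) (𝒟.up_inj (Or.inl h3) (Or.inl hm) h4) _ hη
      (fun x => u (𝒟.up x)) c1 (cd_up 𝒟 hu h2 (Or.inl h3))

include hε hε1 in
theorem QQ_dn (hδ : 0 < δ0) (l : ℝ) {u : X → ℂ} (hu : CkFn P2 2 u) {φ : P2 → E3} {y : P2}
    (h : Par S φ y) (hm : φ y ∈ C0) (η : Fib ι) : QQ op 𝒟 ε l η u (𝒟.dn (φ y)) =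
      op 0 φ y (jet2 (fun z => u (𝒟.dn (φ z))) y) + (-l : ℝ) * u (𝒟.dn (φ y)) := by
  have c1 := cd_dn 𝒟 hu h (Or.inl hm)
  have hη : ‖(0 : ι → ℂ)‖ < δ0 := by rwa [norm_zero]
  refine desc_eq 𝒟 (fun j y' hy' e => ?_) ?_
  · obtain ⟨h1, h2⟩ := κ_dn_eq 𝒟 G hm hy' e
    have h3 : y'.1 ∈ Ioo (6 : ℝ) 13 := ⟨by linarith, hy'.2⟩
    have h4 := par_km G j h3
    have h5 : jet2 (fun z => u (𝒟.κ j z)) y' = jet2 (fun z => u (𝒟.dn (Km K j z))) y' :=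
      jet2_congr (((ev_gt h3.1).and (ev_lt h3.2)).mono fun z hz => congrArg u (𝒟.κ_dn j z hz))
    rw [Kg_hi hε hε1 (by linarith), K1_hi hε hε1 (by linarith), st_one (by norm_num) (by linarith),
      sub_self, ofReal_zero, zero_mul, zero_add, ofReal_one, one_mul, ← e, h5]
    refine congrArg₂ (· + ·) (H.inv φ y (Km K j) y' h h4 (Or.inl hm) h2 _ hη (fun x => u (𝒟.dn x))
      c1 (cd_dn 𝒟 hu h4 (km_mo G j h3))) ?_
    rw [𝒟.κ_dn j y' h3]; rfl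
  · have h0 : ¬∃ p : (P2 → E3) × P2, Par S p.1 p.2 ∧ p.1 p.2 ∈ C0 ∧
        𝒟.up (p.1 p.2) = 𝒟.dn (φ y) := fun ⟨_, _, h2, h3⟩ => 𝒟.up_ne _ (Or.inl h2) _ (Or.inl hm) h3
    have h1 : ∃ p : (P2 → E3) × P2, Par S p.1 p.2 ∧ p.1 p.2 ∈ C0 ∧ 𝒟.dn (p.1 p.2) = 𝒟.dn (φ y) :=
      ⟨(φ, y), h, hm, rfl⟩
    obtain ⟨h2, h3, h4⟩ := h1.choose_spec
    rw [dflt, dif_neg h0, dif_pos h1]
    exact congrArg₂ (· + ·) (H.inv φ y _ _ h h2 (Or.inl hm) (𝒟.dn_inj (Or.inl h3) (Or.inl hm) h4)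
      _ hη (fun x => u (𝒟.dn x)) c1 (cd_dn 𝒟 hu h2 (Or.inl h3))) rfl

omit G in
theorem locQ_op {φ : P2 → E3} {y : P2} (h : Par S φ y) (hm : φ y ∈ Mo C0 K) :
    LocQ α RW (oq op φ) y := by
  obtain ⟨r, hr, M, hM⟩ := H.loc φ y h hm
  refine ⟨r, hr, M, (norm_nonneg _).trans ((hM y (mem_ball_self hr)).2 0 (mem_ball_self hr)).1,
    fun z hz => (hM z hz).1, fun z hz v hv => ((hM z hz).2 v hv).1,
    fun z hz z' hz' v hv => ((hM z hz).2 v hv).2.1 z' hz',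
    fun z hz v hv hR => ((hM z hz).2 v hv).2.2 hR.1 hR.2⟩

theorem locQ_K {j : J} {y : P2} (hy : y.1 ∈ Ioo (-1 : ℝ) 13) (h : y.1 < 6) :
    LocQ α RW (oq op (K j)) y :=
  locQ_op H (G.par j y ⟨hy.1, by linarith⟩) (G.mem_mo j ⟨hy.1, h⟩)

theorem locQ_Km {j : J} {y : P2} (hy : y.1 ∈ Ioo (-1 : ℝ) 13) (h : 6 < y.1) :
    LocQ α RW (oq op (Km K j)) y :=
  locQ_op H (par_km G j ⟨h, hy.2⟩) (km_mo G j ⟨h, hy.2⟩)

/-- the constants near the trace circles -/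
theorem exists_const (h0 : 0 < α) : ∃ M0 a0 : ℝ, 0 ≤ M0 ∧ 0 < a0 ∧ ∀ j (y : P2),
    y.1 ∈ Icc (0 : ℝ) 1 → ‖lin op (K j) y‖ ≤ M0 ∧
      a0 ≤ (lin op (K j) y (0, sqJ (ContinuousLinearMap.fst ℝ ℝ ℝ))).re := by
  have h1 : IsCompact {A | ∃ j y, y.1 ∈ Icc (0 : ℝ) 1 ∧ lin op (K j) y = A} :=
    isCompact_band (fun j y hy => (locQ_K G H (j := j) ⟨by linarith [hy.1], by linarith [hy.2]⟩
      (by linarith [hy.2])).cont h0) fun j y => by simp only [lin, H.per (K j) (G.per j)]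
  obtain ⟨M0, hM⟩ := h1.isBounded.exists_norm_le
  obtain ⟨a0, ha, h2⟩ := h1.exists_forall_le' (f := fun A : WW ι →L[ℂ] ℂ =>
    (A (0, sqJ (ContinuousLinearMap.fst ℝ ℝ ℝ))).re) (a := 0) (by fun_prop) (by
      rintro _ ⟨j, y, hy, rfl⟩
      refine H.ell _ _ (G.par j y ⟨by linarith [hy.1], by linarith [hy.2]⟩)
        (G.mem_mo j ⟨by linarith [hy.1], by linarith [hy.2]⟩) _ fun h => ?_
      simpa using congrArg (fun L : P2 →L[ℝ] ℝ => L (1, 0)) h)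
  exact ⟨|M0|, a0, abs_nonneg _, ha, fun j y hy =>
    ⟨(hM _ ⟨j, y, hy, rfl⟩).trans (le_abs_self _), h2 _ ⟨j, y, hy, rfl⟩⟩⟩

include hε hε1 in
/-- the cut off extension of a solution solves the blended equation -/
theorem col_sol {j : J} {y : P2} (hy : y.1 ∈ Ioo (0 : ℝ) 13) {e : P2 → ℂ}
    (he : y.1 < 6 → ContDiffAt ℝ 2 e y) {a : ι → ℂ} {F : (P2 → E3) → P2 → WW ι → ℂ}
    (out : y.1 < 6 → ∀ q, F (K j) y (a, q) = F (K j) y (0, q))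
    (quasi : y.1 < 6 → ∀ (q : J2 P2 ℂ) (t : ℝ), F (K j) y (0, q.1, q.2.1, t • q.2.2) -
      F (K j) y (0, q.1, q.2.1, 0) = t * (F (K j) y (0, q) - F (K j) y (0, q.1, q.2.1, 0)))
    (h0 : y.1 < 6 → F (K j) y (0, jet2 e y) = 0) (h2 : 6 < y.1 → F (Km K j) y 0 = 0) (l : ℝ) :
    Kg F K ε j y (((om ε y.1 : ℂ) • jet1 e y, a), jet2 (fun z => (ze z.1 : ℂ) * e z) y) +
      (-l : ℝ) * K1 ε y (((om ε y.1 : ℂ) • jet1 e y, a),
        jet2 (fun z => (ze z.1 : ℂ) * e z) y) = 0 := by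
  rcases lt_or_ge y.1 6 with h | h
  · obtain ⟨e1, e2⟩ := Kg_sol hε hε1 ⟨hy.1, h⟩ (he h) (out h) (quasi h) (h0 h)
    rw [e1, e2, mul_zero, add_zero]
  · have : jet2 (fun z : P2 => (ze z.1 : ℂ) * e z) y = 0 :=
      (jet2_congr ((ev_gt (by linarith : 4 < y.1)).mono fun z hz => by
        simp [ze_zero hz.le])).trans (jet2_const (0 : ℂ) y)
    rw [this, Kg_zero hε hε1 (fun h' => absurd h' h.not_gt) h2 (Or.inl (by linarith)),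
      K1_hi hε hε1 (by linarith)]
    simp

theorem lin_out (hδ : 0 < δ0) {j : J} {y : P2} (hy : y.1 ∈ Ioo (0 : ℝ) 6) (a : ι → ℂ)
    (q : J2 P2 ℂ) : lin op (K j) y (a, q) = lin op (K j) y (0, q) := by
  have d := (locQ_K G H (j := j) ⟨by linarith [hy.1], by linarith [hy.2]⟩ hy.2).diff
  refine (hasDerivAt_ray0 (a, q) d).unique
    ((hasDerivAt_ray0 ((0 : ι → ℂ), q) d).congr_of_eventuallyEq ?_)
  filter_upwards [ev_small hδ a] with t ht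
  exact (H.out j y hy _ (mem_ball_zero_iff.1 ht) _).trans (by simp [oq])

end op

theorem lin_quasi (A : WW ι →L[ℂ] ℂ) (q : J2 P2 ℂ) (t : ℝ) :
    A (0, q.1, q.2.1, t • q.2.2) - A (0, q.1, q.2.1, 0) = t * (A (0, q) - A (0, q.1, q.2.1, 0)) := by
  rw [← map_sub, ← map_sub, ← smul_eq_mul, ← map_smul]
  congr 1
  refine Prod.ext (by simp) (J2_ext (by simp) (fun u => by simp) fun u w => by simp)

/-- the supersolution near the trace circles -/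
theorem col_sup {ε lam M0 a0 l : ℝ} (hε : 0 < ε) (hε1 : ε ≤ 1 / 8) (hl : 0 ≤ l) (hM : 0 ≤ M0)
    (h1 : 4 * ε * M0 ≤ a0) (h2 : M0 + 1 ≤ lam * a0) (hlam : 0 ≤ lam)
    (h3 : lam * (3 * ε) ^ 2 ≤ 1 / 2) {j : J} {y : P2} (hy : y.1 ∈ Ioo 0 (2 * ε))
    (b1 : ‖lin op (K j) y‖ ≤ M0)
    (b2 : a0 ≤ (lin op (K j) y (0, sqJ (ContinuousLinearMap.fst ℝ ℝ ℝ))).re) :
    (Kg (ol op) K ε j y (0, ιJ (jet2 (fun z : P2 => h0 ε lam z.1) y)) +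
      (-l : ℝ) * K1 ε y ((0 : Fib ι), ιJ (jet2 (fun z : P2 => h0 ε lam z.1) y))).re ≤ -1 := by
  have e1 : jet2 (fun z : P2 => h0 ε lam z.1) y = _ :=
    (jet2_congr (((ev_gt hy.1).and (ev_lt hy.2)).mono fun z hz =>
      h0_mid hε lam hz.1.le hz.2.le)).trans (jet_sq lam y)
  have p1 := h0_ge hε hlam h3 y.1
  rw [h0_mid hε lam hy.1.le hy.2.le] at p1
  set ξ := ContinuousLinearMap.fst ℝ ℝ ℝ
  set A := lin op (K j) y
  set p : Jet P2 := (1 - lam * y.1 ^ 2, (-2 * lam * y.1) • ξ, 0) with hp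
  set q := ιJ (jet2 (fun z : P2 => h0 ε lam z.1) y) with hq
  have e2 : ((0 : ι → ℂ), ((0, 0, q.2.2) : J2 P2 ℂ)) = ((-2 * lam : ℝ) : ℂ) • (0, sqJ ξ) := by
    rw [hq, e1]
    refine Prod.ext (by simp) (J2_ext ?_ (fun u => ?_) fun u w => ?_) <;>
      simp [sqJ, J2.map, ιJ_eq]
  have e3 : ((0 : ι → ℂ), q) = (0, ιJ p) + (0, 0, 0, q.2.2) := by
    rw [hq, e1]
    refine Prod.ext (by simp) (J2_ext ?_ (fun u => ?_) fun u w => ?_) <;>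
      simp [J2.map, ιJ_eq, hp]
  have n1 : ‖p‖ ≤ 1 + 4 * lam * ε := by
    have t1 : 0 ≤ lam * ε := by positivity
    refine max_le ?_ (max_le ?_ (norm_zero.trans_le (by positivity)))
    · show |1 - lam * y.1 ^ 2| ≤ _
      rw [abs_of_nonneg (by linarith)]
      nlinarith [mul_nonneg hlam (sq_nonneg y.1)]
    · show ‖(-2 * lam * y.1) • ξ‖ ≤ _
      refine (norm_smul_le _ _).trans ((mul_le_of_le_one_right (norm_nonneg _)
        (ContinuousLinearMap.norm_fst_le _ _ _)).trans ?_)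
      rw [Real.norm_eq_abs, abs_of_nonpos (by nlinarith [mul_nonneg hlam hy.1.le])]
      nlinarith [mul_le_mul_of_nonneg_left hy.2.le hlam]
  have n2 : (A (0, ιJ p)).re ≤ M0 * (1 + 4 * lam * ε) :=
    (re_le_norm _).trans (A.le_of_opNorm_le_of_le b1 (by
      simpa using (norm_ιJ_le p).trans n1))
  have n3 : (A (0, 0, 0, q.2.2)).re ≤ -2 * lam * a0 := by
    rw [e2, map_smul, smul_eq_mul, re_ofReal_mul]
    nlinarith [mul_le_mul_of_nonneg_left b2 hlam]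
  have n4 : (A (0, q)).re ≤ -1 := by
    rw [e3, map_add, add_re]
    nlinarith [mul_le_mul_of_nonneg_left h1 hlam]
  have n5 : (K1 ε y ((0 : Fib ι), q)).re = st ε (2 * ε) y.1 * (1 - lam * y.1 ^ 2) := by
    rw [K1, hq, e1]
    simp [vq_apply, vη_apply, ιJ_eq, J2.map, -ofReal_pow]
  have s1 := st_nonneg ε (2 * ε) y.1
  have s2 := st_le ε (2 * ε) y.1
  rw [add_re, re_ofReal_mul, n5, Kg_re, c2, st_zero (a := 4) (by norm_num) (by linarith [hy.2]),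
    st_zero (a := 7) (by norm_num) (by linarith [hy.2])]
  have n6 : (A (0, 0, 0, q.2.2)).re ≤ -1 := by linarith
  have n7 : 0 ≤ l * (st ε (2 * ε) y.1 * (1 - lam * y.1 ^ 2)) :=
    mul_nonneg hl (mul_nonneg s1 (by linarith))
  nlinarith [mul_le_mul_of_nonneg_left n4 (sub_nonneg.2 s2), mul_le_mul_of_nonneg_left n6 s1]

/-! ### The cover -/

variable (op) in
/-- the three types of charts -/
inductive Typ (ε : ℝ) (e : OpenPartialHomeomorph X P2) (B : Set P2) (q0 q1 : P2 → VV ι → ℂ) : Prop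
  | col (j : J) (h : ∀ z ∈ B, z.1 ∈ Ioo (-1 : ℝ) 13 ∧ e.symm z = 𝒟.κ j z)
      (e0 : q0 = Kg (oq op) K ε j) (e1 : q1 = K1 ε)
  | up (φ : P2 → E3) (h : ∀ z ∈ B, (Par S φ z ∧ φ z ∈ C0 ∧ Inner K (φ z)) ∧ e.symm z = 𝒟.up (φ z))
      (e0 : q0 = fun z v => oq op φ z (pA v)) (e1 : q1 = fun _ v => (0 : VV ι →L[ℂ] ℂ) v)
  | dn (φ : P2 → E3) (h : ∀ z ∈ B, (Par S φ z ∧ φ z ∈ C0 ∧ Inner K (φ z)) ∧ e.symm z = 𝒟.dn (φ z))
      (e0 : q0 = fun z v => oq op φ z (pB v)) (e1 : q1 = fun _ v => vq v)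

theorem exists_rad {T : Set P2} {y : P2} (hT : T ∈ 𝓝 y) {P : P2 → Prop} (hP : ∀ᶠ z in 𝓝 y, P z)
    {q0 q1 : P2 → VV ι → ℂ} (h0 : LocQ α RV q0 y) (h1 : LocQ α RV q1 y) :
    ∃ r > 0, closedBall y (3 * r) ⊆ T ∧ (∀ z ∈ ball y (3 * r), P z) ∧
      ∃ M, LocR α RV q0 y (3 * r) M ∧ LocR α RV q1 y (3 * r) M := by
  obtain ⟨r0, hr0, M0, -, h0⟩ := h0
  obtain ⟨r1, hr1, M1, -, h1⟩ := h1
  obtain ⟨r, hr, hs⟩ := nhds_basis_closedBall.mem_iff.1 (inter_mem hT hP)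
  have e : 3 * (min r (min r0 r1) / 3) = min r (min r0 r1) := by ring
  refine ⟨min r (min r0 r1) / 3, by positivity, ?_, ?_, max M0 M1, ?_, ?_⟩ <;> rw [e]
  · exact fun z hz => (hs (closedBall_subset_closedBall (min_le_left _ _) hz)).1
  · exact fun z hz => (hs (closedBall_subset_closedBall (min_le_left _ _)
      (ball_subset_closedBall hz))).2
  · exact h0.mono ((min_le_right _ _).trans (min_le_left _ _)) (le_max_left _ _)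
  · exact h1.mono ((min_le_right _ _).trans (min_le_right _ _)) (le_max_right _ _)

theorem exists_typ (G : Geo S C0 K) (H : OpOK S C0 K op α δ0) (h0 : 0 < α) (h1 : α < 1) {ε : ℝ}
    (hε : 0 < ε) (hε1 : ε ≤ 1 / 8) (x : X) : ∃ e ∈ atlas P2 X, x ∈ e.source ∧ ∃ r > 0,
      closedBall (e x) (3 * r) ⊆ e.target ∧ ∃ q0 q1 M, Typ op 𝒟 ε e (ball (e x) (3 * r)) q0 q1 ∧
        LocR α RV q0 (e x) (3 * r) M ∧ LocR α RV q1 (e x) (3 * r) M := by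
  by_cases hx : ∃ j y, y.1 ∈ Icc (-1 / 2 : ℝ) (25 / 2) ∧ 𝒟.κ j y = x
  · obtain ⟨j, y, hy, rfl⟩ := hx
    have hy' : y.1 ∈ Ioo (-1 : ℝ) 13 := ⟨by linarith [hy.1], by linarith [hy.2]⟩
    obtain ⟨e, he, h2, h3⟩ := 𝒟.chart_κ j y hy'
    obtain ⟨r, hr, h4, h5, M, h6, h7⟩ := exists_rad (e.open_target.mem_nhds h2)
      (((ev_gt hy'.1).and (ev_lt hy'.2)).and h3)
      (locQ_Kg h0 h1 hε hε1 (locQ_K G H hy') (locQ_Km G H hy')) (locQ_K1 h0 h1 ε y)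
    rw [← h3.self_of_nhds]
    refine ⟨e, he, e.map_target h2, r, hr, ?_⟩
    rw [e.right_inv h2]
    exact ⟨h4, _, _, M, Typ.col j h5 rfl rfl, h6, h7⟩
  · rcases 𝒟.cases x with ⟨x0, hx0, rfl⟩ | ⟨j, y, hy, rfl⟩ | ⟨x0, hx0, rfl⟩
    · obtain ⟨φ, y, hp, rfl⟩ := exists_par G.surf (G.sub hx0)
      have hI : Inner K (φ y) := fun j y' hy' e => hx ⟨j, y', ⟨hy'.1, by linarith [hy'.2]⟩, by
        rw [𝒟.κ_up j y' ⟨by linarith [hy'.1], by linarith [hy'.2]⟩, e]⟩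
      obtain ⟨e, he, h2, h3⟩ := 𝒟.chart_up φ y hp (Or.inl hx0)
      obtain ⟨r, hr, h4, h5, M, h6, h7⟩ := exists_rad (e.open_target.mem_nhds h2)
        ((hp.eventually.and (G.inner_nhds hp hx0 hI)).and h3)
        ((locQ_op H hp (Or.inl hx0)).comp' pA fun _ h => h.pA)
        (LocQ.lin (0 : VV ι →L[ℂ] ℂ) fun _ _ => rfl)
      rw [show 𝒟.up (φ y) = e.symm y from h3.self_of_nhds.symm]
      refine ⟨e, he, e.map_target h2, r, hr, ?_⟩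
      rw [e.right_inv h2]
      exact ⟨h4, _, _, M, Typ.up φ h5 rfl rfl, h6, h7⟩
    · exact absurd ⟨j, y, ⟨by linarith [hy.1], by linarith [hy.2]⟩, rfl⟩ hx
    · obtain ⟨φ, y, hp, rfl⟩ := exists_par G.surf (G.sub hx0)
      have hI : Inner K (φ y) := fun j y' hy' e => hx ⟨j, (12 - y'.1, y'.2),
        ⟨by linarith [hy'.2], by linarith [hy'.1]⟩, by
          rw [𝒟.κ_dn j _ ⟨by linarith [hy'.2], by linarith [hy'.1]⟩, ← e]; simp⟩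
      obtain ⟨e, he, h2, h3⟩ := 𝒟.chart_dn φ y hp (Or.inl hx0)
      obtain ⟨r, hr, h4, h5, M, h6, h7⟩ := exists_rad (e.open_target.mem_nhds h2)
        ((hp.eventually.and (G.inner_nhds hp hx0 hI)).and h3)
        ((locQ_op H hp (Or.inl hx0)).comp' pB fun _ h => h.pB) (locQ_vq y)
      rw [show 𝒟.dn (φ y) = e.symm y from h3.self_of_nhds.symm]
      refine ⟨e, he, e.map_target h2, r, hr, ?_⟩
      rw [e.right_inv h2]
      exact ⟨h4, _, _, M, Typ.dn φ h5 rfl rfl, h6, h7⟩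

theorem fd_comp {F : WW ι → ℂ} (T : VV ι →L[ℂ] WW ι) (h : DifferentiableAt ℂ F 0) (v : VV ι) :
    fderiv ℂ (fun v => F (T v)) 0 v = fderiv ℂ F 0 (T v) := by
  have h1 : HasFDerivAt F (fderiv ℂ F 0) (T 0) := by rw [map_zero]; exact h.hasFDerivAt
  exact congrArg (fun L : VV ι →L[ℂ] ℂ => L v) (h1.comp 0 T.hasFDerivAt).fderiv

theorem norm_fderiv_cut {c : P2 → ℂ} {e : P2 → ℂ} {z : P2} (hc : DifferentiableAt ℝ c z)
    (he : ContDiffAt ℝ 2 e z) {A b : ℝ} (h1 : ‖c z‖ ≤ 1) (h2 : ‖fderiv ℝ c z‖ ≤ A)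
    (h3 : ‖jet2 e z‖ ≤ b) : DifferentiableAt ℝ (fun w => c w • jet1 e w) z ∧
      ‖fderiv ℝ (fun w => c w • jet1 e w) z‖ ≤ (1 + A) * b := by
  have d1 := ((ev_diff he).self_of_nhds.hasFDerivAt.prodMk (diff_fderiv he).hasFDerivAt)
  have d2 : HasFDerivAt (jet1 e) _ z := d1
  refine ⟨hc.smul d2.differentiableAt, ?_⟩
  rw [fderiv_fun_smul hc d2.differentiableAt, d2.fderiv]
  have n1 : ‖(fderiv ℝ e z).prod (fderiv ℝ (fderiv ℝ e) z)‖ ≤ b := by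
    rw [ContinuousLinearMap.opNorm_prod]
    exact (norm_snd_le (jet2 e z)).trans h3
  have n2 : ‖jet1 e z‖ ≤ b := (max_le (norm_fst_le (jet2 e z))
    ((norm_fst_le (jet2 e z).2).trans (norm_snd_le (jet2 e z)))).trans h3
  have hA : 0 ≤ A := (norm_nonneg _).trans h2
  have n3 : ‖(fderiv ℝ c z).smulRight (jet1 e z)‖ ≤ A * b := by
    refine ContinuousLinearMap.opNorm_le_bound _ (mul_nonneg hA ((norm_nonneg _).trans n2))
      fun u => ?_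
    rw [ContinuousLinearMap.smulRight_apply, norm_smul, mul_right_comm]
    exact mul_le_mul ((fderiv ℝ c z).le_of_opNorm_le h2 u) n2 (norm_nonneg _)
      (mul_nonneg hA (norm_nonneg _))
  refine (norm_add_le _ _).trans ?_
  rw [add_mul]
  exact add_le_add ((norm_smul_le _ _).trans (mul_le_mul h1 n1 (norm_nonneg _) zero_le_one)) n3

namespace Typ

variable {𝒟} {ε : ℝ} {e : OpenPartialHomeomorph X P2} {B : Set P2} {q0 q1 : P2 → VV ι → ℂ}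
  (G : Geo S C0 K) (H : OpOK S C0 K op α δ0) (hε : 0 < ε) (hε1 : ε ≤ 1 / 8)
  (T : Typ op 𝒟 ε e B q0 q1) (hB : IsOpen B) {z : P2} (hz : z ∈ B)
include G H hε hε1 T hB hz

theorem eq (hδ : 0 < δ0) (l : ℝ) {u : X → ℂ} (hu : CkFn P2 2 u) {η : Fib ι} (hη : ‖η.2‖ < δ0) :
    QQ op 𝒟 ε l η u (e.symm z) = q0 z (η, jet2 (fun w => u (e.symm w)) z) +
      (-l : ℝ) * q1 z (η, jet2 (fun w => u (e.symm w)) z) := by
  have ev : ∀ᶠ w in 𝓝 z, w ∈ B := hB.mem_nhds hz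
  rcases T with ⟨j, h, rfl, rfl⟩ | ⟨φ, h, rfl, rfl⟩ | ⟨φ, h, rfl, rfl⟩
  · rw [(h z hz).2, QQ_κ 𝒟 G H ε l η u (h z hz).1,
      jet2_congr (ev.mono fun w hw => congrArg u (h w hw).2)]
  · rw [(h z hz).2, QQ_up 𝒟 G H hε l hu (h z hz).1.1 (h z hz).1.2.1 hη,
      jet2_congr (ev.mono fun w hw => congrArg u (h w hw).2)]
    exact (add_zero _).symm.trans (congrArg₂ (· + ·) rfl (mul_zero _).symm)
  · rw [(h z hz).2, QQ_dn 𝒟 G H hε hε1 hδ l hu (h z hz).1.1 (h z hz).1.2.1,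
      jet2_congr (ev.mono fun w hw => congrArg u (h w hw).2)]
    rfl

theorem zero : q0 z 0 = 0 ∧ q1 z 0 = 0 := by
  rcases T with ⟨j, h, rfl, rfl⟩ | ⟨φ, h, rfl, rfl⟩ | ⟨φ, h, rfl, rfl⟩
  · have hy := (h z hz).1
    refine ⟨Kg_zero hε hε1 (fun h' => H.zero _ _ (G.par j z ⟨hy.1, by linarith⟩)
      (G.mem_mo j ⟨hy.1, h'⟩)) (fun h' => H.zero _ _ (par_km G j ⟨h', hy.2⟩)
        (km_mo G j ⟨h', hy.2⟩)) (Or.inr rfl), by simp [K1]⟩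
  · exact ⟨H.zero _ _ (h z hz).1.1 (Or.inl (h z hz).1.2.1), rfl⟩
  · exact ⟨H.zero _ _ (h z hz).1.1 (Or.inl (h z hz).1.2.1), rfl⟩

theorem ell {ξ : P2 →L[ℝ] ℝ} (hξ : ξ ≠ 0) :
    0 < (fderiv ℂ (q0 z) 0 (0, sqJ ξ)).re ∧ fderiv ℂ (q1 z) 0 (0, sqJ ξ) = 0 := by
  have e1 : (sqJ ξ).1 = 0 := by simp [sqJ, J2.map]
  rcases T with ⟨j, h, rfl, rfl⟩ | ⟨φ, h, rfl, rfl⟩ | ⟨φ, h, rfl, rfl⟩
  · have hy := (h z hz).1
    rw [fderiv_Kg hε hε1 op (fun h' => (locQ_K G H hy h').diff) fun h' => (locQ_Km G H hy h').diff,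
      fderiv_K1]
    exact ⟨Kg_ell hε hε1 op hξ (fun h' => H.ell _ _ (G.par j z ⟨hy.1, by linarith⟩)
      (G.mem_mo j ⟨hy.1, h'⟩) ξ hξ) fun h' => H.ell _ _ (par_km G j ⟨h', hy.2⟩)
        (km_mo G j ⟨h', hy.2⟩) ξ hξ, by simp [K1, vq_apply, vη_apply, e1]⟩
  · rw [fd_comp pA (locQ_op H (h z hz).1.1 (Or.inl (h z hz).1.2.1)).diff,
      ContinuousLinearMap.fderiv]
    exact ⟨H.ell _ _ (h z hz).1.1 (Or.inl (h z hz).1.2.1) ξ hξ, rfl⟩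
  · rw [fd_comp pB (locQ_op H (h z hz).1.1 (Or.inl (h z hz).1.2.1)).diff,
      ContinuousLinearMap.fderiv]
    exact ⟨H.ell _ _ (h z hz).1.1 (Or.inl (h z hz).1.2.1) ξ hξ, e1⟩

omit H in
theorem hh_ev (lam : ℝ) : (fun w => hh 𝒟 ε lam (e.symm w)) =ᶠ[𝓝 z] (fun w => h0 ε lam w.1) ∨
    (fun w => hh 𝒟 ε lam (e.symm w)) =ᶠ[𝓝 z] fun _ => 1 := by
  have ev : ∀ᶠ w in 𝓝 z, w ∈ B := hB.mem_nhds hz
  rcases T with ⟨j, h, -, -⟩ | ⟨φ, h, -, -⟩ | ⟨φ, h, -, -⟩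
  · exact Or.inl (ev.mono fun w hw => by
      show hh 𝒟 ε lam (e.symm w) = _
      rw [(h w hw).2, hh_κ 𝒟 ε lam (h w hw).1])
  · exact Or.inr (ev.mono fun w hw => (far_val 𝒟 hε hε1 fun j y hy e => Or.inl
      (up_inner 𝒟 G (h w hw).1.2.1 (h w hw).1.2.2 hy (e.trans (h w hw).2))).1 lam)
  · exact Or.inr (ev.mono fun w hw => (far_val 𝒟 hε hε1 fun j y hy e => Or.inr
      (dn_inner 𝒟 G (h w hw).1.2.1 (h w hw).1.2.2 hy (e.trans (h w hw).2))).1 lam)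

omit H in
theorem EE_der {f : J → P2 → ℂ} {c A : ℝ} (hf : Nice f c) (hA0 : 0 ≤ A)
    (hA : ‖fderiv ℝ (fun w : P2 => (om ε w.1 : ℂ)) z‖ ≤ A) :
    DifferentiableAt ℝ (fun w => EE 𝒟 ε f (e.symm w)) z ∧
      ‖fderiv ℝ (fun w => EE 𝒟 ε f (e.symm w)) z‖ ≤ (1 + A) * c := by
  have ev : ∀ᶠ w in 𝓝 z, w ∈ B := hB.mem_nhds hz
  have key : (fun w => EE 𝒟 ε f (e.symm w)) =ᶠ[𝓝 z] (fun _ => 0) →
      DifferentiableAt ℝ (fun w => EE 𝒟 ε f (e.symm w)) z ∧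
        ‖fderiv ℝ (fun w => EE 𝒟 ε f (e.symm w)) z‖ ≤ (1 + A) * c := fun h =>
    ⟨(differentiableAt_const _).congr_of_eventuallyEq h, by
      rw [h.fderiv_eq, fderiv_fun_const, Pi.zero_apply, norm_zero]
      exact mul_nonneg (by linarith) hf.nonneg⟩
  rcases T with ⟨j, h, -, -⟩ | ⟨φ, h, -, -⟩ | ⟨φ, h, -, -⟩
  · have e1 : (fun w => EE 𝒟 ε f (e.symm w)) =ᶠ[𝓝 z] fun w => (om ε w.1 : ℂ) • jet1 (f j) w :=
      ev.mono fun w hw => by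
        show EE 𝒟 ε f (e.symm w) = _
        rw [(h w hw).2, EE_κ 𝒟 ε hf.per (h w hw).1]
    rcases le_or_gt z.1 0 with h1 | h1
    · refine key (e1.trans ((ev_lt (by linarith : z.1 < ε / 2)).mono fun w hw => ?_))
      simp [om_lo hε hw.le]
    rcases le_or_gt 6 z.1 with h2 | h2
    · refine key (e1.trans ((ev_gt (by linarith : 11 / 2 < z.1)).mono fun w hw => ?_))
      simp [om_hi ε hw.le]
    obtain ⟨d1, d2⟩ := norm_fderiv_cut (c := fun w : P2 => (om ε w.1 : ℂ))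
      ((ofRealCLM.contDiff.comp ((cd_om ε (n := 1)).comp contDiff_fst)).differentiable
        (by simp) z) (hf.c2 j z ⟨h1, h2⟩) (by simpa using abs_om_le ε z.1) hA (hf.bd j z ⟨h1, h2⟩)
    exact ⟨d1.congr_of_eventuallyEq e1, by rwa [e1.fderiv_eq]⟩
  · exact key (ev.mono fun w hw => (far_val 𝒟 hε hε1 fun j y hy e => Or.inl
      (up_inner 𝒟 G (h w hw).1.2.1 (h w hw).1.2.2 hy (e.trans (h w hw).2))).2 f)
  · exact key (ev.mono fun w hw => (far_val 𝒟 hε hε1 fun j y hy e => Or.inr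
      (dn_inner 𝒟 G (h w hw).1.2.1 (h w hw).1.2.2 hy (e.trans (h w hw).2))).2 f)

omit H hε hε1 in
theorem UU_jet (hO : e.symm z ∈ 𝒟.O) {f : J → P2 → ℂ} {c A : ℝ} (hf : Nice f c) (hA0 : 0 ≤ A)
    (hA : ‖zj z‖ ≤ A) : ContDiffAt ℝ 2 (fun w => UU 𝒟 f (e.symm w)) z ∧
      ‖jet2 (fun w => UU 𝒟 f (e.symm w)) z‖ ≤ 4 * A * c := by
  have ev : ∀ᶠ w in 𝓝 z, w ∈ B := hB.mem_nhds hz
  have hc := hf.nonneg
  have key : (fun w => UU 𝒟 f (e.symm w)) =ᶠ[𝓝 z] (fun _ => 0) →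
      ContDiffAt ℝ 2 (fun w => UU 𝒟 f (e.symm w)) z ∧
        ‖jet2 (fun w => UU 𝒟 f (e.symm w)) z‖ ≤ 4 * A * c := fun h =>
    ⟨contDiffAt_const.congr_of_eventuallyEq h, by
      rw [jet2_congr h, jet2_const]
      exact norm_zero.trans_le (by positivity)⟩
  rcases T with ⟨j, h, -, -⟩ | ⟨φ, h, -, -⟩ | ⟨φ, h, -, -⟩
  · have e1 : (fun w => UU 𝒟 f (e.symm w)) =ᶠ[𝓝 z] fun w => (ze w.1 : ℂ) • f j w :=
      ev.mono fun w hw => by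
        show UU 𝒟 f (e.symm w) = _
        rw [(h w hw).2, UU_κ 𝒟 hf.per (h w hw).1]; rfl
    have h1 := O_pos 𝒟 G (h z hz).1 ((h z hz).2 ▸ hO)
    rcases le_or_gt 6 z.1 with h2 | h2
    · refine key (e1.trans ((ev_gt (by linarith : 4 < z.1)).mono fun w hw => ?_))
      simp [ze_zero hw.le]
    have c1 : ContDiffAt ℝ 2 (fun w : P2 => (ze w.1 : ℂ)) z :=
      (cd_zeC.of_le (by norm_num)).contDiffAt
    have c2 := hf.c2 j z ⟨h1, h2⟩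
    refine ⟨(c1.smul c2).congr_of_eventuallyEq e1, ?_⟩
    rw [jet2_congr e1, jet2_smul c1 c2]
    refine (norm_smulJ_le _ _).trans ?_
    exact mul_le_mul (mul_le_mul_of_nonneg_left hA (by norm_num)) (hf.bd j z ⟨h1, h2⟩)
      (norm_nonneg _) (by positivity)
  · exact absurd ⟨_, (h z hz).1.2.1, (h z hz).2.symm⟩ hO
  · exact key (ev.mono fun w hw => by
      show UU 𝒟 f (e.symm w) = 0
      rw [(h w hw).2, UU_dn 𝒟 G (h w hw).1.2.1])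

omit H hε hε1 in
theorem UU_cont {x : X} (hx : x ∈ e.source) (hxz : e x = z) (hD : x ∈ 𝒟.D) {f : J → P2 → ℂ}
    (hf : Per f) (hc : ∀ j, ContinuousOn (f j) (Ico 0 6 ×ˢ univ)) :
    ContinuousWithinAt (UU 𝒟 f) 𝒟.D x := by
  subst hxz
  have hN : e.source ∩ e ⁻¹' B ∈ 𝓝 x := (e.isOpen_inter_preimage hB).mem_nhds ⟨hx, hz⟩
  rw [← continuousWithinAt_inter hN]
  rcases T with ⟨j, h, -, -⟩ | ⟨φ, h, -, -⟩ | ⟨φ, h, -, -⟩
  · have e1 : ∀ x' ∈ 𝒟.D ∩ (e.source ∩ e ⁻¹' B), 0 ≤ (e x').1 ∧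
        UU 𝒟 f x' = (ze (e x').1 : ℂ) * f j (e x') := fun x' hx' => by
      have h1 := (h _ hx'.2.2).2
      rw [e.left_inv hx'.2.1] at h1
      exact ⟨D_nonneg 𝒟 G (h _ hx'.2.2).1 (h1 ▸ hx'.1), by
        rw [← UU_κ 𝒟 hf (h _ hx'.2.2).1, ← h1]⟩
    have hm : x ∈ 𝒟.D ∩ (e.source ∩ e ⁻¹' B) := ⟨hD, hx, hz⟩
    have c1 : ContinuousWithinAt (fun w : P2 => (ze w.1 : ℂ) * f j w) {w | 0 ≤ w.1} (e x) := by
      rcases lt_or_ge (e x).1 6 with h2 | h2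
      · refine cd_zeC.continuous.continuousWithinAt.mul ?_
        refine (hc j _ ⟨⟨(e1 x hm).1, h2⟩, trivial⟩).mono_of_mem_nhdsWithin ?_
        filter_upwards [self_mem_nhdsWithin, nhdsWithin_le_nhds (ev_lt h2)] with w h3 h4
          using ⟨⟨h3, h4⟩, trivial⟩
      · refine (continuousAt_const (y := (0 : ℂ))).congr ?_ |>.continuousWithinAt
        exact (ev_gt (by linarith : 4 < (e x).1)).mono fun w hw => by simp [ze_zero hw.le]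
    exact (c1.comp (e.continuousAt hx).continuousWithinAt fun x' hx' => (e1 x' hx').1).congr
      (fun x' hx' => (e1 x' hx').2) (e1 x hm).2
  · have h1 := (h _ hz).2
    rw [e.left_inv hx] at h1
    rcases hD with hD | ⟨j, θ, hD⟩
    · exact absurd ⟨_, (h _ hz).1.2.1, h1.symm⟩ hD
    · have := up_inner 𝒟 G (h _ hz).1.2.1 (h _ hz).1.2.2 (y := (0, θ))
        ⟨by norm_num, by norm_num⟩ (hD.trans h1)
      norm_num at this
  · have e1 : ∀ x' ∈ 𝒟.D ∩ (e.source ∩ e ⁻¹' B), UU 𝒟 f x' = 0 := fun x' hx' => by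
      have h1 := (h _ hx'.2.2).2
      rw [e.left_inv hx'.2.1] at h1
      rw [h1, UU_dn 𝒟 G (h _ hx'.2.2).1.2.1]
    exact continuousWithinAt_const.congr e1 (e1 x ⟨hD, hx, hz⟩)

omit H in
/-- the data of the extension in a chart -/
theorem ext_cases (hO : e.symm z ∈ 𝒟.O) {f : J → P2 → ℂ} (hf : Per f) :
    (∃ j, z.1 ∈ Ioo (0 : ℝ) 13 ∧ q0 = Kg (oq op) K ε j ∧ q1 = K1 ε ∧
      EE 𝒟 ε f (e.symm z) = (om ε z.1 : ℂ) • jet1 (f j) z ∧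
      jet2 (fun w => UU 𝒟 f (e.symm w)) z = jet2 (fun w => (ze w.1 : ℂ) * f j w) z ∧
      ∀ lam, jet2 (fun w => hh 𝒟 ε lam (e.symm w)) z = jet2 (fun w => h0 ε lam w.1) z) ∨
    ∃ φ, Par S φ z ∧ φ z ∈ C0 ∧ (q0 = fun z v => oq op φ z (pB v)) ∧ (q1 = fun _ v => vq v) ∧
      jet2 (fun w => UU 𝒟 f (e.symm w)) z = 0 := by
  have ev : ∀ᶠ w in 𝓝 z, w ∈ B := hB.mem_nhds hz
  rcases T with ⟨j, h, e0, e1⟩ | ⟨φ, h, -, -⟩ | ⟨φ, h, e0, e1⟩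
  · refine Or.inl ⟨j, ⟨O_pos 𝒟 G (h z hz).1 ((h z hz).2 ▸ hO), (h z hz).1.2⟩, e0, e1, ?_,
      jet2_congr (ev.mono fun w hw => ?_), fun lam => jet2_congr (ev.mono fun w hw => ?_)⟩
    · rw [(h z hz).2, EE_κ 𝒟 ε hf (h z hz).1]
    · show UU 𝒟 f (e.symm w) = _
      rw [(h w hw).2, UU_κ 𝒟 hf (h w hw).1]
    · show hh 𝒟 ε lam (e.symm w) = _
      rw [(h w hw).2, hh_κ 𝒟 ε lam (h w hw).1]
  · exact absurd ⟨_, (h z hz).1.2.1, (h z hz).2.symm⟩ hO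
  · refine Or.inr ⟨φ, (h z hz).1.1, (h z hz).1.2.1, e0, e1,
      (jet2_congr (ev.mono fun w hw => ?_)).trans (jet2_const (0 : ℂ) z)⟩
    show UU 𝒟 f (e.symm w) = 0
    rw [(h w hw).2, UU_dn 𝒟 G (h w hw).1.2.1]

end Typ

theorem exists_eps {M0 a0 : ℝ} (hM : 0 ≤ M0) (ha : 0 < a0) : ∃ ε lam : ℝ, 0 < ε ∧ ε ≤ 1 / 8 ∧
    0 ≤ lam ∧ 4 * ε * M0 ≤ a0 ∧ M0 + 1 ≤ lam * a0 ∧ lam * (3 * ε) ^ 2 ≤ 1 / 2 := by
  set lam := (M0 + 1) / a0 with hl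
  have h0 : 0 < lam := by positivity
  set ε := min (1 / 8) (min (a0 / (4 * (M0 + 1))) (1 / (3 * lam))) with hε
  have h1 : 0 < ε := by positivity
  have h2 : ε ≤ 1 / 8 := min_le_left _ _
  have h3 : ε ≤ a0 / (4 * (M0 + 1)) := (min_le_right _ _).trans (min_le_left _ _)
  have h4 : ε ≤ 1 / (3 * lam) := (min_le_right _ _).trans (min_le_right _ _)
  rw [le_div_iff₀ (by positivity)] at h3 h4
  exact ⟨ε, lam, h1, h2, h0.le, by nlinarith, by rw [hl, div_mul_cancel₀ _ ha.ne'], by nlinarith⟩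

end Bl

open Bl

theorem blend_proof : BlendStmt := by
  intro S C0 J ι _ _ K op α δ0 X _ _ _ _ _ 𝒟 h0 h1 hδ0 G H
  obtain ⟨M0, a0, hM0, ha0, hc⟩ := exists_const G H h0
  obtain ⟨ε, lam, hε, hε1, hlam, c1, c2, c3⟩ := exists_eps hM0 ha0
  choose e he hx r hr hs q0 q1 M' hT hq0 hq1 using exists_typ 𝒟 G H h0 h1 hε hε1
  obtain ⟨𝒞, p, hp⟩ := Cov.exists_cov P2 X e he hx r hr hs
  have T : ∀ i, Typ op 𝒟 ε (𝒞.e i) (ball (𝒞.c i) (3 * 𝒞.r i)) (q0 (p i)) (q1 (p i)) := fun i => by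
    rw [(hp i).1, (hp i).2.1, (hp i).2.2]; exact hT _
  obtain ⟨M, hM, hM'⟩ := Cov.exists_le_all fun i => M' (p i)
  have L0 : ∀ i, LocR α RV (q0 (p i)) (𝒞.c i) (3 * 𝒞.r i) M := fun i => by
    rw [(hp i).2.1, (hp i).2.2]; exact (hq0 _).mono le_rfl (hM' i)
  have L1 : ∀ i, LocR α RV (q1 (p i)) (𝒞.c i) (3 * 𝒞.r i) M := fun i => by
    rw [(hp i).2.1, (hp i).2.2]; exact (hq1 _).mono le_rfl (hM' i)
  obtain ⟨δ1, hδ1, hδ1'⟩ := Cov.exists_pos_le (fun i => 3 * 𝒞.r i) fun i => by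
    have := 𝒞.r_pos i; positivity
  set δ := min δ1 δ0 with hδdef
  have hδ : 0 < δ := lt_min hδ1 hδ0
  have hδs : ∀ i, ball (0 : VV ι) δ ⊆ ball 0 (3 * 𝒞.r i) := fun i =>
    ball_subset_ball ((min_le_left _ _).trans (hδ1' i))
  have hK : IsCompact (⋃ i, closedBall (𝒞.c i) (3 * 𝒞.r i)) :=
    isCompact_iUnion fun i => isCompact_closedBall _ _
  have mK : ∀ {i z}, z ∈ ball (𝒞.c i) (3 * 𝒞.r i) → z ∈ ⋃ i, closedBall (𝒞.c i) (3 * 𝒞.r i) :=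
    fun {i z} hz => mem_iUnion.2 ⟨i, ball_subset_closedBall hz⟩
  have ch : ContDiff ℝ 3 fun z : P2 => Bl.h0 ε lam z.1 := (cd_h0 ε lam (n := 3)).comp contDiff_fst
  obtain ⟨A1, hA1⟩ := hK.exists_bound_of_continuousOn (continuous_jet2 ch).continuous.continuousOn
  obtain ⟨A2, hA2⟩ := hK.exists_bound_of_continuousOn cd_zj.continuous.continuousOn
  obtain ⟨A3, hA3⟩ := hK.exists_bound_of_continuousOn
    (f := fderiv ℝ fun w : P2 => (om ε w.1 : ℂ)) ((ofRealCLM.contDiff.comp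
      ((cd_om ε (n := 1)).comp contDiff_fst)).continuous_fderiv (by simp)).continuousOn
  set l := 2 * (2 * M / δ * (|A1| + 1) + 1) with hl
  have hl0 : 0 ≤ l := by positivity
  have LQ : ∀ i, LocR α RV (fun z v => q0 (p i) z v + (-l : ℝ) * q1 (p i) z v) (𝒞.c i)
      (3 * 𝒞.r i) (M + 2 * l * M) := fun i =>
    (L0 i).add ((L1 i).mul hM (c := fun _ => -l) hl0 fun z _ => ⟨by simp [abs_of_nonneg hl0],
      fun _ _ => by rw [sub_self, norm_zero]; positivity⟩)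
  have fQ : ∀ i, ∀ z ∈ ball (𝒞.c i) (3 * 𝒞.r i), ∀ v,
      fderiv ℂ (fun v => q0 (p i) z v + (-l : ℝ) * q1 (p i) z v) 0 v =
        fderiv ℂ (q0 (p i) z) 0 v + (-l : ℝ) * fderiv ℂ (q1 (p i) z) 0 v := fun i z hz v => by
    have n := ball_mem_nhds (0 : VV ι) (pos_of_mem_ball hz)
    exact congrArg (fun L : VV ι →L[ℂ] ℂ => L v) ((((L0 i).hol z hz).differentiableAt
      n).hasFDerivAt.add ((((L1 i).hol z hz).differentiableAt n).hasFDerivAt.const_mul _)).fderiv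
  obtain ⟨CL, hCL, hlip⟩ := 𝒞.exists_lip_const (V := J1 P2 ℂ)
  have hD := 𝒞.D_nonneg
  have hge : ∀ x, 1 / 2 ≤ hh 𝒟 ε lam x := fun x => by
    rcases desc_cases 𝒟 x with ⟨j, y, -, -, h⟩ | h
    · rw [hh, h]; exact h0_ge hε hlam c3 _
    · rw [hh, h]; norm_num
  have pt : ∀ x, (∃ j y, ∃ c : ℝ, |c| ≤ 1 ∧ y.1 ∈ Ioo (0 : ℝ) 6 ∧
      ∀ f, EE 𝒟 ε f x = (c : ℂ) • jet1 (f j) y) ∨ ∀ f, EE 𝒟 ε f x = 0 := fun x => by
    rcases desc_cases 𝒟 x with ⟨j, y, -, -, h⟩ | h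
    · rcases le_or_gt y.1 0 with h2 | h2
      · exact Or.inr fun f => by rw [EE, h, om_lo hε (by linarith), ofReal_zero, zero_smul]
      rcases le_or_gt 6 y.1 with h3 | h3
      · exact Or.inr fun f => by rw [EE, h, om_hi ε (by linarith), ofReal_zero, zero_smul]
      exact Or.inl ⟨j, y, _, abs_om_le ε y.1, ⟨h2, h3⟩, fun f => h _ _⟩
    · exact Or.inr fun f => h _ _
  refine ⟨𝒞, QQ op 𝒟 ε l, fun i z v => q0 (p i) z v + (-l : ℝ) * q1 (p i) z v, δ, M + 2 * l * M,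
    1 + (1 + |A3| + CL) * 𝒞.D ^ (1 - α) + 4 * |A2|, EE 𝒟 ε, UU 𝒟, hh 𝒟 ε lam,
    ⟨hδ, by positivity, fun u hu i x hi η hη => ?_,
      fun i y hy => ((LQ i).hol y hy).mono (hδs i), fun i y hy v hv => (LQ i).bd y hy v (hδs i hv),
      fun i y hy y' hy' v hv => (LQ i).hld y hy y' hy' v (hδs i hv), fun i y hy => ?_,
      ⟨rfl, fun _ => rfl, fun _ => rfl⟩,
      fun i y hy v hv r1 r2 => (LQ i).re y hy v (hδs i hv) ⟨r1, r2⟩, fun i y hy ξ hξ => ?_⟩,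
    by positivity, fun u hu φ y hφ hm η hη => ?_, fun x => ?_, fun f c hf => ?_, isOpen_O 𝒟 G,
    isCompact_D 𝒟 G, fun x => desc_eq 𝒟 (fun _ _ _ _ => mul_zero _) rfl, fun f hf j y hy => ?_,
    fun f _ hf x hO => ?_, fun f hf hc x hx => ?_, fun f c hf x hO i hi => ?_,
    fun f c hf h2 a ha x hO i hi => ?_, fun f c hf h2 a x hO i hi => ?_, ?_,
    fun x => by linarith [hge x], fun x hO => ?_⟩
  · have := (T i).eq G H hε hε1 isOpen_ball hi.three hδ0 l hu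
      ((norm_snd_le η).trans_lt (hη.trans_le (min_le_right _ _)))
    rwa [(𝒞.e i).left_inv hi.1] at this
  · obtain ⟨e1, e2⟩ := (T i).zero G H hε hε1 isOpen_ball hy
    simp only [e1, e2, mul_zero, add_zero]
  · obtain ⟨e1, e2⟩ := (T i).ell G H hε hε1 isOpen_ball hy hξ
    rwa [fQ i y hy, e2, mul_zero, add_zero]
  · exact QQ_up 𝒟 G H hε l hu hφ hm ((norm_snd_le η).trans_lt (hη.trans_le (min_le_right _ _)))
  · exact (pt x).imp (fun ⟨j, y, c, _, h2, h3⟩ => ⟨j, y, c, h2, h3⟩) id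
  · have hc0 := hf.nonneg
    have b1 : ∀ x, ‖EE 𝒟 ε f x‖ ≤ c := fun x => by
      rcases pt x with ⟨j, y, t, ht, hy, h⟩ | h
      · rw [h, norm_smul, norm_real]
        exact (mul_le_of_le_one_left (norm_nonneg _) ht).trans ((max_le
          (norm_fst_le (jet2 (f j) y)) ((norm_fst_le (jet2 (f j) y).2).trans
            (norm_snd_le (jet2 (f j) y)))).trans (hf.bd j y hy))
      · rw [h, norm_zero]; exact hc0
    have b2 := hlip (EE 𝒟 ε f) c ((1 + |A3|) * c) hc0 (by positivity) b1 fun i y hy => by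
      have hy' := ball_subset_ball (by linarith [𝒞.r_pos i] : 2 * 𝒞.r i ≤ 3 * 𝒞.r i) hy
      exact (T i).EE_der G hε hε1 isOpen_ball hy' hf (abs_nonneg _)
        ((hA3 y (mK hy')).trans (le_abs_self _))
    have b3 : ∀ x y, ‖EE 𝒟 ε f x - EE 𝒟 ε f y‖ ≤
        (1 + |A3| + CL) * 𝒞.D ^ (1 - α) * c * 𝒞.w α x y := fun x y =>
      (b2 x y).trans ((mul_le_mul_of_nonneg_left (𝒞.lip_le_w h0 h1.le x y)
        (by positivity)).trans_eq (by ring))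
    refine ⟨⟨EE 𝒟 ε f, ⟨c, b1⟩, ⟨_, b3⟩⟩, fun _ => rfl,
      (Hol.norm_le_of hc0 (by positivity) b1 b3).trans ?_⟩
    nlinarith [mul_nonneg (abs_nonneg A2) hc0]
  · rw [UU_κ 𝒟 hf ⟨by linarith [hy.1], by linarith [hy.2]⟩, ze_one hy.2, ofReal_one, one_mul]
  · rcases desc_cases 𝒟 x with ⟨j, y, hy, rfl, h⟩ | h
    · rw [UU, h, im_ofReal_mul]
      rcases lt_or_ge y.1 6 with h2 | h2
      · rw [hf j y ⟨O_pos 𝒟 G hy hO, h2⟩, mul_zero]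
      · rw [ze_zero (by linarith), zero_mul]
    · rw [UU, h, zero_im]
  · obtain ⟨i, hi⟩ := exists_inB 𝒞 x
    exact (T i).UU_cont G isOpen_ball hi.three hi.1 rfl hx hf hc
  · have hc0 := hf.nonneg
    obtain ⟨e1, e2⟩ := (T i).UU_jet G isOpen_ball hi.three (by rwa [(𝒞.e i).left_inv hi.1]) hf
      (abs_nonneg _) ((hA2 _ (mK hi.three)).trans (le_abs_self _))
    refine ⟨e1, e2.trans (mul_le_mul_of_nonneg_right ?_ hc0)⟩
    exact le_add_of_nonneg_left (by positivity)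
  · have ha' : ‖a‖ < δ0 := ha.trans_le (min_le_right _ _)
    rcases (T i).ext_cases G hε hε1 isOpen_ball hi.three (by rwa [(𝒞.e i).left_inv hi.1]) hf.per
      with ⟨j, hy, e0, e1, e2, e3, -⟩ | ⟨φ, hφ, hm, e0, e1, e3⟩
    · rw [(𝒞.e i).left_inv hi.1] at e2
      simp only [cj, e0, e1, e2, e3]
      exact col_sol G H hε hε1 hy (fun h => hf.c2 j _ ⟨hy.1, h⟩)
        (fun h q => H.out j _ ⟨hy.1, h⟩ a ha' q) (fun h => H.quasi j _ ⟨hy.1, h⟩)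
        (fun h => h2 j _ ⟨hy.1, h⟩)
        (fun h => H.zero _ _ (par_km G j ⟨h, hy.2⟩) (km_mo G j ⟨h, hy.2⟩)) l
    · simp only [cj, e0, e1, e3]
      exact (congrArg₂ (· + ·) (H.zero _ _ hφ (Or.inl hm)) (mul_zero _)).trans (add_zero _)
  · rw [fQ i _ hi.three]
    rcases (T i).ext_cases G hε hε1 isOpen_ball hi.three (by rwa [(𝒞.e i).left_inv hi.1]) hf.per
      with ⟨j, hy, e0, e1, e2, e3, -⟩ | ⟨φ, hφ, hm, e0, e1, e3⟩
    · have hy' : (𝒞.e i x).1 ∈ Ioo (-1 : ℝ) 13 := ⟨by linarith [hy.1], hy.2⟩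
      rw [(𝒞.e i).left_inv hi.1] at e2
      rw [cj, e0, e1, e2, e3, fderiv_Kg hε hε1 op (fun h' => (locQ_K G H hy' h').diff)
        fun h' => (locQ_Km G H hy' h').diff, fderiv_K1]
      exact col_sol G H hε hε1 hy (fun h => hf.c2 j _ ⟨hy.1, h⟩)
        (fun h q => lin_out G H hδ0 ⟨hy.1, h⟩ a q) (fun _ => lin_quasi _)
        (fun h => h2 j _ ⟨hy.1, h⟩) (fun _ => map_zero (lin op (Km K j) _)) l
    · rw [cj, e0, e1, e3, fd_comp pB (locQ_op H hφ (Or.inl hm)).diff, ContinuousLinearMap.fderiv]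
      exact (congrArg₂ (· + ·) (map_zero _) (mul_zero _)).trans (add_zero _)
  · refine ckFn_of_local (WithTop.coe_le_coe.2 (le_top : (3 : ℕ∞) ≤ ⊤)) fun x => ?_
    obtain ⟨i, hi⟩ := exists_inB 𝒞 x
    refine ⟨_, 𝒞.mem i, hi.1, ?_⟩
    rcases (T i).hh_ev G hε hε1 isOpen_ball hi.three lam with h | h
    · exact ch.contDiffAt.congr_of_eventuallyEq h
    · exact contDiffAt_const.congr_of_eventuallyEq h
  · obtain ⟨i, hi⟩ := exists_inB 𝒞 x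
    refine ⟨i, hi, ?_⟩
    rw [rl_apply, lq_apply, fQ i _ hi.three]
    have n1 : ‖cj 𝒞 i (hh 𝒟 ε lam) x‖ ≤ |A1| + 1 := by
      rcases (T i).hh_ev G hε hε1 isOpen_ball hi.three lam with h | h
      · rw [cj, jet2_congr h]
        linarith [hA1 _ (mK hi.three), le_abs_self A1]
      · rw [cj, jet2_congr h, jet2_const]
        simp
    have n2 : (fderiv ℂ (q0 (p i) (𝒞.e i x)) 0 (0, ιJ (cj 𝒞 i (hh 𝒟 ε lam) x))).re ≤
        2 * M / δ * (|A1| + 1) :=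
      (re_le_norm _).trans (ContinuousLinearMap.le_of_opNorm_le_of_le _
        (fderiv_le hδ (((L0 i).hol _ hi.three).mono (hδs i))
          fun v hv => (L0 i).bd _ hi.three v (hδs i hv)) (by simpa using (norm_ιJ_le _).trans n1))
    have n3 : (ιJ (cj 𝒞 i (hh 𝒟 ε lam) x)).1 = (hh 𝒟 ε lam x : ℝ) :=
      congrArg (fun t => ((hh 𝒟 ε lam t : ℝ) : ℂ)) ((𝒞.e i).left_inv hi.1)
    have key : fderiv ℂ (q1 (p i) (𝒞.e i x)) 0 (0, ιJ (cj 𝒞 i (hh 𝒟 ε lam) x)) =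
        (ιJ (cj 𝒞 i (hh 𝒟 ε lam) x)).1 → (fderiv ℂ (q0 (p i) (𝒞.e i x)) 0
          (0, ιJ (cj 𝒞 i (hh 𝒟 ε lam) x)) + (-l : ℝ) * fderiv ℂ (q1 (p i) (𝒞.e i x)) 0
            (0, ιJ (cj 𝒞 i (hh 𝒟 ε lam) x))).re ≤ -1 := fun h => by
      rw [h, n3, add_re, re_ofReal_mul, ofReal_re]
      nlinarith [mul_le_mul_of_nonneg_left (hge x) hl0]
    rcases (T i).ext_cases G hε hε1 isOpen_ball hi.three (by rwa [(𝒞.e i).left_inv hi.1])
      (f := 0) (fun _ _ => rfl) with ⟨j, hy, e0, e1, -, -, e4⟩ | ⟨φ, -, -, -, e1, -⟩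
    · rcases lt_or_ge (𝒞.e i x).1 (2 * ε) with h | h
      · have hy' : (𝒞.e i x).1 ∈ Ioo (-1 : ℝ) 13 := ⟨by linarith [hy.1], hy.2⟩
        obtain ⟨b1, b2⟩ := hc j (𝒞.e i x) ⟨hy.1.le, by linarith⟩
        rw [cj, e0, e1, e4, fderiv_Kg hε hε1 op (fun h' => (locQ_K G H hy' h').diff)
          fun h' => (locQ_Km G H hy' h').diff, fderiv_K1]
        exact col_sup hε hε1 hl0 hM0 c1 c2 hlam c3 ⟨hy.1, h⟩ b1 b2
      · refine key ?_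
        rw [e1, fderiv_K1, K1, st_one (by linarith) h]
        simp [vq_apply, vη_apply]
    · refine key ?_
      rw [e1, ContinuousLinearMap.fderiv]
      rfl

end Vale.Agent.P218F.Core
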