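import Vale.Agent.P218F.CorePar

/-!
# The double of the core
-/

open Set Metric Filter Topology Function
open scoped ContDiff Real
open Vale.Agent.P218FT Vale.Agent.P272.K.LIN

noncomputable section

namespace Vale.Agent.P218F.Core

/-- a chart from a local homeomorphism given by germs -/
theorem exists_chart {X : Type} [TopologicalSpace X] {g : P2 → X} {h : X → P2} {y : P2}
    {Q : P2 → Prop} (hg : ∀ᶠ z in 𝓝 y, ContinuousAt g z) (hh : ∀ᶠ x in 𝓝 (g y), ContinuousAt h x)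
    (h1 : ∀ᶠ z in 𝓝 y, h (g z) = z) (h2 : ∀ᶠ x in 𝓝 (g y), g (h x) = x) (hQ : ∀ᶠ z in 𝓝 y, Q z) :
    ∃ e : OpenPartialHomeomorph X P2, y ∈ e.target ∧ (∀ z ∈ e.target, Q z) ∧ ⇑e.symm = g := by
  obtain ⟨V, hV, hVo, hy⟩ := _root_.eventually_nhds_iff.1 (hg.and (h1.and hQ))
  obtain ⟨U, hU, hUo, hx⟩ := _root_.eventually_nhds_iff.1 (hh.and h2)
  have cg : ContinuousOn g V := fun z hz => (hV z hz).1.continuousWithinAt
  have ch : ContinuousOn h U := fun x hx => (hU x hx).1.continuousWithinAt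
  exact ⟨{ toFun := h
           invFun := g
           source := U ∩ h ⁻¹' V
           target := V ∩ g ⁻¹' U
           map_source' := fun x hx => ⟨hx.2, by rw [mem_preimage, (hU x hx.1).2]; exact hx.1⟩
           map_target' := fun z hz => ⟨hz.2, by rw [mem_preimage, (hV z hz.1).2.1]; exact hz.1⟩
           left_inv' := fun x hx => (hU x hx.1).2
           right_inv' := fun z hz => (hV z hz.1).2.1
           open_source := ch.isOpen_inter_preimage hUo hVo
           open_target := cg.isOpen_inter_preimage hVo hUo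
           continuousOn_toFun := ch.mono inter_subset_left
           continuousOn_invFun := cg.mono inter_subset_left },
    ⟨hy, hx⟩, fun z hz => (hV z hz.1).2.2, rfl⟩

theorem contDiffAt_trans {X : Type} [TopologicalSpace X] {e e' : OpenPartialHomeomorph X P2} {x : X}
    (hx' : x ∈ e'.source) {g g' : P2 → X} (h1 : e.symm =ᶠ[𝓝 (e x)] g)
    (h2 : e'.symm =ᶠ[𝓝 (e' x)] g') {ρ : P2 → P2} (hρ : ContDiffAt ℝ ∞ ρ (e x))
    (h0 : ρ (e x) = e' x) (h : g =ᶠ[𝓝 (e x)] fun z => g' (ρ z)) :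
    ContDiffAt ℝ ∞ (fun y => e' (e.symm y)) (e x) := by
  have t : Tendsto ρ (𝓝 (e x)) (𝓝 (e' x)) := h0 ▸ hρ.continuousAt
  refine hρ.congr_of_eventuallyEq ?_
  filter_upwards [h1, h, t.eventually h2,
    t.eventually (e'.open_target.mem_nhds (e'.map_source hx'))] with z e1 e2 e3 e4
  rw [e1, e2, ← e3, e'.right_inv e4]

namespace DblAux

variable {S C0 : Set E3} {J : Type} {K : J → P2 → E3}

open Classical in
/-- the height of the upper sheet -/
def ht (K : J → P2 → E3) (x : E3) : ℝ :=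
  if h : ∃ p : J × P2, p.2.1 ∈ Ioo (-1 : ℝ) 7 ∧ K p.1 p.2 = x then min 6 (6 - h.choose.2.1) else 6

/-- the long collars -/
def kap (K : J → P2 → E3) (j : J) (y : P2) : E3 × ℝ :=
  (K j (6 - |y.1 - 6|, y.2), max (-6) (min 6 (6 - y.1)))

/-- the double as a subset of `E3 × ℝ` -/
def tot (C0 : Set E3) (K : J → P2 → E3) : Set (E3 × ℝ) :=
  C0 ×ˢ {6, -6} ∪ {p | ∃ j y, y.1 ∈ Icc (0 : ℝ) 12 ∧ kap K j y = p}

theorem ht_K (G : Geo S C0 K) (j : J) {y : P2} (hy : y.1 ∈ Ioo (-1 : ℝ) 7) :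
    ht K (K j y) = min 6 (6 - y.1) := by
  have h : ∃ p : J × P2, p.2.1 ∈ Ioo (-1 : ℝ) 7 ∧ K p.1 p.2 = K j y := ⟨(j, y), hy, rfl⟩
  rw [ht, dif_pos h, (G.inj _ _ _ _ h.choose_spec.1 hy h.choose_spec.2).2.1]

theorem ht_core (G : Geo S C0 K) {x : E3} (hx : x ∈ C0) : ht K x = 6 := by
  by_cases h : ∃ p : J × P2, p.2.1 ∈ Ioo (-1 : ℝ) 7 ∧ K p.1 p.2 = x
  · obtain ⟨⟨j, y⟩, h1, rfl⟩ := h
    rw [ht_K G j h1, min_eq_left]
    linarith [(G.mem j y h1).1 hx]
  · rw [ht, dif_neg h]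

theorem ht_pos (G : Geo S C0 K) {x : E3} (hx : x ∈ Mo C0 K) : 0 < ht K x := by
  rcases hx with hx | ⟨j, y, hy, rfl⟩
  · rw [ht_core G hx]; norm_num
  · rw [ht_K G j ⟨by linarith [hy.1], by linarith [hy.2]⟩]
    exact lt_min (by norm_num) (by linarith [hy.2])

theorem ht_cont (G : Geo S C0 K) : ContinuousOn (ht K) (Mo C0 K) := by
  intro x hx
  refine ContinuousWithinAt.mono (t := S) ?_ G.mo_sub
  rcases G.mo_cases hx with ⟨j, y, hy, rfl⟩ | h
  · have hy' : y.1 ∈ Ioo (-1 : ℝ) 7 := ⟨hy.1, by linarith [hy.2]⟩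
    rw [ContinuousWithinAt, ← (G.par j y hy').map_nhds G.surf, tendsto_map'_iff, ht_K G j hy']
    have h1 : Continuous fun z : P2 => min 6 (6 - z.1) := by fun_prop
    refine (h1.tendsto y).congr' ?_
    filter_upwards [continuous_fst.continuousAt.eventually (Ioo_mem_nhds hy'.1 hy'.2)] with z hz
      using (ht_K G j hz).symm
  · refine (continuousWithinAt_const (b := (6 : ℝ))).congr_of_eventuallyEq
      (h.mono fun z hz => ht_core G hz) (ht_core G (h.self_of_nhdsWithin (G.mo_sub hx)))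

theorem kap_up (G : Geo S C0 K) (j : J) {y : P2} (hy : y.1 ∈ Ioo (-1 : ℝ) 6) :
    kap K j y = (K j y, ht K (K j y)) := by
  rw [kap, ht_K G j ⟨hy.1, by linarith [hy.2]⟩, abs_of_neg (by linarith [hy.2]),
    max_eq_right (le_min (by norm_num) (by linarith [hy.2]))]
  congr 2
  ext <;> simp

theorem kap_dn (G : Geo S C0 K) (j : J) {y : P2} (hy : y.1 ∈ Ioo (6 : ℝ) 13) :
    kap K j y = (K j (12 - y.1, y.2), -ht K (K j (12 - y.1, y.2))) := by
  rw [kap, ht_K G j ⟨by linarith [hy.2], by linarith [hy.1]⟩, abs_of_pos (by linarith [hy.1]),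
    min_eq_right (by linarith [hy.1])]
  congr 1
  · congr 2; ring
  · simp only [max_def, min_def]; split_ifs <;> linarith

theorem kap_per (G : Geo S C0 K) (j : J) (y : P2) : kap K j (y.1, y.2 + 2 * π) = kap K j y := by
  simp only [kap]
  rw [G.per j (6 - |y.1 - 6|, y.2)]

theorem fold_mem {s : ℝ} (hs : s ∈ Ioo (-1 : ℝ) 13) : 6 - |s - 6| ∈ Ioo (-1 : ℝ) 7 := by
  have h1 : |s - 6| < 7 := abs_lt.2 ⟨by linarith [hs.1], by linarith [hs.2]⟩
  exact ⟨by linarith, by linarith [abs_nonneg (s - 6)]⟩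

theorem kap_cont (G : Geo S C0 K) (j : J) {y : P2} (hy : y.1 ∈ Ioo (-1 : ℝ) 13) :
    ContinuousAt (kap K j) y := by
  have h1 : Continuous fun z : P2 => ((6 - |z.1 - 6|, z.2) : P2) := by fun_prop
  exact (ContinuousAt.comp (f := fun z : P2 => ((6 - |z.1 - 6|, z.2) : P2))
    (G.par j _ (fold_mem hy)).continuousAt h1.continuousAt).prodMk (by fun_prop)

theorem kap_inj (G : Geo S C0 K) {j j' : J} {y y' : P2} (hy : y.1 ∈ Ioo (-1 : ℝ) 13)
    (hy' : y'.1 ∈ Ioo (-1 : ℝ) 13) (h : kap K j y = kap K j' y') :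
    j = j' ∧ y'.1 = y.1 ∧ ∃ k : ℤ, y'.2 = y.2 + k * (2 * π) := by
  obtain ⟨h1, h2, h3⟩ := G.inj _ _ _ _ (fold_mem hy) (fold_mem hy') (congrArg Prod.fst h)
  refine ⟨h1, ?_, h3⟩
  have h4 := congrArg Prod.snd h
  simp only [kap, max_def, min_def] at h2 h4
  rcases abs_cases (y.1 - 6) with h5 | h5 <;> rcases abs_cases (y'.1 - 6) with h6 | h6 <;>
    split_ifs at h4 <;> linarith

theorem compact_tot [Finite J] (G : Geo S C0 K) : IsCompact (tot C0 K) :=
  (G.cpt.prod (Set.toFinite _).isCompact).union (isCompact_band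
    (fun j _ hy => kap_cont G j ⟨by linarith [hy.1], by linarith [hy.2]⟩) (kap_per G))

theorem up_mem (G : Geo S C0 K) {x : E3} (hx : x ∈ Mo C0 K) : (x, ht K x) ∈ tot C0 K := by
  rcases hx with hx | ⟨j, y, hy, rfl⟩
  · exact Or.inl ⟨hx, Or.inl (ht_core G hx)⟩
  · exact Or.inr ⟨j, y, ⟨hy.1.le, by linarith [hy.2]⟩, kap_up G j ⟨by linarith [hy.1], hy.2⟩⟩

theorem dn_mem (G : Geo S C0 K) {x : E3} (hx : x ∈ Mo C0 K) : (x, -ht K x) ∈ tot C0 K := by
  rcases hx with hx | ⟨j, y, hy, rfl⟩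
  · exact Or.inl ⟨hx, Or.inr (by rw [ht_core G hx]; rfl)⟩
  · refine Or.inr ⟨j, (12 - y.1, y.2), ⟨by linarith [hy.2], by linarith [hy.1]⟩, ?_⟩
    rw [kap_dn G j ⟨by linarith [hy.2], by linarith [hy.1]⟩]
    simp

theorem kap_mem (G : Geo S C0 K) (j : J) {y : P2} (hy : y.1 ∈ Ioo (-1 : ℝ) 13) :
    kap K j y ∈ tot C0 K := by
  rcases lt_trichotomy y.1 6 with h | h | h
  · rw [kap_up G j ⟨hy.1, h⟩]; exact up_mem G (G.mem_mo j ⟨hy.1, h⟩)
  · exact Or.inr ⟨j, y, ⟨by linarith, by linarith⟩, rfl⟩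
  · rw [kap_dn G j ⟨h, hy.2⟩]
    exact dn_mem G (G.mem_mo j ⟨by linarith [hy.2], by linarith⟩)

theorem tot_cases (G : Geo S C0 K) {p : E3 × ℝ} (hp : p ∈ tot C0 K) :
    (p.1 ∈ C0 ∧ p.2 = 6) ∨ (∃ j y, y.1 ∈ Ioo (0 : ℝ) 12 ∧ kap K j y = p) ∨
      (p.1 ∈ C0 ∧ p.2 = -6) := by
  rcases hp with ⟨h1, h2 | h2⟩ | ⟨j, y, hy, rfl⟩
  · exact Or.inl ⟨h1, h2⟩
  · exact Or.inr (Or.inr ⟨h1, h2⟩)
  rcases hy.1.eq_or_lt with h0 | h0
  · have h1 : K j y ∈ C0 := (G.mem j y ⟨by linarith, by linarith⟩).2 h0.ge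
    rw [kap_up G j ⟨by linarith, by linarith⟩]
    exact Or.inl ⟨h1, ht_core G h1⟩
  rcases hy.2.eq_or_lt with h2 | h2
  · have h1 : K j (12 - y.1, y.2) ∈ C0 :=
      (G.mem j _ ⟨by linarith, by linarith⟩).2 (by linarith)
    rw [kap_dn G j ⟨by linarith, by linarith⟩]
    exact Or.inr (Or.inr ⟨h1, by rw [ht_core G h1]⟩)
  · exact Or.inr (Or.inl ⟨j, y, ⟨h0, h2⟩, rfl⟩)

/-- off the fold, points are on one of the two sheets -/
theorem tot_sheet (G : Geo S C0 K) {p : E3 × ℝ} (hp : p ∈ tot C0 K) (h : p.2 ≠ 0) :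
    p.1 ∈ Mo C0 K ∧ |p.2| = ht K p.1 := by
  rcases tot_cases G hp with ⟨h1, h2⟩ | ⟨j, y, hy, rfl⟩ | ⟨h1, h2⟩
  · exact ⟨Or.inl h1, by rw [h2, ht_core G h1]; norm_num⟩
  · rcases lt_trichotomy y.1 6 with h3 | h3 | h3
    · have h4 : y.1 ∈ Ioo (-1 : ℝ) 6 := ⟨by linarith [hy.1], h3⟩
      rw [kap_up G j h4]
      exact ⟨G.mem_mo j h4, abs_of_pos (ht_pos G (G.mem_mo j h4))⟩
    · exact absurd (by simp [kap, h3]) h
    · have h4 := G.mem_mo j (y := (12 - y.1, y.2)) ⟨by linarith [hy.2], by linarith⟩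
      rw [kap_dn G j ⟨h3, by linarith [hy.2]⟩]
      exact ⟨h4, by rw [abs_neg, abs_of_pos (ht_pos G h4)]⟩
  · exact ⟨Or.inl h1, by rw [h2, ht_core G h1]; norm_num⟩

open Classical in
/-- the inclusion, extended by a default value -/
def lift {A : Set (E3 × ℝ)} (d : A) (p : E3 × ℝ) : A := if h : p ∈ A then ⟨p, h⟩ else d

theorem lift_val {A : Set (E3 × ℝ)} (d : A) {p : E3 × ℝ} (h : p ∈ A) : (lift d p).1 = p := by
  rw [lift, dif_pos h]

theorem lift_self {A : Set (E3 × ℝ)} (d p : A) : lift d p.1 = p := Subtype.ext (lift_val d p.2)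

theorem lift_inj {A : Set (E3 × ℝ)} (d : A) {p q : E3 × ℝ} (hp : p ∈ A) (hq : q ∈ A)
    (h : lift d p = lift d q) : p = q := by
  rw [← lift_val d hp, h, lift_val d hq]

theorem lift_contOn {A : Set (E3 × ℝ)} (d : A) : ContinuousOn (lift d) A :=
  IsInducing.subtypeVal.continuousOn_iff.2 (continuousOn_id.congr fun _ hp => lift_val d hp)

variable (S) in
/-- the atlas -/
def atl (d : tot C0 K) : Set (OpenPartialHomeomorph (tot C0 K) P2) :=
  {e | ∀ y ∈ e.target, (∃ (s : ℝ) (φ : P2 → E3), |s| = 1 ∧ Par S φ y ∧ φ y ∈ Mo C0 K ∧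
    e.symm =ᶠ[𝓝 y] fun z => lift d (φ z, s * ht K (φ z))) ∨
    (y.1 = 6 ∧ ∃ j, e.symm =ᶠ[𝓝 y] fun z => lift d (kap K j z))}

theorem sheet_mem (G : Geo S C0 K) {s : ℝ} (hs : |s| = 1) {x : E3} (hx : x ∈ Mo C0 K) :
    (x, s * ht K x) ∈ tot C0 K := by
  rcases eq_or_eq_neg_of_abs_eq hs with rfl | rfl
  · rw [one_mul]; exact up_mem G hx
  · rw [neg_one_mul]; exact dn_mem G hx

theorem sheet_cont (G : Geo S C0 K) (d : tot C0 K) {s : ℝ} (hs : |s| = 1) :
    ContinuousOn (fun x => lift d (x, s * ht K x)) (Mo C0 K) :=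
  (lift_contOn d).comp (continuousOn_id.prodMk (continuousOn_const.mul (ht_cont G)))
    fun _ hx => sheet_mem G hs hx

theorem chart_sheet (G : Geo S C0 K) (d : tot C0 K) {s : ℝ} (hs : |s| = 1) {φ : P2 → E3} {y : P2}
    (h : Par S φ y) (hy : φ y ∈ Mo C0 K) :
    ∃ e ∈ atl S d, y ∈ e.target ∧ ⇑e.symm = fun z => lift d (φ z, s * ht K (φ z)) := by
  obtain ⟨ψ, h1, h2, h3⟩ := h.exists_inv G.surf
  have hm := G.mo_nhds h hy
  have c1 : Continuous fun p : tot C0 K => p.1.1 := continuous_fst.comp continuous_subtype_val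
  have c2 : Continuous fun p : tot C0 K => s * p.1.2 := by fun_prop
  have v0 := lift_val d (sheet_mem G hs hy)
  have t1 : Tendsto (fun p : tot C0 K => p.1.1) (𝓝 (lift d (φ y, s * ht K (φ y)))) (𝓝 (φ y)) := by
    simpa only [v0] using c1.tendsto (lift d (φ y, s * ht K (φ y)))
  have hss : s * s = 1 := by rw [← abs_mul_abs_self, hs, one_mul]
  have p0 : 0 < s * (lift d (φ y, s * ht K (φ y))).1.2 := by
    rw [v0, ← mul_assoc, hss, one_mul]; exact ht_pos G hy
  obtain ⟨e, e1, e2, e3⟩ := exists_chart (g := fun z => lift d (φ z, s * ht K (φ z)))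
    (h := fun p => ψ p.1.1) (y := y) (Q := fun z => Par S φ z ∧ φ z ∈ Mo C0 K)
    (by
      filter_upwards [h.eventually, hm.eventually_nhds] with z k1 k2
      exact (sheet_cont G d hs _ k2.self_of_nhds).tendsto.comp
        (tendsto_nhdsWithin_iff.2 ⟨k1.continuousAt, k2⟩))
    (by
      filter_upwards [t1.eventually h1] with p hp
      exact ContinuousAt.comp (f := fun p : tot C0 K => p.1.1) hp.continuousAt c1.continuousAt)
    (by
      filter_upwards [h2, hm] with z k1 k2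
      rw [lift_val d (sheet_mem G hs k2), k1])
    (by
      filter_upwards [t1.eventually h3, c2.continuousAt.eventually (lt_mem_nhds p0)] with p k1 k2
      obtain ⟨k3, k4⟩ := tot_sheet G p.2 fun h0 => by simp [h0] at k2
      have k5 : s * ht K p.1.1 = p.1.2 := by
        have := abs_of_pos k2
        rw [abs_mul, hs, one_mul] at this
        rw [← k4, this, ← mul_assoc, hss, one_mul]
      rw [k1 (G.mo_sub k3), k5]
      exact lift_self d p)
    (h.eventually.and hm)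
  exact ⟨e, fun z hz => Or.inl ⟨s, φ, hs, (e2 z hz).1, (e2 z hz).2, by rw [e3]⟩, e1, e3⟩

theorem kap_up_ev (G : Geo S C0 K) (d : tot C0 K) (j : J) {y : P2} (hy : y.1 ∈ Ioo (-1 : ℝ) 6) :
    (fun z => lift d (kap K j z)) =ᶠ[𝓝 y] fun z => lift d (K j z, 1 * ht K (K j z)) := by
  filter_upwards [continuous_fst.continuousAt.eventually (Ioo_mem_nhds hy.1 hy.2)] with z hz
  rw [kap_up G j hz, one_mul]

theorem kap_dn_ev (G : Geo S C0 K) (d : tot C0 K) (j : J) {y : P2} (hy : y.1 ∈ Ioo (6 : ℝ) 13) :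
    (fun z => lift d (kap K j z)) =ᶠ[𝓝 y]
      fun z => lift d (K j (12 - z.1, z.2), -1 * ht K (K j (12 - z.1, z.2))) := by
  filter_upwards [continuous_fst.continuousAt.eventually (Ioo_mem_nhds hy.1 hy.2)] with z hz
  rw [kap_dn G j hz, neg_one_mul]

theorem chart_fold (G : Geo S C0 K) (d : tot C0 K) (j : J) {y : P2} (hy : y.1 = 6) :
    ∃ e ∈ atl S d, y ∈ e.target ∧ ⇑e.symm = fun z => lift d (kap K j z) := by
  have hy7 : y.1 ∈ Ioo (-1 : ℝ) 7 := ⟨by linarith, by linarith⟩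
  obtain ⟨ψ, h1, h2, h3⟩ := (G.par j y hy7).exists_inv G.surf
  have hm : ∀ᶠ z : P2 in 𝓝 y, z.1 ∈ Ioo (5 : ℝ) 7 :=
    continuous_fst.continuousAt.eventually (Ioo_mem_nhds (by linarith) (by linarith))
  have h13 : ∀ z : P2, z.1 ∈ Ioo (5 : ℝ) 7 → z.1 ∈ Ioo (-1 : ℝ) 13 :=
    fun z hz => ⟨by linarith [hz.1], by linarith [hz.2]⟩
  have c1 : Continuous fun p : tot C0 K => p.1.1 := continuous_fst.comp continuous_subtype_val
  have c2 : Continuous fun p : tot C0 K => |p.1.2| := by fun_prop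
  have v0 : (lift d (kap K j y)).1 = (K j y, 0) := by
    rw [lift_val d (kap_mem G j (h13 y hm.self_of_nhds)), kap]
    refine Prod.ext ?_ (by simp [hy])
    simp [← hy]
  have t1 : Tendsto (fun p : tot C0 K => p.1.1) (𝓝 (lift d (kap K j y))) (𝓝 (K j y)) := by
    simpa only [v0] using c1.tendsto (lift d (kap K j y))
  have t2 : Tendsto ψ (𝓝 (K j y)) (𝓝 y) := by
    have := h1.self_of_nhds.continuousAt.tendsto
    rwa [h2.self_of_nhds] at this
  have t3 : Tendsto (fun z : P2 => ((6 - |z.1 - 6|, z.2) : P2)) (𝓝 y) (𝓝 y) := by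
    have : Continuous fun z : P2 => ((6 - |z.1 - 6|, z.2) : P2) := by fun_prop
    simpa [← hy] using this.tendsto y
  have p0 : |(lift d (kap K j y)).1.2| < 6 := by rw [v0]; norm_num
  obtain ⟨e, e1, e2, e3⟩ := exists_chart (g := fun z => lift d (kap K j z))
    (h := fun p => (6 - p.1.2, (ψ p.1.1).2)) (y := y) (Q := fun z => z.1 ∈ Ioo (5 : ℝ) 7)
    (by
      filter_upwards [hm.eventually_nhds] with z k1
      have k2 := h13 z k1.self_of_nhds
      exact (lift_contOn d _ (kap_mem G j k2)).tendsto.comp (tendsto_nhdsWithin_iff.2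
        ⟨kap_cont G j k2, k1.mono fun z' hz' => kap_mem G j (h13 z' hz')⟩))
    (by
      filter_upwards [t1.eventually h1] with p hp
      exact ContinuousAt.prodMk (by fun_prop)
        (ContinuousAt.comp (f := fun p : tot C0 K => p.1.1) hp.continuousAt c1.continuousAt).snd)
    (by
      filter_upwards [t3.eventually h2, hm] with z k1 k2
      rw [lift_val d (kap_mem G j (h13 z k2)), kap]
      simp only [k1]
      rw [min_eq_right (by linarith [k2.1]), max_eq_right (by linarith [k2.2])]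
      simp)
    (by
      filter_upwards [t1.eventually h3, (t2.comp t1).eventually hm,
        c2.continuousAt.eventually (gt_mem_nhds p0)] with p k1 k2 k3
      rcases tot_cases G p.2 with ⟨-, k4⟩ | ⟨j', y', k4, k5⟩ | ⟨-, k4⟩
      · rw [k4] at k3; norm_num at k3
      swap
      · rw [k4] at k3; norm_num at k3
      have k6 : p.1.1 = K j' (6 - |y'.1 - 6|, y'.2) := by rw [← k5]; rfl
      have k7 : p.1.2 = 6 - y'.1 := by
        rw [← k5, kap, min_eq_right (by linarith [k4.1]), max_eq_right (by linarith [k4.2])]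
      have k8 := fold_mem (s := y'.1) ⟨by linarith [k4.1], by linarith [k4.2]⟩
      have k9 := k1 (k6 ▸ (G.par j' (_, y'.2) k8).self_mem)
      have k2 : (ψ p.1.1).1 ∈ Ioo (5 : ℝ) 7 := k2
      obtain ⟨-, k10, -⟩ := G.inj _ _ _ _ ⟨by linarith [k2.1], k2.2⟩ k8 (k9.trans k6)
      have k11 : kap K j (6 - p.1.2, (ψ p.1.1).2) = p.1 := by
        refine Prod.ext ?_ ?_
        · rw [← k9, kap]
          simp only [k9, k7, sub_sub_cancel]
          rw [show 6 - |y'.1 - 6| = (ψ p.1.1).1 from k10, k9]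
        · simp only [kap, k7, sub_sub_cancel]
          rw [min_eq_right (by linarith [k4.1]), max_eq_right (by linarith [k4.2])]
      rw [k11]
      exact lift_self d p)
    hm
  refine ⟨e, fun z hz => ?_, e1, e3⟩
  have k1 := e2 z hz
  rw [e3]
  rcases lt_trichotomy z.1 6 with h | h | h
  · have k2 : z.1 ∈ Ioo (-1 : ℝ) 6 := ⟨by linarith [k1.1], h⟩
    exact Or.inl ⟨1, K j, abs_one, G.par j z ⟨k2.1, k1.2⟩, G.mem_mo j k2, kap_up_ev G d j k2⟩
  · exact Or.inr ⟨h, j, EventuallyEq.rfl⟩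
  · exact Or.inl ⟨-1, _, by simp, G.par_mirror j ⟨k1.1, by linarith [k1.2]⟩,
      G.mem_mo j ⟨by linarith [k1.2], by linarith⟩, kap_dn_ev G d j ⟨h, by linarith [k1.2]⟩⟩

theorem chart_kap (G : Geo S C0 K) (d : tot C0 K) (j : J) {y : P2} (hy : y.1 ∈ Ioo (-1 : ℝ) 13) :
    ∃ e ∈ atl S d, y ∈ e.target ∧ e.symm =ᶠ[𝓝 y] fun z => lift d (kap K j z) := by
  rcases lt_trichotomy y.1 6 with h | h | h
  · obtain ⟨e, e1, e2, e3⟩ := chart_sheet G d abs_one (G.par j y ⟨hy.1, by linarith⟩)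
      (G.mem_mo j ⟨hy.1, h⟩)
    exact ⟨e, e1, e2, e3 ▸ (kap_up_ev G d j ⟨hy.1, h⟩).symm⟩
  · obtain ⟨e, e1, e2, e3⟩ := chart_fold G d j h
    exact ⟨e, e1, e2, by rw [e3]⟩
  · obtain ⟨e, e1, e2, e3⟩ := chart_sheet G d (s := -1) (by simp)
      (G.par_mirror j ⟨by linarith, hy.2⟩) (G.mem_mo j ⟨by linarith [hy.2], by linarith⟩)
    exact ⟨e, e1, e2, e3 ▸ (kap_dn_ev G d j ⟨h, hy.2⟩).symm⟩

theorem exists_mem_source (G : Geo S C0 K) (d p : tot C0 K) : ∃ e ∈ atl S d, p ∈ e.source := by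
  by_cases h : p.1.2 = 0
  · rcases tot_cases G p.2 with ⟨-, k4⟩ | ⟨j, y, k4, k5⟩ | ⟨-, k4⟩
    · rw [k4] at h; norm_num at h
    · obtain ⟨e, e1, e2, e3⟩ := chart_kap G d j (y := y) ⟨by linarith [k4.1], by linarith [k4.2]⟩
      have := e.map_target e2
      have e4 : e.symm y = lift d (kap K j y) := e3.self_of_nhds
      rw [e4, k5, lift_self] at this
      exact ⟨e, e1, this⟩
    · rw [k4] at h; norm_num at h
  · obtain ⟨h1, h2⟩ := tot_sheet G p.2 h
    obtain ⟨φ, y, h3, h4⟩ := exists_par G.surf (G.mo_sub h1)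
    obtain ⟨s, hs, h5⟩ : ∃ s : ℝ, |s| = 1 ∧ s * ht K p.1.1 = p.1.2 := by
      rcases abs_cases p.1.2 with h6 | h6
      · exact ⟨1, abs_one, by rw [← h2, h6.1, one_mul]⟩
      · exact ⟨-1, by simp, by rw [← h2, h6.1]; ring⟩
    obtain ⟨e, e1, e2, e3⟩ := chart_sheet G d hs h3 (h4 ▸ h1)
    have := e.map_target e2
    rw [e3] at this
    simp only [h4, h5] at this
    rw [lift_self] at this
    exact ⟨e, e1, this⟩

theorem atl_trans (G : Geo S C0 K) (d : tot C0 K) {e e' : OpenPartialHomeomorph (tot C0 K) P2}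
    (he : e ∈ atl S d) (he' : e' ∈ atl S d) {x : tot C0 K} (hx : x ∈ e.source)
    (hx' : x ∈ e'.source) : ContDiffAt ℝ ∞ (fun y => e' (e.symm y)) (e x) := by
  have sheet : ∀ {e : OpenPartialHomeomorph (tot C0 K) P2} {s : ℝ} {φ : P2 → E3}, x ∈ e.source →
      |s| = 1 → φ (e x) ∈ Mo C0 K →
      (e.symm =ᶠ[𝓝 (e x)] fun z => lift d (φ z, s * ht K (φ z))) →
      x.1 = (φ (e x), s * ht K (φ (e x))) := fun {e s φ} h0 h1 h2 h3 => by
    have e4 : e.symm (e x) = lift d (φ (e x), s * ht K (φ (e x))) := h3.self_of_nhds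
    rw [← lift_val d (sheet_mem G h1 h2), ← e4, e.left_inv h0]
  have fold : ∀ {e : OpenPartialHomeomorph (tot C0 K) P2} {j : J}, x ∈ e.source → (e x).1 = 6 →
      (e.symm =ᶠ[𝓝 (e x)] fun z => lift d (kap K j z)) → x.1 = kap K j (e x) :=
    fun {e j} h0 h1 h3 => by
      have e4 : e.symm (e x) = lift d (kap K j (e x)) := h3.self_of_nhds
      rw [← lift_val d (kap_mem G j (y := e x) ⟨by linarith, by linarith⟩), ← e4, e.left_inv h0]
  have mix : ∀ {s : ℝ} {z : E3} {j : J} {y : P2}, |s| = 1 → z ∈ Mo C0 K → y.1 = 6 →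
      (z, s * ht K z) ≠ kap K j y := fun {s z j y} h1 h2 h3 h4 => by
    have h5 : s * ht K z = 0 := by simpa [kap, h3] using congrArg Prod.snd h4
    rcases mul_eq_zero.1 h5 with h6 | h6
    · simp [h6] at h1
    · exact (ht_pos G h2).ne' h6
  rcases he _ (e.map_source hx) with ⟨s, φ, a1, a2, a3, a4⟩ | ⟨a1, j, a2⟩ <;>
    rcases he' _ (e'.map_source hx') with ⟨s', φ', b1, b2, b3, b4⟩ | ⟨b1, j', b2⟩
  · have h := (sheet hx a1 a3 a4).symm.trans (sheet hx' b1 b3 b4)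
    obtain ⟨h1, h2⟩ := Prod.ext_iff.1 h
    simp only at h1 h2
    rw [← h1] at h2
    have h3 := mul_right_cancel₀ (ht_pos G a3).ne' h2
    obtain ⟨ρ, r1, r2, -, r4⟩ := b2.trans G.surf a2 h1
    refine contDiffAt_trans hx' a4 b4 r1.self_of_nhds r2 ?_
    filter_upwards [r4] with z hz
    rw [hz, h3]
  · exact absurd ((sheet hx a1 a3 a4).symm.trans (fold hx' b1 b2)) (mix a1 a3 b1)
  · exact absurd ((sheet hx' b1 b3 b4).symm.trans (fold hx a1 a2)) (mix b1 b3 a1)
  · obtain ⟨rfl, h1, k, h2⟩ := kap_inj G ⟨by linarith, by linarith⟩ ⟨by linarith, by linarith⟩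
      ((fold hx a1 a2).symm.trans (fold hx' b1 b2))
    refine contDiffAt_trans hx' a2 b2 (ρ := fun z => (z.1, z.2 + k * (2 * π)))
      (contDiffAt_fst.prodMk (contDiffAt_snd.add contDiffAt_const)) (Prod.ext h1.symm h2.symm)
      (Eventually.of_forall fun z => ?_)
    simp only [kap]
    rw [G.per_int j (6 - |z.1 - 6|, z.2)]

end DblAux

open DblAux in
theorem dbl_proof : DblStmt := by
  intro S C0 J _ K G
  obtain ⟨x0, hx0⟩ := G.ne
  let d : tot C0 K := ⟨_, up_mem G (Or.inl hx0)⟩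
  choose c hc1 hc2 using exists_mem_source G d
  let cs : ChartedSpace P2 (tot C0 K) := ⟨atl S d, c, hc2, hc1⟩
  refine ⟨tot C0 K, inferInstance, cs, inferInstance, isCompact_iff_compactSpace.1 (compact_tot G),
    ⟨fun e he e' he' x hx hx' => atl_trans G d he he' hx hx'⟩, ⟨?_⟩⟩
  have m1 : ∀ x ∈ Mo C0 K, (x, 1 * ht K x) ∈ tot C0 K := fun x hx => sheet_mem G abs_one hx
  have m2 : ∀ x ∈ Mo C0 K, (x, -1 * ht K x) ∈ tot C0 K := fun x hx => sheet_mem G (by simp) hx
  exact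
    { up := fun x => lift d (x, 1 * ht K x)
      dn := fun x => lift d (x, -1 * ht K x)
      κ := fun j y => lift d (kap K j y)
      cases := fun p => by
        rcases tot_cases G p.2 with ⟨h1, h2⟩ | ⟨j, y, h1, h2⟩ | ⟨h1, h2⟩
        · exact Or.inl ⟨_, h1, by rw [ht_core G h1, one_mul, ← h2]; exact lift_self d p⟩
        · exact Or.inr (Or.inl ⟨j, y, h1, by rw [h2]; exact lift_self d p⟩)
        · exact Or.inr (Or.inr
            ⟨_, h1, by rw [ht_core G h1, neg_one_mul, ← h2]; exact lift_self d p⟩)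
      κ_up := fun j y hy => (kap_up_ev G d j hy).self_of_nhds
      κ_dn := fun j y hy => (kap_dn_ev G d j hy).self_of_nhds
      κ_per := fun j y => by rw [kap_per G]
      κ_inj := fun j j' y y' hy hy' h =>
        kap_inj G hy hy' (lift_inj d (kap_mem G j hy) (kap_mem G j' hy') h)
      κ_eq_up := fun j y hy x hx h => by
        have := congrArg Prod.snd (lift_inj d (kap_mem G j hy) (m1 x (Or.inl hx)) h)
        simp only [kap, ht_core G hx, max_def, min_def] at this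
        split_ifs at this <;> linarith
      κ_eq_dn := fun j y hy x hx h => by
        have := congrArg Prod.snd (lift_inj d (kap_mem G j hy) (m2 x (Or.inl hx)) h)
        simp only [kap, ht_core G hx, max_def, min_def] at this
        split_ifs at this <;> linarith
      up_inj := fun x hx x' hx' h => congrArg Prod.fst (lift_inj d (m1 x hx) (m1 x' hx') h)
      dn_inj := fun x hx x' hx' h => congrArg Prod.fst (lift_inj d (m2 x hx) (m2 x' hx') h)
      up_ne := fun x hx x' hx' h => by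
        have := congrArg Prod.snd (lift_inj d (m1 x hx) (m2 x' hx') h)
        simp only at this
        linarith [ht_pos G hx, ht_pos G hx']
      up_cont := sheet_cont G d abs_one
      dn_cont := sheet_cont G d (by simp)
      chart_up := fun φ y h hy => by
        obtain ⟨e, e1, e2, e3⟩ := chart_sheet G d abs_one h hy
        exact ⟨e, e1, e2, by rw [e3]⟩
      chart_dn := fun φ y h hy => by
        obtain ⟨e, e1, e2, e3⟩ := chart_sheet G d (s := -1) (by simp) h hy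
        exact ⟨e, e1, e2, by rw [e3]⟩
      chart_κ := fun j y hy => chart_kap G d j hy }

end Vale.Agent.P218F.Core
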