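import Vale.Agent.P218F.CoreMain
import Vale.Agent.P218F.CoreDbl
import Vale.Agent.P218F.CoreBlend

/-! The core solver, with no hypothesis. -/

namespace Vale.Agent.P218F.Core

theorem core_proof : CoreSolve := core_of dbl_proof blend_proof

end Vale.Agent.P218F.Core
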