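import Vale.Agent.P218F.CoreSpec
import Vale.Agent.P218FT.Local
import Mathlib.Analysis.Calculus.InverseFunctionTheorem.ContDiff
import Mathlib.Analysis.Normed.Module.FiniteDimension
import Mathlib.Algebra.Order.ToIntervalMod

/-!
# Local parametrisations of a surface
-/

open Set Metric Filter Topology Function
open scoped ContDiff Real RealInnerProductSpace
open Vale.Agent.P218FT

noncomputable section

namespace Vale.Agent.P218F.Core

/-- smooth local inverse -/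
theorem exists_local_inverse {E F : Type} [NormedAddCommGroup E] [NormedSpace ℝ E]
    [NormedAddCommGroup F] [NormedSpace ℝ F] [FiniteDimensional ℝ E] [FiniteDimensional ℝ F]
    (hd : Module.finrank ℝ E = Module.finrank ℝ F) {Φ : E → F} {a : E}
    (hs : ∀ᶠ z in 𝓝 a, ContDiffAt ℝ ∞ Φ z) (hi : Injective (fderiv ℝ Φ a)) :
    ∃ Ψ : F → E, (∀ᶠ x in 𝓝 (Φ a), ContDiffAt ℝ ∞ Ψ x) ∧ (∀ᶠ z in 𝓝 a, Ψ (Φ z) = z) ∧
      ∀ᶠ x in 𝓝 (Φ a), Φ (Ψ x) = x := by
  have : CompleteSpace E := FiniteDimensional.complete ℝ E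
  have eqv : ∀ z, Injective (fderiv ℝ Φ z) → ∃ L : E ≃L[ℝ] F, (L : E →L[ℝ] F) = fderiv ℝ Φ z :=
    fun z hz => ⟨(LinearMap.linearEquivOfInjective (fderiv ℝ Φ z).toLinearMap hz
      hd).toContinuousLinearEquiv, by ext v; rfl⟩
  have h0 := hs.self_of_nhds
  have hi' : ∀ᶠ z in 𝓝 a, Injective (fderiv ℝ Φ z) :=
    (h0.continuousAt_fderiv (by simp)).eventually
      (ContinuousLinearMap.isOpen_injective.mem_nhds hi)
  obtain ⟨L, hL⟩ := eqv a hi
  have hD : HasFDerivAt Φ (L : E →L[ℝ] F) a := hL ▸ (h0.differentiableAt (by simp)).hasFDerivAt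
  set e := h0.toOpenPartialHomeomorph Φ hD (by simp) with he
  have ha : a ∈ e.source := h0.mem_toOpenPartialHomeomorph_source hD (by simp)
  have hΦ : (e : E → F) = Φ := rfl
  refine ⟨e.symm, ?_, e.eventually_left_inverse ha, e.eventually_right_inverse' ha⟩
  have ht : Tendsto e.symm (𝓝 (Φ a)) (𝓝 a) := e.tendsto_symm ha
  filter_upwards [ht.eventually (hs.and hi'), e.open_target.mem_nhds (e.map_source ha)]
    with x hx hx'
  obtain ⟨L', hL'⟩ := eqv _ hx.2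
  exact e.contDiffAt_symm hx' (f₀' := L')
    (hL' ▸ (hx.1.differentiableAt (by simp)).hasFDerivAt) hx.1

theorem injective_of_leftInv {E F : Type} [NormedAddCommGroup E] [NormedSpace ℝ E]
    [NormedAddCommGroup F] [NormedSpace ℝ F] {φ : E → F} {ψ : F → E} {y : E}
    (hφ : DifferentiableAt ℝ φ y) (hψ : DifferentiableAt ℝ ψ (φ y))
    (h : ∀ᶠ z in 𝓝 y, ψ (φ z) = z) : Injective (fderiv ℝ φ y) := by
  have h1 : fderiv ℝ (ψ ∘ φ) y = fderiv ℝ id y := EventuallyEq.fderiv_eq h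
  rw [fderiv_comp y hψ hφ, fderiv_id] at h1
  exact LeftInverse.injective (g := fderiv ℝ ψ (φ y)) fun v => congrArg (fun L => L v) h1

theorem det2_ne_zero {A : P2 →L[ℝ] P2} (h : Injective A) : det2 A ≠ 0 := by
  intro h0
  unfold det2 at h0
  have e : ∀ s t : ℝ, A (s, t) = s • A (1, 0) + t • A (0, 1) := fun s t => by
    rw [← map_smul, ← map_smul, ← map_add]; simp
  have h1 : ((A (0, 1)).2, -(A (1, 0)).2) = (0 : P2) := h (by
    rw [e, map_zero]; ext <;> simp <;> linarith)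
  have h2 : ((A (0, 1)).1, -(A (1, 0)).1) = (0 : P2) := h (by
    rw [e, map_zero]; ext <;> simp <;> linarith)
  have h3 : ((1, 0) : P2) = 0 := h (by
    rw [map_zero]
    simp only [Prod.mk_eq_zero, neg_eq_zero] at h1 h2
    exact Prod.ext h2.2 h1.2)
  simp at h3

variable {S : Set E3} {φ φ' : P2 → E3} {y y' : P2}

theorem Par.contDiffAt (h : Par S φ y) : ContDiffAt ℝ ∞ φ y := h.smooth.self_of_nhds

theorem Par.continuousAt (h : Par S φ y) : ContinuousAt φ y := h.contDiffAt.continuousAt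

theorem Par.differentiableAt (h : Par S φ y) : DifferentiableAt ℝ φ y :=
  h.contDiffAt.differentiableAt (by simp)

theorem Par.self_mem (h : Par S φ y) : φ y ∈ S := h.mem.self_of_nhds

theorem Par.eventually (h : Par S φ y) : ∀ᶠ z in 𝓝 y, Par S φ z := by
  have hi : ∀ᶠ z in 𝓝 y, Injective (fderiv ℝ φ z) :=
    (h.contDiffAt.continuousAt_fderiv (by simp)).eventually
      (ContinuousLinearMap.isOpen_injective.mem_nhds h.inj)
  filter_upwards [h.smooth.eventually_nhds, hi, h.mem.eventually_nhds] with z h1 h2 h3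
    using ⟨h1, h2, h3⟩

theorem Par.congr (h : Par S φ y) (he : φ =ᶠ[𝓝 y] φ') : Par S φ' y := by
  refine ⟨?_, he.fderiv_eq (𝕜 := ℝ) ▸ h.inj, ?_⟩
  · filter_upwards [h.smooth, he.eventually_nhds] with z h1 h2
      using h1.congr_of_eventuallyEq (EventuallyEq.symm h2)
  · filter_upwards [h.mem, he] with z h1 h2 using h2 ▸ h1

theorem Par.comp {ψ : P2 → P2} (h : Par S φ (ψ y)) (hs : ∀ᶠ z in 𝓝 y, ContDiffAt ℝ ∞ ψ z)
    (hi : Injective (fderiv ℝ ψ y)) : Par S (fun z => φ (ψ z)) y := by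
  have h0 := hs.self_of_nhds
  refine ⟨?_, ?_, h0.continuousAt.eventually h.mem⟩
  · filter_upwards [hs, h0.continuousAt.eventually h.smooth] with z h1 h2 using h2.comp z h1
  · have := fderiv_comp y h.differentiableAt (h0.differentiableAt (by simp))
    rw [show (fun z => φ (ψ z)) = φ ∘ ψ from rfl, this]
    exact h.inj.comp hi

/-- the tangent plane of a parametrisation is orthogonal to the normal -/
theorem Par.inner_nu (hS : IsSurf S) (h : Par S φ y) (v : P2) :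
    ⟪nu S (φ y), fderiv ℝ φ y v⟫ = 0 := by
  have hw := hS.isEqn h.self_mem
  have h1 : fderiv ℝ (eqn S (φ y) ∘ φ) y = fderiv ℝ (fun _ => (0 : ℝ)) y := by
    refine EventuallyEq.fderiv_eq ?_
    filter_upwards [h.mem, h.continuousAt.eventually hw.2.2] with z h1 h2 using h2.1 h1
  rw [fderiv_comp y (hw.1.differentiable (by simp) _) h.differentiableAt] at h1
  have h2 : fderiv ℝ (eqn S (φ y)) (φ y) (fderiv ℝ φ y v) = 0 := by
    simpa using congrArg (fun L => L v) h1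
  rw [nu, nuw, real_inner_smul_left, inner_grad, h2, mul_zero]

theorem Par.exists_inv (hS : IsSurf S) (h : Par S φ y) :
    ∃ ψ : E3 → P2, (∀ᶠ x in 𝓝 (φ y), ContDiffAt ℝ ∞ ψ x) ∧
      (∀ᶠ z in 𝓝 y, ψ (φ z) = z) ∧ ∀ᶠ x in 𝓝 (φ y), x ∈ S → φ (ψ x) = x := by
  have hw := hS.isEqn h.self_mem
  have hn := hS.norm_nu h.self_mem
  have hor := h.inner_nu hS
  set n := nu S (φ y) with hn'
  set w := eqn S (φ y)
  set Φ : P2 × ℝ → E3 := fun p => φ p.1 + p.2 • n with hΦ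
  have hΦ0 : Φ (y, 0) = φ y := by simp [hΦ]
  have hf : Tendsto (fun p : P2 × ℝ => p.1) (𝓝 (y, 0)) (𝓝 y) := continuous_fst.tendsto _
  have hs : ∀ᶠ p in 𝓝 (y, (0 : ℝ)), ContDiffAt ℝ ∞ Φ p := by
    filter_upwards [hf.eventually h.smooth] with p hp
    exact (hp.comp p contDiffAt_fst).add (contDiffAt_snd.smul contDiffAt_const)
  have hD : HasFDerivAt Φ ((fderiv ℝ φ y).comp (ContinuousLinearMap.fst ℝ P2 ℝ)
      + (ContinuousLinearMap.snd ℝ P2 ℝ).smulRight n) (y, 0) :=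
    (HasFDerivAt.comp (y, (0 : ℝ)) (g := φ) h.differentiableAt.hasFDerivAt hasFDerivAt_fst).add
      (hasFDerivAt_snd.smul_const n)
  have hi : Injective (fderiv ℝ Φ (y, 0)) := by
    rw [hD.fderiv, injective_iff_map_eq_zero]
    intro v hv
    have hv : fderiv ℝ φ y v.1 + v.2 • n = 0 := hv
    have h1 : v.2 = 0 := by
      have := congrArg (fun u => ⟪n, u⟫) hv
      simpa [inner_add_right, real_inner_smul_right, hor, hn] using this
    rw [h1, zero_smul, add_zero] at hv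
    exact Prod.ext ((injective_iff_map_eq_zero _).1 h.inj _ hv) h1
  obtain ⟨Ψ, h1, h2, h3⟩ := exists_local_inverse (by simp) hs hi
  rw [hΦ0] at h1 h3
  have hΨ0 : Ψ (φ y) = (y, 0) := hΦ0 ▸ h2.self_of_nhds
  have hΨ : Tendsto Ψ (𝓝 (φ y)) (𝓝 (y, 0)) := hΨ0 ▸ h1.self_of_nhds.continuousAt
  refine ⟨fun x => (Ψ x).1, h1.mono fun x hx => hx.fst, ?_, ?_⟩
  · have : Tendsto (fun z : P2 => (z, (0 : ℝ))) (𝓝 y) (𝓝 (y, 0)) :=
      (continuous_id.prodMk continuous_const).tendsto _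
    filter_upwards [this.eventually h2] with z hz
    have e : Φ (z, 0) = φ z := by simp [hΦ]
    rw [← e, hz]
  · have hg := hw.2.1
    have hγ : 0 < ‖gradient w (φ y)‖ := norm_pos_iff.2 hg
    have hst : HasStrictFDerivAt w (fderiv ℝ w (φ y)) (φ y) :=
      hw.1.contDiffAt.hasStrictFDerivAt (by simp)
    have h4 := (hasStrictFDerivAt_iff_isLittleO.1 hst).bound (half_pos hγ)
    have t1 : Tendsto (fun x => φ (Ψ x).1) (𝓝 (φ y)) (𝓝 (φ y)) :=
      h.continuousAt.tendsto.comp (hf.comp hΨ)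
    filter_upwards [h3, (tendsto_id.prodMk_nhds t1).eventually h4, hw.2.2, t1.eventually hw.2.2,
      (hf.comp hΨ).eventually h.mem] with x e1 e2 e3 e4 e5 hx
    have e6 : x - φ (Ψ x).1 = (Ψ x).2 • n := by
      rw [sub_eq_iff_eq_add']; exact e1.symm
    simp only [id, Function.comp] at e2 e5
    rw [e3.1 hx, e4.1 e5, e6, ← inner_grad, real_inner_smul_right, hn', nu, inner_grad_nuw hg,
      norm_smul, norm_nuw hg] at e2
    simp only [sub_zero, zero_sub, norm_neg, norm_mul, norm_norm, mul_one] at e2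
    have e7 : (Ψ x).2 = 0 := norm_eq_zero.1 (by nlinarith [norm_nonneg (Ψ x).2])
    rw [e7, zero_smul, sub_eq_zero] at e6
    exact e6.symm

theorem exists_par (hS : IsSurf S) {x : E3} (hx : x ∈ S) : ∃ φ y, Par S φ y ∧ φ y = x := by
  have hw := hS.isEqn hx
  obtain ⟨a, b, T⟩ := exists_triple (hS.norm_nu hx)
  set w := eqn S x
  set A : E3 →L[ℝ] P2 := (innerSL ℝ a).prod (innerSL ℝ b) with hA
  set F : E3 → P2 × ℝ := fun p => (A p, w p) with hF
  have hs : ContDiff ℝ ∞ F := A.contDiff.prodMk hw.1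
  have hD : HasFDerivAt F (A.prod (fderiv ℝ w x)) x :=
    A.hasFDerivAt.prodMk (hw.1.differentiable (by simp) x).hasFDerivAt
  have hi : Injective (fderiv ℝ F x) := by
    rw [hD.fderiv, injective_iff_map_eq_zero]
    intro v hv
    have hv : ((⟪a, v⟫, ⟪b, v⟫), fderiv ℝ w x v) = 0 := hv
    simp only [Prod.mk_eq_zero] at hv
    have h3 : ⟪nu S x, v⟫ = 0 := by rw [nu, nuw, real_inner_smul_left, inner_grad, hv.2, mul_zero]
    rw [T.expand v, hv.1.1, hv.1.2, h3]; simp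
  obtain ⟨G, h1, h2, h3⟩ := exists_local_inverse (by simp)
    (Eventually.of_forall fun z => hs.contDiffAt) hi
  have hF0 : F x = (A x, 0) := by simp [hF, hw.zero hx]
  have hG0 : G (A x, 0) = x := hF0 ▸ h2.self_of_nhds
  rw [hF0] at h1 h3
  have t0 : Tendsto (fun z : P2 => (z, (0 : ℝ))) (𝓝 (A x)) (𝓝 (A x, 0)) :=
    (continuous_id.prodMk continuous_const).tendsto _
  have hsm : ∀ᶠ z in 𝓝 (A x), ContDiffAt ℝ ∞ (fun z => G (z, 0)) z := by
    filter_upwards [t0.eventually h1] with z hz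
    exact hz.comp z (contDiffAt_id.prodMk contDiffAt_const)
  have t1 : Tendsto (fun z => G (z, 0)) (𝓝 (A x)) (𝓝 x) := by
    have := hsm.self_of_nhds.continuousAt.tendsto
    rwa [hG0] at this
  refine ⟨fun z => G (z, 0), A x, ⟨hsm, ?_, ?_⟩, hG0⟩
  · refine injective_of_leftInv (ψ := A) (hsm.self_of_nhds.differentiableAt (by simp))
      A.differentiableAt ?_
    filter_upwards [t0.eventually h3] with z hz using congrArg Prod.fst hz
  · filter_upwards [t0.eventually h3, t1.eventually hw.2.2] with z hz hz'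
      using hz'.2 (congrArg Prod.snd hz)

theorem par_proof : ParStmt :=
  fun _ hS => ⟨fun _ hx => exists_par hS hx, fun _ _ h => h.exists_inv hS⟩

/-- transition maps -/
theorem Par.trans (hS : IsSurf S) (h : Par S φ y) (h' : Par S φ' y') (he : φ' y' = φ y) :
    ∃ ψ : P2 → P2, (∀ᶠ z in 𝓝 y', ContDiffAt ℝ ∞ ψ z) ∧ ψ y' = y ∧ det2 (fderiv ℝ ψ y') ≠ 0 ∧
      φ' =ᶠ[𝓝 y'] fun z => φ (ψ z) := by
  obtain ⟨ψ, h1, h2, h3⟩ := h.exists_inv hS
  have t : Tendsto φ' (𝓝 y') (𝓝 (φ y)) := he ▸ h'.continuousAt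
  have hs : ∀ᶠ z in 𝓝 y', ContDiffAt ℝ ∞ (fun z => ψ (φ' z)) z := by
    filter_upwards [t.eventually h1, h'.smooth] with z e1 e2 using e1.comp z e2
  have h0 : ψ (φ' y') = y := by rw [he]; exact h2.self_of_nhds
  have h4 : φ' =ᶠ[𝓝 y'] fun z => φ (ψ (φ' z)) := by
    filter_upwards [t.eventually h3, h'.mem] with z e1 e2 using (e1 e2).symm
  refine ⟨fun z => ψ (φ' z), hs, h0, det2_ne_zero ?_, h4⟩
  have h5 := h'.inj
  have h6 : DifferentiableAt ℝ φ (ψ (φ' y')) := h0 ▸ h.differentiableAt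
  rw [h4.fderiv_eq, show (fun z => φ (ψ (φ' z))) = φ ∘ fun z => ψ (φ' z) from rfl,
    fderiv_comp y' h6 (hs.self_of_nhds.differentiableAt (by simp))] at h5
  exact Injective.of_comp (f := fderiv ℝ φ (ψ (φ' y'))) h5

/-- regularity does not depend on the parametrisation -/
theorem Par.contDiffAt_of {F : Type} [NormedAddCommGroup F] [NormedSpace ℝ F] {k : WithTop ℕ∞}
    (hS : IsSurf S) (h : Par S φ y) (h' : Par S φ' y') (he : φ' y' = φ y) (hk : k ≤ ∞) {w : E3 → F}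
    (hw : ContDiffAt ℝ k (fun z => w (φ z)) y) : ContDiffAt ℝ k (fun z => w (φ' z)) y' := by
  obtain ⟨ψ, h1, h2, -, h4⟩ := h.trans hS h' he
  have h5 : ContDiffAt ℝ k ((fun z => w (φ z)) ∘ ψ) y' :=
    ContDiffAt.comp y' (h2 ▸ hw) (h1.self_of_nhds.of_le hk)
  refine h5.congr_of_eventuallyEq ?_
  filter_upwards [h4] with z hz using congrArg w hz

theorem Par.map_nhds (hS : IsSurf S) (h : Par S φ y) : map φ (𝓝 y) = 𝓝[S] (φ y) := by
  refine le_antisymm (tendsto_nhdsWithin_iff.2 ⟨h.continuousAt, h.mem⟩) ?_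
  obtain ⟨ψ, h1, h2, h3⟩ := h.exists_inv hS
  have t : Tendsto ψ (𝓝 (φ y)) (𝓝 y) := by
    have := h1.self_of_nhds.continuousAt.tendsto
    rwa [h2.self_of_nhds] at this
  intro U hU
  have h4 : ∀ᶠ x in 𝓝 (φ y), φ (ψ x) ∈ U := t.eventually hU
  filter_upwards [nhdsWithin_le_nhds h4, nhdsWithin_le_nhds h3, self_mem_nhdsWithin]
    with x e1 e2 e3
  rwa [e2 e3] at e1

theorem Par.tendsto (h : Par S φ y) : Tendsto φ (𝓝 y) (𝓝[S] (φ y)) :=
  tendsto_nhdsWithin_iff.2 ⟨h.continuousAt, h.mem⟩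

section geo

variable {C0 : Set E3} {J : Type} {K : J → P2 → E3}

theorem Geo.per_int (G : Geo S C0 K) (j : J) (y : P2) (k : ℤ) :
    K j (y.1, y.2 + k * (2 * π)) = K j y :=
  Function.Periodic.int_mul (f := fun θ => K j (y.1, θ)) (fun θ => G.per j (y.1, θ)) k y.2

theorem Geo.mem_mo (G : Geo S C0 K) (j : J) {y : P2} (hy : y.1 ∈ Ioo (-1 : ℝ) 6) :
    K j y ∈ Mo C0 K := by
  rcases le_or_gt y.1 0 with h | h
  · exact Or.inl ((G.mem j y ⟨hy.1, by linarith⟩).2 h)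
  · exact Or.inr ⟨j, y, ⟨h, hy.2⟩, rfl⟩

theorem Geo.mo_sub (G : Geo S C0 K) : Mo C0 K ⊆ S := by
  rintro x (hx | ⟨j, y, hy, rfl⟩)
  · exact G.sub hx
  · exact (G.par j y ⟨by linarith [hy.1], by linarith [hy.2]⟩).self_mem

/-- a point of `Mo` is on a collar or in the interior of the core -/
theorem Geo.mo_cases (G : Geo S C0 K) {x : E3} (hx : x ∈ Mo C0 K) :
    (∃ j y, y.1 ∈ Ioo (-1 : ℝ) 6 ∧ K j y = x) ∨ ∀ᶠ x' in 𝓝[S] x, x' ∈ C0 := by
  rcases hx with hx | ⟨j, y, hy, rfl⟩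
  · rcases G.int x hx with ⟨j, θ, rfl⟩ | h
    · exact Or.inl ⟨j, (0, θ), ⟨by norm_num, by norm_num⟩, rfl⟩
    · exact Or.inr (eventually_nhdsWithin_iff.2 h)
  · exact Or.inl ⟨j, y, ⟨by linarith [hy.1], hy.2⟩, rfl⟩

theorem Geo.mo_nhdsWithin (G : Geo S C0 K) {x : E3} (hx : x ∈ Mo C0 K) :
    ∀ᶠ x' in 𝓝[S] x, x' ∈ Mo C0 K := by
  rcases G.mo_cases hx with ⟨j, y, hy, rfl⟩ | h
  · rw [← (G.par j y ⟨hy.1, by linarith [hy.2]⟩).map_nhds G.surf, eventually_map]
    filter_upwards [continuous_fst.continuousAt.eventually (Ioo_mem_nhds hy.1 hy.2)] with z hz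
      using G.mem_mo j hz
  · exact h.mono fun x' hx' => Or.inl hx'

theorem Geo.mo_nhds (G : Geo S C0 K) (h : Par S φ y) (hy : φ y ∈ Mo C0 K) :
    ∀ᶠ z in 𝓝 y, φ z ∈ Mo C0 K :=
  h.tendsto.eventually (G.mo_nhdsWithin hy)

/-- a continuous periodic map sends closed bands to compact sets -/
theorem isCompact_band {Y : Type} [TopologicalSpace Y] [Finite J] {f : J → P2 → Y} {a b : ℝ}
    (hc : ∀ j y, y.1 ∈ Icc a b → ContinuousAt (f j) y)
    (hp : ∀ j y, f j (y.1, y.2 + 2 * π) = f j y) :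
    IsCompact {x | ∃ j y, y.1 ∈ Icc a b ∧ f j y = x} := by
  have e : {x | ∃ j y, y.1 ∈ Icc a b ∧ f j y = x} = ⋃ j, f j '' (Icc a b ×ˢ Icc 0 (2 * π)) := by
    ext x
    simp only [mem_ofPred_eq, mem_iUnion, mem_image]
    refine exists_congr fun j => ⟨fun ⟨y, hy, h⟩ => ?_, fun ⟨y, hy, h⟩ => ⟨y, hy.1, h⟩⟩
    obtain ⟨θ, h1, h2⟩ := Function.Periodic.exists_mem_Ico₀ (f := fun θ => f j (y.1, θ))
      (fun θ => hp j (y.1, θ)) Real.two_pi_pos y.2
    exact ⟨(y.1, θ), ⟨hy, Ico_subset_Icc_self h1⟩, h2.symm.trans h⟩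
  rw [e]
  exact isCompact_iUnion fun j => (isCompact_Icc.prod isCompact_Icc).image_of_continuousOn
    fun y hy => (hc j y hy.1).continuousWithinAt

theorem Geo.isCompact_band [Finite J] (G : Geo S C0 K) {a b : ℝ} (ha : -1 < a) (hb : b < 7) :
    IsCompact {x | ∃ j y, y.1 ∈ Icc a b ∧ K j y = x} :=
  Core.isCompact_band
    (fun j y hy => (G.par j y ⟨ha.trans_le hy.1, hy.2.trans_lt hb⟩).continuousAt) G.per

theorem Geo.inner_nhds [Finite J] (G : Geo S C0 K) (h : Par S φ y) (hy : φ y ∈ C0)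
    (hK : ∀ j (y' : P2), y'.1 ∈ Icc (-1 / 2 : ℝ) 0 → K j y' ≠ φ y) :
    ∀ᶠ z in 𝓝 y, φ z ∈ C0 ∧ ∀ j (y' : P2), y'.1 ∈ Icc (-1 / 2 : ℝ) 0 → K j y' ≠ φ z := by
  have h1 : ∀ᶠ z in 𝓝 y, φ z ∈ C0 := by
    rcases G.int _ hy with ⟨j, θ, h0⟩ | h0
    · exact absurd h0.symm (hK j (0, θ) ⟨by norm_num, le_rfl⟩)
    · exact h.tendsto.eventually (eventually_nhdsWithin_iff.2 h0)
  have h2 := (G.isCompact_band (a := -1 / 2) (b := 0) (by norm_num) (by norm_num)).isClosed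
  have h3 := h.continuousAt.eventually (h2.isOpen_compl.mem_nhds
    fun ⟨j, y', h4, h5⟩ => hK j y' h4 h5)
  filter_upwards [h1, h3] with z e1 e2 using ⟨e1, fun j y' e3 e4 => e2 ⟨j, y', e3, e4⟩⟩

theorem Geo.par_mirror (G : Geo S C0 K) (j : J) {y : P2} (hy : y.1 ∈ Ioo (5 : ℝ) 13) :
    Par S (fun z => K j (12 - z.1, z.2)) y := by
  have hs : ContDiff ℝ ∞ fun z : P2 => ((12 - z.1, z.2) : P2) :=
    (contDiff_const.sub contDiff_fst).prodMk contDiff_snd
  refine Par.comp (ψ := fun z => (12 - z.1, z.2))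
    (G.par j _ ⟨by linarith [hy.2], by linarith [hy.1]⟩)
    (Eventually.of_forall fun z => hs.contDiffAt) ?_
  exact injective_of_leftInv (ψ := fun z => (12 - z.1, z.2))
    (hs.differentiable (by simp) _) (hs.differentiable (by simp) _)
    (Eventually.of_forall fun z => by simp)

end geo

end Vale.Agent.P218F.Core
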