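import Vale.Agent.P218F.CoreAbs
import Vale.Agent.P218F.CorePar
import Mathlib.Analysis.SpecialFunctions.SmoothTransition

/-! The blended operator on the double of the core. -/

open Set Metric Filter Topology Complex
open scoped NNReal ContDiff Real
open Vale.Agent.P272.K.LIN Vale.Agent.P272.K Vale.Agent.P218FT

set_option linter.unusedSectionVars false
set_option maxSynthPendingDepth 3

noncomputable section

namespace Vale.Agent.P218F.Core.Bl

/-! ### Cut-off functions -/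

/-- the smooth step from `0` at `a` to `1` at `b` -/
def st (a b s : ℝ) : ℝ := Real.smoothTransition ((s - a) / (b - a))

theorem st_zero {a b s : ℝ} (h : a < b) (hs : s ≤ a) : st a b s = 0 :=
  Real.smoothTransition.zero_of_nonpos
    (div_nonpos_of_nonpos_of_nonneg (by linarith) (by linarith))

theorem st_one {a b s : ℝ} (h : a < b) (hs : b ≤ s) : st a b s = 1 :=
  Real.smoothTransition.one_of_one_le ((one_le_div (by linarith)).2 (by linarith))

theorem st_nonneg (a b s : ℝ) : 0 ≤ st a b s := Real.smoothTransition.nonneg _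

theorem st_le (a b s : ℝ) : st a b s ≤ 1 := Real.smoothTransition.le_one _

@[fun_prop]
theorem cd_st (a b : ℝ) {n : ℕ∞} : ContDiff ℝ n (st a b) :=
  Real.smoothTransition.contDiff.comp ((contDiff_id.sub contDiff_const).div_const _)

/-- the cut-off function of the extension -/
def ze (s : ℝ) : ℝ := 1 - st 3 4 s

/-- the cut-off function of the middle part of the operator -/
def c2 (ε s : ℝ) : ℝ := st ε (2 * ε) s * (1 - st 4 5 s)

/-- the cut-off function of the one-jets -/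
def om (ε s : ℝ) : ℝ := st (ε / 2) ε s * (1 - st 5 (11 / 2) s)

/-- the profile of the supersolution -/
def h0 (ε lam s : ℝ) : ℝ := 1 - lam * s ^ 2 * (st (-ε) 0 s * (1 - st (2 * ε) (3 * ε) s))

@[fun_prop] theorem cd_ze {n : ℕ∞} : ContDiff ℝ n ze := by unfold ze; fun_prop

@[fun_prop] theorem cd_c2 (ε : ℝ) {n : ℕ∞} : ContDiff ℝ n (c2 ε) := by unfold c2; fun_prop

@[fun_prop] theorem cd_om (ε : ℝ) {n : ℕ∞} : ContDiff ℝ n (om ε) := by unfold om; fun_prop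

@[fun_prop] theorem cd_h0 (ε lam : ℝ) {n : ℕ∞} : ContDiff ℝ n (h0 ε lam) := by
  unfold h0; fun_prop

theorem ze_one {s : ℝ} (h : s ≤ 3) : ze s = 1 := by rw [ze, st_zero (by norm_num) h, sub_zero]

theorem ze_zero {s : ℝ} (h : 4 ≤ s) : ze s = 0 := by rw [ze, st_one (by norm_num) h, sub_self]

theorem c2_lo {ε s : ℝ} (hε : 0 < ε) (h : s ≤ ε) : c2 ε s = 0 := by
  rw [c2, st_zero (by linarith) h, zero_mul]

theorem c2_hi (ε : ℝ) {s : ℝ} (h : 5 ≤ s) : c2 ε s = 0 := by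
  rw [c2, st_one (a := 4) (by norm_num) h, sub_self, mul_zero]

theorem om_lo {ε s : ℝ} (hε : 0 < ε) (h : s ≤ ε / 2) : om ε s = 0 := by
  rw [om, st_zero (by linarith) h, zero_mul]

theorem om_hi (ε : ℝ) {s : ℝ} (h : 11 / 2 ≤ s) : om ε s = 0 := by
  rw [om, st_one (a := 5) (by norm_num) h, sub_self, mul_zero]

theorem om_one {ε s : ℝ} (hε : 0 < ε) (h : ε ≤ s) (h' : s ≤ 5) : om ε s = 1 := by
  rw [om, st_one (by linarith) h, st_zero (by norm_num) h']; ring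

theorem abs_om_le (ε s : ℝ) : |om ε s| ≤ 1 := by
  have h1 := st_nonneg (ε / 2) ε s
  have h2 := st_le (ε / 2) ε s
  have h3 := st_nonneg 5 (11 / 2) s
  have h4 := st_le 5 (11 / 2) s
  rw [om, abs_of_nonneg (mul_nonneg h1 (by linarith))]
  nlinarith

theorem h0_lo {ε s : ℝ} (hε : 0 < ε) (lam : ℝ) (h : s ≤ -ε) : h0 ε lam s = 1 := by
  rw [h0, st_zero (by linarith) h]; ring

theorem h0_hi {ε s : ℝ} (hε : 0 < ε) (lam : ℝ) (h : 3 * ε ≤ s) : h0 ε lam s = 1 := by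
  rw [h0, st_one (a := 2 * ε) (by linarith) h]; ring

theorem h0_mid {ε s : ℝ} (hε : 0 < ε) (lam : ℝ) (h : 0 ≤ s) (h' : s ≤ 2 * ε) :
    h0 ε lam s = 1 - lam * s ^ 2 := by
  rw [h0, st_one (by linarith) h, st_zero (by linarith) h']; ring

theorem h0_ge {ε lam : ℝ} (hε : 0 < ε) (hl : 0 ≤ lam) (h : lam * (3 * ε) ^ 2 ≤ 1 / 2) (s : ℝ) :
    1 / 2 ≤ h0 ε lam s := by
  rcases le_or_gt s (-ε) with h1 | h1
  · rw [h0_lo hε lam h1]; norm_num
  rcases le_or_gt (3 * ε) s with h2 | h2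
  · rw [h0_hi hε lam h2]; norm_num
  have h3 : s ^ 2 ≤ (3 * ε) ^ 2 := sq_le_sq' (by linarith) h2.le
  have h4 := st_nonneg (-ε) 0 s
  have h5 := st_le (-ε) 0 s
  have h6 := st_nonneg (2 * ε) (3 * ε) s
  have h7 := st_le (2 * ε) (3 * ε) s
  have h8 : st (-ε) 0 s * (1 - st (2 * ε) (3 * ε) s) ≤ 1 := by nlinarith
  have h9 := mul_le_mul_of_nonneg_left h8 (mul_nonneg hl (sq_nonneg s))
  have h10 := mul_le_mul_of_nonneg_left h3 hl
  rw [h0]; linarith

theorem ev_lt {y : P2} {a : ℝ} (h : y.1 < a) : ∀ᶠ z : P2 in 𝓝 y, z.1 < a :=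
  continuous_fst.continuousAt.eventually (gt_mem_nhds h)

theorem ev_gt {y : P2} {a : ℝ} (h : a < y.1) : ∀ᶠ z : P2 in 𝓝 y, a < z.1 :=
  continuous_fst.continuousAt.eventually (lt_mem_nhds h)

/-! ### Local holomorphy -/

section loc

variable {V W : Type} [NormedAddCommGroup V] [NormedSpace ℂ V] [NormedAddCommGroup W]
  [NormedSpace ℂ W] {α : ℝ} {R : V → Prop} {q q' : P2 → V → ℂ} {y0 : P2} {r M : ℝ}

/-- local bounds with radius `r` -/
structure LocR (α : ℝ) (R : V → Prop) (q : P2 → V → ℂ) (y0 : P2) (r M : ℝ) : Prop where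
  hol : ∀ z ∈ ball y0 r, DifferentiableOn ℂ (q z) (ball 0 r)
  bd : ∀ z ∈ ball y0 r, ∀ v ∈ ball 0 r, ‖q z v‖ ≤ M
  hld : ∀ z ∈ ball y0 r, ∀ z' ∈ ball y0 r, ∀ v ∈ ball 0 r, ‖q z v - q z' v‖ ≤ M * ‖z - z'‖ ^ α
  re : ∀ z ∈ ball y0 r, ∀ v ∈ ball 0 r, R v → (q z v).im = 0

/-- local bounds -/
def LocQ (α : ℝ) (R : V → Prop) (q : P2 → V → ℂ) (y0 : P2) : Prop :=
  ∃ r > 0, ∃ M, 0 ≤ M ∧ LocR α R q y0 r M

theorem LocR.mono (h : LocR α R q y0 r M) {r' M' : ℝ} (hr : r' ≤ r) (hM : M ≤ M') :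
    LocR α R q y0 r' M' where
  hol z hz := (h.hol z (ball_subset_ball hr hz)).mono (ball_subset_ball hr)
  bd z hz v hv := (h.bd z (ball_subset_ball hr hz) v (ball_subset_ball hr hv)).trans hM
  hld z hz z' hz' v hv := (h.hld z (ball_subset_ball hr hz) z' (ball_subset_ball hr hz') v
    (ball_subset_ball hr hv)).trans (mul_le_mul_of_nonneg_right hM (by positivity))
  re z hz v hv := h.re z (ball_subset_ball hr hz) v (ball_subset_ball hr hv)

theorem LocR.add {M' : ℝ} (h : LocR α R q y0 r M) (h' : LocR α R q' y0 r M') :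
    LocR α R (fun z v => q z v + q' z v) y0 r (M + M') where
  hol z hz := (h.hol z hz).add (h'.hol z hz)
  bd z hz v hv := norm_add_le_of_le (h.bd z hz v hv) (h'.bd z hz v hv)
  hld z hz z' hz' v hv := by
    rw [add_sub_add_comm, add_mul]
    exact norm_add_le_of_le (h.hld z hz z' hz' v hv) (h'.hld z hz z' hz' v hv)
  re z hz v hv hR := by rw [add_im, h.re z hz v hv hR, h'.re z hz v hv hR, add_zero]

theorem LocR.mul (h : LocR α R q y0 r M) (hM : 0 ≤ M) {c : P2 → ℝ} {C : ℝ} (hC : 0 ≤ C)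
    (hc : ∀ z ∈ ball y0 r, ‖c z‖ ≤ C ∧ ∀ z' ∈ ball y0 r, ‖c z - c z'‖ ≤ C * ‖z - z'‖ ^ α) :
    LocR α R (fun z v => (c z : ℂ) * q z v) y0 r (2 * C * M) where
  hol z hz := (h.hol z hz).const_mul _
  bd z hz v hv := by
    rw [norm_mul, norm_real]
    have := mul_le_mul (hc z hz).1 (h.bd z hz v hv) (norm_nonneg _) hC
    nlinarith [mul_nonneg hC hM]
  hld z hz z' hz' v hv := by
    have e : (c z : ℂ) * q z v - c z' * q z' v =
        c z * (q z v - q z' v) + ((c z - c z' : ℝ) : ℂ) * q z' v := by push_cast; ring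
    rw [e]
    refine (norm_add_le _ _).trans ?_
    rw [norm_mul, norm_mul, norm_real, norm_real]
    have h1 := mul_le_mul (hc z hz).1 (h.hld z hz z' hz' v hv) (norm_nonneg _) hC
    have h2 := mul_le_mul ((hc z hz).2 z' hz') (h.bd z' hz' v hv) (norm_nonneg _) (by positivity)
    linarith
  re z hz v hv hR := by rw [im_ofReal_mul, h.re z hz v hv hR, mul_zero]

theorem loc_lip {E : Type} [NormedAddCommGroup E] [NormedSpace ℝ E] (h0 : 0 < α) (h1 : α < 1)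
    {f : P2 → E} (hf : ContDiffAt ℝ 1 f y0) : ∃ r > 0, ∃ C, 0 ≤ C ∧ ∀ z ∈ ball y0 r,
      ‖f z‖ ≤ C ∧ ∀ z' ∈ ball y0 r, ‖f z - f z'‖ ≤ C * ‖z - z'‖ ^ α := by
  obtain ⟨L, t, ht, hL⟩ := hf.exists_lipschitzOnWith
  obtain ⟨r, hr, hs⟩ := Metric.mem_nhds_iff.1 (inter_mem ht (ball_mem_nhds y0 (half_pos one_pos)))
  have hd : ∀ z ∈ ball y0 r, ∀ z' ∈ ball y0 r, ‖z - z'‖ ≤ 1 := fun z hz z' hz' => by
    have := dist_triangle_right z z' y0
    have := mem_ball.1 (hs hz).2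
    have := mem_ball.1 (hs hz').2
    rw [← dist_eq_norm]; linarith
  have hl : ∀ z ∈ ball y0 r, ∀ z' ∈ ball y0 r, ‖f z - f z'‖ ≤ L * ‖z - z'‖ := fun z hz z' hz' => by
    simpa only [dist_eq_norm] using hL.dist_le_mul z (hs hz).1 z' (hs hz').1
  refine ⟨r, hr, ‖f y0‖ + L, by positivity, fun z hz => ⟨?_, fun z' hz' => (hl z hz z' hz').trans ?_⟩⟩
  · have h3 := hl z hz y0 (mem_ball_self hr)
    have h4 := hd z hz y0 (mem_ball_self hr)
    have := norm_le_norm_add_norm_sub' (f z) (f y0)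
    nlinarith [L.2]
  · have h3 := Real.rpow_le_rpow_of_exponent_ge' (norm_nonneg (z - z')) (hd z hz z' hz') h0.le h1.le
    rw [Real.rpow_one] at h3
    exact mul_le_mul (le_add_of_nonneg_left (norm_nonneg _)) h3 (norm_nonneg _) (by positivity)

theorem LocQ.add (h : LocQ α R q y0) (h' : LocQ α R q' y0) :
    LocQ α R (fun z v => q z v + q' z v) y0 := by
  obtain ⟨r, hr, M, hM, h⟩ := h
  obtain ⟨r', hr', M', hM', h'⟩ := h'
  exact ⟨min r r', lt_min hr hr', M + M', by positivity,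
    (h.mono (min_le_left _ _) le_rfl).add (h'.mono (min_le_right _ _) le_rfl)⟩

theorem LocQ.lin (L : V →L[ℂ] ℂ) (hL : ∀ v, R v → (L v).im = 0) :
    LocQ α R (fun _ v => L v) y0 :=
  ⟨1, one_pos, ‖L‖, norm_nonneg _, fun _ _ => L.differentiable.differentiableOn,
    fun _ _ v hv => (L.le_of_opNorm_le_of_le le_rfl (mem_ball_zero_iff.1 hv).le).trans_eq (mul_one _),
    fun _ _ _ _ _ _ => by rw [sub_self, norm_zero]; positivity, fun _ _ v _ => hL v⟩

theorem LocQ.cut (h0 : 0 < α) (h1 : α < 1) {c : P2 → ℝ} (hc : ContDiff ℝ 1 c)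
    (h : LocQ α R q y0 ∨ ∀ᶠ z in 𝓝 y0, c z = 0) :
    LocQ α R (fun z v => (c z : ℂ) * q z v) y0 := by
  rcases h with ⟨r, hr, M, hM, h⟩ | h
  · obtain ⟨r', hr', C, hC, h'⟩ := loc_lip h0 h1 (hc.contDiffAt (x := y0))
    refine ⟨min r r', lt_min hr hr', 2 * C * M, by positivity,
      (h.mono (min_le_left _ _) le_rfl).mul hM hC fun z hz => ?_⟩
    have hs := ball_subset_ball (x := y0) (min_le_right r r')
    exact ⟨(h' z (hs hz)).1, fun z' hz' => (h' z (hs hz)).2 z' (hs hz')⟩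
  · obtain ⟨r, hr, hs⟩ := Metric.mem_nhds_iff.1 h
    have e : ∀ z ∈ ball y0 r, c z = 0 := fun z hz => hs hz
    refine ⟨r, hr, 0, le_rfl, fun z hz => ?_, fun z hz v _ => ?_, fun z hz z' hz' v _ => ?_,
      fun z hz v _ _ => ?_⟩
    · simp only [e z hz, ofReal_zero, zero_mul]; exact differentiableOn_const _
    · simp [e z hz]
    · simp [e z hz, e z' hz']
    · simp [e z hz]

theorem LocQ.comp {R' : W → Prop} {p : P2 → W → ℂ} (h : LocQ α R' p y0) {T : P2 → V →L[ℂ] W}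
    (hT : ∃ r > 0, ∃ C, 0 ≤ C ∧ ∀ z ∈ ball y0 r,
      ‖T z‖ ≤ C ∧ ∀ z' ∈ ball y0 r, ‖T z - T z'‖ ≤ C * ‖z - z'‖ ^ α)
    (hR : ∀ z v, R v → R' (T z v)) : LocQ α R (fun z v => p z (T z v)) y0 := by
  obtain ⟨r, hr, M, hM, h⟩ := h
  obtain ⟨r', hr', C, hC, hT⟩ := hT
  set ρ := min (min r r') (min 1 (r / 2 / (C + 1))) with hρ
  have s1 : ball y0 ρ ⊆ ball y0 r := ball_subset_ball ((min_le_left _ _).trans (min_le_left _ _))
  have s2 : ball y0 ρ ⊆ ball y0 r' := ball_subset_ball ((min_le_left _ _).trans (min_le_right _ _))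
  have m1 : ∀ z ∈ ball y0 ρ, ∀ v ∈ ball (0 : V) ρ, T z v ∈ ball (0 : W) (r / 2) := by
    intro z hz v hv
    have h1 : ‖v‖ < r / 2 / (C + 1) :=
      (mem_ball_zero_iff.1 hv).trans_le ((min_le_right _ _).trans (min_le_right _ _))
    rw [lt_div_iff₀ (by positivity)] at h1
    have h2 := (T z).le_of_opNorm_le (hT z (s2 hz)).1 v
    rw [mem_ball_zero_iff]
    nlinarith [norm_nonneg v]
  have m2 : ∀ z ∈ ball y0 ρ, ∀ v ∈ ball (0 : V) ρ, T z v ∈ ball (0 : W) r := fun z hz v hv =>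
    ball_subset_ball (by linarith) (m1 z hz v hv)
  refine ⟨ρ, by positivity, M + 2 * M / (r / 2) * C, by positivity, fun z hz => ?_,
    fun z hz v hv => ?_, fun z hz z' hz' v hv => ?_, fun z hz v hv hv' => ?_⟩
  · exact (h.hol z (s1 hz)).comp (T z).differentiable.differentiableOn (m2 z hz)
  · exact (h.bd z (s1 hz) _ (m2 z hz v hv)).trans (le_add_of_nonneg_right (by positivity))
  · have h1 := h.hld z (s1 hz) z' (s1 hz') _ (m2 z hz v hv)
    have e : 2 * (r / 2) = r := by ring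
    have h2 := lip_half (f := p z') (a := 0) (r := r / 2) (M := M) (by rw [e]; exact h.hol z' (s1 hz'))
      (by rw [e]; exact h.bd z' (s1 hz')) (m1 z hz v hv) (m1 z' hz' v hv)
    have h3 : ‖T z v - T z' v‖ ≤ C * ‖z - z'‖ ^ α * 1 :=
      (T z - T z').le_of_opNorm_le_of_le ((hT z (s2 hz)).2 z' (s2 hz'))
        ((mem_ball_zero_iff.1 hv).le.trans ((min_le_right _ _).trans (min_le_left _ _)))
    have h4 := mul_le_mul_of_nonneg_left h3 (by positivity : 0 ≤ 2 * M / (r / 2))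
    have h5 := norm_sub_le_norm_sub_add_norm_sub (p z (T z v)) (p z' (T z v)) (p z' (T z' v))
    linarith
  · exact h.re z (s1 hz) _ (m2 z hz v hv) (hR z v hv')

theorem LocQ.comp' {R' : W → Prop} {p : P2 → W → ℂ} (h : LocQ α R' p y0) (T : V →L[ℂ] W)
    (hR : ∀ v, R v → R' (T v)) : LocQ α R (fun z v => p z (T v)) y0 :=
  h.comp (T := fun _ => T) ⟨1, one_pos, ‖T‖, norm_nonneg _, fun _ _ => ⟨le_rfl, fun _ _ => by
    rw [sub_self, norm_zero]; positivity⟩⟩ fun _ => hR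

theorem LocQ.diff (h : LocQ α R q y0) : DifferentiableAt ℂ (q y0) 0 := by
  obtain ⟨r, hr, M, -, h⟩ := h
  exact (h.hol y0 (mem_ball_self hr)).differentiableAt (ball_mem_nhds _ hr)

theorem LocQ.cont (h0 : 0 < α) (h : LocQ α R q y0) :
    ContinuousAt (fun z => fderiv ℂ (q z) 0) y0 := by
  obtain ⟨r, hr, M, -, h⟩ := h
  have h1 : Tendsto (fun z : P2 => 2 * (M * ‖z - y0‖ ^ α) / r) (𝓝 y0) (𝓝 0) := by
    have h2 : Continuous fun z : P2 => 2 * (M * ‖z - y0‖ ^ α) / r :=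
      (continuous_const.mul (continuous_const.mul ((continuous_id.sub
        continuous_const).norm.rpow_const fun _ => Or.inr h0.le))).div_const _
    simpa [Real.zero_rpow h0.ne'] using h2.tendsto y0
  rw [ContinuousAt, tendsto_iff_norm_sub_tendsto_zero]
  refine squeeze_zero' (Eventually.of_forall fun _ => norm_nonneg _) ?_ h1
  filter_upwards [ball_mem_nhds y0 hr] with z hz
  have hy := mem_ball_self (x := y0) hr
  rw [← fderiv_fun_sub ((h.hol z hz).differentiableAt (ball_mem_nhds _ hr))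
    ((h.hol y0 hy).differentiableAt (ball_mem_nhds _ hr))]
  exact fderiv_le hr ((h.hol z hz).sub (h.hol y0 hy)) (h.hld z hz y0 hy)

theorem hasFDerivAt_cut {F : W → ℂ} {c : ℝ} (T : V →L[ℂ] W) (h : DifferentiableAt ℂ F 0 ∨ c = 0) :
    HasFDerivAt (fun v => (c : ℂ) * F (T v)) ((c : ℂ) • (fderiv ℂ F 0).comp T) 0 := by
  rcases h with h | rfl
  · have h1 : HasFDerivAt F (fderiv ℂ F 0) (T 0) := by rw [map_zero]; exact h.hasFDerivAt
    exact (h1.comp 0 T.hasFDerivAt).const_mul _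
  · simpa using hasFDerivAt_const (0 : ℂ) (0 : V)

end loc

/-! ### Jets -/

theorem J2_ext {q q' : J2 P2 ℂ} (h0 : q.1 = q'.1) (h1 : ∀ u, q.2.1 u = q'.2.1 u)
    (h2 : ∀ u v, q.2.2 u v = q'.2.2 u v) : q = q' :=
  Prod.ext h0 (Prod.ext (ContinuousLinearMap.ext h1)
    (ContinuousLinearMap.ext fun u => ContinuousLinearMap.ext (h2 u)))

theorem J2_le (q : J2 P2 ℂ) :
    ‖q.1‖ ≤ ‖q‖ ∧ (∀ u, ‖q.2.1 u‖ ≤ ‖q‖ * ‖u‖) ∧ ∀ u v, ‖q.2.2 u v‖ ≤ ‖q‖ * ‖u‖ * ‖v‖ := by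
  have h1 : ‖q.2.1‖ ≤ ‖q‖ := (norm_fst_le q.2).trans (norm_snd_le q)
  have h2 : ‖q.2.2‖ ≤ ‖q‖ := (norm_snd_le q.2).trans (norm_snd_le q)
  refine ⟨norm_fst_le q, fun u => q.2.1.le_of_opNorm_le h1 u, fun u v => ?_⟩
  exact (q.2.2.le_opNorm₂ u v).trans (by gcongr)

theorem norm_smulJ_le (a q : J2 P2 ℂ) : ‖a.smul q‖ ≤ 4 * ‖a‖ * ‖q‖ := by
  obtain ⟨a0, a1, a2⟩ := J2_le a
  obtain ⟨q0, q1, q2⟩ := J2_le q
  have ha := norm_nonneg a
  have hq := norm_nonneg q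
  have k : ∀ (c x : ℂ) (s t : ℝ), ‖c‖ ≤ s → ‖x‖ ≤ t → ‖c • x‖ ≤ s * t := fun c x s t h1 h2 =>
    (norm_smul c x).le.trans (mul_le_mul h1 h2 (norm_nonneg _) ((norm_nonneg _).trans h1))
  refine norm_prod_le_iff.2 ⟨?_, norm_prod_le_iff.2
    ⟨ContinuousLinearMap.opNorm_le_bound _ (by positivity) fun u => ?_,
      ContinuousLinearMap.opNorm_le_bound₂ _ (by positivity) fun u v => ?_⟩⟩
  · rw [J2.smul_fst]
    nlinarith [k _ _ _ _ a0 q0, mul_nonneg ha hq]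
  · rw [J2.smul_one]
    refine (norm_add_le _ _).trans ?_
    nlinarith [k _ _ _ _ a0 (q1 u), k _ _ _ _ (a1 u) q0,
      mul_nonneg (mul_nonneg ha hq) (norm_nonneg u)]
  · rw [J2.smul_two]
    refine (norm_add_le _ _).trans ((add_le_add_left (norm_add₃_le) _).trans ?_)
    nlinarith [k _ _ _ _ a0 (q2 u v), k _ _ _ _ (a1 u) (q1 v), k _ _ _ _ (a1 v) (q1 u),
      k _ _ _ _ (a2 u v) q0]

/-- multiplication with a fixed jet -/
def mulJ (a : J2 P2 ℂ) : J2 P2 ℂ →L[ℂ] J2 P2 ℂ :=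
  LinearMap.mkContinuous
    { toFun := fun q => a.smul q
      map_add' := fun q q' => J2_ext (by simp [J2.smul_fst, mul_add])
        (fun u => by simp [J2.smul_one]; ring) fun u v => by simp [J2.smul_two]; ring
      map_smul' := fun c q => J2_ext (by simp [J2.smul_fst]; ring)
        (fun u => by simp [J2.smul_one]; ring) fun u v => by simp [J2.smul_two]; ring }
    (4 * ‖a‖) fun q => norm_smulJ_le a q

theorem jet2_shift {V : Type} [NormedAddCommGroup V] [NormedSpace ℝ V] {f : P2 → V}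
    (h : ∀ z : P2, f (z.1, z.2 + 2 * π) = f z) (y : P2) :
    jet2 f (y.1, y.2 + 2 * π) = jet2 f y := by
  have e : ∀ z : P2, ((z.1, z.2 + 2 * π) : P2) = z + (0, 2 * π) := fun z => by ext <;> simp
  simp only [e] at h ⊢
  have h1 : ∀ z, fderiv ℝ f (z + (0, 2 * π)) = fderiv ℝ f z := fun z => by
    rw [← fderiv_comp_add_right]; simp only [h]
  unfold jet2
  rw [h, h1, ← fderiv_comp_add_right]
  simp only [h1]

theorem continuous_jet2 {V : Type} [NormedAddCommGroup V] [NormedSpace ℝ V] {f : P2 → V}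
    (hf : ContDiff ℝ 3 f) : ContDiff ℝ 1 (jet2 f) :=
  (hf.of_le (by norm_num)).prodMk ((hf.fderiv_right (m := 1) (by norm_num)).prodMk
    ((hf.fderiv_right (m := 2) (by norm_num)).fderiv_right (m := 1) (by norm_num)))

/-- the jet of the cut-off function of the extension -/
def zj (y : P2) : J2 P2 ℂ := jet2 (fun z : P2 => (ze z.1 : ℂ)) y

theorem cd_zeC : ContDiff ℝ 3 fun z : P2 => (ze z.1 : ℂ) :=
  ofRealCLM.contDiff.comp ((cd_ze (n := 3)).comp contDiff_fst)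

theorem reJ_zj (y : P2) : ReJ (zj y) := by
  rw [zj, jet2_ofReal (a := fun z : P2 => ze z.1) ((cd_ze (n := 2)).comp contDiff_fst).contDiffAt]
  exact reJ_ιJ _

theorem jet_sq (lam : ℝ) (y : P2) : jet2 (fun z : P2 => 1 - lam * z.1 ^ 2) y =
    (1 - lam * y.1 ^ 2, (-2 * lam * y.1) • ContinuousLinearMap.fst ℝ ℝ ℝ,
      (-2 * lam) • (ContinuousLinearMap.fst ℝ ℝ ℝ).smulRight (ContinuousLinearMap.fst ℝ ℝ ℝ)) := by
  have h1 : fderiv ℝ (fun z : P2 => 1 - lam * z.1 ^ 2) =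
      fun z => (-2 * lam * z.1) • ContinuousLinearMap.fst ℝ ℝ ℝ := by
    funext z
    have := (((hasFDerivAt_fst (𝕜 := ℝ) (p := z)).pow 2).const_mul lam).const_sub 1
    rw [this.fderiv]
    ext
    · simp; ring
    · simp
  have h2 := ((hasFDerivAt_fst (𝕜 := ℝ) (p := y)).const_mul (-2 * lam)).smul_const
    (ContinuousLinearMap.fst ℝ ℝ ℝ)
  unfold jet2
  rw [h1, h2.fderiv]
  refine Prod.ext rfl (Prod.ext rfl ?_)
  ext <;> simp

/-! ### The operator on the long collars -/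

section collar

variable {ι J : Type} [Fintype ι]

/-- the arguments of the blended operator -/
abbrev VV (ι : Type) : Type := Fib ι × J2 P2 ℂ

/-- the arguments of the operator -/
abbrev WW (ι : Type) : Type := (ι → ℂ) × J2 P2 ℂ

/-- real arguments -/
def RV (v : VV ι) : Prop := ReF v.1 ∧ ReJ v.2

/-- real arguments -/
def RW (v : WW ι) : Prop := IsRe v.1 ∧ ReJ v.2

open ContinuousLinearMap in
/-- `(a, q)` -/
def pA : VV ι →L[ℂ] WW ι := ((snd ℂ _ _).comp (fst ℂ _ _)).prod (snd ℂ _ _)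

open ContinuousLinearMap in
/-- `(0, q)` -/
def pB : VV ι →L[ℂ] WW ι := (inr ℂ _ _).comp (snd ℂ _ _)

open ContinuousLinearMap in
/-- the frozen one-jet -/
def e0 : VV ι →L[ℂ] J2 P2 ℂ :=
  ((fst ℂ _ _).comp ((fst ℂ _ _).comp (fst ℂ _ _))).prod
    ((inl ℂ _ _).comp ((snd ℂ _ _).comp ((fst ℂ _ _).comp (fst ℂ _ _))))

open ContinuousLinearMap in
/-- the part of order two -/
def two : J2 P2 ℂ →L[ℂ] J2 P2 ℂ := (inr ℂ _ _).comp ((inr ℂ _ _).comp ((snd ℂ _ _).comp (snd ℂ _ _)))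

open ContinuousLinearMap in
/-- `(0, η, 0)` -/
def p0 : VV ι →L[ℂ] WW ι := (inr ℂ _ _).comp e0

open ContinuousLinearMap in
/-- `(0, η, q₂ - rest)` -/
def pT (a : J2 P2 ℂ) : VV ι →L[ℂ] WW ι :=
  (inr ℂ _ _).comp (e0 + two.comp (snd ℂ _ _ - (mulJ a).comp e0))

/-- the flat Laplacian -/
def lap : VV ι →L[ℂ] ℂ :=
  LinearMap.mkContinuous
    { toFun := fun v => v.2.2.2 (1, 0) (1, 0) + v.2.2.2 (0, 1) (0, 1)
      map_add' := fun v v' => by simp; ring
      map_smul' := fun c v => by simp; ring } 2 fun v => by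
    have h1 := (J2_le v.2).2.2 (1, 0) (1, 0)
    have h2 := (J2_le v.2).2.2 (0, 1) (0, 1)
    have h3 := norm_snd_le v
    simp only [Prod.norm_mk, norm_one, norm_zero, zero_le_one, max_eq_left, max_eq_right,
      mul_one] at h1 h2
    exact (norm_add_le_of_le h1 h2).trans (by linarith)

open ContinuousLinearMap in
/-- the value -/
def vq : VV ι →L[ℂ] ℂ := (fst ℂ _ _).comp (snd ℂ _ _)

open ContinuousLinearMap in
/-- the frozen value -/
def vη : VV ι →L[ℂ] ℂ := (fst ℂ _ _).comp ((fst ℂ _ _).comp (fst ℂ _ _))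

theorem pA_apply (v : VV ι) : pA v = (v.1.2, v.2) := rfl
theorem pB_apply (v : VV ι) : pB v = (0, v.2) := rfl
theorem p0_apply (v : VV ι) : p0 v = (0, v.1.1.1, v.1.1.2, 0) := rfl
theorem lap_apply (v : VV ι) : lap v = v.2.2.2 (1, 0) (1, 0) + v.2.2.2 (0, 1) (0, 1) := rfl
theorem vq_apply (v : VV ι) : vq v = v.2.1 := rfl
theorem vη_apply (v : VV ι) : vη v = v.1.1.1 := rfl

theorem pT_apply (a : J2 P2 ℂ) (v : VV ι) : pT a v =
    (0, v.1.1.1, v.1.1.2, v.2.2.2 - (a.smul (v.1.1.1, v.1.1.2, 0)).2.2) :=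
  Prod.ext rfl (Prod.ext (add_zero _) (Prod.ext (add_zero _) (zero_add _)))

theorem pT_zero (a q : J2 P2 ℂ) : pT a ((0 : Fib ι), q) = (0, 0, 0, q.2.2) := by
  rw [pT_apply]
  have : a.smul ((0 : ℂ), (0 : P2 →L[ℝ] ℂ), (0 : P2 →L[ℝ] P2 →L[ℝ] ℂ)) = 0 := (mulJ a).map_zero
  simp [this]

theorem norm_pT_sub (a a' : J2 P2 ℂ) : ‖(pT a : VV ι →L[ℂ] WW ι) - pT a'‖ ≤ 4 * ‖a - a'‖ := by
  refine ContinuousLinearMap.opNorm_le_bound _ (by positivity) fun v => ?_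
  have h1 : pT a v - pT a' v = (0, 0, 0, -((a - a').smul (e0 v)).2.2) := by
    rw [pT_apply, pT_apply]
    refine Prod.ext (sub_self _) (J2_ext (sub_self _) (fun u => by simp) fun u w => ?_)
    simp [J2.smul_two, e0]
    ring
  have h2 : ‖e0 v‖ ≤ ‖v‖ := by
    have h3 : ‖v.1.1‖ ≤ ‖v‖ := (norm_fst_le _).trans (norm_fst_le v)
    exact max_le ((norm_fst_le v.1.1).trans h3) (max_le ((norm_snd_le v.1.1).trans h3)
      (norm_zero.trans_le (norm_nonneg _)))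
  have h4 : ‖((a - a').smul (e0 v)).2.2‖ ≤ 4 * ‖a - a'‖ * ‖v‖ :=
    ((norm_snd_le _).trans ((norm_snd_le _).trans (norm_smulJ_le _ _))).trans (by gcongr)
  rw [_root_.sub_apply, h1]
  simpa using h4

theorem re_zero : ReJ (0 : J2 P2 ℂ) := ⟨rfl, fun _ => rfl, fun _ _ => rfl⟩

theorem RV.pA {v : VV ι} (h : RV v) : RW (pA v) := ⟨h.1.2.2, h.2⟩
theorem RV.pB {v : VV ι} (h : RV v) : RW (pB v) := ⟨fun _ => rfl, h.2⟩
theorem RV.p0 {v : VV ι} (h : RV v) : RW (p0 v) :=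
  ⟨fun _ => rfl, h.1.1, h.1.2.1, fun _ _ => rfl⟩

theorem RV.pT {v : VV ι} (h : RV v) {a : J2 P2 ℂ} (ha : ReJ a) : RW (pT a v) := by
  rw [pT_apply]
  refine ⟨fun _ => rfl, h.1.1, h.1.2.1, fun u w => ?_⟩
  simp [J2.smul_two, h.1.1, h.1.2.1, h.2.2.2, ha.2.1, ha.2.2]

/-- the mirrored collar chart -/
def Km (K : J → P2 → E3) (j : J) (z : P2) : E3 := K j (12 - z.1, z.2)

/-- the principal part of the operator on the collars -/
def Kg (F : (P2 → E3) → P2 → WW ι → ℂ) (K : J → P2 → E3) (ε : ℝ) (j : J) (y : P2) (v : VV ι) :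
    ℂ :=
  ((1 - st ε (2 * ε) y.1 : ℝ) : ℂ) * F (K j) y (pA v) + (c2 ε y.1 : ℝ) * F (K j) y (pT (zj y) v) +
    ((c2 ε y.1 * (ze y.1 - 1) : ℝ) : ℂ) * F (K j) y (p0 v) +
    ((st 4 5 y.1 * (1 - st 7 8 y.1) : ℝ) : ℂ) * lap v + (st 7 8 y.1 : ℝ) * F (Km K j) y (pB v)

/-- the terms of order zero -/
def K1 (ε : ℝ) (y : P2) (v : VV ι) : ℂ :=
  (st ε (2 * ε) y.1 : ℝ) * vq v + ((-(st ε (2 * ε) y.1 * ze y.1) : ℝ) : ℂ) * vη v

/-- the operator -/
def oq (op : Op ι) (φ : P2 → E3) (y : P2) (v : WW ι) : ℂ := op v.1 φ y v.2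

/-- its linearisation -/
def ol (op : Op ι) (φ : P2 → E3) (y : P2) (v : WW ι) : ℂ := lin op φ y v

variable {F : (P2 → E3) → P2 → WW ι → ℂ} {K : J → P2 → E3} {ε : ℝ} {j : J} {y : P2}

theorem Kg_lo (hε : 0 < ε) (hy : y.1 ≤ 0) (v : VV ι) : Kg F K ε j y v = F (K j) y (pA v) := by
  rw [Kg, c2_lo hε (by linarith), st_zero (by linarith) (by linarith : y.1 ≤ ε),
    st_zero (a := 4) (by norm_num) (by linarith), st_zero (a := 7) (by norm_num) (by linarith)]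
  simp

theorem K1_lo (hε : 0 < ε) (hy : y.1 ≤ 0) (v : VV ι) : K1 ε y v = 0 := by
  rw [K1, st_zero (by linarith) (by linarith : y.1 ≤ ε)]
  simp

theorem Kg_hi (hε : 0 < ε) (hε1 : ε ≤ 1 / 8) (hy : 5 ≤ y.1) (v : VV ι) : Kg F K ε j y v =
    ((1 - st 7 8 y.1 : ℝ) : ℂ) * lap v + (st 7 8 y.1 : ℝ) * F (Km K j) y (pB v) := by
  rw [Kg, c2_hi ε hy, st_one (by linarith) (by linarith : 2 * ε ≤ y.1),
    st_one (a := 4) (by norm_num) hy]
  simp

theorem K1_hi (hε : 0 < ε) (hε1 : ε ≤ 1 / 8) (hy : 4 ≤ y.1) (v : VV ι) : K1 ε y v = v.2.1 := by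
  rw [K1, st_one (by linarith) (by linarith : 2 * ε ≤ y.1), ze_zero hy]
  simp [vq_apply]

theorem Kg_zero (hε : 0 < ε) (hε1 : ε ≤ 1 / 8) (h1 : y.1 < 6 → F (K j) y 0 = 0)
    (h2 : 6 < y.1 → F (Km K j) y 0 = 0) {η : Fib ι} (hη : 5 ≤ y.1 ∨ η = 0) :
    Kg F K ε j y (η, 0) = 0 := by
  rcases le_or_gt 5 y.1 with h | h
  · rw [Kg_hi hε hε1 h, lap_apply, pB_apply]
    rcases le_or_gt y.1 7 with h' | h'
    · simp [st_zero (a := 7) (b := 8) (by norm_num) h']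
    · have := h2 (by linarith)
      simp [show ((0, 0) : WW ι) = 0 from rfl, this]
  · obtain rfl := hη.resolve_left h.not_ge
    rw [show ((0, 0) : VV ι) = 0 from rfl, Kg, st_zero (a := 7) (by norm_num) (by linarith)]
    simp [h1 (by linarith)]

/-- the cut off extension of a solution solves the blended equation -/
theorem Kg_sol (hε : 0 < ε) (hε1 : ε ≤ 1 / 8) (hy : y.1 ∈ Ioo (0 : ℝ) 6) {e : P2 → ℂ}
    (he : ContDiffAt ℝ 2 e y) {a : ι → ℂ} (out : ∀ q, F (K j) y (a, q) = F (K j) y (0, q))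
    (quasi : ∀ (q : J2 P2 ℂ) (t : ℝ), F (K j) y (0, q.1, q.2.1, t • q.2.2) -
      F (K j) y (0, q.1, q.2.1, 0) = t * (F (K j) y (0, q) - F (K j) y (0, q.1, q.2.1, 0)))
    (h0 : F (K j) y (0, jet2 e y) = 0) :
    Kg F K ε j y (((om ε y.1 : ℂ) • jet1 e y, a), jet2 (fun z => (ze z.1 : ℂ) * e z) y) = 0 ∧
      K1 ε y (((om ε y.1 : ℂ) • jet1 e y, a), jet2 (fun z => (ze z.1 : ℂ) * e z) y) = 0 := by
  set q := jet2 (fun z : P2 => (ze z.1 : ℂ) * e z) y with hq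
  have hq1 : q = (zj y).smul (jet2 e y) := jet2_smul (cd_zeC.of_le (by norm_num)).contDiffAt he
  have t1 : ((1 - st ε (2 * ε) y.1 : ℝ) : ℂ) * F (K j) y (a, q) = 0 := by
    rcases le_or_gt (2 * ε) y.1 with h | h
    · simp [st_one (by linarith : ε < 2 * ε) h]
    · have : q = jet2 e y := jet2_congr ((ev_lt (by linarith : y.1 < 3)).mono fun z hz => by
        simp [ze_one hz.le])
      rw [out, this, h0, mul_zero]
  have t3 : ((st 4 5 y.1 * (1 - st 7 8 y.1) : ℝ) : ℂ) *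
      (q.2.2 (1, 0) (1, 0) + q.2.2 (0, 1) (0, 1)) = 0 := by
    rcases le_or_gt y.1 4 with h | h
    · simp [st_zero (by norm_num : (4 : ℝ) < 5) h]
    · have : q = jet2 (fun _ => (0 : ℂ)) y := jet2_congr ((ev_gt h).mono fun z hz => by
        simp [ze_zero hz.le])
      rw [this, jet2_const]; simp
  refine ⟨?_, ?_⟩
  · rw [Kg, pA_apply, lap_apply, st_zero (a := 7) (by norm_num) (by linarith [hy.2])] 
    rw [st_zero (a := 7) (by norm_num) (by linarith [hy.2])] at t3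
    simp only [t1, t3, ofReal_zero, zero_mul, add_zero, zero_add]
    rcases le_or_gt y.1 ε with h | h
    · simp [c2_lo hε h]
    rcases le_or_gt 5 y.1 with h' | h'
    · simp [c2_hi ε h']
    have e1 : q.2.2 - ((zj y).smul (e y, fderiv ℝ e y, 0)).2.2 = ze y.1 • (jet2 e y).2.2 := by
      rw [hq1]
      refine ContinuousLinearMap.ext fun u => ContinuousLinearMap.ext fun w => ?_
      simp [J2.smul_two, jet2, zj]
    have e2 := quasi (jet2 e y) (ze y.1)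
    rw [h0] at e2
    rw [pT_apply, p0_apply, om_one hε h.le h'.le]
    simp only [ofReal_one, one_smul, jet1, e1]
    simp only [jet2] at e2 ⊢
    push_cast
    linear_combination (c2 ε y.1 : ℂ) * e2
  · rw [K1, vq_apply, vη_apply]
    show (st ε (2 * ε) y.1 : ℂ) * ((ze y.1 : ℂ) * e y) +
      ((-(st ε (2 * ε) y.1 * ze y.1) : ℝ) : ℂ) * ((om ε y.1 : ℂ) * e y) = 0
    rcases le_or_gt y.1 ε with h | h
    · simp [st_zero (by linarith : ε < 2 * ε) h]
    rcases le_or_gt 4 y.1 with h' | h'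
    · simp [ze_zero h']
    rw [om_one hε h.le (by linarith)]
    push_cast; ring

/-- the principal part on jets of order two -/
theorem Kg_re (op : Op ι) (q : J2 P2 ℂ) :
    (Kg (ol op) K ε j y (0, q)).re = (1 - st ε (2 * ε) y.1) * (lin op (K j) y (0, q)).re +
      c2 ε y.1 * (lin op (K j) y (0, 0, 0, q.2.2)).re +
      st 4 5 y.1 * (1 - st 7 8 y.1) * (q.2.2 (1, 0) (1, 0) + q.2.2 (0, 1) (0, 1)).re +
      st 7 8 y.1 * (lin op (Km K j) y (0, q)).re := by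
  have : (p0 ((0 : Fib ι), q)) = 0 := rfl
  rw [Kg, pT_zero, this]
  simp only [add_re, re_ofReal_mul, ol, map_zero, mul_zero, add_zero]
  rfl

theorem sq_pos_of_ne {ξ : P2 →L[ℝ] ℝ} (hξ : ξ ≠ 0) :
    0 < ((sqJ ξ).2.2 (1, 0) (1, 0) + (sqJ ξ).2.2 (0, 1) (0, 1)).re := by
  have e : ((sqJ ξ).2.2 (1, 0) (1, 0) + (sqJ ξ).2.2 (0, 1) (0, 1)).re =
      ξ (1, 0) ^ 2 + ξ (0, 1) ^ 2 := by
    simp [sqJ, J2.map, sq]
  rw [e]
  by_contra h
  have h1 : ξ (1, 0) = 0 := by nlinarith [sq_nonneg (ξ (1, 0)), sq_nonneg (ξ (0, 1))]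
  have h2 : ξ (0, 1) = 0 := by nlinarith [sq_nonneg (ξ (1, 0)), sq_nonneg (ξ (0, 1))]
  exact hξ (ContinuousLinearMap.ext fun u => by rw [lin_eq ξ u, h1, h2]; simp)

theorem sqJ_two (ξ : P2 →L[ℝ] ℝ) : ((0, 0, (sqJ ξ).2.2) : J2 P2 ℂ) = sqJ ξ :=
  J2_ext (by simp [sqJ, J2.map]) (fun u => by simp [sqJ, J2.map]) fun _ _ => rfl

theorem Kg_ell (hε : 0 < ε) (hε1 : ε ≤ 1 / 8) (op : Op ι) {ξ : P2 →L[ℝ] ℝ} (hξ : ξ ≠ 0)
    (h1 : y.1 < 6 → 0 < (lin op (K j) y (0, sqJ ξ)).re)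
    (h2 : 6 < y.1 → 0 < (lin op (Km K j) y (0, sqJ ξ)).re) :
    0 < (Kg (ol op) K ε j y (0, sqJ ξ)).re := by
  rw [Kg_re, sqJ_two]
  have h3 := sq_pos_of_ne hξ
  set D := ((sqJ ξ).2.2 (1, 0) (1, 0) + (sqJ ξ).2.2 (0, 1) (0, 1)).re
  rcases le_or_gt 5 y.1 with h | h
  · rw [c2_hi ε h, st_one (by linarith) (by linarith : 2 * ε ≤ y.1),
      st_one (a := 4) (by norm_num) h]
    rcases le_or_gt y.1 7 with h' | h'
    · rw [st_zero (by norm_num) h']; linarith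
    · have h4 := h2 (by linarith)
      have h5 := st_nonneg 7 8 y.1
      have h6 := st_le 7 8 y.1
      rcases h5.eq_or_lt with h7 | h7
      · rw [← h7]; linarith
      · nlinarith [mul_pos h7 h4, mul_nonneg (sub_nonneg.2 h6) h3.le]
  · have h4 := h1 (by linarith)
    set A := (lin op (K j) y (0, sqJ ξ)).re
    rw [st_zero (a := 7) (by norm_num) (by linarith), c2]
    have h5 := st_nonneg 4 5 y.1
    have h6 := st_le 4 5 y.1
    have h7 := st_nonneg ε (2 * ε) y.1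
    have h8 := st_le ε (2 * ε) y.1
    rcases h5.eq_or_lt with h9 | h9
    · rw [← h9]; nlinarith
    · nlinarith [mul_pos h9 h3, mul_nonneg (sub_nonneg.2 h8) h4.le,
        mul_nonneg (mul_nonneg h7 (sub_nonneg.2 h6)) h4.le]

theorem locQ_vq {α : ℝ} (y : P2) : LocQ α (RV (ι := ι)) (fun _ v => vq v) y :=
  LocQ.lin (vq (ι := ι)) fun _ h => h.2.1

theorem locQ_K1 {α : ℝ} (h0 : 0 < α) (h1 : α < 1) (ε : ℝ) (y : P2) :
    LocQ α (RV (ι := ι)) (K1 ε) y := by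
  have t1 : LocQ α (RV (ι := ι)) (fun z v => (st ε (2 * ε) z.1 : ℝ) * vq v) y :=
    LocQ.cut h0 h1 (c := fun z => st ε (2 * ε) z.1) (by fun_prop) (Or.inl (locQ_vq y))
  have t2 : LocQ α (RV (ι := ι))
      (fun z v => ((-(st ε (2 * ε) z.1 * ze z.1) : ℝ) : ℂ) * vη v) y :=
    LocQ.cut h0 h1 (c := fun z => -(st ε (2 * ε) z.1 * ze z.1)) (by fun_prop)
      (q := fun _ v => vη v) (Or.inl (LocQ.lin (vη (ι := ι)) fun _ h => h.1.1))
  exact t1.add t2

theorem comp_lip {α : ℝ} (h0 : 0 < α) (h1 : α < 1) (y : P2) {E Z : Type} [NormedAddCommGroup E]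
    [NormedSpace ℝ E] [NormedAddCommGroup Z] {f : P2 → E} (hf : ContDiff ℝ 1 f)
    (T : E → Z) (hT : ∀ a a', ‖T a - T a'‖ ≤ 4 * ‖a - a'‖) :
    ∃ r > 0, ∃ C, 0 ≤ C ∧ ∀ z ∈ ball y r, ‖T (f z)‖ ≤ C ∧
      ∀ z' ∈ ball y r, ‖T (f z) - T (f z')‖ ≤ C * ‖z - z'‖ ^ α := by
  obtain ⟨r, hr, C, hC, h⟩ := loc_lip h0 h1 (hf.contDiffAt (x := y))
  refine ⟨r, hr, ‖T 0‖ + 4 * C, by positivity, fun z hz => ⟨?_, fun z' hz' => (hT _ _).trans ?_⟩⟩
  · have h2 := hT (f z) 0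
    have h3 := norm_le_norm_add_norm_sub' (T (f z)) (T 0)
    have h4 := (h z hz).1
    rw [sub_zero] at h2
    linarith
  · have h2 := (h z hz).2 z' hz'
    rw [add_mul, mul_assoc]
    exact le_add_of_nonneg_of_le (by positivity) (by linarith only [h2])

theorem cd_zj : ContDiff ℝ 1 zj := continuous_jet2 cd_zeC

theorem RV.lap {v : VV ι} (h : RV v) : (lap v).im = 0 := by
  rw [lap_apply, add_im, h.2.2.2, h.2.2.2, add_zero]

theorem locQ_Kg {α : ℝ} (h0 : 0 < α) (h1 : α < 1) (hε : 0 < ε) (hε1 : ε ≤ 1 / 8)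
    (l1 : y.1 < 6 → LocQ α RW (F (K j)) y) (l2 : 6 < y.1 → LocQ α RW (F (Km K j)) y) :
    LocQ α RV (Kg F K ε j) y := by
  have t1 : LocQ α (RV (ι := ι))
      (fun z v => ((1 - st ε (2 * ε) z.1 : ℝ) : ℂ) * F (K j) z (pA v)) y := by
    refine LocQ.cut h0 h1 (c := fun z => 1 - st ε (2 * ε) z.1) (by fun_prop) ?_
    rcases lt_or_ge y.1 6 with h | h
    · exact Or.inl ((l1 h).comp' pA fun _ h => h.pA)
    · exact Or.inr ((ev_gt (by linarith : 1 < y.1)).mono fun z hz => by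
        rw [st_one (by linarith) (by linarith), sub_self])
  have t2 : LocQ α (RV (ι := ι)) (fun z v => (c2 ε z.1 : ℝ) * F (K j) z (pT (zj z) v)) y := by
    refine LocQ.cut h0 h1 (c := fun z => c2 ε z.1) (by fun_prop) ?_
    rcases lt_or_ge y.1 6 with h | h
    · exact Or.inl ((l1 h).comp (T := fun z => pT (zj z)) (comp_lip h0 h1 y cd_zj pT norm_pT_sub)
        fun z _ h => h.pT (reJ_zj z))
    · exact Or.inr ((ev_gt (by linarith : 5 < y.1)).mono fun z hz => c2_hi ε hz.le)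
  have t3 : LocQ α (RV (ι := ι))
      (fun z v => ((c2 ε z.1 * (ze z.1 - 1) : ℝ) : ℂ) * F (K j) z (p0 v)) y := by
    refine LocQ.cut h0 h1 (c := fun z => c2 ε z.1 * (ze z.1 - 1)) (by fun_prop) ?_
    rcases lt_or_ge y.1 6 with h | h
    · exact Or.inl ((l1 h).comp' p0 fun _ h => h.p0)
    · exact Or.inr ((ev_gt (by linarith : 5 < y.1)).mono fun z hz => by
        rw [c2_hi ε hz.le, zero_mul])
  have t4 : LocQ α (RV (ι := ι))
      (fun z v => ((st 4 5 z.1 * (1 - st 7 8 z.1) : ℝ) : ℂ) * lap v) y :=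
    LocQ.cut h0 h1 (c := fun z => st 4 5 z.1 * (1 - st 7 8 z.1)) (by fun_prop)
      (q := fun _ v => lap v) (Or.inl (LocQ.lin (lap (ι := ι)) fun _ h => h.lap))
  have t5 : LocQ α (RV (ι := ι)) (fun z v => (st 7 8 z.1 : ℝ) * F (Km K j) z (pB v)) y := by
    refine LocQ.cut h0 h1 (c := fun z => st 7 8 z.1) (by fun_prop) ?_
    rcases lt_or_ge 6 y.1 with h | h
    · exact Or.inl ((l2 h).comp' pB fun _ h => h.pB)
    · exact Or.inr ((ev_lt (by linarith : y.1 < 7)).mono fun z hz => st_zero (by norm_num) hz.le)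
  exact (((t1.add t2).add t3).add t4).add t5

theorem fderiv_Kg (hε : 0 < ε) (hε1 : ε ≤ 1 / 8) (op : Op ι)
    (l1 : y.1 < 6 → DifferentiableAt ℂ (oq op (K j) y) 0)
    (l2 : 6 < y.1 → DifferentiableAt ℂ (oq op (Km K j) y) 0) (v : VV ι) :
    fderiv ℂ (Kg (oq op) K ε j y) 0 v = Kg (ol op) K ε j y v := by
  have d1 := hasFDerivAt_cut (F := oq op (K j) y) (c := 1 - st ε (2 * ε) y.1) pA
    ((lt_or_ge y.1 6).imp l1 fun h => by rw [st_one (by linarith) (by linarith), sub_self])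
  have d2 := hasFDerivAt_cut (F := oq op (K j) y) (c := c2 ε y.1) (pT (zj y))
    ((lt_or_ge y.1 6).imp l1 fun h => c2_hi ε (by linarith))
  have d3 := hasFDerivAt_cut (F := oq op (K j) y) (c := c2 ε y.1 * (ze y.1 - 1)) p0
    ((lt_or_ge y.1 6).imp l1 fun h => by rw [c2_hi ε (by linarith), zero_mul])
  have d4 := (lap (ι := ι)).hasFDerivAt (x := 0) |>.const_mul
    ((st 4 5 y.1 * (1 - st 7 8 y.1) : ℝ) : ℂ)
  have d5 := hasFDerivAt_cut (F := oq op (Km K j) y) (c := st 7 8 y.1) pB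
    ((lt_or_ge 6 y.1).imp l2 fun h => st_zero (by norm_num) (by linarith))
  have := ((((d1.add d2).add d3).add d4).add d5).fderiv
  exact congrArg (fun L : VV ι →L[ℂ] ℂ => L v) this

theorem fderiv_K1 (ε : ℝ) (y : P2) (v : VV ι) : fderiv ℂ (K1 ε y) 0 v = K1 ε y v := by
  have := (((vq (ι := ι)).hasFDerivAt (x := 0) |>.const_mul ((st ε (2 * ε) y.1 : ℝ) : ℂ)).add
    ((vη (ι := ι)).hasFDerivAt (x := 0) |>.const_mul
      ((-(st ε (2 * ε) y.1 * ze y.1) : ℝ) : ℂ))).fderiv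
  exact congrArg (fun L : VV ι →L[ℂ] ℂ => L v) this

end collar

end Vale.Agent.P218F.Core.Bl
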