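import Vale.Agent.P218F.CoreMain
import Vale.Agent.P218F.CorePar

/-!
# Functions on the collars, extended to the double
-/

open Set Metric Filter Topology Complex
open scoped NNReal ContDiff Real
open Vale.Agent.P272.K.LIN Vale.Agent.P218FT

set_option linter.unusedSectionVars false
set_option maxSynthPendingDepth 3

noncomputable section

namespace Vale.Agent.P218F.Core

variable {S C0 : Set E3} {J : Type} [Fintype J] {K : J → P2 → E3} {X : Type} [TopologicalSpace X]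
  [ChartedSpace P2 X] [T2Space X] [CompactSpace X] [RSm P2 X]

/-- periodic functions on the collars -/
def PerV {V : Type} (F : J → P2 → V) : Prop := ∀ j y, F j (y.1, y.2 + 2 * π) = F j y

namespace Dbl

variable (𝒟 : Dbl S C0 K X) {V : Type}

open Classical in
/-- the extension by zero of a function on the long collars -/
def ext [Zero V] (F : J → P2 → V) (x : X) : V :=
  if h : ∃ p : J × P2, p.2.1 ∈ Ioo (-1 : ℝ) 13 ∧ 𝒟.κ p.1 p.2 = x then F h.choose.1 h.choose.2 else 0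

/-- the band `a ≤ y.1 ≤ b` -/
def band (a b : ℝ) : Set X := {x | ∃ j y, y.1 ∈ Icc a b ∧ 𝒟.κ j y = x}

theorem ext_cases (x : X) : (∃ j y, y.1 ∈ Ioo (-1 : ℝ) 13 ∧ 𝒟.κ j y = x ∧
    ∀ {V : Type} [Zero V] (F : J → P2 → V), 𝒟.ext F x = F j y) ∨
    ((∀ j y, y.1 ∈ Ioo (-1 : ℝ) 13 → 𝒟.κ j y ≠ x) ∧
      ∀ {V : Type} [Zero V] (F : J → P2 → V), 𝒟.ext F x = 0) := by
  by_cases h : ∃ p : J × P2, p.2.1 ∈ Ioo (-1 : ℝ) 13 ∧ 𝒟.κ p.1 p.2 = x
  · exact Or.inl ⟨_, _, h.choose_spec.1, h.choose_spec.2, fun F => dif_pos h⟩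
  · exact Or.inr ⟨fun j y h1 h2 => h ⟨(j, y), h1, h2⟩, fun F => dif_neg h⟩

theorem ext_κ [Zero V] {F : J → P2 → V} (hF : PerV F) (j : J) {y : P2}
    (hy : y.1 ∈ Ioo (-1 : ℝ) 13) : 𝒟.ext F (𝒟.κ j y) = F j y := by
  rcases 𝒟.ext_cases (𝒟.κ j y) with ⟨j', y', h1, h2, h3⟩ | h
  · obtain ⟨rfl, e1, k, e2⟩ := 𝒟.κ_inj _ _ _ _ hy h1 h2.symm
    rw [h3, show y' = (y.1, y.2 + k * (2 * π)) from Prod.ext e1 e2]
    exact Function.Periodic.int_mul (f := fun θ => F j (y.1, θ)) (fun θ => hF j (y.1, θ)) k y.2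
  · exact absurd rfl (h.1 j y hy)

theorem ext_zero [Zero V] {F : J → P2 → V} {a b : ℝ} (hF : ∀ j y, y.1 ∉ Icc a b → F j y = 0)
    {x : X} (hx : x ∉ 𝒟.band a b) : 𝒟.ext F x = 0 := by
  rcases 𝒟.ext_cases x with ⟨j, y, -, h2, h3⟩ | h
  · exact (h3 F).trans (hF j y fun hy => hx ⟨j, y, hy, h2⟩)
  · exact h.2 F

theorem near (j : J) {y : P2} (hy : y.1 ∈ Ioo (-1 : ℝ) 13) : ∃ e ∈ atlas P2 X,
    𝒟.κ j y ∈ e.source ∧ e (𝒟.κ j y) = y ∧ ContinuousAt (𝒟.κ j) y ∧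
      (∀ᶠ z in 𝓝 y, z.1 ∈ Ioo (-1 : ℝ) 13 ∧ e.symm z = 𝒟.κ j z) ∧
      ∀ᶠ x in 𝓝 (𝒟.κ j y), (e x).1 ∈ Ioo (-1 : ℝ) 13 ∧ 𝒟.κ j (e x) = x := by
  obtain ⟨e, he, ht, h⟩ := 𝒟.chart_κ j y hy
  have e1 : 𝒟.κ j y ∈ e.source := h.self_of_nhds ▸ e.map_target ht
  have e2 : e (𝒟.κ j y) = y := h.self_of_nhds ▸ e.right_inv ht
  have h1 := ((isOpen_Ioo.preimage continuous_fst).eventually_mem hy).and h
  refine ⟨e, he, e1, e2, (e.continuousAt_symm ht).congr h, h1, ?_⟩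
  have t := e.continuousAt e1
  rw [ContinuousAt, e2] at t
  filter_upwards [t.eventually h1, e.open_source.mem_nhds e1] with x h2 h3
  exact ⟨h2.1, h2.2.symm.trans (e.left_inv h3)⟩

theorem isCompact_band' {a b : ℝ} (ha : -1 < a) (hb : b < 13) : IsCompact (𝒟.band a b) :=
  isCompact_band (fun j y hy => by
    obtain ⟨-, -, -, -, h, -⟩ := 𝒟.near j (y := y) ⟨ha.trans_le hy.1, hy.2.trans_lt hb⟩
    exact h) 𝒟.κ_per

theorem ext_ev [Zero V] {F : J → P2 → V} {a b : ℝ} (ha : -1 < a) (hb : b < 13)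
    (hF : ∀ j y, y.1 ∉ Icc a b → F j y = 0) {x : X} (hx : x ∉ 𝒟.band a b) :
    ∀ᶠ z in 𝓝 x, 𝒟.ext F z = 0 :=
  ((𝒟.isCompact_band' ha hb).isClosed.isOpen_compl.eventually_mem hx).mono
    fun _ hz => 𝒟.ext_zero hF hz

theorem ext_ck [NormedAddCommGroup V] [NormedSpace ℝ V] {k : WithTop ℕ∞} (hk : k ≤ ∞)
    {F : J → P2 → V} (hp : PerV F) {a b : ℝ} (ha : -1 < a) (hb : b < 13)
    (hF : ∀ j y, y.1 ∉ Icc a b → F j y = 0) (hc : ∀ j y, y.1 ∈ Icc a b → ContDiffAt ℝ k (F j) y) :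
    CkFn P2 k (𝒟.ext F) := by
  refine ckFn_of_local hk fun x => ?_
  by_cases hx : x ∈ 𝒟.band a b
  · obtain ⟨j, y, hy, rfl⟩ := hx
    obtain ⟨e, he, h1, h2, -, h3, -⟩ := 𝒟.near j (y := y) ⟨ha.trans_le hy.1, hy.2.trans_lt hb⟩
    refine ⟨e, he, h1, h2.symm ▸ (hc j y hy).congr_of_eventuallyEq (h3.mono fun z hz => ?_)⟩
    show 𝒟.ext F (e.symm z) = _
    rw [hz.2, 𝒟.ext_κ hp j hz.1]
  · refine ⟨chartAt P2 x, chart_mem_atlas _ _, mem_chart_source _ _,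
      (contDiffAt_const (c := (0 : V))).congr_of_eventuallyEq ?_⟩
    have t := (chartAt P2 x).continuousAt_symm (mem_chart_target P2 x)
    rw [ContinuousAt, (chartAt P2 x).left_inv (mem_chart_source _ _)] at t
    exact t.eventually (𝒟.ext_ev ha hb hF hx)

theorem pos_of_O (hG : Geo S C0 K) {j : J} {y : P2} (hy : y.1 ∈ Ioo (-1 : ℝ) 13)
    (h : 𝒟.κ j y ∈ 𝒟.O) : 0 < y.1 := by
  refine not_le.1 fun h0 => h ⟨K j y, (hG.mem j y ⟨hy.1, by linarith⟩).2 h0, ?_⟩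
  exact (𝒟.κ_up j y ⟨hy.1, by linarith⟩).symm

theorem nonneg_of_D (hG : Geo S C0 K) {j : J} {y : P2} (hy : y.1 ∈ Ioo (-1 : ℝ) 13)
    (h : 𝒟.κ j y ∈ 𝒟.D) : 0 ≤ y.1 := by
  rcases h with h | ⟨j', θ, h⟩
  · exact (𝒟.pos_of_O hG hy h).le
  · exact (𝒟.κ_inj _ _ _ _ (by norm_num) hy h).2.1.ge

theorem isOpen_O (hG : Geo S C0 K) : IsOpen 𝒟.O :=
  (hG.cpt.image_of_continuousOn (𝒟.up_cont.mono subset_union_left)).isClosed.isOpen_compl

theorem isCompact_D (hG : Geo S C0 K) : IsCompact 𝒟.D := by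
  have e : 𝒟.D = 𝒟.band 0 12 ∪ 𝒟.dn '' C0 := by
    refine Subset.antisymm ?_ ?_
    · rintro x (hx | ⟨j, θ, hx⟩)
      · rcases 𝒟.cases x with h | ⟨j, y, h1, h2⟩ | h
        · exact absurd h hx
        · exact Or.inl ⟨j, y, Ioo_subset_Icc_self h1, h2⟩
        · exact Or.inr h
      · exact Or.inl ⟨j, _, by norm_num, hx⟩
    · rintro x (⟨j, y, hy, rfl⟩ | ⟨x0, hx0, rfl⟩)
      · rcases hy.1.eq_or_lt with h | h
        · exact Or.inr ⟨j, y.2, congrArg _ (Prod.ext h rfl)⟩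
        · refine Or.inl fun ⟨x0, hx0, e⟩ => ?_
          exact absurd (𝒟.κ_eq_up j y ⟨by linarith, by linarith [hy.2]⟩ x0 hx0 e.symm) (not_le.2 h)
      · exact Or.inl fun ⟨x1, hx1, e⟩ => 𝒟.up_ne _ (Or.inl hx1) _ (Or.inl hx0) e
  rw [e]
  exact (𝒟.isCompact_band' (by norm_num) (by norm_num)).union
    (hG.cpt.image_of_continuousOn (𝒟.dn_cont.mono subset_union_left))

end Dbl

/-- every chart ball of the cover is a piece of a long collar or lies away from the collars -/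
def CovOK (𝒟 : Dbl S C0 K X) (𝒞 : Cov P2 X) : Prop :=
  ∀ i, (∃ j, ∀ y ∈ ball (𝒞.c i) (3 * 𝒞.r i), y.1 ∈ Ioo (-1 : ℝ) 13 ∧ (𝒞.e i).symm y = 𝒟.κ j y) ∨
    ∀ y ∈ ball (𝒞.c i) (3 * 𝒞.r i), (𝒞.e i).symm y ∉ 𝒟.band (-1 / 2) (25 / 2)

/-- a function of the collar coordinate -/
def cs (χ : ℝ → ℝ) (y : P2) : ℂ := χ y.1

theorem cs_smooth {χ : ℝ → ℝ} (h : ContDiff ℝ ∞ χ) : ContDiff ℝ ∞ (cs χ) :=
  ofRealCLM.contDiff.comp (h.comp contDiff_fst)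

theorem cs_bd {χ : ℝ → ℝ} (h : ContDiff ℝ ∞ χ) :
    ∃ B, 0 ≤ B ∧ ∀ y : P2, y.1 ∈ Icc (0 : ℝ) 6 → ‖jet2 (cs χ) y‖ ≤ B := by
  have c1 := (cs_smooth h).fderiv_right (m := ∞) (by simp)
  have c : Continuous fun s : ℝ => jet2 (cs χ) (s, 0) := ((cs_smooth h).continuous.prodMk
    (c1.continuous.prodMk (c1.fderiv_right (m := ∞) (by simp)).continuous)).comp (by fun_prop)
  obtain ⟨B, hB⟩ := (isCompact_Icc (a := (0 : ℝ)) (b := 6)).exists_bound_of_continuousOn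
    c.continuousOn
  refine ⟨|B|, abs_nonneg _, fun y hy => le_trans (le_of_eq ?_) ((hB _ hy).trans (le_abs_self B))⟩
  have := jet2_transl (cs χ) (0, y.2) (y.1, 0)
  rw [Prod.mk_add_mk, add_zero, zero_add] at this
  exact congrArg norm (this.symm.trans (congrArg (jet2 · _) (funext fun z => by simp [cs])))

theorem norm_smul_jet_le (a q : J2 P2 ℂ) : ‖a.smul q‖ ≤ 4 * (‖a‖ * ‖q‖) := by
  have a0 := norm_fst_le a
  have a1 := (norm_fst_le _).trans (norm_snd_le a)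
  have a2 := (norm_snd_le _).trans (norm_snd_le a)
  have q0 := norm_fst_le q
  have q1 := (norm_fst_le _).trans (norm_snd_le q)
  have q2 := (norm_snd_le _).trans (norm_snd_le q)
  have p0 : 0 ≤ ‖a‖ * ‖q‖ := by positivity
  have m : ∀ {s t : ℝ} (z w : ℂ), ‖z‖ ≤ ‖a‖ * s → ‖w‖ ≤ ‖q‖ * t → 0 ≤ s →
      ‖z • w‖ ≤ ‖a‖ * ‖q‖ * (s * t) := fun z w hz hw hs => by
    rw [norm_smul]
    exact (mul_le_mul hz hw (norm_nonneg _) (by positivity)).trans (le_of_eq (by ring))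
  refine max_le ?_ (max_le ?_ ?_)
  · have := m a.1 q.1 (s := 1) (t := 1) (by simpa) (by simpa) zero_le_one
    exact this.trans (by linarith)
  · refine ContinuousLinearMap.opNorm_le_bound _ (by positivity) fun u => ?_
    have h1 := m a.1 (q.2.1 u) (s := 1) (by simpa) (q.2.1.le_of_opNorm_le q1 u)
      zero_le_one
    have h2 := m (a.2.1 u) q.1 (t := 1) (a.2.1.le_of_opNorm_le a1 u) (by simpa)
      (norm_nonneg _)
    refine (norm_add_le_of_le h1 h2).trans ?_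
    nlinarith [mul_nonneg p0 (norm_nonneg u)]
  · refine ContinuousLinearMap.opNorm_le_bound₂ _ (by positivity) fun u v => ?_
    have h1 := m a.1 (q.2.2 u v) (s := 1) (t := ‖u‖ * ‖v‖) (by simpa)
      ((q.2.2.le_of_opNorm₂_le_of_le q2 le_rfl le_rfl).trans (le_of_eq (by ring))) zero_le_one
    have h2 := m _ _ (a.2.1.le_of_opNorm_le a1 u) (q.2.1.le_of_opNorm_le q1 v)
      (norm_nonneg _)
    have h3 := m _ _ (a.2.1.le_of_opNorm_le a1 v) (q.2.1.le_of_opNorm_le q1 u)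
      (norm_nonneg _)
    have h4 := m (a.2.2 u v) q.1 (s := ‖u‖ * ‖v‖) (t := 1)
      ((a.2.2.le_of_opNorm₂_le_of_le a2 le_rfl le_rfl).trans (le_of_eq (by ring))) (by simpa)
      (by positivity)
    exact (norm_add_le_of_le (norm_add_le_of_le (norm_add_le_of_le h1 h2) h3) h4).trans
      (le_of_eq (by ring))

theorem PerV.jet1 {e : J → P2 → ℂ} (h : Per e) : PerV fun j y => jet1 (e j) y := fun j y => by
  have := jet2_transl (e j) (0, 2 * π) y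
  rw [show (fun z => e j (z + (0, 2 * π))) = e j from funext fun z => by
    rw [← h j z]; exact congrArg _ (Prod.ext (add_zero _) rfl)] at this
  rw [show y + (0, 2 * π) = (y.1, y.2 + 2 * π) from Prod.ext (add_zero _) rfl] at this
  exact (congrArg J2.one this).symm

variable (𝒟 : Dbl S C0 K X) (om ζ : ℝ → ℝ)

/-- the cut off one-jet -/
def Dbl.cE (e : J → P2 → ℂ) : X → J1 P2 ℂ := 𝒟.ext fun j y => cs om y • jet1 (e j) y

/-- the cut off extension -/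
def Dbl.cU (e : J → P2 → ℂ) : X → ℂ := 𝒟.ext fun j y => cs ζ y * e j y

/-- the cut-off functions -/
structure Cut (a : ℝ) : Prop where
  pos : 0 < a
  om_sm : ContDiff ℝ ∞ om
  om0 : ∀ s, s ∉ Icc a (11 / 2) → om s = 0
  ζ_sm : ContDiff ℝ ∞ ζ
  ζ1 : ∀ s ≤ 3, ζ s = 1
  ζ0 : ∀ s, 4 ≤ s → ζ s = 0

variable {om ζ} {a : ℝ} {𝒞 : Cov P2 X} {α : ℝ}

theorem Dbl.cE_κ {e : J → P2 → ℂ} (he : Per e) (j : J) {y : P2} (hy : y.1 ∈ Ioo (-1 : ℝ) 13) :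
    𝒟.cE om e (𝒟.κ j y) = cs om y • jet1 (e j) y :=
  𝒟.ext_κ (fun j y => congrArg (cs om y • ·) (PerV.jet1 he j y)) j hy

theorem Dbl.cU_κ {e : J → P2 → ℂ} (he : Per e) (j : J) {y : P2} (hy : y.1 ∈ Ioo (-1 : ℝ) 13) :
    𝒟.cU ζ e (𝒟.κ j y) = cs ζ y * e j y :=
  𝒟.ext_κ (fun j y => congrArg (cs ζ y * ·) (he j y)) j hy

theorem Cut.pt (h : Cut om ζ a) (x : X) : (∃ j y, ∃ c : ℝ, y.1 ∈ Ioo (0 : ℝ) 6 ∧
    ∀ e, 𝒟.cE om e x = (c : ℂ) • jet1 (e j) y) ∨ ∀ e, 𝒟.cE om e x = 0 := by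
  rcases 𝒟.ext_cases x with ⟨j, y, -, -, h3⟩ | h1
  · by_cases hy : y.1 ∈ Icc a (11 / 2)
    · exact Or.inl ⟨j, y, om y.1, ⟨h.pos.trans_le hy.1, by linarith [hy.2]⟩, fun e => h3 _⟩
    · exact Or.inr fun e => (h3 _).trans (by simp [cs, h.om0 _ hy])
  · exact Or.inr fun e => h1.2 _

theorem Cut.hol (h : Cut om ζ a) (h0 : 0 < α) (h1 : α < 1) (hc : CovOK 𝒟 𝒞) :
    ∃ C, 0 ≤ C ∧ ∀ e c, Nice e c →
      ∃ g : Hol (𝒞.w α) (J1 P2 ℂ), (∀ x, g x = 𝒟.cE om e x) ∧ ‖g‖ ≤ C * c := by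
  obtain ⟨B, B0, hB⟩ := cs_bd h.om_sm
  obtain ⟨L, L0, hL⟩ := 𝒞.exists_lip_const (V := J1 P2 ℂ)
  have D0 : 0 ≤ 𝒞.D ^ (1 - α) := Real.rpow_nonneg 𝒞.D_nonneg _
  refine ⟨B + (2 * B + L * B) * 𝒞.D ^ (1 - α), by positivity, fun e c he => ?_⟩
  have c0 := he.nonneg
  have z : ∀ j (y : P2), y.1 ∉ Icc a (11 / 2) → cs om y • jet1 (e j) y = 0 := fun j y hy => by
    simp [cs, h.om0 _ hy]
  have s : ∀ {t}, t ∈ Icc a (11 / 2) → t ∈ Ioo (0 : ℝ) 6 := fun ht =>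
    ⟨h.pos.trans_le ht.1, by linarith [ht.2]⟩
  have n1 : ∀ j (y : P2), y.1 ∈ Icc a (11 / 2) → ‖jet1 (e j) y‖ ≤ c := fun j y hy =>
    max_le ((norm_fst_le (jet2 (e j) y)).trans (he.bd j y (s hy)))
      (((norm_fst_le _).trans (norm_snd_le (jet2 (e j) y))).trans (he.bd j y (s hy)))
  have b1 : ∀ x, ‖𝒟.cE om e x‖ ≤ B * c := fun x => by
    rcases 𝒟.ext_cases x with ⟨j, y, -, -, h3⟩ | h1
    · rw [Dbl.cE, h3]
      by_cases hy : y.1 ∈ Icc a (11 / 2)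
      · exact (norm_smul_le _ _).trans (mul_le_mul ((norm_fst_le _).trans
          (hB y (Ioo_subset_Icc_self (s hy)))) (n1 j y hy) (norm_nonneg _) B0)
      · rw [z j y hy, norm_zero]; positivity
    · rw [Dbl.cE, h1.2, norm_zero]; positivity
  have d : ∀ j (y : P2), DifferentiableAt ℝ (fun y => cs om y • jet1 (e j) y) y ∧
      ‖fderiv ℝ (fun y => cs om y • jet1 (e j) y) y‖ ≤ 2 * B * c := fun j y => by
    by_cases hy : y.1 ∈ Icc a (11 / 2)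
    · have c2 := he.c2 j y (s hy)
      have d1 : HasFDerivAt (jet1 (e j)) _ y :=
        (c2.differentiableAt (by simp)).hasFDerivAt.prodMk (diff_fderiv c2).hasFDerivAt
      have d2 := (((cs_smooth h.om_sm).differentiable (by simp)) y).hasFDerivAt.fun_smul d1
      refine ⟨d2.differentiableAt, d2.fderiv ▸ (norm_add_le _ _).trans ?_⟩
      have m := hB y (Ioo_subset_Icc_self (s hy))
      have m0 : ‖cs om y‖ ≤ B := (norm_fst_le _).trans m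
      have m1 : ‖fderiv ℝ (cs om) y‖ ≤ B := ((norm_fst_le _).trans (norm_snd_le _)).trans m
      have m2 : ‖(fderiv ℝ (e j) y).prod (fderiv ℝ (fderiv ℝ (e j)) y)‖ ≤ c :=
        (ContinuousLinearMap.opNorm_prod _ _).le.trans ((norm_snd_le _).trans (he.bd j y (s hy)))
      have t1 := (norm_smul_le _ _).trans (mul_le_mul m0 m2 (norm_nonneg _) B0)
      have t2 : ‖(fderiv ℝ (cs om) y).smulRight (jet1 (e j) y)‖ ≤ B * c :=
        ContinuousLinearMap.opNorm_le_bound _ (by positivity) fun u => (norm_smul_le _ _).trans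
          ((mul_le_mul ((fderiv ℝ (cs om) y).le_of_opNorm_le m1 u) (n1 j y hy) (norm_nonneg _)
            (by positivity)).trans (le_of_eq (by ring)))
      linarith
    · have ev : (fun y => cs om y • jet1 (e j) y) =ᶠ[𝓝 y] fun _ => 0 :=
        ((isClosed_Icc.preimage continuous_fst).isOpen_compl.eventually_mem hy).mono (z j)
      exact ⟨(differentiableAt_const _).congr_of_eventuallyEq ev, by
        rw [ev.fderiv_eq, fderiv_fun_const, Pi.zero_apply, norm_zero]; positivity⟩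
  have b2 := hL _ _ (2 * B * c) (by positivity) (by positivity) b1 fun i y hy => by
    have m : ball (𝒞.c i) (3 * 𝒞.r i) ∈ 𝓝 y :=
      isOpen_ball.mem_nhds (ball_subset_ball (by linarith [𝒞.r_pos i]) hy)
    rcases hc i with ⟨j, hj⟩ | hj
    · have ev : (fun y => 𝒟.cE om e ((𝒞.e i).symm y)) =ᶠ[𝓝 y] fun y => cs om y • jet1 (e j) y := by
        filter_upwards [m] with t ht
        rw [(hj t ht).2, 𝒟.cE_κ he.per j (hj t ht).1]
      exact ⟨(d j y).1.congr_of_eventuallyEq ev, by rw [ev.fderiv_eq]; exact (d j y).2⟩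
    · have ev : (fun y => 𝒟.cE om e ((𝒞.e i).symm y)) =ᶠ[𝓝 y] fun _ => 0 := by
        filter_upwards [m] with t ht
        exact 𝒟.ext_zero (fun j y hy => z j y fun h' => hy
          ⟨by linarith [h'.1, h.pos], by linarith [h'.2]⟩) (hj t ht)
      exact ⟨(differentiableAt_const _).congr_of_eventuallyEq ev, by
        rw [ev.fderiv_eq, fderiv_fun_const, Pi.zero_apply, norm_zero]; positivity⟩
  have b3 : ∀ x y, ‖𝒟.cE om e x - 𝒟.cE om e y‖ ≤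
      (2 * B * c + L * (B * c)) * 𝒞.D ^ (1 - α) * 𝒞.w α x y := fun x y => (b2 x y).trans (by
    rw [mul_assoc _ (𝒞.D ^ (1 - α))]
    exact mul_le_mul_of_nonneg_left (𝒞.lip_le_w h0 h1.le x y) (by positivity))
  exact ⟨⟨_, ⟨_, b1⟩, ⟨_, b3⟩⟩, fun _ => rfl, (Hol.norm_le_of (by positivity) (by positivity)
    b1 b3).trans (le_of_eq (by ring))⟩

theorem Dbl.U0 (x : X) : 𝒟.cU ζ 0 x = 0 := by
  rcases 𝒟.ext_cases x with ⟨j, y, -, -, h3⟩ | h1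
  · exact (h3 _).trans (mul_zero _)
  · exact h1.2 _

theorem Cut.Uκ (h : Cut om ζ a) (e : J → P2 → ℂ) (he : Per e) (j : J) (y : P2)
    (hy : y.1 ∈ Icc (0 : ℝ) 3) : 𝒟.cU ζ e (𝒟.κ j y) = e j y := by
  rw [𝒟.cU_κ he j ⟨by linarith [hy.1], by linarith [hy.2]⟩, cs, h.ζ1 _ hy.2, ofReal_one, one_mul]

theorem Cut.Ure (h : Cut om ζ a) (hG : Geo S C0 K) (e : J → P2 → ℂ)
    (hr : ∀ j y, y.1 ∈ Ioo (0 : ℝ) 6 → (e j y).im = 0) : ∀ x ∈ 𝒟.O, (𝒟.cU ζ e x).im = 0 := by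
  intro x hx
  rcases 𝒟.ext_cases x with ⟨j, y, h1, rfl, h3⟩ | h1
  · rw [Dbl.cU, h3]
    rcases lt_or_ge y.1 6 with h6 | h6
    · simp [cs, hr j y ⟨𝒟.pos_of_O hG h1 hx, h6⟩]
    · simp [cs, h.ζ0 _ (by linarith : 4 ≤ y.1)]
  · rw [Dbl.cU, h1.2, zero_im]

/-- on `D` away from the band the extension vanishes -/
theorem Cut.U_zero (h : Cut om ζ a) (hG : Geo S C0 K) (e : J → P2 → ℂ) {x : X} (hx : x ∈ 𝒟.D)
    (hb : x ∉ 𝒟.band (-1 / 2) (25 / 2)) : 𝒟.cU ζ e x = 0 := by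
  rcases 𝒟.ext_cases x with ⟨j, y, h1, rfl, h3⟩ | h1
  · have h2 := 𝒟.nonneg_of_D hG h1 hx
    have h4 : 4 ≤ y.1 := not_lt.1 fun h4 => hb ⟨j, y, ⟨by linarith, by linarith⟩, rfl⟩
    exact (h3 _).trans (by simp [cs, h.ζ0 _ h4])
  · exact h1.2 _

theorem Cut.Ucont (h : Cut om ζ a) (hG : Geo S C0 K) (e : J → P2 → ℂ) (he : Per e)
    (hc : ∀ j, ContinuousOn (e j) (Ico 0 6 ×ˢ univ)) : ContinuousOn (𝒟.cU ζ e) 𝒟.D := by
  intro x hx
  by_cases hb : x ∈ 𝒟.band (-1 / 2) (25 / 2)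
  · obtain ⟨j, y, hy, rfl⟩ := hb
    have hy' : y.1 ∈ Ioo (-1 : ℝ) 13 := ⟨by linarith [hy.1], by linarith [hy.2]⟩
    obtain ⟨ch, -, h1, h2, -, -, h3⟩ := 𝒟.near j hy'
    have c1 : ContinuousWithinAt (fun y => cs ζ y * e j y) (Ici 0 ×ˢ univ) y := by
      rcases lt_or_ge y.1 6 with h6 | h6
      · refine (cs_smooth h.ζ_sm).continuous.continuousWithinAt.mul
          ((hc j y ⟨⟨𝒟.nonneg_of_D hG hy' hx, h6⟩, trivial⟩).mono_of_mem_nhdsWithin ?_)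
        filter_upwards [self_mem_nhdsWithin, mem_nhdsWithin_of_mem_nhds
          ((isOpen_Iio.preimage continuous_fst).mem_nhds h6)] with z z1 z2 using ⟨⟨z1.1, z2⟩, trivial⟩
      · refine (continuousAt_const (y := (0 : ℂ))).congr ?_ |>.continuousWithinAt
        filter_upwards [(isOpen_Ioi.preimage continuous_fst).mem_nhds
          (show y.1 ∈ Ioi 4 from mem_Ioi.2 (by linarith))] with z hz
        simp [cs, h.ζ0 _ (le_of_lt hz)]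
    have t : Tendsto ch (𝓝[𝒟.D] 𝒟.κ j y) (𝓝[Ici 0 ×ˢ univ] y) := by
      have t0 := ch.continuousAt h1
      rw [ContinuousAt, h2] at t0
      refine tendsto_nhdsWithin_iff.2 ⟨t0.mono_left nhdsWithin_le_nhds, ?_⟩
      filter_upwards [self_mem_nhdsWithin, mem_nhdsWithin_of_mem_nhds h3] with z z1 z2
      exact ⟨𝒟.nonneg_of_D hG z2.1 (z2.2.symm ▸ z1), trivial⟩
    rw [ContinuousWithinAt, 𝒟.cU_κ he j hy']
    refine (c1.tendsto.comp t).congr' ?_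
    filter_upwards [mem_nhdsWithin_of_mem_nhds h3] with z hz
    rw [Function.comp_apply, ← 𝒟.cU_κ he j hz.1, hz.2]
  · refine (continuousWithinAt_const (b := (0 : ℂ))).congr_of_eventuallyEq ?_
      (h.U_zero 𝒟 hG e hx hb)
    filter_upwards [self_mem_nhdsWithin, mem_nhdsWithin_of_mem_nhds ((𝒟.isCompact_band'
      (by norm_num) (by norm_num)).isClosed.isOpen_compl.mem_nhds hb)] with z z1 z2
    exact h.U_zero 𝒟 hG e z1 z2

/-- the extension in a collar chart -/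
theorem Cut.U_col (h : Cut om ζ a) (hG : Geo S C0 K) {e : J → P2 → ℂ} {c : ℝ} (he : Nice e c)
    {x : X} (hx : x ∈ 𝒟.O) {i : Fin 𝒞.N} (hi : InB 𝒞 i x) {j : J}
    (hj : ∀ y ∈ ball (𝒞.c i) (3 * 𝒞.r i), y.1 ∈ Ioo (-1 : ℝ) 13 ∧ (𝒞.e i).symm y = 𝒟.κ j y) :
    𝒟.κ j (𝒞.e i x) = x ∧ (𝒞.e i x).1 ∈ Ioo (0 : ℝ) 13 ∧
    𝒟.cE om e x = cs om (𝒞.e i x) • jet1 (e j) (𝒞.e i x) ∧
    ContDiffAt ℝ 2 (fun y => 𝒟.cU ζ e ((𝒞.e i).symm y)) (𝒞.e i x) ∧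
    ((𝒞.e i x).1 < 6 → cj 𝒞 i (𝒟.cU ζ e) x =
      (jet2 (cs ζ) (𝒞.e i x)).smul (jet2 (e j) (𝒞.e i x))) ∧
    (4 < (𝒞.e i x).1 → cj 𝒞 i (𝒟.cU ζ e) x = 0) := by
  obtain ⟨h1, h2⟩ := hj _ hi.three
  have e1 : 𝒟.κ j (𝒞.e i x) = x := h2.symm.trans ((𝒞.e i).left_inv hi.1)
  have p := 𝒟.pos_of_O hG h1 (e1.symm ▸ hx)
  have ev : (fun y => 𝒟.cU ζ e ((𝒞.e i).symm y)) =ᶠ[𝓝 (𝒞.e i x)] fun y => cs ζ y • e j y := by
    filter_upwards [isOpen_ball.mem_nhds hi.three] with t ht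
    rw [(hj t ht).2, 𝒟.cU_κ he.per j (hj t ht).1, smul_eq_mul]
  have ev0 : 4 < (𝒞.e i x).1 →
      (fun y => 𝒟.cU ζ e ((𝒞.e i).symm y)) =ᶠ[𝓝 (𝒞.e i x)] fun _ => 0 := fun h4 => by
    filter_upwards [ev, (isOpen_Ioi.preimage continuous_fst).mem_nhds h4] with t t1 t2
    simp [t1, cs, h.ζ0 _ (le_of_lt t2)]
  have c1 : ContDiffAt ℝ 2 (cs ζ) (𝒞.e i x) := (cs_smooth h.ζ_sm).contDiffAt.of_le P218FT.two_le_inf
  refine ⟨e1, ⟨p, h1.2⟩, by rw [← 𝒟.cE_κ he.per j h1, e1], ?_,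
    fun h6 => (jet2_congr ev).trans (jet2_smul c1 (he.c2 j _ ⟨p, h6⟩)),
    fun h4 => (jet2_congr (ev0 h4)).trans (jet2_const _ _)⟩
  rcases lt_or_ge (𝒞.e i x).1 6 with h6 | h6
  · exact (c1.smul (he.c2 j _ ⟨p, h6⟩)).congr_of_eventuallyEq ev
  · exact contDiffAt_const.congr_of_eventuallyEq (ev0 (by linarith))

/-- the extension in the other charts -/
theorem Cut.U_off (h : Cut om ζ a) (hG : Geo S C0 K) (e : J → P2 → ℂ) {x : X} (hx : x ∈ 𝒟.O)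
    {i : Fin 𝒞.N} (hi : InB 𝒞 i x)
    (hj : ∀ y ∈ ball (𝒞.c i) (3 * 𝒞.r i), (𝒞.e i).symm y ∉ 𝒟.band (-1 / 2) (25 / 2)) :
    ContDiffAt ℝ 2 (fun y => 𝒟.cU ζ e ((𝒞.e i).symm y)) (𝒞.e i x) ∧ cj 𝒞 i (𝒟.cU ζ e) x = 0 := by
  have t := (𝒞.e i).continuousAt_symm ((𝒞.e i).map_source hi.1)
  rw [ContinuousAt, (𝒞.e i).left_inv hi.1] at t
  have ev : (fun y => 𝒟.cU ζ e ((𝒞.e i).symm y)) =ᶠ[𝓝 (𝒞.e i x)] fun _ => 0 := by
    filter_upwards [isOpen_ball.mem_nhds hi.three, t.eventually ((𝒟.isOpen_O hG).mem_nhds hx)]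
      with z z1 z2 using h.U_zero 𝒟 hG e (Or.inl z2) (hj z z1)
  exact ⟨contDiffAt_const.congr_of_eventuallyEq ev, (jet2_congr ev).trans (jet2_const _ _)⟩

theorem Cut.Ujet (h : Cut om ζ a) (hG : Geo S C0 K) (hc : CovOK 𝒟 𝒞) :
    ∃ C, 0 ≤ C ∧ ∀ e c, Nice e c → ∀ x ∈ 𝒟.O, ∀ i, InB 𝒞 i x →
      ContDiffAt ℝ 2 (fun y => 𝒟.cU ζ e ((𝒞.e i).symm y)) (𝒞.e i x) ∧
        ‖cj 𝒞 i (𝒟.cU ζ e) x‖ ≤ C * c := by
  obtain ⟨B, B0, hB⟩ := cs_bd h.ζ_sm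
  refine ⟨4 * B, by positivity, fun e c he x hx i hi => ?_⟩
  have := he.nonneg
  rcases hc i with ⟨j, hj⟩ | hj
  · obtain ⟨-, h1, -, h2, h3, h4⟩ := h.U_col 𝒟 hG he hx hi hj
    refine ⟨h2, ?_⟩
    rcases lt_or_ge (𝒞.e i x).1 6 with h6 | h6
    · rw [h3 h6, mul_assoc]
      exact (norm_smul_jet_le _ _).trans (mul_le_mul_of_nonneg_left (mul_le_mul
        (hB _ ⟨h1.1.le, h6.le⟩) (he.bd j _ ⟨h1.1, h6⟩) (norm_nonneg _) B0) (by norm_num))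
    · rw [h4 (by linarith), norm_zero]; positivity
  · obtain ⟨h1, h2⟩ := h.U_off 𝒟 hG e hx hi hj
    exact ⟨h1, by rw [h2, norm_zero]; positivity⟩

end Vale.Agent.P218F.Core
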