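import Vale.Agent.P218F.CoreAbs

/-!
# The core theorem: the nonlinear operator, the maximum principle, the fixed point, the gluing
-/

open Set Metric Filter Topology Complex
open scoped NNReal ContDiff Real
open Vale.Agent.P272.K.LIN Vale.Agent.P272.K Vale.Agent.P218FT

set_option linter.unusedSectionVars false
set_option maxSynthPendingDepth 3

noncomputable section

namespace Vale.Agent.P218F.Core

section surf

variable {X : Type} [TopologicalSpace X] [ChartedSpace P2 X] [T2Space X] [CompactSpace X]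
  [RSm P2 X] {𝒞 : Cov P2 X} {α : ℝ} {H : Type} [NormedAddCommGroup H] [NormedSpace ℂ H]

/-- the operator as a holomorphic map -/
structure Xi (𝒞 : Cov P2 X) (α : ℝ) (Q : Fin 𝒞.N → P2 → H × J2 P2 ℂ → ℂ)
    (jl : Fin 𝒞.N → Hol (𝒞.w α) ℂ →L[ℂ] Hol (𝒞.w α) (J2 P2 ℂ))
    (Ξ : Hol (𝒞.w α) H × Hol (𝒞.w α) ℂ → Hol (𝒞.w α) ℂ) (δ ρ M κ : ℝ) : Prop where
  pos : 0 < ρ
  M0 : 0 ≤ M
  one : 1 ≤ κ
  le : κ * ρ ≤ δ
  bdj : ∀ (v : Hol (𝒞.w α) H × Hol (𝒞.w α) ℂ) i x, ‖(v.1 x, jl i v.2 x)‖ ≤ κ * ‖v‖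
  hol : DifferentiableOn ℂ Ξ (ball 0 ρ)
  bd : ∀ v ∈ ball 0 ρ, ‖Ξ v‖ ≤ M
  eq : ∀ v ∈ ball 0 ρ, ∀ i x, InB 𝒞 i x → Ξ v x = Q i (𝒞.e i x) (v.1 x, jl i v.2 x)
  zero : Ξ 0 = 0
  der : ∀ v i x, InB 𝒞 i x →
    fderiv ℂ Ξ 0 v x = fderiv ℂ (Q i (𝒞.e i x)) 0 (v.1 x, jl i v.2 x)

namespace QOp

variable {𝒬 : H → (X → ℂ) → X → ℂ} {Q : Fin 𝒞.N → P2 → H × J2 P2 ℂ → ℂ} {R : H → Prop}
  {δ M : ℝ} (h : QOp 𝒞 α 𝒬 Q R δ M)
include h

theorem exists_xi (h0 : 0 < α) {val : Hol (𝒞.w α) ℂ →L[ℂ] Hol (𝒞.w α) ℂ}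
    {jl : Fin 𝒞.N → Hol (𝒞.w α) ℂ →L[ℂ] Hol (𝒞.w α) (J2 P2 ℂ)} {c : Hol (𝒞.w α) ℂ}
    (hs : Sch 𝒞 α Q val jl c) : ∃ Ξ ρ M' κ, Xi 𝒞 α Q jl Ξ δ ρ M' κ := by
  obtain ⟨κ, hκ, hj⟩ : ∃ κ : ℝ, 1 ≤ κ ∧ ∀ i f, ‖jl i f‖ ≤ κ * ‖f‖ := by
    choose k hk0 hk using fun i => (jl i).bound
    obtain ⟨C, hC0, hC⟩ := Cov.exists_le_all k
    exact ⟨C + 1, by linarith, fun i f => (hk i f).trans
      (mul_le_mul_of_nonneg_right (by linarith [hC i]) (norm_nonneg _))⟩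
  have hδ := h.pos
  have hM := h.M0
  have n1 : ∀ v : Hol (𝒞.w α) H × Hol (𝒞.w α) ℂ, ‖v.1‖ ≤ κ * ‖v‖ := fun v =>
    (norm_fst_le v).trans (le_mul_of_one_le_left (norm_nonneg _) hκ)
  have n2 : ∀ (v : Hol (𝒞.w α) H × Hol (𝒞.w α) ℂ) i, ‖jl i v.2‖ ≤ κ * ‖v‖ := fun v i =>
    (hj i v.2).trans (mul_le_mul_of_nonneg_left (norm_snd_le v) (by linarith))
  have b1 : ∀ (v : Hol (𝒞.w α) H × Hol (𝒞.w α) ℂ) i x, ‖(v.1 x, jl i v.2 x)‖ ≤ κ * ‖v‖ :=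
    fun v i x => max_le ((v.1.norm_apply_le x).trans (n1 v)) (((jl i v.2).norm_apply_le x).trans
      (n2 v i))
  have hρ : 0 < δ / (2 * κ) := by positivity
  have e0 : κ * (δ / (2 * κ)) = δ / 2 := by field_simp
  have b0 : ∀ v ∈ ball (0 : Hol (𝒞.w α) H × Hol (𝒞.w α) ℂ) (δ / (2 * κ)), κ * ‖v‖ < δ / 2 :=
    fun v hv => e0 ▸ mul_lt_mul_of_pos_left (mem_ball_zero_iff.1 hv) (by linarith)
  have b2 : ∀ v ∈ ball (0 : Hol (𝒞.w α) H × Hol (𝒞.w α) ℂ) (δ / (2 * κ)), ∀ i x,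
      (v.1 x, jl i v.2 x) ∈ ball (0 : H × J2 P2 ℂ) (δ / 2) := fun v hv i x =>
    mem_ball_zero_iff.2 ((b1 v i x).trans_lt (b0 v hv))
  have hsub : ball (0 : H × J2 P2 ℂ) (δ / 2) ⊆ ball 0 δ := ball_subset_ball (by linarith)
  have e1 : ∀ v ∈ ball (0 : Hol (𝒞.w α) H × Hol (𝒞.w α) ℂ) (δ / (2 * κ)), ∀ i x, InB 𝒞 i x →
      𝒬 (v.1 x) (val v.2) x = Q i (𝒞.e i x) (v.1 x, jl i v.2 x) := fun v hv i x hi => by
    rw [hs.jet _ i x hi]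
    exact h.eq _ (hs.ck _) i x hi _ (((v.1.norm_apply_le x).trans (n1 v)).trans_lt
      (by linarith [b0 v hv]))
  obtain ⟨C, hC, hh⟩ := hol_of_charts 𝒞 h0
  have key : ∀ v ∈ ball (0 : Hol (𝒞.w α) H × Hol (𝒞.w α) ℂ) (δ / (2 * κ)),
      ∃ g : Hol (𝒞.w α) ℂ, (∀ x, g x = 𝒬 (v.1 x) (val v.2) x) ∧ ‖g‖ ≤ C * M + 3 * M := by
    intro v hv
    refine hh _ M (3 * M) hM (by positivity) (fun x => ?_) fun i x x' hx hx' hw => ?_
    · obtain ⟨i, hi⟩ := exists_inB 𝒞 x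
      rw [e1 v hv i x hi]
      exact h.bd i _ hi.three _ (hsub (b2 v hv i x))
    · rw [e1 v hv i x hx, e1 v hv i x' hx']
      have h1 := (h.hld i _ hx.three _ hx'.three _ (hsub (b2 v hv i x))).trans
        (mul_le_mul_of_nonneg_left hw hM)
      have h2 := lip_half (r := δ / 2) (f := Q i (𝒞.e i x')) (M := M)
        (by rw [mul_div_cancel₀ _ two_ne_zero]; exact h.hol i _ hx'.three)
        (by rw [mul_div_cancel₀ _ two_ne_zero]; exact h.bd i _ hx'.three)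
        (b2 v hv i x) (b2 v hv i x')
      have h3 : ‖(v.1 x, jl i v.2 x) - (v.1 x', jl i v.2 x')‖ ≤ δ / 2 * 𝒞.w α x x' :=
        max_le ((v.1.norm_sub_le' x x').trans (mul_le_mul_of_nonneg_right
          ((n1 v).trans (b0 v hv).le) (𝒞.w α x x').2)) (((jl i v.2).norm_sub_le' x x').trans
          (mul_le_mul_of_nonneg_right ((n2 v i).trans (b0 v hv).le) (𝒞.w α x x').2))
      have h4 := h2.trans (mul_le_mul_of_nonneg_left h3 (by positivity))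
      refine (norm_sub_le_norm_sub_add_norm_sub _ _ _).trans ((add_le_add h1 h4).trans
        (le_of_eq ?_))
      field_simp
      ring
  choose! Ξ hΞ hn using key
  have e2 : ∀ v ∈ ball (0 : Hol (𝒞.w α) H × Hol (𝒞.w α) ℂ) (δ / (2 * κ)), ∀ i x, InB 𝒞 i x →
      Ξ v x = Q i (𝒞.e i x) (v.1 x, jl i v.2 x) := fun v hv i x hi =>
    (hΞ v hv x).trans (e1 v hv i x hi)
  obtain ⟨Λ, hΛ⟩ : ∃ Λ : Fin 𝒞.N → X → Hol (𝒞.w α) H × Hol (𝒞.w α) ℂ →L[ℂ] H × J2 P2 ℂ,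
      ∀ i x v, Λ i x v = (v.1 x, jl i v.2 x) :=
    ⟨fun i x => ((evC x).comp (ContinuousLinearMap.fst ℂ _ _)).prod
      ((evC x).comp ((jl i).comp (ContinuousLinearMap.snd ℂ _ _))), fun _ _ _ => rfl⟩
  have hd : DifferentiableOn ℂ Ξ (ball 0 (δ / (2 * κ))) := by
    refine hol_differentiableOn isOpen_ball hn fun x => ?_
    obtain ⟨i, hi⟩ := exists_inB 𝒞 x
    refine ((h.hol i _ hi.three).comp (Λ i x).differentiable.differentiableOn fun v hv => ?_).congr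
      fun v hv => ?_
    · rw [hΛ]; exact hsub (b2 v hv i x)
    · rw [e2 v hv i x hi, Function.comp_apply, hΛ]
  refine ⟨Ξ, _, _, κ, hρ, by positivity, hκ, by linarith, b1, hd, hn, e2, Hol.ext fun x => ?_,
    fun v i x hi => ?_⟩
  · obtain ⟨i, hi⟩ := exists_inB 𝒞 x
    rw [e2 0 (mem_ball_self hρ) i x hi, ← hΛ, map_zero, h.zero i _ hi.three]
    rfl
  · have d1 := (evC x).hasFDerivAt.comp _ (hd.differentiableAt (ball_mem_nhds _ hρ)).hasFDerivAt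
    have d2 : HasFDerivAt (Q i (𝒞.e i x)) (fderiv ℂ (Q i (𝒞.e i x)) 0) (Λ i x 0) := by
      rw [map_zero]; exact (h.diff0 hi.three).hasFDerivAt
    have d3 := d1.unique ((d2.comp _ (Λ i x).hasFDerivAt).congr_of_eventuallyEq (by
      filter_upwards [ball_mem_nhds _ hρ] with v hv
      rw [Function.comp_apply, Function.comp_apply, hΛ, ← e2 v hv i x hi]
      rfl))
    rw [← hΛ]
    exact congrArg (fun T => T v) d3

theorem exists_ell (h0 : 0 < α) : ∃ l > 0, ∀ i x, InB 𝒞 i x → ∀ ξ : P2 →L[ℝ] ℝ,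
    l * ‖ξ‖ ^ 2 ≤ rl (lq (Q i (𝒞.e i x)) 0) (0, 0, ξ.smulRight ξ) := by
  have key : ∀ i, ∃ l > 0, ∀ p ∈ closedBall (𝒞.c i) (2 * 𝒞.r i) ×ˢ sphere (0 : P2 →L[ℝ] ℝ) 1,
      l ≤ rl (lq (Q i p.1) 0) (0, 0, p.2.smulRight p.2) := fun i => by
    have hs : closedBall (𝒞.c i) (2 * 𝒞.r i) ⊆ ball (𝒞.c i) (3 * 𝒞.r i) :=
      closedBall_subset_ball (by linarith [𝒞.r_pos i])
    have c1 : ContinuousOn (fun y => rl (lq (Q i y) 0)) (closedBall (𝒞.c i) (2 * 𝒞.r i)) := by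
      intro y hy
      refine tendsto_iff_norm_sub_tendsto_zero.2 (squeeze_zero' (g := fun z =>
        2 * M / δ * ‖z - y‖ ^ α) (Eventually.of_forall fun _ => norm_nonneg _) ?_ ?_)
      · filter_upwards [self_mem_nhdsWithin] with z hz
        rw [← rl_sub]
        exact (norm_rl_le _).trans ((norm_lq_sub _ _ _ _).trans (h.l_hld (hs hz) (hs hy)))
      · have c0 : Continuous fun z : P2 => 2 * M / δ * ‖z - y‖ ^ α :=
          continuous_const.mul ((continuous_id.sub continuous_const).norm.rpow_const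
            fun _ => Or.inr h0.le)
        simpa [Real.zero_rpow h0.ne'] using (c0.tendsto y).mono_left nhdsWithin_le_nhds
    have c2 : Continuous fun ξ : P2 →L[ℝ] ℝ => ((0, 0, ξ.smulRight ξ) : Jet P2) :=
      continuous_const.prodMk (continuous_const.prodMk
        ((ContinuousLinearMap.smulRightL ℝ P2 (P2 →L[ℝ] ℝ)).continuous₂.comp
          (continuous_id.prodMk continuous_id)))
    refine ((isCompact_closedBall _ _).prod (isCompact_sphere _ _)).exists_forall_le'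
      ((c1.comp continuousOn_fst fun p hp => hp.1).clm_apply
        (c2.comp continuous_snd).continuousOn) fun p hp => h.ell i _ (hs hp.1) _ ?_
    rintro h1
    simpa [h1] using hp.2
  choose l hl hb using key
  obtain ⟨l0, hl0, hle⟩ := Cov.exists_pos_le l hl
  refine ⟨l0, hl0, fun i x hi ξ => ?_⟩
  rcases eq_or_ne ξ 0 with rfl | hξ
  · have : ((0, 0, (0 : P2 →L[ℝ] ℝ).smulRight 0) : Jet P2) = 0 := by
      refine Prod.ext rfl (Prod.ext rfl ?_); ext <;> simp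
    rw [this, map_zero]
    simp
  · have hn := norm_pos_iff.2 hξ
    have h1 := (hle i).trans (hb i (𝒞.e i x, ‖ξ‖⁻¹ • ξ) ⟨ball_subset_closedBall hi.2, by
      simp [norm_smul, hn.ne']⟩)
    have e : ((0, 0, ξ.smulRight ξ) : Jet P2) =
        ‖ξ‖ ^ 2 • ((0, 0, (‖ξ‖⁻¹ • ξ).smulRight (‖ξ‖⁻¹ • ξ)) : Jet P2) := by
      refine Prod.ext (by simp) (Prod.ext (by simp) ?_)
      refine ContinuousLinearMap.ext fun u => ContinuousLinearMap.ext fun v => ?_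
      simp
      field_simp
    rw [e, map_smul, smul_eq_mul, mul_comm]
    exact mul_le_mul_of_nonneg_left h1 (by positivity)

variable {D O : Set X} (hD : IsCompact D) (hO : IsOpen O) (hOD : O ⊆ D) {g : X → ℝ}
  (hg : CkFn P2 3 g) (hp : ∀ x, 0 < g x)
  (sup : ∀ x ∈ O, ∃ i, InB 𝒞 i x ∧ rl (lq (Q i (𝒞.e i x)) 0) (cj 𝒞 i g x) ≤ -1)
include hD hO hOD hg hp sup

/-- the maximum principle for the linearised operator -/
theorem mp_lin (h0 : 0 < α) {d : X → ℂ} (hd : ContinuousOn d D) (hb : ∀ x ∈ D, x ∉ O → d x = 0)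
    (hi : ∀ x ∈ O, ∀ i, InB 𝒞 i x → ContDiffAt ℝ 2 (fun y => d ((𝒞.e i).symm y)) (𝒞.e i x) ∧
      fderiv ℂ (Q i (𝒞.e i x)) 0 (0, cj 𝒞 i d x) = 0) : ∀ x ∈ D, d x = 0 := by
  obtain ⟨l, hl, he⟩ := h.exists_ell h0
  have key : ∀ T : ℂ →L[ℝ] ℝ, (∀ x ∈ O, ∀ i, InB 𝒞 i x → rl (lq (Q i (𝒞.e i x)) 0)
      (jet (fun y => T (d ((𝒞.e i).symm y))) (𝒞.e i x)) = 0) → ∀ x ∈ D, T (d x) = 0 :=
    fun T hT => mp_eq hD hO hOD (T.continuous.comp_continuousOn hd)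
      (ckFn_continuous hg).continuousOn (fun x _ => hp x)
      (fun x hx hx' => by rw [hb x hx hx', map_zero]) fun x hx => by
        obtain ⟨i, hxi, hs⟩ := sup x hx
        exact ⟨𝒞.e i, _, hxi.1, T.contDiff.contDiffAt.comp _ (hi x hx i hxi).1,
          (hg _ (𝒞.mem i) x hxi.1).of_le (by norm_num), hT x hx i hxi, hs.trans_lt (by norm_num),
          fun ξ => le_trans (by positivity) (he i x hxi ξ)⟩
  have e : ∀ x ∈ O, ∀ i, InB 𝒞 i x →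
      (rl (lq (Q i (𝒞.e i x)) 0) (jet (fun y => (d ((𝒞.e i).symm y)).re) (𝒞.e i x)) : ℂ) +
      I * rl (lq (Q i (𝒞.e i x)) 0) (jet (fun y => (d ((𝒞.e i).symm y)).im) (𝒞.e i x)) = 0 :=
    fun x hx i hxi => by
      rw [← h.l_cx hxi.three, ← jet2_re_im (hi x hx i hxi).1]
      exact (hi x hx i hxi).2
  intro x hx
  refine Complex.ext (key reCLM (fun x hx i hxi => ?_) x hx) (key imCLM (fun x hx i hxi => ?_) x hx)
  · simpa using congrArg re (e x hx i hxi)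
  · simpa using congrArg im (e x hx i hxi)

/-- the maximum principle for small real solutions -/
theorem mp (h0 : 0 < α) (h1 : α < 1) : ∃ ρ > 0, ∀ (F : X → H) (u1 u2 : X → ℂ),
    ContinuousOn u1 D → ContinuousOn u2 D → (∀ x ∈ D, x ∉ O → u1 x = u2 x) →
    (∀ x ∈ O, (u1 x).im = 0 ∧ (u2 x).im = 0) →
    (∀ x ∈ O, ∀ i, InB 𝒞 i x → ContDiffAt ℝ 2 (fun y => u1 ((𝒞.e i).symm y)) (𝒞.e i x) ∧
      ContDiffAt ℝ 2 (fun y => u2 ((𝒞.e i).symm y)) (𝒞.e i x) ∧ ‖(F x, cj 𝒞 i u1 x)‖ < ρ ∧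
      ‖(F x, cj 𝒞 i u2 x)‖ < ρ ∧
      Q i (𝒞.e i x) (F x, cj 𝒞 i u1 x) = Q i (𝒞.e i x) (F x, cj 𝒞 i u2 x)) →
    ∀ x ∈ D, u1 x = u2 x := by
  obtain ⟨l, hl, he⟩ := h.exists_ell h0
  obtain ⟨B, hB0, hB⟩ : ∃ B, 0 ≤ B ∧ ∀ i x, InB 𝒞 i x → ‖cj 𝒞 i g x‖ ≤ B :=
    ⟨_, norm_nonneg (𝒞.ofSmooth h0 h1.le g hg), fun i x hi => (congrArg norm
      (J_eq 𝒞 hi (𝒞.ofSmooth h0 h1.le g hg))).symm.trans_le
        ((Hol.norm_apply_le _ x).trans (𝒞.norm_J_le i _))⟩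
  have hδ := h.pos
  have hM := h.M0
  obtain ⟨ρ, hρ, hρ1, hρ2, hρ3⟩ : ∃ ρ > 0, 2 * ρ ≤ δ ∧ 32 * M / δ ^ 2 * ρ * B < 1 ∧
      32 * M / δ ^ 2 * ρ ≤ l := by
    have t1 : ∀ᶠ ρ : ℝ in 𝓝[>] 0, 2 * ρ < δ ∧ 32 * M / δ ^ 2 * ρ * B < 1 ∧
        32 * M / δ ^ 2 * ρ < l := by
      refine mem_nhdsWithin_of_mem_nhds (Eventually.and ?_ (Eventually.and ?_ ?_)) <;>
        exact ContinuousAt.eventually_lt (by fun_prop) continuousAt_const (by simp [hδ, hl.lt])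
    obtain ⟨ρ, ⟨a, b, c⟩, hρ⟩ := (t1.and self_mem_nhdsWithin).exists
    exact ⟨ρ, hρ, a.le, b, c.le⟩
  refine ⟨ρ, hρ, fun F u1 u2 c1 c2 hb hr hi x hx => ?_⟩
  have key := mp_eq (d := fun x => (u1 x - u2 x).re) hD hO hOD
    (continuous_re.comp_continuousOn (c1.sub c2)) (ckFn_continuous hg).continuousOn
    (fun x _ => hp x) (fun x hx hx' => by simp [hb x hx hx']) (fun x hx => by
      obtain ⟨i, hxi, hs⟩ := sup x hx
      obtain ⟨d1, d2, n1, n2, hq⟩ := hi x hx i hxi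
      set a := (F x, cj 𝒞 i u2 x) with ha
      set v : H × J2 P2 ℂ := (0, cj 𝒞 i u1 x - cj 𝒞 i u2 x) with hv
      have e1 : a + ((1 : ℝ) : ℂ) • v = (F x, cj 𝒞 i u1 x) := by simp [ha, hv]
      have hm : ∀ t ∈ Icc (0 : ℝ) 1, ‖a + (t : ℂ) • v‖ < ρ := fun t ht => by
        have := (convex_ball (0 : H × J2 P2 ℂ) ρ).add_smul_mem (mem_ball_zero_iff.2 n2)
          (y := v) (by rw [← one_smul ℂ v, ← ofReal_one, e1]; exact mem_ball_zero_iff.2 n1) ht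
        exact mem_ball_zero_iff.1 this
      have hdf : ∀ t ∈ Icc (0 : ℝ) 1, HasDerivAt (fun s : ℝ => (Q i (𝒞.e i x) (a + (s : ℂ) • v)).re)
          (fderiv ℂ (Q i (𝒞.e i x)) (a + (t : ℂ) • v) v).re t := fun t ht =>
        reCLM.hasFDerivAt.comp_hasDerivAt t (hasDerivAt_ray v ((h.hol i _ hxi.three).differentiableAt
          (isOpen_ball.mem_nhds (mem_ball_zero_iff.2 (by linarith [hm t ht])))))
      obtain ⟨t, ht, h0⟩ := exists_hasDerivAt_eq_zero one_pos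
        (fun t ht => (hdf t ht).continuousAt.continuousWithinAt)
        (by rw [e1, hq]; simp) fun t ht => hdf t (Ioo_subset_Icc_self ht)
      have hA : ‖rl (lq (Q i (𝒞.e i x)) (a + (t : ℂ) • v)) - rl (lq (Q i (𝒞.e i x)) 0)‖ ≤
          32 * M / δ ^ 2 * ρ := by
        rw [← rl_sub]
        exact (norm_rl_le _).trans ((norm_lq_sub _ _ _ _).trans (fderiv_sub_le
          (h.hol i _ hxi.three) (h.bd i _ hxi.three) (hm t (Ioo_subset_Icc_self ht)) hρ1))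
      refine ⟨𝒞.e i, rl (lq (Q i (𝒞.e i x)) (a + (t : ℂ) • v)), hxi.1,
        reCLM.contDiff.contDiffAt.comp _ (d1.sub d2),
        (hg _ (𝒞.mem i) x hxi.1).of_le (by norm_num), ?_, ?_, fun ξ => ?_⟩
      · rw [rl_apply, ← reJ_jet2 (d1.sub d2), jet2_sub d1 d2]
        · exact h0
        · have t1 := (𝒞.e i).continuousAt_symm ((𝒞.e i).map_source hxi.1)
          rw [ContinuousAt, (𝒞.e i).left_inv hxi.1] at t1
          filter_upwards [t1.eventually (hO.mem_nhds hx)] with y hy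
          rw [sub_im, (hr _ hy).1, (hr _ hy).2, sub_zero]
      · have := (le_abs_self _).trans (ContinuousLinearMap.le_of_opNorm_le_of_le _ hA (hB i x hxi))
        rw [_root_.sub_apply] at this
        show rl _ (cj 𝒞 i g x) < 0
        linarith
      · have n3 : ‖((0, 0, ξ.smulRight ξ) : Jet P2)‖ ≤ ‖ξ‖ ^ 2 := by simp [sq]; positivity
        have := (neg_le_abs _).trans (ContinuousLinearMap.le_of_opNorm_le_of_le _ hA n3)
        rw [_root_.sub_apply] at this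
        nlinarith [he i x hxi ξ, sq_nonneg ‖ξ‖]) x hx
  by_cases hxO : x ∈ O
  · exact Complex.ext (by simpa [sub_eq_zero] using key) (by rw [(hr x hxO).1, (hr x hxO).2])
  · exact hb x hx hxO

end QOp

end surf

/-! ### The data as elements of a Hölder space -/

section dat

variable {J ι : Type} [Fintype ι] {X : Type} {w : X → X → ℝ≥0}

/-- norm bounds and holomorphy of the data map -/
structure DatOK {Y : Type} [NormedAddCommGroup Y] [NormedSpace ℂ Y] (C : ℝ)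
    (dat : (J → P2 → ℂ) → (ι → ℂ) → Y) : Prop where
  nonneg : 0 ≤ C
  bd : ∀ e c a, Nice e c → ‖dat e a‖ ≤ C * c + ‖a‖
  sub : ∀ e c e' c' a η, Nice e c → Nice e' c' → 0 ≤ η → (∀ j y, y.1 ∈ Ioo (0 : ℝ) 6 →
    ‖jet2 (e j) y - jet2 (e' j) y‖ ≤ η) → ‖dat e a - dat e' a‖ ≤ C * η
  hol : ∀ (P : Type) [NormedAddCommGroup P] [NormedSpace ℂ P] (U : Set P) (e : P → J → P2 → ℂ)
    (a : P → ι → ℂ) (c : ℝ), IsOpen U → (∀ p ∈ U, Nice (e p) c ∧ ‖a p‖ ≤ c) →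
    (∀ j y, y.1 ∈ Ioo (0 : ℝ) 6 → DifferentiableOn ℂ (fun p => jet1 (e p j) y) U) →
    DifferentiableOn ℂ a U → DifferentiableOn ℂ (fun p => dat (e p) (a p)) U

theorem exists_dat {ℰ : (J → P2 → ℂ) → X → J1 P2 ℂ} {C : ℝ} (hC : 0 ≤ C)
    (pt : ∀ x, (∃ j y, ∃ c : ℝ, y.1 ∈ Ioo (0 : ℝ) 6 ∧ ∀ e, ℰ e x = (c : ℂ) • jet1 (e j) y) ∨
      ∀ e, ℰ e x = 0)
    (hol : ∀ e c, Nice e c → ∃ g : Hol w (J1 P2 ℂ), (∀ x, g x = ℰ e x) ∧ ‖g‖ ≤ C * c) :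
    ∃ dat : (J → P2 → ℂ) → (ι → ℂ) → Hol w (Fib ι), DatOK C dat ∧
      ∀ e c a, Nice e c → ∀ x, dat e a x = (ℰ e x, a) := by
  have h1 : ∀ e : J → P2 → ℂ, ∃ g : Hol w (J1 P2 ℂ), ∀ c, Nice e c →
      (∀ x, g x = ℰ e x) ∧ ‖g‖ ≤ C * c := fun e => by
    by_cases h : ∃ c, Nice e c
    · obtain ⟨c, hc⟩ := h
      obtain ⟨g, hg, -⟩ := hol e c hc
      refine ⟨g, fun c' hc' => ⟨hg, ?_⟩⟩
      obtain ⟨g', hg', hn⟩ := hol e c' hc'
      rwa [show g = g' from Hol.ext fun x => (hg x).trans (hg' x).symm]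
    · exact ⟨0, fun c hc => absurd ⟨c, hc⟩ h⟩
  choose g hg using h1
  have n1 : ∀ u : Hol w (J1 P2 ℂ), ‖Hol.map (ContinuousLinearMap.inl ℝ _ (ι → ℂ)) u‖ ≤ ‖u‖ :=
    fun u => (Hol.norm_map_le _ u).trans
      (mul_le_of_le_one_left (norm_nonneg _) (ContinuousLinearMap.norm_inl_le_one _ _ _))
  obtain ⟨dat, hd⟩ : ∃ dat : (J → P2 → ℂ) → (ι → ℂ) → Hol w (Fib ι), ∀ e a, dat e a =
      Hol.map (ContinuousLinearMap.inl ℝ _ (ι → ℂ)) (g e) + Hol.const (0, a) := ⟨_, fun _ _ => rfl⟩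
  have hv : ∀ e c a, Nice e c → ∀ x, dat e a x = (ℰ e x, a) := fun e c a h x => by
    rw [hd, ← (hg e c h).1 x]
    exact Prod.ext (add_zero _) (zero_add _)
  have hb : ∀ e c a, Nice e c → ‖dat e a‖ ≤ C * c + ‖a‖ := fun e c a h => by
    rw [hd]
    exact norm_add_le_of_le ((n1 _).trans (hg e c h).2) ((Hol.norm_const_le _).trans (by simp))
  refine ⟨dat, ⟨hC, hb, fun e c e' c' a η h h' hη hs => ?_, fun P _ _ U e a c hU hn h1 h2 => ?_⟩, hv⟩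
  · have hN : Nice (fun j y => e j y - e' j y) η := ⟨hη, fun j y hy => (h.c2 j y hy).sub
      (h'.c2 j y hy), fun j y => by rw [h.per, h'.per], fun j y hy => by
        rw [jet2_sub (h.c2 j y hy) (h'.c2 j y hy)]; exact hs j y hy⟩
    have e1 : dat e a - dat e' a = dat (fun j y => e j y - e' j y) 0 := Hol.ext fun x => by
      rw [Hol.sub_apply, hv e c a h, hv e' c' a h', hv _ η 0 hN, Prod.mk_sub_mk, sub_self]
      rcases pt x with ⟨j, y, t, hy, ht⟩ | ht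
      · rw [ht, ht, ht, ← smul_sub, ← jet2_one, ← jet2_one, ← jet2_one,
          jet2_sub (h.c2 j y hy) (h'.c2 j y hy)]
        rfl
      · rw [ht, ht, ht, sub_zero]
    simpa [e1] using hb _ η 0 hN
  · refine hol_differentiableOn hU (M := C * c + c) (fun p hp => (hb _ c _ (hn p hp).1).trans
      (add_le_add le_rfl (hn p hp).2)) fun x => ?_
    refine DifferentiableOn.congr (DifferentiableOn.prodMk ?_ h2) fun p hp => hv _ c _ (hn p hp).1 x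
    rcases pt x with ⟨j, y, t, hy, ht⟩ | ht
    · simp only [ht]
      exact (h1 j y hy).const_smul (t : ℂ)
    · simp only [ht]
      exact differentiableOn_const _

end dat

/-! ### The fixed point -/

section fp

variable {C0 : Set E3} [CompactSpace C0] {J G ι : Type} [NormedAddCommGroup G] [NormedSpace ℂ G]
  [Fintype ι] {Z Y : Type} [NormedAddCommGroup Z] [NormedSpace ℂ Z] [NormedAddCommGroup Y]
  [NormedSpace ℂ Y]

/-- the nonlinear system -/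
def sys (arg : Z × (ι → ℂ) →L[ℂ] Arg C0 G ι) (dat : (J → P2 → ℂ) → (ι → ℂ) → Y) (Ξ : Y × Z → Z)
    (D : Dat C0 J G ι) (s : Z × (ι → ℂ)) : Z × (ι → ℂ) :=
  (Ξ (dat (D.E (arg s).2.1) s.2, s.1), D.B (arg s))

/-- the solution operator of the nonlinear system -/
structure FP (E' : G →ₗ[ℂ] J → P2 → ℂ) (B' : Arg C0 G ι →L[ℂ] ι → ℂ)
    (arg : Z × (ι → ℂ) →L[ℂ] Arg C0 G ι) (dat : (J → P2 → ℂ) → (ι → ℂ) → Y) (Ξ : Y × Z → Z)
    (T : (Z × (ι → ℂ)) ≃L[ℂ] Z × (ι → ℂ)) (C ρ2 ε ρ C' : ℝ)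
    (sol : Dat C0 J G ι → Z × (ι → ℂ)) : Prop where
  norm : ∀ D, Adm E' B' ε ρ D → ‖sol D‖ ≤ ρ / 2 ∧ ‖arg (sol D)‖ ≤ ρ / 2
  sm : ∀ D, Adm E' B' ε ρ D → ∀ s, ‖s‖ < ρ → ‖arg s‖ < ρ → ∃ c, Nice (D.E (arg s).2.1) c ∧
    C * c < ρ2 ∧ ‖(dat (D.E (arg s).2.1) s.2, s.1)‖ < ρ2
  eq : ∀ D, Adm E' B' ε ρ D → sys arg dat Ξ D (sol D) = 0
  inv : ∀ D, Adm E' B' ε ρ D → ∀ A : Set (Z × (ι → ℂ)), IsClosed A → 0 ∈ A →
    (∀ s ∈ A, ‖s‖ < ρ → ‖arg s‖ < ρ → s + T.symm (sys arg dat Ξ D s) ∈ A) → sol D ∈ A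
  small : ∀ D, Adm E' B' ε ρ D → ∀ η, (∀ j y, y.1 ∈ Ioo (0 : ℝ) 6 → ‖jet2 (D.E 0 j) y‖ ≤ η) →
    ‖D.B 0‖ ≤ η → ‖sol D‖ ≤ C' * η
  stab : ∀ D D', Adm E' B' ε ρ D → Adm E' B' ε ρ D' → ∀ η,
    (∀ j y, y.1 ∈ Ioo (0 : ℝ) 6 →
      ‖jet2 (D.E (arg (sol D')).2.1 j) y - jet2 (D'.E (arg (sol D')).2.1 j) y‖ ≤ η) →
    ‖D.B (arg (sol D'))‖ ≤ η → ‖sol D - sol D'‖ ≤ C' * η
  hol : ∀ (P : Type) [NormedAddCommGroup P] [NormedSpace ℂ P] (U : Set P) (D : P → Dat C0 J G ι),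
    IsOpen U → (∀ p ∈ U, Adm E' B' ε ρ (D p)) →
    (∀ j y, y.1 ∈ Ioo (0 : ℝ) 6 →
      DifferentiableOn ℂ (fun q : G × P => jet1 ((D q.2).E q.1 j) y) (ball 0 ρ ×ˢ U)) →
    DifferentiableOn ℂ (fun q : Arg C0 G ι × P => (D q.2).B q.1) (ball 0 ρ ×ˢ U) →
    DifferentiableOn ℂ (fun p => sol (D p)) U

variable {E' : G →ₗ[ℂ] J → P2 → ℂ} {B' : Arg C0 G ι →L[ℂ] ι → ℂ}
  {arg : Z × (ι → ℂ) →L[ℂ] Arg C0 G ι} {dat : (J → P2 → ℂ) → (ι → ℂ) → Y} {Ξ : Y × Z → Z}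
  {T : (Z × (ι → ℂ)) ≃L[ℂ] Z × (ι → ℂ)} {C CE ρ1 M θ ρ : ℝ}

theorem norm_g_le (v : Arg C0 G ι) : ‖v.2.1‖ ≤ ‖v‖ := (norm_fst_le _).trans (norm_snd_le v)

theorem Adm.nice {D : Dat C0 J G ι} (h : Adm E' B' (θ * ρ) ρ D) (hθ1 : θ ≤ 1)
    (hE : ∀ g, Nice (E' g) (CE * ‖g‖)) (hCE : 0 ≤ CE) {g : G} (hg : ‖g‖ < ρ) :
    Nice (D.E g) ((CE + 1) * ρ) := by
  have hρ : 0 < ρ := (norm_nonneg g).trans_lt hg
  refine ⟨by positivity, h.c2 g hg, h.per g hg, fun j y hy => ?_⟩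
  have h1 := norm_le_norm_add_norm_sub' (jet2 (D.E g j) y) (jet2 (E' g j) y)
  have h2 := h.dev g hg j y hy
  have h3 := (hE g).bd j y hy
  nlinarith

theorem dat_le (hd : DatOK C dat) {e : J → P2 → ℂ} (he : Nice e ((CE + 1) * ρ)) (hCE : 0 ≤ CE)
    {s : Z × (ι → ℂ)} (hs : ‖s‖ < ρ) : ‖(dat e s.2, s.1)‖ ≤ (C * (CE + 1) + 1) * ρ := by
  have hρ : 0 < ρ := (norm_nonneg s).trans_lt hs
  have := hd.nonneg
  have h1 : 0 ≤ C * ((CE + 1) * ρ) := by positivity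
  refine max_le ((hd.bd _ _ _ he).trans ?_) ?_
  · nlinarith [norm_snd_le s]
  · nlinarith [norm_fst_le s]

theorem sys_est (hd : DatOK C dat) (hE : ∀ g, Nice (E' g) (CE * ‖g‖)) (hCE : 0 ≤ CE)
    (hol : DifferentiableOn ℂ Ξ (ball 0 ρ1)) (bd : ∀ v ∈ ball 0 ρ1, ‖Ξ v‖ ≤ M) (zero : Ξ 0 = 0)
    (hT : ∀ s, T s = -(fderiv ℂ Ξ 0 (dat (E' (arg s).2.1) s.2, s.1), B' (arg s)))
    (hθ : 0 ≤ θ) (hθ1 : θ ≤ 1) (hρ : (C * (CE + 1) + 1) * ρ < ρ1)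
    {D : Dat C0 J G ι} (h : Adm E' B' (θ * ρ) ρ D) {s : Z × (ι → ℂ)} (hs : ‖s‖ < ρ)
    (ha : ‖arg s‖ < ρ) : ‖T s + sys arg dat Ξ D s‖ ≤
      (4 * M / ρ1 ^ 2 * (C * (CE + 1) + 1) ^ 2 + 2 * M / ρ1 * C + 1) * ((ρ + θ) * ρ) := by
  have ρ0 : 0 < ρ := (norm_nonneg s).trans_lt hs
  have hC := hd.nonneg
  have ρ10 : 0 < ρ1 := lt_of_le_of_lt (by positivity) hρ
  have M0 : 0 ≤ M := (norm_nonneg _).trans (bd 0 (mem_ball_self ρ10))
  have hg := (norm_g_le _).trans_lt ha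
  have hN := h.nice hθ1 hE hCE hg
  have h1 := dat_le hd hN hCE hs
  have h2 := rem_le hol bd (mem_ball_zero_iff.2 (h1.trans_lt hρ))
  rw [zero, sub_zero, sub_zero] at h2
  have h3 : ‖(dat (D.E (arg s).2.1) s.2, s.1) - (dat (E' (arg s).2.1) s.2, s.1)‖ ≤ C * (θ * ρ) := by
    rw [Prod.mk_sub_mk, sub_self, Prod.norm_mk, norm_zero]
    exact max_le (hd.sub _ _ _ _ _ _ hN (hE _) (by positivity) (h.dev _ hg)) (by positivity)
  have h4 := ContinuousLinearMap.le_of_opNorm_le_of_le _ (fderiv_le ρ10 hol bd) h3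
  rw [map_sub] at h4
  have h5 := (norm_sub_le_norm_sub_add_norm_sub _ _ _).trans (add_le_add (h2.trans
    (mul_le_mul_of_nonneg_left (pow_le_pow_left₀ (norm_nonneg _) h1 2) (by positivity))) h4)
  have a0 : 0 ≤ 4 * M / ρ1 ^ 2 * (C * (CE + 1) + 1) ^ 2 := by positivity
  have b0 : 0 ≤ 2 * M / ρ1 * C := by positivity
  have c0 : 0 ≤ θ * ρ := by positivity
  have d0 : 0 ≤ ρ * ρ := by positivity
  rw [hT, neg_add_eq_sub]
  refine max_le (h5.trans ?_) ((h.devB _ ha).trans ?_)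
  · nlinarith [mul_nonneg a0 c0, mul_nonneg b0 d0]
  · nlinarith [mul_nonneg a0 c0, mul_nonneg b0 d0, mul_nonneg a0 d0, mul_nonneg b0 c0]

theorem sys_hol (hd : DatOK C dat) (hE : ∀ g, Nice (E' g) (CE * ‖g‖)) (hCE : 0 ≤ CE)
    (hol : DifferentiableOn ℂ Ξ (ball 0 ρ1)) (hθ1 : θ ≤ 1)
    (hρ : (C * (CE + 1) + 1) * ρ < ρ1) {r : ℝ}
    (hr : ∀ s ∈ ball (0 : Z × (ι → ℂ)) r, ‖s‖ < ρ ∧ ‖arg s‖ < ρ)
    {P : Type} [NormedAddCommGroup P] [NormedSpace ℂ P] {U : Set P} {D : P → Dat C0 J G ι}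
    (hU : IsOpen U) (h : ∀ p ∈ U, Adm E' B' (θ * ρ) ρ (D p))
    (h1 : ∀ j y, y.1 ∈ Ioo (0 : ℝ) 6 →
      DifferentiableOn ℂ (fun q : G × P => jet1 ((D q.2).E q.1 j) y) (ball 0 ρ ×ˢ U))
    (h2 : DifferentiableOn ℂ (fun q : Arg C0 G ι × P => (D q.2).B q.1) (ball 0 ρ ×ˢ U)) :
    DifferentiableOn ℂ (fun q : (Z × (ι → ℂ)) × P => sys arg dat Ξ (D q.2) q.1)
      (ball 0 r ×ˢ U) := by
  have hg : ∀ q ∈ ball (0 : Z × (ι → ℂ)) r ×ˢ U, ‖(arg q.1).2.1‖ < ρ := fun q hq =>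
    (norm_g_le _).trans_lt (hr _ hq.1).2
  have hN : ∀ q ∈ ball (0 : Z × (ι → ℂ)) r ×ˢ U, Nice ((D q.2).E (arg q.1).2.1) ((CE + 1) * ρ) :=
    fun q hq => (h _ hq.2).nice hθ1 hE hCE (hg q hq)
  have d1 := hd.hol ((Z × (ι → ℂ)) × P) (ball 0 r ×ˢ U) (fun q => (D q.2).E (arg q.1).2.1)
    (fun q => q.1.2) ((CE + 1) * ρ) (isOpen_ball.prod hU) (fun q hq => ⟨hN q hq, by
      have := (norm_snd_le _).trans_lt (hr _ hq.1).1
      nlinarith [norm_nonneg q.1.2]⟩) (fun j y hy => (h1 j y hy).comp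
        (f := fun q : (Z × (ι → ℂ)) × P => ((arg q.1).2.1, q.2)) (by fun_prop)
        fun q hq => ⟨mem_ball_zero_iff.2 (hg q hq), hq.2⟩) (by fun_prop)
  refine DifferentiableOn.prodMk (hol.comp (d1.prodMk (by fun_prop)) fun q hq =>
    mem_ball_zero_iff.2 ((dat_le hd (hN q hq) hCE (hr _ hq.1).1).trans_lt hρ)) ?_
  exact h2.comp (f := fun q : (Z × (ι → ℂ)) × P => (arg q.1, q.2)) (by fun_prop)
    fun q hq => ⟨mem_ball_zero_iff.2 (hr _ hq.1).2, hq.2⟩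

theorem exists_fp [CompleteSpace Z] (hd : DatOK C dat) (hE : ∀ g, Nice (E' g) (CE * ‖g‖))
    (hCE : 0 ≤ CE) (hρ1 : 0 < ρ1) (hol : DifferentiableOn ℂ Ξ (ball 0 ρ1))
    (bd : ∀ v ∈ ball 0 ρ1, ‖Ξ v‖ ≤ M) (zero : Ξ 0 = 0)
    (hT : ∀ s, T s = -(fderiv ℂ Ξ 0 (dat (E' (arg s).2.1) s.2, s.1), B' (arg s)))
    {ρ2 : ℝ} (hρ2 : 0 < ρ2) : ∃ θ > 0, ∃ ρ0 > 0, ∃ C', ∀ ρ, 0 < ρ → ρ ≤ ρ0 →
      ∃ sol, FP E' B' arg dat Ξ T C ρ2 (θ * ρ) ρ C' sol := by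
  have hC := hd.nonneg
  have M0 : 0 ≤ M := (norm_nonneg _).trans (bd 0 (mem_ball_self hρ1))
  obtain ⟨k, hk1, hk⟩ : ∃ k, 1 ≤ k ∧ ∀ s, ‖arg s‖ ≤ k * ‖s‖ := ⟨‖arg‖ + 1, by simp,
    fun s => arg.le_of_opNorm_le (by linarith) s⟩
  obtain ⟨t, ht0, ht⟩ := (T.symm : Z × (ι → ℂ) →L[ℂ] Z × (ι → ℂ)).bound
  have ht : ∀ s, ‖T.symm s‖ ≤ t * ‖s‖ := ht
  obtain ⟨C1, hC1⟩ : ∃ C1, C1 = C * (CE + 1) + 1 := ⟨_, rfl⟩
  obtain ⟨A, hA⟩ : ∃ A, A = 4 * M / ρ1 ^ 2 * C1 ^ 2 + 2 * M / ρ1 * C + 1 := ⟨_, rfl⟩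
  have C10 : 0 < C1 := by rw [hC1]; positivity
  have A0 : 0 < A := by rw [hA]; positivity
  obtain ⟨θ, ⟨θ1, θ2, θ3, θ4⟩, θ0⟩ : ∃ θ : ℝ, (θ < 1 ∧ C1 * θ < ρ1 / 2 ∧ C1 * θ < ρ2 ∧
      t * A * (2 * θ) < 1 / (8 * k)) ∧ 0 < θ := by
    refine (Eventually.and (mem_nhdsWithin_of_mem_nhds (Eventually.and ?_ (Eventually.and ?_
      (Eventually.and ?_ ?_)))) (self_mem_nhdsWithin (s := Ioi (0 : ℝ)) (a := 0))).exists <;>
      exact ContinuousAt.eventually_lt (by fun_prop) continuousAt_const (by simp <;> linarith)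
  refine ⟨θ, θ0, θ, θ0, 2 * (t * (4 * M / ρ1 * C + 1)), fun ρ ρ0 hρ => ?_⟩
  have s1 : C1 * ρ < ρ1 / 2 := (mul_le_mul_of_nonneg_left hρ C10.le).trans_lt θ2
  have s2 : (C * (CE + 1) + 1) * ρ < ρ1 := by rw [← hC1]; linarith
  obtain ⟨r, hr⟩ : ∃ r, r = ρ / (2 * k) := ⟨_, rfl⟩
  have r0 : 0 < r := by rw [hr]; positivity
  have e1 : k * (2 * r) = ρ := by rw [hr]; field_simp
  have hb : ∀ s ∈ ball (0 : Z × (ι → ℂ)) (2 * r), ‖s‖ < ρ ∧ ‖arg s‖ < ρ := fun s hs => by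
    have h1 := mul_lt_mul_of_pos_left (mem_ball_zero_iff.1 hs) (by linarith : 0 < k)
    have := hk s
    constructor <;> nlinarith [norm_nonneg s]
  have hb4 : ∀ s : Z × (ι → ℂ), ‖s‖ ≤ r / 4 → s ∈ ball (0 : Z × (ι → ℂ)) r := fun s hs =>
    mem_ball_zero_iff.2 (by linarith)
  have hsub : ball (0 : Z × (ι → ℂ)) r ⊆ ball 0 (2 * r) := ball_subset_ball (by linarith)
  have key : ∀ D, Adm E' B' (θ * ρ) ρ D → _ := fun D h => exists_fix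
    (R := fun s => s + T.symm (sys arg dat Ξ D s)) r0 (differentiableOn_id.add
      (T.symm.differentiable.comp_differentiableOn ((sys_hol (D := fun _ : ℂ => D) hd hE hCE hol
        θ1.le s2 hb isOpen_univ (fun _ _ => h)
        (fun j y hy => (h.hol j y hy).comp differentiableOn_fst fun q hq => hq.1)
        (h.holB.comp differentiableOn_fst fun q hq => hq.1)).comp (f := fun s => (s, (0 : ℂ)))
        (by fun_prop) fun s hs => ⟨hs, trivial⟩))) fun s hs => by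
      have h1 := sys_est hd hE hCE hol bd zero hT θ0.le θ1.le s2 h (hb s hs).1 (hb s hs).2
      rw [← hC1, ← hA] at h1
      have h2 := (ht _).trans (mul_le_mul_of_nonneg_left h1 ht0.le)
      rw [map_add, T.symm_apply_apply] at h2
      refine h2.trans ?_
      have e2 : r / 4 = 1 / (8 * k) * ρ := by rw [hr]; field_simp; ring
      have : t * A * (ρ + θ) ≤ t * A * (2 * θ) := by gcongr; linarith
      rw [e2]
      nlinarith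
  choose! sol n1 n2 n3 n4 n5 using key
  have hz : ∀ D, Adm E' B' (θ * ρ) ρ D → sys arg dat Ξ D (sol D) = 0 := fun D h =>
    T.symm.map_eq_zero_iff.1 (add_eq_left.1 (n2 D h))
  have hv : ∀ D, Adm E' B' (θ * ρ) ρ D → ∀ s, ‖s‖ < ρ → ‖arg s‖ < ρ →
      ‖(dat (D.E (arg s).2.1) s.2, s.1)‖ ≤ C1 * ρ := fun D h s h1 h2 =>
    hC1 ▸ dat_le hd (h.nice θ1.le hE hCE ((norm_g_le _).trans_lt h2)) hCE h1
  have lip : ∀ v v' : Y × Z, ‖v‖ < ρ1 / 2 → ‖v'‖ < ρ1 / 2 → ‖Ξ v - Ξ v'‖ ≤ 4 * M / ρ1 * ‖v - v'‖ :=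
    fun v v' h1 h2 => (lip_half (r := ρ1 / 2) (by rwa [mul_div_cancel₀ _ two_ne_zero])
      (by rwa [mul_div_cancel₀ _ two_ne_zero]) (mem_ball_zero_iff.2 h1)
      (mem_ball_zero_iff.2 h2)).trans (le_of_eq (by field_simp; ring))
  have fin : ∀ D, Adm E' B' (θ * ρ) ρ D → ∀ s ∈ ball (0 : Z × (ι → ℂ)) r, ∀ v' η, ‖v'‖ < ρ1 / 2 →
      Ξ v' = 0 → ‖(dat (D.E (arg s).2.1) s.2, s.1) - v'‖ ≤ C * η → ‖D.B (arg s)‖ ≤ η →
      ‖s - sol D‖ ≤ 2 * (t * (4 * M / ρ1 * C + 1)) * η := fun D h s hs v' η h1 h2 h3 h4 => by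
    have η0 : 0 ≤ η := (norm_nonneg _).trans h4
    have h5 := (lip _ v' ((hv D h s (hb s (hsub hs)).1 (hb s (hsub hs)).2).trans_lt s1) h1).trans
      (mul_le_mul_of_nonneg_left h3 (by positivity))
    rw [h2, sub_zero] at h5
    have b0 : 0 ≤ 4 * M / ρ1 * C * η := by positivity
    have h6 : ‖sys arg dat Ξ D s‖ ≤ (4 * M / ρ1 * C + 1) * η :=
      max_le (h5.trans (by linarith)) (h4.trans (by linarith))
    have h7 := n4 D h s hs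
    rw [sub_add_cancel_left, norm_neg] at h7
    have h8 := (ht _).trans (mul_le_mul_of_nonneg_left h6 ht0.le)
    linarith
  refine ⟨sol, fun D h => ?_, fun D h s h1 h2 => ⟨_, h.nice θ1.le hE hCE
    ((norm_g_le _).trans_lt h2), ?_, (hv D h s h1 h2).trans_lt ?_⟩, hz,
    fun D h A h1 h2 h3 => n5 D h A h1 h2 fun s hs hn => h3 s hs (hb s (hsub (hb4 s hn))).1
      (hb s (hsub (hb4 s hn))).2, fun D h η h1 h2 => ?_, fun D D' h h' η h1 h2 => ?_,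
    fun P _ _ U D hU h h1 h2 p hp => ?_⟩
  · have := n1 D h
    have := hk (sol D)
    constructor <;> nlinarith [norm_nonneg (sol D)]
  · have := mul_le_mul_of_nonneg_left hρ C10.le
    rw [hC1] at this θ3
    nlinarith
  · exact (mul_le_mul_of_nonneg_left hρ C10.le).trans_lt θ3
  · have η0 : 0 ≤ η := (norm_nonneg _).trans h2
    have := fin D h 0 (mem_ball_self r0) 0 η (by simpa using hρ1) zero (by
      rw [map_zero, sub_zero]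
      exact max_le (by simpa using hd.bd _ η 0 ⟨η0, h.c2 0 (by simpa), h.per 0 (by simpa), h1⟩)
        (by simpa using mul_nonneg hC η0)) (by rwa [map_zero])
    rwa [zero_sub, norm_neg] at this
  · have η0 : 0 ≤ η := (norm_nonneg _).trans h2
    have m := hb4 _ (n1 D' h')
    have g1 := (norm_g_le _).trans_lt (hb _ (hsub m)).2
    rw [norm_sub_rev]
    refine fin D h _ m _ η ((hv D' h' _ (hb _ (hsub m)).1 (hb _ (hsub m)).2).trans_lt s1)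
      (congrArg Prod.fst (hz D' h')) ?_ h2
    rw [Prod.mk_sub_mk, sub_self, Prod.norm_mk, norm_zero]
    exact max_le (hd.sub _ _ _ _ _ _ (h.nice θ1.le hE hCE g1) (h'.nice θ1.le hE hCE g1)
      η0 h1) (by positivity)
  · refine (fix_differentiableAt (R := fun q => q.1 + T.symm (sys arg dat Ξ (D q.2) q.1))
      (isOpen_ball.mem_nhds (hb4 _ (n1 _ (h p hp)))) ?_ ?_).differentiableWithinAt
    · filter_upwards [hU.mem_nhds hp] with q hq using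
        ⟨hb4 _ (n1 _ (h q hq)), n2 _ (h q hq), n3 _ (h q hq)⟩
    · exact differentiableAt_fst.add (T.symm.differentiableAt.comp _ ((sys_hol hd hE hCE hol
        θ1.le s2 hb hU h h1 h2).differentiableAt ((isOpen_ball.prod hU).mem_nhds
          ⟨hsub (hb4 _ (n1 _ (h p hp))), hp⟩)))

end fp

end Vale.Agent.P218F.Core
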