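import Vale.Agent.P218F.CoreGlue

/-!
# The core theorem: traces, the linearised system, the gluing
-/

open Set Metric Filter Topology Complex
open scoped NNReal ContDiff Real
open Vale.Agent.P272.K.LIN Vale.Agent.P272.K Vale.Agent.P218FT

set_option linter.unusedSectionVars false
set_option maxSynthPendingDepth 3

noncomputable section

namespace Vale.Agent.P218F.Core

/-! ### Traces -/

theorem per_hol {Z V : Type} [NormedAddCommGroup Z] [NormedAddCommGroup V] {α : ℝ} (h0 : 0 < α)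
    (F : Z → ℝ → V) (hp : ∀ z, Function.Periodic (F z) (2 * π))
    (h : ∀ θ0, ∃ r > 0, ∃ C, 0 ≤ C ∧ ∀ z, ∀ θ ∈ ball θ0 r, ‖F z θ‖ ≤ C * ‖z‖ ∧
      ∀ θ' ∈ ball θ0 r, ‖F z θ - F z θ'‖ ≤ C * ‖z‖ * |θ - θ'| ^ α) :
    ∃ C, 0 ≤ C ∧ ∀ z θ, ‖F z θ‖ ≤ C * ‖z‖ ∧ ∀ θ', ‖F z θ - F z θ'‖ ≤ C * ‖z‖ * |θ - θ'| ^ α := by
  choose r hr C hC h using h
  obtain ⟨t, -, ht⟩ := (isCompact_Icc (a := (0 : ℝ)) (b := 2 * π)).elim_nhds_subcover
    (fun θ => ball θ (r θ / 2)) fun θ _ => ball_mem_nhds _ (half_pos (hr θ))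
  obtain ⟨δ, hδ, hδr⟩ : ∃ δ > 0, ∀ θ ∈ t, δ ≤ r θ / 2 := by
    rcases t.eq_empty_or_nonempty with rfl | hne
    · exact ⟨1, one_pos, by simp⟩
    · obtain ⟨θ, -, hθ⟩ := t.exists_min_image (fun θ => r θ / 2) hne
      exact ⟨_, half_pos (hr θ), hθ⟩
  have hA : ∀ θ ∈ t, C θ ≤ ∑ θ ∈ t, C θ := fun θ hθ => Finset.single_le_sum (fun θ _ => hC θ) hθ
  have A0 : 0 ≤ ∑ θ ∈ t, C θ := Finset.sum_nonneg fun θ _ => hC θ
  generalize ∑ θ ∈ t, C θ = A at hA A0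
  have key : ∀ θ, ∃ k : ℤ, ∃ θ0 ∈ t, θ - k • (2 * π) ∈ ball θ0 (r θ0 / 2) := fun θ => by
    have := ht (Ico_subset_Icc_self (by
      simpa only [zero_add] using toIcoMod_mem_Ico Real.two_pi_pos 0 θ))
    obtain ⟨θ0, h1, h2⟩ := mem_iUnion₂.1 this
    exact ⟨toIcoDiv Real.two_pi_pos 0 θ, θ0, h1, h2⟩
  have b1 : ∀ z θ, ‖F z θ‖ ≤ A * ‖z‖ := fun z θ => by
    obtain ⟨k, θ0, h1, h2⟩ := key θ
    rw [← (hp z).sub_zsmul_eq k]
    exact (h θ0 z _ (ball_subset_ball (half_le_self (hr θ0).le) h2)).1.trans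
      (mul_le_mul_of_nonneg_right (hA θ0 h1) (norm_nonneg _))
  have p0 : 0 ≤ 2 * δ ^ (-α) := by positivity
  refine ⟨A * (1 + 2 * δ ^ (-α)), by positivity, fun z θ => ⟨(b1 z θ).trans ?_, fun θ' => ?_⟩⟩
  · gcongr
    exact le_mul_of_one_le_right A0 (by linarith)
  have q0 : 0 ≤ A * ‖z‖ := by positivity
  have q1 : 0 ≤ |θ - θ'| ^ α := by positivity
  rcases lt_or_ge |θ - θ'| δ with hd | hd
  · obtain ⟨k, θ0, h1, h2⟩ := key θ
    have h3 : θ' - k • (2 * π) ∈ ball θ0 (r θ0) := by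
      have h4 := dist_triangle (θ' - k • (2 * π)) (θ - k • (2 * π)) θ0
      rw [dist_sub_right, Real.dist_eq θ' θ, abs_sub_comm] at h4
      have := hδr θ0 h1
      have := mem_ball.1 h2
      exact mem_ball.2 (by linarith)
    have h5 := (h θ0 z _ (ball_subset_ball (half_le_self (hr θ0).le) h2)).2 _ h3
    rw [(hp z).sub_zsmul_eq k, (hp z).sub_zsmul_eq k, sub_sub_sub_cancel_right] at h5
    refine h5.trans ?_
    gcongr
    exact (hA θ0 h1).trans (le_mul_of_one_le_right A0 (by linarith))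
  · have h2 : 1 ≤ δ ^ (-α) * |θ - θ'| ^ α := by
      rw [Real.rpow_neg hδ.le, inv_mul_eq_div, one_le_div (by positivity)]
      gcongr
    have h3 := norm_sub_le_of_le (b1 z θ) (b1 z θ')
    nlinarith [mul_nonneg q0 q1, mul_le_mul_of_nonneg_left h2 q0]

theorem jet2_transl {E V : Type} [NormedAddCommGroup E] [NormedSpace ℝ E] [NormedAddCommGroup V]
    [NormedSpace ℝ V] (f : E → V) (c y : E) : jet2 (fun z => f (z + c)) y = jet2 f (y + c) := by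
  have h1 : fderiv ℝ (fun z => f (z + c)) = fun z => fderiv ℝ f (z + c) :=
    funext fun z => fderiv_comp_add_right c
  unfold jet2
  rw [h1, fderiv_comp_add_right c]

theorem trace_deriv {u : P2 → ℂ} (hu : ∀ θ, ContDiffAt ℝ 2 u (0, θ)) :
    ContDiff ℝ 2 (fun θ => u (0, θ)) ∧ ∀ θ, deriv (fun θ => u (0, θ)) θ = (jet2 u (0, θ)).2.1 (0, 1) ∧
      deriv (deriv fun θ => u (0, θ)) θ = (jet2 u (0, θ)).2.2 (0, 1) (0, 1) := by
  have d0 : ∀ θ : ℝ, HasDerivAt (fun θ : ℝ => ((0 : ℝ), θ)) (0, 1) θ := fun θ =>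
    (hasDerivAt_const θ 0).prodMk (hasDerivAt_id θ)
  have d1 : deriv (fun θ => u (0, θ)) = fun θ => fderiv ℝ u (0, θ) (0, 1) := funext fun θ =>
    (((hu θ).differentiableAt (by simp)).hasFDerivAt.comp_hasDerivAt θ (d0 θ)).deriv
  refine ⟨contDiff_iff_contDiffAt.2 fun θ => (hu θ).comp θ (by fun_prop), fun θ =>
    ⟨congrFun d1 θ, ?_⟩⟩
  rw [d1]
  simpa [jet2] using (((diff_fderiv (hu θ)).hasFDerivAt.comp_hasDerivAt θ (d0 θ)).clm_apply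
    (hasDerivAt_const θ ((0, 1) : P2))).deriv

theorem compact_prod {M A B : Type*} [Zero M] [TopologicalSpace M] [TopologicalSpace A]
    [TopologicalSpace B] {f : M → A} {g : M → B} (hf : IsCompactOperator f)
    (hg : IsCompactOperator g) : IsCompactOperator fun x => (f x, g x) := by
  obtain ⟨K, hK, h⟩ := hf
  obtain ⟨K', hK', h'⟩ := hg
  exact ⟨K ×ˢ K', hK.prod hK', inter_mem h h'⟩

theorem exists_T_abs {Z Y W A : Type*} [NormedAddCommGroup Z] [NormedSpace ℂ Z] [CompleteSpace Z]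
    [NormedAddCommGroup Y] [NormedSpace ℂ Y] [NormedAddCommGroup W] [NormedSpace ℂ W]
    [NormedAddCommGroup A] [NormedSpace ℂ A] [CompleteSpace A] [LocallyCompactSpace A]
    (F : Y × Z →L[ℂ] Z) (L : W →L[ℂ] Y) (g : Z × A →L[ℂ] W) (hg : IsCompactOperator g)
    {V : Z →L[ℂ] Z} (B : Z × A →L[ℂ] A) (hV : IsCompactOperator V) (hF : ∀ f, F (0, f) = V f - f)
    (hi : ∀ s, F (L (g s), s.1) = 0 → B s = 0 → s = 0) :
    ∃ T : (Z × A) ≃L[ℂ] Z × A, ∀ s, T s = -(F (L (g s), s.1), B s) := by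
  let K := (((F.comp (ContinuousLinearMap.inl ℂ _ _)).comp L).comp g +
    V.comp (ContinuousLinearMap.fst ℂ _ _)).prod (B + ContinuousLinearMap.snd ℂ _ _)
  have k : IsCompactOperator K := compact_prod
    ((hg.clm_comp ((F.comp (ContinuousLinearMap.inl ℂ _ _)).comp L)).add
      (hV.comp_clm (ContinuousLinearMap.fst ℂ _ _)))
    (isCompactOperator_of_locallyCompactSpace_dom (B + ContinuousLinearMap.snd ℂ _ _))
  have e : ∀ s, s + (-K) s = -(F (L (g s), s.1), B s) := fun s => by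
    have e3 : F (L (g s), s.1) = F (L (g s), 0) + F (0, s.1) := by
      rw [← map_add, Prod.mk_add_mk, add_zero, zero_add]
    refine Prod.ext ?_ ?_
    · show s.1 + -(F (L (g s), 0) + V s.1) = -F _
      rw [e3, hF]
      abel
    · show s.2 + -(B s + s.2) = -B s
      abel
  obtain ⟨T, hT⟩ := exists_equiv_of_injective (K := -K) k.neg fun s hz => by
    rw [e, neg_eq_zero, Prod.mk_eq_zero] at hz
    exact hi s hz.1 hz.2
  exact ⟨T, fun s => (hT s).trans (e s)⟩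

section main

variable {S C0 : Set E3} [CompactSpace C0] {J G ι : Type} [Fintype J] [NormedAddCommGroup G]
  [NormedSpace ℂ G] [Fintype ι] {K : J → P2 → E3} {op : Op ι} {α δ0 : ℝ}
  {ev : G →ₗ[ℂ] J → ℝ → ℂ} {E' : G →ₗ[ℂ] J → P2 → ℂ} {B' : Arg C0 G ι →L[ℂ] ι → ℂ}
  {X : Type} [TopologicalSpace X] [ChartedSpace P2 X] [T2Space X] [CompactSpace X] [RSm P2 X]
  {𝒟 : Dbl S C0 K X} {𝒞 : Cov P2 X} {𝒬 : Fib ι → (X → ℂ) → X → ℂ}
  {Q : Fin 𝒞.N → P2 → Fib ι × J2 P2 ℂ → ℂ} {δ M C : ℝ} {ℰ : (J → P2 → ℂ) → X → J1 P2 ℂ}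
  {U : (J → P2 → ℂ) → X → ℂ} {h : X → ℝ} {val : Hol (𝒞.w α) ℂ →L[ℂ] Hol (𝒞.w α) ℂ}
  {jl : Fin 𝒞.N → Hol (𝒞.w α) ℂ →L[ℂ] Hol (𝒞.w α) (J2 P2 ℂ)} {c : Hol (𝒞.w α) ℂ}

theorem Sch.loc' (hs : Sch 𝒞 α Q val jl c) {ψ : P2 → X} {y0 : P2}
    (h : ∃ e ∈ atlas P2 X, y0 ∈ e.target ∧ e.symm =ᶠ[𝓝 y0] ψ) : ∃ r > 0, ∃ C, 0 ≤ C ∧
      ∀ f, ∀ y ∈ ball y0 r, ContDiffAt ℝ 2 (fun t => val f (ψ t)) y ∧
        ‖jet2 (fun t => val f (ψ t)) y‖ ≤ C * ‖f‖ ∧ ∀ y' ∈ ball y0 r,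
          ‖jet2 (fun t => val f (ψ t)) y - jet2 (fun t => val f (ψ t)) y'‖ ≤
            C * ‖f‖ * ‖y - y'‖ ^ α := by
  obtain ⟨e, he, hy, hψ⟩ := h
  obtain ⟨r, hr, C, hC, hsub, hb⟩ := hs.loc e he y0 hy
  obtain ⟨r', hr', h'⟩ := Metric.eventually_nhds_iff_ball.1 hψ.eventually_nhds
  have e1 : ∀ f, ∀ y ∈ ball y0 (min r r'),
      (fun t => val f (ψ t)) =ᶠ[𝓝 y] fun t => val f (e.symm t) := fun f y hy =>
    (h' y (ball_subset_ball (min_le_right _ _) hy)).mono fun t ht => congrArg (val f) ht.symm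
  have s1 : ball y0 (min r r') ⊆ ball y0 r := ball_subset_ball (min_le_left _ _)
  refine ⟨min r r', lt_min hr hr', C, hC, fun f y hy => ⟨((hs.ck f).at_target he
    (hsub (s1 hy))).congr_of_eventuallyEq (e1 f y hy), ?_, fun y' hy' => ?_⟩⟩
  · rw [jet2_congr (e1 f y hy)]
    exact (hb f y (s1 hy)).1
  · rw [jet2_congr (e1 f y hy), jet2_congr (e1 f y' hy')]
    exact (hb f y (s1 hy)).2 y' (s1 hy')

theorem exists_tr (h0 : 0 < α) (𝒟 : Dbl S C0 K X) (hs : Sch 𝒞 α Q val jl c) (ht : TraceOK α ev) :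
    ∃ tr : Hol (𝒞.w α) ℂ →L[ℂ] G, IsCompactOperator tr ∧
      ∀ f j θ, ev (tr f) j θ = val f (𝒟.κ j (0, θ)) := by
  have hl : ∀ j θ0, _ := fun j (θ0 : ℝ) => hs.loc' (𝒟.chart_κ j (0, θ0) (by norm_num))
  have c2 : ∀ f j θ, ContDiffAt ℝ 2 (fun t => val f (𝒟.κ j t)) (0, θ) := fun f j θ => by
    obtain ⟨r, hr, C, -, h⟩ := hl j θ
    exact (h f _ (mem_ball_self hr)).1
  have key : ∀ j, _ := fun j => per_hol h0 (fun f θ => jet2 (fun t => val f (𝒟.κ j t)) (0, θ))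
    (fun f θ => by
      have := jet2_transl (fun t => val f (𝒟.κ j t)) (0, 2 * π) (0, θ)
      rw [Prod.mk_add_mk, add_zero] at this
      refine this.symm.trans (congrArg (jet2 · (0, θ)) (funext fun z => congrArg (val f) ?_))
      rw [← 𝒟.κ_per j z]
      exact congrArg _ (Prod.ext (add_zero _) rfl))
    fun θ0 => by
      obtain ⟨r, hr, C, hC, h⟩ := hl j θ0
      have m : ∀ θ ∈ ball θ0 r, ((0 : ℝ), θ) ∈ ball ((0 : ℝ), θ0) r := fun θ hθ => by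
        rw [← ball_prod_same]; exact ⟨mem_ball_self hr, hθ⟩
      refine ⟨r, hr, C, hC, fun f θ hθ => ⟨(h f _ (m θ hθ)).2.1, fun θ' hθ' => ?_⟩⟩
      simpa using (h f _ (m θ hθ)).2.2 _ (m θ' hθ')
  choose Cj hC0 hC using key
  obtain ⟨A, hA⟩ := (Set.finite_range Cj).bddAbove
  have hA' : ∀ j (f : Hol (𝒞.w α) ℂ), Cj j * ‖f‖ ≤ A * ‖f‖ := fun j f =>
    mul_le_mul_of_nonneg_right (hA ⟨j, rfl⟩) (norm_nonneg _)
  have n1 : ∀ q : J2 P2 ℂ, ‖q.2.1 (0, 1)‖ ≤ ‖q‖ := fun q => by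
    simpa using q.2.1.le_of_opNorm_le ((norm_fst_le _).trans (norm_snd_le q)) (0, 1)
  have n2 : ∀ q : J2 P2 ℂ, ‖q.2.2 (0, 1) (0, 1)‖ ≤ ‖q‖ := fun q => by
    simpa using q.2.2.le_of_opNorm₂_le_of_le (x := (0, 1)) (y := (0, 1))
      ((norm_snd_le _).trans (norm_snd_le q)) le_rfl le_rfl
  obtain ⟨T, hT, hv⟩ := ht.2 (Hol (𝒞.w α) ℂ)
    { toFun := fun f j θ => val f (𝒟.κ j (0, θ))
      map_add' := fun f g => by funext j θ; rw [map_add]; rfl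
      map_smul' := fun a f => by funext j θ; rw [map_smul]; rfl } A fun f j => by
      obtain ⟨d0, d⟩ := trace_deriv (c2 f j)
      refine ⟨d0, fun θ => congrArg (val f) (𝒟.κ_per j (0, θ)), fun θ => ?_⟩
      have b := ((hC j f θ).1.trans (hA' j f))
      refine ⟨(norm_fst_le _).trans b, (congrArg norm (d θ).1).trans_le ((n1 _).trans b),
        (congrArg norm (d θ).2).trans_le ((n2 _).trans b), fun θ' => ?_⟩
      exact (congrArg norm (congrArg₂ (· - ·) (d θ).2 (d θ').2)).trans_le ((n2 (_ - _)).trans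
        (((hC j f θ).2 θ').trans (mul_le_mul_of_nonneg_right (hA' j f) (by positivity))))
  exact ⟨T, hT, fun f j θ => congrFun (congrFun (hv f) j) θ⟩

theorem exists_arg (h0 : 0 < α) (𝒟 : Dbl S C0 K X) (hs : Sch 𝒞 α Q val jl c) (ht : TraceOK α ev) :
    ∃ (vE : Hol (𝒞.w α) ℂ →ₗ[ℂ] E3 → ℂ) (arg : Hol (𝒞.w α) ℂ × (ι → ℂ) →L[ℂ] Arg C0 G ι),
      (∀ f x, vE f x = val f (𝒟.up x)) ∧ Space S K α ev vE arg ∧
      IsCompactOperator ((ContinuousLinearMap.snd ℂ _ _).comp arg) := by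
  obtain ⟨tr, hk, htr⟩ := exists_tr h0 𝒟 hs ht
  obtain ⟨k, hk0, hkb⟩ := val.bound
  let res : Hol (𝒞.w α) ℂ →L[ℂ] C(C0, ℂ) := LinearMap.mkContinuous
    { toFun := fun f => ⟨fun x => val f (𝒟.up x), (𝒞.hol_continuous h0 (val f)).comp
        (𝒟.up_cont.mono subset_union_left).domRestrict⟩
      map_add' := fun f g => by ext x; rw [map_add]; rfl
      map_smul' := fun a f => by ext x; rw [map_smul]; rfl } k fun f =>
    (ContinuousMap.norm_le _ (by positivity)).2 fun x => ((val f).norm_apply_le _).trans (hkb f)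
  refine ⟨{ toFun := fun f x => val f (𝒟.up x)
            map_add' := fun f g => by funext x; rw [map_add]; rfl
            map_smul' := fun a f => by funext x; rw [map_smul]; rfl },
    (res.comp (ContinuousLinearMap.fst ℂ _ _)).prod (tr.prodMap (ContinuousLinearMap.id ℂ _)),
    fun _ _ => rfl, ⟨fun φ y h1 h2 => ?_, fun _ _ => rfl, fun s j θ => ?_, fun _ => rfl⟩, ?_⟩
  · obtain ⟨r, hr, C, -, h⟩ := hs.loc' (𝒟.chart_up φ y h1 h2)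
    exact ⟨r, hr, C, h⟩
  · exact (htr s.1 j θ).trans (congrArg (val s.1) (𝒟.κ_up j _ (by norm_num)))
  · exact compact_prod (hk.comp_clm (ContinuousLinearMap.fst ℂ _ (ι → ℂ)))
      (isCompactOperator_of_locallyCompactSpace_dom
        (ContinuousLinearMap.snd ℂ (Hol (𝒞.w α) ℂ) (ι → ℂ)))

/-! ### The linearised system -/

theorem Dbl.κ_mem (𝒟 : Dbl S C0 K X) (j : J) {y : P2} (hy : y.1 ∈ Icc (0 : ℝ) 3) :
    𝒟.κ j y ∈ 𝒟.D := by
  rcases hy.1.eq_or_lt with h | h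
  · exact Or.inr ⟨j, y.2, congrArg _ (Prod.ext h rfl)⟩
  · refine Or.inl fun ⟨x0, hx0, e⟩ => ?_
    exact absurd (𝒟.κ_eq_up j y ⟨by linarith, by linarith [hy.2]⟩ x0 hx0 e.symm) (not_le.2 h)

theorem Dbl.val_κ (𝒟 : Dbl S C0 K X) (j : J) {y : P2} (hy : y.1 ∈ Icc (0 : ℝ) 3) :
    𝒟.up (K j y) = 𝒟.κ j y := (𝒟.κ_up j y ⟨by linarith [hy.1], by linarith [hy.2]⟩).symm

theorem cj_sub {u v : X → ℂ} {i : Fin 𝒞.N} {x : X}
    (hu : ContDiffAt ℝ 2 (fun y => u ((𝒞.e i).symm y)) (𝒞.e i x))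
    (hv : ContDiffAt ℝ 2 (fun y => v ((𝒞.e i).symm y)) (𝒞.e i x)) :
    cj 𝒞 i (fun x => u x - v x) x = cj 𝒞 i u x - cj 𝒞 i v x := jet2_sub hu hv

theorem Blend.lin_up (hB : Blend op α 𝒟 𝒞 𝒬 Q δ M C ℰ U h) (ho : OpOK S C0 K op α δ0)
    {u : X → ℂ} (hu : CkFn P2 2 u) {φ : P2 → E3} {y : P2} (hφ : Par S φ y) (hy : φ y ∈ C0)
    {i : Fin 𝒞.N} (hi : InB 𝒞 i (𝒟.up (φ y))) (η : Fib ι) :
    fderiv ℂ (Q i (𝒞.e i (𝒟.up (φ y)))) 0 (η, cj 𝒞 i u (𝒟.up (φ y))) =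
      lin op φ y (η.2, jet2 (fun z => u (𝒟.up (φ z))) y) := by
  obtain ⟨r, hr, M', hl⟩ := ho.loc φ y hφ (Or.inl hy)
  refine (hasDerivAt_ray0 _ (hB.q.diff0 hi.three)).unique ((hasDerivAt_ray0 _
    ((hl y (mem_ball_self hr)).1.differentiableAt (ball_mem_nhds _ hr))).congr_of_eventuallyEq ?_)
  filter_upwards [ev_small hB.q.pos η] with t ht
  have hu' : CkFn P2 2 fun x => (t : ℂ) • u x := fun e he x hx => (hu e he x hx).const_smul _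
  have e1 := hB.q.eq _ hu' i _ hi _ (mem_ball_zero_iff.1 ht)
  have e2 := hB.up _ hu' φ y hφ hy _ (mem_ball_zero_iff.1 ht)
  unfold cj at e1
  rw [jet2_csmul] at e1 e2
  exact e1.symm.trans e2

theorem LinOK.nice (hL : LinOK S K op ev E' B') : ∃ CE, 0 ≤ CE ∧ ∀ g, Nice (E' g) (CE * ‖g‖) := by
  obtain ⟨A, hA⟩ := hL.bd
  exact ⟨|A|, abs_nonneg _, fun g => ⟨by positivity, hL.c2 g, hL.per g, fun j y hy =>
    (hA g j y hy).trans (mul_le_mul_of_nonneg_right (le_abs_self _) (norm_nonneg _))⟩⟩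

variable {dat : (J → P2 → ℂ) → (ι → ℂ) → Hol (𝒞.w α) (Fib ι)}
  {Ξ : Hol (𝒞.w α) (Fib ι) × Hol (𝒞.w α) ℂ → Hol (𝒞.w α) ℂ} {ρ1 M1 κ : ℝ}
  {vE : Hol (𝒞.w α) ℂ →ₗ[ℂ] E3 → ℂ} {arg : Hol (𝒞.w α) ℂ × (ι → ℂ) →L[ℂ] Arg C0 G ι}

theorem lin_inj (h0 : 0 < α) (hG : Geo S C0 K) (hB : Blend op α 𝒟 𝒞 𝒬 Q δ M C ℰ U h)
    (ho : OpOK S C0 K op α δ0) (hs : Sch 𝒞 α Q val jl c) (hX : Xi 𝒞 α Q jl Ξ δ ρ1 M1 κ)
    (hev : Function.Injective ev) (hL : LinOK S K op ev E' B')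
    (hd : ∀ e c a, Nice e c → ∀ x, dat e a x = (ℰ e x, a)) (hv : ∀ f x, vE f x = val f (𝒟.up x))
    (hS : Space S K α ev vE arg) {s : Hol (𝒞.w α) ℂ × (ι → ℂ)}
    (h1 : fderiv ℂ Ξ 0 (dat (E' (arg s).2.1) s.2, s.1) = 0) (h2 : B' (arg s) = 0) : s = 0 := by
  obtain ⟨CE, -, hE⟩ := hL.nice
  have e1 : ∀ i x, InB 𝒞 i x → fderiv ℂ (Q i (𝒞.e i x)) 0
      ((ℰ (E' (arg s).2.1) x, s.2), cj 𝒞 i (val s.1) x) = 0 := fun i x hi => by
    rw [← hs.jet _ i x hi, ← hd _ _ _ (hE _) x]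
    exact (hX.der (dat (E' (arg s).2.1) s.2, s.1) i x hi).symm.trans (by rw [h1]; rfl)
  have hb : ∀ j θ, val s.1 (𝒟.κ j (0, θ)) = ev (arg s).2.1 j θ := fun j θ => by
    rw [hS.tr, hv, 𝒟.val_κ j (by norm_num)]
  have e2 := hB.q.mp_lin hB.cpt hB.opn subset_union_left hB.hck hB.hpos hB.sup h0
    (d := fun x => val s.1 x - U (E' (arg s).2.1) x)
    ((𝒞.hol_continuous h0 _).continuousOn.sub (hB.Ucont _ (hL.per _) (hL.cont _)))
    (fun x hx hx' => by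
      obtain ⟨j, θ, rfl⟩ := hx.resolve_left hx'
      rw [hb, hB.Uκ _ (hL.per _) j _ (by norm_num), hL.mat _ h2, sub_self])
    fun x hx i hi => by
      have c1 := hs.ck s.1 _ (𝒞.mem i) x hi.1
      have c2 := (hB.Ujet _ _ (hE (arg s).2.1) x hx i hi).1
      refine ⟨c1.sub c2, ?_⟩
      have e3 := congrArg₂ (· - ·) (e1 i x hi) 
        (hB.Ulin _ _ (hE (arg s).2.1) (hL.eq _) s.2 x hx i hi)
      simp only [← map_sub, Prod.mk_sub_mk, sub_self] at e3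
      rw [cj_sub c1 c2]
      exact e3
  obtain ⟨z1, z2⟩ := hL.inj (vE s.1) (arg s) (hS.res s) (hS.tr s) (fun φ y p1 p2 => by
      obtain ⟨r, hr, C, hC⟩ := hS.jet φ y p1 p2
      exact (hC s.1 y (mem_ball_self hr)).1)
    (fun φ y p1 p2 => by
      obtain ⟨i, hi⟩ := exists_inB 𝒞 (𝒟.up (φ y))
      simp only [hv, hS.snd]
      exact (hB.lin_up ho (hs.ck s.1) p1 p2 hi (_, s.2)).symm.trans (e1 i _ hi))
    (fun j y hy => by
      rw [hv, 𝒟.val_κ j hy, ← hB.Uκ _ (hL.per _) j y hy]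
      exact sub_eq_zero.1 (e2 _ (𝒟.κ_mem j hy))) h2
  have z3 : ∀ x ∈ C0, val s.1 (𝒟.up x) = 0 := fun x hx => by
    rw [← hv, ← hS.res s ⟨x, hx⟩, z1]
    rfl
  have z4 : (arg s).2.1 = 0 := hev (funext fun j => funext fun θ => by
    rw [hS.tr, hv, z3 _ ((hG.mem j _ (by norm_num)).2 le_rfl), map_zero]
    rfl)
  have z5 : ∀ x, val s.1 x = 0 := fun x => by
    by_cases hx : x ∈ 𝒟.O
    · have := e2 x (Or.inl hx)
      rwa [z4, map_zero, hB.U0, sub_zero] at this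
    · obtain ⟨x0, hx0, rfl⟩ := not_not.1 hx
      exact z3 x0 hx0
  refine Prod.ext (Hol.ext fun x => ?_) ((hS.snd s).symm.trans z2)
  obtain ⟨i, hi⟩ := exists_inB 𝒞 x
  have e4 := hs.lin s.1 i x hi
  have e5 : jl i s.1 x = 0 := by
    rw [hs.jet _ i x hi]
    unfold cj
    simp only [z5]
    exact jet2_const _ _
  rw [e5, z5, mul_zero, zero_sub] at e4
  exact neg_eq_zero.1 (e4.symm.trans (map_zero _))

theorem exists_datL (hB : Blend op α 𝒟 𝒞 𝒬 Q δ M C ℰ U h) (hL : LinOK S K op ev E' B')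
    (hD : DatOK C dat) (hd : ∀ e c a, Nice e c → ∀ x, dat e a x = (ℰ e x, a)) :
    ∃ L : G × (ι → ℂ) →L[ℂ] Hol (𝒞.w α) (Fib ι), ∀ p, L p = dat (E' p.1) p.2 := by
  obtain ⟨CE, hCE, hE⟩ := hL.nice
  have hC := hB.nonneg
  obtain ⟨L, hLv⟩ := exists_clm (𝕜 := ℂ) (w := 𝒞.w α)
    (fun (p : G × (ι → ℂ)) x => ((ℰ (E' p.1) x, p.2) : Fib ι)) (C * CE + 1)
    (fun p p' x => Prod.ext (by
      rcases hB.pt x with ⟨j, y, t, hy, ht⟩ | ht
      · simp only [ht, Prod.fst_add, map_add, ← smul_add, ← jet2_one]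
        exact congrArg (fun q => (t : ℂ) • J2.one q) (jet2_add (hL.c2 _ j y hy) (hL.c2 _ j y hy))
      · simp [ht]) rfl)
    (fun a p x => Prod.ext (by
      rcases hB.pt x with ⟨j, y, t, hy, ht⟩ | ht
      · simp only [ht, Prod.smul_fst, map_smul, smul_comm a, ← jet2_one]
        exact congrArg (fun q => (t : ℂ) • J2.one q) (jet2_csmul a _ y)
      · simp [ht]) rfl)
    fun p => ⟨dat (E' p.1) p.2, hd _ _ _ (hE _), (hD.bd _ _ _ (hE _)).trans (by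
      nlinarith [norm_fst_le p, norm_snd_le p, mul_nonneg hC hCE])⟩
  exact ⟨L, fun p => Hol.ext fun x => (hLv p x).trans (hd _ _ _ (hE _) x).symm⟩

theorem exists_T (hB : Blend op α 𝒟 𝒞 𝒬 Q δ M C ℰ U h) (hs : Sch 𝒞 α Q val jl c)
    (hX : Xi 𝒞 α Q jl Ξ δ ρ1 M1 κ) (hL : LinOK S K op ev E' B') (hD : DatOK C dat)
    (hd : ∀ e c a, Nice e c → ∀ x, dat e a x = (ℰ e x, a)) (hS : Space S K α ev vE arg)
    (hk : IsCompactOperator ((ContinuousLinearMap.snd ℂ _ _).comp arg))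
    (hi : ∀ s, fderiv ℂ Ξ 0 (dat (E' (arg s).2.1) s.2, s.1) = 0 → B' (arg s) = 0 → s = 0) :
    ∃ T : (Hol (𝒞.w α) ℂ × (ι → ℂ)) ≃L[ℂ] Hol (𝒞.w α) ℂ × (ι → ℂ),
      ∀ s, T s = -(fderiv ℂ Ξ 0 (dat (E' (arg s).2.1) s.2, s.1), B' (arg s)) := by
  obtain ⟨L, hLv⟩ := exists_datL hB hL hD hd
  have hLd : ∀ s, L (arg s).2 = dat (E' (arg s).2.1) s.2 := fun s => by rw [hLv, hS.snd]
  obtain ⟨T, hT⟩ := exists_T_abs (fderiv ℂ Ξ 0) L _ hk
    (V := (ContinuousLinearMap.mul ℂ _ c).comp val) (B'.comp arg) (hs.cpt.clm_comp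
    (ContinuousLinearMap.mul ℂ _ c)) (fun f => Hol.ext fun x => by
      obtain ⟨i, hi⟩ := exists_inB 𝒞 x
      exact (hX.der _ i x hi).trans (hs.lin f i x hi)) fun s h1 h2 => hi s (hLd s ▸ h1) h2
  exact ⟨T, fun s => (hT s).trans (hLd s ▸ rfl)⟩

/-! ### Real solutions -/

/-- real elements -/
def ReS {w : X → X → ℝ≥0} (s : Hol w ℂ × (ι → ℂ)) : Prop := (∀ x, (s.1 x).im = 0) ∧ IsRe s.2

theorem isClosed_reS {w : X → X → ℝ≥0} : IsClosed {s : Hol w ℂ × (ι → ℂ) | ReS s} := by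
  have e : {s : Hol w ℂ × (ι → ℂ) | ReS s} =
      (⋂ x, {s | (s.1 x).im = 0}) ∩ ⋂ i, {s | (s.2 i).im = 0} := by
    ext s; simp [ReS, IsRe]
  rw [e]
  exact (isClosed_iInter fun x => isClosed_eq (continuous_im.comp
    ((Hol.continuous_eval x).comp continuous_fst)) continuous_const).inter
    (isClosed_iInter fun i => isClosed_eq (by fun_prop) continuous_const)

theorem reS_symm {w : X → X → ℝ≥0} {T : (Hol w ℂ × (ι → ℂ)) ≃L[ℂ] Hol w ℂ × (ι → ℂ)}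
    (hT : ∀ s, ReS s → ReS (T s)) {s : Hol w ℂ × (ι → ℂ)} (hs : ReS s) : ReS (T.symm s) := by
  obtain ⟨z, rfl⟩ := T.surjective s
  rw [T.symm_apply_apply]
  obtain ⟨a, b, ha, hb, rfl⟩ : ∃ a b : Hol w ℂ × (ι → ℂ), ReS a ∧ ReS b ∧ z = a + I • b :=
    ⟨(Hol.map (ofRealCLM.comp reCLM) z.1, fun i => (z.2 i).re),
      (Hol.map (ofRealCLM.comp imCLM) z.1, fun i => (z.2 i).im),
      ⟨fun _ => ofReal_im _, fun _ => ofReal_im _⟩, ⟨fun _ => ofReal_im _, fun _ => ofReal_im _⟩,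
      Prod.ext (Hol.ext fun x => ((re_add_im (z.1 x)).symm.trans (by rw [mul_comm]; rfl)))
        (funext fun i => ((re_add_im (z.2 i)).symm.trans (by rw [mul_comm]; rfl)))⟩
  rw [map_add, map_smul] at hs
  have h0 : T b = 0 := Prod.ext (Hol.ext fun x => Complex.ext (by
      have : ((T a).1 x + I * (T b).1 x).im = 0 := hs.1 x
      simpa [(hT a ha).1 x] using this) ((hT b hb).1 x))
    (funext fun i => Complex.ext (by
      have : ((T a).2 i + I * (T b).2 i).im = 0 := hs.2 i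
      simpa [(hT a ha).2 i] using this) ((hT b hb).2 i))
  rwa [T.map_eq_zero_iff.1 h0, smul_zero, add_zero]

theorem Blend.reF (hB : Blend op α 𝒟 𝒞 𝒬 Q δ M C ℰ U h) {e : J → P2 → ℂ} {k : ℝ} (he : Nice e k)
    (hr : ∀ j y, y.1 ∈ Ioo (0 : ℝ) 6 → (e j y).im = 0) {a : ι → ℂ} (ha : IsRe a) (x : X) (t : ℝ) :
    ReF ((t : ℂ) • (ℰ e x, a)) := by
  have h3 : IsRe ((t : ℂ) • a) := fun i => by simp [ha i]
  rcases hB.pt x with ⟨j, y, s, hy, hs⟩ | hs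
  · have h1 : ReJ (jet2 (e j) y) := by
      rw [reJ_jet2 (he.c2 j y hy) (((isOpen_Ioo.preimage continuous_fst).eventually_mem hy).mono
        fun z hz => hr j z hz)]
      exact reJ_ιJ _
    have h2 := (h1.smul s).smul t
    rw [hs]
    exact ⟨h2.1, h2.2.1, h3⟩
  · rw [hs]
    exact ⟨by simp, fun u => by simp, h3⟩

theorem Sch.reJ (hs : Sch 𝒞 α Q val jl c) {f : Hol (𝒞.w α) ℂ} (hf : ∀ x, (f x).im = 0)
    {i : Fin 𝒞.N} {x : X} (hi : InB 𝒞 i x) : ReJ (jl i f x) := by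
  rw [hs.jet f i x hi]
  unfold cj
  rw [reJ_jet2 (hs.ck f _ (𝒞.mem i) x hi.1) (Eventually.of_forall fun z => hs.real f hf _)]
  exact reJ_ιJ _

theorem reArg (hs : Sch 𝒞 α Q val jl c) (hv : ∀ f x, vE f x = val f (𝒟.up x))
    (hS : Space S K α ev vE arg) {s : Hol (𝒞.w α) ℂ × (ι → ℂ)} (h : ReS s) : ReArg ev (arg s) :=
  ⟨fun x => by rw [hS.res, hv]; exact hs.real _ h.1 _,
    fun j θ => by rw [hS.tr, hv]; exact hs.real _ h.1 _, by rw [hS.snd]; exact h.2⟩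

variable {T : (Hol (𝒞.w α) ℂ × (ι → ℂ)) ≃L[ℂ] Hol (𝒞.w α) ℂ × (ι → ℂ)} {ρ2 ε ρ C' : ℝ}
  {sol : Dat C0 J G ι → Hol (𝒞.w α) ℂ × (ι → ℂ)}

theorem FP.real (hF : FP E' B' arg dat Ξ T C ρ2 ε ρ C' sol) (hB : Blend op α 𝒟 𝒞 𝒬 Q δ M C ℰ U h)
    (hs : Sch 𝒞 α Q val jl c) (hX : Xi 𝒞 α Q jl Ξ δ ρ1 M1 κ) (hL : LinOK S K op ev E' B')
    (hd : ∀ e c a, Nice e c → ∀ x, dat e a x = (ℰ e x, a)) (hv : ∀ f x, vE f x = val f (𝒟.up x))
    (hS : Space S K α ev vE arg)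
    (hT : ∀ s, T s = -(fderiv ℂ Ξ 0 (dat (E' (arg s).2.1) s.2, s.1), B' (arg s))) (h2 : ρ2 ≤ ρ1)
    {D : Dat C0 J G ι} (hA : Adm E' B' ε ρ D) (hR : ReDat ev ρ D) : ReS (sol D) := by
  obtain ⟨CE, -, hE⟩ := hL.nice
  have t1 : ∀ s, ReS s → ReS (T s) := fun s hr => by
    have a1 := reArg hs hv hS hr
    rw [hT]
    refine ⟨fun x => ?_, fun i => ?_⟩
    · obtain ⟨i, hi⟩ := exists_inB 𝒞 x
      have e1 := hX.der (dat (E' (arg s).2.1) s.2, s.1) i x hi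
      have e2 := hB.q.l_real hi.three (v := (dat (E' (arg s).2.1) s.2 x, jl i s.1 x))
        (fun t => by
          rw [hd _ _ _ (hE _)]
          exact hB.reF (hE _) (hL.reE _ a1.2.1) hr.2 x t) (hs.reJ hr.1 hi)
      exact (neg_im _).trans (neg_eq_zero.2 ((congrArg im e1).trans e2))
    · exact (neg_im _).trans (neg_eq_zero.2 (hL.reB _ a1 i))
  refine hF.inv D hA _ isClosed_reS ⟨fun _ => rfl, fun _ => rfl⟩ fun s hr n1 n2 => ?_
  have a1 := reArg hs hv hS hr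
  obtain ⟨k, hk, -, n3⟩ := hF.sm D hA s n1 n2
  have t2 : ReS (T.symm (sys arg dat Ξ D s)) := reS_symm t1 ⟨fun x => by
    obtain ⟨i, hi⟩ := exists_inB 𝒞 x
    have e1 := hX.eq _ (mem_ball_zero_iff.2 (n3.trans_le h2)) i x hi
    refine (congrArg im e1).trans (hB.q.real i _ hi.three _ (mem_ball_zero_iff.2
      ((hX.bdj _ i x).trans_lt ((mul_lt_mul_of_pos_left (n3.trans_le h2)
        (by linarith [hX.one])).trans_le hX.le))) ?_ (hs.reJ hr.1 hi))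
    have := hB.reF hk (hR.reE _ ((norm_g_le _).trans_lt n2) a1.2.1) hr.2 x 1
    rw [ofReal_one, one_smul, ← hd _ _ _ hk] at this
    exact this, hR.reB _ n2 a1⟩
  exact ⟨fun x => (add_im _ _).trans (by rw [hr.1 x, t2.1 x, add_zero]),
    fun i => (add_im _ _).trans (by rw [hr.2 i, t2.2 i, add_zero])⟩

theorem FP.eqQ (hF : FP E' B' arg dat Ξ T C ρ2 ε ρ C' sol) (hs : Sch 𝒞 α Q val jl c)
    (hX : Xi 𝒞 α Q jl Ξ δ ρ1 M1 κ) (hd : ∀ e c a, Nice e c → ∀ x, dat e a x = (ℰ e x, a))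
    (h2 : ρ2 ≤ ρ1) (hρ : 0 < ρ) {D : Dat C0 J G ι} (hA : Adm E' B' ε ρ D) :
    ∃ k, Nice (D.E (arg (sol D)).2.1) k ∧ C * k < ρ2 ∧ ∀ i x, InB 𝒞 i x →
      ‖((ℰ (D.E (arg (sol D)).2.1) x, (sol D).2), cj 𝒞 i (val (sol D).1) x)‖ < κ * ρ2 ∧
      Q i (𝒞.e i x) ((ℰ (D.E (arg (sol D)).2.1) x, (sol D).2), cj 𝒞 i (val (sol D).1) x) = 0 := by
  obtain ⟨n1, n2⟩ := hF.norm D hA
  obtain ⟨k, hk, n3, n4⟩ := hF.sm D hA (sol D) (by linarith) (by linarith)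
  refine ⟨k, hk, n3, fun i x hi => ?_⟩
  rw [← hs.jet _ i x hi, ← hd _ _ _ hk x]
  refine ⟨(hX.bdj (_, _) i x).trans_lt (mul_lt_mul_of_pos_left n4 (by linarith [hX.one])), ?_⟩
  exact (hX.eq _ (mem_ball_zero_iff.2 (n4.trans_le h2)) i x hi).symm.trans
    (congrArg (fun s : Hol (𝒞.w α) ℂ × (ι → ℂ) => s.1 x) (hF.eq D hA))

end main

/-- **the core theorem** -/
theorem core_of (hD : DblStmt) (hBl : BlendStmt) : CoreSolve := by
  intro S C0 _ J G ι _ _ _ _ K op α δ0 ev E' B' h0 h1 hδ hG ho ht hL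
  obtain ⟨X, _, _, _, _, _, ⟨𝒟⟩⟩ := hD S C0 J K hG
  obtain ⟨𝒞, 𝒬, Q, δ, M, C, ℰ, U, h, hB⟩ := hBl S C0 J ι K op α δ0 X 𝒟 h0 h1 hδ hG ho
  obtain ⟨val, jl, c, hs⟩ := hB.q.exists_sch h0 h1
  obtain ⟨Ξ, ρ1, M1, κ, hX⟩ := hB.q.exists_xi h0 hs
  obtain ⟨vE, arg, hv, hS, hk⟩ := exists_arg h0 𝒟 hs ht
  obtain ⟨dat, hD, hd⟩ := exists_dat (ι := ι) hB.nonneg hB.pt hB.hol
  obtain ⟨T, hT⟩ := exists_T hB hs hX hL hD hd hS hk fun s =>
    lin_inj h0 hG hB ho hs hX ht.1 hL hd hv hS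
  obtain ⟨ρm, hρm, hmp⟩ := hB.q.mp hB.cpt hB.opn subset_union_left hB.hck hB.hpos hB.sup h0 h1
  obtain ⟨CE, hCE, hE⟩ := hL.nice
  have κ0 : 0 < κ := by linarith [hX.one]
  obtain ⟨ρ2, r0, r1, r2⟩ : ∃ ρ2, 0 < ρ2 ∧ ρ2 ≤ ρ1 ∧ κ * ρ2 ≤ ρm :=
    ⟨min ρ1 (ρm / κ), lt_min hX.pos (by positivity), min_le_left _ _,
      (le_div_iff₀' κ0).1 (min_le_right _ _)⟩
  have r3 : κ * ρ2 ≤ δ := (mul_le_mul_of_nonneg_left r1 κ0.le).trans hX.le
  have r4 : ρ2 ≤ κ * ρ2 := le_mul_of_one_le_left r0.le hX.one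
  obtain ⟨θ, hθ, ρ0, hρ0, C', hfp⟩ := exists_fp hD hE hCE hX.pos hX.hol hX.bd hX.zero hT r0
  refine ⟨_, _, _, vE, arg, inferInstance, hS, θ, hθ, ρ0, hρ0, C', fun ρ p0 p1 => ?_⟩
  obtain ⟨sol, hF⟩ := hfp ρ p0 p1
  have n2 : ∀ D, Adm E' B' (θ * ρ) ρ D → ‖arg (sol D)‖ < ρ := fun D hA => by
    linarith [(hF.norm D hA).2]
  have hB0 : ∀ D, Adm E' B' (θ * ρ) ρ D → D.B (arg (sol D)) = 0 := fun D hA =>
    congrArg Prod.snd (hF.eq D hA)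
  have glue : ∀ D, Adm E' B' (θ * ρ) ρ D → ReDat ev ρ D → Exact K op ev ρ D → ∀ j y,
      y.1 ∈ Icc (0 : ℝ) 3 → vE (sol D).1 (K j y) = D.E (arg (sol D)).2.1 j y := by
    intro D hA hR hx j y hy
    have hr := hF.real hB hs hX hL hd hv hS hT r1 hA hR
    have g1 := (norm_g_le _).trans_lt (n2 D hA)
    obtain ⟨k, hk, n3, hq⟩ := hF.eqQ hs hX hd r1 p0 hA
    rw [hv, 𝒟.val_κ j hy, ← hB.Uκ _ hk.per j y hy]
    refine hmp (fun x => (ℰ (D.E (arg (sol D)).2.1) x, (sol D).2)) _ _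
      (𝒞.hol_continuous h0 _).continuousOn (hB.Ucont _ hk.per (hx.cont _ g1)) (fun x m1 m2 => ?_)
      (fun x m => ⟨hs.real _ hr.1 x, hB.Ure _ hk.per
        (hR.reE _ g1 (reArg hs hv hS hr).2.1) x m⟩) (fun x m i hi => ?_) _ (𝒟.κ_mem j hy)
    · obtain ⟨j, t, rfl⟩ := m1.resolve_left m2
      rw [hB.Uκ _ hk.per j _ (by norm_num), hx.mat _ (n2 D hA) (hB0 D hA), hS.tr, hv,
        𝒟.val_κ j (by norm_num)]
    · obtain ⟨q1, q2⟩ := hq i x hi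
      obtain ⟨u1, u2⟩ := hB.Ujet _ _ hk x m i hi
      refine ⟨hs.ck _ _ (𝒞.mem i) x hi.1, u1, q1.trans_le r2, max_lt
        (((norm_fst_le _).trans_lt q1).trans_le r2) (by linarith), q2.trans ?_⟩
      exact (hB.Ueq _ _ hk (hx.eq _ g1) _ ((((norm_snd_le _).trans (norm_fst_le _)).trans_lt
        q1).trans_le r3) x m i hi).symm
  refine ⟨sol, hF.norm, hB0, fun D hA φ y p1 p2 => ?_, fun D hA hR => ?_, glue, hF.small, hF.stab,
    fun P _ _ V D hV hA d1 d2 => ⟨hF.hol P V D hV hA d1 d2, fun R hu hR hx p hp j y hy => ?_⟩⟩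
  · obtain ⟨k, -, -, hq⟩ := hF.eqQ hs hX hd r1 p0 hA
    obtain ⟨i, hi⟩ := exists_inB 𝒞 (𝒟.up (φ y))
    obtain ⟨q1, q2⟩ := hq i _ hi
    have n := ((norm_fst_le _).trans_lt q1).trans_le r3
    simp only [hv]
    exact (hB.up _ (hs.ck _) φ y p1 p2 _ n).symm.trans ((hB.q.eq _ (hs.ck _) i _ hi _ n).trans q2)
  · have hr := hF.real hB hs hX hL hd hv hS hT r1 hA hR
    exact ⟨hr.2, fun x _ => by rw [hv]; exact hs.real _ hr.1 _⟩
  · rcases hy.1.eq_or_lt with e | e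
    · rw [show y = (0, y.2) from Prod.ext e.symm rfl, (hx p hp).mat _ (n2 _ (hA p hp))
        (hB0 _ (hA p hp)), hS.tr]
    have d0 := hF.hol P V D hV hA d1 d2
    have d3 : DifferentiableOn ℂ (fun p => vE (sol (D p)).1 (K j y)) V := by
      simp only [hv]
      exact ((evC (𝒟.up (K j y))).comp val).differentiable.comp_differentiableOn d0.fst
    have d4 : DifferentiableOn ℂ (fun p => (D p).E (arg (sol (D p))).2.1 j y) V :=
      ((d1 j y ⟨e, by linarith [hy.2]⟩).comp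
        ((arg.differentiable.comp_differentiableOn d0).snd.fst.prodMk differentiableOn_id)
        fun p hp => ⟨mem_ball_zero_iff.2 ((norm_g_le _).trans_lt (n2 _ (hA p hp))), hp⟩).fst
    exact sub_eq_zero.1 (hu _ (d3.sub d4) (fun p hp hr => sub_eq_zero.2
      (glue _ (hA p hp) (hR p hp hr) (hx p hp) j y hy)) hp)

end Vale.Agent.P218F.Core
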