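import Vale.Agent.P218F.CoreSpec
import Mathlib.Analysis.Complex.CauchyIntegral

/-! The Euler-Lagrange operator satisfies the hypotheses of the core theorem. -/

open Set Metric Filter Topology Matrix
open scoped ContDiff Real
open Vale.Agent.P218FT

set_option maxSynthPendingDepth 3
set_option linter.unusedSectionVars false

noncomputable section

namespace Vale.Agent.P218F.Core.OpP

/-! ### Classes of functions closed under the algebraic operations -/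

/-- a class of functions which is closed under the operations used in the operator -/
structure Cl {X : Type} (D : (X → ℂ) → Prop) (x₀ : X) : Prop where
  const : ∀ c : ℝ, D fun _ => (c : ℂ)
  add : ∀ {f g}, D f → D g → D fun x => f x + g x
  mul : ∀ {f g}, D f → D g → D fun x => f x * g x
  inv : ∀ {f}, D f → f x₀ ≠ 0 → D fun x => (f x)⁻¹
  exp : ∀ {f}, D f → D fun x => Complex.exp (f x)
  sqrt : ∀ {f}, D f → 0 < (f x₀).re → D fun x => Complex.sqrt (f x)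

theorem cl_diff {X : Type} [NormedAddCommGroup X] [NormedSpace ℂ X] (x₀ : X) :
    Cl (fun f : X → ℂ => DifferentiableAt ℂ f x₀) x₀ where
  const _ := differentiableAt_const _
  add h1 h2 := h1.add h2
  mul h1 h2 := h1.mul h2
  inv h1 h2 := h1.inv h2
  exp h1 := h1.cexp
  sqrt h1 h2 := (Complex.differentiableAt_sqrt (Or.inl h2)).comp x₀ h1

theorem cl_cd {X : Type} [NormedAddCommGroup X] [NormedSpace ℝ X] (x₀ : X) :
    Cl (fun f : X → ℂ => ContDiffAt ℝ 1 f x₀) x₀ where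
  const _ := contDiffAt_const
  add h1 h2 := h1.add h2
  mul h1 h2 := h1.mul h2
  inv h1 h2 := h1.inv h2
  exp h1 := h1.cexp
  sqrt {f} h1 h2 := by
    have h3 : AnalyticAt ℂ Complex.sqrt (f x₀) :=
      Complex.differentiableOn_sqrt.analyticAt (Complex.isOpen_slitPlane.mem_nhds (Or.inl h2))
    exact (h3.contDiffAt.restrict_scalars ℝ).comp x₀ h1

theorem cl_re {X : Type} (x₀ : X) : Cl (fun f : X → ℂ => (f x₀).im = 0) x₀ where
  const _ := Complex.ofReal_im _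
  add h1 h2 := by simp [h1, h2]
  mul h1 h2 := by simp [h1, h2]
  inv h1 _ := by simp [h1]
  exp h1 := by simp [Complex.exp_im, h1]
  sqrt {f} h1 h2 := by
    show (Complex.sqrt (f x₀)).im = 0
    rw [Complex.sqrt_of_nonneg (Complex.nonneg_iff.2 ⟨h2.le, h1.symm⟩)]
    exact Complex.ofReal_im _

/-- vector functions of the class -/
def DV {X : Type} (D : (X → ℂ) → Prop) (f : X → C3) : Prop := ∀ i, D fun x => f x i

/-- jets of the class -/
def DJ {X : Type} (D : (X → ℂ) → Prop) (Q : X → J2 P2 C3) : Prop :=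
  DV D (fun x => (Q x).1) ∧ (∀ u, DV D fun x => (Q x).2.1 u) ∧ ∀ u v, DV D fun x => (Q x).2.2 u v

/-- scalar jets of the class -/
def DS {X : Type} (D : (X → ℂ) → Prop) (q : X → J2 P2 ℂ) : Prop :=
  D (fun x => (q x).1) ∧ (∀ u, D fun x => (q x).2.1 u) ∧ ∀ u v, D fun x => (q x).2.2 u v

namespace Cl

variable {X : Type} {D : (X → ℂ) → Prop} {x₀ : X} (h : Cl D x₀)
include h

theorem neg {f} (hf : D f) : D fun x => -f x := by
  simpa using h.mul (h.const (-1)) hf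

theorem sub {f g} (hf : D f) (hg : D g) : D fun x => f x - g x := by
  simpa only [sub_eq_add_neg] using h.add hf (h.neg hg)

theorem div {f g} (hf : D f) (hg : D g) (h0 : g x₀ ≠ 0) : D fun x => f x / g x := by
  simpa only [div_eq_mul_inv] using h.mul hf (h.inv hg h0)

theorem sq {f} (hf : D f) : D fun x => f x ^ 2 := by
  simpa only [pow_two] using h.mul hf hf

theorem div_const {f} (hf : D f) (c : ℝ) : D fun x => f x / (c : ℂ) := by
  simpa only [div_eq_mul_inv, Complex.ofReal_inv] using h.mul hf (h.const c⁻¹)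

theorem dot {f g} (hf : DV D f) (hg : DV D g) : D fun x => f x ⬝ᵥ g x := by
  simpa only [dotProduct, Fin.sum_univ_three] using
    h.add (h.add (h.mul (hf 0) (hg 0)) (h.mul (hf 1) (hg 1))) (h.mul (hf 2) (hg 2))

theorem cross {f g} (hf : DV D f) (hg : DV D g) : DV D fun x => f x ⨯₃ g x := by
  intro i
  fin_cases i
  · simpa [cross_apply] using h.sub (h.mul (hf 1) (hg 2)) (h.mul (hf 2) (hg 1))
  · simpa [cross_apply] using h.sub (h.mul (hf 2) (hg 0)) (h.mul (hf 0) (hg 2))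
  · simpa [cross_apply] using h.sub (h.mul (hf 0) (hg 1)) (h.mul (hf 1) (hg 0))

theorem vadd {f g} (hf : DV D f) (hg : DV D g) : DV D fun x => f x + g x := fun i =>
  h.add (hf i) (hg i)

theorem vsmul {c f} (hc : D c) (hf : DV D f) : DV D fun x => c x • f x := fun i => h.mul hc (hf i)

theorem jet {A B q} (hA : DJ D A) (hB : DJ D B) (hq : DS D q) :
    DJ D fun x => A x + (q x).smul (B x) :=
  ⟨h.vadd hA.1 (h.vsmul hq.1 hB.1),
    fun u => h.vadd (hA.2.1 u) (h.vadd (h.vsmul hq.1 (hB.2.1 u)) (h.vsmul (hq.2.1 u) hB.1)),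
    fun u v => h.vadd (hA.2.2 u v) (h.vadd (h.vadd (h.vadd (h.vsmul hq.1 (hB.2.2 u v))
      (h.vsmul (hq.2.1 u) (hB.2.1 v))) (h.vsmul (hq.2.1 v) (hB.2.1 u)))
      (h.vsmul (hq.2.2 u v) hB.1))⟩

theorem nor {Q} (hQ : DJ D Q) : DV D fun x => nor (Q x).2.1 := h.cross (hQ.2.1 _) (hQ.2.1 _)

theorem gdet {Q} (hQ : DJ D Q) : D fun x => gdet (Q x).2.1 :=
  h.sub (h.mul (h.dot (hQ.2.1 _) (hQ.2.1 _)) (h.dot (hQ.2.1 _) (hQ.2.1 _)))
    (h.sq (h.dot (hQ.2.1 _) (hQ.2.1 _)))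

theorem lag {Q} (hQ : DJ D Q) (h0 : 0 < (Core.gdet (Q x₀).2.1).re) : D fun x => lag (Q x).one := by
  refine h.mul (h.exp ?_) (h.sqrt (h.gdet hQ) h0)
  simpa [J2.one] using h.div_const (h.neg (h.dot hQ.1 hQ.1)) 4

theorem shr {Q W} (hQ : DJ D Q) (hW : DV D W) (h0 : Core.gdet (Q x₀).2.1 ≠ 0)
    (h1 : W x₀ ⬝ᵥ Core.nor (Q x₀).2.1 ≠ 0) : D fun x => shr (Q x) (W x) := by
  have hn := h.nor hQ
  refine h.div (h.add (h.div (h.add (h.sub (h.mul (h.dot (hQ.2.1 _) (hQ.2.1 _))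
    (h.dot (hQ.2.2 _ _) hn)) (h.mul (h.dot (hQ.2.1 _) (hQ.2.1 _))
    (h.add (h.dot (hQ.2.2 _ _) hn) (h.dot (hQ.2.2 _ _) hn)))) (h.mul (h.dot (hQ.2.1 _) (hQ.2.1 _))
    (h.dot (hQ.2.2 _ _) hn))) (h.gdet hQ) h0) ?_) (h.dot hW hn) h1
  simpa using h.div_const (h.dot hQ.1 hn) 2

end Cl

/-- the operator without the sources -/
def el (A₀ Q : J2 P2 C3) (W : C3) : ℂ :=
  (W ⬝ᵥ nor Q.2.1) ^ 2 / gdet Q.2.1 * (lag Q.one / lag A₀.one) * shr Q W

theorem lag_ne {q : J1 P2 C3} (h : 0 < (gdet q.2).re) : lag q ≠ 0 := by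
  have h0 : gdet q.2 ≠ 0 := fun h0 => by simp [h0] at h
  refine mul_ne_zero (Complex.exp_ne_zero _) ?_
  rw [sqrt_eq_exp h0]
  exact Complex.exp_ne_zero _

theorem Cl.el {X : Type} {D : (X → ℂ) → Prop} {x₀ : X} (h : Cl D x₀) {A₀ Q W} (hA : DJ D A₀)
    (hQ : DJ D Q) (hW : DV D W) (h0 : 0 < (Core.gdet (A₀ x₀).2.1).re)
    (h1 : 0 < (Core.gdet (Q x₀).2.1).re) (h2 : W x₀ ⬝ᵥ Core.nor (Q x₀).2.1 ≠ 0) :
    D fun x => el (A₀ x) (Q x) (W x) := by
  have h3 : Core.gdet (Q x₀).2.1 ≠ 0 := fun h0 => by simp [h0] at h1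
  exact h.mul (h.mul (h.div (h.sq (h.dot hW (h.nor hQ))) (h.gdet hQ) h3)
    (h.div (h.lag hQ h1) (h.lag hA h0) (lag_ne h0))) (h.shr hQ hW h3 h2)

/-! ### Holomorphic dependence of derivatives on parameters -/

section hol

variable {E F V : Type} [NormedAddCommGroup E] [NormedSpace ℝ E] [NormedSpace ℂ E]
  [IsScalarTower ℝ ℂ E] [NormedAddCommGroup F] [NormedSpace ℝ F] [NormedAddCommGroup V]
  [NormedSpace ℝ V] [NormedSpace ℂ V] [IsScalarTower ℝ ℂ V]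

/-- holomorphic in the first variable -/
def HolAt (H : E × F → V) (p : E × F) : Prop := DifferentiableAt ℂ (fun a => H (a, p.2)) p.1

/-- the derivative in the second variable -/
def dz (u : F) (H : E × F → V) (p : E × F) : V := fderiv ℝ H p (0, u)

theorem diff_of_cr {f : E → V} {L : E →L[ℝ] V} {a : E} (hf : HasFDerivAt f L a)
    (hL : ∀ b, L (Complex.I • b) = Complex.I • L b) : DifferentiableAt ℂ f a := by
  refine (differentiableAt_iff_restrictScalars ℝ hf.differentiableAt).2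
    ⟨⟨⟨⟨L, L.map_add⟩, fun c b => ?_⟩, L.continuous⟩, ?_⟩
  · have e : ∀ {Y : Type} [NormedAddCommGroup Y] [NormedSpace ℝ Y] [NormedSpace ℂ Y]
        [IsScalarTower ℝ ℂ Y] (y : Y), c • y = c.re • y + c.im • (Complex.I • y) := by
      intro Y _ _ _ _ y
      conv_lhs => rw [← Complex.re_add_im c]
      rw [add_smul, mul_smul]
      exact congrArg₂ (· + ·) (IsScalarTower.algebraMap_smul ℂ c.re y)
        (IsScalarTower.algebraMap_smul ℂ c.im (Complex.I • y))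
    simp only [RingHom.id_apply]
    rw [e b, e (L b), map_add, map_smul, map_smul, hL]
  · rw [hf.fderiv]; rfl

theorem HolAt.cr {H : E × F → V} {p : E × F} (h : HolAt H p) (hd : DifferentiableAt ℝ H p)
    (b : E) : fderiv ℝ H p (Complex.I • b, 0) = Complex.I • fderiv ℝ H p (b, 0) := by
  have h1 : HasFDerivAt (fun a => H (a, p.2))
      ((fderiv ℝ H p).comp (ContinuousLinearMap.inl ℝ E F)) p.1 :=
    HasFDerivAt.comp p.1 (f := fun a => (a, p.2)) hd.hasFDerivAt (hasFDerivAt_prodMk_left p.1 p.2)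
  have h2 := h1.unique (h.hasFDerivAt.restrictScalars ℝ)
  have h3 : ∀ c, fderiv ℝ H p (c, 0) = fderiv ℂ (fun a => H (a, p.2)) p.1 c := fun c =>
    DFunLike.congr_fun h2 c
  rw [h3, h3, map_smul]

theorem holAt_dz {H : E × F → V} {p : E × F} (hH : ContDiffAt ℝ 2 H p)
    (h : ∀ᶠ q in 𝓝 p, HolAt H q) (u : F) : HolAt (dz u H) p := by
  have d1 := (diff_fderiv hH).hasFDerivAt
  set D2 := fderiv ℝ (fderiv ℝ H) p
  have sy : ∀ s t, D2 s t = D2 t s := fun s t => jet2_symm hH s t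
  have d2 : ∀ s, HasFDerivAt (fun q => fderiv ℝ H q s) (D2.flip s) p := fun s => by
    simpa using d1.clm_apply (hasFDerivAt_const s p)
  have cr : ∀ b ζ, D2 ζ (Complex.I • b, 0) = Complex.I • D2 ζ (b, 0) := by
    intro b ζ
    have e : (fun q => fderiv ℝ H q (Complex.I • b, 0)) =ᶠ[𝓝 p]
        fun q => Complex.I • fderiv ℝ H q (b, 0) := by
      filter_upwards [h, ev_diff hH] with q h1 h2 using h1.cr h2 b
    have := ((d2 _).congr_of_eventuallyEq e.symm).unique ((d2 (b, 0)).const_smul Complex.I)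
    exact DFunLike.congr_fun this ζ
  have d3 : HasFDerivAt (fun a => dz u H (a, p.2))
      ((D2.flip (0, u)).comp (ContinuousLinearMap.inl ℝ E F)) p.1 :=
    HasFDerivAt.comp p.1 (f := fun a => (a, p.2)) (d2 (0, u)) (hasFDerivAt_prodMk_left p.1 p.2)
  refine diff_of_cr d3 fun b => ?_
  simp only [ContinuousLinearMap.comp_apply, ContinuousLinearMap.inl_apply,
    ContinuousLinearMap.flip_apply]
  rw [sy, cr, sy]

theorem cd_dz {H : E × F → V} {p : E × F} {m n : ℕ} (hH : ContDiffAt ℝ n H p) (hm : m + 1 ≤ n)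
    (u : F) : ContDiffAt ℝ m (dz u H) p :=
  (hH.fderiv_right (m := m) (by exact_mod_cast hm)).clm_apply contDiffAt_const

theorem fderiv_slice {H : E × F → V} {p : E × F} (hH : DifferentiableAt ℝ H p) (u : F) :
    fderiv ℝ (fun z => H (p.1, z)) p.2 u = dz u H p := by
  have h1 : HasFDerivAt (fun z => H (p.1, z))
      ((fderiv ℝ H p).comp (ContinuousLinearMap.inr ℝ E F)) p.2 :=
    HasFDerivAt.comp p.2 (f := fun z => (p.1, z)) hH.hasFDerivAt (hasFDerivAt_prodMk_right p.1 p.2)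
  rw [h1.fderiv]
  rfl

theorem cd_slice {H : E × F → V} {p : E × F} {n : WithTop ℕ∞} (hH : ContDiffAt ℝ n H p) :
    ContDiffAt ℝ n (fun z => H (p.1, z)) p.2 :=
  ContDiffAt.comp p.2 (f := fun z => (p.1, z)) hH (contDiffAt_const.prodMk contDiffAt_id)

theorem jet_slice {H : E × F → V} {p : E × F} (hH : ContDiffAt ℝ 2 H p) (u v : F) :
    (jet2 (fun z => H (p.1, z)) p.2).2.1 u = dz u H p ∧
      (jet2 (fun z => H (p.1, z)) p.2).2.2 u v = dz u (dz v H) p := by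
  refine ⟨fderiv_slice (hH.differentiableAt (by simp)) u, ?_⟩
  have h1 := (diff_fderiv (cd_slice hH)).hasFDerivAt
  have h2 : HasFDerivAt (fun z => fderiv ℝ (fun z => H (p.1, z)) z v)
      ((fderiv ℝ (fderiv ℝ fun z => H (p.1, z)) p.2).flip v) p.2 := by
    simpa using h1.clm_apply (hasFDerivAt_const v p.2)
  have ht : Tendsto (fun z : F => (p.1, z)) (𝓝 p.2) (𝓝 p) :=
    (continuous_const.prodMk continuous_id).tendsto' p.2 p rfl
  have e : (fun z => dz v H (p.1, z)) =ᶠ[𝓝 p.2] fun z => fderiv ℝ (fun z => H (p.1, z)) z v := by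
    filter_upwards [ht.eventually (ev_diff hH)] with z hz using (fderiv_slice hz v).symm
  rw [← fderiv_slice ((cd_dz (m := 1) (n := 2) hH le_rfl v).differentiableAt (by simp)) u,
    (h2.congr_of_eventuallyEq e).fderiv]
  rfl

end hol

/-! ### Parametrisations -/

section par

variable {S C0 : Set E3} {J : Type} {K : J → P2 → E3} {φ φ' : P2 → E3} {y y' : P2}

theorem par_cd (h : Par S φ y) {n : ℕ} : ContDiffAt ℝ n φ y :=
  h.smooth.self_of_nhds.of_le (by exact_mod_cast le_top)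

theorem det2_ne {A : P2 →L[ℝ] P2} (hA : Function.Injective A) : det2 A ≠ 0 := by
  intro h0
  unfold det2 at h0
  have key : ∀ u : P2, A u = 0 → u = 0 := fun u hu => hA (by rw [hu, map_zero])
  have h1 := key ((A (0, 1)).2, -(A (1, 0)).2) (by
    rw [lin_eq A]
    refine Prod.ext ?_ ?_
    · simp; linarith
    · simp; ring)
  have h2 := key ((A (0, 1)).1, -(A (1, 0)).1) (by
    rw [lin_eq A]
    refine Prod.ext ?_ ?_
    · simp; ring
    · simp; linarith)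
  have h3 := key (1, 0) (Prod.ext (by simpa using congrArg Prod.snd h2)
    (by simpa using congrArg Prod.snd h1))
  simpa using congrArg Prod.fst h3

/-- transition maps -/
theorem exists_trans (hP : ParStmt) (hS : IsSurf S) (h : Par S φ y) (h' : Par S φ' y')
    (e : φ' y' = φ y) : ∃ τ : P2 → P2, ContDiffAt ℝ ∞ τ y' ∧ τ y' = y ∧
      (∀ᶠ z in 𝓝 y', φ (τ z) = φ' z) ∧ det2 (fderiv ℝ τ y') ≠ 0 := by
  obtain ⟨ψ, h1, h2, h3⟩ := (hP S hS).2 φ y h
  have c' := h'.smooth.self_of_nhds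
  have ht : Tendsto φ' (𝓝 y') (𝓝 (φ y)) := e ▸ c'.continuousAt
  have a1 : ContDiffAt ℝ ∞ (fun z => ψ (φ' z)) y' :=
    ContDiffAt.comp y' (g := ψ) (e ▸ h1.self_of_nhds) c'
  have a2 : ψ (φ' y') = y := by rw [e, h2.self_of_nhds]
  have a3 : ∀ᶠ z in 𝓝 y', φ (ψ (φ' z)) = φ' z := by
    filter_upwards [ht.eventually h3, h'.mem] with z k1 k2 using k1 k2
  refine ⟨fun z => ψ (φ' z), a1, a2, a3, det2_ne ?_⟩
  have d1 : HasFDerivAt φ (fderiv ℝ φ y) (ψ (φ' y')) := by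
    rw [a2]; exact (h.smooth.self_of_nhds.differentiableAt (by simp)).hasFDerivAt
  have d2 := (d1.comp y' (a1.differentiableAt (by simp)).hasFDerivAt).congr_of_eventuallyEq
    (f₁ := φ') (a3.mono fun z hz => hz.symm)
  have := h'.inj
  rw [d2.fderiv] at this
  exact Function.Injective.of_comp this

theorem mo_nhds (hP : ParStmt) (G : Geo S C0 K) {x : E3} (hx : x ∈ Mo C0 K) :
    ∀ᶠ x' in 𝓝 x, x' ∈ S → x' ∈ Mo C0 K := by
  have key : ∀ j (y : P2), y.1 ∈ Ioo (-1 : ℝ) 6 → ∀ᶠ x' in 𝓝 (K j y), x' ∈ S → x' ∈ Mo C0 K := by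
    intro j y hy
    obtain ⟨ψ, h1, h2, h3⟩ := (hP S G.surf).2 (K j) y (G.par j y ⟨hy.1, by linarith [hy.2]⟩)
    have h4 : Tendsto (fun x' => (ψ x').1) (𝓝 (K j y)) (𝓝 y.1) := by
      have := h1.self_of_nhds.continuousAt.fst.tendsto
      rwa [h2.self_of_nhds] at this
    filter_upwards [h3, h4.eventually (isOpen_Ioo.mem_nhds hy)] with x' k1 k2 k3
    rcases le_or_gt (ψ x').1 0 with k4 | k4
    · exact Or.inl (k1 k3 ▸ (G.mem j _ ⟨k2.1, by linarith [k2.2]⟩).2 k4)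
    · exact Or.inr ⟨j, _, ⟨k4, k2.2⟩, k1 k3⟩
  rcases hx with hx | ⟨j, y, hy, rfl⟩
  · rcases G.int x hx with ⟨j, θ, rfl⟩ | h
    · exact key j _ (by norm_num)
    · exact h.mono fun x' h1 h2 => Or.inl (h1 h2)
  · exact key j y ⟨by linarith [hy.1], hy.2⟩

theorem par_mo (hP : ParStmt) (G : Geo S C0 K) (h : Par S φ y) (hy : φ y ∈ Mo C0 K) :
    ∀ᶠ z in 𝓝 y, φ z ∈ Mo C0 K := by
  filter_upwards [h.smooth.self_of_nhds.continuousAt.eventually (mo_nhds hP G hy), h.mem]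
    with z k1 k2 using k1 k2

/-- the determinant of the metric of a real immersion -/
def rg (a b : E3) : ℝ := (a.ofLp ⬝ᵥ a.ofLp) * (b.ofLp ⬝ᵥ b.ofLp) - (a.ofLp ⬝ᵥ b.ofLp) ^ 2

theorem cE_dot (a b : E3) : cE a ⬝ᵥ cE b = ((a.ofLp ⬝ᵥ b.ofLp : ℝ) : ℂ) := by
  simp [dotProduct]

theorem gdet_real (D : P2 →L[ℝ] E3) : gdet (cE.comp D) = (rg (D (1, 0)) (D (0, 1)) : ℂ) := by
  simp only [gdet, t1, t2, ContinuousLinearMap.comp_apply, cE_dot, rg]
  push_cast
  ring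

theorem quad_pos {D : P2 →L[ℝ] E3} (hD : Function.Injective D) {s t : ℝ} (h : (s, t) ≠ (0 : P2)) :
    0 < s ^ 2 * ((D (1, 0)).ofLp ⬝ᵥ (D (1, 0)).ofLp)
      + 2 * s * t * ((D (1, 0)).ofLp ⬝ᵥ (D (0, 1)).ofLp)
      + t ^ 2 * ((D (0, 1)).ofLp ⬝ᵥ (D (0, 1)).ofLp) := by
  have h1 : D (s, t) ≠ 0 := fun h0 => h (hD (by rw [h0, map_zero]))
  have h2 : 0 < ‖D (s, t)‖ ^ 2 := by positivity
  rw [EuclideanSpace.real_norm_sq_eq, lin_eq D] at h2
  simp only [dotProduct, Fin.sum_univ_three, PiLp.add_apply, PiLp.smul_apply, smul_eq_mul] at h2 ⊢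
  linarith

theorem rg_pos {D : P2 →L[ℝ] E3} (hD : Function.Injective D) : 0 < rg (D (1, 0)) (D (0, 1)) := by
  have h1 := quad_pos hD (s := 1) (t := 0) (by simp)
  set a := (D (1, 0)).ofLp ⬝ᵥ (D (1, 0)).ofLp
  have ha : 0 < a := by linarith
  have h2 := quad_pos hD (s := -((D (1, 0)).ofLp ⬝ᵥ (D (0, 1)).ofLp)) (t := a)
    (fun h0 => ha.ne' (congrArg Prod.snd h0))
  unfold rg
  refine (mul_pos_iff_of_pos_left ha).1 ?_
  linarith

theorem jet_cE (h : Par S φ y) : (jet2 (fun z => cE (φ z)) y).2.1 = cE.comp (fderiv ℝ φ y) := by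
  rw [jet2_clm cE (par_cd h)]
  rfl

theorem gdet_pos (h : Par S φ y) : 0 < (gdet (jet2 (fun z => cE (φ z)) y).2.1).re := by
  rw [jet_cE h, gdet_real, Complex.ofReal_re]
  exact rg_pos h.inj

end par

/-! ### Invariance of the operator -/

theorem sqrt_mul_real {c : ℝ} (hc : c ≠ 0) (g : ℂ) :
    Complex.sqrt ((c : ℂ) ^ 2 * g) = (|c| : ℝ) * Complex.sqrt g := by
  rcases eq_or_ne g 0 with rfl | hg
  · simp
  have h1 : 0 < |c| := abs_pos.2 hc
  have h2 : ((c : ℂ) ^ 2) = ((|c| ^ 2 : ℝ) : ℂ) := by rw [sq_abs]; push_cast; rfl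
  rw [h2, sqrt_eq_exp (mul_ne_zero (Complex.ofReal_ne_zero.2 (by positivity)) hg),
    Complex.log_ofReal_mul (by positivity) hg, sqrt_eq_exp hg, add_div, Complex.exp_add,
    Real.log_pow]
  congr 1
  rw [← Real.exp_log h1, Complex.ofReal_exp, Real.log_exp]
  congr 1
  push_cast
  ring

theorem lag_comp {q q' : J2 P2 C3} {A : P2 →L[ℝ] P2} (hA : det2 A ≠ 0) (h0 : q'.1 = q.1)
    (h1 : ∀ u, q'.2.1 u = q.2.1 (A u)) : lag q'.one = (|det2 A| : ℝ) * lag q.one := by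
  have e1 : q'.2.1 = q.2.1.comp A := ContinuousLinearMap.ext h1
  simp only [lag, J2.one]
  rw [h0, e1, gdet_comp, sqrt_mul_real hA]
  ring

theorem el_comp {X Y : P2 → C3} {τ : P2 → P2} {y : P2} (hX : ContDiffAt ℝ 2 X (τ y))
    (hY : ContDiffAt ℝ 2 Y (τ y)) (hτ : ContDiffAt ℝ 2 τ y) (hA : det2 (fderiv ℝ τ y) ≠ 0)
    (W : C3) : el (jet2 (fun z => X (τ z)) y) (jet2 (fun z => Y (τ z)) y) W
      = el (jet2 X (τ y)) (jet2 Y (τ y)) W := by
  obtain ⟨a0, a1, -⟩ := jet2_comp hX hτ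
  obtain ⟨b0, b1, b2⟩ := jet2_comp hY hτ
  have e1 : (jet2 (fun z => Y (τ z)) y).2.1 = (jet2 Y (τ y)).2.1.comp (fderiv ℝ τ y) :=
    ContinuousLinearMap.ext b1
  have hA' : (det2 (fderiv ℝ τ y) : ℂ) ≠ 0 := Complex.ofReal_ne_zero.2 hA
  have hA2 : ((|det2 (fderiv ℝ τ y)| : ℝ) : ℂ) ≠ 0 := Complex.ofReal_ne_zero.2 (abs_ne_zero.2 hA)
  unfold el
  rw [shr_reparam (B := fun u v => fderiv ℝ (fderiv ℝ τ) y u v) hA b0 b1 b2, lag_comp hA a0 a1,
    lag_comp hA b0 b1, e1, nor_comp, gdet_comp, mul_div_mul_left _ _ hA2, dotProduct_smul,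
    smul_eq_mul, mul_pow, mul_div_mul_left _ _ (pow_ne_zero 2 hA')]

theorem el_rot {O : C3 →L[ℝ] C3} (h : IsRot O) (A Q : J2 P2 C3) (W : C3) :
    el A (Q.map O) (O W) = el A Q W := by
  unfold el
  rw [h.shr]
  simp only [J2.map, J2.one]
  rw [h.gdet, h.nor, h.dot, h.lag]

theorem jet2_shift {V : Type} [NormedAddCommGroup V] [NormedSpace ℝ V] {f : P2 → V} {c : P2}
    (h : ∀ z, f (z + c) = f z) (y : P2) : jet2 f (y + c) = jet2 f y := by
  have h1 : ∀ z, fderiv ℝ f (z + c) = fderiv ℝ f z := fun z => by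
    rw [← fderiv_comp_add_right]; simp only [h]
  unfold jet2
  rw [h, h1, ← fderiv_comp_add_right]
  simp only [h1]

theorem elOp_eq {ι : Type} [Fintype ι] (P W : (ι → ℂ) → E3 → C3) (F : ι → E3 → ℝ) (a : ι → ℂ)
    (φ : P2 → E3) (y : P2) (q : J2 P2 ℂ) : elOp P W F a φ y q
      = el (jet2 (fun z => cE (φ z)) y) (surJ P W a φ y q) (W a (φ y)) - ∑ i, a i * F i (φ y) :=
  rfl

theorem smul_zero_jet (B : J2 P2 C3) : J2.smul (0 : J2 P2 ℂ) B = 0 := by
  refine Prod.ext (by simp [J2.smul_fst]) (Prod.ext ?_ ?_)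
  · exact ContinuousLinearMap.ext fun u => by simp [J2.smul_one]
  · exact ContinuousLinearMap.ext fun u => ContinuousLinearMap.ext fun v => by simp [J2.smul_two]

/-! ### Jets depending on parameters -/

section jets

variable {E X : Type} [NormedAddCommGroup E] [NormedSpace ℝ E] [NormedSpace ℂ E]
  [IsScalarTower ℝ ℂ E] [NormedAddCommGroup X] {H : E × P2 → C3}

theorem ev_two {p : E × P2} (hH : ContDiffAt ℝ (3 : ℕ) H p) : ∀ᶠ q in 𝓝 p, ContDiffAt ℝ 2 H q :=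
  (hH.eventually (by simp)).mono fun _ hq => hq.of_le (by norm_num)

theorem dj_cd [NormedSpace ℝ X] {τ : X → E × P2} {x₀ : X} (hH : ContDiffAt ℝ (3 : ℕ) H (τ x₀))
    (hτ : ContDiffAt ℝ 1 τ x₀) : DJ (fun f : X → ℂ => ContDiffAt ℝ 1 f x₀)
      fun x => jet2 (fun z => H ((τ x).1, z)) (τ x).2 := by
  have ev := hτ.continuousAt.eventually (ev_two hH)
  refine ⟨contDiffAt_pi.1 ((hH.of_le (by norm_num)).comp x₀ hτ), fun u => contDiffAt_pi.1 ?_,
    fun u v => contDiffAt_pi.1 ?_⟩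
  · refine ((cd_dz (m := 1) hH (by norm_num) u).comp x₀ hτ).congr_of_eventuallyEq ?_
    exact ev.mono fun x hx => (jet_slice hx u u).1
  · refine ((cd_dz (m := 1) (cd_dz (m := 2) hH le_rfl v) le_rfl u).comp x₀
      hτ).congr_of_eventuallyEq ?_
    exact ev.mono fun x hx => (jet_slice hx u v).2

theorem dj_diff [NormedSpace ℂ X] {a : X → E} {x₀ : X} {z : P2}
    (hH : ContDiffAt ℝ (3 : ℕ) H (a x₀, z)) (hh : ∀ᶠ q in 𝓝 (a x₀, z), HolAt H q)
    (ha : DifferentiableAt ℂ a x₀) : DJ (fun f : X → ℂ => DifferentiableAt ℂ f x₀)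
      fun x => jet2 (fun z => H (a x, z)) z := by
  have ev : ∀ᶠ x in 𝓝 x₀, ContDiffAt ℝ 2 H (a x, z) :=
    (ha.continuousAt.prodMk continuousAt_const).eventually (ev_two hH)
  have k : ∀ {G : E × P2 → C3}, HolAt G (a x₀, z) → DifferentiableAt ℂ (fun x => G (a x, z)) x₀ :=
    fun hG => DifferentiableAt.comp x₀ (f := a) hG ha
  refine ⟨differentiableAt_pi.1 (k hh.self_of_nhds), fun u => differentiableAt_pi.1 ?_,
    fun u v => differentiableAt_pi.1 ?_⟩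
  · refine (k (holAt_dz (ev_two hH).self_of_nhds hh u)).congr_of_eventuallyEq ?_
    exact ev.mono fun x hx => (jet_slice hx u u).1
  · refine (k (holAt_dz (cd_dz (m := 2) hH le_rfl v) ?_ u)).congr_of_eventuallyEq ?_
    · filter_upwards [ev_two hH, hh.eventually_nhds] with q h1 h2 using holAt_dz h1 h2 v
    · exact ev.mono fun x hx => (jet_slice hx u v).2

theorem dj_const [NormedSpace ℂ X] (x₀ : X) (Q : J2 P2 C3) :
    DJ (fun f : X → ℂ => DifferentiableAt ℂ f x₀) fun _ => Q :=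
  ⟨fun _ => differentiableAt_const _, fun _ _ => differentiableAt_const _,
    fun _ _ _ => differentiableAt_const _⟩

theorem dj_re {f : P2 → C3} {z : P2} (hf : ContDiffAt ℝ 2 f z) (h : ∀ᶠ z' in 𝓝 z, IsRe (f z')) :
    DJ (fun g : Unit → ℂ => (g ()).im = 0) fun _ => jet2 f z := by
  have key : ∀ i, (jet2 f z).map (Complex.imCLM.comp (ContinuousLinearMap.proj i)) = (0, 0, 0) := by
    intro i
    rw [← jet2_clm _ hf, ← jet2_const (0 : ℝ) z]
    exact jet2_congr (h.mono fun z' hz => hz i)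
  exact ⟨fun i => congrArg (fun q => q.1) (key i), fun u i => congrArg (fun q => q.2.1 u) (key i),
    fun u v i => congrArg (fun q => q.2.2 u v) (key i)⟩

/-- evaluation of a real linear map is complex linear -/
def evC {F V : Type} [NormedAddCommGroup F] [NormedSpace ℝ F] [NormedAddCommGroup V]
    [NormedSpace ℝ V] [NormedSpace ℂ V] [SMulCommClass ℝ ℂ V] (u : F) : (F →L[ℝ] V) →L[ℂ] V where
  toFun L := L u
  map_add' _ _ := rfl
  map_smul' _ _ := rfl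
  cont := (ContinuousLinearMap.apply ℝ V u).continuous

theorem ds_diff [NormedSpace ℂ X] {q : X → J2 P2 ℂ} {x₀ : X} (hq : DifferentiableAt ℂ q x₀) :
    DS (fun f : X → ℂ => DifferentiableAt ℂ f x₀) q :=
  ⟨hq.fst, fun u => (evC (F := P2) (V := ℂ) u).differentiableAt.comp x₀ hq.snd.fst,
    fun u v => (evC (F := P2) (V := ℂ) v).differentiableAt.comp x₀
      ((evC (F := P2) (V := P2 →L[ℝ] ℂ) u).differentiableAt.comp x₀ hq.snd.snd)⟩

theorem ds_cd [NormedSpace ℝ X] {q : X → J2 P2 ℂ} {x₀ : X} (hq : ContDiffAt ℝ 1 q x₀) :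
    DS (fun f : X → ℂ => ContDiffAt ℝ 1 f x₀) q :=
  ⟨hq.fst, fun _ => hq.snd.fst.clm_apply contDiffAt_const,
    fun _ _ => (hq.snd.snd.clm_apply contDiffAt_const).clm_apply contDiffAt_const⟩

end jets

/-! ### The fields of `OpOK` -/

section main

variable {S C0 : Set E3} {J ι : Type} [Fintype ι] {K : J → P2 → E3} {V : E3 → E3}
  {P W : (ι → ℂ) → E3 → C3} {F : ι → E3 → ℝ} {α δ : ℝ} (hP : ParStmt) (G : Geo S C0 K)
  (E : ElOK S C0 K V P W F α δ) {φ φ' : P2 → E3} {y y' : P2}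
include hP G E

theorem joint (h : Par S φ y) (hy : φ y ∈ Mo C0 K) {a : ι → ℂ} (ha : ‖a‖ < δ) :
    ContDiffAt ℝ (3 : ℕ) (fun v : (ι → ℂ) × P2 => P v.1 (φ v.2)) (a, y) ∧
      ContDiffAt ℝ (3 : ℕ) (fun v : (ι → ℂ) × P2 => W v.1 (φ v.2)) (a, y) := by
  obtain ⟨φ₀, y₀, h₀, e₀, H⟩ := E.smooth _ hy
  obtain ⟨τ, t1, t2, t3, -⟩ := exists_trans hP G.surf h₀ h e₀.symm
  have h1 : ContDiffAt ℝ 3 (fun v : (ι → ℂ) × P2 => (v.1, τ v.2)) (a, y) :=
    contDiffAt_fst.prodMk (ContDiffAt.comp (a, y) (g := τ)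
      (t1.of_le (WithTop.coe_le_coe.2 (le_top : (3 : ℕ∞) ≤ ⊤))) contDiffAt_snd)
  have h2 := ContDiffAt.comp (a, y) (f := fun v : (ι → ℂ) × P2 => (v.1, τ v.2))
    (by simpa only [t2] using H a ha) h1
  have h3 : ContDiffAt ℝ 3 (fun v : (ι → ℂ) × P2 => (P v.1 (φ v.2), W v.1 (φ v.2))) (a, y) := by
    refine h2.congr_of_eventuallyEq ?_
    filter_upwards [continuousAt_snd.eventually t3] with v hv
    simp only [Function.comp, hv]
  exact ⟨h3.fst, h3.snd⟩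

theorem slice_cd (h : Par S φ y) (hy : φ y ∈ Mo C0 K) {a : ι → ℂ} (ha : ‖a‖ < δ) :
    ContDiffAt ℝ 2 (fun z => P a (φ z)) y ∧ ContDiffAt ℝ 2 (fun z => W a (φ z)) y :=
  ⟨(cd_slice (joint hP G E h hy ha).1).of_le (by norm_num),
    (cd_slice (joint hP G E h hy ha).2).of_le (by norm_num)⟩

theorem holder (hα : 0 < α) (h : Par S φ y) (hy : φ y ∈ Mo C0 K) : ∃ r > 0, ∃ C : ℝ, 0 ≤ C ∧
    ∀ i, ∀ z ∈ ball y r, ∀ z' ∈ ball y r, |F i (φ z) - F i (φ z')| ≤ C * ‖z - z'‖ ^ α := by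
  obtain ⟨φ₀, y₀, h₀, e₀, r₀, hr₀, C, H⟩ := E.Fhol _ hy
  obtain ⟨τ, t1, t2, t3, -⟩ := exists_trans hP G.surf h₀ h e₀.symm
  obtain ⟨L, t, ht, hL⟩ := (t1.of_le (by exact_mod_cast le_top)).exists_lipschitzOnWith
  have t4 : ∀ᶠ z in 𝓝 y, τ z ∈ ball y₀ r₀ :=
    t1.continuousAt.eventually (by rw [t2]; exact ball_mem_nhds _ hr₀)
  obtain ⟨r, hr, hb⟩ := Metric.eventually_nhds_iff_ball.1 (t3.and (t4.and ht))
  refine ⟨r, hr, max C 0 * (L : ℝ) ^ α, by positivity, fun i z hz z' hz' => ?_⟩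
  rw [← (hb z hz).1, ← (hb z' hz').1]
  refine (H i _ (hb z hz).2.1 _ (hb z' hz').2.1).trans ?_
  have h1 : ‖τ z - τ z'‖ ≤ L * ‖z - z'‖ := hL.norm_sub_le (hb z hz).2.2 (hb z' hz').2.2
  calc C * ‖τ z - τ z'‖ ^ α ≤ max C 0 * (L * ‖z - z'‖) ^ α := by
        gcongr
        exact le_max_left _ _
    _ = _ := by rw [Real.mul_rpow L.coe_nonneg (norm_nonneg _), mul_assoc]

theorem surJ_zero (φ : P2 → E3) (y : P2) : surJ P W 0 φ y 0 = jet2 (fun z => cE (φ z)) y := by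
  simp only [surJ, smul_zero_jet, add_zero, E.P0]

theorem trans_ne (h : Par S φ y) (hy : φ y ∈ Mo C0 K) :
    W 0 (φ y) ⬝ᵥ nor (jet2 (fun z => cE (φ z)) y).2.1 ≠ 0 := by
  rw [E.W0]; exact E.trans φ y h hy

theorem op_inv (h : Par S φ y) (h' : Par S φ' y') (hy : φ y ∈ Mo C0 K) (e : φ' y' = φ y)
    {a : ι → ℂ} (ha : ‖a‖ < δ) {w : E3 → ℂ} (hw : ContDiffAt ℝ 2 (fun z => w (φ z)) y)
    (hw' : ContDiffAt ℝ 2 (fun z => w (φ' z)) y') :
    elOp P W F a φ' y' (jet2 (fun z => w (φ' z)) y')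
      = elOp P W F a φ y (jet2 (fun z => w (φ z)) y) := by
  obtain ⟨τ, t1, t2, t3, t4⟩ := exists_trans hP G.surf h h' e
  obtain ⟨p1, w1⟩ := slice_cd hP G E h hy ha
  obtain ⟨p2, w2⟩ := slice_cd hP G E h' (e ▸ hy) ha
  have hX : ContDiffAt ℝ 2 (fun z => cE (φ z)) y := cE.contDiff.contDiffAt.comp y (par_cd h)
  have s1 : ContDiffAt ℝ 2 (fun z => w (φ z) • W a (φ z)) y := hw.smul w1
  have s2 : ContDiffAt ℝ 2 (fun z => w (φ' z) • W a (φ' z)) y' := hw'.smul w2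
  have hY : ContDiffAt ℝ 2 (fun z => P a (φ z) + w (φ z) • W a (φ z)) y := p1.add s1
  rw [elOp_eq, elOp_eq, surJ, surJ, ← jet2_smul hw w1, ← jet2_smul hw' w2,
    ← jet2_add p1 s1, ← jet2_add p2 s2, e]
  subst t2
  rw [← el_comp hX hY (t1.of_le (WithTop.coe_le_coe.2 (le_top : (2 : ℕ∞) ≤ ⊤))) t4]
  congr 2
  · exact jet2_congr (t3.mono fun z hz => by simp only [hz])
  · exact jet2_congr (t3.mono fun z hz => by simp only [hz])

theorem op_zero (h : Par S φ y) (hy : φ y ∈ Mo C0 K) : elOp P W F 0 φ y 0 = 0 := by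
  have := E.shr0 φ y h hy
  rw [elOp_eq, surJ_zero hP G E, el, E.W0]
  unfold Shr at this
  simp [this]

theorem op_loc (hα : 0 < α) (hα1 : α < 1) (hδ : 0 < δ) (h : Par S φ y) (hy : φ y ∈ Mo C0 K) :
    ∃ r > 0, ∃ M : ℝ, ∀ z ∈ ball y r,
      DifferentiableOn ℂ (fun v : (ι → ℂ) × J2 P2 ℂ => elOp P W F v.1 φ z v.2) (ball 0 r) ∧
      ∀ v ∈ ball (0 : (ι → ℂ) × J2 P2 ℂ) r, ‖elOp P W F v.1 φ z v.2‖ ≤ M ∧
        (∀ z' ∈ ball y r, ‖elOp P W F v.1 φ z v.2 - elOp P W F v.1 φ z' v.2‖ ≤ M * ‖z - z'‖ ^ α) ∧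
        (IsRe v.1 → ReJ v.2 → (elOp P W F v.1 φ z v.2).im = 0) := by
  obtain ⟨jP, jW⟩ := joint hP G E h hy (a := 0) (by simpa using hδ)
  set x₀ : P2 × ((ι → ℂ) × J2 P2 ℂ) := (y, 0) with hx₀
  have c := cl_cd x₀
  have hτ : ContDiffAt ℝ 1 (fun x : P2 × ((ι → ℂ) × J2 P2 ℂ) => (x.2.1, x.1)) x₀ := by fun_prop
  have hτ0 : ContDiffAt ℝ 1 (fun x : P2 × ((ι → ℂ) × J2 P2 ℂ) => ((0 : ι → ℂ), x.1)) x₀ := by
    fun_prop
  have dA := dj_cd (τ := fun x : P2 × ((ι → ℂ) × J2 P2 ℂ) => ((0 : ι → ℂ), x.1)) jP hτ0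
  have dB := dj_cd (τ := fun x : P2 × ((ι → ℂ) × J2 P2 ℂ) => (x.2.1, x.1)) jW hτ
  have dQ := c.jet (dj_cd (τ := fun x : P2 × ((ι → ℂ) × J2 P2 ℂ) => (x.2.1, x.1)) jP hτ) dB
    (ds_cd (q := fun x : P2 × ((ι → ℂ) × J2 P2 ℂ) => x.2.2) (by fun_prop))
  simp only [E.P0] at dA
  change DJ _ fun x : P2 × ((ι → ℂ) × J2 P2 ℂ) => surJ P W x.2.1 φ x.1 x.2.2 at dQ
  have dW : DV (fun f => ContDiffAt ℝ 1 f x₀)
      fun x : P2 × ((ι → ℂ) × J2 P2 ℂ) => W x.2.1 (φ x.1) := dB.1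
  have q0 : surJ P W x₀.2.1 φ x₀.1 x₀.2.2 = jet2 (fun z => cE (φ z)) y := surJ_zero hP G E φ y
  have g0 := gdet_pos h
  have g1 : 0 < (gdet (surJ P W x₀.2.1 φ x₀.1 x₀.2.2).2.1).re := by rw [q0]; exact g0
  have g2 : W x₀.2.1 (φ x₀.1) ⬝ᵥ nor (surJ P W x₀.2.1 φ x₀.1 x₀.2.2).2.1 ≠ 0 := by
    rw [q0]; exact trans_ne hP G E h hy
  obtain ⟨L, t, ht, hL⟩ := (c.el dA dQ dW g0 g1 g2).exists_lipschitzOnWith
  have e0 := (Complex.continuous_re.continuousAt.comp (c.gdet dA).continuousAt).eventually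
    (lt_mem_nhds g0)
  have e1 := (Complex.continuous_re.continuousAt.comp (c.gdet dQ).continuousAt).eventually
    (lt_mem_nhds g1)
  have e2 := (c.dot dW (c.nor dQ)).continuousAt.eventually_ne g2
  have e3 := hτ.continuousAt.eventually
    ((jP.eventually (by simp)).and (jW.eventually (by simp)))
  have e4 : ∀ᶠ x : P2 × ((ι → ℂ) × J2 P2 ℂ) in 𝓝 x₀, ∀ᶠ z in 𝓝 x.1, φ z ∈ Mo C0 K :=
    (continuous_fst.tendsto x₀).eventually (par_mo hP G h hy).eventually_nhds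
  have e5 : ∀ᶠ x : P2 × ((ι → ℂ) × J2 P2 ℂ) in 𝓝 x₀, ContDiffAt ℝ ∞ φ x.1 :=
    (continuous_fst.tendsto x₀).eventually h.smooth
  obtain ⟨r₁, hr₁, hb⟩ := Metric.eventually_nhds_iff_ball.1
    (((e0.and e1).and (e2.and e3)).and ((e4.and e5).and ht))
  obtain ⟨r₂, hr₂, C, hC, hF⟩ := holder hP G E hα h hy
  set r := min (min r₁ r₂) (min δ (1 / 2)) with hr
  have r1 : r ≤ r₁ := (min_le_left _ _).trans (min_le_left _ _)
  have r2 : r ≤ r₂ := (min_le_left _ _).trans (min_le_right _ _)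
  have r3 : r ≤ δ := (min_le_right _ _).trans (min_le_left _ _)
  have r4 : r ≤ 1 / 2 := (min_le_right _ _).trans (min_le_right _ _)
  have hm : ∀ z ∈ ball y r, ∀ v ∈ ball (0 : (ι → ℂ) × J2 P2 ℂ) r, (z, v) ∈ ball x₀ r₁ := by
    intro z hz v hv
    rw [hx₀, ← ball_prod_same]
    exact ⟨ball_subset_ball r1 hz, ball_subset_ball r1 hv⟩
  have hv1 : ∀ v ∈ ball (0 : (ι → ℂ) × J2 P2 ℂ) r, ‖v.1‖ < r := fun v hv =>
    (norm_fst_le v).trans_lt (mem_ball_zero_iff.1 hv)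
  have hs : ∀ v ∈ ball (0 : (ι → ℂ) × J2 P2 ℂ) r, ∀ (g : ι → ℝ) (B : ℝ), (∀ i, |g i| ≤ B) →
      ‖∑ i, v.1 i * (g i : ℂ)‖ ≤ Fintype.card ι * B := by
    intro v hv g B hB
    refine (norm_sum_le _ _).trans ?_
    rw [← Finset.card_univ, ← nsmul_eq_mul]
    refine Finset.sum_le_card_nsmul _ _ _ fun i _ => ?_
    rw [norm_mul, Complex.norm_real, Real.norm_eq_abs]
    have := (norm_le_pi_norm v.1 i).trans (hv1 v hv).le
    calc _ ≤ 1 * B := by
          gcongr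
          · linarith
          · exact hB i
      _ = B := one_mul B
  have hd : ∀ z ∈ ball y r, ∀ z' ∈ ball y r, ‖z - z'‖ ≤ ‖z - z'‖ ^ α ∧ ‖z - z'‖ ^ α ≤ 1 := by
    intro z hz z' hz'
    have h1 : ‖z - z'‖ ≤ 1 := by
      rw [← dist_eq_norm]
      linarith [dist_triangle_right z z' y, mem_ball.1 hz, mem_ball.1 hz']
    exact ⟨Real.self_le_rpow_of_le_one (norm_nonneg _) h1 hα1.le,
      Real.rpow_le_one (norm_nonneg _) h1 hα.le⟩
  have hr0 : 0 < r := by positivity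
  set B : ℝ := ∑ i, |F i (φ y)| + C with hB
  set e₀ := el (jet2 (fun z => cE (φ z)) y) (surJ P W 0 φ y 0) (W 0 (φ y)) with he₀
  have hB0 : 0 ≤ B := by positivity
  refine ⟨r, hr0, ‖e₀‖ + L + Fintype.card ι * B, fun z hz => ⟨fun v hv => ?_, fun v hv =>
    ⟨?_, fun z' hz' => ?_, fun ra rq => ?_⟩⟩⟩
  · obtain ⟨⟨⟨k0, k1⟩, k2, k3, k4⟩, ⟨k5, -⟩, -⟩ := hb _ (hm z hz v hv)
    have hh : ∀ᶠ q : (ι → ℂ) × P2 in 𝓝 (v.1, z),
        DifferentiableAt ℂ (fun a => (P a (φ q.2), W a (φ q.2))) q.1 := by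
      filter_upwards [continuousAt_snd.eventually k5, continuousAt_fst.eventually
        (isOpen_ball.mem_nhds (mem_ball_zero_iff.2 ((hv1 v hv).trans_le r3)))] with q a1 a2
      exact (E.hol _ a1).differentiableAt (isOpen_ball.mem_nhds a2)
    have c' := cl_diff v
    have dB' := dj_diff (a := fun v : (ι → ℂ) × J2 P2 ℂ => v.1) k4 (hh.mono fun q hq => hq.snd)
      differentiableAt_fst
    have dQ' := c'.jet (dj_diff (a := fun v : (ι → ℂ) × J2 P2 ℂ => v.1) k3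
      (hh.mono fun q hq => hq.fst) differentiableAt_fst) dB' (ds_diff differentiableAt_snd)
    refine DifferentiableAt.differentiableWithinAt ?_
    refine (c'.el (dj_const v _) dQ' dB'.1 k0 k1 k2).sub (DifferentiableAt.fun_sum fun i _ => ?_)
    exact (differentiableAt_pi.1 differentiableAt_fst i).mul_const _
  · rw [elOp_eq]
    refine (norm_sub_le _ _).trans (add_le_add ?_ (hs v hv _ _ fun i => ?_))
    · have h1 := hL.norm_sub_le (hb _ (hm z hz v hv)).2.2 (hb x₀ (mem_ball_self hr₁)).2.2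
      have h2 : ‖(z, v) - x₀‖ ≤ 1 := by
        rw [← dist_eq_norm, hx₀, Prod.dist_eq]
        exact max_le (by linarith [mem_ball.1 hz]) (by linarith [mem_ball.1 hv])
      have h3 := mul_le_mul_of_nonneg_left h2 L.coe_nonneg
      exact (norm_le_norm_add_norm_sub' _ e₀).trans (add_le_add_right (h1.trans (by linarith)) _)
    · have h1 := hF i z (ball_subset_ball r2 hz) y (mem_ball_self hr₂)
      have h2 := mul_le_mul_of_nonneg_left (hd z hz y (mem_ball_self hr0)).2 hC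
      have h3 : |F i (φ y)| ≤ ∑ i, |F i (φ y)| :=
        Finset.single_le_sum (f := fun i => |F i (φ y)|) (fun _ _ => abs_nonneg _)
          (Finset.mem_univ i)
      have h4 := abs_sub_abs_le_abs_sub (F i (φ z)) (F i (φ y))
      linarith
  · have h1 := hL.norm_sub_le (hb _ (hm z hz v hv)).2.2 (hb _ (hm z' hz' v hv)).2.2
    have h2 : ‖(z, v) - (z', v)‖ = ‖z - z'‖ := by simp [Prod.norm_def]
    have h3 := hs v hv (fun i => F i (φ z) - F i (φ z')) _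
      fun i => hF i z (ball_subset_ball r2 hz) z' (ball_subset_ball r2 hz')
    have h4 := mul_le_mul_of_nonneg_left (hd z hz z' hz').1 L.coe_nonneg
    have h5 : C ≤ B := le_add_of_nonneg_left (by positivity)
    have h6 : 0 ≤ ‖z - z'‖ ^ α := by positivity
    simp only [Complex.ofReal_sub, mul_sub, Finset.sum_sub_distrib] at h3
    rw [elOp_eq, elOp_eq, sub_sub_sub_comm]
    rw [h2] at h1
    refine (norm_sub_le _ _).trans ((add_le_add (h1.trans h4) h3).trans ?_)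
    have h7 : (Fintype.card ι : ℝ) * (C * ‖z - z'‖ ^ α) ≤ Fintype.card ι * (B * ‖z - z'‖ ^ α) := by
      gcongr
    nlinarith [mul_nonneg (norm_nonneg e₀) h6]
  · obtain ⟨⟨⟨k0, k1⟩, k2, k3, k4⟩, ⟨k5, k6⟩, -⟩ := hb _ (hm z hz v hv)
    have c' := cl_re ()
    have hh := k5.mono fun z' hz' => E.real _ hz' v.1 ((hv1 v hv).trans_le r3) ra
    have dB' := dj_re ((cd_slice k4).of_le (by norm_num)) (hh.mono fun q hq => hq.2)
    have dQ' := c'.jet (dj_re ((cd_slice k3).of_le (by norm_num)) (hh.mono fun q hq => hq.1)) dB'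
      (q := fun _ => v.2) rq
    have dA' := dj_re (f := fun z => cE (φ z)) (cE.contDiff.contDiffAt.comp z
      (k6.of_le (WithTop.coe_le_coe.2 (le_top : (2 : ℕ∞) ≤ ⊤))))
      (Eventually.of_forall fun _ _ => Complex.ofReal_im _)
    have h1 := c'.el dA' dQ' dB'.1 k0 k1 k2
    rw [elOp_eq, Complex.sub_im, Complex.im_sum]
    simp only [Complex.mul_im, ra _, Complex.ofReal_im, mul_zero, zero_mul, add_zero,
      Finset.sum_const_zero, sub_zero]
    exact h1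

theorem op_ell (hα : 0 < α) (hα1 : α < 1) (hδ : 0 < δ) (h : Par S φ y) (hy : φ y ∈ Mo C0 K)
    {ξ : P2 →L[ℝ] ℝ} (hξ : ξ ≠ 0) : 0 < (lin (elOp P W F) φ y (0, sqJ ξ)).re := by
  obtain ⟨r, hr, M, H⟩ := op_loc hP G E hα hα1 hδ h hy
  have d := ((H y (mem_ball_self hr)).1.differentiableAt (ball_mem_nhds _ hr)).hasFDerivAt
  set A := jet2 (fun z => cE (φ z)) y with hA
  have g0 : 0 < (gdet A.2.1).re := gdet_pos h
  have g2 : W 0 (φ y) ⬝ᵥ nor A.2.1 ≠ 0 := trans_ne hP G E h hy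
  set c := (W 0 (φ y) ⬝ᵥ nor A.2.1) ^ 2 / gdet A.2.1 *
    gtr A.2.1 fun u v => (ξ u : ℂ) * ξ v with hc
  have e : ∀ t : ℂ, elOp P W F 0 φ y (t • sqJ ξ) = t * c := by
    intro t
    have h0 := E.shr0 φ y h hy
    have e1 : surJ P W 0 φ y (t • sqJ ξ) = (A.1, A.2.1, A.2.2 +
        ((t • sqJ ξ).smul (jet2 (fun z => W 0 (φ z)) y)).2.2) := by
      simp only [surJ, E.P0, ← hA]
      refine Prod.ext ?_ (Prod.ext (ContinuousLinearMap.ext fun u => ?_) rfl)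
      · simp [J2.smul_fst, sqJ, J2.map]
      · simp [J2.smul_one, sqJ, J2.map]
    rw [elOp_eq, e1, el, shr_add_two A _ g2 (t • sqJ ξ).2.2 fun u v => by
      simp [J2.smul_two, sqJ, J2.map, jet2]]
    have h1 : shr A (W 0 (φ y)) = 0 := by rw [E.W0]; exact h0
    rw [h1, gtr_congr (k := fun u v => t * ((ξ u : ℂ) * ξ v)) _ fun u v => by simp [sqJ, J2.map],
      gtr_mul]
    have h2 : lag A.one / lag A.one = 1 := div_self (lag_ne g0)
    simp only [J2.one] at h2 ⊢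
    rw [h2, hc]
    simp
    ring
  have d1 : HasDerivAt (fun t : ℂ => t • ((0 : ι → ℂ), sqJ ξ)) (0, sqJ ξ) 0 := by
    simpa using (hasDerivAt_id (0 : ℂ)).smul_const ((0 : ι → ℂ), sqJ ξ)
  have d2 := HasFDerivAt.comp_hasDerivAt_of_eq 0 d d1 (by simp)
  have d3 : HasDerivAt (fun t : ℂ => t * c) c 0 := by simpa using (hasDerivAt_id (0 : ℂ)).mul_const c
  have e2 : lin (elOp P W F) φ y (0, sqJ ξ) = c :=
    d2.unique (d3.congr_of_eventuallyEq (Eventually.of_forall fun t => by simpa using e t))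
  rw [e2, hc]
  have hD : A.2.1 = cE.comp (fderiv ℝ φ y) := jet_cE h
  set D := fderiv ℝ φ y
  have q := quad_pos h.inj (s := ξ (0, 1)) (t := -ξ (1, 0)) fun h0 => hξ (by
    refine ContinuousLinearMap.ext fun u => ?_
    have a1 : ξ (0, 1) = 0 := congrArg Prod.fst h0
    have a2 : ξ (1, 0) = 0 := neg_eq_zero.1 (congrArg Prod.snd h0)
    rw [lin_eq ξ, a1, a2]
    simp)
  obtain ⟨n, hn⟩ : ∃ n : ℝ, W 0 (φ y) ⬝ᵥ nor A.2.1 = n := by
    refine ⟨(W 0 (φ y) ⬝ᵥ nor A.2.1).re, Complex.ext rfl ?_⟩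
    rw [hD, E.W0]
    simp [nor, t1, t2, dotProduct, Fin.sum_univ_three, cross_apply]
  have hn0 : n ≠ 0 := fun h0 => g2 (by rw [hn, h0, Complex.ofReal_zero])
  have gp := rg_pos h.inj
  rw [hn, gtr, hD, gdet_real]
  simp only [t1, t2, ContinuousLinearMap.comp_apply, cE_dot]
  norm_cast
  refine mul_pos (by positivity) (div_pos ?_ gp)
  linarith

theorem op_out {j : J} (hy : y.1 ∈ Ioo (0 : ℝ) 6) {a : ι → ℂ} (ha : ‖a‖ < δ) (q : J2 P2 ℂ) :
    elOp P W F a (K j) y q = elOp P W F 0 (K j) y q := by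
  obtain ⟨O, hO, H⟩ := E.rot j a ha
  have h : Par S (K j) y := G.par j y ⟨by linarith [hy.1], by linarith [hy.2]⟩
  obtain ⟨p0, w0⟩ := slice_cd hP G E h (Or.inr ⟨j, y, hy, rfl⟩) (a := 0)
    (by simpa using (norm_nonneg a).trans_lt ha)
  have ev : ∀ᶠ z : P2 in 𝓝 y, z.1 ∈ Ioo (0 : ℝ) 6 :=
    (continuous_fst.tendsto y).eventually (isOpen_Ioo.mem_nhds hy)
  have e1 : jet2 (fun z => P a (K j z)) y
      = (jet2 (fun z => P 0 (K j z)) y).map (O.restrictScalars ℝ) := by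
    rw [← jet2_clm _ p0]
    exact jet2_congr (ev.mono fun z hz => by simp only [E.P0]; exact (H z hz).1)
  have e2 : jet2 (fun z => W a (K j z)) y
      = (jet2 (fun z => W 0 (K j z)) y).map (O.restrictScalars ℝ) := by
    rw [← jet2_clm _ w0]
    exact jet2_congr (ev.mono fun z hz => by simp only [E.W0]; exact (H z hz).2)
  have e3 : surJ P W a (K j) y q = (surJ P W 0 (K j) y q).map (O.restrictScalars ℝ) := by
    rw [surJ, surJ, e1, e2]
    refine Prod.ext ?_ (Prod.ext (ContinuousLinearMap.ext fun u => ?_)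
      (ContinuousLinearMap.ext fun u => ContinuousLinearMap.ext fun v => ?_))
    · simp [J2.map, J2.smul_fst]
    · simp [J2.map, J2.smul_one]
    · simp [J2.map, J2.smul_two]
  have e4 : W a (K j y) = O.restrictScalars ℝ (W 0 (K j y)) := by
    rw [E.W0]; exact (H y hy).2
  rw [elOp_eq, elOp_eq, e3, e4, el_rot hO]
  simp [E.F0 _ j y hy]

end main

theorem op_per {ι : Type} [Fintype ι] (P W : (ι → ℂ) → E3 → C3) (F : ι → E3 → ℝ) {φ : P2 → E3}
    (h : ∀ z, φ (z.1, z.2 + 2 * π) = φ z) (a : ι → ℂ) (y : P2) (q : J2 P2 ℂ) :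
    elOp P W F a φ (y.1, y.2 + 2 * π) q = elOp P W F a φ y q := by
  have e : ∀ z : P2, z + (0, 2 * π) = (z.1, z.2 + 2 * π) := fun z => Prod.ext (add_zero _) rfl
  have k : ∀ g : E3 → C3, jet2 (fun z => g (φ z)) (y.1, y.2 + 2 * π) = jet2 (fun z => g (φ z)) y :=
    fun g => by
      rw [← e]
      exact jet2_shift (fun z => by rw [e, h]) y
  rw [elOp_eq, elOp_eq, surJ, surJ, k (P a), k (W a), k (fun x => cE x), h]

theorem op_quasi {ι : Type} [Fintype ι] (P W : (ι → ℂ) → E3 → C3) (F : ι → E3 → ℝ) (φ : P2 → E3)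
    (y : P2) (q : J2 P2 ℂ) (t : ℝ) :
    elOp P W F 0 φ y (q.1, q.2.1, t • q.2.2) - elOp P W F 0 φ y (q.1, q.2.1, 0) =
      t * (elOp P W F 0 φ y q - elOp P W F 0 φ y (q.1, q.2.1, 0)) := by
  set Q := surJ P W 0 φ y (q.1, q.2.1, 0) with hQ
  set T : (P2 →L[ℝ] P2 →L[ℝ] ℂ) → P2 →L[ℝ] P2 →L[ℝ] C3 := fun h =>
    (ContinuousLinearMap.compL ℝ P2 ℂ C3
      ((ContinuousLinearMap.id ℝ ℂ).smulRight (W 0 (φ y)))).comp h with hT
  have e : ∀ h, surJ P W 0 φ y (q.1, q.2.1, h) = (Q.1, Q.2.1, Q.2.2 + T h) := fun h => by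
    refine Prod.ext rfl (Prod.ext rfl (ContinuousLinearMap.ext fun u =>
      ContinuousLinearMap.ext fun v => ?_))
    simp [hQ, hT, surJ, J2.smul_two, jet2, add_assoc]
  have e0 : surJ P W 0 φ y q = (Q.1, Q.2.1, Q.2.2 + T q.2.2) := e q.2.2
  rw [elOp_eq, elOp_eq, elOp_eq, e, e0, ← hQ]
  simp only [el, J2.one]
  rcases eq_or_ne (W 0 (φ y) ⬝ᵥ nor Q.2.1) 0 with h0 | h0
  · simp [h0]
  · rw [shr_add_two Q _ h0 (t • q.2.2) fun _ _ => rfl, shr_add_two Q _ h0 q.2.2 fun _ _ => rfl,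
      gtr_congr (k := fun u v => (t : ℂ) * q.2.2 u v) _ fun u v => by simp, gtr_mul]
    ring

end Vale.Agent.P218F.Core.OpP

namespace Vale.Agent.P218F.Core

open OpP in
/-- **the Euler-Lagrange operator satisfies the hypotheses of the core theorem** -/
theorem op_proof (hP : ParStmt) : OpStmt := fun _ _ _ _ _ _ _ _ P W F _ _ hα hα1 hδ G E =>
  { inv := fun _ _ _ _ h h' hy e _ ha _ hw hw' => op_inv hP G E h h' hy e ha hw hw'
    loc := fun _ _ h hy => op_loc hP G E hα hα1 hδ h hy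
    zero := fun _ _ h hy => op_zero hP G E h hy
    ell := fun _ _ h hy _ hξ => op_ell hP G E hα hα1 hδ h hy hξ
    per := fun _ h a y q => op_per P W F h a y q
    out := fun _ _ hy _ ha q => op_out hP G E hy ha q
    quasi := fun _ y _ q t => op_quasi P W F _ y q t }

end Vale.Agent.P218F.Core
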