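import Vale.Agent.P218F.DynSpec
import Vale.Agent.P218FT.EVMain

/-! The area formula for a `C¹` map which is injective on a piece of a smooth surface. -/

open MeasureTheory Set Filter Topology Metric
open scoped ENNReal NNReal RealInnerProductSpace ContDiff

namespace Vale.Agent.P218F.Dyn.Af

open Vale.Agent.P214 (proj)
open Vale.Agent.P218GA
open Vale.Agent.P218FT (E3 IsSurf nu)
open Vale.Agent.P218FT.EV

/-- the determinant of three vectors -/
noncomputable def d3 (u v w : E3) : ℝ := (EuclideanSpace.basisFun (Fin 3) ℝ).toBasis.det ![u, v, w]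

lemma d3_sq (u v w : E3) : d3 u v w ^ 2 =
    ⟪u, u⟫ * ⟪v, v⟫ * ⟪w, w⟫ + 2 * ⟪u, v⟫ * ⟪u, w⟫ * ⟪v, w⟫ - ⟪u, u⟫ * ⟪v, w⟫ ^ 2 -
      ⟪v, v⟫ * ⟪u, w⟫ ^ 2 - ⟪w, w⟫ * ⟪u, v⟫ ^ 2 := by
  have e : ∀ a b : E3, ⟪a, b⟫ = a 0 * b 0 + a 1 * b 1 + a 2 * b 2 := fun a b => by
    simp [PiLp.inner_apply, Fin.sum_univ_three, mul_comm]
  rw [d3, Module.Basis.det_apply, Matrix.det_fin_three]
  simp only [e]
  simp [Module.Basis.toMatrix_apply]
  ring

lemma d3_map (G : E3 →L[ℝ] E3) (u v w : E3) : d3 (G u) (G v) (G w) = G.det * d3 u v w := by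
  have h := (EuclideanSpace.basisFun (Fin 3) ℝ).toBasis.det_comp (G : E3 →ₗ[ℝ] E3) ![u, v, w]
  have e : (G : E3 →ₗ[ℝ] E3) ∘ ![u, v, w] = ![G u, G v, G w] := by
    ext1 i; fin_cases i <;> rfl
  rw [e] at h
  exact h

lemma par_nonneg (a b : E3) : 0 ≤ par a b := Real.sqrt_nonneg _

lemma abs_d3_le (u v : E3) {n : E3} (hn : ‖n‖ = 1) : |d3 u v n| ≤ par u v := by
  refine Real.abs_le_sqrt ?_
  have h := real_inner_self_nonneg (x := ⟪v, n⟫ • u - ⟪u, n⟫ • v)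
  simp only [inner_sub_left, inner_sub_right, real_inner_smul_left, real_inner_smul_right,
    real_inner_comm u v] at h
  rw [d3_sq, real_inner_self_eq_norm_sq n, hn, ← real_inner_self_eq_norm_sq,
    ← real_inner_self_eq_norm_sq]
  nlinarith

lemma abs_d3_eq {u v n : E3} (hn : ‖n‖ = 1) (hu : ⟪u, n⟫ = 0) (hv : ⟪v, n⟫ = 0) :
    |d3 u v n| = par u v := by
  rw [par, ← Real.sqrt_sq_eq_abs, d3_sq, real_inner_self_eq_norm_sq n, hn, hu, hv,
    real_inner_self_eq_norm_sq, real_inner_self_eq_norm_sq]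
  congr 1
  ring

lemma key_ineq (L : E3 →L[ℝ] E3) {T : Submodule ℝ E3} {a b n n' : E3} (ha : a ∈ T) (hb : b ∈ T)
    (hn : ‖n‖ = 1) (hT : n ∈ Tᗮ) (hn' : ‖n'‖ = 1) :
    par a b * |(jmap L T n n').det| ≤ par (L a) (L b) := by
  have h1 : ⟪a, n⟫ = 0 := (Submodule.mem_orthogonal T n).1 hT a ha
  have h2 : ⟪b, n⟫ = 0 := (Submodule.mem_orthogonal T n).1 hT b hb
  have e : ∀ u ∈ T, jmap L T n n' u = L u := fun u hu => by
    have h3 : ⟪n, u⟫ = 0 := (Submodule.mem_orthogonal' T n).1 hT u hu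
    simp [jmap, proj, h3, Submodule.starProjection_eq_self_iff.2 hu]
  have e' : jmap L T n n' n = n' := by
    simp [jmap, proj, hn, (Submodule.starProjection_apply_eq_zero_iff T).2 hT]
  rw [← abs_d3_eq hn h1 h2, ← abs_mul, mul_comm, ← d3_map, e a ha, e b hb, e']
  exact abs_d3_le _ _ hn'

lemma injective_of_jac {L : P2 →L[ℝ] E3} (h : 0 < jac2 L) : Function.Injective L := by
  rw [injective_iff_map_eq_zero]
  rintro ⟨s, t⟩ hv
  have e : ((s, t) : P2) = s • ((1, 0) : P2) + t • ((0, 1) : P2) := by simp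
  rw [e, map_add, map_smul, map_smul] at hv
  have h0 : 0 < par (L (1, 0)) (L (0, 1)) := (mul_pos_iff_of_pos_left (cH_pos' 2)).1 h
  rw [par, Real.sqrt_pos, ← real_inner_self_eq_norm_sq, ← real_inner_self_eq_norm_sq] at h0
  have h1 := congrArg (fun v => ⟪L (1, 0), v⟫) hv
  have h2 := congrArg (fun v => ⟪L (0, 1), v⟫) hv
  simp only [inner_add_right, real_inner_smul_right, inner_zero_right,
    real_inner_comm (L (1, 0)) (L (0, 1))] at h1 h2
  rw [real_inner_comm] at h0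
  have hs : s = 0 := mul_right_cancel₀ h0.ne' (by
    linear_combination ⟪L (0, 1), L (0, 1)⟫ * h1 - ⟪L (1, 0), L (0, 1)⟫ * h2)
  have ht : t = 0 := mul_right_cancel₀ h0.ne' (by
    linear_combination ⟪L (1, 0), L (1, 0)⟫ * h2 - ⟪L (1, 0), L (0, 1)⟫ * h1)
  simp [hs, ht]

/-- the inequality for a parametrised piece -/
lemma param_le {f : P2 → E3} {O : Set P2} (hO : IsOpen O) (hf : ContDiffOn ℝ 1 f O)
    (hi : ∀ y ∈ O, Function.Injective (fderiv ℝ f y)) (hinj : InjOn f O) {Φ : E3 → E3}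
    (hΦ : ContDiff ℝ 1 Φ) {s : Set P2} (hs : MeasurableSet s) (hsO : s ⊆ O)
    (hA : InjOn Φ (f '' s)) {j : E3 → ℝ}
    (hj : ∀ y ∈ s, jac2 (fderiv ℝ f y) * j (f y) ≤ jac2 ((fderiv ℝ Φ (f y)).comp (fderiv ℝ f y)))
    (h : E3 → ℝ≥0∞) :
    ∫⁻ x in f '' s, h (Φ x) * ENNReal.ofReal (j x) ∂μH[2] ≤ ∫⁻ z in Φ '' (f '' s), h z ∂μH[2] := by
  have hg : ContDiffOn ℝ 1 (Φ ∘ f) O := hΦ.comp_contDiffOn hf
  have hD : ∀ y ∈ O, fderiv ℝ (Φ ∘ f) y = (fderiv ℝ Φ (f y)).comp (fderiv ℝ f y) := fun y hy =>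
    fderiv_comp y (hΦ.differentiable (by simp) _)
      ((hf.contDiffAt (hO.mem_nhds hy)).differentiableAt (by simp))
  have hc : ContinuousOn (fun y => jac2 (fderiv ℝ (Φ ∘ f) y)) O :=
    isJac_prod.cont.comp_continuousOn (hg.continuousOn_fderiv_of_isOpen hO le_rfl)
  have hO' : IsOpen (O ∩ (fun y => jac2 (fderiv ℝ (Φ ∘ f) y)) ⁻¹' Ioi 0) :=
    hc.isOpen_inter_preimage hO isOpen_Ioi
  set O' := O ∩ (fun y => jac2 (fderiv ℝ (Φ ∘ f) y)) ⁻¹' Ioi 0 with hO'def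
  have hm : MeasurableSet (s ∩ O') := hs.inter hO'.measurableSet
  have h1 := isJac_prod.lintegral_image hO' (hg.mono inter_subset_left)
    (fun y hy => injective_of_jac hy.2) hm inter_subset_right
    ((hA.comp (hinj.mono hsO) (mapsTo_image f s)).mono inter_subset_left) h
  rw [isJac_prod.lintegral_image hO hf hi hs hsO (hinj.mono hsO)]
  refine le_trans ?_ (h1.symm.le.trans (lintegral_mono_set ?_))
  · rw [inter_comm, ← Measure.restrict_restrict hO'.measurableSet,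
      ← lintegral_indicator hO'.measurableSet]
    refine setLIntegral_mono' hs fun y hy => ?_
    have h2 := hj y hy
    rw [← hD y (hsO hy)] at h2
    rw [mul_comm (h _), ← mul_assoc, ← ENNReal.ofReal_mul (isJac_prod.pos _ (hi y (hsO hy))).le]
    by_cases hy' : y ∈ O'
    · rw [indicator_of_mem hy']
      exact mul_le_mul_left (ENNReal.ofReal_le_ofReal h2) _
    · have h3 : jac2 (fderiv ℝ (Φ ∘ f) y) ≤ 0 := not_lt.1 fun h4 => hy' ⟨hsO hy, h4⟩
      rw [ENNReal.ofReal_of_nonpos (h2.trans h3), zero_mul]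
      exact zero_le
  · rw [image_comp]
    exact image_mono (image_mono inter_subset_left)

variable {N : Set E3}

lemma tangent_mem (c : Chart fun _ => N) {p : ℝ × E3} (hp : p ∈ c.U) (hx : p.2 ∈ N) (v : P2) :
    (c.T p (0, v)).2 ∈ tg N p.2 := by
  obtain ⟨ε, -, h1, -⟩ := (c.isEqn hp).nu_sh hx
  have h2 := c.dw_T hp (0, v)
  have e : c.T p (0, v) = (0, (c.T p (0, v)).2) :=
    Prod.ext (by simp [Chart.T_apply, emb_apply, ver]) rfl
  rw [e, ← inner_sg (c.diffw p)] at h2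
  rw [tg, Submodule.mem_orthogonal_singleton_iff_inner_right, h1, nrm_eq, nrm,
    real_inner_smul_left, real_inner_smul_left, h2, mul_zero, mul_zero]

/-- the inequality in a chart -/
lemma chart_le (c : Chart fun _ => N) {Φ : E3 → E3} (hΦ : ContDiff ℝ 1 Φ) {A : Set E3}
    (hAN : A ⊆ N) (hAU : ∀ x ∈ A, ((0 : ℝ), x) ∈ c.U) (hm : MeasurableSet A) (hA : InjOn Φ A)
    {j : E3 → ℝ} (hj : ∀ y ∈ A, ∃ n n' : E3, ‖n‖ = 1 ∧ n ∈ (tg N y)ᗮ ∧ ‖n'‖ = 1 ∧
      j y ≤ |(jmap (fderiv ℝ Φ y) (tg N y) n n').det|) (h : E3 → ℝ≥0∞) :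
    ∫⁻ x in A, h (Φ x) * ENNReal.ofReal (j x) ∂μH[2] ≤ ∫⁻ z in Φ '' A, h z ∂μH[2] := by
  obtain ⟨h1, h2, h3, -⟩ := c.slice_data 0
  have hO := c.slice_open 0
  set f : P2 → E3 := fun y => (c.F (0, y)).2 with hf
  set O : Set P2 := {y | ((0 : ℝ), y) ∈ c.O} with hOdef
  have hs : MeasurableSet (O ∩ f ⁻¹' A) := by
    have := (h1.continuousOn.measurableEmbedding hO.measurableSet h3).measurable hm
    have h4 := (MeasurableEmbedding.subtype_coe hO.measurableSet).measurableSet_image' this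
    convert h4 using 1
    ext y
    exact ⟨fun hy => ⟨⟨y, hy.1⟩, hy.2, rfl⟩, by rintro ⟨z, hz, rfl⟩; exact ⟨z.2, hz⟩⟩
  have e : f '' (O ∩ f ⁻¹' A) = A := by
    rw [image_inter_preimage, c.slice_image 0]
    exact inter_eq_right.2 fun x hx => ⟨hAU x hx, hAN hx⟩
  rw [← e]
  refine param_le hO h1 h2 h3 hΦ hs inter_subset_left (e.symm ▸ hA) (fun y hy => ?_) h
  obtain ⟨n, n', a1, a2, a3, a4⟩ := hj _ hy.2
  have hU := c.F_mem hy.1
  have hN : (c.F (0, y)).2 ∈ N := hAN hy.2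
  have a5 := key_ineq (fderiv ℝ Φ (f y)) (tangent_mem c hU hN (1, 0)) (tangent_mem c hU hN (0, 1))
    a1 a2 a3
  rw [(c.hasFDerivAt_slice hy.1).fderiv, jac2, jac2, mul_assoc]
  refine mul_le_mul_of_nonneg_left (le_trans ?_ a5) (cH_pos' 2).le
  exact mul_le_mul_of_nonneg_left a4 (par_nonneg _ _)

/-- **The area formula** on a smooth surface -/
theorem af_proof : AFStmt := by
  intro N hN Φ hΦ A hAN hm hA j _ hj h _
  have hc : ∀ x ∈ A, ∃ c : Chart fun _ => N, ((0 : ℝ), x) ∈ c.U := fun x hx => by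
    rcases (isFam_of_surf hN).cases (p := (0, x)) (mem_univ _) with ⟨c, hc, -⟩ | hU
    · exact ⟨c, hc⟩
    · exact absurd (hAN hx) (mem_of_mem_nhds hU)
  have hc' : ∀ x ∈ A, ∃ t ∈ 𝓝 x, ∃ c : Chart fun _ => N, ∀ y ∈ t, ((0 : ℝ), y) ∈ c.U :=
    fun x hx => by
      obtain ⟨c, hc⟩ := hc x hx
      exact ⟨_, (c.openU.preimage (Continuous.prodMk_right 0)).mem_nhds hc, c, fun _ hy => hy⟩
  choose! t ht hC using hc'
  obtain ⟨B, hBm, hBd, hBc, hBt⟩ := exists_partition ht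
  have hA' : A = ⋃ k, A ∩ B k := by rw [← inter_iUnion, inter_eq_left.2 hBc]
  have hmk : ∀ k, MeasurableSet (A ∩ B k) := fun k => hm.inter (hBm k)
  have hd : Pairwise (Function.onFun Disjoint fun k => A ∩ B k) := fun i k hik =>
    (hBd hik).mono inter_subset_right inter_subset_right
  rw [Dyn.hm, Measure.restrict_restrict hm, inter_eq_left.2 hAN]
  have e1 : ∫⁻ x in A, h (Φ x) * ENNReal.ofReal (j x) ∂μH[2] =
      ∑' k, ∫⁻ x in A ∩ B k, h (Φ x) * ENNReal.ofReal (j x) ∂μH[2] := by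
    conv_lhs => rw [hA']
    exact lintegral_iUnion hmk hd _
  have e2 : ∫⁻ z in Φ '' A, h z ∂μH[2] = ∑' k, ∫⁻ z in Φ '' (A ∩ B k), h z ∂μH[2] := by
    conv_lhs => rw [hA', image_iUnion]
    refine lintegral_iUnion (fun k => (hmk k).image_of_continuousOn_injOn
      hΦ.continuous.continuousOn (hA.mono inter_subset_left)) (fun i k hik => ?_) _
    exact (hd hik).image hA inter_subset_left inter_subset_left
  rw [e1, e2]
  refine ENNReal.tsum_le_tsum fun k => ?_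
  rcases hBt k with h0 | ⟨x, hx, hxt⟩
  · simp [h0]
  · obtain ⟨c, hc⟩ := hC x hx
    exact chart_le c hΦ (inter_subset_left.trans hAN) (fun y hy => hc y (hxt hy.2)) (hmk k)
      (hA.mono inter_subset_left) (fun y hy => hj y hy.1) h

end Vale.Agent.P218F.Dyn.Af
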