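import Vale.Agent.P218F.DynST1
import Vale.Agent.P218.H313.Near
import Vale.Agent.P218FT.Defs

/-! Block DYN: from a finite dimensional family of approximate shrinkers with a Lojasiewicz
inequality to the static Lojasiewicz inequality for the slices of the rescaled flow.
Definitions and statements of the pieces. -/

open MeasureTheory Set Filter Topology Metric
open scoped ENNReal NNReal RealInnerProductSpace ContDiff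

namespace Vale.Agent.P218F.Dyn

open Vale.Agent.P214 (proj divAlong)
open Vale.Agent.P218 Vale.Agent.P218.H313
open Vale.Agent.P218FT (E3 IsSurf IsEqn nu Hv relV TwoPt)

/-- the unnormalised area measure of a set -/
noncomputable def hm (N : Set E3) : Measure E3 := (μH[2] : Measure E3).restrict N

/-- the tangent planes of a surface -/
noncomputable def tg (N : Set E3) (x : E3) : Submodule ℝ E3 := (ℝ ∙ nu N x)ᗮ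

/-- the zero set -/
def zs (V : E3 → ℝ) : Set E3 := {y | V y = 0}

/-- the defect `ΔV - ⟨y, ∇V⟩ / 2` -/
noncomputable def ee (V : E3 → ℝ) (y : E3) : ℝ :=
  tr (fderiv ℝ (grad V) y) - 1 / 2 * ⟪y, grad V y⟫

/-- a tube function of class `C³`, with third derivatives of polynomial growth in the tube -/
structure Tube3 (V : E3 → ℝ) (c K L : ℝ) (q : ℕ) : Prop extends Tube0 V c K where
  smooth3 : ContDiff ℝ 3 V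
  b3 : ∀ y, |V y| < c → ‖fderiv ℝ (fderiv ℝ (grad V)) y‖ ≤ L * (1 + ‖y‖) ^ q

/-- the area measure of the zero set is a Gaussian slice with tangent planes `∇V^⊥` -/
def ZSlice (V : E3 → ℝ) : Prop :=
  ∃ (T : E3 → Submodule ℝ E3) (H : E3 → E3), GSlice 2 (hm (zs V)) T H ∧
    ∀ᵐ y ∂(hm (zs V)), proj (T y) (grad V y) = 0

/-- the map `v ↦ L (proj T v) + ⟨n, v⟩ n'` -/
noncomputable def jmap (L : E3 →L[ℝ] E3) (T : Submodule ℝ E3) (n n' : E3) : E3 →L[ℝ] E3 :=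
  L.comp (proj T) + (innerSL ℝ n).smulRight n'

/-- the area formula on `N` for injective maps, as an inequality -/
def AF (μ : Measure E3) (T : E3 → Submodule ℝ E3) (N : Set E3) : Prop :=
  ∀ Φ : E3 → E3, ContDiff ℝ 1 Φ → ∀ A : Set E3, A ⊆ N → MeasurableSet A → InjOn Φ A →
    ∀ j : E3 → ℝ, Measurable j →
      (∀ y ∈ A, ∃ n n' : E3, ‖n‖ = 1 ∧ n ∈ (T y)ᗮ ∧ ‖n'‖ = 1 ∧
        j y ≤ |(jmap (fderiv ℝ Φ y) (T y) n n').det|) →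
      ∀ h : E3 → ℝ≥0∞, Measurable h →
        ∫⁻ y in A, h (Φ y) * ENNReal.ofReal (j y) ∂μ ≤ ∫⁻ z in Φ '' A, h z ∂(μH[2] : Measure E3)

/-- the slice has one sheet, with curvature at most `C` at scale `r`, in the ball of radius `R` -/
def Sheet (μ : Measure E3) (T : E3 → Submodule ℝ E3) (R r C : ℝ) : Prop :=
  ∃ N : Set E3, MeasurableSet N ∧ (∀ᵐ y ∂μ, ‖y‖ ≤ R → y ∈ N) ∧ AF μ T N ∧
    ∀ y ∈ N, ‖y‖ ≤ R → ∀ x ∈ N, ‖x - y‖ ≤ r → ‖(x - y) - proj (T y) (x - y)‖ ≤ C * ‖x - y‖ ^ 2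

section family

variable {P : Type} [NormedAddCommGroup P] [NormedSpace ℝ P] {ι : Type} [Fintype ι]

/-- **The family of tube functions.** `V x` is the truncated signed distance to the surface `S_x`,
`w x` is another equation of `S_x` near the supports of the bumps `χ i`, strictly differentiable
in `x` at `0` with derivative `w'`. -/
structure FT (V w : P → E3 → ℝ) (w' : P →ₗ[ℝ] (E3 → ℝ)) (χ : ι → E3 → ℝ) (kap : P → ι → ℝ)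
    (c K L : ℝ) (q : ℕ) (β : ℝ) : Prop where
  tube : ∀ᶠ x in 𝓝 (0 : P), Tube3 (V x) c K L q
  slice : ∀ᶠ x in 𝓝 (0 : P), ZSlice (V x)
  near : ∀ R ε : ℝ, 0 < ε → ∀ᶠ x in 𝓝 (0 : P), ∀ y, ‖y‖ ≤ R → V 0 y = 0 → |V x y| ≤ ε
  chi : ∀ i, ContDiff ℝ 1 (χ i) ∧ HasCompactSupport (χ i)
  kap0 : Tendsto kap (𝓝 0) (𝓝 0)
  defect : ∀ ε : ℝ, 0 < ε → ∀ᶠ x in 𝓝 (0 : P), ∀ y, V x y = 0 →
    |ee (V x) y - ∑ i, kap x i * χ i y| ≤ ε * ‖kap x‖ * (1 + ‖y‖) ^ q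
  wcont : ∀ᶠ x in 𝓝 (0 : P), Continuous (w x)
  wcont' : ∀ b, Continuous (w' b)
  wstrict : ∀ ε : ℝ, 0 < ε → ∀ᶠ p : P × P in 𝓝 (0, 0), ∀ i, ∀ y ∈ tsupport (χ i),
    |w p.1 y - w p.2 y - w' (p.1 - p.2) y| ≤ ε * ‖p.1 - p.2‖
  wV : ∀ ε : ℝ, 0 < ε → ∃ η : ℝ, 0 < η ∧ ∀ᶠ x in 𝓝 (0 : P), ∀ i, ∀ y ∈ tsupport (χ i),
    |V x y| ≤ η → |w x y - V x y| ≤ ε * |V x y|
  onto : Function.Surjective fun (b : P) (i : ι) => ∫ y, w' b y * χ i y * rho y ∂(hm (zs (V 0)))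
  beta : 1 < β
  loj : ∀ᶠ x in 𝓝 (0 : P), FA (hm (zs (V x))) - FA (hm (zs (V 0))) ≤ L * ‖kap x‖ ^ β

/-- **The family of surfaces**, as the reduction delivers it. `V₀` is the tube function of `S`;
in the ball of radius `R₁` the surface `S_x` is the normal graph of `u x` over `S`. -/
structure Geo (S : Set E3) (V₀ : E3 → ℝ) (Sx : P → Set E3) (u : P → E3 → ℝ)
    (u' : P →ₗ[ℝ] (E3 → ℝ)) (χ : ι → E3 → ℝ) (kap : P → ι → ℝ) (r C K L R₁ : ℝ) (q : ℕ)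
    (β : ℝ) : Prop where
  zero : Sx 0 = S
  surf : ∀ᶠ x in 𝓝 (0 : P), IsSurf (Sx x)
  two : ∀ᶠ x in 𝓝 (0 : P), ∀ p ∈ Sx x, TwoPt (Sx x) p r C
  eqn : ∀ᶠ x in 𝓝 (0 : P), ∀ p ∈ Sx x, ∃ w : E3 → ℝ, IsEqn (Sx x) p w ∧ ‖gradient w p‖ = 1 ∧
    ‖fderiv ℝ (gradient w) p‖ ≤ K ∧ ‖fderiv ℝ (fderiv ℝ (gradient w)) p‖ ≤ L * (1 + ‖p‖) ^ q
  bx : ∀ᶠ x in 𝓝 (0 : P), ∀ p ∈ Sx x, |⟪p, nu (Sx x) p⟫| ≤ K
  near : ∀ R ε : ℝ, 0 < ε → ∀ᶠ x in 𝓝 (0 : P), ∀ p ∈ S, ‖p‖ ≤ R → ∃ y ∈ Sx x, ‖y - p‖ ≤ ε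
  chi : ∀ i, ContDiff ℝ 1 (χ i) ∧ tsupport (χ i) ⊆ ball 0 (R₁ - 1)
  kap0 : Tendsto kap (𝓝 0) (𝓝 0)
  defect : ∀ ε : ℝ, 0 < ε → ∀ᶠ x in 𝓝 (0 : P), ∀ y ∈ Sx x,
    ‖relV (Sx x) 0 1 y + (∑ i, kap x i * χ i y) • grad V₀ y‖ ≤ ε * ‖kap x‖ * (1 + ‖y‖) ^ q
  graph : ∀ᶠ x in 𝓝 (0 : P), ∀ y, ‖y‖ ≤ R₁ →
    (y ∈ Sx x ↔ ∃ p ∈ S, ‖p‖ ≤ R₁ + 1 ∧ y = p + u x p • grad V₀ p)
  uzero : ∀ p ∈ S, ‖p‖ ≤ R₁ + 1 → u 0 p = 0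
  ucont : ∀ᶠ x in 𝓝 (0 : P), ContinuousOn (u x) (S ∩ closedBall 0 (R₁ + 1))
  ucont' : ∀ b, ContinuousOn (u' b) (S ∩ closedBall 0 (R₁ + 1))
  ustrict : ∀ ε : ℝ, 0 < ε → ∀ᶠ p : P × P in 𝓝 (0, 0), ∀ y ∈ S, ‖y‖ ≤ R₁ + 1 →
    |u p.1 y - u p.2 y - u' (p.1 - p.2) y| ≤ ε * ‖p.1 - p.2‖
  onto : Function.Surjective fun (b : P) (i : ι) => ∫ y, u' b y * χ i y * rho y ∂(hm S)
  beta : 1 < β
  loj : ∀ᶠ x in 𝓝 (0 : P), FA (hm (Sx x)) - FA (hm S) ≤ L * ‖kap x‖ ^ β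

end family

/-- weak convergence of Gaussian slices along a filter, with uniform bounds -/
def Cv (l : Filter ℝ) (N : ℝ → Measure E3) (T : ℝ → E3 → Submodule ℝ E3) (H : ℝ → E3 → E3)
    (κ : Measure E3) : Prop :=
  ∀ U : Ultrafilter ℝ, (U : Filter ℝ) ≤ l → Conv U 2 N T H κ

/-- the mesh Poincare inequality on a slice -/
def PoinAt (μ : Measure E3) (T : E3 → Submodule ℝ E3) {ι : Type} [Fintype ι] (χ : ι → E3 → ℝ)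
    (R ε A : ℝ) : Prop :=
  ∀ f : E3 → ℝ, PG f → ∫ y in closedBall (0 : E3) R, f y ^ 2 * rho y ∂μ
    ≤ ε * TG μ T f 0 + A * ∑ i, (∫ y, f y * χ i y * rho y ∂μ) ^ 2

/-- **ST14**: gauge and linear estimate -/
def ST14Stmt : Prop :=
  ∀ c K : ℝ, ∃ ε₀ R₀ : ℝ, 0 < ε₀ ∧
    ∀ (P : Type) [NormedAddCommGroup P] [NormedSpace ℝ P] [FiniteDimensional ℝ P] (ι : Type)
      [Fintype ι] (V w : P → E3 → ℝ) (w' : P →ₗ[ℝ] (E3 → ℝ)) (χ : ι → E3 → ℝ) (kap : P → ι → ℝ)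
      (L : ℝ) (q : ℕ) (β : ℝ), FT V w w' χ kap c K L q β →
    ∀ (U : Ultrafilter ℝ) (N : ℝ → Measure E3) (T : ℝ → E3 → Submodule ℝ E3) (H : ℝ → E3 → E3),
      Conv U 2 N T H (hm (zs (V 0))) →
      ∀ R A : ℝ, R₀ ≤ R → (∀ᶠ s in (U : Filter ℝ), PoinAt (N s) (T s) χ R ε₀ A) →
      ∃ (x : ℝ → P) (C : ℝ), Tendsto x U (𝓝 0) ∧ ∀ᶠ s in (U : Filter ℝ),
        DD (N s) (V (x s)) 0 + TG (N s) (T s) (V (x s)) 0 + ‖kap (x s)‖ ^ 2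
          ≤ C * dis (N s) (T s) (H s)

/-- **FIELD**: a tangent field on the zero set with `div (ρ B) = (1 - g) ρ`, `g ≥ 0` supported in
a fixed ball -/
def FieldStmt : Prop :=
  ∀ (c K L : ℝ) (q : ℕ), ∃ (R₁ K₁ : ℝ) (q₁ : ℕ), ∀ V : E3 → ℝ, Tube3 V c K L q →
    ∃ (B : E3 → E3) (g : E3 → ℝ), ContDiff ℝ 1 B ∧ Continuous g ∧
      (∀ y, ‖B y‖ ≤ K₁ * (1 + ‖y‖) ^ q₁) ∧ (∀ y, ‖fderiv ℝ B y‖ ≤ K₁ * (1 + ‖y‖) ^ q₁) ∧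
      (∀ y, 0 ≤ g y ∧ g y ≤ K₁) ∧ (∀ y, R₁ ≤ ‖y‖ → g y = 0) ∧
      ∀ y, V y = 0 → ⟪B y, grad V y⟫ = 0 ∧
        tr (fderiv ℝ B y) - ⟪fderiv ℝ B y (grad V y), grad V y⟫ - 1 / 2 * ⟪y, B y⟫ = 1 - g y

/-- the nearest point projection of a tube function -/
noncomputable def foot (V : E3 → ℝ) (y : E3) : E3 := y - V y • grad V y

/-- **ST5**: the ambient field. `G` is `g ∘ foot` cut off outside of the tube. -/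
def ST5Stmt : Prop :=
  ∀ (c K L : ℝ) (q : ℕ), 0 < c → ∃ (R₁ K₁ c₁ : ℝ) (q₁ : ℕ), 0 < c₁ ∧ c₁ ≤ c ∧
    ∀ V : E3 → ℝ, Tube3 V c K L q → ∀ k : ℝ, 0 ≤ k → k ≤ 1 →
      (∀ y, V y = 0 → |ee V y| ≤ k * (1 + ‖y‖) ^ q) →
      ∃ (Y : E3 → E3) (g : E3 → ℝ), PG Y ∧ Continuous g ∧ (∀ y, 0 ≤ g y ∧ g y ≤ K₁) ∧
        (∀ y, R₁ ≤ ‖y‖ → g y = 0) ∧
        ∀ (y : E3) (T : Submodule ℝ E3), Module.finrank ℝ T = 2 →
          (∀ φ ∈ Tᗮ, |⟪Y y, φ⟫| ≤ K₁ * (1 + ‖y‖) ^ q₁ * (|V y| + ‖proj T (grad V y)‖) * ‖φ‖) ∧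
          |divAlong T Y y - 1 / 2 * ⟪y, Y y⟫ - (1 - if |V y| < c₁ then g (foot V y) else 0)|
            ≤ K₁ * (1 + ‖y‖) ^ q₁ * (V y ^ 2 + ‖proj T (grad V y)‖ ^ 2
              + k * (|V y| + ‖proj T (grad V y)‖))

/-- **ST6**: the comparison on the core -/
def ST6Stmt : Prop :=
  ∀ (c K L : ℝ) (q : ℕ) (R₁ K₁ c₁ r C M : ℝ), 0 < c₁ → c₁ ≤ c → 0 < r → ∃ C₁ : ℝ,
    ∀ V : E3 → ℝ, Tube3 V c K L q → ZSlice V → ∀ k : ℝ, 0 ≤ k →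
      (∀ y, V y = 0 → |ee V y| ≤ k * (1 + ‖y‖) ^ q) →
      ∀ g : E3 → ℝ, Continuous g → (∀ y, 0 ≤ g y ∧ g y ≤ K₁) → (∀ y, R₁ ≤ ‖y‖ → g y = 0) →
      ∀ (μ : Measure E3) (T : E3 → Submodule ℝ E3) (H : E3 → E3), GSlice 2 μ T H →
        Sheet μ T (R₁ + c) r C → FA μ ≤ M →
        ∫ y, (if |V y| < c₁ then g (foot V y) else 0) * rho y ∂μ
          ≤ ∫ y, g y * rho y ∂(hm (zs V)) + C₁ * (DD μ V 0 + TG μ T V 0 + k ^ 2)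

/-- **ST56**: comparison of the Gaussian areas -/
def ST56Stmt : Prop :=
  ∀ (c K L : ℝ) (q : ℕ), ∃ (R : ℝ) (p : ℕ), ∀ r C M : ℝ, 0 < r → ∃ C₁ : ℝ,
    ∀ V : E3 → ℝ, Tube3 V c K L q → ZSlice V → ∀ k : ℝ, 0 ≤ k →
      (∀ y, V y = 0 → |ee V y| ≤ k * (1 + ‖y‖) ^ q) →
      ∀ (μ : Measure E3) (T : E3 → Submodule ℝ E3) (H : E3 → E3), GSlice 2 μ T H →
        Sheet μ T R r C → ∫ y, (1 + ‖y‖) ^ p * rho y ∂μ ≤ M →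
        ∀ d : ℝ, d ≤ 1 → DD μ V 0 + TG μ T V 0 + k ^ 2 + dis μ T H ≤ d →
          FA μ - FA (hm (zs V)) ≤ C₁ * d ^ (3 / 4 : ℝ)

/-- **AF**: the area formula on a smooth surface -/
def AFStmt : Prop := ∀ N : Set E3, IsSurf N → AF (hm N) (tg N) N

/-- **SD**: the truncated signed distance of a surface with uniform two-point bounds -/
def SDStmt : Prop :=
  ∀ r C K : ℝ, 0 < r → ∃ c K₁ : ℝ, 0 < c ∧ ∀ (L : ℝ) (q : ℕ), ∃ L₁ : ℝ,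
    ∀ N : Set E3, IsSurf N → N.Nonempty → (∀ p ∈ N, TwoPt N p r C) →
      (∀ p ∈ N, ∃ w : E3 → ℝ, IsEqn N p w ∧ ‖gradient w p‖ = 1 ∧
        ‖fderiv ℝ (gradient w) p‖ ≤ K ∧ ‖fderiv ℝ (fderiv ℝ (gradient w)) p‖ ≤ L * (1 + ‖p‖) ^ q) →
      (∀ p ∈ N, |⟪p, nu N p⟫| ≤ K) →
      ∃ V : E3 → ℝ, Tube3 V c K₁ L₁ q ∧ ContDiff ℝ ∞ V ∧ zs V = N ∧
        (∀ y, |V y| < c ∨ infDist y N < c → |V y| = infDist y N) ∧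
        ∀ p ∈ N, (grad V p = nu N p ∨ grad V p = -nu N p) ∧ ee V p • grad V p = -relV N 0 1 p

/-- **SLICE**: the zero set of a tube function is a Gaussian slice -/
def SliceStmt : Prop :=
  ∀ (V : E3 → ℝ) (c K : ℝ), Tube0 V c K → IsSurf (zs V) → ZSlice V

/-- **GEO**: from the family of surfaces to the family of tube functions -/
def GeoStmt : Prop :=
  ∀ r C K : ℝ, 0 < r → ∃ c K₁ : ℝ,
    ∀ (S : Set E3) (V₀ : E3 → ℝ) (c₀ K₀ : ℝ), S.Nonempty → Tube0 V₀ c₀ K₀ → zs V₀ = S →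
      (∀ y, |V₀ y| < c₀ ∨ infDist y S < c₀ → |V₀ y| = infDist y S) →
    ∀ (P : Type) [NormedAddCommGroup P] [NormedSpace ℝ P] [FiniteDimensional ℝ P] (ι : Type)
      [Fintype ι] (Sx : P → Set E3) (u : P → E3 → ℝ) (u' : P →ₗ[ℝ] (E3 → ℝ)) (χ : ι → E3 → ℝ)
      (kap : P → ι → ℝ) (L R₁ : ℝ) (q : ℕ) (β : ℝ), Geo S V₀ Sx u u' χ kap r C K L R₁ q β →
      ∃ (V w : P → E3 → ℝ) (w' : P →ₗ[ℝ] (E3 → ℝ)) (L₁ : ℝ), zs (V 0) = S ∧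
        FT V w w' χ kap c K₁ L₁ q β

end Vale.Agent.P218F.Dyn
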