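import Vale.Agent.P218F.DynF1
import Vale.Agent.P218F.DynSpec
import Mathlib.Analysis.SpecialFunctions.SmoothTransition

/-! The tangent field with `div (ρ B) = (1 - g) ρ` on the zero set of a tube function. -/

open Set Filter Topology Metric
open scoped RealInnerProductSpace

namespace Vale.Agent.P218F.DynF

open Vale.Agent.P218 Vale.Agent.P218.H313 Vale.Agent.P218F.Dyn
open Vale.Agent.P218FT (E3)

/-- bounds for a function and its derivative at a point -/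
structure BD {F : Type*} [NormedAddCommGroup F] [NormedSpace ℝ F] (f : E3 → F) (y : E3)
    (a b : ℝ) : Prop where
  d : DifferentiableAt ℝ f y
  b0 : ‖f y‖ ≤ a
  b1 : ‖fderiv ℝ f y‖ ≤ b

namespace BD

variable {F G H : Type*} [NormedAddCommGroup F] [NormedSpace ℝ F] [NormedAddCommGroup G]
  [NormedSpace ℝ G] [NormedAddCommGroup H] [NormedSpace ℝ H] {y : E3} {a b a' b' : ℝ}

lemma mono {f : E3 → F} (h : BD f y a b) (ha : a ≤ a') (hb : b ≤ b') : BD f y a' b' :=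
  ⟨h.d, h.b0.trans ha, h.b1.trans hb⟩

lemma const (c : F) : BD (fun _ => c) y ‖c‖ 0 := ⟨differentiableAt_const c, le_rfl, by simp⟩

lemma id' : BD (fun x : E3 => x) y ‖y‖ 1 :=
  ⟨differentiableAt_id, le_rfl, by
    rw [show (fun x : E3 => x) = id from rfl, fderiv_id]; exact ContinuousLinearMap.norm_id_le⟩

lemma add {f g : E3 → F} (hf : BD f y a b) (hg : BD g y a' b') :
    BD (fun x => f x + g x) y (a + a') (b + b') :=
  ⟨hf.d.add hg.d, (norm_add_le _ _).trans (add_le_add hf.b0 hg.b0), by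
    rw [fderiv_fun_add hf.d hg.d]; exact (norm_add_le _ _).trans (add_le_add hf.b1 hg.b1)⟩

lemma sub {f g : E3 → F} (hf : BD f y a b) (hg : BD g y a' b') :
    BD (fun x => f x - g x) y (a + a') (b + b') :=
  ⟨hf.d.sub hg.d, (norm_sub_le _ _).trans (add_le_add hf.b0 hg.b0), by
    rw [fderiv_fun_sub hf.d hg.d]; exact (norm_sub_le _ _).trans (add_le_add hf.b1 hg.b1)⟩

lemma bilin {f : E3 → F} {g : E3 → G} (B : F →L[ℝ] G →L[ℝ] H)
    (hB : ∀ u v, ‖B u v‖ ≤ ‖u‖ * ‖v‖) (hf : BD f y a b) (hg : BD g y a' b') :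
    BD (fun x => B (f x) (g x)) y (a * a') (a * b' + b * a') := by
  have h1 := B.hasFDerivAt_of_bilinear hf.d.hasFDerivAt hg.d.hasFDerivAt
  have ha : 0 ≤ a := (norm_nonneg _).trans hf.b0
  have hb : 0 ≤ b := (norm_nonneg _).trans hf.b1
  have ha' : 0 ≤ a' := (norm_nonneg _).trans hg.b0
  have hb' : 0 ≤ b' := (norm_nonneg _).trans hg.b1
  refine ⟨h1.differentiableAt, (hB _ _).trans (mul_le_mul hf.b0 hg.b0 (norm_nonneg _) ha), ?_⟩
  rw [h1.fderiv]
  refine ContinuousLinearMap.opNorm_le_of_unit_norm (by positivity) fun v hv => ?_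
  have e1 : ‖fderiv ℝ f y v‖ ≤ b := by simpa [hv] using (fderiv ℝ f y).le_of_opNorm_le hf.b1 v
  have e2 : ‖fderiv ℝ g y v‖ ≤ b' := by simpa [hv] using (fderiv ℝ g y).le_of_opNorm_le hg.b1 v
  change ‖B (f y) (fderiv ℝ g y v) + B (fderiv ℝ f y v) (g y)‖ ≤ _
  refine (norm_add_le _ _).trans (add_le_add ((hB _ _).trans ?_) ((hB _ _).trans ?_))
  · exact mul_le_mul hf.b0 e2 (norm_nonneg _) ha
  · exact mul_le_mul e1 hg.b0 (norm_nonneg _) hb

lemma smul {f : E3 → ℝ} {g : E3 → F} (hf : BD f y a b) (hg : BD g y a' b') :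
    BD (fun x => f x • g x) y (a * a') (a * b' + b * a') :=
  bilin (ContinuousLinearMap.lsmul ℝ ℝ) (fun u v => (norm_smul u v).le) hf hg

lemma mul {f g : E3 → ℝ} (hf : BD f y a b) (hg : BD g y a' b') :
    BD (fun x => f x * g x) y (a * a') (a * b' + b * a') := hf.smul hg

lemma inner' {f g : E3 → E3} (hf : BD f y a b) (hg : BD g y a' b') :
    BD (fun x => ⟪f x, g x⟫) y (a * a') (a * b' + b * a') :=
  bilin (innerSL ℝ) (fun u v => norm_inner_le_norm u v) hf hg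

lemma comp {f : E3 → ℝ} {φ : ℝ → ℝ} {φ' : ℝ} (hf : BD f y a b) (hφ : HasDerivAt φ φ' (f y))
    (h0 : |φ (f y)| ≤ a') (h1 : |φ'| ≤ b') : BD (fun x => φ (f x)) y a' (b' * b) := by
  have h2 := hφ.comp_hasFDerivAt y hf.d.hasFDerivAt
  refine ⟨h2.differentiableAt, h0, ?_⟩
  rw [show (fun x => φ (f x)) = φ ∘ f from rfl, h2.fderiv, norm_smul]
  exact mul_le_mul h1 hf.b1 (norm_nonneg _) ((abs_nonneg _).trans h1)

lemma of_zero {f : E3 → F} (h : ∀ᶠ x in 𝓝 y, f x = 0) : BD f y 0 0 := by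
  have h1 : HasFDerivAt f (0 : E3 →L[ℝ] F) y :=
    (hasFDerivAt_const (0 : F) y).congr_of_eventuallyEq h
  exact ⟨h1.differentiableAt, by rw [h.self_of_nhds, norm_zero], by rw [h1.fderiv, norm_zero]⟩

lemma congr {f g : E3 → F} (h : BD f y a b) (he : ∀ᶠ x in 𝓝 y, g x = f x) : BD g y a b :=
  ⟨h.d.congr_of_eventuallyEq he, by rw [he.self_of_nhds]; exact h.b0, by
    rw [Filter.EventuallyEq.fderiv_eq he]; exact h.b1⟩

lemma nsq : BD (fun x : E3 => ‖x‖ ^ 2) y (‖y‖ ^ 2) (2 * ‖y‖) := by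
  have h := (id' (y := y)).inner' id'
  simp only [real_inner_self_eq_norm_sq] at h
  exact h.mono (le_of_eq (by ring)) (le_of_eq (by ring))

end BD

/-- the transition function -/
noncomputable abbrev sg : ℝ → ℝ := Real.smoothTransition

lemma sg_cd : ContDiff ℝ 1 sg := Real.smoothTransition.contDiff

lemma sg_der (s : ℝ) : HasDerivAt sg (deriv sg s) s :=
  (sg_cd.differentiable one_ne_zero s).hasDerivAt

lemma sg_abs (s : ℝ) : |sg s| ≤ 1 := by
  rw [abs_of_nonneg (Real.smoothTransition.nonneg s)]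
  exact Real.smoothTransition.le_one s

lemma sg_der_gt {s : ℝ} (hs : 1 < s) : deriv sg s = 0 := by
  have : sg =ᶠ[𝓝 s] fun _ => 1 :=
    (lt_mem_nhds hs).mono fun t ht => Real.smoothTransition.one_of_one_le ht.le
  rw [this.deriv_eq, deriv_const]

lemma sg_der_lt {s : ℝ} (hs : s < 0) : deriv sg s = 0 := by
  have : sg =ᶠ[𝓝 s] fun _ => 0 :=
    (gt_mem_nhds hs).mono fun t ht => Real.smoothTransition.zero_of_nonpos ht.le
  rw [this.deriv_eq, deriv_const]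

lemma exists_sg : ∃ C : ℝ, 0 ≤ C ∧ ∀ s, |deriv sg s| ≤ C := by
  obtain ⟨C, hC⟩ := (isCompact_Icc (a := (0 : ℝ)) (b := 1)).exists_bound_of_continuousOn
    (sg_cd.continuous_deriv le_rfl).continuousOn
  have h0 : 0 ≤ C := (norm_nonneg _).trans (hC 0 (by simp))
  refine ⟨C, h0, fun s => ?_⟩
  rcases lt_or_ge s 0 with h | h
  · rw [sg_der_lt h, abs_zero]; exact h0
  rcases lt_or_ge 1 s with h' | h'
  · rw [sg_der_gt h', abs_zero]; exact h0
  exact hC s ⟨h, h'⟩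

lemma sg_der_nonneg (s : ℝ) : 0 ≤ deriv sg s := Real.smoothTransition.monotone.deriv_nonneg

/-- the support function -/
noncomputable def hh (V : E3 → ℝ) (y : E3) : ℝ := ⟪y, grad V y⟫

/-- the tangential part of the position vector -/
noncomputable def XX (V : E3 → ℝ) (y : E3) : E3 := y - hh V y • grad V y

/-- the Laplacian -/
noncomputable def lp (V : E3 → ℝ) (y : E3) : ℝ := tr (fderiv ℝ (grad V) y)

/-- the coefficient of order zero -/
noncomputable def ww (V : E3 → ℝ) (c : ℝ) (y : E3) : ℝ :=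
  2 - sg (2 - (4 / c ^ 2) * (V y * V y)) * (hh V y * lp V y) - (1 / 2) * (‖y‖ ^ 2 - hh V y * hh V y)

/-- the change of speed -/
noncomputable def mu (y : E3) : ℝ := 16 * (1 + ‖y‖ ^ 2)⁻¹

lemma mu_pos (y : E3) : 0 < mu y := by unfold mu; positivity

lemma cd_nsq : ContDiff ℝ 1 fun y : E3 => ‖y‖ ^ 2 := contDiff_norm_sq ℝ

lemma cd_mu : ContDiff ℝ 1 mu :=
  contDiff_const.mul ((contDiff_const.add cd_nsq).inv fun y => by positivity)

lemma bd_mu (y : E3) : BD mu y (16 / (1 + ‖y‖ ^ 2)) (32 / (1 + ‖y‖ ^ 2)) := by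
  have hs : 0 < 1 + ‖y‖ ^ 2 := by positivity
  have h1 := ((BD.const (y := y) (1 : ℝ)).add BD.nsq).comp (φ := fun s => 16 * s⁻¹)
    ((hasDerivAt_inv hs.ne').const_mul 16) (a' := 16 / (1 + ‖y‖ ^ 2))
    (b' := 16 / (1 + ‖y‖ ^ 2) ^ 2) (by rw [abs_of_pos (by positivity), div_eq_mul_inv])
    (by rw [mul_neg, abs_neg, abs_of_pos (by positivity), div_eq_mul_inv])
  refine h1.mono le_rfl ?_
  rw [zero_add, div_mul_eq_mul_div, div_le_div_iff₀ (by positivity) hs]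
  nlinarith [sq_nonneg (‖y‖ - 1), norm_nonneg y, mul_pos hs hs]

section tube

variable {V : E3 → ℝ} {c K L : ℝ} {q : ℕ}

lemma cd_grad (h : Tube3 V c K L q) : ContDiff ℝ 2 (grad V) := by
  have : ContDiff ℝ ((2 : ℕ) + 1) V := by
    have e : ((2 : ℕ) + 1 : WithTop ℕ∞) = 3 := by norm_num
    rw [e]; exact h.smooth3
  exact_mod_cast contDiff_grad this

lemma cd_hess (h : Tube3 V c K L q) : ContDiff ℝ 1 (fderiv ℝ (grad V)) :=
  (cd_grad h).fderiv_right (by norm_num)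

lemma cd_hh (h : Tube0 V c K) : ContDiff ℝ 1 (hh V) := contDiff_id.inner ℝ h.grad_cd

lemma cd_XX (h : Tube0 V c K) : ContDiff ℝ 1 (XX V) := contDiff_id.sub ((cd_hh h).smul h.grad_cd)

lemma cd_lp (h : Tube3 V c K L q) : ContDiff ℝ 1 (lp V) := (trL E3).contDiff.comp (cd_hess h)

lemma cd_ww (h : Tube3 V c K L q) : ContDiff ℝ 1 (ww V c) := by
  have h1 : ContDiff ℝ 1 V := h.smooth.of_le (by norm_num)
  have h2 := cd_hh h.toTube0
  exact (contDiff_const.sub ((sg_cd.comp (contDiff_const.sub (contDiff_const.mul (h1.mul h1)))).mul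
    (h2.mul (cd_lp h)))).sub (contDiff_const.mul (cd_nsq.sub (h2.mul h2)))

lemma bd_V (h : Tube0 V c K) (y : E3) : BD V y K K :=
  ⟨h.diff y, h.b0 y, by rw [← norm_grad]; exact h.b1 y⟩

lemma bd_grad (h : Tube0 V c K) (y : E3) : BD (grad V) y K K :=
  ⟨h.grad_cd.differentiable one_ne_zero y, h.b1 y, h.b2 y⟩

lemma bd_hh (h : Tube0 V c K) (y : E3) : BD (hh V) y K (K * (1 + ‖y‖)) := by
  have h1 := (BD.id' (y := y)).inner' (bd_grad h y)
  exact ⟨h1.d, h.bx y, h1.b1.trans (le_of_eq (by ring))⟩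

lemma bd_XX (h : Tube0 V c K) (y : E3) :
    BD (XX V) y ((1 + K ^ 2) * (1 + ‖y‖)) ((1 + 2 * K ^ 2) * (1 + ‖y‖)) := by
  refine ((BD.id' (y := y)).sub ((bd_hh h y).smul (bd_grad h y))).mono ?_ ?_
  · nlinarith [norm_nonneg y, mul_nonneg (sq_nonneg K) (norm_nonneg y)]
  · nlinarith [norm_nonneg y, mul_nonneg (sq_nonneg K) (norm_nonneg y)]

lemma abs_lp (h : Tube0 V c K) (y : E3) : |lp V y| ≤ 3 * K := by
  have h1 := abs_tr_le (fderiv ℝ (grad V) y)
  have h2 := h.b2 y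
  simp only [finrank_euclideanSpace, Fintype.card_fin, Nat.cast_ofNat] at h1
  unfold lp
  linarith

lemma bd_lp (h : Tube3 V c K L q) {y : E3} (hy : |V y| < c) :
    BD (lp V) y (3 * K) (3 * (L * (1 + ‖y‖) ^ q)) := by
  have h1 := (trL E3).hasFDerivAt.comp y ((cd_hess h).differentiable one_ne_zero y).hasFDerivAt
  have h3 := h.b3 y hy
  refine ⟨h1.differentiableAt, abs_lp h.toTube0 y, ?_⟩
  rw [show lp V = trL E3 ∘ fderiv ℝ (grad V) from rfl, h1.fderiv]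
  refine ContinuousLinearMap.opNorm_le_of_unit_norm (by linarith [norm_nonneg (fderiv ℝ (fderiv ℝ
    (grad V)) y)]) fun v hv => ?_
  have h4 := abs_tr_le (fderiv ℝ (fderiv ℝ (grad V)) y v)
  have h5 := (fderiv ℝ (fderiv ℝ (grad V)) y).le_of_opNorm_le h3 v
  simp only [finrank_euclideanSpace, Fintype.card_fin, Nat.cast_ofNat] at h4
  rw [hv, mul_one] at h5
  change |tr (fderiv ℝ (fderiv ℝ (grad V)) y v)| ≤ _
  linarith

lemma inner_XX (V : E3 → ℝ) (y : E3) : ⟪y, XX V y⟫ = ‖y‖ ^ 2 - hh V y * hh V y := by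
  rw [XX, inner_sub_right, real_inner_smul_right, real_inner_self_eq_norm_sq]; rfl

lemma hh_sq_le (h : Tube0 V c K) (y : E3) : hh V y * hh V y ≤ K ^ 2 := by
  have h1 : |hh V y| ≤ K := h.bx y
  nlinarith [abs_nonneg (hh V y), abs_mul_abs_self (hh V y)]

lemma ww_le (h : Tube0 V c K) (y : E3) : ww V c y ≤ 2 + 4 * K ^ 2 - ‖y‖ ^ 2 / 2 := by
  have h1 : |hh V y| ≤ K := h.bx y
  have h2 := abs_lp h y
  have h3 := sg_abs (2 - (4 / c ^ 2) * (V y * V y))
  have hK := h.K_nonneg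
  have h4 : |sg (2 - (4 / c ^ 2) * (V y * V y)) * (hh V y * lp V y)| ≤ 1 * (K * (3 * K)) := by
    rw [abs_mul, abs_mul]; gcongr
  have h5 := neg_abs_le (sg (2 - (4 / c ^ 2) * (V y * V y)) * (hh V y * lp V y))
  have h6 := hh_sq_le h y
  unfold ww
  nlinarith

lemma exists_bd_ww (c K L : ℝ) (q : ℕ) : ∃ C : ℝ, 32 ≤ C ∧ ∀ V : E3 → ℝ, Tube3 V c K L q → ∀ y,
    ‖fderiv ℝ (fun x => mu x * ww V c x) y‖ ≤ C * (1 + ‖y‖ ^ 2) ^ (q + 2) := by
  obtain ⟨Cs, hCs, hs⟩ := exists_sg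
  obtain ⟨P, hP⟩ : ∃ P : ℝ, P = 3 * |K| * |L| + 3 * K ^ 2 + Cs * (8 / c ^ 2 * K ^ 2) * (3 * K ^ 2) :=
    ⟨_, rfl⟩
  have hP0 : 0 ≤ P := by rw [hP]; positivity
  refine ⟨32 + (16 * (P + 1 + K ^ 2) + 32 * (3 + 4 * K ^ 2)) * 2 ^ (q + 2), by
    have : 0 ≤ (16 * (P + 1 + K ^ 2) + 32 * (3 + 4 * K ^ 2)) * 2 ^ (q + 2) := by positivity
    linarith, fun V h y => ?_⟩
  have hK := h.K_nonneg
  have hc := h.cpos
  have hr := norm_nonneg y
  obtain ⟨T, hT⟩ : ∃ T : ℝ, T = (1 + ‖y‖) ^ (q + 2) := ⟨_, rfl⟩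
  have t1 : 1 ≤ 1 + ‖y‖ := by linarith
  have hT0 : (1 + ‖y‖) ^ q ≤ T := hT ▸ pow_le_pow_right₀ t1 (by omega)
  have hT1 : 1 + ‖y‖ ≤ T := hT ▸ le_self_pow₀ t1 (by omega)
  have hT2 : (1 + ‖y‖) ^ 2 ≤ T := hT ▸ pow_le_pow_right₀ t1 (by omega)
  have b1 : BD (fun x => sg (2 - (4 / c ^ 2) * (V x * V x)) * (hh V x * lp V x)) y (3 * K ^ 2)
      (P * T) := by
    by_cases hy : |V y| < c
    · have e1 := ((BD.const (y := y) (2 : ℝ)).sub ((BD.const (4 / c ^ 2)).mul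
        ((bd_V h.toTube0 y).mul (bd_V h.toTube0 y)))).comp (sg_der _) (sg_abs _) (hs _)
      refine (e1.mul ((bd_hh h.toTube0 y).mul (bd_lp h hy))).mono (le_of_eq (by ring)) ?_
      rw [Real.norm_of_nonneg (by positivity : 0 ≤ 4 / c ^ 2), hP, abs_of_nonneg hK]
      have e2 : K * (L * (1 + ‖y‖) ^ q) ≤ K * (|L| * T) := by
        have := le_abs_self L
        gcongr
      have e3 : K ^ 2 * (1 + ‖y‖) ≤ K ^ 2 * T := by gcongr
      have e4 : Cs * (8 / c ^ 2 * K ^ 2) * (3 * K ^ 2) * 1 ≤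
          Cs * (8 / c ^ 2 * K ^ 2) * (3 * K ^ 2) * T := by gcongr; linarith
      have e5 : Cs * (0 + (4 / c ^ 2 * (K * K + K * K) + 0 * (K * K))) * (K * (3 * K)) =
          Cs * (8 / c ^ 2 * K ^ 2) * (3 * K ^ 2) * 1 := by ring
      rw [e5]
      nlinarith
    · refine (BD.of_zero ?_).mono (by positivity) (mul_nonneg hP0 (by linarith))
      have e1 : 2 - (4 / c ^ 2) * (V y * V y) < 0 := by
        have e2 : c ^ 2 ≤ V y * V y := by
          rw [← abs_mul_abs_self]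
          nlinarith [not_lt.1 hy]
        have e3 : 4 / c ^ 2 * c ^ 2 ≤ 4 / c ^ 2 * (V y * V y) := by gcongr
        rw [div_mul_cancel₀ _ (by positivity)] at e3
        linarith
      have e4 : Continuous fun x => 2 - (4 / c ^ 2) * (V x * V x) :=
        continuous_const.sub (continuous_const.mul (h.cont.mul h.cont))
      filter_upwards [e4.continuousAt.eventually (gt_mem_nhds e1)] with x hx
      rw [show sg _ = 0 from Real.smoothTransition.zero_of_nonpos hx.le, zero_mul]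
  have b2 : BD (ww V c) y ((3 + 4 * K ^ 2) * T) ((P + 1 + K ^ 2) * T) := by
    refine (((BD.const (y := y) (2 : ℝ)).sub b1).sub ((BD.const (1 / 2 : ℝ)).mul
      (BD.nsq.sub ((bd_hh h.toTube0 y).mul (bd_hh h.toTube0 y))))).mono ?_ ?_
    · rw [Real.norm_of_nonneg (by norm_num : (0 : ℝ) ≤ 2),
        Real.norm_of_nonneg (by norm_num : (0 : ℝ) ≤ 1 / 2)]
      have e3 : K ^ 2 * 1 ≤ K ^ 2 * T := by gcongr; linarith
      nlinarith
    · rw [Real.norm_of_nonneg (by norm_num : (0 : ℝ) ≤ 1 / 2)]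
      have e3 : K ^ 2 * (1 + ‖y‖) ≤ K ^ 2 * T := by gcongr
      nlinarith
  have s1 : 1 ≤ 1 + ‖y‖ ^ 2 := by nlinarith
  have b3 := ((bd_mu y).mono (div_le_self (by norm_num) s1) (div_le_self (by norm_num) s1)).mul b2
  refine b3.b1.trans ?_
  have e6 : T ≤ 2 ^ (q + 2) * (1 + ‖y‖ ^ 2) ^ (q + 2) := by
    rw [hT, ← mul_pow]
    exact pow_le_pow_left₀ (by linarith) (by nlinarith [sq_nonneg (‖y‖ - 1)]) _
  have e7 : 0 ≤ (1 + ‖y‖ ^ 2) ^ (q + 2) := by positivity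
  have e8 : 0 ≤ 16 * (P + 1 + K ^ 2) + 32 * (3 + 4 * K ^ 2) := by positivity
  nlinarith [mul_le_mul_of_nonneg_left e6 e8]

/-- the transport equation `Da X + w a = -1` outside of a ball -/
lemma exists_a (c K L : ℝ) (q : ℕ) : ∃ R C : ℝ, |K| ≤ R ∧ 0 ≤ C ∧ ∀ V : E3 → ℝ, Tube3 V c K L q →
    ∃ a : E3 → ℝ, ∀ y, R < ‖y‖ → ContDiffAt ℝ 1 a y ∧ 0 ≤ a y ∧ a y ≤ 1 ∧
      ‖fderiv ℝ a y‖ ≤ C * (1 + ‖y‖ ^ 2) ^ (q + 2) ∧
      fderiv ℝ a y (XX V y) + ww V c y * a y = -1 := by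
  obtain ⟨C, hC, hw⟩ := exists_bd_ww c K L q
  obtain ⟨R, hR⟩ : ∃ R : ℝ, R = 100 * (1 + K ^ 2) + 32 * (q + 2 : ℕ) := ⟨_, rfl⟩
  have hq : (0 : ℝ) ≤ (q + 2 : ℕ) := Nat.cast_nonneg _
  have hKR : |K| + 1 ≤ R := by nlinarith [sq_abs K, sq_nonneg (|K| - 1)]
  refine ⟨R, 2 * C, by linarith, by linarith, fun V h => ?_⟩
  have hK := h.K_nonneg
  rw [abs_of_nonneg hK] at hKR
  have hθ : ∀ y : E3, R ≤ ‖y‖ → ∀ᶠ x in 𝓝 y, sg (‖x‖ ^ 2 - K ^ 2) = 1 := by
    intro y hy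
    have e1 : 1 < ‖y‖ ^ 2 - K ^ 2 := by nlinarith
    have e2 : Continuous fun x : E3 => ‖x‖ ^ 2 - K ^ 2 := by fun_prop
    filter_upwards [e2.continuousAt.eventually (lt_mem_nhds e1)] with x hx
    exact Real.smoothTransition.one_of_one_le hx.le
  have hw1 : ∀ y : E3, R ≤ ‖y‖ → mu y * ww V c y ≤ -4 := by
    intro y hy
    have e1 := ww_le h.toTube0 y
    have e2 : ww V c y ≤ -(1 + ‖y‖ ^ 2) / 4 := by nlinarith [sq_nonneg K]
    have e3 : mu y * (-(1 + ‖y‖ ^ 2) / 4) = -4 := by unfold mu; field_simp; norm_num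
    rw [← e3]
    exact mul_le_mul_of_nonneg_left e2 (mu_pos y).le
  have hT : TData (fun y => (mu y * sg (‖y‖ ^ 2 - K ^ 2)) • XX V y) (fun y => mu y * ww V c y)
      mu R C (q + 2) := by
    refine ⟨(cd_mu.mul (sg_cd.comp (cd_nsq.sub contDiff_const))).smul (cd_XX h.toTube0),
      cd_mu.mul (cd_ww h), cd_mu, ⟨32 * (1 + K ^ 2), fun y => ?_⟩, fun y => ?_, hw1,
      fun y hy => ?_, fun y hy => ?_, fun y _ => hw V h y, fun y => (mu_pos y).le,
      fun y hy => ?_, fun y => ?_⟩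
    · have e1 := (bd_XX h.toTube0 y).b0
      have e2 := sg_abs (‖y‖ ^ 2 - K ^ 2)
      have e3 : mu y * (1 + ‖y‖) ≤ 32 := by
        unfold mu
        rw [mul_assoc, inv_mul_eq_div]
        have : (1 + ‖y‖) / (1 + ‖y‖ ^ 2) ≤ 2 := by
          rw [div_le_iff₀ (by positivity)]
          nlinarith [sq_nonneg (‖y‖ - 1)]
        linarith
      rw [norm_smul, Real.norm_eq_abs, abs_mul, abs_of_pos (mu_pos y)]
      have e4 := mu_pos y
      calc mu y * |sg (‖y‖ ^ 2 - K ^ 2)| * ‖XX V y‖ ≤ mu y * 1 * ((1 + K ^ 2) * (1 + ‖y‖)) := by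
            gcongr
        _ = mu y * (1 + ‖y‖) * (1 + K ^ 2) := by ring
        _ ≤ _ := by gcongr
    · rw [real_inner_smul_right, inner_XX]
      rcases le_total (‖y‖ ^ 2 - K ^ 2) 0 with e | e
      · rw [show sg _ = 0 from Real.smoothTransition.zero_of_nonpos e, mul_zero, zero_mul]
      · exact mul_nonneg (mul_nonneg (mu_pos y).le (Real.smoothTransition.nonneg _))
          (by linarith [hh_sq_le h.toTube0 y])
    · have e1 := (((bd_mu y).smul (bd_XX h.toTube0 y)).congr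
        (g := fun y => (mu y * sg (‖y‖ ^ 2 - K ^ 2)) • XX V y)
        ((hθ y hy).mono fun x hx => by rw [hx, mul_one])).b1
      have e2 : 16 / (1 + ‖y‖ ^ 2) * ((1 + 2 * K ^ 2) * (1 + ‖y‖)) +
          32 / (1 + ‖y‖ ^ 2) * ((1 + K ^ 2) * (1 + ‖y‖)) ≤ 2 := by
        rw [div_mul_eq_mul_div, div_mul_eq_mul_div, ← add_div, div_le_iff₀ (by positivity)]
        have e3 : 100 * (1 + K ^ 2) ≤ ‖y‖ := by linarith
        have e4 : 100 * (1 + K ^ 2) * ‖y‖ ≤ ‖y‖ * ‖y‖ := by gcongr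
        nlinarith [sq_nonneg K, mul_nonneg (sq_nonneg K) (norm_nonneg y)]
      linarith [hw1 y hy]
    · have e1 := hw1 y hy
      have e2 : ⟪y, (mu y * sg (‖y‖ ^ 2 - K ^ 2)) • XX V y⟫ ≤ 16 := by
        rw [real_inner_smul_right, inner_XX, (hθ y hy).self_of_nhds, mul_one]
        have e3 : mu y * (1 + ‖y‖ ^ 2) = 16 := by unfold mu; field_simp
        rw [← e3]
        exact mul_le_mul_of_nonneg_left (by nlinarith [mul_self_nonneg (hh V y)]) (mu_pos y).le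
      have e4 : 32 * ((q + 2 : ℕ) : ℝ) ≤ ‖y‖ := by nlinarith [sq_nonneg K]
      have e5 : 1 ≤ ‖y‖ := by linarith
      have e6 : mu y * ww V c y * (1 + ‖y‖ ^ 2) ≤ -4 * (1 + ‖y‖ ^ 2) := by gcongr
      have e7 : 8 * ((q + 2 : ℕ) : ℝ) * ⟪y, (mu y * sg (‖y‖ ^ 2 - K ^ 2)) • XX V y⟫ ≤
          8 * ((q + 2 : ℕ) : ℝ) * 16 := by gcongr
      nlinarith
    · unfold mu
      rw [← div_eq_mul_inv, div_le_one (by positivity)]
      have e3 : 100 ≤ ‖y‖ := by nlinarith [sq_nonneg K]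
      nlinarith
    · exact (bd_mu y).b1.trans ((div_le_self (by norm_num) (by nlinarith [sq_nonneg ‖y‖])).trans hC)
  obtain ⟨a, ha⟩ := hT.solve
  refine ⟨a, fun y hy => ?_⟩
  obtain ⟨h1, h2, h3, h4, h5⟩ := ha y hy
  refine ⟨h1, h2, h3, h4, mul_left_cancel₀ (mu_pos y).ne' ?_⟩
  rw [(hθ y hy.le).self_of_nhds, mul_one, map_smul, smul_eq_mul] at h5
  linarith

/-- the divergence of `-f X` on the zero set -/
lemma div_field (h : Tube0 V c K) {f : E3 → ℝ} {y : E3} (hf : DifferentiableAt ℝ f y)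
    (hy : V y = 0) : ⟪(-f y) • XX V y, grad V y⟫ = 0 ∧
      tr (fderiv ℝ (fun x => (-f x) • XX V x) y) -
        ⟪fderiv ℝ (fun x => (-f x) • XX V x) y (grad V y), grad V y⟫ -
        1 / 2 * ⟪y, (-f y) • XX V y⟫ = -(fderiv ℝ f y (XX V y) + ww V c y * f y) := by
  have hyc : |V y| < c := by rw [hy, abs_zero]; exact h.cpos
  have hn : ⟪grad V y, grad V y⟫ = 1 := by rw [real_inner_self_eq_norm_sq, h.eik y hyc]; norm_num
  have hAn := h.hess_grad hyc
  have hXn : ⟪XX V y, grad V y⟫ = 0 := by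
    rw [XX, inner_sub_left, real_inner_smul_left, hn, mul_one]; exact sub_self _
  have hG := (bd_grad h y).d.hasFDerivAt
  have hh1 := (bd_hh h y).d.hasFDerivAt
  have hh2 : fderiv ℝ (hh V) y (grad V y) = 1 := by
    have e := (hasFDerivAt_id y).inner ℝ hG
    rw [show hh V = fun x => ⟪id x, grad V x⟫ from rfl, e.fderiv]
    simp [hAn, h.eik y hyc]
  have hX : HasFDerivAt (XX V) _ y := (hasFDerivAt_id y).sub (hh1.smul hG)
  have hB : HasFDerivAt (fun x => (-f x) • XX V x) _ y := hf.hasFDerivAt.neg.smul hX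
  have t1 : ∀ (l : E3 →L[ℝ] ℝ) (v : E3), tr (l.smulRight v) = l v := fun l v => by
    have := tr_comp_smulRight (ContinuousLinearMap.id ℝ E3) l v
    rwa [ContinuousLinearMap.id_comp] at this
  have t2 : tr (ContinuousLinearMap.id ℝ E3) = 3 := by simp [tr]
  refine ⟨by rw [real_inner_smul_left, hXn, mul_zero], ?_⟩
  have hsg : sg (2 - (4 / c ^ 2) * (V y * V y)) = 1 := by
    rw [hy]; exact Real.smoothTransition.one_of_one_le (by norm_num)
  rw [hB.fderiv, tr_add, tr_smul, tr_sub, tr_add, tr_smul, t1, t1, t2, hh2, real_inner_smul_right,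
    inner_XX, ww, hsg]
  simp only [add_apply, smul_apply, sub_apply, ContinuousLinearMap.smulRight_apply,
    ContinuousLinearMap.id_apply, hAn, hh2, smul_zero, zero_add, one_smul, sub_self,
    real_inner_smul_left, hXn, mul_zero, neg_apply, Pi.neg_apply, lp]
  ring

end tube

theorem field_proof : FieldStmt := by
  intro c K L q
  obtain ⟨R, C, hKR, hC, hex⟩ := exists_a c K L q
  obtain ⟨Cs, hCs, hs⟩ := exists_sg
  have hR : 0 ≤ R := (abs_nonneg K).trans hKR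
  obtain ⟨K₁, hK₁⟩ : ∃ K₁ : ℝ, K₁ = (1 + 2 * K ^ 2) + (C + 2 * Cs) * (1 + K ^ 2) +
    (1 + 2 * Cs * ((R + 1) ^ 2 + 1)) := ⟨_, rfl⟩
  have k1 : 0 ≤ (C + 2 * Cs) * (1 + K ^ 2) := by positivity
  have k2 : 0 ≤ 2 * Cs * ((R + 1) ^ 2 + 1) := by positivity
  have k3 := sq_nonneg K
  refine ⟨R + 2, K₁, 2 * (q + 2) + 1, fun V h => ?_⟩
  obtain ⟨a, ha⟩ := hex V h
  rw [abs_of_nonneg h.K_nonneg] at hKR
  set f : E3 → ℝ := fun y => sg (‖y‖ ^ 2 - (R + 1) ^ 2) * a y with hf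
  have hη : ContDiff ℝ 1 fun y : E3 => sg (‖y‖ ^ 2 - (R + 1) ^ 2) :=
    sg_cd.comp (cd_nsq.sub contDiff_const)
  have hz : ∀ y : E3, ‖y‖ ≤ R → ∀ᶠ x in 𝓝 y, f x = 0 := by
    intro y hy
    have e1 : ‖y‖ ^ 2 - (R + 1) ^ 2 < 0 := by nlinarith [norm_nonneg y]
    have e2 : Continuous fun x : E3 => ‖x‖ ^ 2 - (R + 1) ^ 2 := by fun_prop
    filter_upwards [e2.continuousAt.eventually (gt_mem_nhds e1)] with x hx
    simp only [hf]
    rw [show sg _ = 0 from Real.smoothTransition.zero_of_nonpos hx.le, zero_mul]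
  have hfc : ContDiff ℝ 1 f := contDiff_iff_contDiffAt.2 fun y => by
    rcases le_or_gt ‖y‖ R with hy | hy
    · exact contDiffAt_const.congr_of_eventuallyEq (hz y hy)
    · exact hη.contDiffAt.mul (ha y hy).1
  have hfb : ∀ y, BD f y 1 ((C + 2 * Cs) * (1 + ‖y‖) ^ (2 * (q + 2))) := by
    intro y
    have hr := norm_nonneg y
    rcases le_or_gt ‖y‖ R with hy | hy
    · exact (BD.of_zero (hz y hy)).mono zero_le_one (by positivity)
    · obtain ⟨h1, h2, h3, h4, -⟩ := ha y hy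
      have e1 : BD a y 1 (C * (1 + ‖y‖ ^ 2) ^ (q + 2)) :=
        ⟨h1.differentiableAt one_ne_zero, by rw [Real.norm_of_nonneg h2]; exact h3, h4⟩
      have e2 := (BD.nsq.sub (BD.const (y := y) ((R + 1) ^ 2))).comp (sg_der _) (sg_abs _) (hs _)
      refine (e2.mul e1).mono (le_of_eq (by ring)) ?_
      have e3 : (1 + ‖y‖ ^ 2) ^ (q + 2) ≤ (1 + ‖y‖) ^ (2 * (q + 2)) := by
        rw [pow_mul]
        exact pow_le_pow_left₀ (by positivity) (by nlinarith) _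
      have e4 : ‖y‖ ≤ (1 + ‖y‖) ^ (2 * (q + 2)) :=
        (by linarith : ‖y‖ ≤ 1 + ‖y‖).trans (le_self_pow₀ (by linarith) (by omega))
      nlinarith [mul_le_mul_of_nonneg_left e3 hC, mul_le_mul_of_nonneg_left e4 hCs]
  have hBb : ∀ y, BD (fun x => (-f x) • XX V x) y (K₁ * (1 + ‖y‖) ^ (2 * (q + 2) + 1))
      (K₁ * (1 + ‖y‖) ^ (2 * (q + 2) + 1)) := by
    intro y
    have hr := norm_nonneg y
    have e1 : BD (fun x => -f x) y 1 ((C + 2 * Cs) * (1 + ‖y‖) ^ (2 * (q + 2))) :=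
      ⟨(hfb y).d.neg, by rw [norm_neg]; exact (hfb y).b0, by
        rw [fderiv_fun_neg, norm_neg]; exact (hfb y).b1⟩
    have e2 : 1 + ‖y‖ ≤ (1 + ‖y‖) ^ (2 * (q + 2) + 1) := le_self_pow₀ (by linarith) (by omega)
    have e3 : 0 ≤ (1 + ‖y‖) ^ (2 * (q + 2) + 1) := by positivity
    refine (e1.smul (bd_XX h.toTube0 y)).mono ?_ ?_
    · rw [one_mul]
      exact mul_le_mul (by linarith) e2 (by linarith) (by linarith)
    · have e4 : (C + 2 * Cs) * (1 + ‖y‖) ^ (2 * (q + 2)) * ((1 + K ^ 2) * (1 + ‖y‖)) =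
          (C + 2 * Cs) * (1 + K ^ 2) * (1 + ‖y‖) ^ (2 * (q + 2) + 1) := by ring
      have e5 : (1 + 2 * K ^ 2) * (1 + ‖y‖) ≤
          (1 + 2 * K ^ 2) * (1 + ‖y‖) ^ (2 * (q + 2) + 1) := by gcongr
      rw [e4, hK₁]
      nlinarith [mul_nonneg k2 e3]
  have hg : ∀ y, R < ‖y‖ → 1 + (fderiv ℝ f y (XX V y) + ww V c y * f y) =
      1 - sg (‖y‖ ^ 2 - (R + 1) ^ 2) +
        a y * (deriv sg (‖y‖ ^ 2 - (R + 1) ^ 2) * (2 * ⟪y, XX V y⟫)) := by
    intro y hy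
    obtain ⟨h1, -, -, -, h5⟩ := ha y hy
    have e1 := (sg_der _).comp_hasFDerivAt y
      ((hasStrictFDerivAt_norm_sq y).hasFDerivAt.sub_const ((R + 1) ^ 2))
    have e2 : HasFDerivAt f _ y := e1.mul (h1.differentiableAt one_ne_zero).hasFDerivAt
    rw [e2.fderiv]
    simp only [add_apply, smul_apply, smul_eq_mul, Function.comp, innerSL_apply_apply, hf,
      nsmul_eq_mul, Nat.cast_ofNat]
    linear_combination (sg (‖y‖ ^ 2 - (R + 1) ^ 2)) * h5
  refine ⟨fun x => (-f x) • XX V x, fun y => 1 + (fderiv ℝ f y (XX V y) + ww V c y * f y),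
    hfc.neg.smul (cd_XX h.toTube0), continuous_const.add
      (((hfc.continuous_fderiv one_ne_zero).clm_apply (cd_XX h.toTube0).continuous).add
        ((cd_ww h).continuous.mul hfc.continuous)),
    fun y => (hBb y).b0, fun y => (hBb y).b1, fun y => ?_, fun y hy => ?_, fun y hy => ?_⟩
  · rcases le_or_gt ‖y‖ R with hy | hy
    · have e1 : fderiv ℝ f y = 0 := norm_le_zero_iff.1 (BD.of_zero (hz y hy)).b1
      simp only [e1, (hz y hy).self_of_nhds, zero_apply, mul_zero, add_zero]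
      exact ⟨zero_le_one, by linarith⟩
    · obtain ⟨-, h2, h3, -, -⟩ := ha y hy
      have e1 := hh_sq_le h.toTube0 y
      have e2 : 0 ≤ ⟪y, XX V y⟫ := by rw [inner_XX]; nlinarith [h.K_nonneg]
      have e3 := sg_der_nonneg (‖y‖ ^ 2 - (R + 1) ^ 2)
      have e4 := Real.smoothTransition.nonneg (‖y‖ ^ 2 - (R + 1) ^ 2)
      have e5 := Real.smoothTransition.le_one (‖y‖ ^ 2 - (R + 1) ^ 2)
      have e6 : deriv sg (‖y‖ ^ 2 - (R + 1) ^ 2) * (2 * ⟪y, XX V y⟫) ≤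
          2 * Cs * ((R + 1) ^ 2 + 1) := by
        rcases lt_or_ge 1 (‖y‖ ^ 2 - (R + 1) ^ 2) with e | e
        · rw [sg_der_gt e, zero_mul]; exact k2
        · have e7 := (le_abs_self _).trans (hs (‖y‖ ^ 2 - (R + 1) ^ 2))
          have e8 : ⟪y, XX V y⟫ ≤ (R + 1) ^ 2 + 1 := by
            rw [inner_XX]; nlinarith [mul_self_nonneg (hh V y)]
          calc _ ≤ Cs * (2 * ((R + 1) ^ 2 + 1)) := by gcongr
            _ = _ := by ring
      have e9 : 0 ≤ deriv sg (‖y‖ ^ 2 - (R + 1) ^ 2) * (2 * ⟪y, XX V y⟫) := by positivity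
      simp only [hg y hy]
      constructor
      · nlinarith [mul_nonneg h2 e9]
      · nlinarith [mul_le_mul_of_nonneg_right h3 e9]
  · have e1 : 1 < ‖y‖ ^ 2 - (R + 1) ^ 2 := by nlinarith
    simp only [hg y (by linarith), sg_der_gt e1]
    rw [show sg _ = 1 from Real.smoothTransition.one_of_one_le e1.le]
    ring
  · obtain ⟨e1, e2⟩ := div_field h.toTube0 (hfb y).d hy
    exact ⟨e1, by rw [e2]; ring⟩

end Vale.Agent.P218F.DynF
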