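import Vale.Agent.P218F.DynSpec
import Mathlib.Analysis.Normed.Operator.BanachSteinhaus
import Mathlib.Analysis.ODE.Gronwall
import Mathlib.Topology.UrysohnsLemma

/-! Block DYN, GEO: from the family of surfaces to the family of tube functions. -/

open MeasureTheory Set Filter Topology Metric
open scoped ENNReal NNReal RealInnerProductSpace ContDiff

namespace Vale.Agent.P218F.Dyn.Ge

open Vale.Agent.P218 Vale.Agent.P218.H313
open Vale.Agent.P218FT (E3 IsSurf IsEqn nu Hv relV TwoPt)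

section tube

variable {V : E3 → ℝ} {c K : ℝ}

lemma lip (h : Tube0 V c K) (x y : E3) : |V y - V x| ≤ K * ‖y - x‖ :=
  convex_univ.norm_image_sub_le_of_norm_fderiv_le (𝕜 := ℝ) (fun z _ => h.diff z)
    (fun z _ => by rw [← norm_grad]; exact h.b1 z) trivial trivial

lemma lipg (h : Tube0 V c K) (x y : E3) : ‖grad V y - grad V x‖ ≤ K * ‖y - x‖ :=
  convex_univ.norm_image_sub_le_of_norm_fderiv_le (𝕜 := ℝ)
    (fun z _ => h.grad_cd.differentiable (by norm_num) z) (fun z _ => h.b2 z) trivial trivial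

lemma taylor (h : Tube0 V c K) (x y : E3) :
    |V y - V x - ⟪grad V x, y - x⟫| ≤ K * ‖y - x‖ ^ 2 := by
  have h1 := (convex_closedBall x ‖y - x‖).norm_image_sub_le_of_norm_fderiv_le' (𝕜 := ℝ)
    (f := V) (φ := fderiv ℝ V x) (C := K * ‖y - x‖) (fun z _ => h.diff z) (fun z hz => by
      refine ContinuousLinearMap.opNorm_le_bound _
        (mul_nonneg h.K_nonneg (norm_nonneg _)) fun v => ?_
      rw [sub_apply, ← inner_grad, ← inner_grad, ← inner_sub_left]
      refine (norm_inner_le_norm _ _).trans (mul_le_mul_of_nonneg_right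
        ((lipg h x z).trans (mul_le_mul_of_nonneg_left ?_ h.K_nonneg)) (norm_nonneg _))
      exact mem_closedBall_iff_norm.1 hz)
    (mem_closedBall_self (norm_nonneg _)) (mem_closedBall_iff_norm.2 le_rfl)
  rw [← inner_grad] at h1
  exact h1.trans_eq (by ring)

/-- normal lines -/
lemma line (h : Tube0 V c K) {p : E3} {t : ℝ} (ht : |V p| + K * |t| < c) :
    V (p + t • grad V p) = V p + t ∧ grad V (p + t • grad V p) = grad V p := by
  have K0 := h.K_nonneg
  have g1 : ‖grad V p‖ = 1 := h.eik p (by nlinarith [abs_nonneg t])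
  set g := grad V p with hg
  have dγ : ∀ s : ℝ, HasDerivAt (fun s : ℝ => p + (s * t) • g) (t • g) s := fun s => by
    simpa using (((hasDerivAt_id' s).mul_const t).smul_const g).const_add p
  have hin : ∀ s ∈ Icc (0 : ℝ) 1, |V (p + (s * t) • g)| < c := fun s hs => by
    have h1 := lip h p (p + (s * t) • g)
    rw [add_sub_cancel_left, norm_smul, g1, mul_one, Real.norm_eq_abs, abs_mul,
      abs_of_nonneg hs.1] at h1
    have h2 : K * (s * |t|) ≤ K * |t| :=
      mul_le_mul_of_nonneg_left (mul_le_of_le_one_left (abs_nonneg t) hs.2) K0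
    linarith [abs_sub_abs_le_abs_sub (V (p + (s * t) • g)) (V p)]
  have dG : ∀ s : ℝ, HasDerivAt (fun s : ℝ => grad V (p + (s * t) • g) - g)
      (fderiv ℝ (grad V) (p + (s * t) • g) (t • g)) s := fun s =>
    ((h.grad_cd.differentiable (by norm_num) _).hasFDerivAt.comp_hasDerivAt s (dγ s)).sub_const g
  have key := eq_zero_of_abs_deriv_le_mul_abs_self_of_eq_zero_right (K := |t| * K) (a := 0) (b := 1)
    (fun s _ => (dG s).continuousAt.continuousWithinAt) (fun s _ => (dG s).hasDerivWithinAt)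
    (by simp [hg]) fun s hs => by
      have h1 := h.hess_grad (hin s (Ico_subset_Icc_self hs))
      have h2 : fderiv ℝ (grad V) (p + (s * t) • g) (t • g) =
          (-t) • fderiv ℝ (grad V) (p + (s * t) • g) (grad V (p + (s * t) • g) - g) := by
        rw [map_sub, h1, map_smul, zero_sub, neg_smul_neg]
      rw [h2, norm_smul, norm_neg, Real.norm_eq_abs, mul_assoc]
      exact mul_le_mul_of_nonneg_left ((ContinuousLinearMap.le_opNorm _ _).trans
        (mul_le_mul_of_nonneg_right (h.b2 _) (norm_nonneg _))) (abs_nonneg t)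
  have h3 := (convex_Icc (0 : ℝ) 1).norm_image_sub_le_of_norm_hasDerivWithin_le (C := 0)
    (f := fun s => V (p + (s * t) • g) - s * t) (f' := fun _ => 0) (fun s hs => by
      have h4 := ((h.diff _).hasFDerivAt.comp_hasDerivAt s (dγ s)).sub
        ((hasDerivAt_id' s).mul_const t)
      rw [← inner_grad, sub_eq_zero.1 (key s hs), real_inner_smul_right,
        real_inner_self_eq_norm_sq, g1] at h4
      exact (h4.congr_deriv (by ring)).hasDerivWithinAt) (fun _ _ => by simp)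
    (left_mem_Icc.2 zero_le_one) (right_mem_Icc.2 zero_le_one)
  have h4 := sub_eq_zero.1 (key 1 (right_mem_Icc.2 zero_le_one))
  simp only [one_mul, zero_mul, zero_smul, add_zero, sub_zero, norm_le_zero_iff] at h3 h4
  exact ⟨by linarith, h4⟩

lemma line_sub (h : Tube0 V c K) {p : E3} {t : ℝ} (ht : |V p| + K * |t| < c) :
    V (p - t • grad V p) = V p - t ∧ grad V (p - t • grad V p) = grad V p := by
  have := line h (p := p) (t := -t) (by rwa [abs_neg])
  rwa [neg_smul, ← sub_eq_add_neg, ← sub_eq_add_neg] at this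

lemma grad_neg (V : E3 → ℝ) : grad (fun y => -V y) = fun y => -grad V y :=
  funext fun y => grad_unique fun v => by rw [fderiv_fun_neg, inner_neg_left, inner_grad]; rfl

lemma ee_neg (V : E3 → ℝ) (y : E3) : ee (fun y => -V y) y = -ee V y := by
  rw [ee, ee, grad_neg, fderiv_fun_neg, ← neg_one_smul ℝ (fderiv ℝ (grad V) y), tr_smul,
    inner_neg_right]
  ring

end tube

/-- what is used of the signed distance function -/
structure SD (N : Set E3) (V : E3 → ℝ) (c K L : ℝ) (q : ℕ) : Prop where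
  tube : Tube3 V c K L q
  zero : zs V = N
  dist : ∀ y, |V y| < c ∨ infDist y N < c → |V y| = infDist y N
  ee : ∀ p ∈ N, ee V p • grad V p = -relV N 0 1 p

lemma SD.neg {N : Set E3} {V : E3 → ℝ} {c K L : ℝ} {q : ℕ} (h : SD N V c K L q) :
    SD N (fun y => -V y) c K L q := by
  have T := h.tube
  have e2 : fderiv ℝ (fun y => -grad V y) = fun y => -fderiv ℝ (grad V) y :=
    funext fun y => fderiv_fun_neg
  refine ⟨⟨⟨T.cpos, T.smooth.neg, fun y => ?_, fun y => ?_, fun y => ?_, fun y => ?_,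
    fun y hy => ?_⟩, T.smooth3.neg, fun y hy => ?_⟩, ?_, fun y hy => ?_, fun p hp => ?_⟩
  · rw [abs_neg]; exact T.b0 y
  · rw [grad_neg, norm_neg]; exact T.b1 y
  · rw [grad_neg, e2, norm_neg]; exact T.b2 y
  · rw [grad_neg, inner_neg_right, abs_neg]; exact T.bx y
  · rw [grad_neg, norm_neg]; exact T.eik y (by rwa [abs_neg] at hy)
  · rw [grad_neg, e2, fderiv_fun_neg]
    exact (norm_neg (fderiv ℝ (fderiv ℝ (grad V)) y)).trans_le (T.b3 y (by rwa [abs_neg] at hy))
  · rw [← h.zero]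
    ext y
    simp [zs]
  · rw [abs_neg] at hy ⊢
    exact h.dist y hy
  · rw [ee_neg, grad_neg, neg_smul_neg]
    exact h.ee p hp

/-- the fixed data -/
structure Base (S : Set E3) (V₀ φ : E3 → ℝ) (c₀ K₀ δ R : ℝ) : Prop where
  tube : Tube0 V₀ c₀ K₀
  zero : zs V₀ = S
  pos : 0 < δ
  le : δ ≤ 1 / 4
  lt : (K₀ + 1) * δ < c₀
  cont : Continuous φ
  supp : tsupport φ ⊆ {y | |V₀ y| < δ} ∩ ball 0 R
  one : ∀ y, |V₀ y| ≤ δ / 2 → ‖y‖ ≤ R - 1 / 4 → φ y = 1
  bd : ∀ y, φ y ∈ Icc (0 : ℝ) 1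

lemma exists_base {S : Set E3} {V₀ : E3 → ℝ} {c₀ K₀ : ℝ} (h : Tube0 V₀ c₀ K₀) (hz : zs V₀ = S)
    (R : ℝ) : ∃ φ δ, Base S V₀ φ c₀ K₀ δ R := by
  have K0 := h.K_nonneg
  have c0 := h.cpos
  set δ := min (1 / 4) (c₀ / (2 * (K₀ + 1))) with hδ
  have δ0 : 0 < δ := by positivity
  obtain ⟨f, h1, h2, h3⟩ := exists_tsupport_one_of_isOpen_isClosed
    (s := {y | |V₀ y| < δ} ∩ ball 0 R) (t := {y | |V₀ y| ≤ δ / 2} ∩ closedBall 0 (R - 1 / 4))
    ((isOpen_lt h.cont.abs continuous_const).inter isOpen_ball)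
    (isBounded_ball.subset inter_subset_right).isCompact_closure
    ((isClosed_le h.cont.abs continuous_const).inter isClosed_closedBall)
    (fun y hy => ⟨lt_of_le_of_lt (show |V₀ y| ≤ δ / 2 from hy.1) (half_lt_self δ0),
      closedBall_subset_ball (by linarith) hy.2⟩)
  refine ⟨f, δ, h, hz, δ0, min_le_left _ _, ?_, f.continuous, h1,
    fun y h4 h5 => h2 ⟨h4, mem_closedBall_zero_iff.2 h5⟩, h3⟩
  have h4 : δ * (2 * (K₀ + 1)) ≤ c₀ := (le_div_iff₀ (by positivity)).1 (min_le_right _ _)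
  nlinarith

/-- the extension of a function on `S` to the space -/
noncomputable def ext (V₀ φ u : E3 → ℝ) (y : E3) : ℝ := φ y * u (foot V₀ y)

namespace Base

variable {S N : Set E3} {V₀ φ u V : E3 → ℝ} {c₀ K₀ δ R m c K L : ℝ} {q : ℕ}
  (B : Base S V₀ φ c₀ K₀ δ R)
include B

lemma unit {y : E3} (hy : |V₀ y| ≤ δ) : ‖grad V₀ y‖ = 1 :=
  B.tube.eik y (by nlinarith [B.lt, B.tube.K_nonneg, B.pos])

lemma foot_mem {y : E3} (hy : |V₀ y| ≤ δ) :
    foot V₀ y ∈ S ∧ grad V₀ (foot V₀ y) = grad V₀ y ∧ ‖foot V₀ y‖ ≤ ‖y‖ + 1 := by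
  have h1 := line_sub B.tube (p := y) (t := V₀ y) (by nlinarith [B.lt, B.tube.K_nonneg])
  refine ⟨B.zero ▸ h1.1.trans (sub_self _), h1.2, (norm_sub_le _ _).trans ?_⟩
  rw [norm_smul, B.unit hy, mul_one, Real.norm_eq_abs]
  linarith [B.le]

lemma foot_of_ne {y : E3} (hy : φ y ≠ 0) : foot V₀ y ∈ S ∧ ‖foot V₀ y‖ ≤ R + 1 := by
  have h1 := B.supp (subset_tsupport _ hy)
  have h2 := B.foot_mem (le_of_lt h1.1)
  exact ⟨h2.1, by linarith [h2.2.2, mem_ball_zero_iff.1 h1.2]⟩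

lemma ext_le (m0 : 0 ≤ m) (hm : ∀ p ∈ S, ‖p‖ ≤ R + 1 → |u p| ≤ m) (y : E3) :
    |ext V₀ φ u y| ≤ m := by
  by_cases h : φ y = 0
  · rwa [ext, h, zero_mul, abs_zero]
  · rw [ext, abs_mul, abs_of_nonneg (B.bd y).1]
    exact (mul_le_of_le_one_left (abs_nonneg _) (B.bd y).2).trans
      (hm _ (B.foot_of_ne h).1 (B.foot_of_ne h).2)

lemma ext_cont (hu : ContinuousOn u (S ∩ closedBall 0 (R + 1))) : Continuous (ext V₀ φ u) := by
  refine continuous_of_tsupport fun y hy => ?_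
  have h1 := B.supp (tsupport_mul_subset_left hy)
  have hO : IsOpen ({y | |V₀ y| < δ} ∩ ball (0 : E3) R) :=
    (isOpen_lt B.tube.cont.abs continuous_const).inter isOpen_ball
  have hf : Continuous (foot V₀) :=
    continuous_id.sub (B.tube.cont.smul B.tube.grad_cd.continuous)
  refine B.cont.continuousAt.mul
    ((hu.comp hf.continuousOn fun z hz => ?_).continuousAt (hO.mem_nhds h1))
  have h2 := B.foot_mem (le_of_lt hz.1)
  exact ⟨h2.1, mem_closedBall_zero_iff.2 (by linarith [h2.2.2, mem_ball_zero_iff.1 hz.2])⟩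

lemma ext_of_mem {y : E3} (hy : y ∈ S) (h : ‖y‖ ≤ R - 1 / 4) : ext V₀ φ u y = u y := by
  have h0 : V₀ y = 0 := (B.zero ▸ hy : y ∈ zs V₀)
  rw [ext, B.one y (by rw [h0, abs_zero]; linarith [B.pos]) h, foot, h0, zero_smul, sub_zero,
    one_mul]

end Base

/-- `N` is the normal graph of `u` over `S` in the ball of radius `R`, and `|u| ≤ m` -/
structure Gr (S N : Set E3) (V₀ u : E3 → ℝ) (R m : ℝ) : Prop where
  gr : ∀ y, ‖y‖ ≤ R → (y ∈ N ↔ ∃ p ∈ S, ‖p‖ ≤ R + 1 ∧ y = p + u p • grad V₀ p)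
  m0 : 0 ≤ m
  bd : ∀ p ∈ S, ‖p‖ ≤ R + 1 → |u p| ≤ m
  cont : ContinuousOn u (S ∩ closedBall 0 (R + 1))

/-- the equation of the graph -/
noncomputable def ww (V₀ φ u : E3 → ℝ) (y : E3) : ℝ := V₀ y - ext V₀ φ u y

namespace Base

variable {S N : Set E3} {V₀ φ u V : E3 → ℝ} {c₀ K₀ δ R m c K L : ℝ} {q : ℕ}
  (B : Base S V₀ φ c₀ K₀ δ R) (G : Gr S N V₀ u R m) (hm : m ≤ δ / 4)
include B G

lemma ww_le (y : E3) : |ww V₀ φ u y| ≤ |V₀ y| + m ∧ |V₀ y| ≤ |ww V₀ φ u y| + m := by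
  have h1 := B.ext_le G.m0 G.bd y
  refine ⟨(abs_sub _ _).trans (by linarith), ?_⟩
  have := abs_sub_abs_le_abs_sub (V₀ y) (ext V₀ φ u y)
  rw [ww]
  linarith

include hm

/-- the point of `N` on the normal line through `y` -/
lemma above {y : E3} (h1 : |V₀ y| ≤ δ / 2) (h2 : ‖y‖ ≤ R - 1 / 4) :
    y - ww V₀ φ u y • grad V₀ y ∈ N ∧ grad V₀ (y - ww V₀ φ u y • grad V₀ y) = grad V₀ y ∧
      ‖ww V₀ φ u y • grad V₀ y‖ = |ww V₀ φ u y| := by
  have δ0 := B.pos
  have h3 := B.foot_mem (y := y) (by linarith)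
  have h4 := (B.ww_le G y).1
  have h5 : ‖ww V₀ φ u y • grad V₀ y‖ = |ww V₀ φ u y| := by
    rw [norm_smul, B.unit (by linarith), mul_one, Real.norm_eq_abs]
  refine ⟨(G.gr _ ((norm_sub_le _ _).trans (by linarith [B.le]))).2
    ⟨foot V₀ y, h3.1, by linarith [h3.2.2], ?_⟩, (line_sub B.tube ?_).2, h5⟩
  · rw [h3.2.1, ww, ext, B.one y h1 h2, one_mul, sub_smul]
    simp only [foot]
    abel
  · nlinarith [B.lt, B.tube.K_nonneg]

lemma of_mem {y : E3} (hy : y ∈ N) (h2 : ‖y‖ ≤ R - 1 / 4) : |V₀ y| ≤ m ∧ ww V₀ φ u y = 0 := by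
  have δ0 := B.pos
  obtain ⟨p, hp, h3, e⟩ := (G.gr y (by linarith)).1 hy
  have h0 : V₀ p = 0 := (B.zero ▸ hp : p ∈ zs V₀)
  have h4 := G.bd p hp h3
  have h5 := line B.tube (p := p) (t := u p) (by
    rw [h0, abs_zero]
    nlinarith [B.lt, B.tube.K_nonneg])
  rw [← e, h0, zero_add] at h5
  have h6 : foot V₀ y = p := by
    rw [foot, h5.1, h5.2, e, add_sub_cancel_right]
  refine ⟨h5.1 ▸ h4, ?_⟩
  rw [ww, ext, B.one y (by rw [h5.1]; linarith) h2, h6, h5.1, one_mul, sub_self]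

variable (D : SD N V c K L q)
include D

lemma tilt {s : ℝ} (s0 : 0 < s) (s1 : s ≤ 1 / 8) (s2 : (K + 1) * s < c) (s3 : K₀ * s ≤ δ / 4)
    (ms : m ≤ s ^ 2) {y : E3} (hy : y ∈ N) (h2 : ‖y‖ ≤ R - 3 / 8) :
    1 - (K₀ + 2) * s ≤ |⟪grad V y, grad V₀ y⟫| := by
  have T := D.tube.toTube0
  have K0 := T.K_nonneg
  have h0 : V y = 0 := (D.zero ▸ hy : y ∈ zs V)
  have g1 : ‖grad V y‖ = 1 := T.eik y (by rw [h0, abs_zero]; exact T.cpos)
  have n1 : ‖s • grad V y‖ = s := by rw [norm_smul, g1, mul_one, Real.norm_of_nonneg s0.le]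
  have h3 := (line T (p := y) (t := s) (by rw [h0, abs_zero, abs_of_pos s0]; linarith)).1
  rw [h0, zero_add] at h3
  have h4 := (B.of_mem G hm hy (by linarith)).1
  have h5 := lip B.tube y (y + s • grad V y)
  have h6 := taylor B.tube y (y + s • grad V y)
  rw [add_sub_cancel_left, n1] at h5 h6
  rw [real_inner_smul_right, real_inner_comm] at h6
  have h7 := B.above G hm (y := y + s • grad V y)
    (by linarith [abs_sub_abs_le_abs_sub (V₀ (y + s • grad V y)) (V₀ y)])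
    ((norm_add_le _ _).trans (by linarith))
  have h8 := D.dist (y + s • grad V y) (Or.inl (by rw [h3, abs_of_pos s0]; nlinarith))
  have h9 := infDist_le_dist_of_mem (x := y + s • grad V y) h7.1
  rw [← h8, h3, abs_of_pos s0, dist_eq_norm, sub_sub_cancel, h7.2.2] at h9
  have h10 := (B.ww_le G (y + s • grad V y)).1
  have h11 : |V₀ (y + s • grad V y)| ≤ K₀ * s ^ 2 + m + s * |⟪grad V y, grad V₀ y⟫| := by
    have h12 := abs_add_three (V₀ (y + s • grad V y) - V₀ y - s * ⟪grad V y, grad V₀ y⟫) (V₀ y)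
      (s * ⟪grad V y, grad V₀ y⟫)
    rw [abs_mul, abs_of_pos s0, sub_sub, add_assoc, sub_add_cancel] at h12
    rw [sub_sub] at h6
    linarith
  refine le_of_mul_le_mul_left ?_ s0
  nlinarith

lemma expand {y : E3} (h1 : |V₀ y| ≤ δ / 2) (h2 : ‖y‖ ≤ R - 1 / 4) :
    |V y - ww V₀ φ u y * ⟪grad V (y - ww V₀ φ u y • grad V₀ y), grad V₀ y⟫|
      ≤ K * ww V₀ φ u y ^ 2 := by
  have h3 := B.above G hm h1 h2
  have h4 := taylor D.tube.toTube0 (y - ww V₀ φ u y • grad V₀ y) y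
  have h0 : V (y - ww V₀ φ u y • grad V₀ y) = 0 := (D.zero ▸ h3.1 : _ ∈ zs V)
  rwa [h0, sub_zero, sub_sub_cancel, h3.2.2, sq_abs, real_inner_smul_right] at h4

/-- the orientation of `N` relative to `S` is constant in the ball -/
lemma sign (ht : ∀ y ∈ N, ‖y‖ ≤ R - 3 / 8 → 1 / 2 ≤ |⟪grad V y, grad V₀ y⟫|) :
    (∀ y ∈ N, ‖y‖ < R - 1 / 2 → 0 < ⟪grad V y, grad V₀ y⟫) ∨
      ∀ y ∈ N, ‖y‖ < R - 1 / 2 → ⟪grad V y, grad V₀ y⟫ < 0 := by
  have T := D.tube.toTube0
  have K0 := T.K_nonneg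
  have δ0 := B.pos
  set η := min (δ / 4) (1 / (4 * (K + 1))) with hη
  have η0 : 0 < η := by positivity
  have η1 : η ≤ δ / 4 := min_le_left _ _
  have η2 : η * (4 * (K + 1)) ≤ 1 := (le_div_iff₀ (by positivity)).1 (min_le_right _ _)
  have wc : Continuous (ww V₀ φ u) := B.tube.cont.sub (B.ext_cont G.cont)
  have gc := B.tube.grad_cd.continuous
  let a : E3 → ℝ := fun y => ⟪grad V (y - ww V₀ φ u y • grad V₀ y), grad V₀ y⟫
  have ac : Continuous a :=
    (T.grad_cd.continuous.comp (continuous_id.sub (wc.smul gc))).inner gc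
  let f : E3 → ℝ := fun y => V y * ww V₀ φ u y + max (η - |ww V₀ φ u y|) 0 * a y
  have fc : Continuous f :=
    (T.cont.mul wc).add (((continuous_const.sub wc.abs).max continuous_const).mul ac)
  have fne : ∀ y ∈ ball (0 : E3) (R - 1 / 2), f y ≠ 0 := fun y hy h0 => by
    have h1 := mem_ball_zero_iff.1 hy
    simp only [f] at h0
    rcases le_total |ww V₀ φ u y| η with h2 | h2
    · have h3 : |V₀ y| ≤ δ / 2 := by linarith [(B.ww_le G y).2]
      have h4 := B.above G hm h3 (by linarith)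
      have h5 := ht _ h4.1 ((norm_sub_le _ _).trans (by linarith [B.le, h4.2.2]))
      have h6 := B.expand G hm D h3 (by linarith)
      rw [h4.2.1] at h5
      change 1 / 2 ≤ |a y| at h5
      change |V y - ww V₀ φ u y * a y| ≤ _ at h6
      rw [max_eq_left (by linarith)] at h0
      generalize ww V₀ φ u y = w at h0 h2 h6
      generalize a y = b at h0 h5 h6
      have h7 : |(V y - w * b) * w| ≤ w ^ 2 / 4 := by
        rw [abs_mul]
        refine (mul_le_mul h6 h2 (abs_nonneg _) (by positivity)).trans ?_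
        nlinarith [sq_nonneg w]
      have h8 : (V y - w * b) * w = -((w ^ 2 + (η - |w|)) * b) := by linarith
      rw [h8, abs_neg, abs_mul, abs_of_nonneg (by nlinarith [sq_nonneg w])] at h7
      have h9 : (w ^ 2 + (η - |w|)) * (1 / 2) ≤ w ^ 2 / 4 :=
        (mul_le_mul_of_nonneg_left h5 (by nlinarith [sq_nonneg w])).trans h7
      have h10 : w = 0 := pow_eq_zero_iff two_ne_zero |>.1 (by nlinarith [sq_nonneg w])
      rw [h10, abs_zero] at h9
      linarith
    · rw [max_eq_right (by linarith), zero_mul, add_zero] at h0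
      have h3 : ww V₀ φ u y = 0 := (mul_eq_zero.1 h0).elim
        (fun h4 => (B.of_mem G hm (D.zero ▸ h4 : y ∈ N) (by linarith)).2) id
      rw [h3, abs_zero] at h2
      linarith
  have fe : ∀ y ∈ N, ‖y‖ < R - 1 / 2 → f y = η * ⟪grad V y, grad V₀ y⟫ := fun y hy h1 => by
    simp only [f, a, (B.of_mem G hm hy (by linarith)).2, mul_zero, abs_zero, sub_zero, zero_add,
      zero_smul, max_eq_left η0.le]
  by_contra hcon
  push Not at hcon
  obtain ⟨⟨y, hy, h1, h2⟩, z, hz, h3, h4⟩ := hcon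
  obtain ⟨v, hv, e⟩ := (convex_ball (0 : E3) (R - 1 / 2)).isPreconnected.intermediate_value
    (mem_ball_zero_iff.2 h1) (mem_ball_zero_iff.2 h3) fc.continuousOn
    (show (0 : ℝ) ∈ Icc (f y) (f z) by
      rw [fe y hy h1, fe z hz h3]
      exact ⟨mul_nonpos_of_nonneg_of_nonpos η0.le h2, mul_nonneg η0.le h4⟩)
  exact fne v hv e

lemma close {θ η : ℝ} (θ1 : θ ≤ 1 / 4) (η1 : (K + 1) * η < c) (η2 : (K₀ + 1) * η ≤ δ / 4)
    (η3 : K * (2 * m + K₀ * η) ≤ θ)
    (ht : ∀ y ∈ N, ‖y‖ < R - 1 / 2 → 1 - θ ≤ ⟪grad V y, grad V₀ y⟫) {y : E3}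
    (hy : ‖y‖ < R - 1) (h1 : |V y| ≤ η) : |ww V₀ φ u y - V y| ≤ 4 * θ * |V y| := by
  have T := D.tube.toTube0
  have K0 := T.K_nonneg
  have K0' := B.tube.K_nonneg
  have δ0 := B.pos
  have δ1 := B.le
  have η0 : 0 ≤ η := (abs_nonneg _).trans h1
  have h2 := (line_sub T (p := y) (t := V y) (by nlinarith)).1
  have n1 : ‖V y • grad V y‖ = |V y| := by
    rw [norm_smul, T.eik y (by nlinarith), mul_one, Real.norm_eq_abs]
  have h3 := (B.of_mem G hm (D.zero ▸ h2.trans (sub_self _) : y - V y • grad V y ∈ N)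
    ((norm_sub_le _ _).trans (by nlinarith))).1
  have h4 := lip B.tube (y - V y • grad V y) y
  rw [sub_sub_cancel, n1] at h4
  have h5 : |V₀ y| ≤ m + K₀ * η := by
    have := abs_sub_abs_le_abs_sub (V₀ y) (V₀ (y - V y • grad V y))
    nlinarith
  have h6 := (B.ww_le G y).1
  have h7 := B.above G hm (y := y) (by nlinarith) (by linarith)
  have h8 := B.expand G hm D (y := y) (by nlinarith) (by linarith)
  have h9 := ht _ h7.1 ((norm_sub_le _ _).trans_lt (by nlinarith [h7.2.2]))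
  rw [h7.2.1] at h9
  have h10 : ⟪grad V (y - ww V₀ φ u y • grad V₀ y), grad V₀ y⟫ ≤ 1 := by
    have h0 : V (y - ww V₀ φ u y • grad V₀ y) = 0 := (D.zero ▸ h7.1 : _ ∈ zs V)
    refine (real_inner_le_norm _ _).trans ?_
    rw [T.eik _ (by rw [h0, abs_zero]; exact T.cpos), B.unit (by nlinarith), mul_one]
  generalize ⟪grad V (y - ww V₀ φ u y • grad V₀ y), grad V₀ y⟫ = b at h8 h9 h10
  generalize ww V₀ φ u y = w at h6 h8 ⊢
  have h11 : K * w ^ 2 ≤ θ * |w| := by
    rw [← sq_abs, sq, ← mul_assoc]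
    exact mul_le_mul_of_nonneg_right
      ((mul_le_mul_of_nonneg_left (by linarith) K0).trans η3) (abs_nonneg w)
  have h12 : |w * (1 - b)| ≤ θ * |w| := by
    rw [abs_mul, abs_of_nonneg (sub_nonneg.2 h10), mul_comm]
    exact mul_le_mul_of_nonneg_right (by linarith) (abs_nonneg w)
  have h13 : |w - V y| ≤ 2 * θ * |w| := by
    have e : w - V y = w * (1 - b) - (V y - w * b) := by ring
    rw [e]
    linarith [abs_sub (w * (1 - b)) (V y - w * b)]
  have θ0 : 0 ≤ θ := by linarith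
  have h14 : |w| ≤ 2 * |V y| := by
    have := abs_sub_abs_le_abs_sub w (V y)
    nlinarith [abs_nonneg w]
  nlinarith

end Base

lemma exists_small (a : ℝ) {b : ℝ} (hb : 0 < b) : ∀ᶠ s : ℝ in 𝓝[>] 0, a * s < b := by
  have : Tendsto (fun s : ℝ => a * s) (𝓝 0) (𝓝 (a * 0)) := tendsto_id.const_mul a
  rw [mul_zero] at this
  exact (this.eventually (gt_mem_nhds hb)).filter_mono nhdsWithin_le_nhds

theorem geo_proof (hSD : SDStmt) (hSl : SliceStmt) : GeoStmt := by
  intro r C K hr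
  obtain ⟨c, K₁, c0, hSD⟩ := hSD r C K hr
  refine ⟨c, K₁, fun S V₀ c₀ K₀ hne hT hz _ P _ _ _ ι _ Sx u u' χ kap L R q β h => ?_⟩
  obtain ⟨L₁, hSD⟩ := hSD L q
  obtain ⟨φ, δ, B⟩ := exists_base hT hz R
  have δ0 := B.pos
  have K0 := hT.K_nonneg
  have : CompleteSpace P := FiniteDimensional.complete ℝ P
  have hcp : IsCompact (S ∩ closedBall (0 : E3) (R + 1)) :=
    (isCompact_closedBall _ _).inter_left (hz ▸ isClosed_eq hT.cont continuous_const)
  obtain ⟨A, hA⟩ := banach_steinhaus (g := fun y : ↥(S ∩ closedBall (0 : E3) (R + 1)) =>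
      LinearMap.toContinuousLinearMap ((LinearMap.proj y.1).comp u')) fun b => by
    obtain ⟨A, hA⟩ := hcp.exists_bound_of_continuousOn (h.ucont' b)
    exact ⟨A, fun y => hA y.1 y.2⟩
  have hG : ∀ m : ℝ, 0 < m → ∀ᶠ x in 𝓝 (0 : P), Gr S (Sx x) V₀ (u x) R m := fun m m0 => by
    have h1 : Tendsto (fun x : P => (x, (0 : P))) (𝓝 0) (𝓝 (0, 0)) :=
      (continuous_id.prodMk continuous_const).tendsto 0
    have h2 : Tendsto (fun x : P => (|A| + 1) * ‖x‖) (𝓝 0) (𝓝 0) := by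
      simpa using (continuous_norm.tendsto (0 : P)).const_mul (|A| + 1)
    filter_upwards [h.graph, h.ucont, h1.eventually (h.ustrict 1 one_pos),
      h2.eventually (gt_mem_nhds m0)] with x h3 h4 h5 h6
    refine ⟨h3, m0.le, fun p hp h7 => ?_, h4⟩
    have h8 := h5 p hp h7
    have h9 : |u' x p| ≤ |A| * ‖x‖ := ContinuousLinearMap.le_of_opNorm_le _
      ((hA ⟨p, hp, mem_closedBall_zero_iff.2 h7⟩).trans (le_abs_self A)) x
    simp only [h.uzero p hp h7, sub_zero, one_mul] at h8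
    linarith [abs_sub_abs_le_abs_sub (u x p) (u' x p)]
  have hV : ∀ᶠ x in 𝓝 (0 : P), ∃ V, SD (Sx x) V c K₁ L₁ q := by
    obtain ⟨p, hp⟩ := hne
    filter_upwards [h.surf, h.two, h.eqn, h.bx, h.near ‖p‖ 1 one_pos] with x h1 h2 h3 h4 h5
    obtain ⟨y, hy, -⟩ := h5 p hp le_rfl
    obtain ⟨V, h6, -, h7, h8, h9⟩ := hSD _ h1 ⟨y, hy⟩ h2 h3 h4
    exact ⟨V, h6, h7, h8, fun p hp => (h9 p hp).2⟩
  have K1 : 0 ≤ K₁ := let ⟨_, hV⟩ := hV.self_of_nhds; hV.tube.toTube0.K_nonneg
  have htilt : ∀ θ : ℝ, 0 < θ → ∀ᶠ x in 𝓝 (0 : P), ∀ V, SD (Sx x) V c K₁ L₁ q →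
      ∀ y ∈ Sx x, ‖y‖ ≤ R - 3 / 8 → 1 - θ ≤ |⟪grad V y, grad V₀ y⟫| := fun θ θ0 => by
    obtain ⟨s, ⟨⟨s1, s2⟩, s3, s4⟩, s0⟩ := ((((exists_small 1
      (by norm_num : (0 : ℝ) < 1 / 8)).and (exists_small (K₁ + 1) c0)).and
      ((exists_small K₀ (by positivity : 0 < δ / 4)).and
        (exists_small (K₀ + 2) θ0))).and self_mem_nhdsWithin).exists
    have s0' : 0 < s := s0
    filter_upwards [hG (min (δ / 4) (s ^ 2)) (by positivity)] with x G V D y hy h1
    linarith [B.tilt G (min_le_left _ _) D s0' (by linarith) s2 s3.le (min_le_right _ _) hy h1]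
  have hV' : ∀ᶠ x in 𝓝 (0 : P), ∃ V, SD (Sx x) V c K₁ L₁ q ∧
      ∀ y ∈ Sx x, ‖y‖ < R - 1 / 2 → 0 < ⟪grad V y, grad V₀ y⟫ := by
    filter_upwards [hV, htilt (1 / 2) one_half_pos, hG (δ / 4) (by positivity)] with x ⟨V, D⟩ h1 G
    rcases B.sign G le_rfl D (fun y hy h2 => by linarith [h1 V D y hy h2]) with h2 | h2
    · exact ⟨V, D, h2⟩
    · refine ⟨_, D.neg, fun y hy h3 => ?_⟩
      rw [grad_neg, inner_neg_left]
      exact neg_pos.2 (h2 y hy h3)
  obtain ⟨V, hV⟩ := hV'.choice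
  have hD : ∀ᶠ x in 𝓝 (0 : P), SD (Sx x) (V x) c K₁ L₁ q := hV.mono fun x hx => hx.1
  have hz0 : zs (V 0) = S := hD.self_of_nhds.zero.trans h.zero
  have hpos : ∀ θ : ℝ, 0 < θ → ∀ᶠ x in 𝓝 (0 : P), ∀ y ∈ Sx x, ‖y‖ < R - 1 / 2 →
      1 - θ ≤ ⟪grad (V x) y, grad V₀ y⟫ := fun θ θ0 => by
    filter_upwards [hV, htilt θ θ0] with x h1 h2 y hy h3
    have := h2 _ h1.1 y hy (by linarith)
    rwa [abs_of_pos (h1.2 y hy h3)] at this
  have hχ : ∀ i, ∀ y ∈ tsupport (χ i), ‖y‖ < R - 1 := fun i y hy =>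
    mem_ball_zero_iff.1 ((h.chi i).2 hy)
  have hχc : ∀ i, HasCompactSupport (χ i) := fun i =>
    (isCompact_closedBall (0 : E3) (R - 1)).of_isClosed_subset (isClosed_tsupport _)
      ((h.chi i).2.trans ball_subset_closedBall)
  let w' : P →ₗ[ℝ] (E3 → ℝ) :=
    { toFun := fun b y => -ext V₀ φ (u' b) y
      map_add' := fun a b => funext fun y => by simp only [ext, map_add, Pi.add_apply]; ring
      map_smul' := fun a b => funext fun y => by
        simp only [ext, map_smul, Pi.smul_apply, smul_eq_mul, RingHom.id_apply]; ring }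
  refine ⟨V, fun x => ww V₀ φ (u x), w', max L L₁, hz0, ?_, ?_, fun ρ ε ε0 => ?_,
    fun i => ⟨(h.chi i).1, hχc i⟩, h.kap0, fun ε ε0 => ?_, ?_, fun b => ?_, fun ε ε0 => ?_,
    fun ε ε0 => ?_, ?_, h.beta, ?_⟩
  · exact hD.mono fun x D => ⟨D.tube.toTube0, D.tube.smooth3, fun y hy => (D.tube.b3 y hy).trans
      (mul_le_mul_of_nonneg_right (le_max_right _ _) (by positivity))⟩
  · filter_upwards [hD, h.surf] with x D h1
    exact hSl _ _ _ D.tube.toTube0 (D.zero ▸ h1)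
  · filter_upwards [hD, h.near ρ (min ε (c / 2)) (by positivity)] with x D h1 y hy h0
    obtain ⟨z, hz, h2⟩ := h1 y (hz0 ▸ h0 : y ∈ S) hy
    have h3 := infDist_le_dist_of_mem (x := y) hz
    rw [dist_comm, dist_eq_norm] at h3
    rw [D.dist y (Or.inr (by linarith [min_le_right ε (c / 2)]))]
    linarith [min_le_left ε (c / 2)]
  · choose M hM using fun i => (hχc i).exists_bound_of_continuous (h.chi i).1.continuous
    have M0 : 0 ≤ ∑ i, M i := Finset.sum_nonneg fun i _ => (norm_nonneg _).trans (hM i 0)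
    filter_upwards [hD, h.defect (ε / 2) (by positivity), hG (δ / 4) (by positivity),
      hpos (ε / 2 / (∑ i, M i + 1)) (by positivity)] with x D h1 G h2 y h0
    have hy : y ∈ Sx x := D.zero ▸ h0
    have g1 : ‖grad (V x) y‖ = 1 := D.tube.eik y (by rw [h0, abs_zero]; exact c0)
    have h3 := (abs_real_inner_le_norm (grad (V x) y) _).trans
      ((mul_le_mul_of_nonneg_left (h1 y hy) (norm_nonneg _)).trans_eq (by rw [g1, one_mul]))
    rw [← neg_neg (relV _ _ _ _), ← D.ee y hy, inner_add_right, inner_neg_right,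
      real_inner_smul_right, real_inner_smul_right, real_inner_self_eq_norm_sq, g1] at h3
    have h4 : |(∑ i, kap x i * χ i y) * (1 - ⟪grad (V x) y, grad V₀ y⟫)| ≤ ε / 2 * ‖kap x‖ := by
      by_cases h5 : ∀ i, χ i y = 0
      · simp only [h5, mul_zero, Finset.sum_const_zero, zero_mul, abs_zero]
        positivity
      · push Not at h5
        obtain ⟨i, h5⟩ := h5
        have h6 := hχ i y (subset_tsupport _ h5)
        have h7 := h2 y hy (by linarith)
        have h8 : ⟪grad (V x) y, grad V₀ y⟫ ≤ 1 := by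
          refine (real_inner_le_norm _ _).trans ?_
          rw [g1, B.unit (by linarith [(B.of_mem G le_rfl hy (by linarith)).1]), mul_one]
        have h9 : |∑ i, kap x i * χ i y| ≤ ‖kap x‖ * (∑ i, M i + 1) := by
          refine (Finset.abs_sum_le_sum_abs _ _).trans ?_
          rw [mul_add, Finset.mul_sum]
          refine (Finset.sum_le_sum fun i _ => ?_).trans (le_add_of_nonneg_right (by positivity))
          rw [abs_mul]
          exact mul_le_mul (norm_le_pi_norm (kap x) i) (hM i y) (abs_nonneg _) (norm_nonneg _)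
        rw [abs_mul, abs_of_nonneg (sub_nonneg.2 h8)]
        refine (mul_le_mul h9 (by linarith : _ ≤ ε / 2 / (∑ i, M i + 1)) (sub_nonneg.2 h8)
          (by positivity)).trans_eq ?_
        field_simp
    have h5 : ε / 2 * ‖kap x‖ ≤ ε / 2 * ‖kap x‖ * (1 + ‖y‖) ^ q :=
      le_mul_of_one_le_right (by positivity) (one_le_pow₀ (by linarith [norm_nonneg y]))
    have e : ee (V x) y - ∑ i, kap x i * χ i y = -(-(ee (V x) y * 1 ^ 2) +
        (∑ i, kap x i * χ i y) * ⟪grad (V x) y, grad V₀ y⟫) -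
        (∑ i, kap x i * χ i y) * (1 - ⟪grad (V x) y, grad V₀ y⟫) := by ring
    rw [e]
    refine (abs_sub _ _).trans ?_
    rw [abs_neg]
    exact (add_le_add h3 (h4.trans h5)).trans_eq (by ring)
  · exact h.ucont.mono fun x hx => hT.cont.sub (B.ext_cont hx)
  · exact (B.ext_cont (h.ucont' b)).neg
  · filter_upwards [h.ustrict ε ε0] with p hp i y _
    have h1 := B.ext_le (u := fun z => u p.1 z - u p.2 z - u' (p.1 - p.2) z) (by positivity) hp y
    rw [← abs_neg] at h1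
    refine le_of_eq_of_le (congrArg abs ?_) h1
    change _ - _ - -ext V₀ φ (u' (p.1 - p.2)) y = _
    simp only [ww, ext]
    ring
  · set θ := min (ε / 4) (1 / 4) with hθ
    have θ0 : 0 < θ := by positivity
    obtain ⟨η, ⟨⟨s1, s2⟩, s3⟩, s0⟩ := ((((exists_small (K₁ + 1) c0).and
      (exists_small (K₀ + 1) (by positivity : 0 < δ / 4))).and
      (exists_small (K₁ * (2 + K₀)) θ0)).and self_mem_nhdsWithin).exists
    have s0' : 0 < η := s0
    refine ⟨η, s0', ?_⟩
    filter_upwards [hD, hG (min (δ / 4) η) (by positivity), hpos θ θ0] with x D G h1 i y hy h2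
    refine (B.close G (min_le_left _ _) D (min_le_right _ _) s1 s2.le ?_ h1 (hχ i y hy) h2).trans
      (mul_le_mul_of_nonneg_right (by linarith [min_le_left (ε / 4) (1 / 4)]) (abs_nonneg _))
    refine le_trans (mul_le_mul_of_nonneg_left ?_ K1) (le_of_eq_of_le (mul_assoc _ _ _).symm s3.le)
    linarith [min_le_right (δ / 4) η]
  · intro v
    obtain ⟨b, hb⟩ := h.onto v
    refine ⟨-b, ?_⟩
    rw [← hb, hz0]
    funext i
    refine integral_congr_ae ?_
    have hS : MeasurableSet S := (hz ▸ isClosed_eq hT.cont continuous_const : IsClosed S).measurableSet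
    filter_upwards [ae_restrict_mem hS] with y hy
    by_cases h1 : χ i y = 0
    · simp only [h1, mul_zero, zero_mul]
    · change -ext V₀ φ (u' (-b)) y * _ * _ = _
      rw [B.ext_of_mem hy (by linarith [hχ i y (subset_tsupport _ h1)]), map_neg, Pi.neg_apply,
        neg_neg]
  · filter_upwards [hD, h.loj] with x D h1
    rw [D.zero, hz0]
    exact h1.trans (mul_le_mul_of_nonneg_right (le_max_left _ _) (by positivity))

end Vale.Agent.P218F.Dyn.Ge
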