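import Vale.Agent.P218F.DynSpec

/-! Normal lines and the nearest point projection of a tube function. -/

open MeasureTheory Set Filter Topology Metric
open scoped ENNReal NNReal RealInnerProductSpace

namespace Vale.Agent.P218F.Dyn

open Vale.Agent.P214 (proj divAlong)
open Vale.Agent.P218 Vale.Agent.P218.H313
open Vale.Agent.P218FT (E3)

variable {V : E3 → ℝ} {c K L : ℝ} {q : ℕ}

lemma finrank_E3 : Module.finrank ℝ E3 = 3 := by simp [E3]

lemma grad_neg (V : E3 → ℝ) : grad (fun y => -V y) = fun y => -grad V y := by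
  funext y
  refine grad_unique fun v => ?_
  rw [inner_neg_left, inner_grad, show (fun y => -V y) = -V from rfl, fderiv_neg]
  rfl

lemma fderiv_grad_neg (V : E3 → ℝ) (y : E3) :
    fderiv ℝ (grad fun y => -V y) y = -fderiv ℝ (grad V) y := by
  rw [grad_neg, show (fun y => -grad V y) = -grad V from rfl, fderiv_neg]

namespace Tube0

lemma neg (h : Tube0 V c K) : Tube0 (fun y => -V y) c K where
  cpos := h.cpos
  smooth := h.smooth.neg
  b0 := fun x => by rw [abs_neg]; exact h.b0 x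
  b1 := fun x => by rw [grad_neg]; simpa using h.b1 x
  b2 := fun x => by rw [fderiv_grad_neg, norm_neg]; exact h.b2 x
  bx := fun x => by rw [grad_neg]; simpa using h.bx x
  eik := fun x hx => by
    rw [grad_neg]
    rw [abs_neg] at hx
    simpa using h.eik x hx

/-- the normal ray in the direction of the gradient -/
lemma ray_pos (h : Tube0 V c K) {x : E3} (hx : |V x| < c) {b : ℝ} (hb : V x + b < c) :
    ∀ t ∈ Icc 0 b, grad V (x + t • grad V x) = grad V x ∧ V (x + t • grad V x) = V x + t := by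
  have hw2 : ContDiff ℝ 2 V := h.smooth
  have hg1 : ContDiff ℝ 1 (grad V) := h.grad_cd
  set e := grad V x with he
  set l : ℝ → E3 := fun t => x + t • e with hl
  have hcc : Continuous l := by rw [hl]; fun_prop
  have hcd : ∀ t, HasDerivAt l e t := by
    intro t
    have h1 : HasDerivAt (fun t : ℝ => t • e) ((1 : ℝ) • e) t := (hasDerivAt_id t).smul_const e
    rw [one_smul] at h1
    exact h1.const_add x
  have he1 : ‖e‖ = 1 := h.eik x hx
  set A : Set ℝ := {t | grad V (l t) = e ∧ V (l t) = V x + t} with hA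
  have hAc : IsClosed A := by
    rw [hA, Set.ofPred_and]
    exact (isClosed_eq (hg1.continuous.comp hcc) continuous_const).inter
      (isClosed_eq (hw2.continuous.comp hcc) (by fun_prop))
  have h0 : (0 : ℝ) ∈ A := by simp [hA, hl, he]
  have key : Icc 0 b ⊆ A := by
    refine (hAc.inter isClosed_Icc).Icc_subset_of_forall_mem_nhdsWithin h0 ?_
    rintro t ⟨⟨ht1, ht2⟩, ht3⟩
    have hct : |V (l t)| < c := by
      rw [ht2, abs_lt]
      have := abs_lt.1 hx
      constructor <;> linarith [ht3.1, ht3.2]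
    obtain ⟨ε, hε, hball⟩ := Metric.mem_nhds_iff.1
      ((h.isOpen.preimage hcc).mem_nhds (show t ∈ l ⁻¹' {x | |V x| < c} from hct))
    have hIcc : ∀ s ∈ Icc t (t + ε / 2), |V (l s)| < c := by
      intro s hs
      apply hball
      rw [mem_ball, Real.dist_eq, abs_of_nonneg (by linarith [hs.1])]
      linarith [hs.2]
    have hz : ∀ s ∈ Icc t (t + ε / 2), ‖grad V (l s) - e‖ ≤ gronwallBound 0 K 0 (s - t) := by
      apply norm_le_gronwallBound_of_norm_deriv_right_le
        (f' := fun s => fderiv ℝ (grad V) (l s) e)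
      · exact ((hg1.continuous.comp hcc).sub continuous_const).continuousOn
      · intro s hs
        have h1 : HasFDerivAt (grad V) (fderiv ℝ (grad V) (l s)) (l s) :=
          (hg1.differentiable (by norm_num) _).hasFDerivAt
        exact ((h1.comp_hasDerivAt s (hcd s)).sub_const e).hasDerivWithinAt
      · rw [ht1, sub_self, norm_zero]
      · intro s hs
        have hs' : |V (l s)| < c := hIcc s ⟨hs.1, hs.2.le⟩
        have h1 : fderiv ℝ (grad V) (l s) e = -fderiv ℝ (grad V) (l s) (grad V (l s) - e) := by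
          rw [map_sub, h.hess_grad hs', zero_sub, neg_neg]
        rw [h1, add_zero, norm_neg]
        exact (ContinuousLinearMap.le_opNorm _ _).trans
          (mul_le_mul_of_nonneg_right (h.b2 _) (norm_nonneg _))
    have hz' : ∀ s ∈ Icc t (t + ε / 2), grad V (l s) = e := by
      intro s hs
      have := hz s hs
      rw [gronwallBound_ε0_δ0] at this
      exact sub_eq_zero.1 (norm_le_zero_iff.1 this)
    have hw' : ∀ s ∈ Icc t (t + ε / 2), V (l s) = V x + s := by
      intro s hs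
      have h1 : ∀ r ∈ Icc t (t + ε / 2), HasDerivWithinAt (fun r => V (l r) - r) 0
          (Icc t (t + ε / 2)) r := by
        intro r hr
        have h2 : HasFDerivAt V (fderiv ℝ V (l r)) (l r) :=
          (hw2.differentiable (by norm_num) _).hasFDerivAt
        have h3 := (h2.comp_hasDerivAt r (hcd r)).sub (hasDerivAt_id r)
        have h4 : fderiv ℝ V (l r) e - 1 = 0 := by
          rw [← inner_grad, hz' r hr, real_inner_self_eq_norm_sq, he1]
          norm_num
        rw [h4] at h3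
        exact h3.hasDerivWithinAt
      have h5 := (convex_Icc t (t + ε / 2)).norm_image_sub_le_of_norm_hasDerivWithin_le
        (C := 0) h1 (fun r _ => by simp) (show t ∈ Icc t (t + ε / 2) from ⟨le_rfl, by linarith⟩) hs
      rw [zero_mul] at h5
      have h6 : V (l s) - s = V (l t) - t := sub_eq_zero.1 (norm_le_zero_iff.1 h5)
      linarith
    rw [mem_nhdsWithin]
    refine ⟨Iio (t + ε / 2), isOpen_Iio, mem_Iio.2 (by linarith), ?_⟩
    rintro s ⟨hs1, hs2⟩
    have hs : s ∈ Icc t (t + ε / 2) := ⟨(mem_Ioi.1 hs2).le, (mem_Iio.1 hs1).le⟩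
    exact ⟨hz' s hs, hw' s hs⟩
  intro t ht
  exact key ht

/-- **Normal lines**: `V` is affine and `∇V` is constant on them, inside the tube. -/
theorem line (h : Tube0 V c K) {x : E3} (hx : |V x| < c) {t : ℝ} (ht : |V x + t| < c) :
    grad V (x + t • grad V x) = grad V x ∧ V (x + t • grad V x) = V x + t := by
  rcases le_total 0 t with h0 | h0
  · exact h.ray_pos hx (abs_lt.1 ht).2 t ⟨h0, le_rfl⟩
  · have h1 := h.neg.ray_pos (x := x) (by rw [abs_neg]; exact hx) (b := -t)
      (by have := (abs_lt.1 ht).1; linarith) (-t) ⟨by linarith, le_rfl⟩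
    rw [grad_neg] at h1
    simp only [smul_neg, neg_smul, neg_neg, neg_inj] at h1
    exact ⟨h1.1, by linarith [h1.2]⟩

lemma V_foot (h : Tube0 V c K) {y : E3} (hy : |V y| < c) : V (foot V y) = 0 := by
  have := (h.line hy (t := -V y) (by simpa using h.cpos)).2
  rw [neg_smul, ← sub_eq_add_neg] at this
  unfold foot
  rw [this]; ring

lemma grad_foot (h : Tube0 V c K) {y : E3} (hy : |V y| < c) : grad V (foot V y) = grad V y := by
  have := (h.line hy (t := -V y) (by simpa using h.cpos)).1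
  rwa [neg_smul, ← sub_eq_add_neg] at this

lemma foot_add (V : E3 → ℝ) (y : E3) : foot V y + V y • grad V y = y := by
  unfold foot; abel

lemma foot_of_zero {p : E3} (hp : V p = 0) : foot V p = p := by
  unfold foot; rw [hp, zero_smul, sub_zero]

/-- the normal line through a point of the zero set -/
lemma line_zero (h : Tube0 V c K) {p : E3} (hp : V p = 0) {t : ℝ} (ht : |t| < c) :
    grad V (p + t • grad V p) = grad V p ∧ V (p + t • grad V p) = t ∧
      foot V (p + t • grad V p) = p := by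
  have h1 := h.line (x := p) (by rw [hp, abs_zero]; exact h.cpos) (t := t) (by rwa [hp, zero_add])
  rw [hp, zero_add] at h1
  refine ⟨h1.1, h1.2, ?_⟩
  unfold foot
  rw [h1.1, h1.2]; abel

lemma norm_sub_foot (h : Tube0 V c K) {y : E3} (hy : |V y| < c) : ‖y - foot V y‖ = |V y| := by
  unfold foot
  rw [sub_sub_cancel, norm_smul, h.eik y hy, mul_one, Real.norm_eq_abs]

lemma norm_foot_le (h : Tube0 V c K) {y : E3} (hy : |V y| < c) : ‖foot V y‖ ≤ ‖y‖ + |V y| := by
  have h1 := h.norm_sub_foot hy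
  have h2 := norm_sub_le y (y - foot V y)
  rw [sub_sub_cancel] at h2
  linarith

lemma le_norm_foot (h : Tube0 V c K) {y : E3} (hy : |V y| < c) : ‖y‖ - |V y| ≤ ‖foot V y‖ := by
  have h1 := h.norm_sub_foot hy
  have h2 := norm_add_le (y - foot V y) (foot V y)
  rw [sub_add_cancel] at h2
  linarith

lemma foot_cd (h : Tube0 V c K) : ContDiff ℝ 1 (foot V) :=
  contDiff_id.sub ((h.smooth.of_le (by norm_num)).smul h.grad_cd)

lemma hasFDerivAt_V (h : Tube0 V c K) (y : E3) : HasFDerivAt V (innerSL ℝ (grad V y)) y := by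
  have h1 := (h.diff y).hasFDerivAt
  have e : fderiv ℝ V y = innerSL ℝ (grad V y) := by
    ext v; rw [← inner_grad]; rfl
  rwa [e] at h1

lemma hasFDerivAt_grad (h : Tube0 V c K) (y : E3) :
    HasFDerivAt (grad V) (fderiv ℝ (grad V) y) y :=
  (h.grad_cd.differentiable (by norm_num) y).hasFDerivAt

/-- the derivative of the projection, `id - V Hess V - ∇V ⊗ ∇V` -/
lemma hasFDerivAt_foot (h : Tube0 V c K) (y : E3) :
    HasFDerivAt (foot V) (ContinuousLinearMap.id ℝ E3
      - (V y • fderiv ℝ (grad V) y + (innerSL ℝ (grad V y)).smulRight (grad V y))) y :=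
  (hasFDerivAt_id y).sub ((h.hasFDerivAt_V y).smul (h.hasFDerivAt_grad y))

lemma fderiv_foot_apply (h : Tube0 V c K) (y v : E3) :
    fderiv ℝ (foot V) y v
      = v - V y • fderiv ℝ (grad V) y v - ⟪grad V y, v⟫ • grad V y := by
  rw [(h.hasFDerivAt_foot y).fderiv]
  simp only [sub_apply, add_apply,
    smul_apply, ContinuousLinearMap.id_apply,
    ContinuousLinearMap.smulRight_apply, innerSL_apply_apply]
  abel

/-- the Hessian takes values in the tangent plane -/
lemma inner_hess_grad (h : Tube0 V c K) {y : E3} (hy : |V y| < c) (v : E3) :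
    ⟪fderiv ℝ (grad V) y v, grad V y⟫ = 0 := by
  rw [hess_symm h.smooth, h.hess_grad hy, inner_zero_right]

/-- the Hessian at `y` and the Hessian at the foot point: `A(foot y) (id - V A(y)) = A(y)` -/
lemma hess_foot (h : Tube0 V c K) {y : E3} (hy : |V y| < c) (v : E3) :
    fderiv ℝ (grad V) (foot V y) (v - V y • fderiv ℝ (grad V) y v) = fderiv ℝ (grad V) y v := by
  have h1 := (h.hasFDerivAt_grad (foot V y)).comp y (h.hasFDerivAt_foot y)
  have h2 : grad V =ᶠ[𝓝 y] grad V ∘ foot V := by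
    filter_upwards [h.isOpen.mem_nhds hy] with z hz using (h.grad_foot hz).symm
  have h3 := (h1.congr_of_eventuallyEq h2).fderiv
  have h4 : fderiv ℝ (grad V) (foot V y) (grad V y) = 0 := by
    rw [← h.grad_foot hy]
    exact h.hess_grad (by rw [h.V_foot hy, abs_zero]; exact h.cpos)
  conv_rhs => rw [h3]
  simp only [ContinuousLinearMap.comp_apply, sub_apply,
    add_apply, smul_apply, ContinuousLinearMap.id_apply,
    ContinuousLinearMap.smulRight_apply, innerSL_apply_apply, map_sub, map_add, map_smul, h4,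
    smul_zero, add_zero]

lemma norm_hess_sub_foot (h : Tube0 V c K) {y : E3} (hy : |V y| < c) :
    ‖fderiv ℝ (grad V) y - fderiv ℝ (grad V) (foot V y)‖ ≤ K ^ 2 * |V y| := by
  have hK := h.K_nonneg
  refine ContinuousLinearMap.opNorm_le_bound _ (by positivity) fun v => ?_
  have h1 := h.hess_foot hy v
  rw [map_sub, map_smul] at h1
  have h2 : (fderiv ℝ (grad V) y - fderiv ℝ (grad V) (foot V y)) v
      = -(V y • fderiv ℝ (grad V) (foot V y) (fderiv ℝ (grad V) y v)) := by
    rw [sub_apply]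
    exact sub_eq_iff_eq_add.2 (by rw [neg_add_eq_sub]; exact h1.symm)
  rw [h2, norm_neg, norm_smul, Real.norm_eq_abs]
  have h3 : ‖fderiv ℝ (grad V) y v‖ ≤ K * ‖v‖ :=
    (ContinuousLinearMap.le_opNorm _ _).trans (mul_le_mul_of_nonneg_right (h.b2 _) (norm_nonneg _))
  have h4 : ‖fderiv ℝ (grad V) (foot V y) (fderiv ℝ (grad V) y v)‖ ≤ K * (K * ‖v‖) :=
    (ContinuousLinearMap.le_opNorm _ _).trans (mul_le_mul (h.b2 _) h3 (norm_nonneg _) hK)
  calc |V y| * ‖fderiv ℝ (grad V) (foot V y) (fderiv ℝ (grad V) y v)‖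
      ≤ |V y| * (K * (K * ‖v‖)) := by gcongr
    _ = K ^ 2 * |V y| * ‖v‖ := by ring

/-- the defect along a normal line -/
lemma ee_foot (h : Tube0 V c K) {y : E3} (hy : |V y| < c) :
    |ee V y - ee V (foot V y)| ≤ (3 * K ^ 2 + 1 / 2) * |V y| := by
  have h1 : ee V y - ee V (foot V y)
      = tr (fderiv ℝ (grad V) y - fderiv ℝ (grad V) (foot V y)) - 1 / 2 * V y := by
    unfold ee
    rw [tr_sub, h.grad_foot hy]
    have e1 : ⟪foot V y, grad V y⟫ = ⟪y, grad V y⟫ - V y := by
      unfold foot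
      rw [inner_sub_left, real_inner_smul_left, real_inner_self_eq_norm_sq, h.eik y hy]; ring
    rw [e1]; ring
  have h2 := abs_tr_le (fderiv ℝ (grad V) y - fderiv ℝ (grad V) (foot V y))
  rw [finrank_E3] at h2
  have h3 := h.norm_hess_sub_foot hy
  have h4 := abs_sub (tr (fderiv ℝ (grad V) y - fderiv ℝ (grad V) (foot V y))) (1 / 2 * V y)
  rw [abs_mul, abs_of_pos (by norm_num : (0 : ℝ) < 1 / 2)] at h4
  rw [h1]
  push_cast at h2
  linarith

lemma abs_ee_le (h : Tube0 V c K) (y : E3) : |ee V y| ≤ 4 * K := by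
  have h2 := abs_tr_le (fderiv ℝ (grad V) y)
  rw [finrank_E3] at h2
  have h3 := h.b2 y
  have h5 := h.bx y
  have hK := h.K_nonneg
  have h4 := abs_sub (tr (fderiv ℝ (grad V) y)) (1 / 2 * ⟪y, grad V y⟫)
  rw [abs_mul, abs_of_pos (by norm_num : (0 : ℝ) < 1 / 2)] at h4
  unfold ee
  push_cast at h2
  linarith

end Tube0

namespace Tube3

lemma grad_cd2 (h : Tube3 V c K L q) : ContDiff ℝ 2 (grad V) := by
  have : ContDiff ℝ ((2 : ℕ) + 1) V := by
    have e : ((2 : ℕ) + 1 : WithTop ℕ∞) = 3 := by norm_num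
    rw [e]; exact h.smooth3
  exact_mod_cast contDiff_grad this

lemma hess_cd (h : Tube3 V c K L q) : ContDiff ℝ 1 (fderiv ℝ (grad V)) :=
  h.grad_cd2.fderiv_right (by norm_num)

lemma hasFDerivAt_hess (h : Tube3 V c K L q) (y : E3) :
    HasFDerivAt (fderiv ℝ (grad V)) (fderiv ℝ (fderiv ℝ (grad V)) y) y :=
  (h.hess_cd.differentiable (by norm_num) y).hasFDerivAt

lemma third_symm (h : Tube3 V c K L q) (y v w : E3) :
    fderiv ℝ (fderiv ℝ (grad V)) y v w = fderiv ℝ (fderiv ℝ (grad V)) y w v := by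
  have hs : IsSymmSndFDerivAt ℝ (grad V) y := by
    apply ContDiffAt.isSymmSndFDerivAt h.grad_cd2.contDiffAt
    simp
  exact hs.eq v w

lemma third_symm' (h : Tube3 V c K L q) (y u v w : E3) :
    ⟪fderiv ℝ (fderiv ℝ (grad V)) y u v, w⟫ = ⟪v, fderiv ℝ (fderiv ℝ (grad V)) y u w⟫ := by
  have h1 := ((h.hasFDerivAt_hess y).clm_apply (hasFDerivAt_const v y)).inner ℝ
    (hasFDerivAt_const w y)
  have h2 := (hasFDerivAt_const v y).inner ℝ
    ((h.hasFDerivAt_hess y).clm_apply (hasFDerivAt_const w y))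
  have e : (fun z => ⟪fderiv ℝ (grad V) z v, w⟫) = fun z => ⟪v, fderiv ℝ (grad V) z w⟫ :=
    funext fun z => hess_symm h.smooth z v w
  rw [e] at h1
  have h3 := congrArg (fun M : E3 →L[ℝ] ℝ => M u) (h1.unique h2)
  simpa using h3

/-- the Riccati equation -/
lemma riccati (h : Tube3 V c K L q) {y : E3} (hy : |V y| < c) (v : E3) :
    fderiv ℝ (fderiv ℝ (grad V)) y v (grad V y)
      = -(fderiv ℝ (grad V) y (fderiv ℝ (grad V) y v)) := by
  have h2 := (h.hasFDerivAt_hess y).clm_apply (h.toTube0.hasFDerivAt_grad y)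
  have h3 : (fun z => fderiv ℝ (grad V) z (grad V z)) =ᶠ[𝓝 y] fun _ => 0 := by
    filter_upwards [h.toTube0.isOpen.mem_nhds hy] with z hz using h.toTube0.hess_grad hz
  have h4 : HasFDerivAt (fun z => fderiv ℝ (grad V) z (grad V z)) (0 : E3 →L[ℝ] E3) y :=
    (hasFDerivAt_const (0 : E3) y).congr_of_eventuallyEq h3
  have h6 := congrArg (fun M : E3 →L[ℝ] E3 => M v) (h2.unique h4)
  simp at h6
  rw [eq_neg_iff_add_eq_zero, add_comm]
  exact h6

lemma ee_cd (h : Tube3 V c K L q) : ContDiff ℝ 1 (ee V) :=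
  ((trL E3).contDiff.comp h.hess_cd).sub (contDiff_const.mul (contDiff_id.inner ℝ h.toTube0.grad_cd))

lemma fderiv_ee (h : Tube3 V c K L q) (y v : E3) :
    fderiv ℝ (ee V) y v = tr (fderiv ℝ (fderiv ℝ (grad V)) y v)
      - 1 / 2 * (⟪y, fderiv ℝ (grad V) y v⟫ + ⟪v, grad V y⟫) := by
  have h1 := (trL E3).hasFDerivAt.comp y (h.hasFDerivAt_hess y)
  have h2 := ((hasFDerivAt_id y).inner ℝ (h.toTube0.hasFDerivAt_grad y)).const_mul (1 / 2 : ℝ)
  have h3 : HasFDerivAt (ee V) _ y := h1.sub h2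
  rw [h3.fderiv]
  simp [trL_apply]

lemma L_nonneg (h : Tube3 V c K L q) {y : E3} (hy : |V y| < c) : 0 ≤ L := by
  have h1 : 0 ≤ L * (1 + ‖y‖) ^ q := (ContinuousLinearMap.opNorm_nonneg _).trans (h.b3 y hy)
  have h2 : 0 < (1 + ‖y‖) ^ q := by positivity
  exact nonneg_of_mul_nonneg_left h1 h2

lemma norm_fderiv_ee (h : Tube3 V c K L q) {y : E3} (hy : |V y| < c) :
    ‖fderiv ℝ (ee V) y‖ ≤ (3 * L + K + 1) * (1 + ‖y‖) ^ (q + 1) := by
  have hK := h.toTube0.K_nonneg
  have hL := h.L_nonneg hy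
  refine ContinuousLinearMap.opNorm_le_bound _ (by positivity) fun v => ?_
  rw [h.fderiv_ee, Real.norm_eq_abs]
  have h1 := abs_tr_le (fderiv ℝ (fderiv ℝ (grad V)) y v)
  rw [finrank_E3] at h1
  have h2 : ‖fderiv ℝ (fderiv ℝ (grad V)) y v‖ ≤ L * (1 + ‖y‖) ^ q * ‖v‖ :=
    (ContinuousLinearMap.le_opNorm _ _).trans
      (mul_le_mul_of_nonneg_right (h.b3 y hy) (norm_nonneg _))
  have h3 : |⟪y, fderiv ℝ (grad V) y v⟫| ≤ ‖y‖ * (K * ‖v‖) :=
    (abs_real_inner_le_norm _ _).trans (mul_le_mul_of_nonneg_left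
      ((ContinuousLinearMap.le_opNorm _ _).trans
        (mul_le_mul_of_nonneg_right (h.b2 _) (norm_nonneg _))) (norm_nonneg _))
  have h4 : |⟪v, grad V y⟫| ≤ ‖v‖ := by
    have := abs_real_inner_le_norm v (grad V y)
    rwa [h.eik y hy, mul_one] at this
  have h5 := abs_sub (tr (fderiv ℝ (fderiv ℝ (grad V)) y v))
    (1 / 2 * (⟪y, fderiv ℝ (grad V) y v⟫ + ⟪v, grad V y⟫))
  rw [abs_mul, abs_of_pos (by norm_num : (0 : ℝ) < 1 / 2)] at h5
  have h6 := abs_add_le ⟪y, fderiv ℝ (grad V) y v⟫ ⟪v, grad V y⟫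
  set w := 1 + ‖y‖ with hw
  have hw1 : 1 ≤ w := one_le_one_add_norm y
  have hq : 1 ≤ w ^ q := one_le_pow₀ hw1
  have hv := norm_nonneg v
  have hy0 := norm_nonneg y
  have e1 : L * w ^ q * ‖v‖ ≤ L * w ^ (q + 1) * ‖v‖ := by
    gcongr
    omega
  have e2 : w ≤ w ^ (q + 1) := by rw [pow_succ]; nlinarith
  have e3 : ‖y‖ * (K * ‖v‖) ≤ w ^ (q + 1) * (K * ‖v‖) := by
    gcongr; linarith
  have e4 : ‖v‖ ≤ w ^ (q + 1) * ‖v‖ := by nlinarith
  push_cast at h1
  have e5 : 0 ≤ w ^ (q + 1) * (K * ‖v‖) := by positivity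
  have e6 : 0 ≤ w ^ (q + 1) * ‖v‖ := by positivity
  nlinarith

end Tube3

end Vale.Agent.P218F.Dyn
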