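import Vale.Agent.P218F.DynST3
import Vale.Agent.P218F.DynFoot

/-! The gauge and the linear estimate for a family of tube functions. -/

open MeasureTheory Set Filter Topology Metric
open scoped ENNReal NNReal RealInnerProductSpace

namespace Vale.Agent.P218F.Dyn

open Vale.Agent.P214 (proj divAlong)
open Vale.Agent.P218 Vale.Agent.P218.H313
open Vale.Agent.P218FT (E3)

set_option linter.unusedSectionVars false
set_option linter.unusedVariables false

section abstr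

/-- a rate of convergence for a closed property -/
lemma exists_rate {α : Type*} {l : Filter α} {p : ℝ → α → Prop}
    (hcl : ∀ x, IsClosed {ε | p ε x}) (h : ∀ ε > 0, ∀ᶠ x in l, p ε x) :
    ∃ e : α → ℝ, Tendsto e l (𝓝 0) ∧ ∀ᶠ x in l, 0 ≤ e x ∧ p (e x) x := by
  have hb : ∀ x, BddBelow (Ici (0 : ℝ) ∩ {ε | p ε x}) := fun x => ⟨0, fun ε hε => hε.1⟩
  have h1 : ∀ᶠ x in l, sInf (Ici (0 : ℝ) ∩ {ε | p ε x}) ∈ Ici (0 : ℝ) ∩ {ε | p ε x} := by
    filter_upwards [h 1 one_pos] with x hx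
    exact (isClosed_Ici.inter (hcl x)).csInf_mem ⟨1, zero_le_one' ℝ, hx⟩ (hb x)
  refine ⟨fun x => sInf (Ici (0 : ℝ) ∩ {ε | p ε x}), ?_, h1⟩
  refine tendsto_order.2 ⟨fun a ha => h1.mono fun x hx => ha.trans_le hx.1, fun a ha => ?_⟩
  filter_upwards [h (a / 2) (by linarith)] with x hx
  exact (csInf_le (hb x) ⟨(by linarith : (0 : ℝ) ≤ a / 2), hx⟩).trans_lt (by linarith)

variable {P F : Type*} [NormedAddCommGroup P] [NormedSpace ℝ P] [FiniteDimensional ℝ P]
  [NormedAddCommGroup F] [NormedSpace ℝ F] [FiniteDimensional ℝ F]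

/-- zeros of maps which are uniformly approximated by an onto linear map -/
lemma exists_gauge {ι : Type*} (l : Filter ι) (G : ι → P → F) (A : P →ₗ[ℝ] F)
    (hA : Function.Surjective A) (h0 : Tendsto (fun i => G i 0) l (𝓝 0))
    (h1 : ∀ ε > 0, ∃ r > 0, ∀ᶠ i in l, ∀ a ∈ closedBall (0 : P) r, ∀ b ∈ closedBall (0 : P) r,
      ‖G i a - G i b - A (a - b)‖ ≤ ε * ‖a - b‖) :
    ∃ x : ι → P, Tendsto x l (𝓝 0) ∧ ∀ᶠ i in l, G i (x i) = 0 := by
  classical
  have : CompleteSpace P := FiniteDimensional.complete ℝ P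
  have : CompleteSpace F := FiniteDimensional.complete ℝ F
  obtain ⟨g, hg⟩ := (LinearMap.toContinuousLinearMap A).exists_nonlinearRightInverse_of_surjective
    (LinearMap.range_eq_top.2 hA)
  set M := (g.nnnorm : ℝ) with hM
  have hMp : 0 < M := by exact_mod_cast hg
  obtain ⟨r, hr, h2⟩ := h1 (M⁻¹ / 2) (by positivity)
  have h3 : Tendsto (fun i => 2 * M * ‖G i 0‖) l (𝓝 0) := by
    have := (tendsto_zero_iff_norm_tendsto_zero.1 h0).const_mul (2 * M)
    rwa [mul_zero] at this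
  have h4 : ∀ᶠ i in l, ∃ a : P, ‖a‖ ≤ 2 * M * ‖G i 0‖ ∧ G i a = 0 := by
    filter_upwards [h2, h3.eventually_le_const hr] with i hi hi2
    have h5 : ApproximatesLinearOn (G i) (LinearMap.toContinuousLinearMap A) (closedBall 0 r)
        ⟨M⁻¹ / 2, by positivity⟩ := hi
    have h6 := h5.surjOn_closedBall_of_nonlinearRightInverse g (ε := 2 * M * ‖G i 0‖) (b := 0)
      (by positivity) (closedBall_subset_closedBall hi2)
    obtain ⟨a, ha, ha2⟩ := h6 (show (0 : F) ∈ _ by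
      rw [mem_closedBall, dist_zero_left]
      change _ ≤ (M⁻¹ - M⁻¹ / 2) * (2 * M * ‖G i 0‖)
      exact le_of_eq (by field_simp; ring))
    exact ⟨a, mem_closedBall_zero_iff.1 ha, ha2⟩
  refine ⟨fun i => if h : ∃ a : P, ‖a‖ ≤ 2 * M * ‖G i 0‖ ∧ G i a = 0 then h.choose else 0, ?_, ?_⟩
  · rw [tendsto_zero_iff_norm_tendsto_zero]
    refine squeeze_zero' (Eventually.of_forall fun i => norm_nonneg _) ?_ h3
    filter_upwards [h4] with i hi
    rw [dif_pos hi]
    exact hi.choose_spec.1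
  · filter_upwards [h4] with i hi
    rw [dif_pos hi]
    exact hi.choose_spec.2

/-- linear maps on a finite dimensional space are controlled by their values on a basis -/
lemma exists_basis_bound : ∃ (n : ℕ) (v : Fin n → P) (C : ℝ), 0 < C ∧
    ∀ (u : P →ₗ[ℝ] ℝ) (M : ℝ), 0 ≤ M → (∀ k, |u (v k)| ≤ M) → ∀ b, |u b| ≤ C * M * ‖b‖ := by
  obtain ⟨C, hC, h⟩ := (Module.finBasis ℝ P).exists_opNorm_le (F := ℝ)
  refine ⟨_, Module.finBasis ℝ P, C, hC, fun u M hM hu b => ?_⟩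
  have h1 := h (u := LinearMap.toContinuousLinearMap u) hM hu
  exact ((LinearMap.toContinuousLinearMap u).le_opNorm b).trans
    (mul_le_mul_of_nonneg_right h1 (norm_nonneg _))

end abstr

section pointwise

variable {V : E3 → ℝ} {c K : ℝ}

lemma Tube0.mono (h : Tube0 V c K) {K' : ℝ} (hK : K ≤ K') : Tube0 V c K' :=
  ⟨h.cpos, h.smooth, fun x => (h.b0 x).trans hK, fun x => (h.b1 x).trans hK,
    fun x => (h.b2 x).trans hK, fun x => (h.bx x).trans hK, h.eik⟩

lemma Tube0.lip (h : Tube0 V c K) (y z : E3) : |V y - V z| ≤ K * ‖y - z‖ :=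
  convex_univ.norm_image_sub_le_of_norm_fderiv_le (𝕜 := ℝ) (fun x _ => h.diff x)
    (fun x _ => by rw [← norm_grad]; exact h.b1 x) (mem_univ z) (mem_univ y)

/-- the corrected defect is the defect at the foot point, up to second order -/
lemma Tube0.dfc_foot (h : Tube0 V c K) {y : E3} (hy : |V y| < c) :
    |dfc V y - ee V (foot V y)| ≤ 3 * K ^ 3 * V y ^ 2 := by
  have hK := h.K_nonneg
  set A := fderiv ℝ (grad V) y with hA
  set B := fderiv ℝ (grad V) (foot V y) with hB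
  have h1 : A = B - V y • B.comp A := by
    ext1 v
    have := h.hess_foot hy v
    rw [map_sub, map_smul] at this
    exact this.symm
  have h2 : tr A = tr B - V y * tr (B.comp A) := by
    conv_lhs => rw [h1]
    rw [tr_sub, tr_smul]
  have h3 : ⟪foot V y, grad V y⟫ = ⟪y, grad V y⟫ - V y := by
    unfold foot
    rw [inner_sub_left, real_inner_smul_left, real_inner_self_eq_norm_sq, h.eik y hy]; ring
  have h4 : dfc V y - ee V (foot V y) = V y * tr ((A - B).comp A) := by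
    unfold dfc ee
    rw [h.grad_foot hy, h3, ← hA, ← hB, ContinuousLinearMap.sub_comp, tr_sub, h2]
    ring
  have h5 := abs_tr_le ((A - B).comp A)
  rw [finrank_E3] at h5
  have h6 : ‖(A - B).comp A‖ ≤ K ^ 2 * |V y| * K :=
    (ContinuousLinearMap.opNorm_comp_le _ _).trans
      (mul_le_mul (h.norm_hess_sub_foot hy) (h.b2 y) (norm_nonneg _) (by positivity))
  rw [h4, abs_mul, ← sq_abs (V y)]
  push_cast at h5
  calc |V y| * |tr ((A - B).comp A)| ≤ |V y| * (3 * (K ^ 2 * |V y| * K)) := by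
        gcongr; linarith
    _ = _ := by ring

/-- the defect off the zero set -/
lemma Tube0.dfc_off (h : Tube0 V c K) {g : E3 → ℝ} {a B : ℝ} {q : ℕ} (ha : 0 ≤ a)
    (hg : ∀ y z, |g y - g z| ≤ B * ‖y - z‖) (hd : ∀ y, V y = 0 → |ee V y - g y| ≤ a * (1 + ‖y‖) ^ q)
    {y : E3} (hy : |V y| < c) :
    |dfc V y - g y| ≤ (K + 3 * K ^ 3) * V y ^ 2
      + (a * (1 + K) ^ q * (1 + ‖y‖) ^ q + B * |V y|) := by
  have hK := h.K_nonneg
  have h1 := h.dfc_foot hy
  have h2 := hd _ (h.V_foot hy)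
  have h3 := hg (foot V y) y
  rw [norm_sub_rev, h.norm_sub_foot hy] at h3
  have h4 : (1 + ‖foot V y‖) ^ q ≤ (1 + K) ^ q * (1 + ‖y‖) ^ q := by
    rw [← mul_pow]
    have h5 := h.norm_foot_le hy
    have h6 := h.b0 y
    have h7 := norm_nonneg y
    exact pow_le_pow_left₀ (by positivity) (by nlinarith) q
  have h5 := mul_le_mul_of_nonneg_left h4 ha
  have h6 := abs_sub_le (dfc V y) (ee V (foot V y)) (g y)
  have h7 := abs_sub_le (ee V (foot V y)) (g (foot V y)) (g y)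
  have h8 : 0 ≤ K * V y ^ 2 := by positivity
  nlinarith

/-- a tube function which is small on a large part of the zero set of another one -/
lemma Tube0.sq_le {V₀ : E3 → ℝ} (h : Tube0 V c K) (h₀ : Tube0 V₀ c K) {R ε : ℝ} (hR : 0 < R)
    (hε : 0 ≤ ε) (hn : ∀ y, ‖y‖ ≤ R + c → V₀ y = 0 → |V y| ≤ ε) (y : E3) :
    V y ^ 2 ≤ 2 * ε ^ 2 + (2 * K ^ 2 + (K / c) ^ 2) * V₀ y ^ 2 + (K / R) ^ 2 * (1 + ‖y‖) ^ 2 := by
  have hK := h.K_nonneg
  have hc := h.cpos
  have p1 : 0 ≤ 2 * ε ^ 2 := by positivity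
  have p2 : 0 ≤ 2 * K ^ 2 * V₀ y ^ 2 := by positivity
  have p3 : 0 ≤ (K / c) ^ 2 * V₀ y ^ 2 := by positivity
  have p4 : 0 ≤ (K / R) ^ 2 * (1 + ‖y‖) ^ 2 := by positivity
  have hb := h.b0 y
  by_cases h1 : ‖y‖ ≤ R
  · by_cases h2 : |V₀ y| < c
    · have h3 := hn (foot V₀ y) ((h₀.norm_foot_le h2).trans (by linarith)) (h₀.V_foot h2)
      have h4 := h.lip y (foot V₀ y)
      rw [h₀.norm_sub_foot h2] at h4
      have h5 : |V y| ≤ ε + K * |V₀ y| := by
        have := abs_sub_abs_le_abs_sub (V y) (V (foot V₀ y))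
        linarith
      have h6 : |V y| ^ 2 ≤ (ε + K * |V₀ y|) ^ 2 := by gcongr
      rw [sq_abs] at h6
      have h7 : (ε + K * |V₀ y|) ^ 2 ≤ 2 * ε ^ 2 + 2 * K ^ 2 * |V₀ y| ^ 2 := by
        nlinarith [sq_nonneg (ε - K * |V₀ y|)]
      rw [sq_abs] at h7
      linarith
    · push Not at h2
      have h5 : |V y| ≤ K / c * |V₀ y| := by
        rw [div_mul_eq_mul_div, le_div_iff₀ hc]
        exact mul_le_mul hb h2 hc.le hK
      have h6 : |V y| ^ 2 ≤ (K / c * |V₀ y|) ^ 2 := by gcongr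
      rw [mul_pow, sq_abs, sq_abs] at h6
      linarith
  · push Not at h1
    have h5 : |V y| ≤ K / R * (1 + ‖y‖) := by
      rw [div_mul_eq_mul_div, le_div_iff₀ hR]
      exact mul_le_mul hb (by linarith) hR.le hK
    have h6 : |V y| ^ 2 ≤ (K / R * (1 + ‖y‖)) ^ 2 := by gcongr
    rw [mul_pow, sq_abs] at h6
    linarith

end pointwise

section family

variable {P : Type} [NormedAddCommGroup P] [NormedSpace ℝ P] [FiniteDimensional ℝ P] {ι : Type}
  [Fintype ι] {V w : P → E3 → ℝ} {w' : P →ₗ[ℝ] (E3 → ℝ)} {χ : ι → E3 → ℝ} {kap : P → ι → ℝ}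
  {c K L : ℝ} {q : ℕ} {β : ℝ} {J : Type} {U : Ultrafilter J} {N : J → Measure E3}
  {T : J → E3 → Submodule ℝ E3} {H : J → E3 → E3}

lemma ae_hm_zs {V : E3 → ℝ} (hV : Continuous V) : ∀ᵐ y ∂(hm (zs V)), V y = 0 :=
  ae_restrict_mem (isClosed_eq hV continuous_const).measurableSet

lemma mom_zero (h : Conv U 2 N T H (hm (zs (V 0)))) (p : ℕ) :
    ∃ M : ℝ, 0 < M ∧ ∀ᶠ s in (U : Filter J), ∫ y, (1 + ‖y‖) ^ p * rho y ∂(N s) ≤ M := by
  obtain ⟨M, hM⟩ := h.mom p
  exact ⟨|M| + 1, by positivity, hM.mono fun s hs => by linarith [le_abs_self M]⟩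

lemma DD_arith {ε δ a b M₀ M₂ r : ℝ} (hε : 0 < ε) (hM₀ : 0 < M₀) (hM₂ : 0 < M₂) (hδ : 0 ≤ δ)
    (h1 : δ ≤ 1) (h2 : δ * (8 * M₀) ≤ ε) (h3 : a ≤ M₀) (h4 : b ≤ M₂) (hr : 0 ≤ r)
    (h5 : r * M₂ ≤ ε / 4) : 2 * δ ^ 2 * a + ε / 4 + r * b < ε := by
  have e1 : 2 * δ ^ 2 * a ≤ 2 * δ ^ 2 * M₀ := by gcongr
  have e2 : r * b ≤ r * M₂ := by gcongr
  have e3 : δ ^ 2 * M₀ ≤ δ * M₀ := by
    apply mul_le_mul_of_nonneg_right _ hM₀.le
    nlinarith
  nlinarith

lemma gauge_arith {I a D ε B C M θ : ℝ} (h1 : a ^ 2 ≤ D * M) (h2 : |I| ≤ ε * B * a + C * D)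
    (hD : 0 ≤ D) (hε : 0 ≤ ε) (hε1 : ε ≤ 1) (hε2 : ε * (4 * B ^ 2 * M) ≤ θ)
    (h3 : 2 * C ^ 2 * D ≤ θ / 2) (hM : 0 ≤ M) : I ^ 2 ≤ θ * D := by
  have e1 : |I| ^ 2 ≤ (ε * B * a + C * D) ^ 2 := by gcongr
  rw [sq_abs] at e1
  have e2 : (ε * B * a + C * D) ^ 2 ≤ 2 * (ε * B) ^ 2 * a ^ 2 + 2 * C ^ 2 * D * D := by
    nlinarith [sq_nonneg (ε * B * a - C * D)]
  have e3 : 2 * (ε * B) ^ 2 * a ^ 2 ≤ 2 * (ε * B) ^ 2 * (D * M) := by gcongr
  have e4 : 2 * C ^ 2 * D * D ≤ θ / 2 * D := by gcongr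
  have e5 : 2 * (ε * B) ^ 2 * (D * M) = ε * (ε * (4 * B ^ 2 * M) / 2 * D) := by ring
  have e6 : ε * (ε * (4 * B ^ 2 * M) / 2 * D) ≤ 1 * (θ / 2 * D) := by gcongr
  linarith

namespace FT

variable (hF : FT V w w' χ kap c K L q β)
include hF

lemma tube0 : Tube0 (V 0) c K := hF.tube.self_of_nhds.toTube0

/-- the distance to the moving surface tends to zero -/
lemma DD_tendsto (h : Conv U 2 N T H (hm (zs (V 0)))) {x : J → P} (hx : Tendsto x U (𝓝 0)) :
    Tendsto (fun s => DD (N s) (V (x s)) 0) U (𝓝 0) := by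
  have h₀ := hF.tube0
  have hK := h₀.K_nonneg
  have hc := h₀.cpos
  obtain ⟨M₀, hM₀, m₀⟩ := mom_zero h 0
  obtain ⟨M₂, hM₂, m₂⟩ := mom_zero h 2
  have l0 : Tendsto (fun s => ∫ y, V 0 y ^ 2 * rho y ∂(N s)) U (𝓝 0) := by
    have h1 := h.lim_PB (h₀.cont.pow 2) (h₀.pg.b0.pow 2)
    have e : ∫ y, V 0 y ^ 2 * rho y ∂(hm (zs (V 0))) = 0 := by
      refine integral_eq_zero_of_ae ?_
      filter_upwards [ae_hm_zs h₀.cont] with y hy
      simp [hy]
    exact e ▸ h1
  refine tendsto_order.2 ⟨fun a ha => Eventually.of_forall fun s => ha.trans_le (DD_nonneg 0),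
    fun ε hε => ?_⟩
  obtain ⟨R, hR, hR2⟩ : ∃ R : ℝ, 0 < R ∧ (K / R) ^ 2 * M₂ ≤ ε / 4 := by
    have l1 : Tendsto (fun R : ℝ => (K / R) ^ 2 * M₂) atTop (𝓝 (0 ^ 2 * M₂)) :=
      ((tendsto_const_nhds.div_atTop tendsto_id).pow 2).mul_const M₂
    exact ((eventually_gt_atTop 0).and (l1.eventually_le_const (by simpa using hε))).exists
  set δ := min 1 (ε / (8 * M₀)) with hδ
  have hδp : 0 < δ := lt_min one_pos (by positivity)
  have hδ2 : δ * (8 * M₀) ≤ ε := (le_div_iff₀ (by positivity)).1 (min_le_right _ _)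
  have l2 := (l0.const_mul (2 * K ^ 2 + (K / c) ^ 2)).eventually_le_const
    (show (2 * K ^ 2 + (K / c) ^ 2) * 0 < ε / 4 by simpa using hε)
  filter_upwards [hx.eventually hF.tube, hx.eventually (hF.near (R + c) δ hδp), m₀, m₂, l2, h.sl]
    with s a1 a2 a3 a4 a5 hs
  have i0 := (hs.mom 0).const_mul (2 * δ ^ 2)
  have i1 := (int_sq hs h₀.cont h₀.pg.b0).const_mul (2 * K ^ 2 + (K / c) ^ 2)
  have i2 := (hs.mom 2).const_mul ((K / R) ^ 2)
  have i01 : Integrable (fun y => 2 * δ ^ 2 * ((1 + ‖y‖) ^ 0 * rho y)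
      + (2 * K ^ 2 + (K / c) ^ 2) * (V 0 y ^ 2 * rho y)) (N s) := i0.add i1
  have h1 : DD (N s) (V (x s)) 0 ≤ 2 * δ ^ 2 * ∫ y, (1 + ‖y‖) ^ 0 * rho y ∂(N s)
      + (2 * K ^ 2 + (K / c) ^ 2) * ∫ y, V 0 y ^ 2 * rho y ∂(N s)
      + (K / R) ^ 2 * ∫ y, (1 + ‖y‖) ^ 2 * rho y ∂(N s) := by
    rw [DD_zero_eq, ← integral_const_mul, ← integral_const_mul, ← integral_const_mul,
      ← integral_add i0 i1, ← integral_add i01 i2]
    refine integral_mono (int_sq hs a1.toTube0.cont a1.toTube0.pg.b0) (i01.add i2)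
      fun y => ?_
    have h2 := mul_le_mul_of_nonneg_right (a1.toTube0.sq_le h₀ hR hδp.le a2 y) (rho_pos y).le
    refine h2.trans (le_of_eq ?_)
    simp only [pow_zero]
    ring
  have h2 := DD_arith hε hM₀ hM₂ hδp.le (min_le_left _ _) hδ2 a3 a4 (sq_nonneg _) hR2
  linarith

lemma indep (h : Conv U 2 N T H (hm (zs (V 0)))) (k : ι → ℝ)
    (hk : ∀ᵐ y ∂(hm (zs (V 0))), cmb χ k y = 0) : k = 0 := by
  have := h.lf
  obtain ⟨b, hb⟩ := hF.onto k
  have h1 := integral_mul_cmb (μ := hm (zs (V 0))) (fun j => (hF.chi j).1.continuous)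
    (fun j => (hF.chi j).2) (hF.wcont' b) k
  have h2 : ∫ y, w' b y * cmb χ k y * rho y ∂(hm (zs (V 0))) = 0 := by
    refine integral_eq_zero_of_ae ?_
    filter_upwards [hk] with y hy
    simp [hy]
  have h3 : ∑ j, k j * k j = 0 := by
    rw [← h2, h1]
    exact Finset.sum_congr rfl fun j _ => by rw [← congrFun hb j]
  funext j
  exact mul_self_eq_zero.1
    ((Finset.sum_eq_zero_iff_of_nonneg fun j _ => mul_self_nonneg (k j)).1 h3 j (Finset.mem_univ j))

/-- the equations `w x` are bounded on the supports of the bumps -/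
lemma w_bound : ∃ B : ℝ, 0 ≤ B ∧ ∀ᶠ x in 𝓝 (0 : P), ∀ i, ∀ y ∈ tsupport (χ i), |w x y| ≤ B := by
  obtain ⟨n, v, C, hC, hv⟩ := exists_basis_bound (P := P)
  have hS : IsCompact (⋃ i, tsupport (χ i)) := isCompact_iUnion fun i => (hF.chi i).2.isCompact
  obtain ⟨B₀, hB₀⟩ := hS.exists_bound_of_continuousOn hF.wcont.self_of_nhds.continuousOn
  have hc : Continuous fun (y : E3) (k : Fin n) => w' (v k) y :=
    continuous_pi fun k => hF.wcont' (v k)
  obtain ⟨B₁, hB₁⟩ := hS.exists_bound_of_continuousOn hc.continuousOn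
  have l1 : Tendsto (fun x : P => (x, (0 : P))) (𝓝 0) (𝓝 (0, 0)) :=
    tendsto_id.prodMk_nhds tendsto_const_nhds
  refine ⟨|B₀| + C * |B₁| + 1, by positivity, ?_⟩
  filter_upwards [l1.eventually (hF.wstrict 1 one_pos), closedBall_mem_nhds (0 : P) one_pos]
    with x a1 a2 i y hy
  have hy' : y ∈ ⋃ i, tsupport (χ i) := mem_iUnion.2 ⟨i, hy⟩
  have b1 := a1 i y hy
  simp only [sub_zero, one_mul] at b1
  rw [mem_closedBall_zero_iff] at a2
  have b2 := hv ((LinearMap.proj y).comp w') |B₁| (abs_nonneg _) (fun k =>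
    ((norm_le_pi_norm (fun k => w' (v k) y) k).trans (hB₁ y hy')).trans (le_abs_self _)) x
  have b3 : |w' x y| ≤ C * |B₁| := b2.trans (mul_le_of_le_one_right (by positivity) a2)
  have b4 : |w 0 y| ≤ |B₀| := (hB₀ y hy').trans (le_abs_self _)
  have b5 := abs_add_three (w x y - w 0 y - w' x y) (w 0 y) (w' x y)
  rw [show w x y - w 0 y - w' x y + w 0 y + w' x y = w x y by ring] at b5
  linarith

lemma int_chi {μ : Measure E3} [IsFiniteMeasureOnCompacts μ] {f : E3 → ℝ} (hf : Continuous f)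
    (i : ι) : Integrable (fun y => f y * χ i y * rho y) μ :=
  ((hf.mul (hF.chi i).1.continuous).mul continuous_rho).integrable_of_hasCompactSupport
    (hF.chi i).2.mul_left.mul_right

lemma pb_chi {f : E3 → ℝ} (hf : Continuous f) (i : ι) : PB (fun y => f y * χ i y) :=
  PB.of_compact (hf.mul (hF.chi i).1.continuous) (hF.chi i).2.mul_left

/-- the linearised gauge map of a measure -/
noncomputable def lin (μ : Measure E3) [IsFiniteMeasureOnCompacts μ] (i : ι) : P →ₗ[ℝ] ℝ where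
  toFun b := ∫ y, w' b y * χ i y * rho y ∂μ
  map_add' a b := by
    rw [← integral_add (hF.int_chi (hF.wcont' a) i) (hF.int_chi (hF.wcont' b) i)]
    congr 1; ext y
    rw [map_add, Pi.add_apply]; ring
  map_smul' t b := by
    rw [RingHom.id_apply, smul_eq_mul, ← integral_const_mul]
    congr 1; ext y
    rw [map_smul, Pi.smul_apply, smul_eq_mul]; ring

lemma lin_close (h : Conv U 2 N T H (hm (zs (V 0)))) {ε : ℝ} (hε : 0 < ε) :
    ∀ᶠ s in (U : Filter J), ∀ (b : P) (i : ι), |∫ y, w' b y * χ i y * rho y ∂(N s)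
      - ∫ y, w' b y * χ i y * rho y ∂(hm (zs (V 0)))| ≤ ε * ‖b‖ := by
  have := h.lf
  obtain ⟨n, v, C, hC, hv⟩ := exists_basis_bound (P := P)
  have h1 : ∀ᶠ s in (U : Filter J), ∀ (k : Fin n) (i : ι),
      |∫ y, w' (v k) y * χ i y * rho y ∂(N s)
        - ∫ y, w' (v k) y * χ i y * rho y ∂(hm (zs (V 0)))| ≤ ε / C := by
    refine eventually_all.2 fun k => eventually_all.2 fun i => ?_
    have h2 := h.lim_PB ((hF.wcont' (v k)).mul (hF.chi i).1.continuous)
      (hF.pb_chi (hF.wcont' (v k)) i)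
    exact (Metric.tendsto_nhds.1 h2 (ε / C) (by positivity)).mono fun s hs => le_of_lt hs
  filter_upwards [h1, h.sl] with s a1 hs b i
  have := hs.mc.fin
  have h2 := hv (hF.lin (N s) i - hF.lin (hm (zs (V 0))) i) (ε / C) (by positivity)
    (fun k => a1 k i) b
  rw [mul_div_cancel₀ _ hC.ne'] at h2
  exact h2

lemma chi_bound : ∃ B : ℝ, 0 < B ∧ ∀ i y, |χ i y| ≤ B := by
  have h1 : ∀ i, ∃ B : ℝ, ∀ y, ‖χ i y‖ ≤ B := fun i =>
    (hF.chi i).2.exists_bound_of_continuous (hF.chi i).1.continuous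
  choose B hB using h1
  refine ⟨‖B‖ + 1, by positivity, fun i y => ?_⟩
  have h2 : B i ≤ ‖B‖ := (le_abs_self _).trans (norm_le_pi_norm B i)
  have h3 : |χ i y| ≤ B i := hB i y
  linarith

/-- **the gauge** -/
lemma gauge (h : Conv U 2 N T H (hm (zs (V 0)))) :
    ∃ x : J → P, Tendsto x U (𝓝 0) ∧
      ∀ᶠ s in (U : Filter J), ∀ i, ∫ y, w (x s) y * χ i y * rho y ∂(N s) = 0 := by
  have := h.lf
  obtain ⟨M₀, hM₀, m₀⟩ := mom_zero h 0
  obtain ⟨B, hB, hχ⟩ := hF.chi_bound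
  have hw0 : Continuous (w 0) := hF.wcont.self_of_nhds
  refine (exists_gauge (U : Filter J) (fun s a i => ∫ y, w a y * χ i y * rho y ∂(N s))
    (LinearMap.pi fun i => hF.lin (hm (zs (V 0))) i) hF.onto ?_ ?_).imp
    fun x hx => ⟨hx.1, hx.2.mono fun s hs i => congrFun hs i⟩
  · refine tendsto_pi_nhds.2 fun i => ?_
    have h1 := h.lim_PB (hw0.mul (hF.chi i).1.continuous) (hF.pb_chi hw0 i)
    have e : ∫ y, w 0 y * χ i y * rho y ∂(hm (zs (V 0))) = 0 := by
      refine integral_eq_zero_of_ae ?_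
      filter_upwards [ae_hm_zs hF.tube0.cont] with y hy
      by_cases hy2 : y ∈ tsupport (χ i)
      · obtain ⟨η, hη, h2⟩ := hF.wV 1 one_pos
        have h3 := h2.self_of_nhds i y hy2 (by rw [hy, abs_zero]; exact hη.le)
        rw [hy, abs_zero, mul_zero, sub_zero] at h3
        simp [abs_nonpos_iff.1 h3]
      · simp [image_eq_zero_of_notMem_tsupport hy2]
    rw [Pi.zero_apply, ← e]
    exact h1
  · intro ε hε
    have l1 := (hF.wstrict (ε / (2 * B * M₀)) (by positivity)).and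
      ((tendsto_fst.eventually hF.wcont).and (tendsto_snd.eventually hF.wcont)
        |>.filter_mono (le_of_eq (nhds_prod_eq (x := (0 : P)) (y := (0 : P)))))
    obtain ⟨r, hr, hr2⟩ := Metric.nhds_basis_closedBall.eventually_iff.1 l1
    refine ⟨r, hr, ?_⟩
    filter_upwards [hF.lin_close h (half_pos hε), m₀, h.sl] with s a1 a2 hs a ha b hb
    have := hs.mc.fin
    obtain ⟨b1, b2, b3⟩ := hr2 (x := (a, b)) (by rw [← closedBall_prod_same]; exact ⟨ha, hb⟩)
    refine (pi_norm_le_iff_of_nonneg (by positivity)).2 fun i => ?_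
    have c1 := a1 (a - b) i
    have i1 := hF.int_chi (μ := N s) b2 i
    have i2 := hF.int_chi (μ := N s) b3 i
    have i3 := hF.int_chi (μ := N s) (hF.wcont' (a - b)) i
    have i12 : Integrable (fun y => w a y * χ i y * rho y - w b y * χ i y * rho y) (N s) :=
      i1.sub i2
    have c2 : |∫ y, w a y * χ i y * rho y ∂(N s) - ∫ y, w b y * χ i y * rho y ∂(N s)
        - ∫ y, w' (a - b) y * χ i y * rho y ∂(N s)| ≤ ε / 2 * ‖a - b‖ := by
      rw [← integral_sub i1 i2, ← integral_sub i12 i3, ← Real.norm_eq_abs]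
      refine (norm_integral_le_of_norm_le ((hs.mom 0).const_mul
        (ε / (2 * B * M₀) * ‖a - b‖ * B)) (Eventually.of_forall fun y => ?_)).trans ?_
      · have e : w a y * χ i y * rho y - w b y * χ i y * rho y - w' (a - b) y * χ i y * rho y
            = (w a y - w b y - w' (a - b) y) * χ i y * rho y := by ring
        have hρ := rho_pos y
        rw [e, Real.norm_eq_abs, abs_mul, abs_mul, abs_of_pos hρ, pow_zero, one_mul]
        by_cases hy2 : y ∈ tsupport (χ i)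
        · have := b1 i y hy2
          have := hχ i y
          gcongr
        · rw [image_eq_zero_of_notMem_tsupport hy2, abs_zero, mul_zero, zero_mul]
          positivity
      · rw [integral_const_mul]
        calc _ ≤ ε / (2 * B * M₀) * ‖a - b‖ * B * M₀ := by gcongr
          _ = _ := by field_simp
    have c3 := abs_add_le (∫ y, w a y * χ i y * rho y ∂(N s) - ∫ y, w b y * χ i y * rho y ∂(N s)
        - ∫ y, w' (a - b) y * χ i y * rho y ∂(N s)) (∫ y, w' (a - b) y * χ i y * rho y ∂(N s)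
      - ∫ y, w' (a - b) y * χ i y * rho y ∂(hm (zs (V 0))))
    rw [sub_add_sub_cancel] at c3
    change |∫ y, w a y * χ i y * rho y ∂(N s) - ∫ y, w b y * χ i y * rho y ∂(N s)
      - ∫ y, w' (a - b) y * χ i y * rho y ∂(hm (zs (V 0)))| ≤ _
    linarith

/-- the exact gauge for `w` is an approximate gauge for `V` -/
lemma gauge_V (h : Conv U 2 N T H (hm (zs (V 0)))) {x : J → P} (hx : Tendsto x U (𝓝 0))
    (hg : ∀ᶠ s in (U : Filter J), ∀ i, ∫ y, w (x s) y * χ i y * rho y ∂(N s) = 0) {θ : ℝ}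
    (hθ : 0 < θ) : ∀ᶠ s in (U : Filter J), ∀ i,
      (∫ y, V (x s) y * χ i y * rho y ∂(N s)) ^ 2 ≤ θ * DD (N s) (V (x s)) 0 := by
  obtain ⟨M₀, hM₀, m₀⟩ := mom_zero h 0
  obtain ⟨B, hB, hχ⟩ := hF.chi_bound
  obtain ⟨Bw, hBw, hw⟩ := hF.w_bound
  have hK := hF.tube0.K_nonneg
  set ε := min 1 (θ / (4 * B ^ 2 * M₀)) with hε
  have hεp : 0 < ε := lt_min one_pos (by positivity)
  have hε1 : ε ≤ 1 := min_le_left _ _
  have hε2 : ε * (4 * B ^ 2 * M₀) ≤ θ := (le_div_iff₀ (by positivity)).1 (min_le_right _ _)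
  obtain ⟨η, hη, hV⟩ := hF.wV ε hεp
  set C := (Bw + K) / η ^ 2 * B with hC
  have hC0 : 0 ≤ C := by positivity
  have l1 := ((hF.DD_tendsto h hx).const_mul (2 * C ^ 2)).eventually_le_const
    (show 2 * C ^ 2 * 0 < θ / 2 by simpa using hθ)
  filter_upwards [hx.eventually hF.tube, hx.eventually hw, hx.eventually hV, hx.eventually hF.wcont,
    hg, m₀, l1, h.sl] with s a1 a2 a3 a4 a5 a6 a7 hs i
  have := hs.mc.fin
  have t := a1.toTube0
  have i1 := hF.int_chi (μ := N s) t.cont i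
  have i2 := hF.int_chi (μ := N s) a4 i
  have i3 := int_sq hs t.cont t.pg.b0
  have i4 : Integrable (fun y => |V (x s) y| * 1 * rho y) (N s) :=
    hs.integrable_PB (t.cont.abs.mul continuous_const).aestronglyMeasurable
      (t.pg.b0.norm.mul (PB.const 1))
  have b1 : (∫ y, |V (x s) y| * 1 * rho y ∂(N s)) ^ 2 ≤ DD (N s) (V (x s)) 0 * M₀ := by
    have h1 := integral_mul_sq_le (μ := N s) (a := fun y => |V (x s) y|) (b := fun _ => 1)
      (fun y => (rho_pos y).le) (by simpa only [sq_abs] using i3)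
      (by simpa only [pow_zero, one_pow] using hs.mom 0) i4
    simp only [sq_abs, one_pow] at h1
    simp only [pow_zero] at a6
    rw [← DD_zero_eq] at h1
    exact h1.trans (mul_le_mul_of_nonneg_left a6 (DD_nonneg 0))
  have b2 : |∫ y, V (x s) y * χ i y * rho y ∂(N s)|
      ≤ ε * B * ∫ y, |V (x s) y| * 1 * rho y ∂(N s) + C * DD (N s) (V (x s)) 0 := by
    rw [← sub_zero (∫ y, V (x s) y * χ i y * rho y ∂(N s)), ← a5 i, ← integral_sub i1 i2,
      DD_zero_eq, ← integral_const_mul, ← integral_const_mul,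
      ← integral_add (i4.const_mul _) (i3.const_mul _), ← Real.norm_eq_abs]
    refine norm_integral_le_of_norm_le ((i4.const_mul _).add (i3.const_mul _))
      (Eventually.of_forall fun y => ?_)
    have e : V (x s) y * χ i y * rho y - w (x s) y * χ i y * rho y
        = -((w (x s) y - V (x s) y) * χ i y * rho y) := by ring
    have hρ := rho_pos y
    have c0 := hχ i y
    rw [e, norm_neg, Real.norm_eq_abs, abs_mul, abs_mul, abs_of_pos hρ]
    have p1 : 0 ≤ ε * B * (|V (x s) y| * 1 * rho y) := by positivity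
    have p2 : 0 ≤ C * (V (x s) y ^ 2 * rho y) := by positivity
    by_cases hy2 : y ∈ tsupport (χ i)
    · by_cases hy3 : |V (x s) y| ≤ η
      · have c1 := a3 i y hy2 hy3
        have c2 : |w (x s) y - V (x s) y| * |χ i y| * rho y ≤ ε * |V (x s) y| * B * rho y := by
          gcongr
        linarith
      · push Not at hy3
        have c1 : |w (x s) y - V (x s) y| ≤ (Bw + K) / η ^ 2 * V (x s) y ^ 2 := by
          have d1 := abs_sub (w (x s) y) (V (x s) y)
          have d2 := a2 i y hy2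
          have d3 := t.b0 y
          have d4 : η ^ 2 ≤ |V (x s) y| ^ 2 := by gcongr
          rw [sq_abs] at d4
          rw [div_mul_eq_mul_div, le_div_iff₀ (by positivity)]
          exact mul_le_mul (by linarith) d4 (by positivity) (by positivity)
        have c2 : |w (x s) y - V (x s) y| * |χ i y| * rho y
            ≤ (Bw + K) / η ^ 2 * V (x s) y ^ 2 * B * rho y := by gcongr
        have c3 : (Bw + K) / η ^ 2 * V (x s) y ^ 2 * B * rho y = C * (V (x s) y ^ 2 * rho y) := by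
          rw [hC]; ring
        linarith
    · rw [image_eq_zero_of_notMem_tsupport hy2, abs_zero, mul_zero, zero_mul]
      linarith
  exact gauge_arith b1 b2 (DD_nonneg 0) hεp.le hε1 hε2 a7 hM₀.le

/-- the defect off the zero sets -/
lemma defect_off : ∃ (e : P → ℝ) (B : ℝ), 0 ≤ B ∧ Tendsto e (𝓝 0) (𝓝 0) ∧ ∀ᶠ x in 𝓝 (0 : P),
    0 ≤ e x ∧ ∀ y, |V x y| < c → |dfc (V x) y - cmb χ (kap x) y| ≤ (K + 3 * K ^ 3) * V x y ^ 2
      + (e x * ‖kap x‖ * (1 + K) ^ q * (1 + ‖y‖) ^ q + B * ‖kap x‖ * |V x y|) := by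
  obtain ⟨e, he, he2⟩ := exists_rate (l := 𝓝 (0 : P)) (p := fun ε x => ∀ y, V x y = 0 →
    |ee (V x) y - ∑ i, kap x i * χ i y| ≤ ε * ‖kap x‖ * (1 + ‖y‖) ^ q) (fun x => by
      simp only [Set.ofPred_forall]
      exact isClosed_iInter fun y => isClosed_iInter fun _ =>
        isClosed_le continuous_const (by fun_prop)) hF.defect
  obtain ⟨B, hB, hb⟩ := cmb_bounds (fun j => (hF.chi j).1) (fun j => (hF.chi j).2)
  refine ⟨e, B, hB.le, he, ?_⟩
  filter_upwards [he2, hF.tube] with x a1 a2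
  refine ⟨a1.1, fun y hy => a2.toTube0.dfc_off (mul_nonneg a1.1 (norm_nonneg _))
    (fun y z => ?_) a1.2 hy⟩
  exact convex_univ.norm_image_sub_le_of_norm_fderiv_le (𝕜 := ℝ)
    (fun x _ => (cmb_contDiff (fun j => (hF.chi j).1) _).differentiable (by norm_num) x)
    (fun x _ => by rw [← norm_grad]; exact (hb _ x).2) (mem_univ z) (mem_univ y)

end FT

lemma eta_le {μ : Measure E3} {T : E3 → Submodule ℝ E3} {H : E3 → E3} (hs : GSlice 2 μ T H)
    {W : E3 → ℝ} (hW : Tube0 W c K) (a b : ℝ) {M : ℝ}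
    (hM : ∫ y, (1 + ‖y‖) ^ (2 * q) * rho y ∂μ ≤ M) :
    ∫ y, (a * (1 + ‖y‖) ^ q + b * |W y|) ^ 2 * rho y ∂μ
      ≤ 2 * a ^ 2 * M + 2 * b ^ 2 * DD μ W 0 := by
  have i1 := (hs.mom (2 * q)).const_mul (2 * a ^ 2)
  have i2 := (int_sq hs hW.cont hW.pg.b0).const_mul (2 * b ^ 2)
  have h1 : ∫ y, (a * (1 + ‖y‖) ^ q + b * |W y|) ^ 2 * rho y ∂μ
      ≤ 2 * a ^ 2 * ∫ y, (1 + ‖y‖) ^ (2 * q) * rho y ∂μ + 2 * b ^ 2 * DD μ W 0 := by
    rw [DD_zero_eq, ← integral_const_mul, ← integral_const_mul, ← integral_add i1 i2]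
    refine integral_mono_of_nonneg (Eventually.of_forall fun y =>
      mul_nonneg (sq_nonneg _) (rho_pos y).le) (i1.add i2) (Eventually.of_forall fun y => ?_)
    have h2 : (a * (1 + ‖y‖) ^ q + b * |W y|) ^ 2
        ≤ 2 * a ^ 2 * (1 + ‖y‖) ^ (2 * q) + 2 * b ^ 2 * W y ^ 2 := by
      rw [← sq_abs (W y), mul_comm 2 q, pow_mul]
      nlinarith [sq_nonneg (a * (1 + ‖y‖) ^ q - b * |W y|)]
    exact (mul_le_mul_of_nonneg_right h2 (rho_pos y).le).trans (le_of_eq (by ring))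
  have h2 : 2 * a ^ 2 * ∫ y, (1 + ‖y‖) ^ (2 * q) * rho y ∂μ ≤ 2 * a ^ 2 * M := by gcongr
  linarith

end family

lemma DD_zero_le_one {μ : Measure E3} {T : E3 → Submodule ℝ E3} {H : E3 → E3}
    (hs : GSlice 2 μ T H) {W : E3 → ℝ} (hW : PG W) : DD μ W 0 ≤ DD μ W 1 := by
  rw [DD_eq, DD_eq]
  refine integral_mono (int_DD hs hW 0) (int_DD hs hW 1) fun y => ?_
  have h1 := one_le_wt 1 y
  have h2 : wt 0 y = 1 := by simp [wt]
  have h3 := rho_pos y
  simp only [h2]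
  gcongr

/-- **ST14** -/
theorem st14_proof : ST14Stmt := by
  intro c K
  by_cases hcK : 0 < c ∧ 0 ≤ K
  swap
  · exact ⟨1, 0, one_pos, fun P _ _ _ ι _ V w w' χ kap L q β hF =>
      absurd ⟨hF.tube0.cpos, hF.tube0.K_nonneg⟩ hcK⟩
  obtain ⟨hc, hK⟩ := hcK
  obtain ⟨ε₀, R₀, hε₀, -, hest⟩ := est (E := E3) (m := 2) (K := K + 3 * K ^ 3) finrank_E3 hc
    (by positivity)
  refine ⟨ε₀, R₀, hε₀, fun P _ _ _ ι _ V w w' χ kap L q β hF U N T H h R A hR hA => ?_⟩
  obtain ⟨x, hx, hg⟩ := hF.gauge h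
  obtain ⟨e, B, hB, he, hd⟩ := hF.defect_off
  obtain ⟨M, hM, m₀⟩ := mom_zero h (2 * q)
  have hk : Tendsto (fun s => kap (x s)) U (𝓝 0) := hF.kap0.comp hx
  obtain ⟨C, -, hC⟩ := hest U N T H _ h (fun s => V (x s)) (fun s => kap (x s))
    (fun s y => e (x s) * ‖kap (x s)‖ * (1 + K) ^ q * (1 + ‖y‖) ^ q
      + B * ‖kap (x s)‖ * |V (x s) y|) χ (fun j => (hF.chi j).1) (fun j => (hF.chi j).2)
    (hF.indep h) (by
      filter_upwards [hx.eventually hF.tube, hx.eventually hd] with s a1 a2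
      have t := a1.toTube0
      have := t.cont
      have := a2.1
      refine ⟨t.mono (by have : 0 ≤ K ^ 3 := by positivity
                         linarith), by fun_prop, ?_, fun y => by positivity, a2.2⟩
      exact ((((PB.const 1).add PB.id'.norm).pow q).const_mul _).add (t.pg.b0.norm.const_mul _))
    hk (fun θ hθ => by
      have l1 := (((he.comp hx).pow 2).mul_const (2 * ((1 + K) ^ q) ^ 2 * M)).eventually_le_const
        (show 0 ^ 2 * (2 * ((1 + K) ^ q) ^ 2 * M) < θ by simpa using hθ)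
      have l2 := ((hk.norm.pow 2).const_mul (2 * B ^ 2)).eventually_le_const
        (show 2 * B ^ 2 * ‖(0 : ι → ℝ)‖ ^ 2 < θ by simpa using hθ)
      filter_upwards [hx.eventually hF.tube, m₀, l1, l2, h.sl] with s a1 a2 a3 a4 hs
      refine (eta_le hs a1.toTube0 _ _ a2).trans ?_
      have b1 := mul_le_mul_of_nonneg_right a3 (sq_nonneg ‖kap (x s)‖)
      have b2 := mul_le_mul_of_nonneg_right a4 (DD_nonneg (μ := N s) (W := V (x s)) 0)
      simp only [Function.comp] at b1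
      nlinarith)
    (fun θ hθ => hF.gauge_V h hx hg hθ) R ε₀ hR le_rfl ⟨A, hA⟩
  refine ⟨x, C, hx, ?_⟩
  filter_upwards [hC, hx.eventually hF.tube, h.sl] with s a1 a2 hs
  have := DD_zero_le_one hs a2.toTube0.pg
  linarith

end Vale.Agent.P218F.Dyn
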