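import Vale.Agent.P218F.DynFoot

/-! ST5: extension of the tangent field to the tube. -/

open MeasureTheory Set Filter Topology Metric
open scoped ENNReal NNReal RealInnerProductSpace

namespace Vale.Agent.P218F.Dyn

open Vale.Agent.P214 (proj divAlong)
open Vale.Agent.P218 Vale.Agent.P218.H313
open Vale.Agent.P218FT (E3)

variable {V : E3 → ℝ} {c K L : ℝ} {q : ℕ} {B : E3 → E3} {g : E3 → ℝ}

/-- the trace along a plane which is close to `ν^⊥` -/
lemma tr_proj_est (M : E3 →L[ℝ] E3) {ν : E3} (hν : ‖ν‖ = 1) (h0 : ⟪M ν, ν⟫ = 0) {δ : ℝ}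
    (h1 : ∀ v, |⟪M ν, v⟫ + ⟪M v, ν⟫| ≤ δ * ‖v‖) (T : Submodule ℝ E3)
    (hT : Module.finrank ℝ T = 2) :
    |tr ((proj T).comp M) - tr M| ≤ δ * ‖proj T ν‖ + ‖M‖ * ‖proj T ν‖ ^ 2 := by
  obtain ⟨n, hn1, hnT, hnφ, hn⟩ := H63.exists_normal (m := 2) finrank_E3 hT
  have e0 : tr ((proj T).comp M) = tr M - ⟪M n, n⟫ := by
    have h1 : (proj T).comp M = M - ((innerSL ℝ n).comp M).smulRight n := by
      ext v
      simp [hn]
    rw [h1, tr_sub]
    congr 1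
    have h2 := tr_comp_smulRight (ContinuousLinearMap.id ℝ E3) ((innerSL ℝ n).comp M) n
    rw [ContinuousLinearMap.id_comp] at h2
    rw [h2]
    simp [real_inner_comm]
  set a := ⟪n, ν⟫ with ha
  set v := n - a • ν with hv
  have e2 : ‖proj T ν‖ = ‖v‖ := by
    have e3 : ‖proj T ν‖ ^ 2 = ‖v‖ ^ 2 := by
      rw [H63.norm_proj_sq hn1 hn, hv, H63.norm_sub_sq' hn1 hν, hν]; norm_num
    exact (pow_left_inj₀ (norm_nonneg _) (norm_nonneg _) two_ne_zero).1 e3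
  have ha1 : |a| ≤ 1 := by
    have := abs_real_inner_le_norm n ν
    rwa [hn1, hν, mul_one] at this
  have e4 : n = a • ν + v := by rw [hv]; abel
  have e5 : ⟪M n, n⟫ = a * (⟪M ν, v⟫ + ⟪M v, ν⟫) + ⟪M v, v⟫ := by
    conv_lhs => rw [e4]
    simp only [map_add, map_smul, inner_add_left, inner_add_right, real_inner_smul_left,
      real_inner_smul_right, h0]
    ring
  have e6 : |⟪M v, v⟫| ≤ ‖M‖ * ‖v‖ ^ 2 := by
    refine (abs_real_inner_le_norm _ _).trans ?_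
    rw [sq, ← mul_assoc]
    exact mul_le_mul_of_nonneg_right (M.le_opNorm v) (norm_nonneg _)
  have e7 : |a * (⟪M ν, v⟫ + ⟪M v, ν⟫)| ≤ δ * ‖v‖ := by
    rw [abs_mul]
    exact (mul_le_of_le_one_left (abs_nonneg _) ha1).trans (h1 v)
  rw [e0, e2, sub_sub_cancel_left, abs_neg, e5]
  exact (abs_add_le _ _).trans (add_le_add e7 e6)

lemma tr_smulRight (u w : E3) (A : E3 →L[ℝ] E3) :
    tr (A.comp ((innerSL ℝ u).smulRight w)) = ⟪u, A w⟫ := tr_comp_smulRight A _ w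

/-- what is used of the tangent field -/
structure FD (V : E3 → ℝ) (B : E3 → E3) (g : E3 → ℝ) : Prop where
  cd : ContDiff ℝ 1 B
  tan : ∀ y, V y = 0 → ⟪B y, grad V y⟫ = 0
  div : ∀ y, V y = 0 →
    tr (fderiv ℝ B y) - ⟪fderiv ℝ B y (grad V y), grad V y⟫ - 1 / 2 * ⟪y, B y⟫ = 1 - g y

/-- the first extension -/
noncomputable def Y0 (V : E3 → ℝ) (B : E3 → E3) (y : E3) : E3 :=
  B (foot V y) + V y • fderiv ℝ (grad V) y (B (foot V y))

/-- the derivative of the first extension -/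
noncomputable def M0 (V : E3 → ℝ) (B : E3 → E3) (y : E3) : E3 →L[ℝ] E3 :=
  (fderiv ℝ B (foot V y)).comp (fderiv ℝ (foot V) y)
    + (V y • (fderiv ℝ (fderiv ℝ (grad V)) y (B (foot V y))
        + (fderiv ℝ (grad V) y).comp ((fderiv ℝ B (foot V y)).comp (fderiv ℝ (foot V) y)))
      + (innerSL ℝ (grad V y)).smulRight (fderiv ℝ (grad V) y (B (foot V y))))

lemma Y0_cd (h : Tube3 V c K L q) (hB : FD V B g) : ContDiff ℝ 1 (Y0 V B) :=
  (hB.cd.comp h.toTube0.foot_cd).add ((h.smooth.of_le (by norm_num)).smul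
    (h.hess_cd.clm_apply (hB.cd.comp h.toTube0.foot_cd)))

lemma hasFDerivAt_Y0 (h : Tube3 V c K L q) (hB : FD V B g) (y : E3) :
    HasFDerivAt (Y0 V B) (M0 V B y) y := by
  have h1 : HasFDerivAt (fun z => B (foot V z))
      ((fderiv ℝ B (foot V y)).comp (fderiv ℝ (foot V) y)) y :=
    (hB.cd.differentiable (by norm_num) _).hasFDerivAt.comp y
      (h.toTube0.foot_cd.differentiable (by norm_num) y).hasFDerivAt
  have h2 := (h.hasFDerivAt_hess y).clm_apply h1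
  have h3 := h1.add ((h.toTube0.hasFDerivAt_V y).smul h2)
  refine h3.congr_fderiv ?_
  ext1 v
  simp only [M0, add_apply, smul_apply, ContinuousLinearMap.comp_apply,
    ContinuousLinearMap.flip_apply, ContinuousLinearMap.smulRight_apply]
  rw [h.third_symm y v, add_comm (fderiv ℝ (grad V) y _)]

lemma inner_b (h : Tube0 V c K) (hB : FD V B g) {y : E3} (hy : |V y| < c) :
    ⟪B (foot V y), grad V y⟫ = 0 := by
  rw [← h.grad_foot hy]; exact hB.tan _ (h.V_foot hy)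

lemma inner_Y0 (h : Tube0 V c K) (hB : FD V B g) {y : E3} (hy : |V y| < c) :
    ⟪Y0 V B y, grad V y⟫ = 0 := by
  rw [Y0, inner_add_left, real_inner_smul_left, inner_b h hB hy, h.inner_hess_grad hy]; ring

/-- the exact divergence of the first extension -/
lemma tr_M0 (h : Tube3 V c K L q) (hB : FD V B g) {y : E3} (hy : |V y| < c) :
    tr (M0 V B y) - 1 / 2 * ⟪y, Y0 V B y⟫ = 1 - g (foot V y)
      + V y * fderiv ℝ (ee V) y (B (foot V y))
      - V y ^ 2 * tr ((fderiv ℝ (grad V) y).comp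
        ((fderiv ℝ B (foot V y)).comp (fderiv ℝ (grad V) y))) := by
  have h0 := h.toTube0
  have e1 := hB.div _ (h0.V_foot hy)
  rw [h0.grad_foot hy] at e1
  have e2 := inner_b h0 hB hy
  have e3 := h0.inner_hess_grad hy
  have e5 : ⟪y, B (foot V y)⟫ = ⟪foot V y, B (foot V y)⟫ := by
    have e4 : ⟪grad V y, B (foot V y)⟫ = 0 := by rw [real_inner_comm, e2]
    generalize B (foot V y) = b at e4
    rw [foot, inner_sub_left, real_inner_smul_left, e4]; ring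
  rw [M0, Y0, h.fderiv_ee, (h0.hasFDerivAt_foot y).fderiv]
  set A := fderiv ℝ (grad V) y
  set B' := fderiv ℝ B (foot V y)
  set b := B (foot V y)
  set ν := grad V y
  have e6 : tr ((innerSL ℝ ν).smulRight (A b)) = 0 := by
    have := tr_smulRight ν (A b) (ContinuousLinearMap.id ℝ E3)
    rw [ContinuousLinearMap.id_comp] at this
    rw [this, ContinuousLinearMap.id_apply, real_inner_comm, e3]
  have e7 : tr (A.comp (B'.comp ((innerSL ℝ ν).smulRight ν))) = 0 := by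
    rw [← ContinuousLinearMap.comp_assoc, tr_smulRight, ContinuousLinearMap.comp_apply,
      real_inner_comm, e3]
  simp only [ContinuousLinearMap.comp_sub, ContinuousLinearMap.comp_add,
    ContinuousLinearMap.comp_smul, ContinuousLinearMap.comp_id, tr_add, tr_sub, tr_smul, e6, e7,
    tr_smulRight, inner_add_right, real_inner_smul_right, e5, e2]
  rw [tr_comm B' A, real_inner_comm (B' ν) ν]
  linarith

lemma M0_grad (h : Tube3 V c K L q) {y : E3} (hy : |V y| < c) :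
    M0 V B y (grad V y) = fderiv ℝ (grad V) y (B (foot V y))
      - V y • fderiv ℝ (grad V) y (fderiv ℝ (grad V) y (B (foot V y))) := by
  have h0 := h.toTube0
  have e1 : fderiv ℝ (foot V) y (grad V y) = 0 := by
    rw [h0.fderiv_foot_apply, h0.hess_grad hy, real_inner_self_eq_norm_sq, h.eik y hy]; simp
  simp only [M0, add_apply, smul_apply, ContinuousLinearMap.comp_apply,
    ContinuousLinearMap.smulRight_apply, e1, map_zero, h.riccati hy, innerSL_apply_apply,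
    real_inner_self_eq_norm_sq, h.eik y hy]
  simp only [one_pow, one_smul, add_zero, zero_add, smul_neg]
  abel

lemma inner_M0 (h : Tube3 V c K L q) (hB : FD V B g) {y : E3} (hy : |V y| < c) (v : E3) :
    ⟪M0 V B y v, grad V y⟫ = -⟪Y0 V B y, fderiv ℝ (grad V) y v⟫ := by
  have h0 := h.toTube0
  have h1 := (hasFDerivAt_Y0 h hB y).inner ℝ (h0.hasFDerivAt_grad y)
  have h3 : (fun z => ⟪Y0 V B z, grad V z⟫) =ᶠ[𝓝 y] fun _ => (0 : ℝ) := by
    filter_upwards [h0.isOpen.mem_nhds hy] with z hz using inner_Y0 h0 hB hz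
  have h4 : HasFDerivAt (fun z => ⟪Y0 V B z, grad V z⟫) (0 : E3 →L[ℝ] ℝ) y :=
    (hasFDerivAt_const (0 : ℝ) y).congr_of_eventuallyEq h3
  have h6 := congrArg (fun M : E3 →L[ℝ] ℝ => M v) (h1.unique h4)
  simp at h6
  linarith

/-- bounds at a point of the tube -/
structure Bd (V : E3 → ℝ) (B : E3 → E3) (y : E3) (Z : ℝ) : Prop where
  one : 1 ≤ Z
  pos : ‖y‖ ≤ Z
  val : |V y| ≤ Z
  hess : ‖fderiv ℝ (grad V) y‖ ≤ Z
  third : ‖fderiv ℝ (fderiv ℝ (grad V)) y‖ ≤ Z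
  e0 : |ee V y| ≤ Z
  e1 : ‖fderiv ℝ (ee V) y‖ ≤ Z
  b0 : ‖B (foot V y)‖ ≤ Z
  b1 : ‖fderiv ℝ B (foot V y)‖ ≤ Z

lemma app_le {F G : Type*} [NormedAddCommGroup F] [NormedSpace ℝ F] [NormedAddCommGroup G]
    [NormedSpace ℝ G] {A : F →L[ℝ] G} {v : F} {a b : ℝ} (hA : ‖A‖ ≤ a) (hv : ‖v‖ ≤ b) :
    ‖A v‖ ≤ a * b :=
  (A.le_opNorm v).trans (mul_le_mul hA hv (norm_nonneg _) ((norm_nonneg _).trans hA))

lemma comp_le {A A' : E3 →L[ℝ] E3} {a b : ℝ} (hA : ‖A‖ ≤ a) (hA' : ‖A'‖ ≤ b) :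
    ‖A.comp A'‖ ≤ a * b :=
  (A.opNorm_comp_le A').trans (mul_le_mul hA hA' (norm_nonneg _) ((norm_nonneg _).trans hA))

lemma smul_le {F : Type*} [NormedAddCommGroup F] [NormedSpace ℝ F] {t : ℝ} {v : F} {a b : ℝ}
    (ht : |t| ≤ a) (hv : ‖v‖ ≤ b) : ‖t • v‖ ≤ a * b := by
  rw [norm_smul, Real.norm_eq_abs]
  exact mul_le_mul ht hv (norm_nonneg _) ((abs_nonneg _).trans ht)

lemma inner_le {u v : E3} {a b : ℝ} (hu : ‖u‖ ≤ a) (hv : ‖v‖ ≤ b) : |⟪u, v⟫| ≤ a * b :=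
  (abs_real_inner_le_norm _ _).trans (mul_le_mul hu hv (norm_nonneg _) ((norm_nonneg _).trans hu))

lemma mul_le' {s t a b : ℝ} (hs : |s| ≤ a) (ht : |t| ≤ b) : |s * t| ≤ a * b := by
  rw [abs_mul]
  exact mul_le_mul hs ht (abs_nonneg _) ((abs_nonneg _).trans hs)

lemma smulRight_le {F : Type*} [NormedAddCommGroup F] [NormedSpace ℝ F] {l : E3 →L[ℝ] ℝ} {v : F}
    {a b : ℝ} (hl : ‖l‖ ≤ a) (hv : ‖v‖ ≤ b) : ‖l.smulRight v‖ ≤ a * b := by
  rw [ContinuousLinearMap.norm_smulRight_apply]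
  exact mul_le_mul hl hv (norm_nonneg _) ((norm_nonneg _).trans hl)

lemma abs_tr_le3 {A : E3 →L[ℝ] E3} {a : ℝ} (hA : ‖A‖ ≤ a) : |tr A| ≤ 3 * a := by
  have := abs_tr_le A
  rw [finrank_E3] at this
  push_cast at this
  linarith

lemma comp_proj_le (T : Submodule ℝ E3) {A : E3 →L[ℝ] E3} {a : ℝ} (hA : ‖A‖ ≤ a) :
    |tr ((proj T).comp A)| ≤ 3 * a := by
  have := comp_le (H552.norm_proj_le T) hA
  rw [one_mul] at this
  exact abs_tr_le3 this

namespace Bd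

variable {y : E3} {Z : ℝ}

lemma pw (hb : Bd V B y Z) {m n : ℕ} (h : m ≤ n) : Z ^ m ≤ Z ^ n := pow_le_pow_right₀ hb.one h

lemma Y0_le (hb : Bd V B y Z) : ‖Y0 V B y‖ ≤ 2 * Z ^ 3 := by
  have h1 := smul_le hb.val (app_le hb.hess hb.b0)
  have h2 := hb.pw (show 1 ≤ 3 by norm_num)
  have h3 := norm_add_le (B (foot V y)) (V y • fderiv ℝ (grad V) y (B (foot V y)))
  have h4 := hb.b0
  rw [Y0]
  nlinarith

lemma M0_le (hb : Bd V B y Z) (h : Tube0 V c K) (hy : |V y| < c) : ‖M0 V B y‖ ≤ 8 * Z ^ 5 := by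
  have hν : ‖innerSL ℝ (grad V y)‖ ≤ 1 := by rw [innerSL_apply_norm, h.eik y hy]
  have h1 : ‖fderiv ℝ (foot V) y‖ ≤ 3 * Z ^ 2 := by
    rw [(h.hasFDerivAt_foot y).fderiv]
    refine (norm_sub_le _ _).trans ?_
    have e1 : ‖ContinuousLinearMap.id ℝ E3‖ ≤ 1 := ContinuousLinearMap.norm_id_le
    have e2 := smul_le hb.val hb.hess
    have e3 := smulRight_le hν (h.eik y hy).le
    have e4 := norm_add_le (V y • fderiv ℝ (grad V) y)
      ((innerSL ℝ (grad V y)).smulRight (grad V y))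
    have e5 := hb.pw (show 0 ≤ 2 by norm_num)
    nlinarith
  have h2 := comp_le hb.b1 h1
  have h3 := comp_le hb.hess h2
  have h4 : ‖fderiv ℝ (fderiv ℝ (grad V)) y (B (foot V y))‖ ≤ Z * Z := app_le hb.third hb.b0
  have h5 := smul_le hb.val ((norm_add_le _ _).trans (add_le_add h4 h3))
  have h6 := smulRight_le hν (app_le hb.hess hb.b0)
  have h7 := (norm_add_le _ _).trans (add_le_add h2 ((norm_add_le _ _).trans (add_le_add h5 h6)))
  refine h7.trans ?_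
  have e1 := hb.pw (show 3 ≤ 5 by norm_num)
  have e2 := hb.pw (show 2 ≤ 5 by norm_num)
  nlinarith

end Bd

/-- the divergence of the first extension along a plane -/
lemma div_Y0 (h : Tube3 V c K L q) (hB : FD V B g) {y : E3} (hy : |V y| < c) {Z : ℝ}
    (hb : Bd V B y Z) (T : Submodule ℝ E3) (hT : Module.finrank ℝ T = 2) :
    |divAlong T (Y0 V B) y - 1 / 2 * ⟪y, Y0 V B y⟫ - (1 - g (foot V y))
      - V y * fderiv ℝ (ee V) y (B (foot V y))|
      ≤ 12 * Z ^ 5 * (V y ^ 2 + ‖proj T (grad V y)‖ ^ 2) := by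
  have h0 := h.toTube0
  have e1 := tr_M0 h hB hy
  have e2 := tr_proj_est (M0 V B y) (h.eik y hy) (δ := 2 * |V y| * Z ^ 3)
    (by rw [inner_M0 h hB hy, h0.hess_grad hy]; simp) (fun v => by
      rw [inner_M0 h hB hy, M0_grad h hy, Y0, inner_sub_left, inner_add_left, real_inner_smul_left,
        real_inner_smul_left, ← hess_symm h.smooth, ← hess_symm h.smooth]
      have f1 := mul_le' (le_refl |V y|)
        (inner_le (app_le hb.hess (app_le hb.hess hb.b0)) (le_refl ‖v‖))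
      rw [abs_le] at f1 ⊢
      constructor <;> nlinarith [f1.1, f1.2]) T hT
  have e3 := abs_tr_le3 (comp_le hb.hess (comp_le hb.b1 hb.hess))
  have e4 := hb.M0_le h0 hy
  rw [divAlong_eq, (hasFDerivAt_Y0 h hB y).fderiv]
  set t := ‖proj T (grad V y)‖
  have e5 := mul_le' (le_refl |V y ^ 2|) e3
  rw [abs_of_nonneg (sq_nonneg (V y))] at e5
  have e6 : ‖M0 V B y‖ * t ^ 2 ≤ 8 * Z ^ 5 * t ^ 2 := by gcongr
  have e7 : 2 * |V y| * t ≤ V y ^ 2 + t ^ 2 := by nlinarith [sq_nonneg (|V y| - t), sq_abs (V y)]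
  have e8 := hb.pw (show 3 ≤ 5 by norm_num)
  have hZ : 0 ≤ Z ^ 3 := pow_nonneg (by linarith [hb.one]) 3
  have e9 : 2 * |V y| * Z ^ 3 * t ≤ Z ^ 5 * (V y ^ 2 + t ^ 2) :=
    calc 2 * |V y| * Z ^ 3 * t = Z ^ 3 * (2 * |V y| * t) := by ring
      _ ≤ Z ^ 5 * (V y ^ 2 + t ^ 2) := mul_le_mul e8 e7 (by positivity) (hZ.trans e8)
  have e10 : V y ^ 2 * (3 * (Z * (Z * Z))) ≤ 3 * (Z ^ 5 * V y ^ 2) := by
    nlinarith [mul_le_mul_of_nonneg_right e8 (sq_nonneg (V y))]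
  have e11 : 0 ≤ Z ^ 5 * V y ^ 2 := mul_nonneg (hZ.trans e8) (sq_nonneg _)
  have e12 : 0 ≤ Z ^ 5 * t ^ 2 := mul_nonneg (hZ.trans e8) (sq_nonneg _)
  rw [abs_le] at e2 e5 ⊢
  constructor <;> nlinarith [e2.1, e2.2, e5.1, e5.2]

/-- the corrected extension -/
noncomputable def Y1 (V : E3 → ℝ) (B : E3 → E3) (y : E3) : E3 := (1 - V y * ee V y) • Y0 V B y

lemma fac_cd (h : Tube3 V c K L q) : ContDiff ℝ 1 fun y => 1 - V y * ee V y :=
  contDiff_const.sub ((h.smooth.of_le (by norm_num)).mul h.ee_cd)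

lemma Y1_cd (h : Tube3 V c K L q) (hB : FD V B g) : ContDiff ℝ 1 (Y1 V B) :=
  (fac_cd h).smul (Y0_cd h hB)

lemma hasFDerivAt_fac (h : Tube3 V c K L q) (y : E3) : HasFDerivAt (fun y => 1 - V y * ee V y)
    (-(V y • fderiv ℝ (ee V) y + ee V y • innerSL ℝ (grad V y))) y :=
  ((h.toTube0.hasFDerivAt_V y).mul (h.ee_cd.differentiable (by norm_num) y).hasFDerivAt).const_sub 1

lemma grad_fac (h : Tube3 V c K L q) (y : E3) :
    grad (fun y => 1 - V y * ee V y) y = -(V y • grad (ee V) y + ee V y • grad V y) := by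
  refine grad_unique fun v => ?_
  rw [(hasFDerivAt_fac h y).fderiv, inner_neg_left, inner_add_left, real_inner_smul_left,
    real_inner_smul_left, inner_grad (ee V)]
  simp

lemma Bd.Y1_le {y : E3} {Z : ℝ} (hb : Bd V B y Z) : ‖Y1 V B y‖ ≤ 4 * Z ^ 5 := by
  have h1 : |1 - V y * ee V y| ≤ 2 * Z ^ 2 := by
    have e1 := mul_le' hb.val hb.e0
    have e2 := hb.pw (show 0 ≤ 2 by norm_num)
    rw [abs_le] at e1 ⊢
    constructor <;> nlinarith [e1.1, e1.2]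
  exact (smul_le h1 hb.Y0_le).trans (le_of_eq (by ring))

lemma Bd.DY1_le {y : E3} {Z : ℝ} (hb : Bd V B y Z) (h : Tube3 V c K L q) (hB : FD V B g)
    (hy : |V y| < c) : ‖fderiv ℝ (Y1 V B) y‖ ≤ 20 * Z ^ 7 := by
  have h0 : HasFDerivAt (Y1 V B) _ y := (hasFDerivAt_fac h y).smul (hasFDerivAt_Y0 h hB y)
  have hν : ‖innerSL ℝ (grad V y)‖ ≤ 1 := by rw [innerSL_apply_norm, h.eik y hy]
  have h1 : |1 - V y * ee V y| ≤ 2 * Z ^ 2 := by
    have e1 := mul_le' hb.val hb.e0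
    have e2 := hb.pw (show 0 ≤ 2 by norm_num)
    rw [abs_le] at e1 ⊢
    constructor <;> nlinarith [e1.1, e1.2]
  have h2 := smul_le h1 (hb.M0_le h.toTube0 hy)
  have h3 : ‖-(V y • fderiv ℝ (ee V) y + ee V y • innerSL ℝ (grad V y))‖ ≤ Z * Z + Z * 1 := by
    rw [norm_neg]
    exact (norm_add_le _ _).trans (add_le_add (smul_le hb.val hb.e1) (smul_le hb.e0 hν))
  have h4 := smulRight_le h3 hb.Y0_le
  rw [h0.fderiv]
  refine ((norm_add_le _ _).trans (add_le_add h2 h4)).trans ?_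
  have e1 := hb.pw (show 5 ≤ 7 by norm_num)
  have e2 := hb.pw (show 4 ≤ 7 by norm_num)
  nlinarith

lemma alg_Y1 {Z k s t e D G I1 I2 I3 I4 eb : ℝ} (hZ1 : 1 ≤ Z) (hk : 0 ≤ k) (ht0 : 0 ≤ t)
    (he : |e| ≤ Z * (k + |s|))
    (e1 : |D - 1 / 2 * I1 - G - s * eb| ≤ 12 * Z ^ 5 * (s ^ 2 + t ^ 2))
    (e3 : |D - 1 / 2 * I1| ≤ 26 * Z ^ 5) (e4 : |eb + s * I4 - I2| ≤ 2 * Z ^ 3 * t * Z)
    (e6 : |I4| ≤ Z * Z * Z) (e7 : |I3| ≤ t * (2 * Z ^ 3)) :
    |(1 - s * e) * D + -(s * I2 + e * I3) - 1 / 2 * ((1 - s * e) * I1) - G|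
      ≤ 43 * Z ^ 6 * (s ^ 2 + t ^ 2 + k * (|s| + t)) := by
  have hZ : 0 ≤ Z := by linarith
  have pw : ∀ {m n : ℕ}, m ≤ n → Z ^ m ≤ Z ^ n := fun h => pow_le_pow_right₀ hZ1 h
  have key : (1 - s * e) * D + -(s * I2 + e * I3) - 1 / 2 * ((1 - s * e) * I1) - G
      = (D - 1 / 2 * I1 - G - s * eb) - s * e * (D - 1 / 2 * I1) - e * I3
        + s * (eb + s * I4 - I2) - s ^ 2 * I4 := by ring
  rw [key]
  have f1 := mul_le' (mul_le' (le_refl |s|) he) e3
  have f2 := mul_le' he e7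
  have f3 := mul_le' (le_refl |s|) e4
  have f4 := mul_le' (le_refl |s ^ 2|) e6
  rw [abs_of_nonneg (sq_nonneg s)] at f4
  have hs0 := abs_nonneg s
  have hs2 := sq_abs s
  have hs3 := sq_nonneg s
  have ht3 := sq_nonneg t
  have g1 : |s| * t ≤ s ^ 2 + t ^ 2 := by nlinarith [sq_nonneg (|s| - t)]
  set X := s ^ 2 + t ^ 2 + k * (|s| + t) with hX
  have hks : 0 ≤ k * |s| := mul_nonneg hk hs0
  have hkt : 0 ≤ k * t := mul_nonneg hk ht0
  have u1 : 12 * Z ^ 5 * (s ^ 2 + t ^ 2) ≤ 12 * Z ^ 6 * X :=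
    mul_le_mul (by linarith [pw (show 5 ≤ 6 by norm_num)]) (by rw [hX]; linarith)
      (by positivity) (by positivity)
  have u2 : |s| * (Z * (k + |s|)) * (26 * Z ^ 5) ≤ 26 * Z ^ 6 * X :=
    calc |s| * (Z * (k + |s|)) * (26 * Z ^ 5) = 26 * Z ^ 6 * (k * |s| + |s| ^ 2) := by ring
      _ ≤ _ := mul_le_mul_of_nonneg_left (by rw [hX]; linarith) (by positivity)
  have u3 : Z * (k + |s|) * (t * (2 * Z ^ 3)) ≤ 2 * Z ^ 6 * X :=
    calc Z * (k + |s|) * (t * (2 * Z ^ 3)) = 2 * Z ^ 4 * (k * t + |s| * t) := by ring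
      _ ≤ _ := mul_le_mul (by linarith [pw (show 4 ≤ 6 by norm_num)]) (by rw [hX]; linarith)
          (by positivity) (by positivity)
  have u4 : |s| * (2 * Z ^ 3 * t * Z) ≤ 2 * Z ^ 6 * X :=
    calc |s| * (2 * Z ^ 3 * t * Z) = 2 * Z ^ 4 * (|s| * t) := by ring
      _ ≤ _ := mul_le_mul (by linarith [pw (show 4 ≤ 6 by norm_num)]) (by rw [hX]; linarith)
          (by positivity) (by positivity)
  have u5 : s ^ 2 * (Z * Z * Z) ≤ Z ^ 6 * X :=
    calc s ^ 2 * (Z * Z * Z) = Z ^ 3 * s ^ 2 := by ring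
      _ ≤ _ := mul_le_mul (pw (show 3 ≤ 6 by norm_num)) (by rw [hX]; linarith)
          (by positivity) (by positivity)
  rw [abs_le] at e1 f1 f2 f3 f4 ⊢
  constructor <;> linarith [e1.1, e1.2, f1.1, f1.2, f2.1, f2.2, f3.1, f3.2, f4.1, f4.2]

/-- the divergence of the corrected extension -/
lemma div_Y1 (h : Tube3 V c K L q) (hB : FD V B g) {y : E3} (hy : |V y| < c) {Z k : ℝ}
    (hb : Bd V B y Z) (hk : 0 ≤ k) (he : |ee V y| ≤ Z * (k + |V y|)) (T : Submodule ℝ E3)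
    (hT : Module.finrank ℝ T = 2) :
    |divAlong T (Y1 V B) y - 1 / 2 * ⟪y, Y1 V B y⟫ - (1 - g (foot V y))|
      ≤ 43 * Z ^ 6 * (V y ^ 2 + ‖proj T (grad V y)‖ ^ 2 + k * (|V y| + ‖proj T (grad V y)‖)) := by
  have h0 := h.toTube0
  have e1 := div_Y0 h hB hy hb T hT
  have e2 : divAlong T (Y1 V B) y = (1 - V y * ee V y) * divAlong T (Y0 V B) y
      + ⟪proj T (grad (fun y => 1 - V y * ee V y) y), Y0 V B y⟫ :=
    divAlong_smul T (hasFDerivAt_fac h y).differentiableAt (hasFDerivAt_Y0 h hB y).differentiableAt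
  have e3 : |divAlong T (Y0 V B) y - 1 / 2 * ⟪y, Y0 V B y⟫| ≤ 26 * Z ^ 5 := by
    rw [divAlong_eq, (hasFDerivAt_Y0 h hB y).fderiv]
    have f1 := comp_proj_le T (hb.M0_le h0 hy)
    have f2 := inner_le hb.pos hb.Y0_le
    have f3 := hb.pw (show 4 ≤ 5 by norm_num)
    have f4 := hb.pw (show 0 ≤ 5 by norm_num)
    rw [abs_le] at f1 f2 ⊢
    constructor <;> nlinarith [f1.1, f1.2, f2.1, f2.2]
  have hg : ‖grad (ee V) y‖ ≤ Z := by rw [norm_grad]; exact hb.e1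
  have e4 := h0.normal_est (m := 2) finrank_E3 y T hT hy (H552.sub_proj_mem T (grad (ee V) y))
    (Y0 V B y)
  rw [inner_Y0 h0 hB hy, zero_mul, sub_zero, inner_sub_right] at e4
  have e5 : ⟪Y0 V B y, grad (ee V) y⟫ = fderiv ℝ (ee V) y (B (foot V y))
      + V y * ⟪fderiv ℝ (grad V) y (B (foot V y)), grad (ee V) y⟫ := by
    rw [Y0, inner_add_left, real_inner_smul_left, inner_grad']
  have e6 := inner_le (app_le hb.hess hb.b0) hg
  have e7 := inner_le (le_refl ‖proj T (grad V y)‖) hb.Y0_le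
  rw [e2, grad_fac h, Y1, real_inner_smul_right, map_neg, map_add, map_smul, map_smul,
    inner_neg_left, inner_add_left, real_inner_smul_left, real_inner_smul_left,
    real_inner_comm (Y0 V B y) (proj T (grad (ee V) y))]
  have hZ1 := hb.one
  have hZ : 0 ≤ Z := by linarith
  have e8 : ‖Y0 V B y‖ * ‖proj T (grad V y)‖ * ‖grad (ee V) y - proj T (grad (ee V) y)‖
      ≤ 2 * Z ^ 3 * ‖proj T (grad V y)‖ * Z := by
    gcongr
    · exact hb.Y0_le
    · exact (norm_sub_proj_le T _).trans hg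
  replace e4 := e4.trans e8
  rw [e5] at e4
  exact alg_Y1 hZ1 hk (norm_nonneg _) he e1 e3 e4 e6 e7

/-- the field, cut off -/
noncomputable def Y2 (ψ : ℝ → ℝ) (V : E3 → ℝ) (B : E3 → E3) (y : E3) : E3 := ψ (V y) • Y1 V B y

lemma exists_psi (hc : 0 < c) : ∃ (ψ : ℝ → ℝ) (C : ℝ), 0 ≤ C ∧ ContDiff ℝ 1 ψ ∧ (∀ s, |ψ s| ≤ 1) ∧
    (∀ s, ‖fderiv ℝ ψ s‖ ≤ C) ∧ (∀ s, |s| < c / 4 → ψ s = 1) ∧ ∀ s, c / 2 < |s| → ψ s = 0 := by
  let f : ContDiffBump (0 : ℝ) := ⟨c / 4, c / 2, by positivity, by linarith⟩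
  have h1 : ContDiff ℝ 1 f := f.contDiff
  obtain ⟨C, hC⟩ := (f.hasCompactSupport.fderiv (𝕜 := ℝ)).exists_bound_of_continuous
    (h1.continuous_fderiv one_ne_zero)
  refine ⟨f, C, (norm_nonneg _).trans (hC 0), h1, fun s => ?_, hC, fun s hs => ?_, fun s hs => ?_⟩
  · rw [abs_of_nonneg f.nonneg]; exact f.le_one
  · exact f.one_of_mem_closedBall (by rw [mem_closedBall_zero_iff]; exact hs.le)
  · exact f.zero_of_le_dist (by rw [dist_zero_right]; exact hs.le)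

lemma Bd.DY2_le {y : E3} {Z : ℝ} (hb : Bd V B y Z) (h : Tube3 V c K L q) (hB : FD V B g)
    (hy : |V y| < c) {ψ : ℝ → ℝ} (hψ : ContDiff ℝ 1 ψ) (h0 : |ψ (V y)| ≤ 1)
    (h1 : ‖fderiv ℝ ψ (V y)‖ ≤ Z) : ‖fderiv ℝ (Y2 ψ V B) y‖ ≤ 24 * Z ^ 7 := by
  have e1 := (hψ.differentiable one_ne_zero (V y)).hasFDerivAt.comp y (h.toTube0.hasFDerivAt_V y)
  have e2 : HasFDerivAt (Y2 ψ V B) _ y :=
    e1.smul ((Y1_cd h hB).differentiable one_ne_zero y).hasFDerivAt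
  have hν : ‖innerSL ℝ (grad V y)‖ ≤ 1 := by rw [innerSL_apply_norm, h.eik y hy]
  have e3 : ‖(fderiv ℝ ψ (V y)).comp (innerSL ℝ (grad V y))‖ ≤ Z * 1 :=
    (ContinuousLinearMap.opNorm_comp_le _ _).trans
      (mul_le_mul h1 hν (norm_nonneg _) ((norm_nonneg _).trans h1))
  rw [e2.fderiv]
  refine ((norm_add_le _ _).trans (add_le_add (smul_le h0 (hb.DY1_le h hB hy))
    (smulRight_le e3 hb.Y1_le))).trans ?_
  have e4 := hb.pw (show 6 ≤ 7 by norm_num)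
  nlinarith

lemma le_Z {a M w : ℝ} {n Q : ℕ} (ha : a ≤ M) (hM : 0 ≤ M) (hw : 1 ≤ w) (hn : n ≤ Q) :
    a * w ^ n ≤ M * w ^ Q :=
  mul_le_mul ha (pow_le_pow_right₀ hw hn) (by positivity) hM

lemma foot_pow_le (h : Tube0 V c K) {y : E3} (hy : |V y| < c) (n : ℕ) :
    (1 + ‖foot V y‖) ^ n ≤ (1 + c) ^ n * (1 + ‖y‖) ^ n := by
  rw [← mul_pow]
  refine pow_le_pow_left₀ (by positivity) ?_ n
  have h1 := h.norm_foot_le hy
  have h2 := mul_nonneg h.cpos.le (norm_nonneg y)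
  nlinarith

/-- **ST5** -/
theorem st5_of (hF : FieldStmt) : ST5Stmt := by
  intro c K L q hc
  obtain ⟨R₁, K₁, q₁, hF⟩ := hF c K L q
  obtain ⟨ψ, C, hC, hψ, hψ0, hψ1, hψ2, hψ3⟩ := exists_psi hc
  obtain ⟨M, m1, m2, m3, m4, m5, m6, m7, m8⟩ : ∃ M : ℝ, 1 ≤ M ∧ 4 * |K| ≤ M ∧
      3 * |L| + |K| + 1 ≤ M ∧ |K₁| * (1 + c) ^ q₁ ≤ M ∧ (1 + c) ^ q ≤ M ∧ 3 * K ^ 2 + 1 / 2 ≤ M ∧
      C ≤ M ∧ 4 / c ≤ M := by
    have a1 := abs_nonneg K
    have a2 := abs_nonneg L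
    have a3 : 0 ≤ |K₁| * (1 + c) ^ q₁ := by positivity
    have a4 : 0 ≤ (1 + c) ^ q := by positivity
    have a5 := sq_nonneg K
    have a6 : 0 ≤ 4 / c := by positivity
    refine ⟨1 + 4 * |K| + 3 * |L| + |K₁| * (1 + c) ^ q₁ + (1 + c) ^ q + 3 * K ^ 2 + C + 4 / c,
      ?_, ?_, ?_, ?_, ?_, ?_, ?_, ?_⟩ <;> linarith
  have m0 : 0 ≤ M := by linarith
  set Q := q + q₁ + 1 with hQ
  refine ⟨R₁, 75 * M ^ 9, c / 4, Q * 9, by positivity, by linarith, fun V h k hk hk1 he => ?_⟩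
  obtain ⟨B, g, b1, b2, b3, b4, b5, b6, b7⟩ := hF V h
  have hB : FD V B g := ⟨b1, fun y hy => (b7 y hy).1, fun y hy => (b7 y hy).2⟩
  have h0 := h.toTube0
  have hw : ∀ y : E3, (1 : ℝ) ≤ 1 + ‖y‖ := one_le_one_add_norm
  have hM : ∀ (y : E3) {a : ℝ}, a ≤ M → a ≤ M * (1 + ‖y‖) ^ Q := fun y a ha => by
    simpa using le_Z (n := 0) ha m0 (hw y) (Nat.zero_le Q)
  have aK := le_abs_self K
  have aK0 := abs_nonneg K
  have aL := le_abs_self L
  have aL0 := abs_nonneg L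
  have hb : ∀ y, |V y| < c → Bd V B y (M * (1 + ‖y‖) ^ Q) := by
    intro y hy
    have hf : K₁ * (1 + ‖foot V y‖) ^ q₁ ≤ M * (1 + ‖y‖) ^ Q := by
      refine (mul_le_mul (le_abs_self K₁) (foot_pow_le h0 hy q₁) (by positivity)
        (abs_nonneg _)).trans ?_
      rw [← mul_assoc]
      exact le_Z m4 m0 (hw y) (by omega)
    refine ⟨hM y m1, ?_, hM y (by linarith [h.b0 y]), hM y (by linarith [h.b2 y]),
      (h.b3 y hy).trans (le_Z (by linarith) m0 (hw y) (by omega)),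
      hM y (by linarith [h0.abs_ee_le y]),
      (h.norm_fderiv_ee hy).trans (le_Z (by linarith) m0 (hw y) (by omega)),
      (b3 _).trans hf, (b4 _).trans hf⟩
    have := le_Z (n := 1) (Q := Q) m1 m0 (hw y) (by omega)
    linarith
  have hzero : ∀ y, ¬ |V y| < c → Y2 ψ V B =ᶠ[𝓝 y] fun _ => 0 := by
    intro y hy
    have : ∀ᶠ z in 𝓝 y, c / 2 < |V z| :=
      h0.cont.abs.continuousAt.eventually (lt_mem_nhds (by linarith [not_lt.1 hy]))
    filter_upwards [this] with z hz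
    rw [Y2, hψ3 _ hz, zero_smul]
  have hZ : ∀ y : E3, 1 ≤ M * (1 + ‖y‖) ^ Q := fun y => hM y m1
  have n0 : ∀ y, ‖Y2 ψ V B y‖ ≤ 4 * (M * (1 + ‖y‖) ^ Q) ^ 5 := by
    intro y
    by_cases hy : |V y| < c
    · simpa [Y2] using smul_le (hψ0 (V y)) (hb y hy).Y1_le
    · rw [(hzero y hy).self_of_nhds, norm_zero]; positivity
  have n1 : ∀ y, ‖fderiv ℝ (Y2 ψ V B) y‖ ≤ 24 * (M * (1 + ‖y‖) ^ Q) ^ 7 := by
    intro y
    by_cases hy : |V y| < c
    · exact (hb y hy).DY2_le h hB hy hψ (hψ0 _) (hM y ((hψ1 _).trans m7))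
    · rw [(hzero y hy).fderiv_eq, fderiv_fun_const]
      simp only [Pi.zero_apply, norm_zero]
      positivity
  have eZ : ∀ y : E3, 75 * M ^ 9 * (1 + ‖y‖) ^ (Q * 9) = 75 * (M * (1 + ‖y‖) ^ Q) ^ 9 := by
    intro y; rw [mul_pow, ← pow_mul, mul_assoc]
  refine ⟨Y2 ψ V B, g, ⟨(hψ.comp (h.smooth.of_le (by norm_num))).smul (Y1_cd h hB),
    PB.of_le (C := 4 * M ^ 5) (p := Q * 5) fun y => ?_,
    PB.of_le (C := 24 * M ^ 7) (p := Q * 7) fun y => ?_⟩, b2, fun y => ⟨(b5 y).1, ?_⟩, b6,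
    fun y T hT => ⟨fun φ hφ => ?_, ?_⟩⟩
  · rw [mul_assoc, pow_mul, ← mul_pow]; exact n0 y
  · rw [mul_assoc, pow_mul, ← mul_pow]; exact n1 y
  · have e1 : 1 ≤ (1 + c) ^ q₁ := one_le_pow₀ (by linarith)
    have e2 : M ^ 1 ≤ M ^ 9 := pow_le_pow_right₀ m1 (by norm_num)
    have e3 := (b5 y).2
    have e4 := le_abs_self K₁
    have e5 := abs_nonneg K₁
    nlinarith
  · rw [eZ]
    by_cases hy : |V y| < c
    · have e1 := h0.normal_est (m := 2) finrank_E3 y T hT hy hφ (Y2 ψ V B y)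
      have e2 : ⟪Y2 ψ V B y, grad V y⟫ = 0 := by
        rw [Y2, Y1, real_inner_smul_left, real_inner_smul_left, inner_Y0 h0 hB hy]; ring
      rw [e2, zero_mul, sub_zero] at e1
      refine e1.trans ?_
      have e3 := (hb y hy).pw (show 5 ≤ 9 by norm_num)
      have e4 := (hb y hy).pw (show 0 ≤ 9 by norm_num)
      gcongr
      · linarith [n0 y]
      · linarith [abs_nonneg (V y)]
    · rw [(hzero y hy).self_of_nhds, inner_zero_left, abs_zero]; positivity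
  · rw [eZ]
    have hX : 0 ≤ k * (|V y| + ‖proj T (grad V y)‖) := by positivity
    split_ifs with hy1
    · have hy : |V y| < c := by linarith
      have e1 : Y2 ψ V B =ᶠ[𝓝 y] Y1 V B := by
        have : ∀ᶠ z in 𝓝 y, |V z| < c / 4 :=
          h0.cont.abs.continuousAt.eventually (gt_mem_nhds hy1)
        filter_upwards [this] with z hz
        rw [Y2, hψ2 _ hz, one_smul]
      have e2 : |ee V y| ≤ M * (1 + ‖y‖) ^ Q * (k + |V y|) := by
        have f1 := h0.ee_foot hy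
        have f2 := he _ (h0.V_foot hy)
        have f3 := (foot_pow_le h0 hy q).trans (le_Z (Q := Q) m5 m0 (hw y) (by omega))
        have f4 := mul_le_mul_of_nonneg_left f3 hk
        have f5 := mul_le_mul_of_nonneg_right (hM y m6) (abs_nonneg (V y))
        have f6 := abs_add_le (ee V y - ee V (foot V y)) (ee V (foot V y))
        rw [sub_add_cancel] at f6
        linarith
      have e3 := div_Y1 h hB hy (hb y hy) hk e2 T hT
      rw [divAlong_eq, e1.fderiv_eq, ← divAlong_eq, e1.self_of_nhds]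
      refine e3.trans (mul_le_mul_of_nonneg_right ?_ (by positivity))
      have e4 := (hb y hy).pw (show 6 ≤ 9 by norm_num)
      have e5 := (hb y hy).pw (show 0 ≤ 9 by norm_num)
      linarith
    · set Z := M * (1 + ‖y‖) ^ Q with hZd
      have z1 : 1 ≤ Z := hZ y
      have pw : ∀ {m n : ℕ}, m ≤ n → Z ^ m ≤ Z ^ n := fun h => pow_le_pow_right₀ z1 h
      have e1 := comp_proj_le T (n1 y)
      have e0 : ‖y‖ ≤ Z := by
        have := le_Z (n := 1) (Q := Q) m1 m0 (hw y) (by omega)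
        linarith
      have e2 := inner_le e0 (n0 y)
      have e3 : |divAlong T (Y2 ψ V B) y - 1 / 2 * ⟪y, Y2 ψ V B y⟫ - (1 - 0)| ≤ 75 * Z ^ 7 := by
        have f1 := pw (show 6 ≤ 7 by norm_num)
        have f2 := pw (show 0 ≤ 7 by norm_num)
        rw [divAlong_eq]
        rw [abs_le] at e1 e2 ⊢
        constructor <;> nlinarith [e1.1, e1.2, e2.1, e2.2]
      have e4 : 1 ≤ Z * |V y| := by
        have f1 : 4 / c ≤ Z := hM y m8
        have f2 : 4 / c * (c / 4) = 1 := by field_simp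
        rw [← f2]
        exact mul_le_mul f1 (not_lt.1 hy1) (by positivity) (by linarith)
      have e5 : 1 ≤ Z ^ 2 * (V y ^ 2 + ‖proj T (grad V y)‖ ^ 2
          + k * (|V y| + ‖proj T (grad V y)‖)) := by
        have f1 : 1 ≤ (Z * |V y|) ^ 2 := one_le_pow₀ e4
        rw [mul_pow, sq_abs] at f1
        refine f1.trans (mul_le_mul_of_nonneg_left ?_ (by positivity))
        linarith [sq_nonneg ‖proj T (grad V y)‖]
      refine e3.trans ?_
      calc 75 * Z ^ 7 = 75 * Z ^ 7 * 1 := by ring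
        _ ≤ 75 * Z ^ 7 * (Z ^ 2 * (V y ^ 2 + ‖proj T (grad V y)‖ ^ 2
          + k * (|V y| + ‖proj T (grad V y)‖))) := by gcongr
        _ = _ := by ring

end Vale.Agent.P218F.Dyn
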