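import Vale.Agent.P218F.DynFoot

/-! Comparison of Gaussian areas from the ambient field and the comparison on the core
(helper69). -/

open MeasureTheory Set Filter Topology Metric
open scoped ENNReal NNReal RealInnerProductSpace ContDiff

namespace Vale.Agent.P218F.Dyn

open Vale.Agent.P214 (proj divAlong)
open Vale.Agent.P218 Vale.Agent.P218.H313
open Vale.Agent.P218FT (E3)

lemma st56_pt {A P v t φ k e B a b G : ℝ} (hA : 0 ≤ A) (hP : 1 ≤ P) (he : 0 < e)
    (hs : v ^ 2 + t ^ 2 ≤ B) (h1 : |b| ≤ A * P * (|v| + t) * φ)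
    (h2 : |a - (1 - G)| ≤ A * P * (v ^ 2 + t ^ 2 + k * (|v| + t))) :
    1 - G ≤ a + b + φ ^ 2 + k ^ 2 + (A ^ 2 + A) * e⁻¹ * (v ^ 2 + t ^ 2)
      + (A ^ 2 + A) * B * e ^ 3 * P ^ 8 := by
  have s0 : 0 ≤ v ^ 2 + t ^ 2 := by positivity
  have h3 : P ^ 2 ≤ e⁻¹ + e ^ 3 * P ^ 8 := by
    rcases le_or_gt (P ^ 2) e⁻¹ with h | h
    · exact h.trans (le_add_of_nonneg_right (by positivity))
    · have h4 : 1 ≤ e * P ^ 2 := by
        rw [inv_lt_iff_one_lt_mul₀' he] at h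
        exact h.le
      have h5 : P ^ 2 * 1 ≤ P ^ 2 * (e * P ^ 2) ^ 3 :=
        mul_le_mul_of_nonneg_left (one_le_pow₀ h4) (by positivity)
      have : 0 < e⁻¹ := by positivity
      nlinarith
  have h6 : (|v| + t) ^ 2 ≤ 2 * (v ^ 2 + t ^ 2) := by nlinarith [sq_abs v, sq_nonneg (|v| - t)]
  have h7 : (A * P * (|v| + t)) ^ 2 ≤ 2 * (A ^ 2 * (P ^ 2 * (v ^ 2 + t ^ 2))) := by
    calc (A * P * (|v| + t)) ^ 2 = A ^ 2 * P ^ 2 * (|v| + t) ^ 2 := by ring
      _ ≤ A ^ 2 * P ^ 2 * (2 * (v ^ 2 + t ^ 2)) := by gcongr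
      _ = _ := by ring
  have h8 : A * P * (v ^ 2 + t ^ 2) ≤ A * (P ^ 2 * (v ^ 2 + t ^ 2)) := by
    rw [mul_assoc]
    gcongr
    nlinarith
  have h9 : P ^ 2 * (v ^ 2 + t ^ 2) ≤ e⁻¹ * (v ^ 2 + t ^ 2) + B * e ^ 3 * P ^ 8 := by
    calc _ ≤ (e⁻¹ + e ^ 3 * P ^ 8) * (v ^ 2 + t ^ 2) := by gcongr
      _ = e⁻¹ * (v ^ 2 + t ^ 2) + (v ^ 2 + t ^ 2) * (e ^ 3 * P ^ 8) := by ring
      _ ≤ e⁻¹ * (v ^ 2 + t ^ 2) + B * (e ^ 3 * P ^ 8) := by gcongr
      _ = _ := by ring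
  have h10 := mul_le_mul_of_nonneg_left h9 (show 0 ≤ A ^ 2 + A by positivity)
  have h11 := neg_le_of_abs_le h1
  have h12 := neg_le_of_abs_le h2
  nlinarith [sq_nonneg (A * P * (|v| + t) / 2 - φ), sq_nonneg (A * P * (|v| + t) / 2 - k)]

theorem st56_of (h5 : ST5Stmt) (h6 : ST6Stmt) : ST56Stmt := by
  intro c K L q
  rcases le_or_gt c 0 with hc | hc
  · exact ⟨0, 0, fun _ _ _ _ => ⟨0, fun V hV => absurd hV.toTube0.cpos (not_lt.2 hc)⟩⟩
  obtain ⟨R₁, K₁, c₁, q₁, c0, c1, h5⟩ := h5 c K L q hc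
  refine ⟨R₁ + c, q₁ * 8, fun r C M hr => ?_⟩
  obtain ⟨C6, h6⟩ := h6 c K L q R₁ K₁ c₁ r C M c0 c1 hr
  refine ⟨1 + |M| + (K₁ ^ 2 + |K₁|) * (1 + 2 * K ^ 2 * |M|) + |C6|, ?_⟩
  intro V hV hZ k hk hee μ T H hS hsh hM d hd1 hd
  have nD := DD_nonneg (μ := μ) (W := V) 0
  have nT := TG_nonneg (μ := μ) (T := T) (W := V) 0
  have nd := dis_nonneg (μ := μ) (T := T) (H := H)
  obtain ⟨Y, g, hY, hg, hgb, hg0, hYg⟩ := h5 V hV k hk (by nlinarith) hee
  have hK₁ : 0 ≤ K₁ := (hgb 0).1.trans (hgb 0).2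
  rw [abs_of_nonneg hK₁]
  have hV0 := hV.toTube0
  have one : ∀ (y : E3) (n : ℕ), 1 ≤ (1 + ‖y‖) ^ n := fun y n =>
    one_le_pow₀ (le_add_of_nonneg_right (norm_nonneg y))
  have iρ : ∀ {μ : Measure E3} {T H}, GSlice 2 μ T H → Integrable rho μ := fun h => by
    simpa using h.mom 0
  have hFA : FA μ ≤ M := le_trans (integral_mono (iρ hS) (hS.mom _) fun y =>
    le_mul_of_one_le_left (rho_pos y).le (one y _)) hM
  have e6 := h6 V hV hZ k hk hee g hg hgb hg0 μ T H hS hsh hFA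
  set G : E3 → ℝ := fun y => if |V y| < c₁ then g (foot V y) else 0 with hG
  have mG : Measurable G := Measurable.ite
    (isOpen_lt hV0.cont.abs continuous_const).measurableSet
    (hg.comp hV0.foot_cd.continuous).measurable measurable_const
  have bG : PB G := PB.of_bound (C := K₁) fun y => by
    simp only [hG]
    split_ifs
    · rw [Real.norm_of_nonneg (hgb _).1]; exact (hgb _).2
    · simpa using hK₁
  have iA : ∀ {μ : Measure E3} {T H}, GSlice 2 μ T H →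
      Integrable (fun y => (divAlong (T y) Y y - 1 / 2 * ⟪y, Y y⟫) * rho y) μ := fun h => by
    simp only [sub_mul]
    exact (h.integrable_div hY.cd hY.b1).sub (h.integrable_PB
      (continuous_const.mul (continuous_id.inner hY.cd.continuous)).aestronglyMeasurable
      ((PB.id'.inner' hY.b0).const_mul _))
  -- the zero set
  have eZ : FA (hm (zs V)) = ∫ y, g y * rho y ∂(hm (zs V)) := by
    obtain ⟨T', H', hS', h0⟩ := hZ
    have hz : ∀ᵐ y ∂(hm (zs V)), V y = 0 :=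
      ae_restrict_mem (isClosed_eq hV0.cont continuous_const).measurableSet
    have w := hS'.wfv hY.cd hY.b0 hY.b1
    have w1 : ∫ y, ⟪Y y, vel T' H' y⟫ * rho y ∂(hm (zs V)) = 0 := by
      refine integral_eq_zero_of_ae ?_
      filter_upwards [hz, h0, hS'.mc.dim, hS'.vel_normal] with y a1 a2 a3 a4
      have := (hYg y _ a3).1 _ a4
      rw [a1, a2] at this
      simp only [abs_zero, norm_zero, add_zero, mul_zero, zero_mul, abs_nonpos_iff] at this
      simp [this]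
    have w2 : ∫ y, (divAlong (T' y) Y y - 1 / 2 * ⟪y, Y y⟫) * rho y ∂(hm (zs V)) =
        ∫ y, (rho y - g y * rho y) ∂(hm (zs V)) := by
      refine integral_congr_ae ?_
      filter_upwards [hz, h0, hS'.mc.dim] with y a1 a2 a3
      have := (hYg y _ a3).2
      rw [Tube0.foot_of_zero a1, a1, a2, abs_zero, if_pos c0] at this
      simp only [norm_zero, add_zero, mul_zero, abs_nonpos_iff, ne_eq, OfNat.ofNat_ne_zero,
        not_false_eq_true, zero_pow] at this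
      rw [sub_eq_zero.1 this]
      ring
    rw [w1, w2, integral_sub (iρ hS') (hS'.integrable_PB hg.aestronglyMeasurable
      (PB.of_bound (C := K₁) fun y => by
        rw [Real.norm_of_nonneg (hgb _).1]; exact (hgb _).2)), neg_zero] at w
    exact sub_eq_zero.1 w
  -- the slice
  have key : ∀ e : ℝ, 0 < e → e ≤ 1 → d ≤ e ^ 4 → FA μ - FA (hm (zs V)) ≤
      (1 + |M| + (K₁ ^ 2 + K₁) * (1 + 2 * K ^ 2 * |M|) + |C6|) * e ^ 3 := by
    intro e e0 e1 hde
    have w := hS.wfv hY.cd hY.b0 hY.b1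
    have i1 := iA hS
    have i2 := hS.integrable_inner_vel hY.cd.continuous.aestronglyMeasurable hY.b0
    have i3 : Integrable (fun y => ‖vel T H y‖ ^ 2 * rho y) μ := by simpa using hS.vsq 0
    have i4 := (iρ hS).const_mul (k ^ 2)
    have i5 := (int_DD hS hV0.pg 0).const_mul ((K₁ ^ 2 + K₁) * e⁻¹)
    have i6 := (int_TG hS hV0.pg 0).const_mul ((K₁ ^ 2 + K₁) * e⁻¹)
    have i7 := (hS.mom (q₁ * 8)).const_mul ((K₁ ^ 2 + K₁) * (2 * K ^ 2) * e ^ 3)
    have iG := hS.integrable_PB mG.aestronglyMeasurable bG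
    have m := integral_mono_ae ((iρ hS).sub iG)
      ((((((i1.add i2).add i3).add i4).add i5).add i6).add i7) (by
      filter_upwards [hS.mc.dim, hS.vel_normal] with y a3 a4
      have b1 : ‖proj (T y) (grad V y)‖ ≤ K := by
        refine ((proj (T y)).le_opNorm _).trans ?_
        have := H552.norm_proj_le (T y)
        nlinarith [hV0.b1 y, norm_nonneg (grad V y), norm_nonneg (proj (T y))]
      have b2 : V y ^ 2 ≤ K ^ 2 := sq_le_sq' (neg_le_of_abs_le (hV0.b0 y)) (le_of_abs_le (hV0.b0 y))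
      have b3 : ‖proj (T y) (grad V y)‖ ^ 2 ≤ K ^ 2 := by gcongr
      have := mul_le_mul_of_nonneg_right (st56_pt (B := 2 * K ^ 2) hK₁ (one y q₁) e0 (by linarith)
        ((hYg y _ a3).1 _ a4) (hYg y _ a3).2) (rho_pos y).le
      simp only [Pi.sub_apply, Pi.add_apply, wt, pow_zero, pow_mul, hG]
      linarith)
    rw [integral_sub' (iρ hS) iG, integral_add' (((((i1.add i2).add i3).add i4).add i5).add i6) i7,
      integral_add' ((((i1.add i2).add i3).add i4).add i5) i6,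
      integral_add' (((i1.add i2).add i3).add i4) i5, integral_add' ((i1.add i2).add i3) i4,
      integral_add' (i1.add i2) i3, integral_add' i1 i2, w, integral_const_mul, integral_const_mul,
      integral_const_mul, integral_const_mul] at m
    change FA μ - _ ≤ _ + dis μ T H + k ^ 2 * FA μ + _ * DD μ V 0 + _ * TG μ T V 0 + _ at m
    have e4 : e ^ 4 ≤ e ^ 3 := pow_le_pow_of_le_one e0.le e1 (by norm_num)
    have hM' := le_abs_self M
    have n1 : k ^ 2 * FA μ ≤ e ^ 3 * |M| :=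
      mul_le_mul (by linarith) (by linarith) (integral_nonneg fun y => (rho_pos y).le) (by positivity)
    have n2 : (K₁ ^ 2 + K₁) * e⁻¹ * (DD μ V 0 + TG μ T V 0) ≤ (K₁ ^ 2 + K₁) * e ^ 3 := by
      calc _ ≤ (K₁ ^ 2 + K₁) * e⁻¹ * e ^ 4 := by gcongr; nlinarith [sq_nonneg k]
        _ = _ := by field_simp
    have n3 : (K₁ ^ 2 + K₁) * (2 * K ^ 2) * e ^ 3 * ∫ y, (1 + ‖y‖) ^ (q₁ * 8) * rho y ∂μ ≤
        (K₁ ^ 2 + K₁) * (2 * K ^ 2) * e ^ 3 * |M| := by gcongr; linarith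
    have n4 : C6 * (DD μ V 0 + TG μ T V 0 + k ^ 2) ≤ |C6| * e ^ 3 :=
      mul_le_mul (le_abs_self _) (by linarith) (by positivity) (abs_nonneg _)
    rw [eZ]
    nlinarith [sq_nonneg k]
  have d0 : 0 ≤ d := by nlinarith [sq_nonneg k]
  rcases d0.eq_or_lt with rfl | d0
  · rw [Real.zero_rpow (by norm_num), mul_zero]
    have t : Tendsto (fun e : ℝ => (1 + |M| + (K₁ ^ 2 + K₁) * (1 + 2 * K ^ 2 * |M|) + |C6|) * e ^ 3)
        (𝓝[>] 0) (𝓝 0) := by
      have : Continuous fun e : ℝ =>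
        (1 + |M| + (K₁ ^ 2 + K₁) * (1 + 2 * K ^ 2 * |M|) + |C6|) * e ^ 3 := by fun_prop
      simpa using (this.tendsto 0).mono_left nhdsWithin_le_nhds
    refine ge_of_tendsto t ?_
    filter_upwards [Ioc_mem_nhdsGT (show (0 : ℝ) < 1 by norm_num)] with e he
    exact key e he.1 he.2 (by have := he.1; positivity)
  · have := key (d ^ (1 / 4 : ℝ)) (by positivity) (Real.rpow_le_one d0.le hd1 (by norm_num))
      (by rw [← Real.rpow_natCast, ← Real.rpow_mul d0.le]; norm_num)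
    rwa [← Real.rpow_natCast (d ^ (1 / 4 : ℝ)), ← Real.rpow_mul d0.le,
      show (1 / 4 : ℝ) * ((3 : ℕ) : ℝ) = 3 / 4 by norm_num] at this

end Vale.Agent.P218F.Dyn
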