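import Vale.Agent.P218F.DynFoot
import Vale.Agent.P218FT.Local

/-! The comparison on the core: a slice with one sheet is compared with the zero set of a tube
function by the area formula for the nearest point projection. -/

open MeasureTheory Set Filter Topology Metric
open scoped ENNReal NNReal RealInnerProductSpace

namespace Vale.Agent.P218F.Dyn.S6

open Vale.Agent.P214 (proj divAlong)
open Vale.Agent.P218 Vale.Agent.P218.H313
open Vale.Agent.P218FT (E3 Triple exists_triple)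

variable {V : E3 → ℝ} {c K : ℝ}

lemma det_triple {a b c : E3} (h : Triple a b c) (L : E3 →L[ℝ] E3) :
    L.det = ⟪a, L a⟫ * (⟪b, L b⟫ * ⟪c, L c⟫ - ⟪b, L c⟫ * ⟪c, L b⟫)
      - ⟪a, L b⟫ * (⟪b, L a⟫ * ⟪c, L c⟫ - ⟪b, L c⟫ * ⟪c, L a⟫)
      + ⟪a, L c⟫ * (⟪b, L a⟫ * ⟪c, L b⟫ - ⟪b, L b⟫ * ⟪c, L a⟫) := by
  obtain ⟨B, h0, h1, h2⟩ := h.exists_basis
  rw [ContinuousLinearMap.det, ← LinearMap.det_toMatrix B.toBasis, Matrix.det_fin_three]
  simp only [LinearMap.toMatrix_apply, OrthonormalBasis.coe_toBasis,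
    OrthonormalBasis.coe_toBasis_repr_apply, OrthonormalBasis.repr_apply_apply, h0, h1, h2,
    ContinuousLinearMap.coe_coe]
  ring

/-- the projection from `n^⊥` to `ν^⊥` has Jacobian `⟨n, ν⟩` -/
lemma det_tilt {n : E3} (hn : ‖n‖ = 1) (ν : E3) (M : E3 →L[ℝ] E3)
    (hM : ∀ v, M v = (v - ⟪n, v⟫ • n) - ⟪ν, v - ⟪n, v⟫ • n⟫ • ν + ⟪n, v⟫ • ν) :
    M.det = ⟪n, ν⟫ := by
  obtain ⟨a, b, h⟩ := exists_triple hn
  have na : ⟪n, a⟫ = 0 := by rw [real_inner_comm]; exact h.ac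
  have nb : ⟪n, b⟫ = 0 := by rw [real_inner_comm]; exact h.bc
  have ba : ⟪b, a⟫ = 0 := by rw [real_inner_comm]; exact h.ab
  have nn : ⟪n, n⟫ = 1 := by rw [real_inner_self_eq_norm_sq, hn]; norm_num
  have aa : ⟪a, a⟫ = 1 := by rw [real_inner_self_eq_norm_sq, h.na]; norm_num
  have bb : ⟪b, b⟫ = 1 := by rw [real_inner_self_eq_norm_sq, h.nb]; norm_num
  have e1 : M a = a - ⟪ν, a⟫ • ν := by rw [hM, na]; simp
  have e2 : M b = b - ⟪ν, b⟫ • ν := by rw [hM, nb]; simp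
  have e3 : M n = ν := by rw [hM, nn]; simp
  rw [det_triple h, e1, e2, e3]
  simp only [inner_sub_right, real_inner_smul_right, na, nb, ba, aa, bb, h.ab]
  rw [real_inner_comm a ν, real_inner_comm b ν]
  ring

/-- the determinant of `id - t A` for a symmetric `A` which kills a unit vector -/
lemma det_shift {ν : E3} (hν : ‖ν‖ = 1) (A : E3 →L[ℝ] E3) (hA : ‖A‖ ≤ K) (h0 : A ν = 0)
    (h1 : ∀ v, ⟪A v, ν⟫ = 0) (t : ℝ) :
    ∃ s : ℝ, |s| ≤ 2 * K ^ 2 ∧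
      (ContinuousLinearMap.id ℝ E3 - t • A).det = 1 - t * tr A + t ^ 2 * s := by
  obtain ⟨a, b, h⟩ := exists_triple hν
  have na : ⟪ν, a⟫ = 0 := by rw [real_inner_comm]; exact h.ac
  have nb : ⟪ν, b⟫ = 0 := by rw [real_inner_comm]; exact h.bc
  have ba : ⟪b, a⟫ = 0 := by rw [real_inner_comm]; exact h.ab
  have nn : ⟪ν, ν⟫ = 1 := by rw [real_inner_self_eq_norm_sq, hν]; norm_num
  have aa : ⟪a, a⟫ = 1 := by rw [real_inner_self_eq_norm_sq, h.na]; norm_num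
  have bb : ⟪b, b⟫ = 1 := by rw [real_inner_self_eq_norm_sq, h.nb]; norm_num
  have h2 : ∀ v, ⟪ν, A v⟫ = 0 := fun v => by rw [real_inner_comm]; exact h1 v
  have hb : ∀ u v : E3, ‖u‖ = 1 → ‖v‖ = 1 → |⟪u, A v⟫| ≤ K := fun u v hu hv => by
    have h3 := abs_real_inner_le_norm u (A v)
    have h4 := A.le_opNorm v
    rw [hu, one_mul] at h3
    rw [hv, mul_one] at h4
    linarith
  have hK : 0 ≤ K := (norm_nonneg _).trans hA
  have ht : tr A = ⟪A a, a⟫ + ⟪A b, b⟫ + ⟪A ν, ν⟫ := h.tr_eq A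
  refine ⟨⟪a, A a⟫ * ⟪b, A b⟫ - ⟪a, A b⟫ * ⟪b, A a⟫, ?_, ?_⟩
  · refine (abs_sub _ _).trans ?_
    rw [abs_mul, abs_mul]
    have b1 := mul_le_mul (hb a a h.na h.na) (hb b b h.nb h.nb) (abs_nonneg _) hK
    have b2 := mul_le_mul (hb a b h.na h.nb) (hb b a h.nb h.na) (abs_nonneg _) hK
    nlinarith
  · rw [det_triple h, ht, h1 ν, real_inner_comm a (A a), real_inner_comm b (A b)]
    simp only [sub_apply, smul_apply, ContinuousLinearMap.id_apply, inner_sub_right,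
      real_inner_smul_right, h0, na, nb, ba, aa, bb, nn, h.ab, h.ac, h.bc, h2, inner_zero_right]
    ring

lemma scalar_aux {u x B f γ : ℝ} (hu0 : 0 ≤ 1 + u) (hB0 : 0 ≤ B) (h1 : 1 - B ≤ (1 + u) * (1 + x))
    (hγ : f ^ 2 = 1 - γ ^ 2) : 1 - B - f ^ 2 ≤ |(1 + u) * γ| * Real.exp x := by
  have h2 : (1 + u) * (1 + x) ≤ (1 + u) * Real.exp x :=
    mul_le_mul_of_nonneg_left (by linarith [Real.add_one_le_exp x]) hu0
  have hg1 : |γ| ≤ 1 := by
    rw [← sq_le_one_iff_abs_le_one]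
    linarith [sq_nonneg f]
  have hg2 : γ ^ 2 ≤ |γ| := by
    rw [← sq_abs]
    nlinarith [abs_nonneg γ]
  have h3 : 0 ≤ (1 + u) * Real.exp x := mul_nonneg hu0 (Real.exp_pos x).le
  rw [abs_mul, abs_of_nonneg hu0]
  calc _ ≤ (1 - B) * γ ^ 2 := by
        rw [show γ ^ 2 = 1 - f ^ 2 by linarith]
        nlinarith [mul_nonneg hB0 (sq_nonneg f)]
    _ ≤ (1 + u) * Real.exp x * γ ^ 2 := mul_le_mul_of_nonneg_right (h1.trans h2) (sq_nonneg γ)
    _ ≤ (1 + u) * Real.exp x * |γ| := mul_le_mul_of_nonneg_left hg2 h3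
    _ = _ := by ring

lemma scalar_u {t a s K : ℝ} (ht1 : |t| ≤ 1) (ha : |a| ≤ 3 * K) (hs : |s| ≤ 2 * K ^ 2) :
    |-(t * a) + t ^ 2 * s| ≤ |t| * (3 * K + 2 * K ^ 2) := by
  have h0 := abs_nonneg t
  refine (abs_add_le _ _).trans ?_
  rw [abs_neg, abs_mul, abs_mul, abs_pow, sq]
  have b1 : |t| * |a| ≤ |t| * (3 * K) := by gcongr
  have b2 : |t| * |t| * |s| ≤ |t| * 1 * (2 * K ^ 2) := by gcongr
  linarith

lemma scalar_x {t β K : ℝ} (ht1 : |t| ≤ 1) (hβ : |β| ≤ K) :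
    |t * β / 2 - t ^ 2 / 4| ≤ |t| * (K + 1) := by
  have h0 := abs_nonneg t
  have hK : 0 ≤ K := (abs_nonneg _).trans hβ
  refine (abs_sub _ _).trans ?_
  rw [abs_div, abs_div, abs_mul, abs_pow, sq, abs_two, abs_of_pos (by norm_num : (0 : ℝ) < 4)]
  have b1 : |t| * |β| ≤ |t| * K := by gcongr
  have b2 : |t| * |t| ≤ |t| * 1 := by gcongr
  have b3 : 0 ≤ |t| * K := by positivity
  linarith

lemma scalar_ineq {t a s β γ f w K : ℝ} (hK : 0 ≤ K) (ht1 : |t| ≤ 1)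
    (ht2 : |t| * (3 * K + 2 * K ^ 2) ≤ 1) (ha : |a| ≤ 3 * K) (hs : |s| ≤ 2 * K ^ 2) (hβ : |β| ≤ K)
    (hγ : f ^ 2 = 1 - γ ^ 2) (hw : 0 ≤ w) (he : |a - 1 / 2 * β| ≤ w + (3 * K ^ 2 + 1 / 2) * |t|) :
    1 - ((5 * K ^ 2 + 1 + (3 * K + 2 * K ^ 2) * (K + 1)) * t ^ 2 + f ^ 2 + w * |t|) ≤
      |(1 - t * a + t ^ 2 * s) * γ| * Real.exp (t * β / 2 - t ^ 2 / 4) := by
  have h0 := abs_nonneg t
  have hsq : t ^ 2 = |t| * |t| := by rw [← sq, sq_abs]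
  have hu := scalar_u ht1 ha hs
  have hx := scalar_x ht1 hβ
  have hux : |(-(t * a) + t ^ 2 * s) * (t * β / 2 - t ^ 2 / 4)| ≤
      (3 * K + 2 * K ^ 2) * (K + 1) * t ^ 2 := by
    rw [abs_mul]
    calc _ ≤ |t| * (3 * K + 2 * K ^ 2) * (|t| * (K + 1)) :=
          mul_le_mul hu hx (abs_nonneg _) (by positivity)
      _ = (3 * K + 2 * K ^ 2) * (K + 1) * (|t| * |t|) := by ring
      _ = _ := by rw [← hsq]
  have hte : |t * (a - 1 / 2 * β)| ≤ w * |t| + (3 * K ^ 2 + 1 / 2) * t ^ 2 := by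
    rw [abs_mul]
    calc _ ≤ |t| * (w + (3 * K ^ 2 + 1 / 2) * |t|) := mul_le_mul_of_nonneg_left he h0
      _ = w * |t| + (3 * K ^ 2 + 1 / 2) * (|t| * |t|) := by ring
      _ = _ := by rw [← hsq]
  have hts : |t ^ 2 * s| ≤ 2 * K ^ 2 * t ^ 2 := by
    rw [abs_mul, abs_of_nonneg (sq_nonneg t), mul_comm]
    exact mul_le_mul_of_nonneg_right hs (sq_nonneg t)
  have key := scalar_aux (u := -(t * a) + t ^ 2 * s) (x := t * β / 2 - t ^ 2 / 4)
    (B := (5 * K ^ 2 + 1 + (3 * K + 2 * K ^ 2) * (K + 1)) * t ^ 2 + w * |t|)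
    (by linarith [(abs_le.mp (hu.trans ht2)).1]) (by positivity) (by
      have e : (1 + (-(t * a) + t ^ 2 * s)) * (1 + (t * β / 2 - t ^ 2 / 4)) =
          1 - t * (a - 1 / 2 * β) + t ^ 2 * s - t ^ 2 / 4
            + (-(t * a) + t ^ 2 * s) * (t * β / 2 - t ^ 2 / 4) := by ring
      rw [e]
      linarith [(abs_le.mp hux).1, (abs_le.mp hte).2, (abs_le.mp hts).1, sq_nonneg t]) hγ
  rw [show 1 - t * a + t ^ 2 * s = 1 + (-(t * a) + t ^ 2 * s) by ring]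
  linarith

/-- the Jacobian of the projection along a slice -/
lemma jac_ge (h : Tube0 V c K) {y : E3} (hy : |V y| < c) (h1 : |V y| ≤ 1)
    (h2 : |V y| * (3 * K + 2 * K ^ 2) ≤ 1) {T : Submodule ℝ E3} (hT : Module.finrank ℝ T = 2)
    {w : ℝ} (hw : |ee V (foot V y)| ≤ w) :
    ∃ n n' : E3, ‖n‖ = 1 ∧ n ∈ Tᗮ ∧ ‖n'‖ = 1 ∧
      rho y / rho (foot V y) * (1 - ((5 * K ^ 2 + 1 + (3 * K + 2 * K ^ 2) * (K + 1)) * V y ^ 2
        + ‖proj T (grad V y)‖ ^ 2 + w * |V y|)) ≤ |(jmap (fderiv ℝ (foot V) y) T n n').det| := by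
  obtain ⟨n, hn1, hnT, -, hn⟩ := H63.exists_normal (m := 2) finrank_E3 hT
  have hν := h.eik y hy
  refine ⟨n, grad V y, hn1, hnT, hν, ?_⟩
  set ν := grad V y with hνd
  set A := fderiv ℝ (grad V) y with hA
  have hAν : A ν = 0 := h.hess_grad hy
  let M : E3 →L[ℝ] E3 := ((ContinuousLinearMap.id ℝ E3 - (innerSL ℝ ν).smulRight ν).comp (proj T))
    + (innerSL ℝ n).smulRight ν
  have hM : ∀ v, M v = (v - ⟪n, v⟫ • n) - ⟪ν, v - ⟪n, v⟫ • n⟫ • ν + ⟪n, v⟫ • ν := fun v => by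
    simp only [M, add_apply, sub_apply, ContinuousLinearMap.comp_apply,
      ContinuousLinearMap.id_apply, ContinuousLinearMap.smulRight_apply, innerSL_apply_apply, hn]
  have e : jmap (fderiv ℝ (foot V) y) T n ν = (ContinuousLinearMap.id ℝ E3 - V y • A).comp M := by
    ext1 v
    simp only [jmap, add_apply, sub_apply, smul_apply, ContinuousLinearMap.comp_apply,
      ContinuousLinearMap.id_apply, ContinuousLinearMap.smulRight_apply, innerSL_apply_apply,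
      h.fderiv_foot_apply, hM, ← hn, ← hνd, ← hA]
    rw [map_add, map_sub, map_smul, map_smul, hAν, smul_zero, smul_zero, sub_zero, add_zero]
    abel
  obtain ⟨s, hs, hdet⟩ := det_shift hν A (h.b2 y) hAν (h.inner_hess_grad hy) (V y)
  have hc : ((ContinuousLinearMap.id ℝ E3 - V y • A).comp M).det =
      (ContinuousLinearMap.id ℝ E3 - V y • A).det * M.det :=
    LinearMap.det_comp (ContinuousLinearMap.id ℝ E3 - V y • A : E3 →L[ℝ] E3).toLinearMap M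
  rw [e, hc, hdet, det_tilt hn1 ν M hM]
  have ha : |tr A| ≤ 3 * K := by
    have h3 := abs_tr_le A
    rw [finrank_E3] at h3
    have h4 := h.b2 y
    push_cast at h3
    linarith
  have hf : ‖proj T ν‖ ^ 2 = 1 - ⟪n, ν⟫ ^ 2 := by rw [H63.norm_proj_sq hn1 hn, hν]; norm_num
  have he : |tr A - 1 / 2 * ⟪y, ν⟫| ≤ w + (3 * K ^ 2 + 1 / 2) * |V y| := by
    have h3 := h.ee_foot hy
    have h4 := abs_sub_abs_le_abs_sub (ee V y) (ee V (foot V y))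
    change |ee V y| ≤ _
    linarith
  have key := scalar_ineq h.K_nonneg h1 h2 ha hs (h.bx y) hf ((abs_nonneg _).trans hw) he
  have hr : rho y / rho (foot V y) * Real.exp (V y * ⟪y, ν⟫ / 2 - V y ^ 2 / 4) = 1 := by
    unfold rho foot
    rw [← Real.exp_sub, ← Real.exp_add, norm_sub_sq_real, real_inner_smul_right, norm_smul, hν,
      mul_one, Real.norm_eq_abs, sq_abs, Real.exp_eq_one_iff]
    ring
  have hp : 0 < rho y / rho (foot V y) := div_pos (rho_pos _) (rho_pos _)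
  calc _ ≤ rho y / rho (foot V y) * (|(1 - V y * tr A + V y ^ 2 * s) * ⟪n, ν⟫|
        * Real.exp (V y * ⟪y, ν⟫ / 2 - V y ^ 2 / 4)) := by gcongr
    _ = _ := by rw [mul_left_comm, hr, mul_one]

/-- the projection is injective on the good part of one sheet -/
lemma inj_foot (h : Tube0 V c K) {x y : E3} (hx : |V x| < c) (hy : |V y| < c) {η C : ℝ}
    (hxη : |V x| ≤ η) (hyη : |V y| ≤ η) (hC : η * |C| ≤ 1 / 8) {T : Submodule ℝ E3}
    (hT : Module.finrank ℝ T = 2) (ht : ‖proj T (grad V y)‖ ≤ 1 / 2)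
    (htwo : ‖x - y‖ ≤ 2 * η → ‖(x - y) - proj T (x - y)‖ ≤ C * ‖x - y‖ ^ 2)
    (hxy : foot V x = foot V y) : x = y := by
  obtain ⟨n, hn1, -, -, hn⟩ := H63.exists_normal (m := 2) finrank_E3 hT
  have hν := h.eik y hy
  have hg : grad V x = grad V y := by rw [← h.grad_foot hx, hxy, h.grad_foot hy]
  have e1 : x - y = (V x - V y) • grad V y := by
    have a1 := Tube0.foot_add V x
    have a2 := Tube0.foot_add V y
    rw [hxy, hg] at a1
    rw [sub_smul]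
    calc x - y = (foot V y + V x • grad V y) - (foot V y + V y • grad V y) := by rw [a1, a2]
      _ = _ := by abel
  have ha : |V x - V y| ≤ 2 * η := by linarith [abs_sub (V x) (V y)]
  generalize V x - V y = a at e1 ha
  have hn2 : ‖x - y‖ = |a| := by rw [e1, norm_smul, hν, mul_one, Real.norm_eq_abs]
  have h3 := htwo (by rw [hn2]; exact ha)
  rw [hn2, hn, sub_sub_cancel, norm_smul, hn1, mul_one, e1, real_inner_smul_right,
    Real.norm_eq_abs, abs_mul] at h3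
  have hf : ‖proj T (grad V y)‖ ^ 2 = 1 - ⟪n, grad V y⟫ ^ 2 := by
    rw [H63.norm_proj_sq hn1 hn, hν]; norm_num
  have h4 : 1 / 2 ≤ |⟪n, grad V y⟫| :=
    le_trans (le_abs_self _) (sq_le_sq.mp (by nlinarith [norm_nonneg (proj T (grad V y))]))
  have h5 : C * |a| ≤ 1 / 4 := by
    nlinarith [le_abs_self C, abs_nonneg a, abs_nonneg C]
  have h6 : |a| = 0 := by
    by_contra h7
    have h8 : 0 < |a| := lt_of_le_of_ne (abs_nonneg a) (Ne.symm h7)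
    nlinarith
  rwa [h6, norm_eq_zero, sub_eq_zero] at hn2

lemma exists_eta (K C : ℝ) {c₁ r : ℝ} (hc : 0 < c₁) (hr : 0 < r) :
    ∃ η : ℝ, 0 < η ∧ η < c₁ ∧ η ≤ 1 ∧ η * (3 * K + 2 * K ^ 2) ≤ 1 ∧ η * |C| ≤ 1 / 8 ∧ 2 * η ≤ r := by
  have h1 : ∀ᶠ η in 𝓝 (0 : ℝ), η < c₁ := gt_mem_nhds hc
  have h2 : ∀ᶠ η in 𝓝 (0 : ℝ), η ≤ 1 := ge_mem_nhds one_pos
  have h3 : ∀ a b : ℝ, 0 < b → ∀ᶠ η in 𝓝 (0 : ℝ), η * a ≤ b := fun a b hb =>
    (continuous_id.mul continuous_const).continuousAt.eventually (ge_mem_nhds (by simpa using hb))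
  have h4 := (h1.and (h2.and ((h3 (3 * K + 2 * K ^ 2) 1 one_pos).and
    ((h3 |C| (1 / 8) (by norm_num)).and (h3 2 r hr))))).filter_mono
    (nhdsWithin_le_nhds (s := Ioi (0 : ℝ)))
  obtain ⟨η, ⟨a1, a2, a3, a4, a5⟩, a6⟩ := (h4.and self_mem_nhdsWithin).exists
  exact ⟨η, a6, a1, a2, a3, a4, by linarith⟩

lemma pt_good {F G ρ ρ' K₁ C₀ C₂ W k t f : ℝ} (hρ : 0 < ρ) (hρ' : 0 < ρ') (hF : F ≤ G) (hG0 : 0 ≤ G)
    (hG : G ≤ K₁) (hC₀ : 0 ≤ C₀) (hW : 0 ≤ W) (hk : 0 ≤ k) (hC₂ : C₀ + W ^ 2 ≤ C₂) :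
    F * ρ ≤ G * ρ' * (ρ / ρ' * (1 - (C₀ * t ^ 2 + f ^ 2 + k * W * |t|)))
      + (K₁ * C₂ * (t ^ 2 * ρ) + K₁ * 4 * (f ^ 2 * ρ) + K₁ * k ^ 2 * ρ) := by
  have e1 : G * ρ' * (ρ / ρ' * (1 - (C₀ * t ^ 2 + f ^ 2 + k * W * |t|))) =
      G * ρ - G * ((C₀ * t ^ 2 + f ^ 2 + k * W * |t|) * ρ) := by
    field_simp
  have e2 : C₀ * t ^ 2 + f ^ 2 + k * W * |t| ≤ C₂ * t ^ 2 + 4 * f ^ 2 + k ^ 2 := by
    have a1 : (C₀ + W ^ 2) * t ^ 2 ≤ C₂ * t ^ 2 := mul_le_mul_of_nonneg_right hC₂ (sq_nonneg t)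
    rw [← sq_abs t] at *
    nlinarith [sq_nonneg (k - W * |t|), sq_nonneg f, sq_nonneg k, sq_nonneg (W * |t|)]
  have e3 : G * ((C₀ * t ^ 2 + f ^ 2 + k * W * |t|) * ρ) ≤
      K₁ * ((C₂ * t ^ 2 + 4 * f ^ 2 + k ^ 2) * ρ) :=
    mul_le_mul hG (mul_le_mul_of_nonneg_right e2 hρ.le) (by positivity) (hG0.trans hG)
  have e4 := mul_le_mul_of_nonneg_right hF hρ.le
  rw [e1]
  linarith

lemma pt_bad {F ρ K₁ C₂ k t f η : ℝ} (hρ : 0 < ρ) (hF : F ≤ K₁) (hK₁ : 0 ≤ K₁) (hη : 0 < η)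
    (hC₂ : (η ^ 2)⁻¹ ≤ C₂) (h : η < |t| ∨ 1 / 2 < f ∨ F = 0) :
    F * ρ ≤ K₁ * C₂ * (t ^ 2 * ρ) + K₁ * 4 * (f ^ 2 * ρ) + K₁ * k ^ 2 * ρ := by
  have hC : 0 ≤ C₂ := le_trans (by positivity) hC₂
  have p1 : 0 ≤ K₁ * C₂ * (t ^ 2 * ρ) := by positivity
  have p2 : 0 ≤ K₁ * 4 * (f ^ 2 * ρ) := by positivity
  have p3 : 0 ≤ K₁ * k ^ 2 * ρ := by positivity
  have e4 := mul_le_mul_of_nonneg_right hF hρ.le
  rcases h with h | h | h
  · have c4 : η ^ 2 ≤ t ^ 2 := by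
      rw [← sq_abs t]
      gcongr
    have c5 : (η ^ 2)⁻¹ * η ^ 2 ≤ C₂ * t ^ 2 := by gcongr
    rw [inv_mul_cancel₀ (by positivity)] at c5
    have c6 : K₁ * ρ * 1 ≤ K₁ * ρ * (C₂ * t ^ 2) := by gcongr
    linarith
  · have c3 : 1 ≤ 4 * f ^ 2 := by nlinarith
    have c4 : K₁ * ρ * 1 ≤ K₁ * ρ * (4 * f ^ 2) := by gcongr
    linarith
  · rw [h, zero_mul]
    linarith

lemma err_int (h : Tube0 V c K) {μ : Measure E3} {T : E3 → Submodule ℝ E3} {H : E3 → E3}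
    (hS : GSlice 2 μ T H) {M K₁ C₂ : ℝ} (k : ℝ) (hM : FA μ ≤ M) (hK₁ : 0 ≤ K₁) (hC₂ : 0 ≤ C₂) :
    Integrable (fun y => K₁ * C₂ * (V y ^ 2 * rho y)
      + K₁ * 4 * (‖proj (T y) (grad V y)‖ ^ 2 * rho y) + K₁ * k ^ 2 * rho y) μ ∧
    ∫ y, (K₁ * C₂ * (V y ^ 2 * rho y) + K₁ * 4 * (‖proj (T y) (grad V y)‖ ^ 2 * rho y)
      + K₁ * k ^ 2 * rho y) ∂μ ≤ K₁ * (C₂ + 4 + |M|) * (DD μ V 0 + TG μ T V 0 + k ^ 2) := by
  have hfm : AEStronglyMeasurable (fun y => ‖proj (T y) (grad V y)‖) μ :=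
    (hS.proj_apply_meas h.pg_grad.cont.aestronglyMeasurable).norm
  have i1 : Integrable (fun y => V y ^ 2 * rho y) μ :=
    hS.integrable_PB (h.cont.pow 2).aestronglyMeasurable (h.pg.b0.pow 2)
  have i2 : Integrable (fun y => ‖proj (T y) (grad V y)‖ ^ 2 * rho y) μ := by
    refine hS.integrable_dom (g := fun y => ‖grad V y‖ ^ 2) (hfm.pow 2) (h.pg_grad.b0.norm.pow 2)
      fun y => ?_
    rw [abs_of_nonneg (by positivity), abs_of_nonneg (by positivity)]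
    gcongr
    exact norm_proj_apply_le _ _
  have i3 : Integrable (fun y => rho y) μ := by simpa using hS.mom 0
  have i4 : Integrable (fun y => K₁ * C₂ * (V y ^ 2 * rho y)
      + K₁ * 4 * (‖proj (T y) (grad V y)‖ ^ 2 * rho y)) μ := (i1.const_mul _).add (i2.const_mul _)
  refine ⟨i4.add (i3.const_mul _), ?_⟩
  have hD := DD_nonneg (μ := μ) (W := V) 0
  have hT := TG_nonneg (μ := μ) (T := T) (W := V) 0
  have e1 : ∫ y, V y ^ 2 * rho y ∂μ = DD μ V 0 := by simp [DD]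
  have e2 : ∫ y, ‖proj (T y) (grad V y)‖ ^ 2 * rho y ∂μ = TG μ T V 0 := by simp [TG, wt]
  have e3 : ∫ y, rho y ∂μ ≤ |M| := hM.trans (le_abs_self M)
  rw [integral_add i4 (i3.const_mul _), integral_add (i1.const_mul _) (i2.const_mul _),
    integral_const_mul, integral_const_mul, integral_const_mul, e1, e2]
  have e4 : K₁ * k ^ 2 * ∫ y, rho y ∂μ ≤ K₁ * k ^ 2 * |M| := by gcongr
  have e5 : 0 ≤ K₁ * (C₂ * (TG μ T V 0 + k ^ 2) + 4 * (DD μ V 0 + k ^ 2)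
      + |M| * (DD μ V 0 + TG μ T V 0)) := by positivity
  linarith

theorem st6 (c K : ℝ) (q : ℕ) (R₁ K₁ c₁ r C M : ℝ) (hK : 0 ≤ K) (hK₁ : 0 ≤ K₁) (hc₁ : 0 < c₁)
    (hc : c₁ ≤ c) (hr : 0 < r) : ∃ C₁ : ℝ,
    ∀ V : E3 → ℝ, Tube0 V c K → ZSlice V → ∀ k : ℝ, 0 ≤ k →
      (∀ y, V y = 0 → |ee V y| ≤ k * (1 + ‖y‖) ^ q) →
      ∀ g : E3 → ℝ, Continuous g → (∀ y, 0 ≤ g y ∧ g y ≤ K₁) → (∀ y, R₁ ≤ ‖y‖ → g y = 0) →
      ∀ (μ : Measure E3) (T : E3 → Submodule ℝ E3) (H : E3 → E3), GSlice 2 μ T H →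
        Sheet μ T (R₁ + c) r C → FA μ ≤ M →
        ∫ y, (if |V y| < c₁ then g (foot V y) else 0) * rho y ∂μ
          ≤ ∫ y, g y * rho y ∂(hm (zs V)) + C₁ * (DD μ V 0 + TG μ T V 0 + k ^ 2) := by
  obtain ⟨η, hη, hηc, hη1, hηK, hηC, hηr⟩ := exists_eta K C hc₁ hr
  obtain ⟨C₀, hC₀, hC₀0⟩ :
      ∃ C₀ : ℝ, C₀ = 5 * K ^ 2 + 1 + (3 * K + 2 * K ^ 2) * (K + 1) ∧ 0 ≤ C₀ :=
    ⟨_, rfl, by positivity⟩
  obtain ⟨W, hW, hW0⟩ : ∃ W : ℝ, W = (1 + (|R₁ + c| + 1)) ^ q ∧ 0 ≤ W := ⟨_, rfl, by positivity⟩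
  obtain ⟨C₂, hC₂, hC₂0⟩ : ∃ C₂ : ℝ, C₂ = C₀ + W ^ 2 + (η ^ 2)⁻¹ ∧ 0 ≤ C₂ :=
    ⟨_, rfl, by positivity⟩
  refine ⟨K₁ * (C₂ + 4 + |M|), fun V h hZ k hk hee g hg hgb hgs μ T H hS hsh hM => ?_⟩
  obtain ⟨N, hNm, hNa, hAF, htwo⟩ := hsh
  obtain ⟨T', H', hS', -⟩ := hZ
  have hfm : AEStronglyMeasurable (fun y => ‖proj (T y) (grad V y)‖) μ :=
    (hS.proj_apply_meas h.pg_grad.cont.aestronglyMeasurable).norm
  obtain ⟨f, hf, hfe⟩ := hfm.aemeasurable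
  obtain ⟨Z, hZa, hZm, hZ⟩ := (hfe.and hS.mc.dim).exists_measurable_mem
  set A : Set E3 := N ∩ Z ∩ {y | |V y| ≤ η} ∩ {y | f y ≤ 1 / 2} ∩ closedBall 0 (R₁ + c) with hA
  have hAm : MeasurableSet A :=
    (((hNm.inter hZm).inter (measurableSet_le h.cont.abs.measurable measurable_const)).inter
      (measurableSet_le hf measurable_const)).inter measurableSet_closedBall
  have hmem : ∀ y ∈ A, y ∈ N ∧ ‖proj (T y) (grad V y)‖ = f y ∧ Module.finrank ℝ (T y) = 2 ∧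
      |V y| ≤ η ∧ |V y| < c ∧ f y ≤ 1 / 2 ∧ ‖y‖ ≤ R₁ + c := by
    rintro y ⟨⟨⟨⟨a1, a2⟩, a3⟩, a4⟩, a5⟩
    have a6 : |V y| ≤ η := a3
    exact ⟨a1, (hZ y a2).1, (hZ y a2).2, a3, by linarith, a4, mem_closedBall_zero_iff.mp a5⟩
  have hinj : InjOn (foot V) A := by
    intro x hx y hy hxy
    obtain ⟨a1, -, -, a4, a5, -, -⟩ := hmem x hx
    obtain ⟨b1, b2, b3, b4, b5, b6, b7⟩ := hmem y hy
    exact inj_foot h a5 b5 a4 b4 hηC b3 (b2.trans_le b6)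
      (fun hd => htwo y b1 b7 x a1 (hd.trans hηr)) hxy
  set j : E3 → ℝ := fun y => rho y / rho (foot V y) * (1 - (C₀ * V y ^ 2 + f y ^ 2 + k * W * |V y|))
    with hj
  have hfc : Continuous (foot V) := h.foot_cd.continuous
  have hVm : Measurable V := h.cont.measurable
  have hjm : Measurable j :=
    (continuous_rho.measurable.div (continuous_rho.comp hfc).measurable).mul
      (measurable_const.sub ((((hVm.pow_const 2).const_mul C₀).add (hf.pow_const 2)).add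
        (h.cont.abs.measurable.const_mul _)))
  have hhm : Measurable fun z : E3 => ENNReal.ofReal (g z * rho z) :=
    ENNReal.measurable_ofReal.comp (hg.mul continuous_rho).measurable
  have h1 := hAF (foot V) h.foot_cd A (fun y hy => (hmem y hy).1) hAm hinj j hjm (fun y hy => by
    obtain ⟨-, b2, b3, b4, b5, -, b7⟩ := hmem y hy
    have b8 : |ee V (foot V y)| ≤ k * W := by
      refine (hee _ (h.V_foot b5)).trans ?_
      have b9 := h.norm_foot_le b5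
      have b10 := le_abs_self (R₁ + c)
      rw [hW]
      gcongr
      linarith
    have := jac_ge h b5 (b4.trans hη1) (le_trans (by gcongr) hηK) b3 b8
    rwa [b2, ← hC₀] at this) _ hhm
  have hgi : Integrable (fun z => g z * rho z) (hm (zs V)) :=
    hS'.integrable_PB hg.aestronglyMeasurable (PB.of_bound (C := K₁) fun z => by
      rw [Real.norm_eq_abs, abs_of_nonneg (hgb z).1]; exact (hgb z).2)
  have hgn : ∀ z, 0 ≤ g z * rho z := fun z => mul_nonneg (hgb z).1 (rho_pos z).le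
  have h2 : ∫⁻ z in foot V '' A, ENNReal.ofReal (g z * rho z) ∂(μH[2] : Measure E3) ≤
      ENNReal.ofReal (∫ z, g z * rho z ∂(hm (zs V))) := by
    rw [ofReal_integral_eq_lintegral_ofReal hgi (Eventually.of_forall hgn)]
    refine lintegral_mono_set ?_
    rintro _ ⟨y, hy, rfl⟩
    exact h.V_foot (hmem y hy).2.2.2.2.1
  obtain ⟨i4, h3⟩ := err_int h hS k hM hK₁ hC₂0
  have hEr0 : ∀ y, 0 ≤ K₁ * C₂ * (V y ^ 2 * rho y)
      + K₁ * 4 * (‖proj (T y) (grad V y)‖ ^ 2 * rho y) + K₁ * k ^ 2 * rho y := fun y => by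
    have := rho_pos y
    positivity
  have hF0 : ∀ y, 0 ≤ (if |V y| < c₁ then g (foot V y) else 0) := fun y => by
    split_ifs
    · exact (hgb _).1
    · exact le_rfl
  have hFg : ∀ y, (if |V y| < c₁ then g (foot V y) else 0) ≤ g (foot V y) := fun y => by
    split_ifs
    · exact le_rfl
    · exact (hgb _).1
  have hi : 0 ≤ (η ^ 2)⁻¹ := by positivity
  have hpt : ∀ᵐ y ∂μ, ENNReal.ofReal ‖(if |V y| < c₁ then g (foot V y) else 0) * rho y‖ ≤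
      A.indicator (fun y => ENNReal.ofReal (g (foot V y) * rho (foot V y)) * ENNReal.ofReal (j y)) y
        + ENNReal.ofReal (K₁ * C₂ * (V y ^ 2 * rho y)
          + K₁ * 4 * (‖proj (T y) (grad V y)‖ ^ 2 * rho y) + K₁ * k ^ 2 * rho y) := by
    filter_upwards [hNa, hZa] with y hyN hyZ
    have hρ := rho_pos y
    have hg1 := hgb (foot V y)
    have hfy : ‖proj (T y) (grad V y)‖ = f y := (hZ y hyZ).1
    rw [Real.norm_eq_abs, abs_of_nonneg (mul_nonneg (hF0 y) hρ.le), hfy]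
    by_cases hyA : y ∈ A
    · rw [indicator_of_mem hyA, ← ENNReal.ofReal_mul (hgn _)]
      exact le_trans (ENNReal.ofReal_le_ofReal (pt_good hρ (rho_pos _) (hFg y) hg1.1 hg1.2 hC₀0 hW0
        hk (by linarith))) ENNReal.ofReal_add_le
    · refine le_trans (ENNReal.ofReal_le_ofReal (pt_bad hρ ((hFg y).trans hg1.2) hK₁ hη
        (by linarith [sq_nonneg W]) ?_)) le_add_self
      rcases lt_or_ge η |V y| with c1 | c1
      · exact Or.inl c1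
      rcases lt_or_ge (1 / 2) (f y) with c2 | c2
      · exact Or.inr (Or.inl c2)
      have c3 : R₁ + c < ‖y‖ := by
        by_contra c3
        exact hyA ⟨⟨⟨⟨hyN (not_lt.mp c3), hyZ⟩, c1⟩, c2⟩,
          mem_closedBall_zero_iff.mpr (not_lt.mp c3)⟩
      have c4 : |V y| < c := by linarith
      have c5 := h.le_norm_foot c4
      right; right
      rw [hgs _ (by linarith), ite_self]
  have h4 := lintegral_mono_ae hpt
  have hpm : Measurable fun y => ENNReal.ofReal (g (foot V y) * rho (foot V y))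
      * ENNReal.ofReal (j y) := (hhm.comp hfc.measurable).mul (ENNReal.measurable_ofReal.comp hjm)
  rw [lintegral_add_left (hpm.indicator hAm), lintegral_indicator hAm,
    ← ofReal_integral_eq_lintegral_ofReal i4 (Eventually.of_forall hEr0)] at h4
  have h5 := h4.trans (add_le_add (h1.trans h2) le_rfl)
  have p1 : 0 ≤ ∫ z, g z * rho z ∂(hm (zs V)) := integral_nonneg hgn
  have p2 : 0 ≤ ∫ y, (K₁ * C₂ * (V y ^ 2 * rho y)
      + K₁ * 4 * (‖proj (T y) (grad V y)‖ ^ 2 * rho y) + K₁ * k ^ 2 * rho y) ∂μ :=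
    integral_nonneg hEr0
  rw [← ENNReal.ofReal_add p1 p2] at h5
  have h6 := (norm_integral_le_lintegral_norm _).trans
    (ENNReal.toReal_le_of_le_ofReal (add_nonneg p1 p2) h5)
  linarith [(le_abs_self _).trans h6]

end Vale.Agent.P218F.Dyn.S6

namespace Vale.Agent.P218F.Dyn

theorem st6_proof : ST6Stmt := by
  intro c K L q R₁ K₁ c₁ r C M hc₁ hc hr
  by_cases hK : 0 ≤ K
  · by_cases hK₁ : 0 ≤ K₁
    · obtain ⟨C₁, h⟩ := S6.st6 c K q R₁ K₁ c₁ r C M hK hK₁ hc₁ hc hr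
      exact ⟨C₁, fun V hV => h V hV.toTube0⟩
    · exact ⟨0, fun V _ _ k _ _ g _ hg => absurd ((hg 0).1.trans (hg 0).2) hK₁⟩
  · exact ⟨0, fun V hV => absurd hV.toTube0.K_nonneg hK⟩

end Vale.Agent.P218F.Dyn
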