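import Vale.Agent.P218F.EndsSpec
import Vale.Agent.P218FT.Scale
import Vale.Agent.P218FT.Local2
import Vale.Agent.P218FT.ProjInt

/-! Ends of a shrinker, part 1: the density set at time zero and the type of a direction. -/

open MeasureTheory Set Filter Topology Metric
open scoped ENNReal NNReal RealInnerProductSpace ContDiff

namespace Vale.Agent.P218F.Ends

open Vale.Agent.P218FT

variable {D G : ℝ} {S : Set E3}

theorem mem_ss {s : ℝ} {x : E3} : x ∈ ssFlow S s ↔ (√(-s))⁻¹ • x ∈ S := by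
  simp [ssFlow, mem_scaleSet]

theorem ss_neg_one : ssFlow S (-1) = S := by
  ext x; simp [mem_ss]

theorem sqrt_inv_sq {l : ℝ} (hl : 0 < l) : √(-(-(l ^ 2)⁻¹)) = l⁻¹ := by
  rw [neg_neg, ← inv_pow, Real.sqrt_sq (inv_pos.2 hl).le]

theorem ss_inv_sq {l : ℝ} (hl : 0 < l) : ssFlow S (-(l ^ 2)⁻¹) = scaleSet l⁻¹ 0 S := by
  rw [ssFlow, sqrt_inv_sq hl]

theorem mem_ss_inv_sq {l : ℝ} (hl : 0 < l) {x : E3} : x ∈ ssFlow S (-(l ^ 2)⁻¹) ↔ l • x ∈ S := by
  rw [ss_inv_sq hl, mem_zoom, zero_add]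

theorem TwoPt.mono' {N : Set E3} {x : E3} {r C r' C' : ℝ} (h : TwoPt N x r C) (hr : r' ≤ r)
    (hC : C ≤ C') : TwoPt N x r' C' :=
  fun y hy hd => (h y hy (hd.trans hr)).trans (mul_le_mul_of_nonneg_right hC (sq_nonneg _))

theorem twoPt_of_ss {l r C : ℝ} (hl : 0 < l) {x : E3} (hx : l • x ∈ S)
    (h : TwoPt (ssFlow S (-(l ^ 2)⁻¹)) x r C) : TwoPt S (l • x) (r * l) (C / l) := by
  rw [ss_inv_sq hl, twoPt_zoom hl (by rwa [zero_add]), zero_add] at h
  exact h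

theorem continuousAt_gA {N : Set E3} (h : AreaRatio D N) (y : E3) {r : ℝ} (hr : 0 < r) :
    ContinuousAt (fun p : E3 × ℝ => gA N p.1 p.2) (y, r) := by
  unfold gA
  have hnb : ∀ᶠ p : E3 × ℝ in 𝓝 (y, r), ‖p.1 - y‖ < 1 ∧ r / 2 < p.2 ∧ p.2 < 2 * r := by
    have h1 : ∀ᶠ p : E3 × ℝ in 𝓝 (y, r), ‖p.1 - y‖ < 1 :=
      (by fun_prop : Continuous fun p : E3 × ℝ => ‖p.1 - y‖).continuousAt.eventually_lt
        continuousAt_const (by simp)
    have h2 : ∀ᶠ p : E3 × ℝ in 𝓝 (y, r), r / 2 < p.2 :=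
      continuousAt_const.eventually_lt continuousAt_snd (by simpa using hr)
    have h3 : ∀ᶠ p : E3 × ℝ in 𝓝 (y, r), p.2 < 2 * r :=
      continuousAt_snd.eventually_lt continuousAt_const (by simp; linarith)
    exact h1.and (h2.and h3)
  refine continuousAt_of_dominated
    (bound := fun x => 32 * Real.exp (1 / (16 * r ^ 2)) * gk (8 * r ^ 2) (x - y)) ?_ ?_ ?_ ?_
  · exact Eventually.of_forall fun p =>
      ((continuous_gk _).comp (by fun_prop)).aestronglyMeasurable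
  · filter_upwards [hnb] with p ⟨h1, h2, h3⟩
    refine Eventually.of_forall fun x => ?_
    have hp : 0 < p.2 := by linarith
    rw [Real.norm_eq_abs, abs_of_pos (gk_pos (by positivity) _), gk, gk]
    have hpi := Real.pi_pos
    have e1 : (4 * Real.pi * p.2 ^ 2)⁻¹ ≤ 32 * (4 * Real.pi * (8 * r ^ 2))⁻¹ := by
      rw [← div_eq_mul_inv, inv_eq_one_div, div_le_div_iff₀ (by positivity) (by positivity)]
      have : r ^ 2 ≤ 4 * p.2 ^ 2 := by nlinarith
      nlinarith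
    have e2 : ‖x - y‖ ^ 2 ≤ 2 * ‖x - p.1‖ ^ 2 + 2 := by
      have : ‖x - y‖ ≤ ‖x - p.1‖ + ‖p.1 - y‖ := norm_sub_le_norm_sub_add_norm_sub _ _ _
      nlinarith [norm_nonneg (x - y), norm_nonneg (x - p.1), norm_nonneg (p.1 - y),
        sq_nonneg (‖x - p.1‖ - 1)]
    have e3 : -‖x - p.1‖ ^ 2 / (4 * p.2 ^ 2) ≤
        1 / (16 * r ^ 2) + -‖x - y‖ ^ 2 / (4 * (8 * r ^ 2)) := by
      have a1 : ‖x - p.1‖ ^ 2 / (16 * r ^ 2) ≤ ‖x - p.1‖ ^ 2 / (4 * p.2 ^ 2) := by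
        apply div_le_div_of_nonneg_left (sq_nonneg _) (by positivity)
        nlinarith
      have a2 : ‖x - y‖ ^ 2 / (4 * (8 * r ^ 2)) ≤ ‖x - p.1‖ ^ 2 / (16 * r ^ 2) + 1 / (16 * r ^ 2) := by
        rw [← add_div, div_le_div_iff₀ (by positivity) (by positivity)]
        nlinarith [sq_pos_of_pos hr]
      rw [neg_div, neg_div]; linarith
    calc _ ≤ 32 * (4 * Real.pi * (8 * r ^ 2))⁻¹ *
          Real.exp (1 / (16 * r ^ 2) + -‖x - y‖ ^ 2 / (4 * (8 * r ^ 2))) := by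
          gcongr
      _ = _ := by rw [Real.exp_add]; ring
  · exact (integrable_gk h y (by positivity)).const_mul _
  · refine Eventually.of_forall fun x => ?_
    unfold gk
    have hpi := Real.pi_pos
    refine ContinuousAt.mul (ContinuousAt.inv₀ (by fun_prop) (by positivity)) ?_
    refine Real.continuous_exp.continuousAt.comp (ContinuousAt.div (by fun_prop) (by fun_prop) ?_)
    positivity

theorem dens_ss (y : E3) {t r : ℝ} (h : t < r ^ 2) :
    dens (ssFlow S) y t r = gA S ((√(r ^ 2 - t))⁻¹ • y) (r / √(r ^ 2 - t)) := by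
  rw [dens, ssFlow, neg_sub, gA_scale (Real.sqrt_pos.2 (by linarith)), zero_add]

/-- a nonempty neighbourhood when the Gaussian area is at least one -/
theorem exists_near (D : ℝ) : ∃ ρ₀ : ℝ, 0 < ρ₀ ∧ ∀ N : Set E3, AreaRatio D N → ∀ (y : E3) (r : ℝ),
    0 < r → r ≤ 1 → 1 ≤ gA N y r → ∃ p ∈ N, ‖p - y‖ < ρ₀ := by
  obtain ⟨C₀, -, H⟩ := gauss_proof
  obtain ⟨ρ, hρ, H⟩ := (H (max D 0) (le_max_right _ _)).2 (1 / 2) (by norm_num)
  refine ⟨ρ, hρ, fun N hN y r hr hr1 h1 => ?_⟩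
  by_contra hc
  push Not at hc
  have h2 := H N (hN.mono (le_max_left _ _)) y r hr
  have h3 : (area N).restrict (ball y (ρ * r))ᶜ = area N := by
    rw [area, Measure.restrict_restrict measurableSet_ball.compl]
    congr 1
    refine inter_eq_right.2 fun p hp hb => ?_
    have := hc p hp
    rw [mem_ball, dist_eq_norm] at hb
    nlinarith
  rw [h3] at h2
  unfold gA at h1
  linarith

/-- the hypotheses -/
structure Hyp (D G : ℝ) (S : Set E3) : Prop where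
  hH : HuiskenStmt
  hD : DensStmt
  shr : IsShr S
  inC : InC D G (ssFlow S) (Iio 0)

/-- the points where the density of the self-similar flow at time zero is at least one -/
def Zset (S : Set E3) : Set E3 := {x | ∀ l : ℝ, 0 < l → 1 ≤ gA S (l • x) 1}

theorem Zset.smul {x : E3} (hx : x ∈ Zset S) {s : ℝ} (hs : 0 < s) : s • x ∈ Zset S :=
  fun l hl => by rw [smul_smul]; exact hx _ (mul_pos hl hs)

theorem inC_Ioo (h : InC D G (ssFlow S) (Iio 0)) : InC D G (ssFlow S) (Ioo (-2) 0) :=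
  ⟨h.mcf.mono isOpen_Ioo Ioo_subset_Iio_self, fun t ht => h.ratio t ht.2,
    fun t ht => h.lgb t ht.2⟩

namespace Hyp

variable (h : Hyp D G S)
include h

theorem ratio : AreaRatio D S := by
  have := h.inC.ratio (-1) (by simp)
  rwa [ss_neg_one] at this

theorem one_le {x : E3} (hx : x ∈ S) {κ : ℝ} (hκ : 1 < κ) :
    1 ≤ gA S (κ⁻¹ • x) (√(κ ^ 2 - 1) / κ) := by
  have h1 : 0 < κ ^ 2 - 1 := by nlinarith
  have := PI.one_le_dens h.hH h.hD h.inC.mcf h.inC.ratio (t := -1) (x := x) (Real.sqrt_pos.2 h1)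
    (fun s hs => lt_of_le_of_lt hs.2 (by norm_num)) (by rwa [ss_neg_one])
  rw [dens_ss _ (by rw [Real.sq_sqrt h1.le]; nlinarith), Real.sq_sqrt h1.le,
    show κ ^ 2 - 1 - -1 = κ ^ 2 by ring, Real.sqrt_sq (by linarith)] at this
  exact this

theorem isClosed_Z : IsClosed (Zset S) := by
  have : Zset S = ⋂ l : ℝ, ⋂ _ : 0 < l, {x | 1 ≤ gA S (l • x) 1} := by
    ext x; simp [Zset]
  rw [this]
  refine isClosed_iInter fun l => isClosed_iInter fun _ => isClosed_le continuous_const ?_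
  refine continuous_iff_continuousAt.2 fun x => ?_
  exact (continuousAt_gA h.ratio (l • x) one_pos).comp_of_eq
    (f := fun x : E3 => (l • x, (1 : ℝ))) (by fun_prop) rfl

theorem near_Z : ∃ ρ₀ : ℝ, 0 < ρ₀ ∧ ∀ x ∈ Zset S, ∀ l : ℝ, 0 < l → ∃ p ∈ S, ‖p - l • x‖ < ρ₀ := by
  obtain ⟨ρ₀, h0, H⟩ := exists_near D
  exact ⟨ρ₀, h0, fun x hx l hl => H S h.ratio _ 1 one_pos le_rfl (hx l hl)⟩

/-- points outside the density set are avoided by the blow-downs -/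
theorem out_Z {x : E3} (hx : x ∉ Zset S) :
    ∀ᶠ p : ℝ × E3 in atTop ×ˢ 𝓝 x, p.1 • p.2 ∉ S := by
  simp only [Zset, mem_ofPred_eq, not_forall, not_le] at hx
  obtain ⟨μ, hμ, hx⟩ := hx
  have h1 : ∀ᶠ p : E3 × ℝ in 𝓝 (μ • x, 1), gA S p.1 p.2 < 1 :=
    (continuousAt_gA h.ratio _ one_pos).eventually_lt continuousAt_const hx
  have h2 : Tendsto (fun l : ℝ => √((l / μ) ^ 2 - 1) / (l / μ)) atTop (𝓝 1) := by
    have a1 : Tendsto (fun l : ℝ => l / μ) atTop atTop := tendsto_id.atTop_div_const hμ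
    have a2 : Tendsto (fun k : ℝ => √(1 - (k⁻¹) ^ 2)) atTop (𝓝 (√(1 - 0 ^ 2))) :=
      ((tendsto_inv_atTop_zero.pow 2).const_sub 1).sqrt
    simp only [ne_eq, OfNat.ofNat_ne_zero, not_false_eq_true, zero_pow, sub_zero,
      Real.sqrt_one] at a2
    refine (a2.comp a1).congr' ?_
    filter_upwards [a1.eventually (eventually_gt_atTop 1)] with l hl
    have hk : 0 < l / μ := by linarith
    simp only [Function.comp]
    generalize l / μ = k at hk
    rw [eq_div_iff hk.ne', ← Real.sqrt_sq hk.le, ← Real.sqrt_mul' _ (sq_nonneg _),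
      Real.sqrt_sq hk.le]
    congr 1
    field_simp
  have h3 : Tendsto (fun p : ℝ × E3 => (μ • p.2, √((p.1 / μ) ^ 2 - 1) / (p.1 / μ)))
      (atTop ×ˢ 𝓝 x) (𝓝 (μ • x, 1)) :=
    (tendsto_snd.const_smul μ).prodMk_nhds (h2.comp tendsto_fst)
  filter_upwards [h3.eventually h1, tendsto_fst.eventually (eventually_gt_atTop μ)] with p hp hl hS
  have hk : 1 < p.1 / μ := (one_lt_div hμ).2 hl
  have := h.one_le hS hk
  have hp1 : p.1 ≠ 0 := by linarith
  rw [smul_smul, show (p.1 / μ)⁻¹ * p.1 = μ by field_simp] at this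
  linarith

theorem out_compact {K : Set E3} (hK : IsCompact K) (hd : ∀ x ∈ K, x ∉ Zset S) :
    ∀ᶠ l : ℝ in atTop, ∀ y ∈ K, l • y ∉ S := by
  have := hK.mem_prod_nhdsSet_of_forall (l := (atTop : Filter ℝ))
    (s := {p : ℝ × E3 | p.1 • p.2 ∉ S}) fun x hx => h.out_Z (hd x hx)
  obtain ⟨A, hA, B, hB, hAB⟩ := mem_prod_iff.1 this
  filter_upwards [hA] with l hl y hy
  exact hAB (mk_mem_prod hl (subset_of_mem_nhdsSet hB hy))

theorem dens_mono (y : E3) {t r r₁ : ℝ} (ht : t ≤ 0) (hr : 0 < r) (hr₁ : r ≤ r₁) :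
    dens (ssFlow S) y t r ≤ dens (ssFlow S) y t r₁ := by
  have hρ2 : r ^ 2 ≤ r₁ ^ 2 := by gcongr
  have hρ0 : 0 < r ^ 2 := by positivity
  have H := h.hH D _ _ h.inC.mcf h.inC.ratio y t (t - r₁ ^ 2) (t - r ^ 2) (by linarith)
    (by linarith) (fun s hs => lt_of_le_of_lt hs.2 (by linarith))
  rw [show t - (t - r ^ 2) = r ^ 2 by ring, show t - (t - r₁ ^ 2) = r₁ ^ 2 by ring,
    Real.sqrt_sq hr.le, Real.sqrt_sq (hr.le.trans hr₁)] at H
  exact (ENNReal.ofReal_le_ofReal_iff (PI.gA_nonneg _ _ _)).mp (le_self_add.trans H)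

end Hyp

/-- the self-similar flow is regular near `(y, 0)` -/
def Reg (S : Set E3) (y : E3) : Prop :=
  ∃ ρ r C : ℝ, 0 < ρ ∧ 0 < r ∧ 0 < C ∧ ∀ t ∈ Ico (-ρ ^ 2) 0, ∀ x ∈ ssFlow S t, ‖x - y‖ < ρ →
    TwoPt (ssFlow S t) x r C

theorem Hyp.reg (h : Hyp D G S) (hW : WhiteStmt) {y : E3} {θ : ℝ} (hθ : θ ≤ 1)
    (hl : Tendsto (fun r => dens (ssFlow S) y 0 r) (𝓝[>] 0) (𝓝 θ)) : Reg S y := by
  obtain ⟨ε, r, C, hε, hr, hC, hW⟩ := hW D
  obtain ⟨r₁, h1, hr₁⟩ := ((hl.eventually (gt_mem_nhds (show θ < 1 + ε by linarith))).and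
    self_mem_nhdsWithin).exists
  have hr₁ : 0 < r₁ := hr₁
  have hsq : 0 < r₁ ^ 2 := by positivity
  have c1 : ContinuousAt (fun p : E3 × ℝ =>
      gA S ((√(r₁ ^ 2 - p.2))⁻¹ • p.1) (r₁ / √(r₁ ^ 2 - p.2))) (y, 0) := by
    have hs : √(r₁ ^ 2 - 0) ≠ 0 := (Real.sqrt_pos.2 (by linarith)).ne'
    have c0 : ContinuousAt (fun p : E3 × ℝ => √(r₁ ^ 2 - p.2)) (y, 0) := by fun_prop
    refine (continuousAt_gA h.ratio _ (div_pos hr₁ (Real.sqrt_pos.2 (by linarith)))).comp_of_eq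
      (f := fun p : E3 × ℝ => ((√(r₁ ^ 2 - p.2))⁻¹ • p.1, r₁ / √(r₁ ^ 2 - p.2)))
      (((c0.inv₀ hs).smul continuousAt_fst).prodMk (continuousAt_const.div c0 hs)) rfl
  rw [dens_ss _ hsq] at h1
  obtain ⟨η, hη, H⟩ := Metric.eventually_nhds_iff.1 (c1.eventually_lt continuousAt_const h1)
  obtain ⟨ρ, hρ, hρ1, hρ2, hρ3⟩ : ∃ ρ : ℝ, 0 < ρ ∧ ρ ≤ r₁ ∧ 3 * ρ ≤ η ∧ 4 * ρ ^ 2 < η := by
    refine ⟨min r₁ (min (η / 8) 1), by positivity, min_le_left _ _, ?_, ?_⟩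
    · have := (min_le_right r₁ _).trans (min_le_left (η / 8) 1); linarith
    · have a1 := (min_le_right r₁ _).trans (min_le_left (η / 8) 1)
      have a2 := (min_le_right r₁ _).trans (min_le_right (η / 8) 1)
      have a3 : 0 < min r₁ (min (η / 8) 1) := by positivity
      nlinarith
  refine ⟨ρ, r * ρ, C / ρ, hρ, by positivity, by positivity, fun t ht x hx hxy => ?_⟩
  have hρ0 : 0 < ρ ^ 2 := by positivity
  refine hW.zoom hρ h.inC.mcf h.inC.ratio y t (fun s hs => lt_of_le_of_lt hs.2 ht.2)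
    (fun y' hy' s hs => ?_) t ⟨by linarith, le_rfl⟩ x hx (by rwa [mem_ball, dist_eq_norm])
  have hs0 : s < 0 := lt_of_le_of_lt hs.2 ht.2
  refine (h.dens_mono y' hs0.le hρ hρ1).trans ?_
  rw [dens_ss _ (by linarith)]
  refine (H (y := (y', s)) ?_).le
  rw [Prod.dist_eq, max_lt_iff]
  refine ⟨lt_of_lt_of_le hy' hρ2, ?_⟩
  rw [Real.dist_eq, sub_zero, abs_of_neg hs0]
  linarith [hs.1, ht.1]

/-! ### Smooth limits -/

/-- a zero of the limit with nonzero gradient is a limit of zeros -/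
theorem exists_zero_near {ι : Type} {U : Filter ι} {W : Set E3} {w : ι → E3 → ℝ} {v : E3 → ℝ}
    (hW : IsOpen W) (hc : CInf U W w v) (hv : ContDiff ℝ ∞ v) {x : E3} (hx : x ∈ W)
    (h0 : v x = 0) (hg : gradient v x ≠ 0) {ε : ℝ} (hε : 0 < ε) :
    ∀ᶠ i in U, ∃ y ∈ W, ‖y - x‖ < ε ∧ w i y = 0 := by
  set g := gradient v x with hgdef
  have hl : ∀ s : ℝ, HasDerivAt (fun s : ℝ => x + s • g) g s := fun s => by
    simpa using ((hasDerivAt_id s).smul_const g).const_add x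
  have hd : HasDerivAt (fun s : ℝ => v (x + s • g)) (‖g‖ ^ 2) 0 := by
    have := ((hv.differentiable (by simp)) (x + (0 : ℝ) • g)).hasFDerivAt.comp_hasDerivAt 0 (hl 0)
    rw [zero_smul, add_zero, ← inner_grad, real_inner_self_eq_norm_sq] at this
    exact this
  have hpos : 0 < ‖g‖ ^ 2 := by positivity
  have ht : Tendsto (fun s : ℝ => x + s • g) (𝓝 0) (𝓝 x) := by
    simpa using (hl 0).continuousAt.tendsto
  have e1 : ∀ᶠ s : ℝ in 𝓝 0, x + s • g ∈ W ∩ ball x ε :=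
    ht.eventually (inter_mem (hW.mem_nhds hx) (ball_mem_nhds x hε))
  obtain ⟨η, hη, e1⟩ := Metric.eventually_nhds_iff.1 e1
  have e2 := (hasDerivAt_iff_tendsto_slope_zero.1 hd).eventually (lt_mem_nhds hpos)
  simp only [zero_add, zero_smul, add_zero, h0, sub_zero, smul_eq_mul] at e2
  have e3 : ∀ᶠ s : ℝ in 𝓝[≠] 0, dist s 0 < η := nhdsWithin_le_nhds (ball_mem_nhds 0 hη)
  obtain ⟨b, ⟨hb1, hb2⟩, hb⟩ := (((e2.and e3).filter_mono (nhdsGT_le_nhdsNE 0)).and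
    self_mem_nhdsWithin).exists
  obtain ⟨a, ⟨ha1, ha2⟩, ha⟩ := (((e2.and e3).filter_mono (nhdsLT_le_nhdsNE 0)).and
    self_mem_nhdsWithin).exists
  have hb : 0 < b := hb
  have ha : a < 0 := ha
  have vb : 0 < v (x + b • g) := (mul_pos_iff_of_pos_left (inv_pos.2 hb)).1 hb1
  have va : v (x + a • g) < 0 := by
    by_contra hn
    push Not at hn
    have := mul_nonpos_of_nonpos_of_nonneg (inv_lt_zero.2 ha).le hn
    linarith
  have hI : ∀ s ∈ Icc a b, x + s • g ∈ W ∩ ball x ε := fun s hs => e1 (by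
    rw [Real.dist_eq, sub_zero] at ha2 hb2 ⊢
    rw [abs_lt] at ha2 hb2 ⊢
    exact ⟨by linarith [hs.1], by linarith [hs.2]⟩)
  have hab : a ≤ b := by linarith
  have c0 := Metric.tendstoUniformlyOn_iff.1 (hc.conv 0) (min (v (x + b • g)) (-v (x + a • g)))
    (lt_min vb (by linarith))
  filter_upwards [c0, hc.smooth] with i hi hs
  have key : ∀ y ∈ W, |v y - w i y| < min (v (x + b • g)) (-v (x + a • g)) := fun y hy => by
    have := hi y hy
    rwa [dist_eq_norm, iteratedFDeriv_zero_eq_comp, iteratedFDeriv_zero_eq_comp,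
      Function.comp_apply, Function.comp_apply, ← map_sub, LinearIsometryEquiv.norm_map,
      Real.norm_eq_abs] at this
  have cont : ContinuousOn (fun s : ℝ => w i (x + s • g)) (Icc a b) :=
    hs.continuousOn.comp (by fun_prop) fun s hs => (hI s hs).1
  have kb := abs_lt.1 ((key _ (hI b ⟨hab, le_rfl⟩).1).trans_le (min_le_left _ _))
  have ka := abs_lt.1 ((key _ (hI a ⟨le_rfl, hab⟩).1).trans_le (min_le_right _ _))
  obtain ⟨s, hs, hs0⟩ := intermediate_value_Icc hab cont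
    (show (0 : ℝ) ∈ Icc _ _ from ⟨by linarith [ka.1], by linarith [kb.2]⟩)
  exact ⟨_, (hI s hs).1, by simpa [dist_eq_norm] using (hI s hs).2, hs0⟩

theorem SLimS_near {ι : Type} {U : Filter ι} {N : ι → Set E3} {S' : Set E3} (h : SLimS U N S')
    {x : E3} (hx : x ∈ S') {ε : ℝ} (hε : 0 < ε) : ∀ᶠ i in U, ∃ y ∈ N i, ‖y - x‖ < ε := by
  obtain ⟨W, w, v, hW, hxW, -, hv, hc, hg, hS, hN⟩ := h.loc x hx
  filter_upwards [exists_zero_near hW hc hv hxW ((hS x hxW).1 hx) hg hε, hN] with i ⟨y, hy, h1, h2⟩ hi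
  exact ⟨y, (hi y hy).2 h2, h1⟩

theorem mem_scaleFlow_ss {l s : ℝ} (hl : 0 < l) {y z : E3} :
    z ∈ scaleFlow l y 0 (ssFlow S) s ↔ (√(-s))⁻¹ • (l • y + z) ∈ S := by
  rw [mem_scaleFlow, mem_ss, zero_add, ← neg_div, Real.sqrt_div' _ (sq_nonneg l),
    Real.sqrt_sq hl.le, inv_div, div_eq_inv_mul, mul_smul, smul_add l, smul_inv_smul₀ hl.ne']

theorem scaleFlow_ss_neg_one {l : ℝ} (hl : 0 < l) (y : E3) :
    scaleFlow l y 0 (ssFlow S) (-1) = scaleSet 1 (l • y) S := by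
  ext z
  rw [mem_scaleFlow_ss hl, mem_scaleSet]
  simp

theorem SLimS_congr {ι : Type} {U : Filter ι} {N N' : ι → Set E3} {S' : Set E3}
    (h : SLimS U N S') (he : ∀ᶠ i in U, N i = N' i) : SLimS U N' S' := by
  refine ⟨fun x hx => ?_, fun x hx => ?_⟩
  · obtain ⟨W, hW, H⟩ := h.out x hx
    exact ⟨W, hW, by filter_upwards [H, he] with i h1 h2; rwa [← h2]⟩
  · obtain ⟨W, w, v, a1, a2, a3, a4, a5, a6, a7, H⟩ := h.loc x hx
    exact ⟨W, w, v, a1, a2, a3, a4, a5, a6, a7, by filter_upwards [H, he] with i h1 h2; rwa [← h2]⟩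

/-- limits of translates are translation invariant -/
theorem transl_inv (hS : SliceStmt) {ι : Type} {U : Filter ι} [U.NeBot] {lam : ι → ℝ}
    (hlam : Tendsto lam U atTop) {y : E3} {S' : Set E3}
    (h : SLim U (fun i => scaleFlow (lam i) y 0 (ssFlow S)) (ssFlow S') (Iio 0)) {x : E3}
    (hx : x ∈ S') (a : ℝ) : x + a • y ∈ S' := by
  by_contra hn
  have h1 := hS _ _ _ _ _ h (-1) (by simp)
  rw [ss_neg_one] at h1
  obtain ⟨W, hW, H⟩ := h.out (-1) (by simp) (x + a • y) (by rwa [ss_neg_one])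
  have c1 : ContinuousAt (fun p : ℝ × E3 => ((-p.1 ^ 2, p.1 • p.2 + a • y) : ℝ × E3)) (1, x) := by
    fun_prop
  have e1 : ∀ᶠ p : ℝ × E3 in 𝓝 (1, x), ((-p.1 ^ 2, p.1 • p.2 + a • y) : ℝ × E3) ∈ W :=
    c1.eventually (by simpa using hW)
  obtain ⟨η, hη, e1⟩ := Metric.eventually_nhds_iff.1 e1
  have t1 : Tendsto (fun i => 1 + a / lam i) U (𝓝 1) := by
    simpa using (hlam.const_div_atTop a).const_add 1
  obtain ⟨i, h2, ⟨z, hz, h3⟩, h4, h5, h6⟩ := (H.and ((SLimS_near h1 hx hη).and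
    ((t1.eventually (ball_mem_nhds 1 hη)).and ((t1.eventually (lt_mem_nhds one_pos)).and
      (hlam.eventually (eventually_gt_atTop 0)))))).exists
  refine h2 _ (e1 (y := (1 + a / lam i, z)) ?_) ?_
  · rw [Prod.dist_eq, max_lt_iff]
    exact ⟨h4, by rwa [dist_eq_norm]⟩
  · rw [mem_scaleFlow_ss h6] at hz ⊢
    simp only [neg_neg, Real.sqrt_one, inv_one, one_smul] at hz
    simp only [neg_neg]
    rw [Real.sqrt_sq h5.le]
    have : lam i • y + ((1 + a / lam i) • z + a • y) = (1 + a / lam i) • (lam i • y + z) := by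
      rw [smul_add, smul_smul, show (1 + a / lam i) * lam i = lam i + a by field_simp,
        add_smul (lam i)]
      abel
    rwa [this, inv_smul_smul₀ h5.ne']

theorem nu_orth {N : Set E3} (hN : IsSurf N) {y : E3} (h : ∀ x ∈ N, ∀ a : ℝ, x + a • y ∈ N)
    {x : E3} (hx : x ∈ N) : ⟪nu N x, y⟫ = 0 := by
  have he := hN.isEqn hx
  have hl : HasDerivAt (fun s : ℝ => x + s • y) y 0 := by
    simpa using ((hasDerivAt_id (0 : ℝ)).smul_const y).const_add x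
  have ht : Tendsto (fun s : ℝ => x + s • y) (𝓝 0) (𝓝 x) := by
    simpa using hl.continuousAt.tendsto
  have hd : HasDerivAt (fun s : ℝ => eqn N x (x + s • y)) ⟪gradient (eqn N x) x, y⟫ 0 := by
    have := ((he.1.differentiable (by simp)) (x + (0 : ℝ) • y)).hasFDerivAt.comp_hasDerivAt 0 hl
    rw [zero_smul, add_zero, ← inner_grad] at this
    exact this
  have h0 : (fun s : ℝ => eqn N x (x + s • y)) =ᶠ[𝓝 0] fun _ => 0 := by
    filter_upwards [ht.eventually he.2.2] with s hs using hs.1 (h x hx s)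
  have := hd.unique ((hasDerivAt_const (0 : ℝ) (0 : ℝ)).congr_of_eventuallyEq h0)
  rw [nu, nuw, real_inner_smul_left, this, mul_zero]

/-- the round cylinder with axis `y` -/
def cylSet (y : E3) : Set E3 := {x | ‖x‖ ^ 2 - ⟪x, y⟫ ^ 2 = 2}

/-- the translates of `S` along `y` converge to the cylinder with axis `y` -/
def CylDir (S : Set E3) (y : E3) : Prop :=
  ∀ (ι : Type) (U : Ultrafilter ι) (lam : ι → ℝ), Tendsto lam U atTop →
    SLimS U (fun i => scaleSet 1 (lam i • y) S) (cylSet y)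

theorem gA_plane {n : E3} (hn : ‖n‖ = 1) : gA {x : E3 | ⟪x, n⟫ = 0} 0 1 = 1 := by
  have hc : Continuous fun x : E3 => gk (1 ^ 2) (x - 0) := (continuous_gk _).comp (by fun_prop)
  rw [gA, integral_eq_lintegral_of_nonneg_ae
    (Eventually.of_forall fun x => (gk_pos (by positivity) _).le) hc.aestronglyMeasurable]
  simp only [sub_zero, area]
  rw [PI.lintegral_gk_plane hn (by positivity), ENNReal.toReal_one]

theorem Hyp.dichotomy (h : Hyp D G S) (hW : WhiteStmt) (hC : ConvStmt) (hS : SliceStmt)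
    (hE : ClassifyStmt) {y : E3} (hy : ‖y‖ = 1) : Reg S y ∨ CylDir S y := by
  rw [or_iff_not_imp_left]
  intro hn ι U lam hlam
  obtain ⟨S', h1, -, h2, h3⟩ := hC D G _ (-2) 0 (by norm_num) (inC_Ioo h.inC) y ι U lam hlam
  rcases hE S' y h1.1 h1.2 hy (fun x hx => nu_orth h1.1
    (fun x hx a => transl_inv hS hlam h2 hx a) hx) with h4 | ⟨n, hn1, -, h4⟩ | h4
  · refine absurd (h.reg hW (θ := gA S' 0 1) ?_ h3) hn
    simp [h4, gA, area]
  · exact absurd (h.reg hW (by rw [h4, gA_plane hn1]) h3) hn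
  · have h5 := hS _ _ _ _ _ h2 (-1) (by simp)
    rw [ss_neg_one, h4] at h5
    refine SLimS_congr h5 ?_
    filter_upwards [hlam.eventually (eventually_gt_atTop 0)] with i hi
    exact scaleFlow_ss_neg_one hi y

theorem mem_cylSet {y x : E3} (hy : ‖y‖ = 1) : x ∈ cylSet y ↔ ‖pt y x‖ = √2 := by
  rw [cylSet, mem_ofPred_eq, real_inner_comm, ← norm_pt_sq hy,
    Real.sqrt_eq_iff_eq_sq (by norm_num) (norm_nonneg _) |>.trans eq_comm |>.symm, eq_comm]

theorem SLimS_out_compact {ι : Type} {U : Filter ι} {N : ι → Set E3} {S' K : Set E3}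
    (h : SLimS U N S') (hK : IsCompact K) (hd : ∀ x ∈ K, x ∉ S') :
    ∀ᶠ i in U, ∀ y ∈ K, y ∉ N i := by
  refine hK.induction_on (p := fun A => ∀ᶠ i in U, ∀ y ∈ A, y ∉ N i) (by simp)
    (fun s t hst H => H.mono fun i hi y hy => hi y (hst hy))
    (fun s t H H' => (H.and H').mono fun i hi y hy => hy.elim (hi.1 y) (hi.2 y)) fun x hx => ?_
  obtain ⟨W, hW, H⟩ := h.out x (hd x hx)
  exact ⟨W, nhdsWithin_le_nhds hW, H⟩

theorem mem_transl {p z : E3} : z ∈ scaleSet 1 p S ↔ p + z ∈ S := by simp [mem_scaleSet]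

/-- far translates are close to the cylinder -/
theorem CylDir.close {y : E3} (h : CylDir S y) (hy : ‖y‖ = 1) (L : ℝ) {ε : ℝ} (hε : 0 < ε) :
    ∀ᶠ μ : ℝ in atTop, ∀ p : E3, ‖p‖ ≤ L → μ • y + p ∈ S → |‖pt y p‖ - √2| < ε := by
  refine mem_iff_ultrafilter.2 fun U hU => ?_
  have hK : IsCompact (closedBall (0 : E3) L ∩ {p | ε ≤ |‖pt y p‖ - √2|}) :=
    (isCompact_closedBall 0 L).inter_right (isClosed_le continuous_const (by fun_prop))
  have := SLimS_out_compact (h ℝ U id hU) hK fun x hx hc => by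
    have h2 : ε ≤ |‖pt y x‖ - √2| := hx.2
    rw [(mem_cylSet hy).1 hc, sub_self, abs_zero] at h2
    linarith
  filter_upwards [this] with μ hμ p hp hS
  by_contra hn
  exact hμ p ⟨mem_closedBall_zero_iff.2 hp, not_lt.1 hn⟩ (mem_transl.2 hS)

theorem norm_le_pt {y x : E3} (hy : ‖y‖ = 1) : ‖x‖ ≤ ‖pt y x‖ + |⟪y, x⟫| := by
  have : x = pt y x + ⟪y, x⟫ • y := by rw [pt_apply]; abel
  conv_lhs => rw [this]
  refine (norm_add_le _ _).trans ?_
  rw [norm_smul, hy, mul_one, Real.norm_eq_abs]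

/-- near a cylindrical direction the surface lies in a tube -/
theorem Hyp.tube (h : Hyp D G S) {y : E3} (hc : CylDir S y) (hy : ‖y‖ = 1) :
    ∃ L δ : ℝ, 0 < L ∧ 0 < δ ∧ ∀ x ∈ S, ‖pt y x‖ ≤ δ * ⟪y, x⟫ → ‖pt y x‖ ≤ L := by
  obtain ⟨ρ₀, h0, H⟩ := exists_near D
  obtain ⟨μ₁, hμ⟩ := eventually_atTop.1 ((hc.close hy (2 * ρ₀ + 3) (ε := 1 / 2)
    (by norm_num)).and (eventually_gt_atTop 0))
  have hμ1 : 0 < μ₁ := (hμ μ₁ le_rfl).2
  refine ⟨ρ₀ + 3, (ρ₀ + 3) / μ₁, by positivity, by positivity, fun x hx hd => ?_⟩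
  by_contra hn
  push Not at hn
  set κ := ‖pt y x‖ / (ρ₀ + 3) with hκ
  have hκ1 : 1 < κ := (one_lt_div (by positivity)).2 hn
  have hκ0 : 0 < κ := by linarith
  obtain ⟨p, hp, hd'⟩ := H S h.ratio _ _ (div_pos (Real.sqrt_pos.2 (by nlinarith)) hκ0)
    ((div_le_one hκ0).2 (Real.sqrt_le_iff.2 ⟨hκ0.le, by linarith⟩)) (h.one_le hx hκ1)
  have e1 : ‖κ⁻¹ • pt y x‖ = ρ₀ + 3 := by
    rw [norm_smul, Real.norm_eq_abs, abs_of_pos (inv_pos.2 hκ0), hκ]
    have : ‖pt y x‖ ≠ 0 := by linarith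
    field_simp
  have e2 : μ₁ ≤ κ⁻¹ * ⟪y, x⟫ := by
    rw [le_inv_mul_iff₀ hκ0, hκ, div_mul_eq_mul_div, div_le_iff₀ (by positivity)]
    rw [div_mul_eq_mul_div, le_div_iff₀ hμ1] at hd
    linarith
  have e3 : p - (κ⁻¹ * ⟪y, x⟫) • y = (p - κ⁻¹ • x) + κ⁻¹ • pt y x := by
    rw [pt_apply, smul_sub, smul_smul]; abel
  have e4 := (hμ _ e2).1 (p - (κ⁻¹ * ⟪y, x⟫) • y) (by
    rw [e3]
    exact (norm_add_le _ _).trans (by linarith)) (by rwa [add_sub_cancel])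
  rw [e3, map_add, map_smul, pt_pt hy] at e4
  have e5 : ‖κ⁻¹ • pt y x‖ ≤ ‖pt y (p - κ⁻¹ • x) + κ⁻¹ • pt y x‖ + ‖pt y (p - κ⁻¹ • x)‖ := by
    simpa using norm_sub_le (pt y (p - κ⁻¹ • x) + κ⁻¹ • pt y x) (pt y (p - κ⁻¹ • x))
  have e6 := norm_pt_le hy (p - κ⁻¹ • x)
  have e7 : √2 < 2 := (Real.sqrt_lt' (by norm_num)).2 (by norm_num)
  linarith [(abs_lt.1 e4).2]

/-- near a cylindrical direction the density set is the half axis -/
theorem Hyp.tube_Z (h : Hyp D G S) {y : E3} (hy : ‖y‖ = 1) {L δ : ℝ} (hδ : 0 < δ)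
    (H : ∀ x ∈ S, ‖pt y x‖ ≤ δ * ⟪y, x⟫ → ‖pt y x‖ ≤ L) {x : E3} (hx : x ∈ Zset S)
    (hd : ‖pt y x‖ < δ * ⟪y, x⟫) : pt y x = 0 := by
  obtain ⟨ρ₀, h0, hZ⟩ := h.near_Z
  by_contra hn
  have hp : 0 < ‖pt y x‖ := norm_pos_iff.2 hn
  obtain ⟨l, h1, h2, h3⟩ : ∃ l : ℝ, 0 < l ∧ (1 + δ) * ρ₀ ≤ l * (δ * ⟪y, x⟫ - ‖pt y x‖) ∧
      L + ρ₀ ≤ l * ‖pt y x‖ :=
    ((eventually_gt_atTop 0).and (((tendsto_id.atTop_mul_const (sub_pos.2 hd)).eventually
      (eventually_ge_atTop _)).and ((tendsto_id.atTop_mul_const hp).eventually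
      (eventually_ge_atTop _)))).exists
  obtain ⟨p, hpS, hpd⟩ := hZ x hx l h1
  have e0 : p = (p - l • x) + l • x := by abel
  have e1 : ‖pt y (l • x)‖ = l * ‖pt y x‖ := by
    rw [map_smul, norm_smul, Real.norm_eq_abs, abs_of_pos h1]
  have e2 := norm_pt_le hy (p - l • x)
  have e3 : ‖pt y p‖ ≤ ‖pt y (p - l • x)‖ + ‖pt y (l • x)‖ := by
    conv_lhs => rw [e0, map_add]
    exact norm_add_le _ _
  have e4 : ‖pt y (l • x)‖ ≤ ‖pt y p‖ + ‖pt y (p - l • x)‖ := by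
    have : pt y (l • x) = pt y p - pt y (p - l • x) := by rw [← map_sub]; congr 1; abel
    rw [this]
    exact norm_sub_le _ _
  have e5 : l * ⟪y, x⟫ - ρ₀ ≤ ⟪y, p⟫ := by
    have a1 := abs_real_inner_le_norm y (p - l • x)
    rw [hy, one_mul, inner_sub_right, real_inner_smul_right] at a1
    linarith [(abs_le.1 a1).1]
  have := H p hpS (by nlinarith)
  linarith

end Vale.Agent.P218F.Ends
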