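import Vale.Agent.P218F.DynStatic
import Vale.Agent.P218F.Ends1
import Vale.Agent.P218FT.ConvE

/-! Uniform bounds on a shrinker of class `C(D, G)`. -/

open MeasureTheory Set Filter Topology Metric
open scoped ENNReal NNReal RealInnerProductSpace ContDiff

namespace Vale.Agent.P218F.Dyn

open Vale.Agent.P218FT

lemma fderiv_shift {F : Type*} [NormedAddCommGroup F] [NormedSpace ℝ F] (f : E3 → F) (a : ℝ)
    (p : E3) : fderiv ℝ (fun y => a • f (y - p)) = fun y => a • fderiv ℝ f (y - p) := by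
  have h : fderiv ℝ (fun y => a • f (y - p)) = a • fderiv ℝ (fun y => f (y - p)) :=
    fderiv_const_smul_field a
  rw [h]
  funext y
  rw [Pi.smul_apply, fderiv_comp_sub]

lemma gradient_shift (f : E3 → ℝ) (a : ℝ) (p : E3) :
    gradient (fun y => a • f (y - p)) = fun y => a • gradient f (y - p) := by
  rw [gradient_eq_rz, fderiv_shift, gradient_eq_rz]
  funext y
  rw [map_smul]

/-- normalised equations with bounded second and third derivatives -/
lemma exists_eqn_bd {S : Set E3} (hM : IsMCF (ssFlow S) (Iio 0)) {r C : ℝ} (hr : 0 < r)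
    (hC : 0 < C) (two : ∀ x ∈ S, TwoPt S x r C) : ∃ K : ℝ, ∀ p ∈ S, ∃ w : E3 → ℝ,
      IsEqn S p w ∧ ‖gradient w p‖ = 1 ∧ ‖fderiv ℝ (gradient w) p‖ ≤ K ∧
        ‖fderiv ℝ (fderiv ℝ (gradient w)) p‖ ≤ K := by
  by_contra hcon
  push Not at hcon
  choose p hp hbad using fun n : ℕ => hcon n
  have hr' : 0 < min r 1 := lt_min hr one_pos
  have hr2 : min r 1 ^ 2 ≤ 1 := pow_le_one₀ hr'.le (min_le_right _ _)
  have hmem : ∀ i y, y ∈ scaleFlow 1 (p i) 0 (ssFlow S) (-1) ↔ p i + y ∈ S := by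
    intro i y
    rw [scaleFlow, mem_scaleSet, show (0 : ℝ) + -1 / 1 ^ 2 = -1 by norm_num, Ends.ss_neg_one,
      inv_one, one_smul]
  obtain ⟨W, w, v, hW, h0, hw, hv, hc, hg, -, he⟩ := Conv.locComp_proof ℕ (hyperfilter ℕ)
    (fun n => scaleFlow 1 (p n) 0 (ssFlow S)) (fun _ => scaleInt 1 0 (Iio 0)) (fun _ => -1) 0
    (min r 1) (2 * C) hr' (Eventually.of_forall fun n => ⟨hM.scale one_pos _ _, fun s hs => by
        rw [mem_scaleInt, mem_Iio]
        have := hs.2
        norm_num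
        linarith, fun s hs y hy _ => by
        have h1 : (1 : ℝ) ≤ -(0 + s / 1 ^ 2) := by
          have := hs.2
          norm_num
          linarith
        have h2 : -(0 + s / 1 ^ 2) ≤ 2 ^ 2 := by
          have := hs.1
          norm_num
          linarith
        have h3 : 1 ≤ √(-(0 + s / 1 ^ 2)) := Real.one_le_sqrt.2 h1
        have h4 : √(-(0 + s / 1 ^ 2)) ≤ 2 := Real.sqrt_le_iff.2 ⟨by norm_num, h2⟩
        have h5 : 0 < √(-(0 + s / 1 ^ 2)) := by linarith
        refine (twoPt_scale one_pos hy _ _).2 ((twoPt_scale h5 hy _ _).2 ?_)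
        refine Ends.TwoPt.mono' (two _ hy) ?_ (by nlinarith)
        rw [div_one]
        exact (div_le_self hr'.le h3).trans (min_le_left _ _)⟩)
    (fun ε hε => Eventually.of_forall fun n => ⟨0, (hmem n 0).2 (by simpa using hp n), by simpa⟩)
  obtain ⟨ρ, hρ, hρW⟩ := Metric.isOpen_iff.1 hW 0 h0
  have c1 : CInf (hyperfilter ℕ : Filter ℕ) (ball 0 ρ) (fun i => gradient (w i)) (gradient v) :=
    ((hc.mono hρW).fderiv isOpen_ball).comp_smooth rz.contDiff isOpen_ball (convex_ball _ _)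
      isBounded_ball
  have c2 := c1.fderiv isOpen_ball
  have c3 := c2.fderiv isOpen_ball
  have t1 := (c1.tendsto (mem_ball_self hρ)).norm
  have hg' : ‖gradient v 0‖ ≠ 0 := norm_ne_zero_iff.2 hg
  have t2 := (t1.inv₀ hg').mul (c2.tendsto (mem_ball_self hρ)).norm
  have t3 := (t1.inv₀ hg').mul (c3.tendsto (mem_ball_self hρ)).norm
  have t4 : Tendsto (fun n : ℕ => (n : ℝ)) (hyperfilter ℕ) atTop :=
    tendsto_natCast_atTop_atTop.mono_left (hyperfilter_le_cofinite.trans Nat.cofinite_eq_atTop.le)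
  obtain ⟨i, ⟨⟨⟨⟨a1, a2⟩, a3⟩, a4⟩, a5⟩, a6⟩ := (((((he.and (t1.eventually_ne hg')).and
    (t2.eventually_le_const (lt_add_one _))).and (t3.eventually_le_const (lt_add_one _))).and
    (t4.eventually_ge_atTop (‖gradient v 0‖⁻¹ * ‖fderiv ℝ (gradient v) 0‖ + 1))).and
    (t4.eventually_ge_atTop (‖gradient v 0‖⁻¹ * ‖fderiv ℝ (fderiv ℝ (gradient v)) 0‖ + 1))).exists
  set a := ‖gradient (w i) 0‖⁻¹ with ha
  have ha0 : 0 < a := inv_pos.2 ((norm_nonneg _).lt_of_ne' a2)
  have b1 : ‖gradient (fun y => a • w i (y - p i)) (p i)‖ = 1 := by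
    rw [gradient_shift]
    simp only [sub_self]
    rw [norm_smul, Real.norm_of_nonneg ha0.le, ha, inv_mul_cancel₀ a2]
  have b2 := hbad i (fun y => a • w i (y - p i)) ⟨((hw i).comp (contDiff_id.sub
    contDiff_const)).const_smul a, fun h => by rw [h] at b1; simp at b1, by
      have l1 : Tendsto (fun y => y - p i) (𝓝 (p i)) (𝓝 0) :=
        tendsto_sub_nhds_zero_iff.2 tendsto_id
      filter_upwards [l1.eventually (hW.mem_nhds h0)] with y hy
      have := a1 _ hy
      rw [hmem, add_sub_cancel] at this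
      rw [this, smul_eq_zero, or_iff_right ha0.ne']⟩ b1 (by
      rw [gradient_shift, fderiv_shift]
      simp only [sub_self]
      rw [norm_smul, Real.norm_of_nonneg ha0.le]
      linarith)
  have b3 := congrFun (fderiv_shift (fderiv ℝ (gradient (w i))) a (p i)) (p i)
  rw [gradient_shift, fderiv_shift] at b2
  replace b2 := (b2.trans_eq (congrArg norm b3)).trans_le
    (ContinuousLinearMap.opNorm_smul_le _ _)
  rw [sub_self, Real.norm_of_nonneg ha0.le] at b2
  linarith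

lemma norm_pt_le_one {n : E3} (hn : ‖n‖ = 1) : ‖pt n‖ ≤ 1 :=
  ContinuousLinearMap.opNorm_le_bound _ zero_le_one fun v => by
    rw [one_mul]; exact norm_pt_le hn v

lemma inner_nu_le {S : Set E3} (hS : IsShr S) {p : E3} (hp : p ∈ S) {w : E3 → ℝ} {K : ℝ}
    (hw : IsEqn S p w) (h1 : ‖gradient w p‖ = 1) (h2 : ‖fderiv ℝ (gradient w) p‖ ≤ K) :
    |⟪p, nu S p⟫| ≤ 6 * K := by
  have hn := norm_nuw hw.2.1
  have h3 : ‖shw w p‖ ≤ K := by
    rw [shw, h1, norm_smul, inv_one, norm_neg, norm_one, one_mul]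
    have e1 := norm_pt_le_one hn
    have e2 := (pt (nuw w p)).opNorm_comp_le ((fderiv ℝ (gradient w) p).comp (pt (nuw w p)))
    have e3 := (fderiv ℝ (gradient w) p).opNorm_comp_le (pt (nuw w p))
    have e4 : ‖fderiv ℝ (gradient w) p‖ * ‖pt (nuw w p)‖ ≤ K :=
      (mul_le_of_le_one_right (norm_nonneg _) e1).trans h2
    exact e2.trans ((mul_le_of_le_one_left (norm_nonneg _) e1).trans (e3.trans e4))
  have h4 : |tr (shw w p)| ≤ 3 * K := by
    have e1 := P218.H313.abs_tr_le (shw w p)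
    have e2 : Module.finrank ℝ E3 = 3 := by simp [E3]
    rw [e2] at e1
    push_cast at e1
    have e3 : |tr (shw w p)| ≤ 3 * ‖shw w p‖ := e1
    linarith
  have h5 : ‖Hv S p‖ ≤ 3 * K := by
    rw [hw.Hv_eq hp, norm_smul, hn, mul_one, Real.norm_eq_abs]; exact h4
  have h6 := hS.2 p hp
  rw [relV, add_eq_zero_iff_eq_neg, sub_zero] at h6
  rw [h6, norm_neg, norm_smul, hS.1.norm_nu hp, mul_one, Real.norm_eq_abs, abs_mul,
    abs_of_pos (by norm_num : (0 : ℝ) < (2 * 1)⁻¹)] at h5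
  linarith

/-- **SHRBD** -/
theorem shrBd_of (hE : Ends.EndsStmt) : ShrBdStmt := by
  intro D G S hS hI
  obtain ⟨r, C, hr, hC, two⟩ := (hE D G S hS hI).some.twoPt
  obtain ⟨K, hK⟩ := exists_eqn_bd hI.mcf hr hC two
  refine ⟨r, C, max K (6 * K), hr, two, fun p hp => ?_, fun p hp => ?_⟩
  · obtain ⟨w, h1, h2, h3, h4⟩ := hK p hp
    exact ⟨w, h1, h2, h3.trans (le_max_left _ _), h4.trans (le_max_left _ _)⟩
  · obtain ⟨w, h1, h2, h3, -⟩ := hK p hp
    exact (inner_nu_le hS hp h1 h2 h3).trans (le_max_right _ _)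

end Vale.Agent.P218F.Dyn
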