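import Vale.Agent.P218F.DynSpec
import Vale.Agent.P218.H313.A1
import Vale.Agent.P218FT.Chart
import Vale.Agent.P218FT.Gauss
import Vale.Agent.P218FT.Local2
import Vale.Agent.P218FT.Scale

/-! Smooth surfaces are Gaussian slices, and the rescaled smooth flow is an `RF`. -/

open MeasureTheory Set Topology Metric
open Filter hiding ker
open scoped ENNReal NNReal RealInnerProductSpace ContDiff

namespace Vale.Agent.P218F.DynBridge

open Vale.Agent.P214 (proj divAlong)
open Vale.Agent.P218FT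
open Vale.Agent.P218.H313 (Slice GSlice RF PB rho vel dis LL ker om)
open Vale.Agent.P218.H552 (MC BF NN GG JJ brakkeRHS)
open Vale.Agent.P218F.Dyn (hm tg)

/-- the normalising factor -/
noncomputable def cE : ℝ≥0 :=
  Measure.addHaarScalarFactor (volume : Measure (EuclideanSpace ℝ (Fin 2))) μH[(2 : ℕ)]

lemma cE_ne : cE ≠ 0 := Measure.addHaarScalarFactor_volume_hausdorffMeasure_ne_zero 2

lemma cE_pos : (0 : ℝ) < cE := NNReal.coe_pos.2 (pos_iff_ne_zero.2 cE_ne)

lemma area_eq (N : Set E3) : area N = cE • hm N := by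
  rw [area, hm, Measure.euclideanHausdorffMeasure_def, Measure.restrict_smul]; rfl

lemma hm_eq (N : Set E3) : hm N = cE⁻¹ • area N := by
  rw [area_eq, inv_smul_smul₀ cE_ne]

lemma volume_eq : (volume : Measure Chart.E2) = cE • μH[(2 : ℕ)] := by
  rw [← EuclideanSpace.euclideanHausdorffMeasure_eq_volume 2]; rfl

lemma integral_hm (N : Set E3) (f : E3 → ℝ) :
    ∫ x, f x ∂(hm N) = (cE : ℝ)⁻¹ * ∫ x, f x ∂(area N) := by
  rw [hm_eq, integral_smul_nnreal_measure, NNReal.smul_def, NNReal.coe_inv, smul_eq_mul]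

lemma integral_area (N : Set E3) (f : E3 → ℝ) :
    ∫ x, f x ∂(area N) = cE * ∫ x, f x ∂(hm N) := by
  rw [area_eq, integral_smul_nnreal_measure, NNReal.smul_def, smul_eq_mul]

lemma integrable_hm {N : Set E3} {F : Type*} [NormedAddCommGroup F] {f : E3 → F}
    (h : Integrable f (area N)) : Integrable f (hm N) := by
  rw [hm_eq]; exact h.smul_measure_nnreal

lemma integrable_area {N : Set E3} {F : Type*} [NormedAddCommGroup F] {f : E3 → F}
    (h : Integrable f (hm N)) : Integrable f (area N) := by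
  rw [area_eq]; exact h.smul_measure_nnreal

lemma hm_scale {lam : ℝ} (hl : 0 < lam) (x₀ : E3) (N : Set E3) :
    hm (scaleSet lam x₀ N) = Vale.Agent.P218.H313.A1.dil 2 lam x₀ (hm N) := by
  rw [hm_eq, hm_eq, area_scale hl, Vale.Agent.P218.H313.A1.dil, Measure.map_smul, smul_comm]

variable {N : Set E3}

lemma ae_mem (hN : IsClosed N) : ∀ᵐ x ∂(hm N), x ∈ N := ae_restrict_mem hN.measurableSet

lemma proj_orth {n : E3} (hn : ‖n‖ = 1) (v : E3) : proj (ℝ ∙ n)ᗮ v = v - ⟪n, v⟫ • n := by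
  rw [proj, Submodule.starProjection_orthogonal_val, Submodule.starProjection_unit_singleton ℝ hn]

lemma proj_tg (hN : IsSurf N) {x : E3} (hx : x ∈ N) : proj (tg N x) = pt (nu N x) := by
  ext1 v
  rw [tg, proj_orth (hN.norm_nu hx), pt_apply]

lemma finrank_tg (hN : IsSurf N) {x : E3} (hx : x ∈ N) : Module.finrank ℝ (tg N x) = 2 := by
  have h0 : nu N x ≠ 0 := by
    intro h; have := hN.norm_nu hx; rw [h, norm_zero] at this; exact zero_ne_one this
  have h1 := Submodule.finrank_add_finrank_orthogonal (ℝ ∙ nu N x)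
  rw [finrank_span_singleton h0, finrank_euclideanSpace_fin] at h1
  rw [tg]; omega

lemma divAlong_tg (hN : IsSurf N) {x : E3} (hx : x ∈ N) (X : E3 → E3) :
    divAlong (tg N x) X x = divT N X x :=
  Vale.Agent.P218.H63.divAlong_normal (proj_orth (hN.norm_nu hx)) X x

lemma vel_tg (hN : IsSurf N) {x : E3} (hx : x ∈ N) : vel (tg N) (Hv N) x = relV N 0 1 x := by
  rw [vel, relV, proj_tg hN hx, pt_apply, sub_sub_cancel, sub_zero, smul_smul, real_inner_comm]
  norm_num

lemma continuousOn_even (hN : IsSurf N) {Y : Type*} [TopologicalSpace Y]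
    {Φ : E3 × (E3 →L[ℝ] E3) → Y} (hΦ : Continuous Φ) (he : ∀ n A, Φ (-n, -A) = Φ (n, A)) :
    ContinuousOn (fun x => Φ (nu N x, sh N x)) N := by
  intro x hx
  have hw := hN.isEqn hx
  set w := eqn N x
  have hG := (contDiff_grad hw.1).continuous.continuousAt (x := x)
  have hn : ContinuousAt (nuw w) x := (hG.norm.inv₀ (norm_ne_zero_iff.2 hw.2.1)).smul hG
  have hP := continuous_pt.continuousAt.comp hn
  have hs : ContinuousAt (shw w) x :=
    (hG.norm.inv₀ (norm_ne_zero_iff.2 hw.2.1)).neg.smul (hP.clm_comp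
      (((contDiff_grad hw.1).continuous_fderiv (by simp)).continuousAt.clm_comp hP))
  have h1 : ContinuousAt (fun y => Φ (nuw w y, shw w y)) x := hΦ.continuousAt.comp (hn.prodMk hs)
  have key : ∀ y, IsEqn N y w → y ∈ N → Φ (nu N y, sh N y) = Φ (nuw w y, shw w y) := by
    intro y hy hy'
    obtain ⟨ε, hε, e1, e2⟩ := hy.nu_sh hy'
    rcases hε with h0 | h0
    · rw [e1, e2, h0, one_smul, one_smul]
    · have e3 : ((-1 : ℝ) • shw w y) = -shw w y := by ext1 v; simp
      rw [e1, e2, h0, e3, neg_one_smul, he]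
  refine h1.continuousWithinAt.congr_of_eventuallyEq ?_ (key x hw hx)
  filter_upwards [nhdsWithin_le_nhds hw.eventually, self_mem_nhdsWithin] with y hy hy'
    using key y hy hy'

lemma continuousOn_Hv (hN : IsSurf N) : ContinuousOn (Hv N) N :=
  continuousOn_even hN (Φ := fun q => tr q.2 • q.1)
    ((continuous_tr.comp continuous_snd).smul continuous_fst)
    (fun n A => by rw [← neg_one_smul ℝ A, tr_smul]; simp)

lemma continuousOn_pt (hN : IsSurf N) : ContinuousOn (fun x => pt (nu N x)) N :=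
  continuousOn_even hN (Φ := fun q => pt q.1) (continuous_pt.comp continuous_fst)
    (fun n _ => pt_neg n)

lemma continuousOn_a2 (hN : IsSurf N) : ContinuousOn (a2 N) N :=
  continuousOn_even hN (Φ := fun q => tr (q.2.comp q.2))
    (continuous_tr.comp (continuous_snd.clm_comp continuous_snd)) (by simp)

lemma locFin_hm (hN : IsSurf N) : IsLocallyFiniteMeasure (hm N) := by
  have := Chart.locFin_proof N hN
  rw [hm_eq]; infer_instance

theorem mc (hFV : FVStmt) (hN : IsSurf N) : MC 2 (hm N) (tg N) (Hv N) where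
  fin := by have := locFin_hm hN; infer_instance
  Tmeas := by
    refine ((continuousOn_pt hN).aestronglyMeasurable hN.1.measurableSet).congr ?_
    filter_upwards [ae_mem hN.1] with x hx using (proj_tg hN hx).symm
  dim := (ae_mem hN.1).mono fun x hx => finrank_tg hN hx
  meas := (continuousOn_Hv hN).aestronglyMeasurable hN.1.measurableSet
  locL2 := by
    intro K hK
    have := locFin_hm hN
    have h1 : IntegrableOn (fun x => ‖Hv N x‖ ^ 2) (K ∩ N) (hm N) :=
      (((continuousOn_Hv hN).norm.pow 2).mono inter_subset_right).integrableOn_compact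
        (hK.inter_right hN.1)
    refine h1.congr_set_ae ?_
    filter_upwards [ae_mem hN.1] with x hx
    exact propext ⟨fun h => ⟨h, hx⟩, fun h => h.1⟩
  normal := Eventually.of_forall fun x =>
    Submodule.le_orthogonal_orthogonal _ (Submodule.smul_mem _ _ (Submodule.mem_span_singleton_self _))
  fv := by
    intro X hX hXc
    have h1 : ∫ x, divAlong (tg N x) X x ∂(hm N) = ∫ x, divT N X x ∂(hm N) :=
      integral_congr_ae ((ae_mem hN.1).mono fun x hx => divAlong_tg hN hx X)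
    rw [h1, integral_hm, integral_hm, hFV N hN X hX hXc, mul_neg]

/-- the lower density bound -/
lemma dens_ge (hN : IsSurf N) {x : E3} (hx : x ∈ N) {c : ℝ} (hc : c < om 2) :
    ∀ᶠ r in 𝓝[>] (0 : ℝ), c ≤ (∫ y, ker (r⁻¹ • (y - x)) ∂(hm N)) / r ^ 2 := by
  have hom := Vale.Agent.P218.H313.A1.om_nonneg 2
  obtain ⟨k, hk1, hk⟩ : ∃ k : ℝ, 1 < k ∧ c ≤ om 2 / k ^ 2 := by
    have h1 : Tendsto (fun k : ℝ => om 2 / k ^ 2) (𝓝[>] 1) (𝓝 (om 2 / 1 ^ 2)) :=
      ((continuousAt_const.div (continuousAt_id.pow 2) (by norm_num)).tendsto).mono_left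
        nhdsWithin_le_nhds
    rw [one_pow, div_one] at h1
    obtain ⟨k, h2, h3⟩ := ((h1.eventually (lt_mem_nhds hc)).and self_mem_nhdsWithin).exists
    exact ⟨k, h3, h2.le⟩
  have hk0 : 0 < k := by linarith
  obtain ⟨J, pr, h, U, hxU, C, h0⟩ := Chart.exists_chart_tangent hN hx
  have hd : HasFDerivAt h (0 : Chart.E2 →L[ℝ] ℝ) (pr x) := by
    have h1 := (C.smooth.differentiable (by simp) (pr x)).hasFDerivAt
    have h2 : fderiv ℝ h (pr x) = 0 := by
      rw [← norm_eq_zero, ← Chart.norm_gradient, h0, norm_zero]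
    rwa [h2] at h1
  have hε : 0 < √(k ^ 2 - 1) := Real.sqrt_pos.2 (by nlinarith)
  have h1 : ∀ᶠ u in 𝓝 (pr x), |h u - h (pr x)| ≤ √(k ^ 2 - 1) * ‖u - pr x‖ := by
    filter_upwards [hd.isLittleO.bound hε] with u hu
    simpa using hu
  obtain ⟨δ, hδ, hb⟩ := Metric.eventually_nhds_iff_ball.1 h1
  obtain ⟨δ', hδ', hU⟩ := Metric.isOpen_iff.1 C.isOpen x hxU
  filter_upwards [Ioo_mem_nhdsGT (lt_min hδ hδ')] with r hr
  have hr0 : 0 < r := hr.1
  have hr1 : r < δ := hr.2.trans_le (min_le_left _ _)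
  have hr2 : r < δ' := hr.2.trans_le (min_le_right _ _)
  have hrk : 0 < r / k := div_pos hr0 hk0
  have hrk1 : r / k < r := div_lt_self hr0 hk1
  have hS : ball x r ∩ N ⊆ N ∩ U := fun y hy => ⟨hy.2, hU (ball_subset_ball hr2.le hy.1)⟩
  have hle : ∀ u ∈ ball (pr x) (r / k), ‖Chart.gr (nu N x) J h u - x‖ ≤ k * ‖u - pr x‖ := by
    intro u hu
    have a1 := hb u (ball_subset_ball (by linarith) hu)
    have a2 := C.frame.norm_gr_sub_sq h u (pr x)
    rw [C.gr_pr hx hxU] at a2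
    have a3 : (h u - h (pr x)) ^ 2 ≤ (√(k ^ 2 - 1) * ‖u - pr x‖) ^ 2 := by
      rw [← sq_abs]
      exact pow_le_pow_left₀ (abs_nonneg _) a1 2
    rw [mul_pow, Real.sq_sqrt (by nlinarith)] at a3
    exact le_of_pow_le_pow_left₀ two_ne_zero (by positivity) (by nlinarith)
  have hsub : ball (pr x) (r / k) ⊆ pr '' (ball x r ∩ N) := by
    intro u hu
    have a5 : Chart.gr (nu N x) J h u ∈ ball x r := by
      rw [mem_ball_iff_norm]
      have := mem_ball_iff_norm.1 hu
      rw [lt_div_iff₀ hk0] at this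
      linarith [hle u hu]
    exact ⟨_, ⟨a5, C.gr_mem (hU (ball_subset_ball hr2.le a5))⟩, C.frame.pr_gr h u⟩
  have hcont : Continuous fun y : E3 => ker (r⁻¹ • (y - x)) :=
    Vale.Agent.P218.H313.continuous_ker.comp (by fun_prop)
  have hcs : HasCompactSupport fun y : E3 => ker (r⁻¹ • (y - x)) := by
    refine HasCompactSupport.intro (isCompact_closedBall x r) fun y hy => ?_
    rw [mem_closedBall, dist_eq_norm, not_le] at hy
    refine Vale.Agent.P218.H313.ker_eq_zero ?_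
    rw [norm_smul, norm_inv, Real.norm_of_nonneg hr0.le, inv_mul_eq_div, one_le_div hr0]
    exact hy.le
  have := Chart.locFin_proof N hN
  have hi : Integrable (fun y : E3 => ker (r⁻¹ • (y - x))) (area N) :=
    hcont.integrable_of_hasCompactSupport hcs
  have key : ENNReal.ofReal (cE * ((r / k) ^ 2 * om 2))
      ≤ ∫⁻ y, ENNReal.ofReal (ker (r⁻¹ • (y - x))) ∂(area N) := by
    calc ENNReal.ofReal (cE * ((r / k) ^ 2 * om 2))
        = ∫⁻ u : Chart.E2, ENNReal.ofReal (ker ((r / k)⁻¹ • u)) := by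
          rw [volume_eq, lintegral_smul_measure, Vale.Agent.P218.H313.lintegral_ker_euc 2 hrk,
            ENNReal.ofReal_mul cE_pos.le, ENNReal.ofReal_coe_nnreal]
          rfl
      _ = ∫⁻ u : Chart.E2, ENNReal.ofReal (ker ((r / k)⁻¹ • (u - pr x))) :=
          (lintegral_sub_right_eq_self (fun u => ENNReal.ofReal (ker ((r / k)⁻¹ • u))) (pr x)).symm
      _ = ∫⁻ u in ball (pr x) (r / k), ENNReal.ofReal (ker ((r / k)⁻¹ • (u - pr x))) := by
          refine (setLIntegral_eq_of_support_subset fun u hu => ?_).symm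
          by_contra hu'
          refine hu ?_
          rw [mem_ball, dist_eq_norm, not_lt] at hu'
          simp only
          rw [Vale.Agent.P218.H313.ker_eq_zero, ENNReal.ofReal_zero]
          rw [norm_smul, norm_inv, Real.norm_of_nonneg hrk.le, inv_mul_eq_div, one_le_div hrk]
          exact hu'
      _ ≤ ∫⁻ u in ball (pr x) (r / k), ENNReal.ofReal (Chart.jac h u) *
            ENNReal.ofReal (ker (r⁻¹ • (Chart.gr (nu N x) J h u - x))) := by
          refine setLIntegral_mono' measurableSet_ball fun u hu => ?_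
          refine le_trans ?_ (le_mul_of_one_le_left' (ENNReal.one_le_ofReal.2 (Chart.one_le_jac h u)))
          refine ENNReal.ofReal_le_ofReal (Vale.Agent.P218.H313.ker_anti ?_)
          rw [norm_smul, norm_smul, norm_inv, norm_inv, Real.norm_of_nonneg hr0.le,
            Real.norm_of_nonneg hrk.le, inv_div, div_mul_eq_mul_div, inv_mul_eq_div]
          gcongr
          exact hle u hu
      _ ≤ ∫⁻ u in pr '' (ball x r ∩ N), ENNReal.ofReal (Chart.jac h u) *
            ENNReal.ofReal (ker (r⁻¹ • (Chart.gr (nu N x) J h u - x))) := lintegral_mono_set hsub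
      _ = ∫⁻ y in ball x r ∩ N, ENNReal.ofReal (ker (r⁻¹ • (y - x))) ∂(area N) :=
          (C.lintegral hS (measurableSet_ball.inter hN.1.measurableSet)
            fun y => ENNReal.ofReal (ker (r⁻¹ • (y - x)))).symm
      _ ≤ _ := setLIntegral_le_lintegral _ _
  rw [← ofReal_integral_eq_lintegral_ofReal hi
    (Eventually.of_forall fun y => Vale.Agent.P218.H313.ker_nonneg _),
    ENNReal.ofReal_le_ofReal_iff
      (integral_nonneg fun y => Vale.Agent.P218.H313.ker_nonneg _), integral_area] at key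
  have h5 := le_of_mul_le_mul_left key cE_pos
  rw [le_div_iff₀ (by positivity)]
  refine le_trans ?_ h5
  rw [le_div_iff₀ (by positivity)] at hk
  rw [div_pow, div_mul_eq_mul_div, le_div_iff₀ (by positivity)]
  nlinarith [sq_nonneg r]

/-- a smooth surface is a slice -/
theorem slice (hFV : FVStmt) (hN : IsSurf N) : Slice 2 (hm N) (tg N) (Hv N) where
  mc := mc hFV hN
  dens := (ae_mem hN.1).mono fun _ hx _ hc => dens_ge hN hx hc

lemma exp_eq_gk (x : E3) : Real.exp (-‖x‖ ^ 2 / 8) = 8 * Real.pi * gk 2 (x - 0) := by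
  rw [gk, sub_zero]
  have := Real.pi_pos
  have e : (4 * 2 : ℝ) = 8 := by norm_num
  rw [e]
  field_simp
  norm_num

lemma integrable_exp8 {D : ℝ} (h : AreaRatio D N) :
    Integrable (fun x : E3 => Real.exp (-‖x‖ ^ 2 / 8)) (hm N) := by
  simp_rw [exp_eq_gk]
  exact integrable_hm ((integrable_gk h 0 two_pos).const_mul _)

lemma exists_exp8_le (D : ℝ) : ∃ C : ℝ, ∀ N : Set E3, AreaRatio D N →
    ∫ x, Real.exp (-‖x‖ ^ 2 / 8) ∂(hm N) ≤ C := by
  refine ⟨(cE : ℝ)⁻¹ * (8 * Real.pi * ((∑' k, gcoef k) * max D 0)), fun N h => ?_⟩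
  simp_rw [exp_eq_gk]
  rw [integral_hm, integral_const_mul]
  have h1 := lintegral_gk_le (le_max_right D 0) (h.mono (le_max_left D 0)) 0 two_pos
  have h2 : 0 ≤ (∑' k, gcoef k) * max D 0 :=
    mul_nonneg (tsum_nonneg fun k => (gcoef_pos k).le) (le_max_right D 0)
  rw [← ofReal_integral_eq_lintegral_ofReal (integrable_gk h 0 two_pos)
    (Eventually.of_forall fun x => (gk_pos two_pos _).le), ENNReal.ofReal_le_ofReal_iff h2] at h1
  have := Real.pi_pos
  have := cE_pos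
  gcongr

lemma integrable_mom {D : ℝ} (h : AreaRatio D N) (p : ℕ) :
    Integrable (fun x => (1 + ‖x‖) ^ p * rho x) (hm N) := by
  have hc : Continuous fun x : E3 => (1 + ‖x‖) ^ p * rho x :=
    ((continuous_const.add continuous_norm).pow p).mul Vale.Agent.P218.H313.continuous_rho
  refine ((integrable_exp8 h).const_mul (Real.exp (2 * p ^ 2))).mono' hc.aestronglyMeasurable
    (Eventually.of_forall fun x => ?_)
  rw [Real.norm_of_nonneg (mul_nonneg (by positivity) (Vale.Agent.P218.H313.rho_pos x).le)]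
  exact Vale.Agent.P218.H313.A2.pow_mul_rho_le p x

lemma norm_relV_le (hN : IsSurf N) {x : E3} (hx : x ∈ N) :
    ‖relV N 0 1 x‖ ≤ ‖Hv N x‖ + ‖x‖ := by
  rw [relV]
  refine (norm_add_le _ _).trans (add_le_add_right ?_ _)
  rw [norm_smul, hN.norm_nu hx, mul_one, sub_zero, Real.norm_eq_abs, abs_mul]
  have h1 := abs_real_inner_le_norm x (nu N x)
  rw [hN.norm_nu hx, mul_one] at h1
  have h2 : |(2 * 1 : ℝ)⁻¹| ≤ 1 := by norm_num [abs_of_pos]
  calc _ ≤ 1 * ‖x‖ := mul_le_mul h2 h1 (abs_nonneg _) zero_le_one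
    _ = _ := one_mul _

/-- a smooth surface with bounded area ratios and polynomially bounded speed is a Gaussian slice -/
theorem gslice' (hFV : FVStmt) (hN : IsSurf N) {D : ℝ} (hD : AreaRatio D N) {C : ℝ} {q : ℕ}
    (hH : ∀ x ∈ N, ‖relV N 0 1 x‖ ≤ C * (1 + ‖x‖) ^ q) : GSlice 2 (hm N) (tg N) (Hv N) where
  toSlice := slice hFV hN
  mom := integrable_mom hD
  vsq p := by
    have hc : Continuous fun x : E3 => (1 + ‖x‖) ^ p :=
      (continuous_const.add continuous_norm).pow p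
    refine ((integrable_mom hD (p + 2 * q)).const_mul (C ^ 2)).mono'
      ((hc.aestronglyMeasurable.mul ((slice hFV hN).vel_meas.norm.pow 2)).mul
        Vale.Agent.P218.H313.continuous_rho.aestronglyMeasurable) ?_
    filter_upwards [ae_mem hN.1] with x hx
    have h0 := (Vale.Agent.P218.H313.rho_pos x).le
    rw [Real.norm_of_nonneg (mul_nonneg (by positivity) h0), vel_tg hN hx]
    have h1 : ‖relV N 0 1 x‖ ^ 2 ≤ (C * (1 + ‖x‖) ^ q) ^ 2 :=
      pow_le_pow_left₀ (norm_nonneg _) (hH x hx) 2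
    calc (1 + ‖x‖) ^ p * ‖relV N 0 1 x‖ ^ 2 * rho x
        ≤ (1 + ‖x‖) ^ p * (C * (1 + ‖x‖) ^ q) ^ 2 * rho x := by gcongr
      _ = _ := by ring

theorem gslice (hFV : FVStmt) (hN : IsSurf N) {D : ℝ} (hD : AreaRatio D N) {C : ℝ} {q : ℕ}
    (hH : ∀ x ∈ N, ‖Hv N x‖ ≤ C * (1 + ‖x‖) ^ q) : GSlice 2 (hm N) (tg N) (Hv N) := by
  refine gslice' hFV hN hD (C := |C| + 1) (q := q + 1) fun x hx => (norm_relV_le hN hx).trans ?_
  have h1 : 1 ≤ (1 + ‖x‖) ^ q := one_le_pow₀ (by linarith [norm_nonneg x])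
  have h2 := hH x hx
  have h3 : C * (1 + ‖x‖) ^ q ≤ |C| * (1 + ‖x‖) ^ q :=
    mul_le_mul_of_nonneg_right (le_abs_self C) (by positivity)
  have h4 := norm_nonneg x
  have h5 : 0 ≤ |C| * (1 + ‖x‖) ^ q * ‖x‖ := by positivity
  rw [pow_succ]
  nlinarith

/-- a shrinker is a Gaussian slice -/
theorem gslice_shr (hFV : FVStmt) (hN : IsSurf N) {D : ℝ} (hD : AreaRatio D N)
    (hH : ∀ x ∈ N, relV N 0 1 x = 0) : GSlice 2 (hm N) (tg N) (Hv N) :=
  gslice' hFV hN hD (C := 0) (q := 0) fun x hx => by simp [hH x hx]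

/-- a compact surface is a Gaussian slice -/
theorem gslice_compact (hFV : FVStmt) (hN : IsSurf N) {D : ℝ} (hD : AreaRatio D N)
    (hc : IsCompact N) : GSlice 2 (hm N) (tg N) (Hv N) := by
  obtain ⟨C, hC⟩ := hc.exists_bound_of_continuousOn (continuousOn_Hv hN)
  exact gslice hFV hN hD (C := C) (q := 0) fun x hx => by simpa using hC x hx

lemma real_closedBall_le {D : ℝ} (hD : AreaRatio D N) (x : E3) {r : ℝ} (hr : 0 < r) :
    (hm N).real (closedBall x r) ≤ ((cE : ℝ)⁻¹ * (4 * max D 0)) * r ^ 2 := by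
  have h1 : area N (closedBall x r) ≤ ENNReal.ofReal (max D 0 * (2 * r) ^ 2) :=
    (measure_mono (closedBall_subset_ball (by linarith))).trans
      (hD.mono (le_max_left D 0) x (2 * r) (by linarith))
  have h2 : (area N).real (closedBall x r) ≤ max D 0 * (2 * r) ^ 2 :=
    ENNReal.toReal_le_of_le_ofReal (by positivity) h1
  rw [hm_eq, measureReal_nnreal_smul_apply, NNReal.coe_inv]
  have := cE_pos
  calc (cE : ℝ)⁻¹ * (area N).real (closedBall x r) ≤ (cE : ℝ)⁻¹ * (max D 0 * (2 * r) ^ 2) := by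
        gcongr
    _ = _ := by ring

/-! ### The rescaled flow -/

open Vale.Agent.P218.H313.A1 (ti xx)

variable {M : ℝ → Set E3} {I : Set ℝ}

lemma brakke_eq (hEV : EVStmt) (hC : ContStmt) (hM : IsMCF M I) {φ : ℝ → E3 → ℝ}
    (hφ : ContDiff ℝ 1 fun p : ℝ × E3 => φ p.1 p.2)
    (hφc : HasCompactSupport fun p : ℝ × E3 => φ p.1 p.2) {p q : ℝ} (hpq : p ≤ q)
    (hI : Icc p q ⊆ I) :
    IntervalIntegrable (fun t => brakkeRHS (hm (M t)) (Hv (M t)) φ t) volume p q ∧
      ∫ x, φ q x ∂(hm (M q)) - ∫ x, φ p x ∂(hm (M p))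
        = ∫ t in p..q, brakkeRHS (hm (M t)) (Hv (M t)) φ t := by
  set f : ℝ × E3 → ℝ := fun p => φ p.1 p.2 with hf
  obtain ⟨R, hR⟩ : ∃ R, ∀ p : ℝ × E3, R ≤ ‖p.2‖ → p ∉ tsupport f := by
    obtain ⟨R, hR⟩ := hφc.isCompact.isBounded.subset_ball 0
    refine ⟨R, fun p hp h => ?_⟩
    have h1 := mem_ball_zero_iff.1 (hR h)
    have h2 := norm_snd_le p
    linarith
  have hd : ∀ t x v, fderiv ℝ f (t, x) (1, v)
      = deriv (fun τ => φ τ x) t + fderiv ℝ (φ t) x v := by
    intro t x v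
    have h1 := (hφ.differentiable one_ne_zero (t, x)).hasFDerivAt
    have h0 : HasDerivAt (fun s : ℝ => (s, x)) ((1 : ℝ), (0 : E3)) t :=
      (hasDerivAt_id t).prodMk (hasDerivAt_const t x)
    have h2 : HasDerivAt (fun τ => φ τ x) (fderiv ℝ f (t, x) (1, 0)) t := by
      have h4 := HasFDerivAt.comp_hasDerivAt (f := fun s : ℝ => (s, x)) t h1 h0
      exact h4
    have h3 : HasFDerivAt (φ t) ((fderiv ℝ f (t, x)).comp (ContinuousLinearMap.inr ℝ ℝ E3)) x :=
      h1.comp x (hasFDerivAt_prodMk_right t x)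
    rw [h2.deriv, h3.fderiv, ContinuousLinearMap.comp_apply, ← map_add]
    simp
  set g : ℝ × E3 → ℝ := fun p =>
    fderiv ℝ f p (1, Hv (M p.1) p.2) - ‖Hv (M p.1) p.2‖ ^ 2 * f p with hg
  have e : ∀ t, brakkeRHS (hm (M t)) (Hv (M t)) φ t
      = (cE : ℝ)⁻¹ * ∫ x, g (t, x) ∂(area (M t)) := by
    intro t
    rw [brakkeRHS, integral_hm]
    congr 2; ext x
    simp only [hg, hd]
    simp only [hf]; ring
  have hcont : ContinuousOn (fun t => ∫ x, g (t, x) ∂(area (M t))) I := by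
    refine hC M I hM g R ?_ fun p hp => ?_
    · exact ((hφ.continuous_fderiv one_ne_zero).continuousOn.clm_apply
        (continuousOn_const.prodMk hM.continuousOn_Hv)).sub
        ((hM.continuousOn_Hv.norm.pow 2).mul hφ.continuous.continuousOn)
    · have h1 : f p = 0 := image_eq_zero_of_notMem_tsupport (hR p hp)
      have h2 : fderiv ℝ f p = 0 := fderiv_of_notMem_tsupport (𝕜 := ℝ) (hR p hp)
      simp [hg, h1, h2]
  have hi : IntervalIntegrable (fun t => brakkeRHS (hm (M t)) (Hv (M t)) φ t) volume p q := by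
    simp_rw [e]
    exact ((hcont.mono hI).intervalIntegrable_of_Icc hpq).const_mul _
  refine ⟨hi, (intervalIntegral.integral_eq_sub_of_hasDerivAt
    (f := fun s => ∫ x, φ s x ∂(hm (M s))) (fun t ht => ?_) hi).symm⟩
  rw [uIcc_of_le hpq] at ht
  simp_rw [integral_hm, e]
  exact (hEV M I hM f R hφ (fun p hp => image_eq_zero_of_notMem_tsupport (hR p hp)) t
    (hI ht)).const_mul _

lemma mc_zero (T : E3 → Submodule ℝ E3) (H : E3 → E3) : MC 2 (0 : Measure E3) T H where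
  fin := inferInstance
  Tmeas := aestronglyMeasurable_zero_measure _
  dim := by simp
  meas := aestronglyMeasurable_zero_measure _
  locL2 K _ := by simp [IntegrableOn]
  normal := by simp
  fv := by simp

lemma bf_trunc (hFV : FVStmt) (hEV : EVStmt) (hC : ContStmt) (hM : IsMCF M I) {c : ℝ}
    (hc : Icc 0 c ⊆ I) :
    BF 2 (fun t => if t ≤ c then hm (M t) else 0) (fun t => tg (M t)) (fun t => Hv (M t)) := by
  have hmc : ∀ t, 0 ≤ t → MC 2 (if t ≤ c then hm (M t) else 0) (tg (M t)) (Hv (M t)) := by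
    intro t ht
    split_ifs with h
    · exact mc hFV (hM.isSurf (hc ⟨ht, h⟩))
    · exact mc_zero _ _
  refine ⟨fun t ht => (hmc t ht).fin, (ae_restrict_mem measurableSet_Ici).mono hmc, ?_⟩
  intro φ hφ hφc hφ0 p q hp hpq
  set G : ℝ → ℝ := fun t => brakkeRHS (if t ≤ c then hm (M t) else 0) (Hv (M t)) φ t with hG
  have h1 : ∀ r, p ≤ r → r ≤ c → IntervalIntegrable G volume p r ∧
      ∫ x, φ r x ∂(hm (M r)) - ∫ x, φ p x ∂(hm (M p)) = ∫ t in p..r, G t := by
    intro r hr hrc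
    obtain ⟨h2, h3⟩ := brakke_eq hEV hC hM hφ hφc hr ((Icc_subset_Icc hp hrc).trans hc)
    have e : EqOn (fun t => brakkeRHS (hm (M t)) (Hv (M t)) φ t) G (uIcc p r) := by
      intro t ht
      rw [uIcc_of_le hr] at ht
      simp only [hG, if_pos (ht.2.trans hrc)]
    exact ⟨h2.congr (e.mono uIoc_subset_uIcc), h3.trans (intervalIntegral.integral_congr e)⟩
  have h2 : ∀ r, c ≤ r → r ≤ q → IntervalIntegrable G volume r q ∧ ∫ t in r..q, G t = 0 := by
    intro r hr hrq
    have e : EqOn (fun _ => (0 : ℝ)) G (uIoc r q) := by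
      intro t ht
      rw [uIoc_of_le hrq] at ht
      simp [hG, if_neg (not_le.2 (hr.trans_lt ht.1)), brakkeRHS]
    refine ⟨intervalIntegrable_const.congr e, ?_⟩
    rw [← intervalIntegral.integral_congr_ae (Eventually.of_forall fun t ht => e ht)]
    simp
  have hn : ∀ (t : ℝ) (μ : Measure E3), 0 ≤ ∫ x, φ t x ∂μ := fun t μ => integral_nonneg (hφ0 t)
  by_cases hq : q ≤ c
  · obtain ⟨h3, h4⟩ := h1 q hpq hq
    simp only [if_pos hq, if_pos (hpq.trans hq)]
    exact ⟨h3, h4.le⟩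
  by_cases hp' : p ≤ c
  · obtain ⟨h3, h4⟩ := h1 c hp' le_rfl
    obtain ⟨h5, h6⟩ := h2 c le_rfl (not_le.1 hq).le
    refine ⟨h3.trans h5, ?_⟩
    rw [← intervalIntegral.integral_add_adjacent_intervals h3 h5, h6, ← h4]
    simp only [if_neg hq, if_pos hp', integral_zero_measure]
    linarith [hn c (hm (M c))]
  · obtain ⟨h5, h6⟩ := h2 p (not_le.1 hp').le hpq
    refine ⟨h5, ?_⟩
    rw [h6]
    simp [if_neg hq, if_neg hp']

/-- the rescaled flow `e^{s/2} (M_{b - e^{-s}} - x₀)` -/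
def rs (M : ℝ → Set E3) (x₀ : E3) (b s : ℝ) : Set E3 :=
  scaleSet (Real.exp (s / 2)) x₀ (M (b - Real.exp (-s)))

lemma exp_half_sq (s : ℝ) : Real.exp (s / 2) ^ 2 = Real.exp s := by
  rw [← Real.exp_nat_mul]; congr 1; push_cast; ring

lemma rs_eq (M : ℝ → Set E3) (x₀ : E3) (b s : ℝ) :
    rs M x₀ b s = scaleFlow (Real.exp (s / 2)) x₀ b M (-1) := by
  rw [rs, scaleFlow_apply, exp_half_sq, Real.exp_neg, neg_div, one_div, sub_eq_add_neg]

lemma ineq0 (hFV : FVStmt) (hEV : EVStmt) (hC : ContStmt) (hM : IsMCF M I) {b : ℝ}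
    (hI : Ico 0 b ⊆ I) (x₀ : E3) {f : E3 → ℝ} (hf : ContDiff ℝ 1 f) (hfc : HasCompactSupport f)
    (hf0 : ∀ x, 0 ≤ f x) {p q : ℝ} (hp : 0 ≤ ti b p) (hpq : p ≤ q) :
    IntervalIntegrable
      (fun s => LL (hm (rs M x₀ b s)) (tg (rs M x₀ b s)) (Hv (rs M x₀ b s)) f) volume p q ∧
    ∫ x, f x * rho x ∂(hm (rs M x₀ b q)) - ∫ x, f x * rho x ∂(hm (rs M x₀ b p))
      ≤ ∫ s in p..q, LL (hm (rs M x₀ b s)) (tg (rs M x₀ b s)) (Hv (rs M x₀ b s)) f := by
  have hmono := (Vale.Agent.P218.H313.A1.ti_strictMono b).monotone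
  have hlt := Vale.Agent.P218.H313.A1.ti_lt b q
  have hc : Icc 0 (ti b q) ⊆ I := fun t ht => hI ⟨ht.1, ht.2.trans_lt hlt⟩
  have hB := bf_trunc hFV hEV hC hM hc
  set μ : ℝ → Measure E3 := fun t => if t ≤ ti b q then hm (M t) else 0 with hμ
  obtain ⟨h1, h2⟩ := hB.weighted x₀ hf hfc hf0 hp (hmono hpq) hlt
  have e0 : ∀ s, s ≤ q → NN 2 μ x₀ b (s / 2) = hm (rs M x₀ b s) := by
    intro s hs
    rw [Vale.Agent.P218.H313.A1.NN_half, rs, hm_scale (Real.exp_pos _)]
    simp only [hμ, if_pos (hmono hs)]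
    rfl
  have e1 : EqOn (fun s => Real.exp (-s) *
      GG 2 μ (fun t => tg (M t)) (fun t => Hv (M t)) x₀ b f (ti b s))
      (fun s => LL (hm (rs M x₀ b s)) (tg (rs M x₀ b s)) (Hv (rs M x₀ b s)) f) (uIcc p q) := by
    intro s hs
    rw [uIcc_of_le hpq] at hs
    have hs' : IsSurf (M (ti b s)) := hM.isSurf (hc ⟨hp.trans (hmono hs.1), hmono hs.2⟩)
    have hl := Real.exp_pos (s / 2)
    have hr : IsSurf (rs M x₀ b s) := hs'.scale hl.ne' x₀
    simp only
    rw [← Vale.Agent.P218.H313.A1.LL_dil, e0 s hs.2, LL, LL]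
    refine integral_congr_ae ((ae_mem hr.1).mono fun y hy => ?_)
    have e : vel (fun y => tg (M (ti b s)) (xx (Real.exp (s / 2)) x₀ y))
        (fun y => (Real.exp (s / 2))⁻¹ • Hv (M (ti b s)) (xx (Real.exp (s / 2)) x₀ y)) y
        = vel (tg (rs M x₀ b s)) (Hv (rs M x₀ b s)) y := by
      rw [vel, vel, proj_tg hr hy, xx, proj_tg hs' hy, rs, pt_nu_scale hl hy, Hv_scale hl hy]
      rfl
    simp only [e]
  have e2 : ∀ s, s ≤ q → ∫ x, f x * rho x ∂(hm (rs M x₀ b s)) = JJ 2 μ x₀ b f (ti b s) := by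
    intro s hs
    rw [← e0 s hs, ← Vale.Agent.P218.H313.A1.tim_half,
      Vale.Agent.P218.H552.JJ_tim _ _ _ _ (Real.exp_pos _)]
    rfl
  refine ⟨(Vale.Agent.P218.H313.A1.intervalIntegrable_time b hpq h1).congr
    (e1.mono uIoc_subset_uIcc), ?_⟩
  rw [e2 q le_rfl, e2 p hpq, ← intervalIntegral.integral_congr e1,
    ← Vale.Agent.P218.H313.A1.integral_time b hpq]
  exact h2

lemma time_mem {a b s₀ s : ℝ} (h0 : Real.exp (-s₀) < b - a) (hs : s₀ ≤ s) :
    b - Real.exp (-s) ∈ Ioo a b := by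
  have h1 : Real.exp (-s) ≤ Real.exp (-s₀) := Real.exp_le_exp.2 (by linarith)
  exact ⟨by linarith, by linarith [Real.exp_pos (-s)]⟩

lemma exists_start {a b : ℝ} (hab : a < b) : ∃ s₀, Real.exp (-s₀) < b - a :=
  ⟨-Real.log ((b - a) / 2), by rw [neg_neg, Real.exp_log (by linarith)]; linarith⟩

variable {a b s₀ D R : ℝ}

lemma isSurf_rs (hM : IsMCF M (Ioo a b)) (x₀ : E3) (h0 : Real.exp (-s₀) < b - a) {s : ℝ}
    (hs : s₀ ≤ s) : IsSurf (rs M x₀ b s) :=
  (hM.isSurf (time_mem h0 hs)).scale (Real.exp_pos _).ne' x₀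

lemma ratio_rs (hD : ∀ t ∈ Ioo a b, AreaRatio D (M t)) (x₀ : E3) (h0 : Real.exp (-s₀) < b - a)
    {s : ℝ} (hs : s₀ ≤ s) : AreaRatio D (rs M x₀ b s) :=
  (hD _ (time_mem h0 hs)).scale (Real.exp_pos _) x₀

lemma isCompact_rs (hM : IsMCF M (Ioo a b)) (hR : ∀ t ∈ Ioo a b, M t ⊆ closedBall 0 R) (x₀ : E3)
    (h0 : Real.exp (-s₀) < b - a) {s : ℝ} (hs : s₀ ≤ s) : IsCompact (rs M x₀ b s) :=
  isCompact_scaleSet (Real.exp_pos _).ne' ((isCompact_closedBall 0 R).of_isClosed_subset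
    (hM.isSurf (time_mem h0 hs)).1 (hR _ (time_mem h0 hs))) x₀

/-- **The rescaled flow of a closed smooth flow is an `RF`.** -/
theorem rf (hFV : FVStmt) (hEV : EVStmt) (hC : ContStmt) (hM : IsMCF M (Ioo a b))
    (hD : ∀ t ∈ Ioo a b, AreaRatio D (M t)) (hR : ∀ t ∈ Ioo a b, M t ⊆ closedBall 0 R) (x₀ : E3)
    (h0 : Real.exp (-s₀) < b - a) :
    RF 2 (fun s => hm (rs M x₀ b s)) (fun s => tg (rs M x₀ b s)) (fun s => Hv (rs M x₀ b s)) s₀ where
  fin s hs := by
    have := locFin_hm (isSurf_rs hM x₀ h0 hs)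
    have hK := isCompact_rs hM hR x₀ h0 hs
    refine ⟨?_⟩
    have h1 : hm (rs M x₀ b s) univ = hm (rs M x₀ b s) (rs M x₀ b s) := by
      rw [hm, Measure.restrict_apply_univ, Measure.restrict_apply_self]
    rw [h1]
    exact hK.measure_lt_top
  gauss := by
    obtain ⟨C, hC⟩ := exists_exp8_le D
    exact ⟨C, fun s hs => hC _ (ratio_rs hD x₀ h0 hs)⟩
  ratio := ⟨_, fun s hs x r hr _ => real_closedBall_le (ratio_rs hD x₀ h0 hs) x hr⟩
  slice := Eventually.of_forall fun s hs => slice hFV (isSurf_rs hM x₀ h0 hs)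
  ineq f hf hfc hf0 p q hp hpq := by
    set a' := b - Real.exp (-s₀) with ha'
    have hM' := hM.scale one_pos 0 a'
    have e : ∀ s, rs (scaleFlow 1 0 a' M) x₀ (b - a') s = rs M x₀ b s := by
      intro s
      rw [rs, rs, scaleFlow_apply, scaleSet_one_zero]
      congr 2; ring
    have hI : Ico 0 (b - a') ⊆ scaleInt 1 a' (Ioo a b) := by
      intro t ht
      rw [mem_scaleInt, one_pow, div_one]
      exact ⟨by linarith [ht.1], by linarith [ht.2]⟩
    have h1 := ineq0 hFV hEV hC hM' hI x₀ hf hfc hf0 (p := p) (q := q) (by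
      have : Real.exp (-p) ≤ Real.exp (-s₀) := Real.exp_le_exp.2 (by linarith)
      rw [ti]; linarith) hpq
    simpa only [e] using h1

/-- all slices of the rescaled flow are Gaussian slices -/
theorem gslice_rs (hFV : FVStmt) (hM : IsMCF M (Ioo a b))
    (hD : ∀ t ∈ Ioo a b, AreaRatio D (M t)) (hR : ∀ t ∈ Ioo a b, M t ⊆ closedBall 0 R) (x₀ : E3)
    (h0 : Real.exp (-s₀) < b - a) {s : ℝ} (hs : s₀ ≤ s) :
    GSlice 2 (hm (rs M x₀ b s)) (tg (rs M x₀ b s)) (Hv (rs M x₀ b s)) :=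
  gslice_compact hFV (isSurf_rs hM x₀ h0 hs) (ratio_rs hD x₀ h0 hs) (isCompact_rs hM hR x₀ h0 hs)

/-- uniform two-point bounds for the rescaled flow on every ball -/
theorem twoPt_rs (hT : T1Stmt) {G : ℝ} (hab : a < b) (hM : InC D G M (Ioo a b)) (x₀ : E3) (L : ℝ) :
    ∃ r C : ℝ, 0 < r ∧ 0 < C ∧ ∀ᶠ s in atTop, ∀ y ∈ rs M x₀ b s, ‖y‖ ≤ L →
      TwoPt (rs M x₀ b s) y r C := by
  obtain ⟨r, C, t₁, hr, hC, ht₁, h⟩ := hT D G M a b hab hM x₀ L
  obtain ⟨s₁, hs₁⟩ := exists_start ht₁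
  refine ⟨r, C, hr, hC, ?_⟩
  filter_upwards [eventually_ge_atTop s₁] with s hs y hy hL
  have hl := Real.exp_pos (s / 2)
  have e : √(b - (b - Real.exp (-s))) = (Real.exp (s / 2))⁻¹ := by
    rw [sub_sub_cancel, Real.exp_neg, ← exp_half_sq, Real.sqrt_inv, Real.sqrt_sq hl.le]
  have h1 := h _ (time_mem hs₁ hs) _ hy (by
    rw [e, add_sub_cancel_left, norm_smul, norm_inv, Real.norm_of_nonneg hl.le, mul_comm]
    gcongr)
  rw [e, div_inv_eq_mul, ← div_eq_mul_inv] at h1
  exact (twoPt_scale hl hy r C).2 h1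

end Vale.Agent.P218F.DynBridge
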