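import Vale.Agent.P218F.DynSpec
import Vale.Agent.P218F.DynBridge
import Mathlib.Analysis.SpecialFunctions.Gaussian.FourierTransform

/-! The zero set of a tube function is a Gaussian slice. -/

open MeasureTheory Set Filter Topology Metric Asymptotics
open scoped ENNReal NNReal RealInnerProductSpace ContDiff

namespace Vale.Agent.P218F.Dyn.Sl

open Vale.Agent.P214 (proj)
open Vale.Agent.P218FT
open Vale.Agent.P218.H313 (GSlice rho vel grad)

variable {V : E3 → ℝ} {c K : ℝ} {N : Set E3}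

lemma grad_eq (V : E3 → ℝ) : grad V = gradient V := rfl

/-- first and second order conditions for a function which vanishes on a surface -/
lemma jets (hN : IsSurf N) {f : E3 → ℝ} (hf : ContDiff ℝ 2 f) (h0 : ∀ y ∈ N, f y = 0) {x : E3}
    (hx : x ∈ N) {a : E3} (ha : ⟪nu N x, a⟫ = 0) : ⟪gradient f x, a⟫ = 0 ∧
      ⟪fderiv ℝ (gradient f) x a, a⟫ + ⟪sh N x a, a⟫ * ⟪gradient f x, nu N x⟫ = 0 := by
  obtain ⟨p, hp, hj⟩ := hN.jet hx ha
  have h1 := (taylor_jet hf hj).neg_left
  rw [← real_inner_smul_right]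
  refine coef_zero (h1.congr' ?_ EventuallyEq.rfl)
  filter_upwards [hp] with σ hσ
  rw [h0 _ hσ, h0 _ hx]
  ring

lemma grad_normal (h : Tube0 V c K) (hN : IsSurf (zs V)) {x : E3} (hx : x ∈ zs V) :
    pt (nu (zs V) x) (grad V x) = 0 := by
  have hn := hN.norm_nu hx
  have h1 := (jets hN h.smooth (fun y hy => hy) hx (inner_pt_nrm hn (grad V x))).1
  rw [← grad_eq, ← pt_pt hn, ← inner_pt_left, inner_self_eq_zero] at h1
  exact h1

lemma norm_grad_one (h : Tube0 V c K) {x : E3} (hx : x ∈ zs V) : ‖grad V x‖ = 1 :=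
  h.eik x (by rw [show V x = 0 from hx, abs_zero]; exact h.cpos)

lemma grad_eq_smul (h : Tube0 V c K) (hN : IsSurf (zs V)) {x : E3} (hx : x ∈ zs V) :
    grad V x = ⟪nu (zs V) x, grad V x⟫ • nu (zs V) x ∧ |⟪nu (zs V) x, grad V x⟫| = 1 := by
  have h1 := grad_normal h hN hx
  rw [pt_apply, sub_eq_zero] at h1
  refine ⟨h1, ?_⟩
  have h2 := congrArg norm h1
  rwa [norm_grad_one h hx, norm_smul, hN.norm_nu hx, mul_one, Real.norm_eq_abs, eq_comm] at h2

lemma abs_inner_nu (h : Tube0 V c K) (hN : IsSurf (zs V)) {x : E3} (hx : x ∈ zs V) (e : E3) :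
    |⟪nu (zs V) x, e⟫| = |⟪grad V x, e⟫| := by
  obtain ⟨h1, h2⟩ := grad_eq_smul h hN hx
  rw [h1, real_inner_smul_left, abs_mul, h2, one_mul]

lemma norm_Hv_le (h : Tube0 V c K) (hN : IsSurf (zs V)) {x : E3} (hx : x ∈ zs V) :
    ‖Hv (zs V) x‖ ≤ 2 * K := by
  obtain ⟨a, b, ht⟩ := exists_triple (hN.norm_nu hx)
  have key : ∀ a : E3, ‖a‖ = 1 → ⟪a, nu (zs V) x⟫ = 0 → |⟪sh (zs V) x a, a⟫| ≤ K := by
    intro a h1 h2
    have h3 := (jets hN h.smooth (fun y hy => hy) hx (by rwa [real_inner_comm])).2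
    have h4 := (grad_eq_smul h hN hx).2
    rw [← grad_eq, real_inner_comm (nu (zs V) x), add_eq_zero_iff_eq_neg] at h3
    have h5 := congrArg abs h3
    rw [abs_neg, abs_mul, h4, mul_one] at h5
    rw [← h5]
    refine (abs_real_inner_le_norm _ _).trans ?_
    have h6 := (fderiv ℝ (grad V) x).le_opNorm a
    rw [h1, mul_one] at h6 ⊢
    exact h6.trans (h.b2 x)
  rw [hN.norm_Hv hx, hN.tr_sh hx ht]
  linarith [abs_add_le ⟪sh (zs V) x a, a⟫ ⟪sh (zs V) x b, b⟫, key a ht.na ht.ac, key b ht.nb ht.bc]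

/-- uniform area bound in small balls -/
lemma area_ball (h : Tube0 V c K) (hN : IsSurf (zs V)) :
    ∃ (s : ℝ) (A : ℝ≥0∞), 0 < s ∧ s ≤ 1 ∧ A < ⊤ ∧ ∀ z, area (zs V) (ball z s) ≤ A := by
  have hK := h.K_nonneg
  set s : ℝ := 1 / (4 * (K + 1)) with hs
  have s0 : 0 < s := by positivity
  have s1 : K * (2 * s) ≤ 1 / 2 := by
    rw [hs, mul_one_div, ← mul_div_assoc, div_le_iff₀ (by positivity)]; linarith
  refine ⟨s, 2 * volume (closedBall (0 : Chart.E2) (2 * s)), s0, ?_,
    ENNReal.mul_lt_top (by simp) measure_closedBall_lt_top, fun z => ?_⟩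
  · rw [hs, div_le_one (by positivity)]; linarith
  rw [Chart.area_apply hN]
  rcases (ball z s ∩ zs V).eq_empty_or_nonempty with e | ⟨p, hpz, hp⟩
  · simp [e]
  have hsub : ball z s ⊆ ball p (2 * s) := fun y hy => by
    rw [mem_ball] at *
    linarith [dist_triangle_right y p z]
  set e := grad V p with he
  have he1 : ‖e‖ = 1 := norm_grad_one h hp
  have hg : ∀ y ∈ ball p (2 * s), 1 / 2 ≤ ⟪grad V y, e⟫ := by
    intro y hy
    have h1 : ‖grad V y - grad V p‖ ≤ K * ‖y - p‖ :=
      convex_univ.norm_image_sub_le_of_norm_fderiv_le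
        (fun w _ => h.grad_cd.differentiable one_ne_zero w) (fun w _ => h.b2 w) (mem_univ _)
        (mem_univ _)
    have h2 : K * ‖y - p‖ ≤ K * (2 * s) :=
      mul_le_mul_of_nonneg_left (mem_ball_iff_norm.1 hy).le hK
    have h3 := abs_real_inner_le_norm (grad V y - e) e
    rw [he1, mul_one, inner_sub_left, real_inner_self_eq_norm_sq, he1] at h3
    linarith [neg_abs_le (⟪grad V y, e⟫ - 1 ^ 2)]
  have hinj : InjOn (pt e) (ball z s ∩ zs V) := by
    intro y hy y' hy' hyy
    have h1 : y' - y = ⟪e, y' - y⟫ • e := by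
      have : pt e (y' - y) = 0 := by rw [map_sub, hyy, sub_self]
      rwa [pt_apply, sub_eq_zero] at this
    by_contra hne
    have hd : ∀ t : ℝ, HasDerivAt (fun t : ℝ => V (y + t • (y' - y)))
        (⟪grad V (y + t • (y' - y)), y' - y⟫) t := fun t => by
      have h2 : HasDerivAt (fun t : ℝ => y + t • (y' - y)) (y' - y) t := by
        simpa using ((hasDerivAt_id t).smul_const (y' - y)).const_add y
      rw [Vale.Agent.P218.H313.inner_grad]
      exact (h.diff _).hasFDerivAt.comp_hasDerivAt t h2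
    obtain ⟨t, ht, h0⟩ := exists_hasDerivAt_eq_zero zero_lt_one
      (fun t _ => (hd t).continuousAt.continuousWithinAt)
      (by simp [show V y = 0 from hy.2, show V y' = 0 from hy'.2]) fun t _ => hd t
    have h3 := hg _ (hsub ((convex_ball z s).add_smul_sub_mem hy.1 hy'.1 ⟨ht.1.le, ht.2.le⟩))
    generalize grad V (y + t • (y' - y)) = g at h0 h3
    rw [h1, real_inner_smul_right, mul_eq_zero] at h0
    rcases h0 with h0 | h0
    · rw [h0, zero_smul, sub_eq_zero] at h1
      exact hne h1.symm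
    · linarith
  have h1 := Chart.proj_proof _ hN e (1 / 2) (ball z s ∩ zs V) he1 (by norm_num)
    inter_subset_right (measurableSet_ball.inter hN.1.measurableSet)
    (fun y hy => by
      rw [abs_inner_nu h hN hy.2]
      exact (hg y (hsub hy.1)).trans (le_abs_self _)) hinj
  obtain ⟨J, pr, F⟩ := Chart.exists_frame he1
  have h2 : pr '' (ball z s ∩ zs V) ⊆ closedBall (pr p) (2 * s) := by
    rintro _ ⟨y, hy, rfl⟩
    rw [mem_closedBall, dist_eq_norm, ← map_sub]
    exact (F.norm_pr_le _).trans (mem_ball_iff_norm.1 (hsub hy.1)).le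
  rw [F.image_pt, F.measure_image] at h1
  have h3 := h1.trans (measure_mono h2)
  rw [Measure.addHaar_closedBall_center] at h3
  calc area (zs V) (ball z s ∩ zs V)
      = 2 * (ENNReal.ofReal (1 / 2) * area (zs V) (ball z s ∩ zs V)) := by
        have : (2 : ℝ≥0∞) * ENNReal.ofReal (1 / 2) = 1 := by
          rw [← ENNReal.ofReal_ofNat 2, ← ENNReal.ofReal_mul (by norm_num)]
          norm_num
        rw [← mul_assoc, this, one_mul]
    _ ≤ _ := by gcongr

lemma integrable_gauss : Integrable (fun z : E3 => Real.exp (-‖z‖ ^ 2 / 16)) := by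
  have := (GaussianFourier.integrable_cexp_neg_mul_sq_norm_add (V := E3) (b := 1 / 16)
    (by norm_num) 0 0).norm
  refine this.congr (Eventually.of_forall fun z => ?_)
  simp only [Complex.norm_exp]
  congr 1
  simp [← Complex.ofReal_pow]
  ring

/-- Gaussian bounds from uniform bounds in small balls -/
lemma integrable_exp8 {μ : Measure E3} [SFinite μ] {s : ℝ} {A : ℝ≥0∞} (s0 : 0 < s) (s1 : s ≤ 1)
    (hA : A < ⊤) (hμ : ∀ z, μ (ball z s) ≤ A) :
    Integrable (fun x : E3 => Real.exp (-‖x‖ ^ 2 / 8)) μ := by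
  refine ⟨(by fun_prop : Continuous fun x : E3 => Real.exp (-‖x‖ ^ 2 / 8)).aestronglyMeasurable, ?_⟩
  rw [hasFiniteIntegral_iff_ofReal (Eventually.of_forall fun x => (Real.exp_pos _).le)]
  set g : E3 → ℝ≥0∞ := fun z => ENNReal.ofReal (Real.exp 1 * Real.exp (-‖z‖ ^ 2 / 16)) with hg
  have gm : Measurable g := by fun_prop
  have gi : ∫⁻ z, g z < ⊤ := (integrable_gauss.const_mul (Real.exp 1)).lintegral_lt_top
  set F : E3 → E3 → ℝ≥0∞ := fun x z => {p : E3 × E3 | dist p.1 p.2 < s}.indicator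
    (fun p => g p.2) (x, z) with hF
  have Fm : Measurable (Function.uncurry F) := (gm.comp measurable_snd).indicator
    (isOpen_lt continuous_dist continuous_const).measurableSet
  have h1 : ∀ x : E3, ENNReal.ofReal (Real.exp (-‖x‖ ^ 2 / 8)) * volume (ball (0 : E3) s) ≤
      ∫⁻ z, F x z := by
    intro x
    rw [← Measure.addHaar_ball_center volume x, ← lintegral_indicator_const measurableSet_ball]
    refine lintegral_mono fun z => ?_
    by_cases hz : z ∈ ball x s
    · have hz' : dist x z < s := by rwa [mem_ball, dist_comm] at hz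
      rw [indicator_of_mem hz, hF]
      simp only
      rw [indicator_of_mem (by exact hz'), hg]
      refine ENNReal.ofReal_le_ofReal ?_
      rw [← Real.exp_add]
      refine Real.exp_le_exp.2 ?_
      have h2 : ‖z‖ ≤ ‖x‖ + 1 := by
        have := norm_le_norm_add_norm_sub' z x
        rw [← dist_eq_norm, dist_comm] at this
        linarith
      nlinarith [norm_nonneg z, norm_nonneg x, sq_nonneg (‖x‖ - 1)]
    · simp [indicator_of_notMem hz]
  have h2 : ∀ z : E3, ∫⁻ x, F x z ∂μ ≤ g z * A := by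
    intro z
    have : (fun x => F x z) = (ball z s).indicator fun _ => g z := by
      ext x
      simp only [hF, indicator, mem_ofPred_eq, mem_ball]
    rw [this, lintegral_indicator_const measurableSet_ball]
    gcongr
    exact hμ z
  have h3 : (∫⁻ x, ENNReal.ofReal (Real.exp (-‖x‖ ^ 2 / 8)) ∂μ) * volume (ball (0 : E3) s) < ⊤ := by
    rw [← lintegral_mul_const _ (by fun_prop)]
    refine (lintegral_mono h1).trans_lt ?_
    rw [lintegral_lintegral_swap Fm.aemeasurable]
    refine (lintegral_mono h2).trans_lt ?_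
    rw [lintegral_mul_const _ gm]
    exact ENNReal.mul_lt_top gi hA
  exact ENNReal.lt_top_of_mul_ne_top_left h3.ne (measure_ball_pos volume 0 s0).ne'

/-- a smooth surface with Gaussian bounds and polynomially bounded speed is a Gaussian slice -/
theorem gslice (hFV : FVStmt) (hN : IsSurf N)
    (hD : Integrable (fun x : E3 => Real.exp (-‖x‖ ^ 2 / 8)) (hm N)) {C : ℝ} {q : ℕ}
    (hH : ∀ x ∈ N, ‖relV N 0 1 x‖ ≤ C * (1 + ‖x‖) ^ q) :
    GSlice 2 (hm N) (tg N) (Hv N) := by
  have mom : ∀ p : ℕ, Integrable (fun x => (1 + ‖x‖) ^ p * rho x) (hm N) := fun p => by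
    have hc : Continuous fun x : E3 => (1 + ‖x‖) ^ p * rho x :=
      ((continuous_const.add continuous_norm).pow p).mul Vale.Agent.P218.H313.continuous_rho
    refine (hD.const_mul (Real.exp (2 * p ^ 2))).mono' hc.aestronglyMeasurable
      (Eventually.of_forall fun x => ?_)
    rw [Real.norm_of_nonneg (mul_nonneg (by positivity) (Vale.Agent.P218.H313.rho_pos x).le)]
    exact Vale.Agent.P218.H313.A2.pow_mul_rho_le p x
  refine ⟨DynBridge.slice hFV hN, mom, fun p => ?_⟩
  have hc : Continuous fun x : E3 => (1 + ‖x‖) ^ p :=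
    (continuous_const.add continuous_norm).pow p
  refine ((mom (p + 2 * q)).const_mul (C ^ 2)).mono'
    ((hc.aestronglyMeasurable.mul ((DynBridge.slice hFV hN).vel_meas.norm.pow 2)).mul
      Vale.Agent.P218.H313.continuous_rho.aestronglyMeasurable) ?_
  filter_upwards [DynBridge.ae_mem hN.1] with x hx
  have h0 := (Vale.Agent.P218.H313.rho_pos x).le
  rw [Real.norm_of_nonneg (mul_nonneg (by positivity) h0), DynBridge.vel_tg hN hx]
  have h1 : ‖relV N 0 1 x‖ ^ 2 ≤ (C * (1 + ‖x‖) ^ q) ^ 2 :=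
    pow_le_pow_left₀ (norm_nonneg _) (hH x hx) 2
  calc (1 + ‖x‖) ^ p * ‖relV N 0 1 x‖ ^ 2 * rho x
      ≤ (1 + ‖x‖) ^ p * (C * (1 + ‖x‖) ^ q) ^ 2 * rho x := by gcongr
    _ = _ := by ring

theorem slice_proof (hFV : FVStmt) : SliceStmt := by
  intro V c K h hN
  obtain ⟨s, A, s0, s1, hA, hμ⟩ := area_ball h hN
  have := Chart.locFin_proof _ hN
  have hK := h.K_nonneg
  refine ⟨tg (zs V), Hv (zs V), ?_, ?_⟩
  · refine gslice hFV hN (DynBridge.integrable_hm (integrable_exp8 s0 s1 hA hμ))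
      (C := 2 * K + 1) (q := 1) fun x hx => (DynBridge.norm_relV_le hN hx).trans ?_
    nlinarith [norm_Hv_le h hN hx, norm_nonneg x]
  · filter_upwards [DynBridge.ae_mem hN.1] with y hy
    rw [DynBridge.proj_tg hN hy, grad_normal h hN hy]

end Vale.Agent.P218F.Dyn.Sl
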