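import Vale.Agent.P218F.E2Curve
import Vale.Agent.P218FT.Local

/-!
# P218F, block E2: self-shrinkers of `ℝ³` which split off a line

A properly embedded self-shrinker whose normal is orthogonal to a fixed unit vector `e` is empty,
a plane through the origin, or the cylinder of radius `√2` with axis `ℝ e`.
-/

open Set Filter Topology Metric
open scoped RealInnerProductSpace ContDiff

namespace Vale.Agent.P218F.E2

open Vale.Agent.P218FT

theorem const_Ioo {F : Type*} [NormedAddCommGroup F] [NormedSpace ℝ F] {f : ℝ → F} {a b : ℝ}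
    (hf : ∀ s ∈ Ioo a b, HasDerivAt f 0 s) {s t : ℝ} (hs : s ∈ Ioo a b) (ht : t ∈ Ioo a b) :
    f s = f t := by
  have h1 := (convex_Ioo a b).norm_image_sub_le_of_norm_hasDerivWithin_le (C := 0)
    (f := f) (f' := fun _ => 0) (fun u hu => (hf u hu).hasDerivWithinAt) (fun _ _ => by simp) ht hs
  rw [zero_mul] at h1
  exact sub_eq_zero.1 (norm_le_zero_iff.1 h1)

variable {S : Set E3} {e : E3}

theorem nuw_orth (ht : ∀ x ∈ S, ⟪nu S x, e⟫ = 0) {x : E3} {w : E3 → ℝ} (hw : IsEqn S x w)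
    (hx : x ∈ S) : ⟪nuw w x, e⟫ = 0 := by
  have := hw.inner_sq_eq hx e
  rw [ht x hx] at this
  exact pow_eq_zero_iff two_ne_zero |>.1 (by rw [← this]; ring)

theorem line_loc (hS : IsSurf S) (ht : ∀ x ∈ S, ⟪nu S x, e⟫ = 0) {x : E3} (hx : x ∈ S) :
    ∀ᶠ t : ℝ in 𝓝 0, x + t • e ∈ S := by
  obtain ⟨w, hw⟩ := hS.2 x hx
  have hg : ContDiffAt ℝ 1 (gradient w) x := (contDiff_grad_one hw.two).contDiffAt
  have hn : ContDiffAt ℝ 1 (nuw w) x :=
    ((hg.norm ℝ hw.2.1).inv (norm_ne_zero_iff.2 hw.2.1)).smul hg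
  have hY : ContDiffAt ℝ 1 (fun y => e - ⟪nuw w y, e⟫ • nuw w y) x :=
    contDiffAt_const.sub ((hn.inner ℝ contDiffAt_const).smul hn)
  obtain ⟨α, α0, ε, ε0, hα⟩ := hY.exists_forall_mem_closedBall_exists_eq_forall_mem_Ioo_hasDerivAt₀ 0
  have tI : (0 : ℝ) ∈ Ioo (0 - ε) (0 + ε) := ⟨by linarith, by linarith⟩
  have αc : Tendsto α (𝓝 0) (𝓝 x) := by
    rw [← α0]
    exact (hα 0 tI).continuousAt
  obtain ⟨l, u, h0, hI⟩ := mem_nhds_iff_exists_Ioo_subset.1
    ((αc.eventually hw.eventually).and (Ioo_mem_nhds tI.1 tI.2))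
  have dW := hw.two.differentiable (by norm_num)
  have h1 : ∀ s ∈ Ioo l u, α s ∈ S := fun s hs => by
    have := const_Ioo (f := fun s => w (α s)) (fun v hv => by
      have h2 := (dW (α v)).hasFDerivAt.comp_hasDerivAt v (hα v (hI hv).2)
      rw [← inner_grad, ← pt_apply, inner_grad_of_orth (hI hv).1.2.1
        (inner_pt_nrm (norm_nuw (hI hv).1.2.1) e)] at h2
      exact h2) hs h0
    rw [α0, hw.zero hx] at this
    exact (hI hs).1.2.2.self_of_nhds.2 this
  filter_upwards [Ioo_mem_nhds h0.1 h0.2] with s hs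
  have := const_Ioo (f := fun s => α s - s • e) (fun v hv => by
    have h2 := hα v (hI hv).2
    rw [nuw_orth ht (hI hv).1 (h1 v hv), zero_smul, sub_zero] at h2
    simpa using h2.fun_sub ((hasDerivAt_id' v).smul_const e)) hs h0
  simp only [α0, zero_smul, sub_zero] at this
  rw [← this, sub_add_cancel]
  exact h1 s hs

/-- A surface whose normal is orthogonal to `e` is invariant under the translations along `e`. -/
theorem line_sub (hS : IsSurf S) (ht : ∀ x ∈ S, ⟪nu S x, e⟫ = 0) {x : E3} (hx : x ∈ S) (t : ℝ) :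
    x + t • e ∈ S := by
  have hc : Continuous fun t : ℝ => x + t • e := by fun_prop
  have key : IsClopen {t : ℝ | x + t • e ∈ S} := ⟨hS.1.preimage hc, isOpen_iff_mem_nhds.2
    fun s hs => by
      have h1 : Tendsto (fun v : ℝ => v - s) (𝓝 s) (𝓝 0) := by
        simpa using (continuous_sub_right s).tendsto s
      filter_upwards [h1.eventually (line_loc hS ht hs)] with v hv
      rwa [add_assoc, ← add_smul, add_sub_cancel] at hv⟩
  have := key.eq_univ ⟨0, by simpa using hx⟩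
  exact (this ▸ mem_univ t : t ∈ {t : ℝ | x + t • e ∈ S})

/-- Conversely, invariance under the translations along `e` makes the normal orthogonal to `e`. -/
theorem orth_of_line (hS : IsSurf S) (hi : ∀ x ∈ S, ∀ t : ℝ, x + t • e ∈ S) {x : E3}
    (hx : x ∈ S) : ⟪nu S x, e⟫ = 0 := by
  have hw := hS.isEqn hx
  have d1 : HasDerivAt (fun t : ℝ => x + t • e) e 0 := by
    simpa using ((hasDerivAt_id' (0 : ℝ)).smul_const e).const_add x
  have d2 := (hw.two.differentiable (by norm_num) x).hasFDerivAt.comp_hasDerivAt_of_eq 0 d1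
    (by simp)
  have h1 : Tendsto (fun t : ℝ => x + t • e) (𝓝 0) (𝓝 x) := by simpa using d1.continuousAt.tendsto
  have h2 := deriv_zero (c := 0) d2 ((h1.eventually hw.2.2).mono fun t h => h.1 (hi x hx t))
  rw [← inner_grad] at h2
  rw [nu, nuw, real_inner_smul_left, h2, mul_zero]

/-- the embedding of the plane spanned by `a`, `b` -/
noncomputable def emb (a b : E3) : ℝ × ℝ →L[ℝ] E3 :=
  (ContinuousLinearMap.fst ℝ ℝ ℝ).smulRight a + (ContinuousLinearMap.snd ℝ ℝ ℝ).smulRight b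

theorem emb_apply (a b : E3) (u : ℝ × ℝ) : emb a b u = u.1 • a + u.2 • b := rfl

theorem fderiv_emb {w : E3 → ℝ} (hw : ContDiff ℝ 2 w) (a b : E3) (u : ℝ × ℝ) :
    fderiv ℝ (w ∘ emb a b) u = (fderiv ℝ w (emb a b u)).comp (emb a b) :=
  ((hw.differentiable (by norm_num) _).hasFDerivAt.comp u (emb a b).hasFDerivAt).fderiv

theorem hess_emb {w : E3 → ℝ} (hw : ContDiff ℝ 2 w) (a b : E3) (u τ : ℝ × ℝ) :
    fderiv ℝ (fderiv ℝ (w ∘ emb a b)) u τ τ =
      ⟪fderiv ℝ (gradient w) (emb a b u) (emb a b τ), emb a b τ⟫ := by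
  have hD : Differentiable ℝ (fderiv ℝ w) :=
    (hw.fderiv_right (m := 1) (by norm_num)).differentiable (by norm_num)
  have h1 := (((ContinuousLinearMap.compL ℝ (ℝ × ℝ) E3 ℝ).flip (emb a b)).hasFDerivAt.comp u
    ((hD (emb a b u)).hasFDerivAt.comp u (emb a b).hasFDerivAt)).fderiv
  have h2 : fderiv ℝ (w ∘ emb a b) = ((ContinuousLinearMap.compL ℝ (ℝ × ℝ) E3 ℝ).flip (emb a b)) ∘
      (fderiv ℝ w ∘ emb a b) := funext fun v => fderiv_emb hw a b v
  rw [h2, h1, inner_hess hw]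
  rfl

theorem eqn_emb (hS : IsSurf S) (hsh : ∀ x ∈ S, relV S 0 1 x = 0) (ht : ∀ x ∈ S, ⟪nu S x, e⟫ = 0)
    {a b : E3} (T : Triple a b e) {z : ℝ × ℝ} (hz : z ∈ emb a b ⁻¹' S) :
    ∃ W, Eqn (emb a b ⁻¹' S) z W := by
  obtain ⟨w, hw⟩ := hS.2 _ hz
  have hc : Tendsto (emb a b) (𝓝 z) (𝓝 (emb a b z)) := (emb a b).continuous.tendsto z
  have eW : ∀ u v, fderiv ℝ (w ∘ emb a b) u v = ⟪gradient w (emb a b u), emb a b v⟫ := fun u v => by
    rw [fderiv_emb hw.two, inner_grad]
    rfl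
  refine ⟨w ∘ emb a b, hw.two.comp (emb a b).contDiff, fun h0 => ?_, hc.eventually hw.2.2, ?_⟩
  · have h1 := eW z (1, 0)
    have h2 := eW z (0, 1)
    simp only [h0, zero_apply, emb_apply a b (1, 0), emb_apply a b (0, 1),
      one_smul, zero_smul, add_zero, zero_add] at h1 h2
    have h3 := inner_grad_of_orth hw.2.1 (nuw_orth ht hw hz)
    have h4 := T.norm_sq (gradient w (emb a b z))
    rw [real_inner_comm, ← h1, real_inner_comm, ← h2, real_inner_comm, h3] at h4
    exact hw.2.1 (norm_eq_zero.1 (pow_eq_zero_iff two_ne_zero |>.1 (by rw [h4]; ring)))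
  · filter_upwards [hc.eventually hw.eventually] with u hu hm τ hτ h0
    rw [eW] at h0
    rw [hess_emb hw.two, eW]
    set x := emb a b u
    have hx : x ∈ S := hm
    set v := emb a b τ with hv
    have g0 := hu.2.1
    have n0 : ‖gradient w x‖ ≠ 0 := norm_ne_zero_iff.2 g0
    have ne : ⟪nuw w x, e⟫ = 0 := nuw_orth ht hu hx
    have nv : ⟪nuw w x, v⟫ = 0 := by rw [nuw, real_inner_smul_left, h0, mul_zero]
    have ba : ⟪b, a⟫ = 0 := by rw [real_inner_comm]; exact T.ab
    have aa : ⟪a, a⟫ = 1 := by rw [real_inner_self_eq_norm_sq, T.na, one_pow]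
    have bb : ⟪b, b⟫ = 1 := by rw [real_inner_self_eq_norm_sq, T.nb, one_pow]
    have ve : ⟪v, e⟫ = 0 := by
      rw [hv, emb_apply, inner_add_left, real_inner_smul_left, real_inner_smul_left, T.ac, T.bc]
      ring
    have v1 : ‖v‖ = 1 := by
      have h1 : ‖v‖ ^ 2 = 1 := by
        rw [← real_inner_self_eq_norm_sq, hv, emb_apply]
        simp only [inner_add_left, inner_add_right, real_inner_smul_left, real_inner_smul_right,
          T.ab, ba, aa, bb]
        linarith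
      exact (pow_eq_one_iff_of_nonneg (norm_nonneg v) two_ne_zero).1 h1
    have T' : Triple v e (nuw w x) := ⟨v1, T.nc, norm_nuw g0, ve, by rwa [real_inner_comm],
      by rwa [real_inner_comm]⟩
    have ee : ⟪fderiv ℝ (gradient w) x e, e⟫ = 0 := by
      have d1 : HasDerivAt (fun t : ℝ => x + t • e) e 0 := by
        simpa using ((hasDerivAt_id' (0 : ℝ)).smul_const e).const_add x
      have d2 := ((contDiff_grad_one hw.two).differentiable (by norm_num) x).hasFDerivAt
        |>.comp_hasDerivAt_of_eq 0 d1 (by simp)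
      have h1 : Tendsto (fun t : ℝ => x + t • e) (𝓝 0) (𝓝 x) := by
        simpa using d1.continuousAt.tendsto
      have h2 := deriv_zero (c := 0) (d2.inner ℝ (hasDerivAt_const 0 e))
        ((h1.eventually hu.eventually).mono fun t h =>
          inner_grad_of_orth h.2.1 (nuw_orth ht h (line_sub hS ht hx t)))
      simpa using h2
    have h1 := T'.tr_eq (shw w x)
    rw [shw_nuw g0, inner_zero_left, inner_shw, inner_shw, pt_of_orth nv, pt_of_orth ne, ee] at h1
    have h2 := hsh x hx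
    obtain ⟨ε, hε, h3, -⟩ := hu.nu_sh hx
    rw [relV, hu.Hv_eq hx, h3, sub_zero, real_inner_smul_right, smul_smul, ← add_smul] at h2
    have h4 := (smul_eq_zero.1 h2).resolve_right fun h => by
      have := norm_nuw g0
      rw [h, norm_zero] at this
      exact zero_ne_one this
    have h5 := sign_mul_self hε
    have h6 : ⟪x, nuw w x⟫ = ‖gradient w x‖⁻¹ * ⟪gradient w x, x⟫ := by
      rw [nuw, real_inner_smul_right, real_inner_comm]
    rw [h1, h6] at h4
    refine mul_left_cancel₀ (inv_ne_zero n0) ?_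
    linear_combination -h4 + ‖gradient w x‖⁻¹ * ⟪gradient w x, x⟫ / 2 * h5

/-- **Self-shrinkers which split off a line.** -/
theorem classify (hS : IsSurf S) (hsh : ∀ x ∈ S, relV S 0 1 x = 0) (he : ‖e‖ = 1)
    (ht : ∀ x ∈ S, ⟪nu S x, e⟫ = 0) :
    S = ∅ ∨ (∃ n : E3, ‖n‖ = 1 ∧ ⟪n, e⟫ = 0 ∧ S = {x | ⟪x, n⟫ = 0}) ∨
      S = {x | ‖x‖ ^ 2 - ⟪x, e⟫ ^ 2 = 2} := by
  obtain ⟨a, b, T⟩ := exists_triple he
  have mem : ∀ x, x ∈ S ↔ (⟪a, x⟫, ⟪b, x⟫) ∈ emb a b ⁻¹' S := fun x => by
    have h1 : emb a b (⟪a, x⟫, ⟪b, x⟫) + ⟪e, x⟫ • e = x := (T.expand x).symm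
    refine ⟨fun h => ?_, fun h => h1 ▸ line_sub hS ht h _⟩
    have h2 := line_sub hS ht h (-⟪e, x⟫)
    rw [neg_smul, ← sub_eq_add_neg, ← eq_sub_of_add_eq h1] at h2
    exact h2
  rcases plane_cases (hS.1.preimage (emb a b).continuous)
    (fun z hz => eqn_emb hS hsh ht T hz) with h | ⟨c, s, cs, h⟩ | h
  · exact Or.inl (eq_empty_of_forall_notMem fun x hx => by
      rw [mem, h] at hx
      exact hx)
  · have ba : ⟪b, a⟫ = 0 := by rw [real_inner_comm]; exact T.ab
    have aa : ⟪a, a⟫ = 1 := by rw [real_inner_self_eq_norm_sq, T.na, one_pow]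
    have bb : ⟪b, b⟫ = 1 := by rw [real_inner_self_eq_norm_sq, T.nb, one_pow]
    refine Or.inr (Or.inl ⟨s • a - c • b, ?_, ?_, Set.ext fun x => ?_⟩)
    · have h1 : ‖s • a - c • b‖ ^ 2 = 1 := by
        rw [← real_inner_self_eq_norm_sq]
        simp only [inner_sub_left, inner_sub_right, real_inner_smul_left, real_inner_smul_right,
          T.ab, ba, aa, bb]
        linarith
      exact (pow_eq_one_iff_of_nonneg (norm_nonneg _) two_ne_zero).1 h1
    · rw [inner_sub_left, real_inner_smul_left, real_inner_smul_left, T.ac, T.bc]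
      ring
    · rw [mem, h, mem_ofPred_eq, mem_ofPred_eq, inner_sub_right, real_inner_smul_right,
        real_inner_smul_right, real_inner_comm a x, real_inner_comm b x, mul_comm s, mul_comm c]
  · refine Or.inr (Or.inr (Set.ext fun x => ?_))
    rw [mem, h, mem_ofPred_eq, mem_ofPred_eq, T.norm_sq x, real_inner_comm e x]
    constructor <;> intro h1 <;> linarith

/-- The same for translation invariant self-shrinkers. -/
theorem classify' (hS : IsSurf S) (hsh : ∀ x ∈ S, relV S 0 1 x = 0) (he : ‖e‖ = 1)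
    (hi : ∀ x ∈ S, ∀ t : ℝ, x + t • e ∈ S) :
    S = ∅ ∨ (∃ n : E3, ‖n‖ = 1 ∧ ⟪n, e⟫ = 0 ∧ S = {x | ⟪x, n⟫ = 0}) ∨
      S = {x | ‖x‖ ^ 2 - ⟪x, e⟫ ^ 2 = 2} :=
  classify hS hsh he fun _ hx => orth_of_line hS hi hx

end Vale.Agent.P218F.E2
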