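import Vale.Agent.P218F.Ends1

/-! Ends of a shrinker: a uniform two-point bound. -/

open Set Filter Topology Metric
open scoped RealInnerProductSpace

namespace Vale.Agent.P218F.Ends

open Vale.Agent.P218FT

variable {D G : ℝ} {S : Set E3}

/-- a uniform two-point bound far out over a set of directions -/
def Far (S O : Set E3) : Prop :=
  ∃ R r C : ℝ, 0 < r ∧ 0 < C ∧ ∀ l, R ≤ l → ∀ y ∈ O, l • y ∈ S → TwoPt S (l • y) r C

theorem Reg.far {y : E3} (h : Reg S y) : ∃ O ∈ 𝓝 y, Far S O := by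
  obtain ⟨ρ, r, C, hρ, hr, hC, H⟩ := h
  refine ⟨ball y ρ, ball_mem_nhds y hρ, max 1 ρ⁻¹, r, C, hr, hC, fun l hl y' hy' hS => ?_⟩
  have h1 : 1 ≤ l := (le_max_left _ _).trans hl
  have h0 : 0 < l := by linarith
  have h2 : (l ^ 2)⁻¹ ≤ ρ ^ 2 := by
    rw [← inv_pow]
    exact pow_le_pow_left₀ (by positivity) (inv_le_of_inv_le₀ hρ ((le_max_right _ _).trans hl)) 2
  have h3 : 0 < (l ^ 2)⁻¹ := by positivity
  refine TwoPt.mono' (twoPt_of_ss h0 hS (H _ ⟨by linarith, by linarith⟩ y'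
    ((mem_ss_inv_sq h0).2 hS) (by rwa [← dist_eq_norm]))) (le_mul_of_one_le_right hr.le h1)
    (div_le_self hC.le h1)

theorem Hyp.far_cyl (h : Hyp D G S) (hT : T1Stmt) {y : E3} (hc : CylDir S y) (hy : ‖y‖ = 1) :
    ∃ O ∈ 𝓝 y, Far S O := by
  obtain ⟨L, δ, -, hδ, H⟩ := h.tube hc hy
  obtain ⟨r, C, t₁, hr, hC, ht₁, H'⟩ := hT D G _ (-2) 0 (by norm_num) (inC_Ioo h.inC) y L
  have hyy : ⟪y, y⟫ = 1 := by rw [real_inner_self_eq_norm_sq, hy, one_pow]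
  have e1 : ∀ᶠ y' in 𝓝 y, ‖pt y y'‖ < δ * ⟪y, y'⟫ :=
    ContinuousAt.eventually_lt (by fun_prop) (by fun_prop) (by
      rw [pt_apply, hyy, one_smul, sub_self, norm_zero, mul_one]; exact hδ)
  have e2 : ∀ᶠ y' in 𝓝 y, 1 / 2 < ⟪y, y'⟫ :=
    ContinuousAt.eventually_lt continuousAt_const (by fun_prop) (by rw [hyy]; norm_num)
  refine ⟨_, e1.and e2, 2 * (1 + (-t₁)⁻¹), r, C, hr, hC, fun l hl y' ⟨h1, h2⟩ hS => ?_⟩
  have ht : 0 < (-t₁)⁻¹ := inv_pos.2 (by linarith)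
  have h0 : 0 < l := by linarith
  obtain ⟨z, hz⟩ : ∃ z, z = ⟪y, l • y'⟫ := ⟨_, rfl⟩
  have hz1 : 1 + (-t₁)⁻¹ ≤ z := by
    rw [hz, real_inner_smul_right]; nlinarith
  have hz0 : 0 < z := by linarith
  have h3 : ‖pt y (l • y')‖ ≤ L := H _ hS (by
    rw [map_smul, norm_smul, Real.norm_eq_abs, abs_of_pos h0, real_inner_smul_right]
    nlinarith)
  have h4 : z • z⁻¹ • l • y' = l • y' := smul_inv_smul₀ hz0.ne' _
  have h5 : √(0 - -(z ^ 2)⁻¹) = z⁻¹ := by rw [zero_sub, sqrt_inv_sq hz0]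
  have h6 : (z ^ 2)⁻¹ < -t₁ := inv_lt_of_inv_lt₀ (by linarith) (by nlinarith)
  have h7 : 0 < (z ^ 2)⁻¹ := by positivity
  have h8 := twoPt_of_ss hz0 (h4.symm ▸ hS) (H' (-(z ^ 2)⁻¹) ⟨by linarith, by linarith⟩
    (z⁻¹ • l • y') ((mem_ss_inv_sq hz0).2 (h4.symm ▸ hS)) (by
      have : z⁻¹ • l • y' - y = z⁻¹ • pt y (l • y') := by
        rw [pt_apply, ← hz, smul_sub, inv_smul_smul₀ hz0.ne']
      rw [this, h5, norm_smul, Real.norm_eq_abs, abs_of_pos (inv_pos.2 hz0), mul_comm]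
      exact mul_le_mul_of_nonneg_right h3 (inv_pos.2 hz0).le))
  rw [h4, h5] at h8
  exact TwoPt.mono' h8 (le_of_eq (by field_simp)) (le_of_eq (by field_simp))

theorem Hyp.twoPt (h : Hyp D G S) (hT : T1Stmt) (hd : ∀ y, ‖y‖ = 1 → Reg S y ∨ CylDir S y) :
    ∃ r C : ℝ, 0 < r ∧ 0 < C ∧ ∀ x ∈ S, TwoPt S x r C := by
  obtain ⟨R, r, C, hr, hC, H⟩ : Far S (sphere 0 1) := by
    refine (isCompact_sphere (0 : E3) 1).induction_on (p := Far S) ⟨0, 1, 1, one_pos, one_pos, by simp⟩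
      (fun s t hst ⟨R, r, C, hr, hC, H⟩ => ⟨R, r, C, hr, hC, fun l hl y hy => H l hl y (hst hy)⟩)
      (fun s t ⟨R, r, C, hr, hC, H⟩ ⟨R', r', C', hr', hC', H'⟩ =>
        ⟨max R R', min r r', max C C', by positivity, by positivity, fun l hl y hy hS => ?_⟩)
      fun y hy => ?_
    · rcases hy with hy | hy
      · exact TwoPt.mono' (H l ((le_max_left _ _).trans hl) y hy hS) (min_le_left _ _)
          (le_max_left _ _)
      · exact TwoPt.mono' (H' l ((le_max_right _ _).trans hl) y hy hS) (min_le_right _ _)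
          (le_max_right _ _)
    · have h1 : ‖y‖ = 1 := by simpa using hy
      obtain ⟨O, hO, H⟩ := (hd y h1).elim Reg.far fun hc => h.far_cyl hT hc h1
      exact ⟨O, nhdsWithin_le_nhds hO, H⟩
  obtain ⟨r', C', hr', hC', H'⟩ := h.inC.mcf.exists_twoPt_compact (a := -1) (b := -1)
    (fun s hs => lt_of_le_of_lt hs.2 (by norm_num)) 0 (max R 0)
  refine ⟨min r r', max C C', by positivity, by positivity, fun x hx => ?_⟩
  by_cases hR : ‖x‖ ≤ max R 0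
  · have := H' (-1) ⟨le_rfl, le_rfl⟩ x (by rwa [ss_neg_one]) (by rwa [sub_zero])
    rw [ss_neg_one] at this
    exact TwoPt.mono' this (min_le_right _ _) (le_max_right _ _)
  · rw [not_le, max_lt_iff] at hR
    have h1 : ‖x‖ • ‖x‖⁻¹ • x = x := smul_inv_smul₀ hR.2.ne' x
    have := H ‖x‖ hR.1.le (‖x‖⁻¹ • x) (by
      rw [mem_sphere_zero_iff_norm, norm_smul, norm_inv, norm_norm, inv_mul_cancel₀ hR.2.ne'])
      (h1.symm ▸ hx)
    rw [h1] at this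
    exact TwoPt.mono' this (min_le_left _ _) (le_max_left _ _)

end Vale.Agent.P218F.Ends
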