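import Vale.Agent.P218F.EndsSpec
import Mathlib.Analysis.ODE.ExistUnique
import Mathlib.Analysis.Calculus.ContDiff.RCLike
import Mathlib.Analysis.Calculus.LocalExtr.Basic
import Mathlib.Analysis.InnerProductSpace.Calculus
import Mathlib.Topology.Algebra.Order.Archimedean

/-! The link of a smooth cone is a finite union of closed embedded curves (helper69). -/

open Set Filter Topology Metric
open scoped RealInnerProductSpace ContDiff

noncomputable section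

namespace Vale.Agent.P218F.Ends.Crv

open Vale.Agent.P218FT

/-- the cross product -/
def crs (a b : E3) : E3 :=
  !₂[a 1 * b 2 - a 2 * b 1, a 2 * b 0 - a 0 * b 2, a 0 * b 1 - a 1 * b 0]

theorem inner_three (a b : E3) : ⟪a, b⟫ = a 0 * b 0 + a 1 * b 1 + a 2 * b 2 := by
  simp [PiLp.inner_apply, Fin.sum_univ_three, mul_comm]

theorem inner_crs_left (a b : E3) : ⟪a, crs a b⟫ = 0 := by
  simp [inner_three, crs]; ring

theorem inner_crs_right (a b : E3) : ⟪b, crs a b⟫ = 0 := by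
  simp [inner_three, crs]; ring

theorem norm_crs {a b : E3} (ha : ‖a‖ = 1) (hb : ‖b‖ = 1) (h : ⟪a, b⟫ = 0) : ‖crs a b‖ = 1 := by
  have h1 : ⟪a, a⟫ = 1 := by rw [real_inner_self_eq_norm_sq, ha]; norm_num
  have h2 : ⟪b, b⟫ = 1 := by rw [real_inner_self_eq_norm_sq, hb]; norm_num
  have h3 : ⟪crs a b, crs a b⟫ = ⟪a, a⟫ * ⟪b, b⟫ - ⟪a, b⟫ ^ 2 := by
    simp only [inner_three]
    simp [crs]; ring
  rw [h1, h2, h, real_inner_self_eq_norm_sq] at h3
  nlinarith [norm_nonneg (crs a b)]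

theorem ContDiffAt.crs {X : Type*} [NormedAddCommGroup X] [NormedSpace ℝ X] {f g : X → E3} {x : X}
    (hf : ContDiffAt ℝ ∞ f x) (hg : ContDiffAt ℝ ∞ g x) :
    ContDiffAt ℝ ∞ (fun y => crs (f y) (g y)) x := by
  have h1 := contDiffAt_euclidean.1 hf
  have h2 := contDiffAt_euclidean.1 hg
  refine contDiffAt_euclidean.2 fun i => ?_
  fin_cases i
  · exact ((h1 1).mul (h2 2)).sub ((h1 2).mul (h2 1))
  · exact ((h1 2).mul (h2 0)).sub ((h1 0).mul (h2 2))
  · exact ((h1 0).mul (h2 1)).sub ((h1 1).mul (h2 0))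

/-- the cone over `Γ` -/
def cone (Γ : Set E3) : Set E3 := {p | ∃ s : ℝ, 0 < s ∧ s • p ∈ Γ}

/-- the tangent field of the link given by a local equation -/
def fld (w : E3 → ℝ) (p : E3) : E3 := crs p (nuw w p)

theorem contDiffAt_fld {w : E3 → ℝ} (hw : ContDiff ℝ ∞ w) {x : E3} (h : gradient w x ≠ 0) :
    ContDiffAt ℝ ∞ (fld w) x := by
  have h1 : ContDiffAt ℝ ∞ (gradient w) x := (contDiff_grad hw).contDiffAt
  exact ContDiffAt.crs contDiffAt_id (((h1.norm ℝ h).inv (norm_ne_zero_iff.2 h)).smul h1)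

theorem deriv_zero {g : ℝ → ℝ} {g' c t : ℝ} (hg : HasDerivAt g g' t) (h : ∀ᶠ s in 𝓝 t, g s = c) :
    g' = 0 := hg.unique ((hasDerivAt_const t c).congr_of_eventuallyEq h)

/-- unit speed smooth curves in `Γ` -/
def Adm (Γ : Set E3) (c : ℝ → E3) (I : Set ℝ) : Prop :=
  ∀ s ∈ I, c s ∈ Γ ∧ ContDiffAt ℝ ∞ c s ∧ ‖deriv c s‖ = 1

variable {Γ : Set E3}

theorem Adm.hd {c : ℝ → E3} {I : Set ℝ} (h : Adm Γ c I) {s : ℝ} (hs : s ∈ I) :
    HasDerivAt c (deriv c s) s := ((h s hs).2.1.differentiableAt (by simp)).hasDerivAt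

theorem Adm.contDiffAt_deriv {c : ℝ → E3} {I : Set ℝ} (h : Adm Γ c I) {s : ℝ} (hs : s ∈ I) :
    ContDiffAt ℝ ∞ (deriv c) s :=
  ((h s hs).2.1.fderiv_right (m := ∞) (by simp)).clm_apply contDiffAt_const

theorem Adm.mono {c : ℝ → E3} {I J : Set ℝ} (h : Adm Γ c I) (hJ : J ⊆ I) : Adm Γ c J :=
  fun s hs => h s (hJ hs)

theorem Adm.deriv_aff {c : ℝ → E3} {I : Set ℝ} (h : Adm Γ c I) (a e : ℝ) {u : ℝ}
    (hu : a + e * u ∈ I) : deriv (fun u => c (a + e * u)) u = e • deriv c (a + e * u) := by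
  have h1 : HasDerivAt (fun u => a + e * u) e u := by
    simpa using ((hasDerivAt_id u).const_mul e).const_add a
  exact ((h.hd hu).scomp u h1).deriv

theorem Adm.aff {c : ℝ → E3} {I : Set ℝ} (h : Adm Γ c I) (a : ℝ) {e : ℝ} (he : e = 1 ∨ e = -1) :
    Adm Γ (fun u => c (a + e * u)) {u | a + e * u ∈ I} := fun u hu =>
  ⟨(h _ hu).1, ContDiffAt.comp u (g := c) (h _ hu).2.1 (by fun_prop), by
    rw [h.deriv_aff a e hu, norm_smul, (h _ hu).2.2]
    rcases he with rfl | rfl <;> simp⟩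

section
variable (hu : ∀ x ∈ Γ, ‖x‖ = 1)
include hu

theorem mem_of_cone {p : E3} (hp : ‖p‖ = 1) (h : p ∈ cone Γ) : p ∈ Γ := by
  obtain ⟨s, hs, h⟩ := h
  have := hu _ h
  rw [norm_smul, hp, mul_one, Real.norm_of_nonneg hs.le] at this
  simpa [this] using h

omit hu in
theorem subset_cone : Γ ⊆ cone Γ := fun p hp => ⟨1, one_pos, by simpa using hp⟩

theorem triple_fld {x : E3} (hx : x ∈ Γ) {w : E3 → ℝ} (hw : IsEqn (cone Γ) x w) :
    Triple x (fld w x) (nuw w x) := by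
  have h1 : HasDerivAt (fun s : ℝ => x + s • x) x 0 := by
    simpa using ((hasDerivAt_id (0 : ℝ)).smul_const x).const_add x
  have h2 : HasFDerivAt w (fderiv ℝ w x) (x + (0 : ℝ) • x) := by
    simpa using (hw.1.differentiable (by simp) x).hasFDerivAt
  have h3 : fderiv ℝ w x x = 0 := by
    refine deriv_zero (c := 0) (h2.comp_hasDerivAt (0 : ℝ) h1) ?_
    have t : Tendsto (fun s : ℝ => x + s • x) (𝓝 0) (𝓝 x) := by simpa using h1.continuousAt.tendsto
    filter_upwards [t.eventually hw.2.2, lt_mem_nhds (show (-1 : ℝ) < 0 by norm_num)] with s h4 h5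
    refine h4.1 ⟨(1 + s)⁻¹, inv_pos.2 (by linarith), ?_⟩
    have : x + s • x = (1 + s) • x := by rw [add_smul, one_smul]
    rw [this, smul_smul, inv_mul_cancel₀ (by linarith), one_smul]
    exact hx
  have h4 : ⟪x, nuw w x⟫ = 0 := by
    rw [nuw, real_inner_smul_right, real_inner_comm, inner_grad, h3, mul_zero]
  exact ⟨hu x hx, norm_crs (hu x hx) (norm_nuw hw.2.1) h4, norm_nuw hw.2.1, inner_crs_left _ _, h4,
    by rw [real_inner_comm]; exact inner_crs_right _ _⟩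

theorem Adm.tan {c : ℝ → E3} {I : Set ℝ} (h : Adm Γ c I) (hI : IsOpen I) {s : ℝ} (hs : s ∈ I)
    {w : E3 → ℝ} (hw : IsEqn (cone Γ) (c s) w) :
    deriv c s = fld w (c s) ∨ deriv c s = -fld w (c s) := by
  have T := triple_fld hu (h s hs).1 hw
  have hd := h.hd hs
  have hm : ∀ᶠ u in 𝓝 s, c u ∈ Γ := Filter.eventually_of_mem (hI.mem_nhds hs) fun u hu => (h u hu).1
  have h1 : ⟪c s, deriv c s⟫ = 0 := by
    have := deriv_zero (c := 1) (hd.inner ℝ hd) (hm.mono fun u h1 => by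
      rw [real_inner_self_eq_norm_sq, hu _ h1]; norm_num)
    rw [real_inner_comm (c s)] at this
    linarith
  have h2 : ⟪nuw w (c s), deriv c s⟫ = 0 := by
    have := deriv_zero (c := 0)
      ((hw.1.differentiable (by simp) (c s)).hasFDerivAt.comp_hasDerivAt s hd) (by
        filter_upwards [hm, hd.continuousAt.eventually hw.2.2] with u h1 h2
        exact h2.1 (subset_cone h1))
    rw [nuw, real_inner_smul_left, inner_grad, this, mul_zero]
  have h3 := T.norm_sq (deriv c s)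
  have h4 := T.expand (deriv c s)
  rw [(h s hs).2.2, h1, h2] at h3
  rw [h1, h2, zero_smul, zero_smul, zero_add, add_zero] at h4
  rcases sq_eq_one_iff.1 (show ⟪fld w (c s), deriv c s⟫ ^ 2 = 1 by linarith) with h5 | h5
  · left; rw [h4, h5, one_smul]
  · right; rw [h4, h5, neg_smul, one_smul]

theorem Adm.ode {c : ℝ → E3} {I : Set ℝ} (h : Adm Γ c I) (hI : IsOpen I) {s : ℝ} (hs : s ∈ I)
    {w : E3 → ℝ} (hw : IsEqn (cone Γ) (c s) w) {e : ℝ} (he : e = 1 ∨ e = -1)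
    (h0 : deriv c s = e • fld w (c s)) :
    ∀ᶠ u in 𝓝 s, HasDerivAt c (e • fld w (c u)) u := by
  have hc := (h.hd hs).continuousAt
  have h1 : ContinuousAt (fun u => ‖deriv c u - e • fld w (c u)‖) s :=
    ((h.contDiffAt_deriv hs).continuousAt.sub
      (((contDiffAt_fld hw.1 hw.2.1).continuousAt.comp hc).const_smul e)).norm
  have h2 : ∀ᶠ u in 𝓝 s, ‖deriv c u - e • fld w (c u)‖ < 1 :=
    h1.eventually (gt_mem_nhds (by simp [h0]))
  filter_upwards [h2, hI.mem_nhds hs, hc.eventually hw.eventually] with u h3 h4 h5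
  have h6 := (triple_fld hu (h u h4).1 h5).nb
  have h7 : ‖fld w (c u) + fld w (c u)‖ = 2 := by
    rw [← two_smul ℝ, norm_smul, h6]; norm_num
  have h8 := h.hd h4
  rcases h.tan hu hI h4 h5 with h9 | h9 <;> rcases he with rfl | rfl
  · rwa [one_smul, ← h9]
  · rw [h9, neg_smul, one_smul, sub_neg_eq_add, h7] at h3
    norm_num at h3
  · rw [h9, one_smul, ← neg_add', norm_neg, h7] at h3
    norm_num at h3
  · rwa [neg_smul, one_smul, ← h9]

variable (hE : ∀ x ∈ Γ, ∃ w, IsEqn (cone Γ) x w)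
include hE

theorem Adm.sign {c d : ℝ → E3} {I J : Set ℝ} (hc : Adm Γ c I) (hI : IsOpen I) (hd : Adm Γ d J)
    (hJ : IsOpen J) {s t : ℝ} (hs : s ∈ I) (ht : t ∈ J) (e : d t = c s) :
    ∃ ε : ℝ, (ε = 1 ∨ ε = -1) ∧ deriv d t = ε • deriv c s := by
  obtain ⟨w, hw⟩ := hE _ (hc s hs).1
  have h1 := hc.tan hu hI hs hw
  have h2 := hd.tan hu hJ ht (e ▸ hw)
  rw [e] at h2
  rcases h1 with h1 | h1 <;> rcases h2 with h2 | h2
  · exact ⟨1, Or.inl rfl, by simp [h1, h2]⟩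
  · exact ⟨-1, Or.inr rfl, by simp [h1, h2]⟩
  · exact ⟨-1, Or.inr rfl, by simp [h1, h2]⟩
  · exact ⟨1, Or.inl rfl, by simp [h1, h2]⟩

theorem Adm.uniq_ev {c d : ℝ → E3} {I : Set ℝ} (hc : Adm Γ c I) (hd : Adm Γ d I) (hI : IsOpen I)
    {s : ℝ} (hs : s ∈ I) (e : c s = d s) (e' : deriv c s = deriv d s) : c =ᶠ[𝓝 s] d := by
  obtain ⟨w, hw⟩ := hE _ (hc s hs).1
  obtain ⟨ε, hε, h0⟩ : ∃ ε : ℝ, (ε = 1 ∨ ε = -1) ∧ deriv c s = ε • fld w (c s) := by
    rcases hc.tan hu hI hs hw with h | h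
    · exact ⟨1, Or.inl rfl, by simp [h]⟩
    · exact ⟨-1, Or.inr rfl, by simp [h]⟩
  have h1 := hc.ode hu hI hs hw hε h0
  have h2 := hd.ode hu hI hs (e ▸ hw) hε (by rw [← e', ← e, h0])
  have hG : ContDiffAt ℝ 1 (fun p => ε • fld w p) (c s) :=
    ((contDiffAt_fld hw.1 hw.2.1).of_le one_le_inf).const_smul ε
  obtain ⟨K, U, hU, hK⟩ := hG.exists_lipschitzOnWith
  exact ODE_solution_unique_of_eventually (v := fun _ p => ε • fld w p) (s := fun _ => U) (K := K)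
    (Eventually.of_forall fun _ => hK) (h1.and ((hc.hd hs).continuousAt hU))
    (h2.and ((hd.hd hs).continuousAt (by rw [← e]; exact hU))) e

theorem Adm.uniq {c d : ℝ → E3} {I : Set ℝ} (hc : Adm Γ c I) (hd : Adm Γ d I) (hI : IsOpen I)
    (hp : IsPreconnected I) {s : ℝ} (hs : s ∈ I) (e : c s = d s) (e' : deriv c s = deriv d s)
    {t : ℝ} (ht : t ∈ I) : c t = d t := by
  have key := hp.subset_of_closure_inter_subset (u := {s | c =ᶠ[𝓝 s] d})
    isOpen_setOfPred_eventually_nhds ⟨s, hs, hc.uniq_ev hu hE hd hI hs e e'⟩ (fun u hu' => by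
      have h1 := mem_closure_iff_frequently.1 hu'.1
      exact hc.uniq_ev hu hE hd hI hu'.2
        (tendsto_nhds_unique_of_frequently_eq (hc.hd hu'.2).continuousAt (hd.hd hu'.2).continuousAt
          (h1.mono fun v hv => hv.self_of_nhds))
        (tendsto_nhds_unique_of_frequently_eq (hc.contDiffAt_deriv hu'.2).continuousAt
          (hd.contDiffAt_deriv hu'.2).continuousAt (h1.mono fun v hv => hv.deriv_eq)))
  exact (key ht).self_of_nhds

theorem exists_loc {x : E3} (hx : x ∈ Γ) :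
    ∃ c : ℝ → E3, ∃ ε > (0 : ℝ), c 0 = x ∧ Adm Γ c (Ioo (-ε) ε) := by
  obtain ⟨w, hw⟩ := hE x hx
  obtain ⟨c, c0, ε, ε0, hc⟩ := ContDiffAt.exists_forall_mem_closedBall_exists_eq_forall_mem_Ioo_hasDerivAt₀
    ((contDiffAt_fld hw.1 hw.2.1).of_le one_le_inf) 0
  simp only [zero_sub, zero_add] at hc
  have h0 : (0 : ℝ) ∈ Ioo (-ε) ε := ⟨by linarith, ε0⟩
  have cst : ∀ (f : ℝ → ℝ), (∀ s ∈ Ioo (-ε) ε, HasDerivAt f 0 s) → ∀ s ∈ Ioo (-ε) ε, f s = f 0 :=
    fun f hf s hs => by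
      have h1 := (convex_Ioo (-ε) ε).norm_image_sub_le_of_norm_hasDerivWithin_le (C := 0)
        (f' := fun _ => 0) (fun u hu => (hf u hu).hasDerivWithinAt) (fun _ _ => by simp) h0 hs
      rw [zero_mul] at h1
      exact sub_eq_zero.1 (norm_le_zero_iff.1 h1)
  have h1 := cst (fun s => w (c s)) fun s hs => by
    have := (hw.1.differentiable (by simp) (c s)).hasFDerivAt.comp_hasDerivAt s (hc s hs)
    rwa [← inner_grad, fld, nuw, ← one_smul ℝ (gradient w (c s)), show ∀ (a b : ℝ) (p g : E3),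
      ⟪a • g, crs p (b • a • g)⟫ = 0 from fun a b p g => by simp [inner_three, crs]; ring] at this
  have h2 := cst (fun s => ⟪c s, c s⟫) fun s hs => by
    have := (hc s hs).inner ℝ (hc s hs)
    rwa [real_inner_comm (c s), fld, inner_crs_left, add_zero] at this
  have t : Tendsto c (𝓝 0) (𝓝 x) := c0 ▸ (hc 0 h0).continuousAt.tendsto
  obtain ⟨η, η0, hη⟩ := Metric.eventually_nhds_iff.1
    ((t.eventually (hw.2.2.and hw.eventually)).and (Ioo_mem_nhds h0.1 h0.2))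
  have hη' : ∀ s ∈ Icc (-(η / 2)) (η / 2), dist s 0 < η := fun s hs => by
    rw [Real.dist_eq, sub_zero]; linarith [abs_le.2 hs]
  have hsm : ContDiffOn ℝ ∞ c (Icc (-(η / 2)) (η / 2)) :=
    ODE.contDiffOn_enat_Icc_of_hasDerivWithinAt (f := fun _ => fld w) (n := ⊤)
      (u := {p | gradient w p ≠ 0})
      (fun q hq => (ContDiffAt.comp q (g := fld w) (contDiffAt_fld hw.1 hq.2)
        contDiffAt_snd).contDiffWithinAt)
      (fun s hs => (hc s (hη (hη' s hs)).2).hasDerivWithinAt) fun s hs => (hη (hη' s hs)).1.2.2.1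
  refine ⟨c, η / 2, half_pos η0, c0, fun s hs => ?_⟩
  obtain ⟨⟨h3, h4⟩, h5⟩ := hη (hη' s (Ioo_subset_Icc_self hs))
  have h6 : c s ∈ Γ := by
    refine mem_of_cone hu ?_ (h3.2 ?_)
    · have := h2 s h5
      simp only [c0, real_inner_self_eq_norm_sq, hu x hx] at this
      nlinarith [norm_nonneg (c s)]
    · have := h1 s h5
      simp only [c0] at this
      rw [this, hw.zero (subset_cone hx)]
  exact ⟨h6, hsm.contDiffAt (Icc_mem_nhds hs.1 hs.2), by
    rw [(hc s h5).deriv]; exact (triple_fld hu h6 h4).nb⟩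

omit hE in
/-- near a point of `Γ`, chords are almost tangent -/
theorem chord {x : E3} (hx : x ∈ Γ) {w : E3 → ℝ} (hw : IsEqn (cone Γ) x w) :
    ∀ᶠ q : E3 × E3 in 𝓝 (x, x), q.1 ∈ Γ → q.2 ∈ Γ →
      3 / 4 * ‖q.1 - q.2‖ ≤ |⟪fld w x, q.1 - q.2⟫| := by
  have T := triple_fld hu hx hw
  have g0 : 0 < ‖gradient w x‖ := norm_pos_iff.2 hw.2.1
  have h1 := ((hw.1.contDiffAt (x := x)).hasStrictFDerivAt (by simp)).isLittleO.def
    (show 0 < ‖gradient w x‖ / 4 by positivity)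
  have h2 : ∀ᶠ q : E3 × E3 in 𝓝 (x, x), ‖q.1 + q.2 - (2 : ℝ) • x‖ < 1 / 2 :=
    (show Continuous fun q : E3 × E3 => ‖q.1 + q.2 - (2 : ℝ) • x‖ by fun_prop).continuousAt.eventually
      (gt_mem_nhds (by simp [two_smul]))
  filter_upwards [h1, h2, (continuous_fst.tendsto (x, x)).eventually hw.2.2,
    (continuous_snd.tendsto (x, x)).eventually hw.2.2] with q h3 h4 h5 h6 m1 m2
  set d := q.1 - q.2 with hd
  rw [h5.1 (subset_cone m1), h6.1 (subset_cone m2), sub_zero, zero_sub, norm_neg, ← inner_grad,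
    grad_eq_smul_nuw hw.2.1, real_inner_smul_left, norm_mul, norm_norm, norm_smul, norm_norm,
    T.nc, mul_one, div_mul_eq_mul_div, mul_div_assoc] at h3
  have a1 : |⟪nuw w x, d⟫| ≤ ‖d‖ / 4 := le_of_mul_le_mul_left h3 g0
  have a2 : |⟪x, d⟫| ≤ ‖d‖ / 4 := by
    have e1 : ⟪q.1 + q.2, d⟫ = 0 := by
      rw [hd, inner_add_left, inner_sub_right, inner_sub_right, real_inner_self_eq_norm_sq,
        real_inner_self_eq_norm_sq, hu _ m1, hu _ m2, real_inner_comm]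
      ring
    have e2 := abs_real_inner_le_norm (q.1 + q.2 - (2 : ℝ) • x) d
    rw [inner_sub_left, e1, zero_sub, abs_neg, real_inner_smul_left, abs_mul, abs_two] at e2
    nlinarith [norm_nonneg d]
  have a3 := T.norm_sq d
  refine (abs_le_of_sq_le_sq' ?_ (abs_nonneg _)).2
  rw [sq_abs]
  have b1 := sq_le_sq' (neg_le_of_abs_le a1) (le_of_abs_le a1)
  have b2 := sq_le_sq' (neg_le_of_abs_le a2) (le_of_abs_le a2)
  nlinarith [sq_nonneg ‖d‖]

/-- an admissible curve covers a neighbourhood in `Γ` -/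
theorem Adm.onto {c : ℝ → E3} {I : Set ℝ} (h : Adm Γ c I) (hI : IsOpen I) {s : ℝ} (hs : s ∈ I)
    {η : ℝ} (hη : 0 < η) : ∀ᶠ y in 𝓝 (c s), y ∈ Γ → ∃ u, |u - s| < η ∧ c u = y := by
  obtain ⟨w, hw⟩ := hE _ (h s hs).1
  obtain ⟨r, r0, hr⟩ := Metric.eventually_nhds_iff.1 (chord hu (h s hs).1 hw)
  set a := deriv c s with ha
  have hφ : HasDerivAt (fun u => ⟪a, c u⟫) 1 s := by
    have := (innerSL ℝ a).hasFDerivAt.comp_hasDerivAt s (h.hd hs)
    rwa [innerSL_apply_apply, real_inner_self_eq_norm_sq, (h s hs).2.2, one_pow] at this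
  have h1 : ∀ᶠ u in 𝓝[≠] (0 : ℝ), 0 < u⁻¹ • (⟪a, c (s + u)⟫ - ⟪a, c s⟫) :=
    (hasDerivAt_iff_tendsto_slope_zero.1 hφ).eventually (lt_mem_nhds one_pos)
  have t : Tendsto (fun u => s + u) (𝓝 0) (𝓝 s) := by
    simpa using (continuous_const_add s).tendsto 0
  obtain ⟨δ, δ0, hδ⟩ := Metric.eventually_nhds_iff.1 ((eventually_nhdsWithin_iff.1 h1).and
    (t.eventually (((h.hd hs).continuousAt.eventually (ball_mem_nhds _ r0)).and (hI.mem_nhds hs))))
  set ρ := min (δ / 2) (η / 2) with hρ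
  have ρ0 : 0 < ρ := by positivity
  have ρ1 : ρ < δ := (min_le_left _ _).trans_lt (half_lt_self δ0)
  have ρ2 : ρ < η := (min_le_right _ _).trans_lt (half_lt_self hη)
  have hδ' : ∀ u ∈ Icc (-ρ) ρ, dist u 0 < δ := fun u hu => by
    rw [Real.dist_eq, sub_zero]; linarith [abs_le.2 hu]
  have p1 : ⟪a, c s⟫ < ⟪a, c (s + ρ)⟫ := by
    have := (hδ (hδ' ρ ⟨by linarith, le_rfl⟩)).1 ρ0.ne'
    exact sub_pos.1 ((pos_iff_pos_of_mul_pos this).1 (inv_pos.2 ρ0))
  have p2 : ⟪a, c (s + -ρ)⟫ < ⟪a, c s⟫ := by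
    have := (hδ (hδ' (-ρ) ⟨le_rfl, by linarith⟩)).1 (neg_ne_zero.2 ρ0.ne')
    exact sub_neg.1 ((neg_iff_neg_of_mul_pos this).1 (inv_lt_zero.2 (by linarith)))
  have hc : ContinuousOn (fun u => ⟪a, c (s + u)⟫) (Icc (-ρ) ρ) := fun u hu =>
    (continuousAt_const.inner (ContinuousAt.comp (g := c) (h.hd (hδ (hδ' u hu)).2.2).continuousAt
      (by fun_prop))).continuousWithinAt
  have ci : ContinuousAt (fun y => ⟪a, y⟫) (c s) := by fun_prop
  filter_upwards [ci.eventually (Ioo_mem_nhds p2 p1), ball_mem_nhds (c s) r0] with y y1 y2 y3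
  obtain ⟨u, u1, u2⟩ := intermediate_value_Icc (by linarith) hc (Ioo_subset_Icc_self y1)
  refine ⟨s + u, by rw [add_sub_cancel_left]; linarith [abs_le.2 u1], ?_⟩
  have h2 := hr (y := (c (s + u), y)) (by
    rw [Prod.dist_eq]; exact max_lt (hδ (hδ' u u1)).2.1 y2) (h _ (hδ (hδ' u u1)).2.2).1 y3
  have h3 : ⟪fld w (c s), c (s + u) - y⟫ = 0 := by
    have : ⟪a, c (s + u) - y⟫ = 0 := by rw [inner_sub_right]; exact sub_eq_zero.2 u2
    rcases h.tan hu hI hs hw with e | e <;> rw [ha, e] at this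
    · exact this
    · rwa [inner_neg_left, neg_eq_zero] at this
  rw [h3, abs_zero] at h2
  exact sub_eq_zero.1 (norm_le_zero_iff.1 (by linarith))

theorem exists_unif (hK : IsCompact Γ) : ∃ ε > (0 : ℝ), ∀ y ∈ Γ,
    ∃ c : ℝ → E3, c 0 = y ∧ Adm Γ c (Ioo (-ε) ε) := by
  refine hK.induction_on (p := fun S => ∃ ε > (0 : ℝ), ∀ y ∈ S, y ∈ Γ →
    ∃ c : ℝ → E3, c 0 = y ∧ Adm Γ c (Ioo (-ε) ε)) ⟨1, one_pos, by simp⟩
    (fun S T hST ⟨ε, h0, h⟩ => ⟨ε, h0, fun y hy => h y (hST hy)⟩) ?_ ?_ |>.imp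
    fun ε h => ⟨h.1, fun y hy => h.2 y hy hy⟩
  · rintro S T ⟨ε, h0, h⟩ ⟨ε', h0', h'⟩
    refine ⟨min ε ε', lt_min h0 h0', fun y hy hyΓ => ?_⟩
    rcases hy with hy | hy
    · obtain ⟨c, c0, hc⟩ := h y hy hyΓ
      exact ⟨c, c0, hc.mono (Ioo_subset_Ioo (neg_le_neg (min_le_left _ _)) (min_le_left _ _))⟩
    · obtain ⟨c, c0, hc⟩ := h' y hy hyΓ
      exact ⟨c, c0, hc.mono (Ioo_subset_Ioo (neg_le_neg (min_le_right _ _)) (min_le_right _ _))⟩
  · intro x hx
    obtain ⟨c, ε, ε0, c0, hc⟩ := exists_loc hu hE hx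
    have h1 := hc.onto hu hE isOpen_Ioo (s := 0) ⟨by linarith, ε0⟩ (half_pos ε0)
    rw [c0] at h1
    refine ⟨_, mem_nhdsWithin_of_mem_nhds h1, ε / 2, half_pos ε0, fun y hy hyΓ => ?_⟩
    obtain ⟨u, u1, u2⟩ := hy hyΓ
    rw [sub_zero, abs_lt] at u1
    refine ⟨fun v => c (u + 1 * v), by simpa using u2, (hc.aff u (Or.inl rfl)).mono fun v hv => ?_⟩
    exact ⟨by linarith [hv.1, u1.1], by linarith [hv.2, u1.2]⟩

theorem extend_right {ε : ℝ} (ε0 : 0 < ε)
    (hε : ∀ y ∈ Γ, ∃ c : ℝ → E3, c 0 = y ∧ Adm Γ c (Ioo (-ε) ε)) {c : ℝ → E3} {a b : ℝ}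
    (hab : a + ε ≤ b) (hc : Adm Γ c (Ioo a b)) :
    ∃ d : ℝ → E3, (∀ s < b, d s = c s) ∧ Adm Γ d (Ioo a (b + ε / 2)) := by
  have h0 : b - ε / 2 ∈ Ioo a b := ⟨by linarith, by linarith⟩
  obtain ⟨d, d0, hd⟩ := hε _ (hc _ h0).1
  have z : (0 : ℝ) ∈ Ioo (-ε) ε := ⟨by linarith, ε0⟩
  obtain ⟨e, he, h1⟩ := hd.sign hu hE isOpen_Ioo hc isOpen_Ioo z h0 d0.symm
  have hd' : Adm Γ (fun u => d (-(e * (b - ε / 2)) + e * u)) (Ioo (b - ε) (b + ε / 2)) :=
    (hd.aff _ he).mono fun u hu => by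
      rcases he with rfl | rfl <;> exact ⟨by linarith [hu.1, hu.2], by linarith [hu.1, hu.2]⟩
  have h2 : ∀ u ∈ Ioo (b - ε) b, c u = d (-(e * (b - ε / 2)) + e * u) := fun u hu' =>
    Adm.uniq hu hE (hc.mono (Ioo_subset_Ioo (by linarith) le_rfl))
      (hd'.mono (Ioo_subset_Ioo le_rfl (by linarith))) isOpen_Ioo isPreconnected_Ioo
      (s := b - ε / 2) ⟨by linarith, by linarith⟩ (by simp [d0])
      (by rw [hd.deriv_aff _ _ (by simpa using ε0), h1]; simp) hu'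
  refine ⟨fun u => if u < b then c u else d (-(e * (b - ε / 2)) + e * u),
    fun s hs => if_pos hs, fun s hs => ?_⟩
  rcases lt_or_ge s b with h | h
  · have h3 : (fun u => if u < b then c u else d (-(e * (b - ε / 2)) + e * u)) =ᶠ[𝓝 s] c := by
      filter_upwards [gt_mem_nhds h] with u hu' using if_pos hu'
    obtain ⟨a1, a2, a3⟩ := hc s ⟨hs.1, h⟩
    exact ⟨h3.self_of_nhds ▸ a1, a2.congr_of_eventuallyEq h3, h3.deriv_eq ▸ a3⟩
  · have h3 : (fun u => if u < b then c u else d (-(e * (b - ε / 2)) + e * u)) =ᶠ[𝓝 s]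
        fun u => d (-(e * (b - ε / 2)) + e * u) := by
      filter_upwards [lt_mem_nhds (show b - ε < s by linarith)] with u hu'
      split_ifs with h4
      · exact h2 u ⟨hu', h4⟩
      · rfl
    obtain ⟨a1, a2, a3⟩ := hd' s ⟨by linarith, hs.2⟩
    exact ⟨h3.self_of_nhds ▸ a1, a2.congr_of_eventuallyEq h3, h3.deriv_eq ▸ a3⟩

theorem exists_glob (hK : IsCompact Γ) {x : E3} (hx : x ∈ Γ) :
    ∃ γ : ℝ → E3, γ 0 = x ∧ Adm Γ γ univ := by
  obtain ⟨ε, ε0, hε⟩ := exists_unif hu hE hK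
  obtain ⟨c0, c00, hc0⟩ := hε x hx
  have H : ∀ n : ℕ, ∃ c : ℝ → E3, (∀ s ∈ Ioo (-ε) ε, c s = c0 s) ∧
      Adm Γ c (Ioo (-(ε + n * (ε / 2))) (ε + n * (ε / 2))) := by
    intro n
    induction n with
    | zero => exact ⟨c0, fun _ _ => rfl, by simpa using hc0⟩
    | succ n ih =>
      obtain ⟨c, c1, hc⟩ := ih
      have n0 : 0 ≤ (n : ℝ) * (ε / 2) := by positivity
      obtain ⟨d, d1, hd⟩ := extend_right hu hE ε0 hε (by linarith) hc
      have hd' : Adm Γ (fun u => d (0 + -1 * u))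
          (Ioo (-(ε + n * (ε / 2) + ε / 2)) (ε + n * (ε / 2))) :=
        (hd.aff 0 (Or.inr rfl)).mono fun u hu => ⟨by linarith [hu.2], by linarith [hu.1]⟩
      obtain ⟨f, f1, hf⟩ := extend_right hu hE ε0 hε (by linarith) hd'
      refine ⟨fun u => f (0 + -1 * u), fun s hs => ?_,
        (hf.aff 0 (Or.inr rfl)).mono fun u hu => ?_⟩
      · beta_reduce
        rw [f1 _ (by linarith [hs.1]), d1 _ (by linarith [hs.2]), ← c1 s hs]
        simp
      · push_cast at hu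
        exact ⟨by linarith [hu.2], by linarith [hu.1]⟩
  choose c c1 hc using H
  have z : (0 : ℝ) ∈ Ioo (-ε) ε := ⟨by linarith, ε0⟩
  have hev : ∀ n, c n =ᶠ[𝓝 0] c0 := fun n => Filter.eventually_of_mem (Ioo_mem_nhds z.1 z.2) (c1 n)
  have hag : ∀ n m : ℕ, n ≤ m → ∀ s ∈ Ioo (-(ε + n * (ε / 2))) (ε + n * (ε / 2)), c n s = c m s := by
    intro n m hnm s hs
    have h1 : (n : ℝ) * (ε / 2) ≤ m * (ε / 2) := by gcongr
    have n0 : 0 ≤ (n : ℝ) * (ε / 2) := by positivity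
    exact Adm.uniq hu hE (hc n) ((hc m).mono (Ioo_subset_Ioo (by linarith) (by linarith)))
      isOpen_Ioo isPreconnected_Ioo (s := 0) ⟨by linarith, by linarith⟩
      ((c1 n 0 z).trans (c1 m 0 z).symm) ((hev n).deriv_eq.trans (hev m).deriv_eq.symm) hs
  have hN : ∀ s : ℝ, ∃ n : ℕ, s ∈ Ioo (-(ε + n * (ε / 2))) (ε + n * (ε / 2)) := fun s => by
    obtain ⟨n, hn⟩ := exists_nat_ge (|s| / (ε / 2))
    rw [div_le_iff₀ (half_pos ε0)] at hn
    exact ⟨n, by linarith [neg_abs_le s], by linarith [le_abs_self s]⟩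
  choose N hN using hN
  have hγ : ∀ s, (fun u => c (N u) u) =ᶠ[𝓝 s] c (N s) := fun s => by
    filter_upwards [Ioo_mem_nhds (hN s).1 (hN s).2] with u hu'
    rw [hag _ _ (le_max_left (N u) (N s)) u (hN u), hag _ _ (le_max_right (N u) (N s)) u hu']
  refine ⟨fun u => c (N u) u, (c1 _ 0 z).trans c00, fun s _ => ?_⟩
  obtain ⟨a1, a2, a3⟩ := hc (N s) s (hN s)
  exact ⟨a1, a2.congr_of_eventuallyEq (hγ s), (hγ s).deriv_eq ▸ a3⟩

theorem Adm.repar {γ β : ℝ → E3} (hγ : Adm Γ γ univ) (hβ : Adm Γ β univ) {s t : ℝ}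
    (e : β t = γ s) : ∃ ε : ℝ, (ε = 1 ∨ ε = -1) ∧ ∀ u, β (t + u) = γ (s + ε * u) := by
  obtain ⟨ε, hε, h1⟩ := hγ.sign hu hE isOpen_univ hβ isOpen_univ (mem_univ s) (mem_univ t) e
  refine ⟨ε, hε, fun u => ?_⟩
  have := Adm.uniq hu hE (hβ.aff t (Or.inl rfl)) (hγ.aff s hε) isOpen_univ isPreconnected_univ
    (s := 0) (mem_univ _) (by simpa using e) (by
      rw [hβ.deriv_aff _ _ (mem_univ _), hγ.deriv_aff _ _ (mem_univ _)]; simpa using h1)
    (mem_univ u)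
  simpa using this

theorem Adm.range_eq {γ β : ℝ → E3} (hγ : Adm Γ γ univ) (hβ : Adm Γ β univ) {s t : ℝ}
    (e : β t = γ s) : range β = range γ := by
  have key : ∀ {γ β : ℝ → E3}, Adm Γ γ univ → Adm Γ β univ → ∀ {s t : ℝ}, β t = γ s →
      range β ⊆ range γ := by
    rintro γ β hγ hβ s t e _ ⟨u, rfl⟩
    obtain ⟨ε, -, h⟩ := hγ.repar hu hE hβ e
    exact ⟨_, by rw [← h (u - t), add_sub_cancel]⟩
  exact (key hγ hβ e).antisymm (key hβ hγ e.symm)

theorem Adm.isCompact_range (hK : IsCompact Γ) {γ : ℝ → E3} (hγ : Adm Γ γ univ) :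
    IsCompact (range γ) := by
  have hs : range γ ⊆ Γ := range_subset_iff.2 fun s => (hγ s (mem_univ _)).1
  refine hK.of_isClosed_subset (isClosed_of_closure_subset fun y hy => ?_) hs
  obtain ⟨β, β0, hβ⟩ := exists_glob hu hE hK (closure_minimal hs hK.isClosed hy)
  have h1 := hβ.onto hu hE isOpen_univ (mem_univ 0) one_pos
  rw [β0] at h1
  obtain ⟨_, ⟨s, rfl⟩, h2⟩ := ((mem_closure_iff_frequently.1 hy).and_eventually h1).exists
  obtain ⟨u, -, h3⟩ := h2 (hγ s (mem_univ _)).1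
  rw [← hγ.range_eq hu hE hβ h3]
  exact ⟨0, β0⟩

theorem Adm.per_of_eq {γ : ℝ → E3} (hγ : Adm Γ γ univ) {s t : ℝ} (e : γ t = γ s) (u : ℝ) :
    γ (u + (t - s)) = γ u := by
  rcases eq_or_ne s t with rfl | hst
  · simp
  obtain ⟨ε, rfl | rfl, h⟩ := hγ.repar hu hE hγ e
  · have := h (u - s)
    rwa [one_mul, add_sub_cancel, show t + (u - s) = u + (t - s) by ring] at this
  · exfalso
    have h1 : (fun u => γ ((s + t) / 2 + 1 * u)) = fun u => γ ((s + t) / 2 + -1 * u) := by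
      ext1 u
      have := h ((s - t) / 2 + u)
      rwa [show t + ((s - t) / 2 + u) = (s + t) / 2 + 1 * u by ring,
        show s + -1 * ((s - t) / 2 + u) = (s + t) / 2 + -1 * u by ring] at this
    have h2 := hγ.deriv_aff ((s + t) / 2) 1 (u := 0) (mem_univ _)
    rw [h1, hγ.deriv_aff _ _ (mem_univ _), mul_zero, mul_zero, one_smul, neg_smul, one_smul,
      neg_eq_iff_add_eq_zero, ← two_smul ℝ, smul_eq_zero] at h2
    have h3 := (hγ ((s + t) / 2 + 0) (mem_univ _)).2.2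
    rcases h2 with h2 | h2
    · norm_num at h2
    · rw [h2] at h3
      simp at h3

theorem Adm.period (hK : IsCompact Γ) {γ : ℝ → E3} (hγ : Adm Γ γ univ) :
    ∃ T > (0 : ℝ), (∀ u, γ (u + T) = γ u) ∧ ∀ s t, γ t = γ s → ∃ k : ℤ, t = s + k * T := by
  let P : AddSubgroup ℝ :=
    { carrier := {p | Function.Periodic γ p}
      zero_mem' := fun u => by simp
      add_mem' := fun ha hb => Function.Periodic.add_period ha hb
      neg_mem' := fun ha => Function.Periodic.neg ha }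
  have hP : ∀ s t, γ t = γ s → t - s ∈ P := fun s t e => hγ.per_of_eq hu hE e
  obtain ⟨N, hN⟩ : ∃ N : ℝ, ∀ y ∈ range γ, y ∈ Γ → ∃ u, |u| < N ∧ γ u = y := by
    refine (hγ.isCompact_range hu hE hK).induction_on
      (p := fun S => ∃ N : ℝ, ∀ y ∈ S, y ∈ Γ → ∃ u, |u| < N ∧ γ u = y) ⟨0, by simp⟩
      (fun S T hST ⟨N, h⟩ => ⟨N, fun y hy => h y (hST hy)⟩) ?_ ?_
    · rintro S T ⟨N, h⟩ ⟨N', h'⟩
      refine ⟨max N N', fun y hy hyΓ => ?_⟩
      rcases hy with hy | hy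
      · exact (h y hy hyΓ).imp fun u hu => ⟨lt_max_of_lt_left hu.1, hu.2⟩
      · exact (h' y hy hyΓ).imp fun u hu => ⟨lt_max_of_lt_right hu.1, hu.2⟩
    · rintro _ ⟨s, rfl⟩
      refine ⟨_, mem_nhdsWithin_of_mem_nhds (hγ.onto hu hE isOpen_univ (mem_univ s) one_pos),
        |s| + 1, fun y hy hyΓ => (hy hyΓ).imp fun u hu => ⟨?_, hu.2⟩⟩
      linarith [abs_sub_abs_le_abs_sub u s, hu.1]
  obtain ⟨u0, u1, u2⟩ := hN _ ⟨N, rfl⟩ (hγ N (mem_univ _)).1
  have hne : N - u0 ≠ 0 := by linarith [le_abs_self u0] |> fun h : 0 < N - u0 => h.ne'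
  rcases P.dense_or_cyclic with hd | ⟨a, ha⟩
  · exfalso
    have hφ : HasDerivAt (fun u => ⟪deriv γ 0, γ u⟫) 1 0 := by
      have := (innerSL ℝ (deriv γ 0)).hasFDerivAt.comp_hasDerivAt 0 (hγ.hd (mem_univ 0))
      rwa [innerSL_apply_apply, real_inner_self_eq_norm_sq, (hγ 0 (mem_univ _)).2.2,
        one_pow] at this
    obtain ⟨δ, δ0, hδ⟩ := Metric.eventually_nhds_iff.1 (eventually_nhdsWithin_iff.1
      ((hasDerivAt_iff_tendsto_slope_zero.1 hφ).eventually (lt_mem_nhds one_pos)))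
    obtain ⟨p, hp, p0, p1⟩ := hd.exists_between δ0
    have := hδ (y := p) (by rw [Real.dist_eq, sub_zero, abs_of_pos p0]; exact p1) p0.ne'
    rw [show γ (0 + p) = γ 0 from hp 0] at this
    simp at this
  · have hm : ∀ p, p ∈ P ↔ ∃ k : ℤ, k • a = p := fun p => by
      rw [ha, AddSubgroup.mem_closure_singleton]
    have a0 : a ≠ 0 := by
      rintro rfl
      obtain ⟨k, hk⟩ := (hm _).1 (hP u0 N u2.symm)
      exact hne (by simpa using hk.symm)
    have ha' : Function.Periodic γ a := (hm a).2 ⟨1, one_smul _ _⟩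
    refine ⟨|a|, abs_pos.2 a0, ?_, fun s t e => ?_⟩
    · rcases abs_choice a with h | h <;> rw [h]
      · exact ha'
      · exact ha'.neg
    · obtain ⟨k, hk⟩ := (hm _).1 (hP s t e)
      rw [zsmul_eq_mul] at hk
      rcases abs_choice a with h | h <;> rw [h]
      · exact ⟨k, by linarith⟩
      · exact ⟨-k, by push_cast; linarith⟩

omit hu hE in
/-- unit tangent vectors of `Γ` -/
def Tan (Γ : Set E3) (g a : E3) : Prop :=
  ∀ w, IsEqn (cone Γ) g w → a = fld w g ∨ a = -fld w g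

theorem tube (hK : IsCompact Γ) : ∃ δ > (0 : ℝ), ∀ g ∈ Γ, ∀ g' ∈ Γ, ‖g - g'‖ < δ →
    ∀ (a a' n : E3) (τ : ℝ), Tan Γ g a → Tan Γ g' a' → ‖n‖ = 1 → |τ| ≤ δ →
      ⟪g + τ • n, a⟫ = 0 → ⟪g + τ • n, a'⟫ = 0 → g = g' := by
  refine hK.induction_on (p := fun S => ∃ δ > (0 : ℝ), ∀ g ∈ S, g ∈ Γ → ∀ g' ∈ Γ, ‖g - g'‖ < δ →
    ∀ (a a' n : E3) (τ : ℝ), Tan Γ g a → Tan Γ g' a' → ‖n‖ = 1 → |τ| ≤ δ →
      ⟪g + τ • n, a⟫ = 0 → ⟪g + τ • n, a'⟫ = 0 → g = g') ⟨1, one_pos, by simp⟩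
    (fun S T hST ⟨ε, h0, h⟩ => ⟨ε, h0, fun y hy => h y (hST hy)⟩) ?_ ?_ |>.imp
    fun ε h => ⟨h.1, fun y hy => h.2 y hy hy⟩
  · rintro S T ⟨ε, h0, h⟩ ⟨ε', h0', h'⟩
    refine ⟨min ε ε', lt_min h0 h0', fun g hg hgΓ g' hg' hd a a' n τ t1 t2 hn hτ => ?_⟩
    rcases hg with hg | hg
    · exact h g hg hgΓ g' hg' (hd.trans_le (min_le_left _ _)) a a' n τ t1 t2 hn
        (hτ.trans (min_le_left _ _))
    · exact h' g hg hgΓ g' hg' (hd.trans_le (min_le_right _ _)) a a' n τ t1 t2 hn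
        (hτ.trans (min_le_right _ _))
  intro x hx
  obtain ⟨w, hw⟩ := hE x hx
  have hf := contDiffAt_fld hw.1 hw.2.1
  obtain ⟨K, U, hU, hL⟩ := (hf.of_le one_le_inf).exists_lipschitzOnWith
  obtain ⟨r1, r10, hr1⟩ := Metric.eventually_nhds_iff.1 (chord hu hx hw)
  obtain ⟨r2, r20, hr2⟩ := Metric.eventually_nhds_iff.1 (hw.eventually.and
    ((hf.continuousAt.eventually (ball_mem_nhds _ (show (0 : ℝ) < 1 / 4 by norm_num))).and hU))
  refine ⟨ball x (min r1 r2 / 2), mem_nhdsWithin_of_mem_nhds (ball_mem_nhds _ (by positivity)),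
    min (min r1 r2 / 2) (1 / (4 * (K + 1))), by positivity,
    fun g hg hgΓ g' hg' hd a a' n τ t1 t2 hn hτ e1 e2 => ?_⟩
  have m1 : dist g x < min r1 r2 := (mem_ball.1 hg).trans (half_lt_self (by positivity))
  have m2 : dist g' x < min r1 r2 := by
    have := dist_triangle g' g x
    rw [dist_comm g' g, dist_eq_norm g g'] at this
    linarith [mem_ball.1 hg, hd.trans_le (min_le_left _ _)]
  obtain ⟨w1, -, u1⟩ := hr2 (m1.trans_le (min_le_right _ _))
  obtain ⟨w2, f2, u2⟩ := hr2 (m2.trans_le (min_le_right _ _))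
  have c1 := hr1 (y := (g, g')) (by
    rw [Prod.dist_eq]
    exact max_lt (m1.trans_le (min_le_left _ _)) (m2.trans_le (min_le_left _ _))) hgΓ hg'
  have k1 : ⟪g + τ • n, fld w g⟫ = 0 := by
    rcases t1 w w1 with h | h <;> rw [h] at e1
    · exact e1
    · rwa [inner_neg_right, neg_eq_zero] at e1
  have k2 : ⟪g + τ • n, fld w g'⟫ = 0 := by
    rcases t2 w w2 with h | h <;> rw [h] at e2
    · exact e2
    · rwa [inner_neg_right, neg_eq_zero] at e2
  rw [inner_add_left, real_inner_smul_left] at k1 k2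
  rw [(triple_fld hu hgΓ w1).ab, zero_add] at k1
  have k3 : ⟪fld w g', g - g'⟫ = τ * ⟪n, fld w g - fld w g'⟫ := by
    rw [inner_sub_right, inner_sub_right, real_inner_comm, real_inner_comm g',
      (triple_fld hu hg' w2).ab]
    linarith
  have k4 : |⟪n, fld w g - fld w g'⟫| ≤ K * ‖g - g'‖ := by
    refine (abs_real_inner_le_norm _ _).trans ?_
    rw [hn, one_mul, ← dist_eq_norm, ← dist_eq_norm]
    exact hL.dist_le_mul g u1 g' u2
  have k5 : |⟪fld w g' - fld w x, g - g'⟫| ≤ 1 / 4 * ‖g - g'‖ := by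
    refine (abs_real_inner_le_norm _ _).trans (mul_le_mul_of_nonneg_right ?_ (norm_nonneg _))
    rw [← dist_eq_norm]
    exact le_of_lt f2
  have k6 : |τ| * K ≤ 1 / 4 := by
    have := hτ.trans (min_le_right _ _)
    rw [le_div_iff₀ (by positivity)] at this
    nlinarith [abs_nonneg τ]
  have k7 : |⟪fld w g', g - g'⟫| ≤ 1 / 4 * ‖g - g'‖ := by
    rw [k3, abs_mul]
    calc _ ≤ |τ| * (K * ‖g - g'‖) := by gcongr
      _ = |τ| * K * ‖g - g'‖ := by ring
      _ ≤ _ := by gcongr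
  rw [inner_sub_left] at k5
  simp only at c1
  have k8 := abs_sub_abs_le_abs_sub ⟪fld w x, g - g'⟫ ⟪fld w g', g - g'⟫
  rw [abs_sub_comm] at k8
  exact sub_eq_zero.1 (norm_le_zero_iff.1 (by linarith))

theorem exists_fin (hK : IsCompact Γ) : ∃ (k : ℕ) (γ : Fin k → ℝ → E3), (∀ i, Adm Γ (γ i) univ) ∧
    (∀ x ∈ Γ, ∃ i s, x = γ i s) ∧ ∀ i i' s s', γ i s = γ i' s' → i = i' := by
  choose! β β0 hβ using fun x (hx : x ∈ Γ) => exists_glob hu hE hK hx
  obtain ⟨t, htΓ, ht⟩ := hK.elim_nhds_subcover (fun x => {y | y ∈ Γ → y ∈ range (β x)})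
    fun x hx => by
      have h1 := (hβ x hx).onto hu hE isOpen_univ (mem_univ 0) one_pos
      rw [β0 x hx] at h1
      exact h1.mono fun y hy hyΓ => (hy hyΓ).imp fun u hu => hu.2
  set R : Set (Set E3) := (fun x => range (β x)) '' t
  have hR : R.Finite := t.finite_toSet.image _
  have := hR.to_subtype
  have hc : ∀ A : R, ∃ γ : ℝ → E3, Adm Γ γ univ ∧ range γ = A := by
    rintro ⟨_, x, hx, rfl⟩
    exact ⟨β x, hβ x (htΓ x hx), rfl⟩
  choose γ hγ hγ' using hc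
  set e := Finite.equivFin R
  refine ⟨_, fun i => γ (e.symm i), fun i => hγ _, fun x hx => ?_, fun i i' s s' h => ?_⟩
  · obtain ⟨y, hy, h⟩ := mem_iUnion₂.1 (ht hx)
    have h1 : x ∈ range (γ ⟨_, y, hy, rfl⟩) := by rw [hγ']; exact h hx
    obtain ⟨s, hs⟩ := h1
    exact ⟨e ⟨_, y, hy, rfl⟩, s, by simp only [Equiv.symm_apply_apply]; exact hs.symm⟩
  · have h1 := (hγ _).range_eq hu hE (hγ _) h
    rw [hγ', hγ'] at h1
    exact e.symm.injective (Subtype.ext h1)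

end

theorem close_of_eq {g g' n n' : E3} {y y' t t' δ : ℝ} (hg : ‖g‖ = 1) (hg' : ‖g'‖ = 1)
    (hn : ‖n‖ = 1) (hn' : ‖n'‖ = 1) (ht : |t| ≤ δ) (ht' : |t'| ≤ δ)
    (h : Real.exp y • (g + t • n) = Real.exp y' • (g' + t' • n')) (hδ : δ ≤ 1 / 2) :
    ‖g - g'‖ ≤ 8 * δ := by
  have δ0 : 0 ≤ δ := (abs_nonneg _).trans ht
  set l := Real.exp y' / Real.exp y with hl
  have l0 : 0 < l := by positivity
  have h1 : g + t • n = l • (g' + t' • n') := by
    rw [hl, div_eq_inv_mul, mul_smul, ← h, smul_smul, inv_mul_cancel₀ (Real.exp_pos y).ne', one_smul]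
  have b : ∀ {g n : E3} {t : ℝ}, ‖g‖ = 1 → ‖n‖ = 1 → |t| ≤ δ →
      1 - δ ≤ ‖g + t • n‖ ∧ ‖g + t • n‖ ≤ 1 + δ ∧ ‖t • n‖ ≤ δ := fun {g n t} hg hn ht => by
    have e : ‖t • n‖ ≤ δ := by rwa [norm_smul, hn, mul_one]
    have e1 := norm_add_le g (t • n)
    have e2 := norm_sub_le (g + t • n) (t • n)
    rw [add_sub_cancel_right] at e2
    exact ⟨by linarith, by linarith, e⟩
  obtain ⟨a1, a2, a3⟩ := b hg hn ht
  obtain ⟨b1, b2, b3⟩ := b hg' hn' ht'
  have h2 : ‖g + t • n‖ = l * ‖g' + t' • n'‖ := by rw [h1, norm_smul, Real.norm_of_nonneg l0.le]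
  have h3 : g - g' = (l - 1) • (g' + t' • n') + t' • n' - t • n := by
    rw [sub_smul, ← h1, one_smul]; abel
  have h4 : ‖(l - 1) • (g' + t' • n')‖ ≤ 2 * δ := by
    rw [norm_smul, Real.norm_eq_abs, ← abs_of_nonneg (norm_nonneg (g' + t' • n')), ← abs_mul,
      sub_mul, ← h2, one_mul, abs_le]
    exact ⟨by linarith, by linarith⟩
  rw [h3]
  linarith [norm_sub_le ((l - 1) • (g' + t' • n') + t' • n') (t • n),
    norm_add_le ((l - 1) • (g' + t' • n')) (t' • n')]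

end Vale.Agent.P218F.Ends.Crv

namespace Vale.Agent.P218F.Ends

open Vale.Agent.P218FT Crv

theorem curve_proof : CurveStmt := by
  intro Γ hK hu hE
  obtain ⟨k, β, hβ, hcov, hdis⟩ := exists_fin hu hE hK
  choose T T0 Tper Tinj using fun i => (hβ i).period hu hE hK
  obtain ⟨δ, δ0, hδ⟩ := tube hu hE hK
  have π0 := Real.pi_pos
  set l : Fin k → ℝ := fun i => T i / (2 * Real.pi) with hl
  have l0 : ∀ i, 0 < l i := fun i => div_pos (T0 i) (by positivity)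
  have lT : ∀ i, l i * (2 * Real.pi) = T i := fun i => div_mul_cancel₀ _ (by positivity)
  set γ : Fin k → ℝ → E3 := fun i θ => β i (0 + l i * θ) with hγ
  set a : Fin k → ℝ → E3 := fun i θ => deriv (β i) (0 + l i * θ) with ha
  set n : Fin k → ℝ → E3 := fun i θ => crs (γ i θ) (a i θ) with hn
  have hda : ∀ i θ, (l i)⁻¹ • deriv (γ i) θ = a i θ := fun i θ => by
    rw [hγ, (hβ i).deriv_aff 0 (l i) (mem_univ _), smul_smul, inv_mul_cancel₀ (l0 i).ne', one_smul]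
  have hγΓ : ∀ i θ, γ i θ ∈ Γ := fun i θ => (hβ i _ (mem_univ _)).1
  have htan : ∀ i θ, Tan Γ (γ i θ) (a i θ) := fun i θ w hw =>
    (hβ i).tan hu isOpen_univ (mem_univ _) hw
  have htri : ∀ i θ, Triple (γ i θ) (a i θ) (n i θ) := fun i θ => by
    obtain ⟨w, hw⟩ := hE _ (hγΓ i θ)
    have h1 : ⟪γ i θ, a i θ⟫ = 0 := by
      rcases htan i θ w hw with h | h <;> rw [h]
      · exact (triple_fld hu (hγΓ i θ) hw).ab
      · rw [inner_neg_right, (triple_fld hu (hγΓ i θ) hw).ab, neg_zero]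
    have h2 := hu _ (hγΓ i θ)
    have h3 : ‖a i θ‖ = 1 := (hβ i _ (mem_univ _)).2.2
    exact ⟨h2, h3, norm_crs h2 h3 h1, h1, inner_crs_left _ _, inner_crs_right _ _⟩
  have hsγ : ∀ i, ContDiff ℝ ∞ (γ i) := fun i => contDiff_iff_contDiffAt.2 fun θ =>
    ContDiffAt.comp θ (g := β i) (hβ i _ (mem_univ _)).2.1 (by fun_prop)
  have hsa : ∀ i, ContDiff ℝ ∞ (a i) := fun i => contDiff_iff_contDiffAt.2 fun θ =>
    ContDiffAt.comp θ (g := deriv (β i)) ((hβ i).contDiffAt_deriv (mem_univ _)) (by fun_prop)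
  have pγ : ∀ i, Function.Periodic (γ i) (2 * Real.pi) := fun i θ => by
    simp only [hγ, mul_add, lT, ← add_assoc, Tper]
  have pa : ∀ i, Function.Periodic (a i) (2 * Real.pi) := fun i θ => by
    simp only [ha, mul_add, lT, ← add_assoc]
    rw [← deriv_comp_add_const, show (fun u => β i (u + T i)) = β i from funext (Tper i)]
  have pn : ∀ i, Function.Periodic (n i) (2 * Real.pi) := fun i θ => by
    simp only [hn, pγ i θ, pa i θ]
  set δ₀ := min (δ / 16) (1 / 2) with hδ₀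
  have key : ∀ i i' y θ t y' θ' t', |t| ≤ δ₀ → |t'| ≤ δ₀ →
      conePt (γ i) (n i) y θ t = conePt (γ i') (n i') y' θ' t' → γ i θ = γ i' θ' := by
    intro i i' y θ t y' θ' t' ht ht' h
    have T1 := htri i θ
    have T2 := htri i' θ'
    have h1 := close_of_eq T1.na T2.na T1.nc T2.nc ht ht' h (min_le_right _ _)
    have h2 : δ₀ ≤ δ / 16 := min_le_left _ _
    refine hδ _ (hγΓ i θ) _ (hγΓ i' θ') (by linarith) _ _ (n i θ) t (htan i θ) (htan i' θ') T1.nc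
      (by linarith) ?_ ?_
    · rw [inner_add_left, real_inner_smul_left, T1.ab, real_inner_comm, T1.bc]; simp
    · have h3 := congrArg (fun v => ⟪v, a i' θ'⟫) h
      simp only [conePt, real_inner_smul_left] at h3
      rw [inner_add_left (γ i' θ'), real_inner_smul_left, T2.ab, real_inner_comm (a i' θ') (n i' θ'),
        T2.bc] at h3
      simpa using h3
  refine ⟨k, γ, n, l, δ₀, by positivity, fun i => ⟨l0 i, hsγ i, contDiff_iff_contDiffAt.2 fun θ =>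
    ContDiffAt.crs (hsγ i).contDiffAt (hsa i).contDiffAt, pγ i, pn i,
    fun θ => by rw [hda]; exact htri i θ, fun y θ t y' θ' t' ht ht' h => ?_⟩,
    fun x => ⟨fun hx => ?_, ?_⟩, fun i i' hii => ?_, fun ε ε0 => ?_⟩
  · have h1 := key i i y θ t y' θ' t' ht ht' h
    obtain ⟨m, hm⟩ := Tinj i _ _ h1.symm
    have h2 : θ' = θ + m * (2 * Real.pi) := by
      refine mul_left_cancel₀ (l0 i).ne' ?_
      rw [← lT] at hm
      linarith
    have h3 : n i θ' = n i θ := by rw [h2]; exact (pn i).int_mul m θ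
    have T1 := htri i θ
    rw [conePt, conePt, ← h1, h3] at h
    have h4 := congrArg (fun v => ⟪γ i θ, v⟫) h
    have h5 := congrArg (fun v => ⟪n i θ, v⟫) h
    simp only [real_inner_smul_right, inner_add_right, real_inner_self_eq_norm_sq, T1.na, T1.nc,
      T1.ac, real_inner_comm (γ i θ) (n i θ)] at h4 h5
    have h6 : y = y' := Real.exp_injective (by simpa using h4)
    subst h6
    exact ⟨rfl, by simpa using h5, m, h2⟩
  · obtain ⟨i, s, rfl⟩ := hcov x hx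
    exact ⟨i, s / l i, by simp only [hγ]; rw [zero_add, mul_div_cancel₀ _ (l0 i).ne']⟩
  · rintro ⟨i, θ, rfl⟩
    exact hγΓ i θ
  · refine disjoint_left.2 ?_
    rintro _ ⟨y, θ, t, ht, rfl⟩ ⟨y', θ', t', ht', h⟩
    exact hii (hdis _ _ _ _ (key i i' y θ t y' θ' t' ht ht' h))
  · refine ⟨min (1 / 2) (ε ^ 2 / 16), by positivity, fun x g hg hx => ?_⟩
    obtain ⟨i, s, rfl⟩ := hcov g hg
    obtain ⟨_, ⟨s0, rfl⟩, hmax⟩ := ((hβ i).isCompact_range hu hE hK).exists_isMaxOn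
      (range_nonempty _) (f := fun v => ⟪x, v⟫) (by fun_prop)
    have e0 : 0 + l i * (s0 / l i) = s0 := by rw [zero_add, mul_div_cancel₀ _ (l0 i).ne']
    have T1 := htri i (s0 / l i)
    have h1 : ⟪a i (s0 / l i), x⟫ = 0 := by
      have hd := (innerSL ℝ x).hasFDerivAt.comp_hasDerivAt s0 ((hβ i).hd (mem_univ s0))
      have := IsLocalMax.hasDerivAt_eq_zero (Eventually.of_forall fun u => hmax ⟨u, rfl⟩) hd
      rw [real_inner_comm]
      simpa only [ha, e0, innerSL_apply_apply] using this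
    have hη1 := hx.trans (min_le_left _ _)
    have hη2 := hx.trans (min_le_right _ _)
    have hg1 := hu _ hg
    have h2 : 1 - ‖x - β i s‖ ≤ ⟪γ i (s0 / l i), x⟫ := by
      have c1 : ⟪x, β i s⟫ ≤ ⟪x, β i s0⟫ := hmax ⟨s, rfl⟩
      have c2 := neg_le_of_abs_le (abs_real_inner_le_norm (x - β i s) (β i s))
      rw [inner_sub_left, real_inner_self_eq_norm_sq, hg1] at c2
      rw [real_inner_comm]
      simp only [hγ, e0]
      linarith
    have h3 : ‖x‖ ≤ 1 + ‖x - β i s‖ := by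
      have := norm_add_le (x - β i s) (β i s)
      rw [sub_add_cancel] at this
      linarith
    have h4 := T1.norm_sq x
    have h5 := T1.expand x
    rw [h1] at h4 h5
    have p0 : 1 / 2 ≤ ⟪γ i (s0 / l i), x⟫ := by linarith
    refine ⟨i, Real.log ⟪γ i (s0 / l i), x⟫, s0 / l i, ⟪n i (s0 / l i), x⟫ / ⟪γ i (s0 / l i), x⟫,
      ?_, ?_⟩
    · rw [abs_div, abs_of_pos (by linarith : 0 < ⟪γ i (s0 / l i), x⟫), div_le_iff₀ (by linarith)]
      refine le_trans (abs_le_of_sq_le_sq ?_ (by positivity : 0 ≤ ε * (1 / 2))) (by gcongr)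
      have c1 : ‖x‖ ^ 2 ≤ (1 + ‖x - β i s‖) ^ 2 := by gcongr
      have c2 : (1 - ‖x - β i s‖) ^ 2 ≤ ⟪γ i (s0 / l i), x⟫ ^ 2 := by
        gcongr
        linarith
      nlinarith
    · rw [conePt, Real.exp_log (by linarith), smul_add, smul_smul, mul_div_cancel₀ _ (by linarith)]
      simpa using h5

end Vale.Agent.P218F.Ends
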