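import Vale.Agent.P218F.Ends3
import Vale.Agent.P218F.EndsAux
import Vale.Agent.P218F.EndsCurve
import Vale.Agent.P218F.E2Main
import Vale.Agent.P218FT.ConvAll

/-! Ends of a shrinker: the final theorem. -/

namespace Vale.Agent.P218F.Ends

open Vale.Agent.P218FT

theorem classify_proof : ClassifyStmt := fun _ _ h1 h2 h3 h4 => E2.classify h1 h2 h3 h4

/-- **Block E** -/
theorem ends_proof : EndsStmt := by
  intro D G S hS hC
  have h : Hyp D G S := ⟨huisken, Hu.dens_proof, hS, hC⟩
  have hd : ∀ y : E3, ‖y‖ = 1 → Reg S y ∨ CylDir S y := fun y hy =>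
    h.dichotomy white conv_all Conv.slice_proof classify_proof hy
  exact ends_of h Conv.locComp_proof Conv.impl_proof curve_proof hd (h.twoPt t1_all hd)

end Vale.Agent.P218F.Ends
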