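import Vale.Agent.P218FT.Defs

/-! Statements used in the proof of the local Gauss-Bonnet estimate. -/

open MeasureTheory Set Filter Topology Metric
open scoped ENNReal NNReal RealInnerProductSpace ContDiff

namespace Vale.Agent.P218F.Lgb

open Vale.Agent.P218FT

/-- the Gauss curvature -/
noncomputable def gK (N : Set E3) (x : E3) : ℝ := (‖Hv N x‖ ^ 2 - a2 N x) / 2

/-- the critical points of the height function `⟪v, ·⟫` on `N` -/
def critV (N : Set E3) (v : E3) : Set E3 := {x | x ∈ N ∧ pt (nu N x) v = 0}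

/-- the local minima in `B` of the function `⟪v, ·⟫ + β` on `N` -/
def minV (N : Set E3) (β : E3 → ℝ) (v : E3) (B : Set E3) : Set E3 :=
  {x | x ∈ N ∧ x ∈ B ∧ IsLocalMinOn (fun y => ⟪v, y⟫ + β y) N x}

/-- **Counting of critical points** of a generic height function on a closed connected surface -/
def CountStmt : Prop :=
  ∀ N : Set E3, IsSurf N → IsCompact N → IsConnected N →
    ∀ᵐ v : E3, ‖v‖ ≤ 1 → (critV N v).Finite → (∀ x ∈ critV N v, gK N x ≠ 0) →
      ∀ (β : E3 → ℝ) (p : E3) (r : ℝ), 0 < r → Continuous β → (∀ x, 0 ≤ β x) →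
        (∀ x ∈ ball p r, β x = 0) → (∀ x, dist x p = 2 * r → 5 * r ≤ β x) →
        {x ∈ critV N v | x ∈ ball p r ∧ gK N x < 0}.encard + {x ∈ critV N v | 0 < gK N x}.encard ≤
          2 + {x ∈ critV N v | gK N x < 0}.encard + (minV N β v (ball p (2 * r))).encard +
            (minV N β (-v) (ball p (2 * r))).encard

/-- the total Gauss curvature is constant along a flow of bounded surfaces -/
def KConstStmt : Prop :=
  ∀ (M : ℝ → Set E3) (a b R : ℝ), IsMCF M (Ioo a b) → (∀ t ∈ Ioo a b, M t ⊆ closedBall 0 R) →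
    ∀ s ∈ Ioo a b, ∀ t ∈ Ioo a b,
      ∫ x, gK (M s) x ∂(area (M s)) = ∫ x, gK (M t) x ∂(area (M t))

end Vale.Agent.P218F.Lgb
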