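import Vale.Agent.P218F.LgbMorse
import Vale.Agent.P218F.LgbSpec
import Vale.Agent.P218FT.Local
import Vale.Agent.P218FT.Chart
import Mathlib.MeasureTheory.Function.Jacobian
import Mathlib.Analysis.Calculus.InverseFunctionTheorem.ContDiff

/-! Critical points of generic height functions on a closed surface. -/

open MeasureTheory Set Filter Topology Metric
open scoped ENNReal NNReal RealInnerProductSpace ContDiff

namespace Vale.Agent.P218F.Lgb

open Vale.Agent.P218FT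

/-- the linear map `u ↦ u₁ a + u₂ b` -/
noncomputable def lin (a b : E3) : ℝ × ℝ →L[ℝ] E3 :=
  (ContinuousLinearMap.fst ℝ ℝ ℝ).smulRight a + (ContinuousLinearMap.snd ℝ ℝ ℝ).smulRight b

theorem lin_apply (a b : E3) (u : ℝ × ℝ) : lin a b u = u.1 • a + u.2 • b := rfl

/-- the chart of a surface over the tangent plane -/
theorem exists_par {N : Set E3} (hN : IsSurf N) {x : E3} (hx : x ∈ N) {a b : E3}
    (ht : Triple a b (nu N x)) : ∃ H : ℝ × ℝ → ℝ, ContDiff ℝ ∞ H ∧ H 0 = 0 ∧ fderiv ℝ H 0 = 0 ∧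
      (∀ u, fderiv ℝ (fderiv ℝ H) 0 u u = ⟪sh N x (lin a b u), lin a b u⟫) ∧
      ∀ h : E3 → ℝ, Model (fun y : N => h y) ⟨x, hx⟩
        fun u => h (x + lin a b u + H u • nu N x) - h x := by
  classical
  set n := nu N x with hn
  set w := eqn N x with hw
  have hE : IsEqn N x w := hN.isEqn hx
  have hg := hE.2.1
  have hnw : n = nuw w x := rfl
  have hwd : Differentiable ℝ w := hE.1.differentiable (by simp)
  let Λ : (ℝ × ℝ) × ℝ →L[ℝ] E3 := (lin a b).comp (ContinuousLinearMap.fst ℝ _ _) +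
    (ContinuousLinearMap.snd ℝ _ _).smulRight n
  have hΛ : ∀ q, Λ q = lin a b q.1 + q.2 • n := fun q => rfl
  have hf : ContDiff ℝ ∞ fun q => w (x + Λ q) := hE.1.comp (contDiff_const.add Λ.contDiff)
  have hf' : fderiv ℝ (fun q => w (x + Λ q)) 0 (0, 1) ≠ 0 := by
    have h1 : HasFDerivAt (fun q => w (x + Λ q)) ((fderiv ℝ w (x + Λ 0)).comp Λ) 0 :=
      (hwd _).hasFDerivAt.comp 0 (Λ.hasFDerivAt.const_add x)
    rw [h1.fderiv, map_zero, add_zero, ContinuousLinearMap.comp_apply, hΛ, ← inner_grad]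
    simp only [map_zero, one_smul, zero_add]
    rw [hnw, inner_grad_nuw hg]
    exact norm_ne_zero_iff.2 hg
  obtain ⟨H, hH, hev⟩ := Chart.exists_implicit hf hf'
  simp only [map_zero, add_zero, hE.zero hx] at hev
  have H0 : H 0 = 0 := hev.self_of_nhds.1 (by simpa using hE.zero hx)
  have hHd : Differentiable ℝ H := hH.differentiable (by simp)
  set Y : ℝ × ℝ → E3 := fun u => x + lin a b u + H u • n with hY
  have Y0 : Y 0 = x := by simp [hY, H0]
  have hYd : ∀ u, HasFDerivAt Y (lin a b + (fderiv ℝ H u).smulRight n) u := fun u =>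
    ((lin a b).hasFDerivAt.const_add x).add ((hHd u).hasFDerivAt.smul_const n)
  have hYc : Continuous Y := continuous_iff_continuousAt.2 fun u => (hYd u).continuousAt
  have hw0 : ∀ᶠ u in 𝓝 (0 : ℝ × ℝ), w (Y u) = 0 := by
    have : Tendsto (fun u => (u, H u)) (𝓝 0) (𝓝 (0 : (ℝ × ℝ) × ℝ)) :=
      (continuous_id.prodMk hH.continuous).tendsto' _ _ (by simp [H0])
    filter_upwards [this.eventually hev] with u hu
    simpa [hY, hΛ, add_assoc] using hu.2 rfl
  have first : ∀ᶠ z in 𝓝 (0 : ℝ × ℝ), ∀ u,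
      ⟪gradient w (Y z), lin a b u + fderiv ℝ H z u • n⟫ = 0 := by
    filter_upwards [hw0.eventually_nhds] with z hz u
    have h1 := (hwd _).hasFDerivAt.comp z (hYd z)
    have h2 : HasFDerivAt (w ∘ Y) (0 : ℝ × ℝ →L[ℝ] ℝ) z :=
      (hasFDerivAt_const (0 : ℝ) z).congr_of_eventuallyEq hz
    have h3 := congrArg (fun L : ℝ × ℝ →L[ℝ] ℝ => L u) (h1.unique h2)
    rw [inner_grad]
    simpa using h3
  have orth : ∀ u, ⟪n, lin a b u⟫ = 0 := fun u => by
    rw [lin_apply, inner_add_right, inner_smul_right, inner_smul_right, real_inner_comm, ht.ac,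
      real_inner_comm, ht.bc]
    simp
  have gn : ⟪gradient w x, n⟫ = ‖gradient w x‖ := inner_grad_nuw hg
  have gpos : 0 < ‖gradient w x‖ := norm_pos_iff.2 hg
  have H1 : fderiv ℝ H 0 = 0 := by
    refine ContinuousLinearMap.ext fun u => ?_
    have := first.self_of_nhds u
    rw [Y0, inner_add_right, inner_grad_of_orth hg (orth u), inner_smul_right, gn, zero_add] at this
    exact (mul_eq_zero.1 this).resolve_right gpos.ne'
  refine ⟨H, hH, H0, H1, fun u => ?_, fun h => ?_⟩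
  · have d1 : HasFDerivAt (fun z => gradient w (Y z)) ((fderiv ℝ (gradient w) (Y 0)).comp
        (lin a b + (fderiv ℝ H 0).smulRight n)) 0 :=
      ((contDiff_grad hE.1).differentiable (by simp) _).hasFDerivAt.comp 0 (hYd 0)
    have d2 : HasFDerivAt (fderiv ℝ H) (fderiv ℝ (fderiv ℝ H) 0) 0 :=
      ((hH.fderiv_right (m := ∞) (by simp)).differentiable (by simp) _).hasFDerivAt
    have d3 := ((d2.clm_apply (hasFDerivAt_const u 0)).smul_const n).const_add (lin a b u)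
    have d4 := d1.inner ℝ d3
    have d5 : HasFDerivAt (fun z => ⟪gradient w (Y z), lin a b u + fderiv ℝ H z u • n⟫)
        (0 : ℝ × ℝ →L[ℝ] ℝ) 0 :=
      (hasFDerivAt_const (0 : ℝ) _).congr_of_eventuallyEq (first.mono fun z hz => hz u)
    have d6 := congrArg (fun L : ℝ × ℝ →L[ℝ] ℝ => L u) (d4.unique d5)
    simp [H1, Y0, inner_smul_right, gn] at d6
    rw [sh, inner_shw, ← hw, ← hnw, pt_of_orth (orth u)]
    field_simp
    linarith
  · let co : E3 → (ℝ × ℝ) × ℝ := fun y => ((⟪a, y - x⟫, ⟪b, y - x⟫), ⟪n, y - x⟫)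
    have coc : Continuous co := by fun_prop
    have Λco : ∀ y, x + Λ (co y) = y := fun y => by
      rw [hΛ, lin_apply, ← ht.expand (y - x)]; abel
    have coY : ∀ u, (co (Y u)).1 = u := fun u => by
      have ba : ⟪b, a⟫ = 0 := by rw [real_inner_comm]; exact ht.ab
      ext <;> simp [co, hY, lin_apply, add_assoc, inner_add_right, inner_smul_right, ht.ab, ba,
        ht.ac, ht.bc, ht.na, ht.nb]
    have e1 : ∀ᶠ y in 𝓝 x, y ∈ N ↔ y = Y (co y).1 := by
      have : Tendsto co (𝓝 x) (𝓝 0) := coc.tendsto' _ _ (by simp [co])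
      filter_upwards [this.eventually hev, hE.2.2] with y h1 h2
      rw [Λco] at h1
      rw [h2, h1]
      constructor
      · intro h3
        conv_lhs => rw [← Λco y, hΛ, ← h3, ← add_assoc]
      · intro h3
        have h4 : co y = co (Y (co y).1) := by rw [← h3]
        have h5 : (co (Y (co y).1)).2 = H (co y).1 := by
          simp only [co, hY, add_assoc, add_sub_cancel_left, inner_add_right, orth,
            inner_smul_right, real_inner_self_eq_norm_sq, ht.nc]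
          ring
        rw [← h5, ← h4]
    obtain ⟨U, hU, hUo, hxU⟩ := _root_.eventually_nhds_iff.1 e1
    obtain ⟨δ, hδ, hb⟩ := Metric.mem_nhds_iff.1
      (hYc.continuousAt.preimage_mem_nhds (hUo.mem_nhds (Y0.symm ▸ hxU : Y 0 ∈ U)))
    have hYN : ∀ u ∈ ball (0 : ℝ × ℝ) δ, Y u ∈ N := fun u hu => (hU _ (hb hu)).2 (by rw [coY])
    let κ : ℝ × ℝ → N := fun u => if hm : Y u ∈ N then ⟨Y u, hm⟩ else ⟨x, hx⟩
    have hκ : ∀ u ∈ ball (0 : ℝ × ℝ) δ, (κ u : E3) = Y u := fun u hu => by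
      simp only [κ, dif_pos (hYN u hu)]
    refine ⟨κ, δ, hδ, Subtype.ext ((hκ 0 (mem_ball_self hδ)).trans Y0), ?_, ?_, ?_, ?_⟩
    · exact IsInducing.subtypeVal.continuousOn_iff.2 (hYc.continuousOn.congr hκ)
    · intro u hu u' hu' e
      rw [← coY u, ← coY u', ← hκ u hu, ← hκ u' hu', e]
    · intro W hW hWo
      have : κ '' W = Subtype.val ⁻¹' (U ∩ (fun y => (co y).1) ⁻¹' W) := by
        ext y
        constructor
        · rintro ⟨u, hu, rfl⟩
          rw [mem_preimage, hκ u (hW hu)]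
          exact ⟨hb (hW hu), by rw [mem_preimage, coY]; exact hu⟩
        · rintro ⟨h1, h2⟩
          exact ⟨_, h2, Subtype.ext ((hκ _ (hW h2)).trans ((hU _ h1).1 y.2).symm)⟩
      rw [this]
      exact (hUo.inter (hWo.preimage coc.fst)).preimage continuous_subtype_val
    · intro u hu
      simp only [hκ u hu, hY]
      ring

theorem gK_eq {N : Set E3} (hN : IsSurf N) {x : E3} (hx : x ∈ N) {a b : E3}
    (ht : Triple a b (nu N x)) :
    gK N x = ⟪sh N x a, a⟫ * ⟪sh N x b, b⟫ - ⟪sh N x a, b⟫ ^ 2 := by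
  rw [gK, hN.norm_Hv hx, sq_abs, hN.tr_sh hx ht, hN.a2_eq hx ht]
  ring

/-- local models of the height function -/
theorem model_height {N : Set E3} (hN : IsSurf N) {x : E3} (hx : x ∈ N) {v : E3} (hv : v ≠ 0) :
    (pt (nu N x) v ≠ 0 → Model (fun y : N => ⟪v, (y : E3)⟫) ⟨x, hx⟩ qReg) ∧
    (pt (nu N x) v = 0 → (gK N x < 0 → Model (fun y : N => ⟪v, (y : E3)⟫) ⟨x, hx⟩ qSad) ∧
      (0 < gK N x → Model (fun y : N => ⟪v, (y : E3)⟫) ⟨x, hx⟩ qMin ∨
        Model (fun y : N => ⟪v, (y : E3)⟫) ⟨x, hx⟩ qMax)) := by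
  obtain ⟨a, b, ht⟩ := exists_triple (hN.norm_nu hx)
  obtain ⟨H, hH, H0, H1, H2, hM⟩ := exists_par hN hx ht
  set n := nu N x with hn
  have hM := hM fun y => ⟪v, y⟫
  have e : (fun u => ⟪v, x + lin a b u + H u • n⟫ - ⟪v, x⟫) =
      fun u : ℝ × ℝ => ⟪a, v⟫ * u.1 + ⟪b, v⟫ * u.2 + ⟪n, v⟫ * H u := by
    ext u
    simp only [lin_apply, inner_add_right, inner_smul_right, real_inner_comm v]
    ring
  rw [e] at hM
  have hp : pt n v = ⟪a, v⟫ • a + ⟪b, v⟫ • b := by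
    rw [pt_apply, sub_eq_iff_eq_add]; exact ht.expand v
  constructor
  · intro h0
    have hs : HasStrictFDerivAt H (0 : ℝ × ℝ →L[ℝ] ℝ) 0 :=
      H1 ▸ hH.contDiffAt.hasStrictFDerivAt (by simp)
    have d1 := ((hasStrictFDerivAt_fst.const_mul ⟪a, v⟫).add
      (hasStrictFDerivAt_snd.const_mul ⟪b, v⟫)).add (hs.const_mul ⟪n, v⟫)
    have d2 := (hasStrictFDerivAt_fst.const_mul (-⟪b, v⟫)).add
      ((hasStrictFDerivAt_snd (𝕜 := ℝ) (p := (0 : ℝ × ℝ))).const_mul ⟪a, v⟫)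
    refine hM.trans (model_of_strict (d1.prodMk d2) (fun u hu => ?_) (by simp [H0])
      (Eventually.of_forall fun u => by simp [H0, qReg]))
    simp at hu
    have hne : ⟪a, v⟫ ^ 2 + ⟪b, v⟫ ^ 2 ≠ 0 := fun g => h0 (by
      have g1 : ⟪a, v⟫ = 0 := by nlinarith [sq_nonneg ⟪a, v⟫, sq_nonneg ⟪b, v⟫]
      have g2 : ⟪b, v⟫ = 0 := by nlinarith [sq_nonneg ⟪a, v⟫, sq_nonneg ⟪b, v⟫]
      rw [hp, g1, g2]; simp)
    refine Prod.ext (mul_left_cancel₀ hne ?_) (mul_left_cancel₀ hne ?_)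
    · simp only [Prod.fst_zero, mul_zero]
      linear_combination ⟪a, v⟫ * hu.1 - ⟪b, v⟫ * hu.2
    · simp only [Prod.snd_zero, mul_zero]
      linear_combination ⟪b, v⟫ * hu.1 + ⟪a, v⟫ * hu.2
  · intro h0
    have hv' : v = ⟪n, v⟫ • n := by rwa [pt_apply, sub_eq_zero] at h0
    have g1 : ⟪a, v⟫ = 0 := by rw [hv', inner_smul_right, ht.ac, mul_zero]
    have g2 : ⟪b, v⟫ = 0 := by rw [hv', inner_smul_right, ht.bc, mul_zero]
    have g3 : ⟪n, v⟫ ≠ 0 := fun g => hv (by rw [hv', g, zero_smul])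
    simp only [g1, g2, zero_mul, zero_add] at hM
    set s := ⟪n, v⟫ with hs
    have f1 : fderiv ℝ (fun u => s * H u) = fun u => s • fderiv ℝ H u := funext fun u =>
      ((hH.differentiable (by simp) u).hasFDerivAt.const_mul s).fderiv
    have f2 : fderiv ℝ (fderiv ℝ fun u => s * H u) 0 = s • fderiv ℝ (fderiv ℝ H) 0 := by
      rw [f1]
      exact (((hH.fderiv_right (m := ∞) (by simp)).differentiable (by simp)
        0).hasFDerivAt.const_smul s).fderiv
    have key := morse_plane (G := fun u => s * H u)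
      (contDiff_const.mul (hH.of_le (WithTop.coe_le_coe.2 (le_top : (3 : ℕ∞) ≤ ⊤)))) (by simp [f1, H1])
      (A := s * ⟪sh N x a, a⟫) (B := s * ⟪sh N x a, b⟫) (C := s * ⟪sh N x b, b⟫) fun u => by
        have : ⟪sh N x b, a⟫ = ⟪sh N x a, b⟫ := by rw [hN.sh_symm hx, real_inner_comm]
        rw [f2, smul_apply, smul_apply, H2, lin_apply]
        simp only [map_add, map_smul, inner_add_left, inner_add_right, inner_smul_right,
          real_inner_smul_left, this, smul_eq_mul]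
        ring
    have e2 : s * ⟪sh N x a, a⟫ * (s * ⟪sh N x b, b⟫) - (s * ⟪sh N x a, b⟫) ^ 2 =
        s ^ 2 * gK N x := by rw [gK_eq hN hx ht]; ring
    rw [e2] at key
    have s2 : 0 < s ^ 2 := by positivity
    exact ⟨fun g => hM.trans (key.1 (mul_neg_of_pos_of_neg s2 g)),
      fun g => (key.2 (mul_pos s2 g)).imp hM.trans hM.trans⟩

/-- the critical value of the height function near a nondegenerate critical point -/
theorem exists_critical_value {N : Set E3} (hN : IsSurf N) {x : E3} (hx : x ∈ N) {v₀ : E3}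
    (hv : v₀ ≠ 0) (h0 : pt (nu N x) v₀ = 0) (hK : gK N x ≠ 0) :
    ∃ c : E3 → ℝ, ContDiffAt ℝ 1 c v₀ ∧ (∀ u, fderiv ℝ c v₀ u = ⟪u, x⟫) ∧
      ∀ᶠ p : E3 × E3 in 𝓝 (x, v₀), p.1 ∈ N → pt (nu N p.1) p.2 = 0 → ⟪p.2, p.1⟫ = c p.2 := by
  set n := nu N x with hn
  set w := eqn N x with hw
  have hE : IsEqn N x w := hN.isEqn hx
  have hg := hE.2.1
  have hnw : n = nuw w x := rfl
  have hwd : Differentiable ℝ w := hE.1.differentiable (by simp)
  have hgc := contDiff_grad hE.1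
  have gpos : 0 < ‖gradient w x‖ := norm_pos_iff.2 hg
  let lam : E3 × E3 → ℝ := fun p => ⟪gradient w p.1, p.2⟫ / ‖gradient w p.1‖ ^ 2
  have hlam : ∀ y v, gradient w y ≠ 0 → pt (nuw w y) v = 0 → lam (y, v) • gradient w y = v := by
    intro y v h1 h2
    rw [pt_apply, sub_eq_zero, nuw, real_inner_smul_left, smul_smul] at h2
    conv_rhs => rw [h2]
    congr 1
    have := norm_pos_iff.2 h1
    simp only [lam]
    field_simp
  set l₀ := lam (x, v₀) with hl₀
  have e₀ : l₀ • gradient w x = v₀ := hlam x v₀ hg h0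
  have l0 : l₀ ≠ 0 := fun g => hv (by rw [← e₀, g, zero_smul])
  let Ψ : E3 × ℝ → E3 × ℝ := fun q => (q.2 • gradient w q.1, w q.1)
  have Ψc : ContDiff ℝ 1 Ψ :=
    (contDiff_snd.smul ((hgc.of_le one_le_inf).comp contDiff_fst)).prodMk
      ((hE.1.of_le one_le_inf).comp contDiff_fst)
  have Ψ0 : Ψ (x, l₀) = (v₀, 0) := by simp only [Ψ, e₀, hE.zero hx]
  have d1 : HasFDerivAt (fun q : E3 × ℝ => gradient w q.1)
      ((fderiv ℝ (gradient w) x).comp (ContinuousLinearMap.fst ℝ E3 ℝ)) (x, l₀) :=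
    HasFDerivAt.comp (x, l₀) (g := gradient w) (f := Prod.fst)
      (hgc.differentiable (by simp) x).hasFDerivAt hasFDerivAt_fst
  have d2 : HasFDerivAt (fun q : E3 × ℝ => w q.1)
      ((fderiv ℝ w x).comp (ContinuousLinearMap.fst ℝ E3 ℝ)) (x, l₀) :=
    HasFDerivAt.comp (x, l₀) (g := w) (f := Prod.fst) (hwd x).hasFDerivAt hasFDerivAt_fst
  obtain ⟨L, hL, hLa⟩ : ∃ L : E3 × ℝ →L[ℝ] E3 × ℝ, HasFDerivAt Ψ L (x, l₀) ∧ ∀ q, L q =
      (l₀ • fderiv ℝ (gradient w) x q.1 + q.2 • gradient w x, ⟪gradient w x, q.1⟫) :=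
    ⟨_, (hasFDerivAt_snd.smul d1).prodMk d2, fun q => by simp⟩
  have hi : Function.Injective L.toLinearMap := by
    refine (injective_iff_map_eq_zero _).2 fun q hq => ?_
    obtain ⟨q1, q2⟩ := Prod.mk_eq_zero.1 ((hLa q).symm.trans hq)
    obtain ⟨a, b, ht⟩ := exists_triple (hN.norm_nu hx)
    have o1 : ⟪n, q.1⟫ = 0 := by
      rw [grad_eq_smul_nuw hg, real_inner_smul_left] at q2
      exact (mul_eq_zero.1 q2).resolve_left gpos.ne'
    have o2 : ∀ z, ⟪n, z⟫ = 0 → ⟪sh N x q.1, z⟫ = 0 := fun z hz => by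
      have := congrArg (fun t => ⟪t, z⟫) q1
      simp only [inner_add_left, real_inner_smul_left, inner_grad_of_orth hg hz, mul_zero,
        add_zero, inner_zero_left] at this
      rw [sh, inner_shw, ← hw, ← hnw, pt_of_orth o1, pt_of_orth hz,
        (mul_eq_zero.1 this).resolve_left l0, mul_zero]
    have ex := ht.expand q.1
    rw [← hn, o1, zero_smul, add_zero] at ex
    have oa := o2 a (by rw [real_inner_comm]; exact ht.ac)
    have ob := o2 b (by rw [real_inner_comm]; exact ht.bc)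
    have sy : ⟪sh N x b, a⟫ = ⟪sh N x a, b⟫ := by rw [hN.sh_symm hx, real_inner_comm]
    rw [ex] at oa ob
    simp only [map_add, map_smul, inner_add_left, real_inner_smul_left, sy] at oa ob
    rw [gK_eq hN hx ht] at hK
    have z1 : ⟪a, q.1⟫ = 0 := mul_left_cancel₀ hK (by
      linear_combination ⟪sh N x b, b⟫ * oa - ⟪sh N x a, b⟫ * ob)
    have z2 : ⟪b, q.1⟫ = 0 := mul_left_cancel₀ hK (by
      linear_combination ⟪sh N x a, a⟫ * ob - ⟪sh N x a, b⟫ * oa)
    rw [z1, z2, zero_smul, zero_smul, add_zero] at ex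
    rw [ex, map_zero, smul_zero, zero_add, smul_eq_zero] at q1
    exact Prod.ext ex (q1.resolve_right hg)
  let E : (E3 × ℝ) ≃L[ℝ] E3 × ℝ :=
    (LinearEquiv.ofInjectiveEndo L.toLinearMap hi).toContinuousLinearEquiv
  have hE' : HasFDerivAt Ψ (E : E3 × ℝ →L[ℝ] E3 × ℝ) (x, l₀) := by
    convert hL using 1
    ext <;> rfl
  have hs := Ψc.contDiffAt.hasStrictFDerivAt' hE' one_ne_zero
  set g := hs.localInverse Ψ E (x, l₀) with hgd
  have g1 : ContDiffAt ℝ 1 g (v₀, 0) := Ψ0 ▸ Ψc.contDiffAt.to_localInverse hE' one_ne_zero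
  have g2 : ∀ᶠ q in 𝓝 (x, l₀), g (Ψ q) = q := hs.eventually_left_inverse
  have g3 : ∀ᶠ r in 𝓝 (v₀, (0 : ℝ)), Ψ (g r) = r := Ψ0 ▸ hs.eventually_right_inverse
  have g4 : g (v₀, 0) = (x, l₀) := Ψ0 ▸ g2.self_of_nhds
  let y : E3 → E3 := fun v => (g (v, 0)).1
  have y1 : ContDiffAt ℝ 1 y v₀ := (g1.comp v₀ (contDiffAt_id.prodMk contDiffAt_const)).fst
  have y0 : y v₀ = x := by simp only [y, g4]
  have yd := (y1.differentiableAt one_ne_zero).hasFDerivAt
  have y2 : ∀ u, ⟪gradient w x, fderiv ℝ y v₀ u⟫ = 0 := fun u => by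
    have h1 := (hwd (y v₀)).hasFDerivAt.comp v₀ yd
    have h2 : HasFDerivAt (w ∘ y) (0 : E3 →L[ℝ] ℝ) v₀ := by
      refine (hasFDerivAt_const (0 : ℝ) v₀).congr_of_eventuallyEq ?_
      filter_upwards [((continuous_id.prodMk continuous_const).tendsto' v₀ (v₀, (0 : ℝ))
        rfl).eventually g3] with v hv
      exact congrArg Prod.snd hv
    have h3 := congrArg (fun L : E3 →L[ℝ] ℝ => L u) (h1.unique h2)
    rw [inner_grad, ← y0]
    simpa using h3
  refine ⟨fun v => ⟪v, y v⟫, contDiffAt_id.inner ℝ y1, fun u => ?_, ?_⟩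
  · have y3 : ⟪v₀, fderiv ℝ y v₀ u⟫ = 0 := by
      have : ⟪l₀ • gradient w x, fderiv ℝ y v₀ u⟫ = 0 := by
        rw [real_inner_smul_left, y2, mul_zero]
      rwa [e₀] at this
    rw [fderiv_inner_apply ℝ differentiableAt_fun_id yd.differentiableAt, y3, y0]
    simp
  · have lc : ContinuousAt lam (x, v₀) := by
      have := hgc.continuous
      exact ContinuousAt.div (by fun_prop) (by fun_prop) (by positivity)
    filter_upwards [(continuousAt_fst.prodMk lc).eventually g2,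
      continuousAt_fst.eventually hE.eventually] with p h1 h2 h3 h4
    rw [h2.pt_eq h3] at h4
    have : Ψ (p.1, lam p) = (p.2, 0) := Prod.ext (hlam p.1 p.2 h2.2.1 h4) (h2.zero h3)
    simp only [this] at h1
    simp only [y, h1]

theorem null_level {ψ : E3 → ℝ} {v₀ : E3} (hψ : ContDiffAt ℝ 1 ψ v₀) (h0 : fderiv ℝ ψ v₀ ≠ 0) :
    ∃ V ∈ 𝓝 v₀, volume {v | v ∈ V ∧ ψ v = 0} = 0 := by
  have e1 : ∀ᶠ v in 𝓝 v₀, DifferentiableAt ℝ ψ v :=
    (hψ.eventually (by simp)).mono fun v hv => hv.differentiableAt one_ne_zero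
  have e2 : ∀ᶠ v in 𝓝 v₀, fderiv ℝ ψ v ≠ 0 :=
    (hψ.continuousAt_fderiv one_ne_zero).eventually_ne h0
  refine ⟨_, e1.and e2, ?_⟩
  have hu : ∀ v : E3, ∃ u, fderiv ℝ ψ v ≠ 0 → fderiv ℝ ψ v u = 1 := fun v => by
    by_cases h : fderiv ℝ ψ v = 0
    · exact ⟨0, fun g => absurd h g⟩
    · obtain ⟨u, hu⟩ := DFunLike.ne_iff.1 h
      exact ⟨(fderiv ℝ ψ v u)⁻¹ • u, fun _ => by
        rw [map_smul, smul_eq_mul, inv_mul_cancel₀ (by simpa using hu)]⟩
  choose u hu using hu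
  rw [← image_id {v | _ ∧ ψ v = 0}]
  refine addHaar_image_eq_zero_of_det_fderivWithin_eq_zero volume
    (f' := fun v => ContinuousLinearMap.id ℝ E3 - (fderiv ℝ ψ v).smulRight (u v))
    (fun v hv => ?_) fun v hv => ?_
  · refine ((hasFDerivAt_id v).sub
      (hv.1.1.hasFDerivAt.smul_const (u v))).hasFDerivWithinAt.congr (fun z hz => ?_) ?_
    · simp [hz.2]
    · simp [hv.2]
  · have h1 := hu v hv.1.2
    refine LinearMap.det_eq_zero_iff_ker_ne_bot.2 ((Submodule.ne_bot_iff _).2 ⟨u v, ?_, ?_⟩)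
    · simp [h1]
    · intro g
      simp [g] at h1

/-- for almost every direction the nondegenerate critical points have distinct heights -/
theorem ae_injOn {N : Set E3} (hN : IsSurf N) : ∀ᵐ v : E3, v ≠ 0 ∧
    InjOn (fun x => ⟪v, x⟫) {x | x ∈ critV N v ∧ gK N x ≠ 0} := by
  have h0 : ∀ᵐ v : E3, v ≠ 0 := by simp [ae_iff]
  set Z : Set ((E3 × E3) × E3) := {z | z.2 ≠ 0 ∧ z.1.1 ≠ z.1.2 ∧
    (z.1.1 ∈ critV N z.2 ∧ gK N z.1.1 ≠ 0) ∧ (z.1.2 ∈ critV N z.2 ∧ gK N z.1.2 ≠ 0) ∧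
    ⟪z.2, z.1.1⟫ = ⟪z.2, z.1.2⟫} with hZ
  have loc : ∀ z : (E3 × E3) × E3, ∃ W, z ∈ Z → W ∈ 𝓝[Z] z ∧ volume (Prod.snd '' W) = 0 := by
    intro z
    by_cases hz : z ∈ Z
    swap
    · exact ⟨∅, fun g => absurd g hz⟩
    obtain ⟨z1, z2, ⟨z3, z4⟩, ⟨z5, z6⟩, -⟩ := hz
    obtain ⟨c₁, c1, c2, c3⟩ := exists_critical_value hN z3.1 z1 z3.2 z4
    obtain ⟨c₂, c4, c5, c6⟩ := exists_critical_value hN z5.1 z1 z5.2 z6
    obtain ⟨V, hV, hV0⟩ := null_level (c1.sub c4) (fun g => z2 (by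
      rw [fderiv_fun_sub (c1.differentiableAt one_ne_zero) (c4.differentiableAt one_ne_zero)] at g
      have := congrArg (fun L : E3 →L[ℝ] ℝ => L (z.1.1 - z.1.2)) g
      simp only [sub_apply, c2, c5, zero_apply] at this
      rwa [← inner_sub_right, inner_self_eq_zero, sub_eq_zero] at this))
    have t1 : Tendsto (fun p : (E3 × E3) × E3 => (p.1.1, p.2)) (𝓝 z) (𝓝 (z.1.1, z.2)) :=
      (by fun_prop : Continuous fun p : (E3 × E3) × E3 => (p.1.1, p.2)).tendsto z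
    have t2 : Tendsto (fun p : (E3 × E3) × E3 => (p.1.2, p.2)) (𝓝 z) (𝓝 (z.1.2, z.2)) :=
      (by fun_prop : Continuous fun p : (E3 × E3) × E3 => (p.1.2, p.2)).tendsto z
    refine ⟨_, fun _ => ⟨inter_mem_nhdsWithin Z (((t1.eventually c3).and (t2.eventually c6)).and
      (continuousAt_snd.preimage_mem_nhds hV)), measure_mono_null ?_ hV0⟩⟩
    rintro _ ⟨p, ⟨⟨-, -, ⟨p3, -⟩, ⟨p5, -⟩, p7⟩, ⟨q1, q2⟩, q3⟩, rfl⟩
    exact ⟨q3, by rw [← q1 p3.1 p3.2, ← q2 p5.1 p5.2, p7, sub_self]⟩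
  choose W hW using loc
  obtain ⟨t, ht, htc, hcov⟩ :=
    TopologicalSpace.countable_cover_nhdsWithin (f := W) (s := Z) fun z hz => (hW z hz).1
  have hnull : volume (Prod.snd '' Z) = 0 := by
    refine measure_mono_null (image_mono hcov) ?_
    rw [image_iUnion₂]
    exact (measure_biUnion_null_iff htc).2 fun z hz => (hW z (ht hz)).2
  filter_upwards [h0, compl_mem_ae_iff.2 hnull] with v h1 h2
  refine ⟨h1, fun x hx y hy e => ?_⟩
  by_contra hne
  exact h2 ⟨((x, y), v), ⟨h1, hne, hx, hy, e⟩, rfl⟩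

/-- modification of the barrier outside the ball of radius `2 r` -/
theorem exists_barrier {v : E3} (hv : ‖v‖ ≤ 1) {β : E3 → ℝ} {p : E3} {r : ℝ} (hr : 0 < r)
    (hβ : Continuous β) (h0 : ∀ x, 0 ≤ β x) (h1 : ∀ x ∈ ball p r, β x = 0)
    (h2 : ∀ x, dist x p = 2 * r → 5 * r ≤ β x) :
    ∃ f : E3 → ℝ, Continuous f ∧ (∀ y, ⟪v, y⟫ ≤ f y) ∧ (∀ y ∈ ball p r, f y = ⟪v, y⟫) ∧
      (∀ y ∈ ball p (2 * r), f y = ⟪v, y⟫ + β y) ∧
      ∀ y, ∀ q ∈ ball p r, f y < ⟪v, q⟫ → y ∈ ball p (2 * r) := by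
  have key : ∀ y z : E3, ⟪v, y⟫ ≤ ⟪v, z⟫ + dist y z := fun y z => by
    have := (real_inner_le_norm v (y - z)).trans (mul_le_of_le_one_left (norm_nonneg _) hv)
    rw [inner_sub_right, ← dist_eq_norm] at this
    linarith
  have sph : ∀ y, dist y p = 2 * r → ⟪v, p⟫ + 3 * r ≤ ⟪v, y⟫ + β y := fun y hy => by
    have := key p y
    rw [dist_comm] at this
    linarith [h2 y hy]
  refine ⟨fun y => if dist y p ≤ 2 * r then ⟪v, y⟫ + β y else max (⟪v, y⟫ + β y) (⟪v, p⟫ + 3 * r),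
    Continuous.if_le (by fun_prop) (by fun_prop) (by fun_prop) continuous_const
      fun y hy => (max_eq_left (sph y hy)).symm, fun y => ?_, fun y hy => ?_, fun y hy => ?_,
    fun y q hq hy => ?_⟩
  · beta_reduce
    split_ifs
    · linarith [h0 y]
    · exact le_max_of_le_left (by linarith [h0 y])
  · have : dist y p ≤ 2 * r := by linarith [mem_ball.1 hy]
    simp only [if_pos this, h1 y hy, add_zero]
  · simp only [if_pos (mem_ball.1 hy).le]
  · have := key q p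
    beta_reduce at hy
    have hq := mem_ball.1 hq
    by_contra hc
    rcases (not_lt.1 (fun g => hc (mem_ball.2 g))).eq_or_lt with e | e
    · rw [if_pos e.ge] at hy
      linarith [sph y e.symm]
    · rw [if_neg (not_le.2 e)] at hy
      linarith [le_max_right (⟪v, y⟫ + β y) (⟪v, p⟫ + 3 * r)]

theorem exists_finset {N s : Set E3} (hs : s.Finite) (hN : s ⊆ N) :
    ∃ F : Finset N, (∀ y : N, y ∈ F ↔ (y : E3) ∈ s) ∧ (F.card : ℕ∞) = s.encard := by
  have h : (Subtype.val ⁻¹' s : Set N).Finite := hs.preimage Subtype.val_injective.injOn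
  refine ⟨h.toFinset, fun y => by simp, ?_⟩
  rw [← h.encard_eq_coe_toFinset_card,
    encard_preimage_of_injective_subset_range Subtype.val_injective (by simpa using hN)]

theorem mem_minV {N : Set E3} {v p : E3} {r : ℝ} {β f : E3 → ℝ}
    (hf : ∀ y ∈ ball p (2 * r), f y = ⟪v, y⟫ + β y) {x : N} (hx : (x : E3) ∈ ball p (2 * r))
    (hm : IsLocalMin (fun y : N => f y) x) : (x : E3) ∈ minV N β v (ball p (2 * r)) := by
  refine ⟨x.2, hx, ?_⟩
  have h1 : ∀ᶠ y : N in 𝓝 x, (y : E3) ∈ ball p (2 * r) :=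
    continuous_subtype_val.continuousAt.preimage_mem_nhds (isOpen_ball.mem_nhds hx)
  change ∀ᶠ y in 𝓝[N] (x : E3), ⟪v, (x : E3)⟫ + β x ≤ ⟪v, y⟫ + β y
  rw [← map_nhds_subtype_val, eventually_map]
  filter_upwards [h1, hm] with y g1 g2
  rwa [← hf _ hx, ← hf _ g1]

theorem count_proof : CountStmt := by
  classical
  intro N hN hc hcon
  filter_upwards [ae_injOn hN] with v ⟨hv0, hinj⟩ hv hfin hK β p r hr hβ h0 h1 h2
  by_cases hP : (minV N β v (ball p (2 * r))).Finite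
  swap
  · simp [Set.Infinite.encard_eq hP]
  by_cases hQ : (minV N β (-v) (ball p (2 * r))).Finite
  swap
  · simp [Set.Infinite.encard_eq hQ]
  have : CompactSpace N := isCompact_iff_compactSpace.1 hc
  have : PreconnectedSpace N := isPreconnected_iff_preconnectedSpace.1 hcon.2
  obtain ⟨f, f1, f2, f3, f4, f5⟩ := exists_barrier hv hr hβ h0 h1 h2
  obtain ⟨g, g1, g2, g3, g4, g5⟩ := exists_barrier (v := -v) (by simpa using hv) hr hβ h0 h1 h2
  obtain ⟨P, P1, P2⟩ := exists_finset hP fun x hx => hx.1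
  obtain ⟨Q, Q1, Q2⟩ := exists_finset hQ fun x hx => hx.1
  obtain ⟨S, S1, S2⟩ := exists_finset (N := N)
    (hfin.subset (sep_subset _ fun x => x ∈ ball p r ∧ gK N x < 0)) fun x hx => hx.1.1
  obtain ⟨Sd, Sd1, Sd2⟩ := exists_finset (N := N)
    (hfin.subset (sep_subset _ fun x => gK N x < 0)) fun x hx => hx.1.1
  obtain ⟨Ex, Ex1, Ex2⟩ := exists_finset (N := N)
    (hfin.subset (sep_subset _ fun x => 0 < gK N x)) fun x hx => hx.1.1
  set h : N → ℝ := fun y => ⟪v, (y : E3)⟫ with hh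
  have near : ∀ q ∈ S, ∀ᶠ y : N in 𝓝 q, (y : E3) ∈ ball p r := fun q hq =>
    continuous_subtype_val.continuousAt.preimage_mem_nhds (isOpen_ball.mem_nhds ((S1 q).1 hq).2.1)
  have key := top_count (h := h) (f := fun y => f y) (g := fun y => g y) (by fun_prop)
    (f1.comp continuous_subtype_val) (g1.comp continuous_subtype_val)
    (Ex.filter fun x => Model h x qMin) (Ex.filter fun x => ¬ Model h x qMin) Sd S P Q
    (fun x hx => (Finset.mem_filter.1 hx).2)
    (fun x hx => by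
      obtain ⟨a1, a2⟩ := Finset.mem_filter.1 hx
      obtain ⟨a3, a4⟩ := (Ex1 x).1 a1
      exact (((model_height hN x.2 hv0).2 a3.2).2 a4).resolve_left a2)
    (fun x hx => ((model_height hN x.2 hv0).2 ((Sd1 x).1 hx).1.2).1 ((Sd1 x).1 hx).2)
    (fun x a1 a2 a3 => (model_height hN x.2 hv0).1 fun a4 => by
      have a5 : (x : E3) ∈ critV N v := ⟨x.2, a4⟩
      rcases lt_or_gt_of_ne (hK x a5) with a6 | a6
      · exact a3 ((Sd1 x).2 ⟨a5, a6⟩)
      · by_cases a7 : Model h x qMin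
        · exact a1 (Finset.mem_filter.2 ⟨(Ex1 x).2 ⟨a5, a6⟩, a7⟩)
        · exact a2 (Finset.mem_filter.2 ⟨(Ex1 x).2 ⟨a5, a6⟩, a7⟩))
    (fun x hx y hy e => Subtype.ext (hinj ⟨((Sd1 x).1 hx).1, ((Sd1 x).1 hx).2.ne⟩
      ⟨((Sd1 y).1 hy).1, ((Sd1 y).1 hy).2.ne⟩ e))
    (fun x hx => (Sd1 x).2 ⟨((S1 x).1 hx).1, ((S1 x).1 hx).2.2⟩)
    (fun y => f2 y) (fun y => by simpa [hh] using g2 y)
    (fun q hq => (near q hq).mono fun y hy => f3 y hy)
    (fun q hq => (near q hq).mono fun y hy => by simpa [hh] using g3 y hy)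
    (fun x a1 ⟨q, a2, a3⟩ => (P1 x).2 (mem_minV f4 (f5 _ _ ((S1 q).1 a2).2.1 a3) a1))
    (fun x a1 ⟨q, a2, a3⟩ => (Q1 x).2
      (mem_minV g4 (g5 _ _ ((S1 q).1 a2).2.1 (by simpa [hh] using a3)) a1))
  have e := Finset.card_filter_add_card_filter_not (s := Ex) fun x => Model h x qMin
  rw [← P2, ← Q2, ← S2, ← Sd2, ← Ex2]
  have : S.card + Ex.card ≤ 2 + Sd.card + P.card + Q.card := by omega
  exact_mod_cast this

end Vale.Agent.P218F.Lgb
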