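import Vale.Agent.P218F.LgbSpec
import Vale.Agent.P218FT.EVMain
import Mathlib.Analysis.Calculus.MeanValue

/-! The total Gauss curvature is constant along a smooth flow of bounded surfaces. -/

open MeasureTheory Set Filter Topology Metric
open scoped ENNReal NNReal RealInnerProductSpace ContDiff

namespace Vale.Agent.P218F.Lgb

open Vale.Agent.P218FT Vale.Agent.P218FT.EV

namespace KC

/-- the trace as a continuous linear map -/
noncomputable def trL : (E3 →L[ℝ] E3) →L[ℝ] ℝ :=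
  LinearMap.toContinuousLinearMap
    { toFun := tr
      map_add' := tr_add
      map_smul' := tr_smul }

lemma trL_apply (L : E3 →L[ℝ] E3) : trL L = tr L := rfl

lemma tr_comm (L L' : E3 →L[ℝ] E3) : tr (L.comp L') = tr (L'.comp L) :=
  LinearMap.trace_comp_comm' (L' : E3 →ₗ[ℝ] E3) (L : E3 →ₗ[ℝ] E3)

lemma tr_smulRight (l : E3 →L[ℝ] ℝ) (x : E3) : tr (l.smulRight x) = l x :=
  LinearMap.trace_smulRight (l : E3 →ₗ[ℝ] ℝ) x

/-- restriction to spatial directions -/
noncomputable def res : (ℝ × E3 →L[ℝ] E3) →L[ℝ] (E3 →L[ℝ] E3) :=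
  (ContinuousLinearMap.compL ℝ E3 (ℝ × E3) E3).flip (ContinuousLinearMap.inr ℝ ℝ E3)

lemma res_apply (L : ℝ × E3 →L[ℝ] E3) (u : E3) : res L u = L (0, u) := rfl

lemma sdiv_res (W : ℝ × E3 → E3) (p : ℝ × E3) : sdiv W p = tr (res (fderiv ℝ W p)) := rfl

/-- Cayley-Hamilton for a map with values in a plane -/
lemma cayley {A : E3 →L[ℝ] E3} {n : E3} (hn : ‖n‖ = 1) (hA : ∀ u, ⟪n, A u⟫ = 0) :
    tr A * tr (A.comp A) - tr (A.comp (A.comp A)) = (tr A ^ 2 - tr (A.comp A)) / 2 * tr A := by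
  obtain ⟨a, b, h⟩ := exists_triple hn
  have e : ∀ u, A u = ⟪a, A u⟫ • a + ⟪b, A u⟫ • b := fun u => by
    conv_lhs => rw [h.expand (A u), hA, zero_smul, add_zero]
  have z : ∀ u, ⟪A u, n⟫ = 0 := fun u => by rw [real_inner_comm, hA]
  have e2 : ∀ u v, ⟪A (A u), v⟫ = ⟪A u, a⟫ * ⟪A a, v⟫ + ⟪A u, b⟫ * ⟪A b, v⟫ := fun u v => by
    conv_lhs => rw [e u]
    simp only [map_add, map_smul, inner_add_left, real_inner_smul_left, real_inner_comm a,
      real_inner_comm b]
  simp only [h.tr_eq, ContinuousLinearMap.comp_apply, z, e2, add_zero]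
  ring

variable {w : ℝ × E3 → ℝ} {p : ℝ × E3}

/-- the normal speed -/
noncomputable def sp (w : ℝ × E3 → ℝ) (q : ℝ × E3) : ℝ := -fderiv ℝ w q (1, 0) / ‖sg w q‖

/-- the spatial derivative of the normal -/
noncomputable def dn (w : ℝ × E3 → ℝ) (q : ℝ × E3) : E3 →L[ℝ] E3 := res (fderiv ℝ (nrm w) q)

/-- the Gauss curvature of the level sets -/
noncomputable def s2 (w : ℝ × E3 → ℝ) (q : ℝ × E3) : ℝ :=
  (tr (dn w q) ^ 2 - tr ((dn w q).comp (dn w q))) / 2

/-- the derivative of the normal along the normal motion -/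
noncomputable def yv (w : ℝ × E3 → ℝ) (q : ℝ × E3) : E3 :=
  fderiv ℝ (nrm w) q (1, sp w q • nrm w q)

/-- the flux of the Gauss curvature -/
noncomputable def zv (w : ℝ × E3 → ℝ) (q : ℝ × E3) : E3 :=
  tr (dn w q) • yv w q - dn w q (yv w q)

lemma tr_dn (hw : ContDiff ℝ ∞ w) (hg : sg w p ≠ 0) : tr (dn w p) = -mc w p := sdiv_nrm hw hg

lemma inner_dnrm (hw : ContDiff ℝ ∞ w) (hg : sg w p ≠ 0) (a : ℝ × E3) :
    ⟪nrm w p, fderiv ℝ (nrm w) p a⟫ = 0 := by
  rw [fderiv_nrm hw hg, inner_smul_right, inner_pt_nrm (norm_nrm hg), mul_zero]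

lemma inner_zv (hw : ContDiff ℝ ∞ w) (hg : sg w p ≠ 0) : ⟪nrm w p, zv w p⟫ = 0 := by
  rw [zv, inner_sub_right, inner_smul_right, yv, inner_dnrm hw hg, dn, res_apply, inner_dnrm hw hg]
  simp

lemma contDiffAt_sp (hw : ContDiff ℝ ∞ w) (hg : sg w p ≠ 0) : ContDiffAt ℝ ∞ (sp w) p :=
  (contDiff_fderiv_apply hw _).contDiffAt.neg.div (contDiffAt_nsg hw hg) (norm_ne_zero_iff.2 hg)

lemma contDiffAt_dnrm (hw : ContDiff ℝ ∞ w) (hg : sg w p ≠ 0) :
    ContDiffAt ℝ 1 (fderiv ℝ (nrm w)) p :=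
  (contDiffAt_nrm hw hg).fderiv_right (m := 1) two_le_inf

lemma contDiffAt_dn (hw : ContDiff ℝ ∞ w) (hg : sg w p ≠ 0) : ContDiffAt ℝ 1 (dn w) p :=
  res.contDiff.contDiffAt.comp p (contDiffAt_dnrm hw hg)

lemma contDiffAt_trdn (hw : ContDiff ℝ ∞ w) (hg : sg w p ≠ 0) :
    ContDiffAt ℝ 1 (fun q => tr (dn w q)) p :=
  trL.contDiff.contDiffAt.comp p (contDiffAt_dn hw hg)

lemma contDiffAt_s2 (hw : ContDiff ℝ ∞ w) (hg : sg w p ≠ 0) : ContDiffAt ℝ 1 (s2 w) p :=
  (((contDiffAt_trdn hw hg).pow 2).sub (trL.contDiff.contDiffAt.comp p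
    ((contDiffAt_dn hw hg).clm_comp (contDiffAt_dn hw hg)))).div_const 2

lemma contDiffAt_yv (hw : ContDiff ℝ ∞ w) (hg : sg w p ≠ 0) : ContDiffAt ℝ 1 (yv w) p :=
  (contDiffAt_dnrm hw hg).clm_apply (contDiffAt_const.prodMk
    (((contDiffAt_sp hw hg).smul (contDiffAt_nrm hw hg)).of_le one_le_inf))

lemma contDiffAt_zv (hw : ContDiff ℝ ∞ w) (hg : sg w p ≠ 0) : ContDiffAt ℝ 1 (zv w) p :=
  ((contDiffAt_trdn hw hg).smul (contDiffAt_yv hw hg)).sub
    ((contDiffAt_dn hw hg).clm_apply (contDiffAt_yv hw hg))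

lemma dn_symm (hw : ContDiff ℝ ∞ w) (hg : sg w p ≠ 0) {u v : E3} (hu : ⟪nrm w p, u⟫ = 0)
    (hv : ⟪nrm w p, v⟫ = 0) : ⟪dn w p u, v⟫ = ⟪u, dn w p v⟫ := by
  rw [dn, res_apply, res_apply, fderiv_nrm hw hg, fderiv_nrm hw hg, real_inner_smul_left,
    inner_smul_right, inner_pt_left, pt_of_orth hv, ← inner_pt_left, pt_of_orth hu,
    hess_symm' hw p u v, real_inner_comm]

lemma inner_yv (hw : ContDiff ℝ ∞ w) (hg : sg w p ≠ 0) {u : E3} (hu : ⟪nrm w p, u⟫ = 0) :
    ⟪yv w p, u⟫ = -fderiv ℝ (sp w) p (0, u) := by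
  have hn := norm_ne_zero_iff.2 hg
  have h1 := ((contDiffAt_nsg hw hg).differentiableAt (by simp)).hasFDerivAt
  have h2 := ((contDiff_fderiv_apply hw (1, 0)).differentiable (by simp) p).hasFDerivAt
  have h3 := h2.neg.mul ((hasFDerivAt_inv hn).comp p h1)
  have h4 : sp w = (-fun q => fderiv ℝ w q (1, 0)) * ((fun x : ℝ => x⁻¹) ∘ fun q => ‖sg w q‖) := by
    ext q; simp [sp, div_eq_mul_inv]
  have e2 : ∀ s : ℝ, ((1, s • nrm w p) : ℝ × E3) = (1, 0) + s • ((0, nrm w p) : ℝ × E3) :=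
    fun s => by simp
  rw [h4, h3.fderiv, yv, fderiv_nrm hw hg, real_inner_smul_left, inner_pt_left, pt_of_orth hu, e2,
    map_add, map_smul, inner_add_left, real_inner_smul_left, inner_fderiv_sg hw,
    real_inner_comm u, hess_symm' hw, d2_symm hw p (1, 0), sp]
  simp only [add_apply, smul_apply, neg_apply, smul_eq_mul, Function.comp_apply, Pi.neg_apply,
    ContinuousLinearMap.comp_apply, ContinuousLinearMap.toSpanSingleton_apply, fderiv_nsg hw hg,
    fderiv_fderiv_apply hw]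
  field_simp
  ring

/-- the divergence identity for the Gauss curvature -/
lemma div_zv (hw : ContDiff ℝ ∞ w) (hg : sg w p ≠ 0) :
    sdiv (zv w) p - ⟪fderiv ℝ (zv w) p (0, nrm w p), nrm w p⟫ =
      fderiv ℝ (s2 w) p (1, sp w p • nrm w p) - sp w p * mc w p * s2 w p := by
  have hN := ((contDiffAt_nrm hw hg).differentiableAt (by simp)).hasFDerivAt
  have hD := ((contDiffAt_dnrm hw hg).differentiableAt (by simp)).hasFDerivAt
  have hv := ((contDiffAt_sp hw hg).differentiableAt (by simp)).hasFDerivAt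
  have hy := ((contDiffAt_yv hw hg).differentiableAt (by simp))
  have hz := ((contDiffAt_zv hw hg).differentiableAt (by simp)).hasFDerivAt
  have hs : ∀ a b, fderiv ℝ (fderiv ℝ (nrm w)) p a b = fderiv ℝ (fderiv ℝ (nrm w)) p b a :=
    fun a b => ((contDiffAt_nrm hw hg).isSymmSndFDerivAt
      (by rw [minSmoothness_of_isRCLikeNormedField]; exact two_le_inf)).eq a b
  set D2 := fderiv ℝ (fderiv ℝ (nrm w)) p with hD2
  have hA : HasFDerivAt (dn w) (res.comp D2) p := res.hasFDerivAt.comp p hD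
  have htr : HasFDerivAt (fun q => tr (dn w q)) (trL.comp (res.comp D2)) p :=
    trL.hasFDerivAt.comp p hA
  have hAA : HasFDerivAt (fun q => tr ((dn w q).comp (dn w q))) _ p :=
    trL.hasFDerivAt.comp p (hA.clm_comp hA)
  have hs2 : HasFDerivAt (s2 w) _ p := (((htr.pow 2).sub hAA).mul_const (2⁻¹ : ℝ)).congr_of_eventuallyEq
    (Eventually.of_forall fun q => div_eq_mul_inv _ _)
  have hy' : HasFDerivAt (yv w) _ p :=
    hD.clm_apply ((hasFDerivAt_const (1 : ℝ) p).prodMk (hv.smul hN))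
  have hAy : HasFDerivAt (fun q => dn w q (yv w q)) _ p := hA.clm_apply hy.hasFDerivAt
  set A := dn w p with hAdef
  set G := res (D2 (1, sp w p • nrm w p)) with hG
  have hY : res (fderiv ℝ (yv w) p) = G + ((fderiv ℝ (sp w) p).comp
      (ContinuousLinearMap.inr ℝ ℝ E3)).smulRight (A (nrm w p)) + sp w p • A.comp A := by
    refine ContinuousLinearMap.ext fun u => ?_
    have e : ∀ (s t : ℝ) (a b : E3), ((0, s • a + t • b) : ℝ × E3) =
        s • ((0, a) : ℝ × E3) + t • ((0, b) : ℝ × E3) := fun s t a b => by simp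
    rw [res_apply, hy'.fderiv]
    simp only [add_apply, ContinuousLinearMap.comp_apply, ContinuousLinearMap.prod_apply,
      zero_apply, smul_apply, ContinuousLinearMap.smulRight_apply, ContinuousLinearMap.flip_apply,
      e, map_add, map_smul, hG, res_apply, hAdef, dn, ContinuousLinearMap.inr_apply]
    rw [hs (0, u)]
    abel
  have hW : res (fderiv ℝ (fun q => dn w q (yv w q)) p) =
      A.comp (res (fderiv ℝ (yv w) p)) + res (D2 (0, yv w p)) := by
    refine ContinuousLinearMap.ext fun u => ?_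
    rw [res_apply, hAy.fderiv]
    simp only [add_apply, ContinuousLinearMap.comp_apply, ContinuousLinearMap.flip_apply, res_apply]
    rw [hs (0, u)]
  have h1 : ⟪fderiv ℝ (zv w) p (0, nrm w p), nrm w p⟫ = -⟪zv w p, A (nrm w p)⟫ := by
    have h2 := hz.inner ℝ hN
    have h3 : HasFDerivAt (fun q => ⟪zv w q, nrm w q⟫) (0 : ℝ × E3 →L[ℝ] ℝ) p := by
      refine (hasFDerivAt_const (0 : ℝ) p).congr_of_eventuallyEq ?_
      filter_upwards [(contDiff_sg hw).continuous.continuousAt.eventually_ne hg] with q hq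
      rw [real_inner_comm, inner_zv hw hq]
    have h4 := congrArg (fun L : ℝ × E3 →L[ℝ] ℝ => L (0, nrm w p)) (h2.unique h3)
    simp only [ContinuousLinearMap.comp_apply, ContinuousLinearMap.prod_apply,
      fderivInnerCLM_apply, zero_apply] at h4
    rw [hAdef, dn, res_apply]
    linarith
  have hAn : ∀ u, ⟪nrm w p, A u⟫ = 0 := fun u => inner_dnrm hw hg _
  have hyn : ⟪nrm w p, yv w p⟫ = 0 := inner_dnrm hw hg _
  have c1 := cayley (norm_nrm hg) hAn
  have c2 := inner_yv hw hg (hAn (nrm w p))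
  have c3 := inner_yv hw hg (hAn (A (nrm w p)))
  have c4 := dn_symm hw hg hyn (hAn (nrm w p))
  have e : zv w = fun q => (fun q => tr (dn w q) • yv w q) q - (fun q => dn w q (yv w q)) q := rfl
  have c5 : sdiv (zv w) p = tr A * tr (res (fderiv ℝ (yv w) p)) -
      tr (A.comp (res (fderiv ℝ (yv w) p))) := by
    rw [e, sdiv_sub (htr.differentiableAt.fun_smul hy) hAy.differentiableAt,
      sdiv_smul htr.differentiableAt hy, htr.fderiv, sdiv_res, sdiv_res, hW, tr_add]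
    simp only [ContinuousLinearMap.comp_apply, trL_apply]
    ring
  have c6 : A.comp (((fderiv ℝ (sp w) p).comp (ContinuousLinearMap.inr ℝ ℝ E3)).smulRight
      (A (nrm w p))) = ((fderiv ℝ (sp w) p).comp (ContinuousLinearMap.inr ℝ ℝ E3)).smulRight
      (A (A (nrm w p))) := by
    refine ContinuousLinearMap.ext fun u => ?_
    simp
  rw [c5, h1, hY, hs2.fderiv, ← neg_neg (mc w p), ← tr_dn hw hg, s2, zv, inner_sub_left,
    real_inner_smul_left, c4, c2, c3]
  simp only [ContinuousLinearMap.comp_add, ContinuousLinearMap.comp_smul, tr_add, tr_smul, c6,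
    tr_smulRight, ContinuousLinearMap.comp_apply, ContinuousLinearMap.inr_apply, ← hAdef,
    sub_apply, smul_apply, add_apply, trL_apply, ContinuousLinearMap.compL_apply,
    ContinuousLinearMap.flip_apply, ← hG, smul_eq_mul, tr_comm G A]
  norm_num
  linear_combination sp w p * c1

lemma gK_eq {M : ℝ → Set E3} (c : Chart M) (hp : p ∈ c.U) (hx : p.2 ∈ M p.1) :
    gK (M p.1) p.2 = s2 c.w p := by
  have hg := c.sg_ne hp
  have h1 : shw (fun y => c.w (p.1, y)) p.2 = -(dn c.w p).comp (pt (nrm c.w p)) := by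
    refine ContinuousLinearMap.ext fun u => ?_
    rw [shw, fderiv_grad_slice c.smooth, nrm_eq]
    simp only [smul_apply, ContinuousLinearMap.comp_apply, neg_apply, dn, res_apply,
      fderiv_nrm c.smooth hg, ContinuousLinearMap.inr_apply, neg_smul]
    rfl
  have h2 : (pt (nrm c.w p)).comp (dn c.w p) = dn c.w p :=
    ContinuousLinearMap.ext fun u => pt_of_orth (inner_dnrm c.smooth hg _)
  rw [gK, c.Hv_eq hp hx, (c.isEqn hp).a2_eq hx, h1, norm_smul, norm_nrm hg, mul_one,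
    Real.norm_eq_abs, sq_abs, s2, tr_dn c.smooth hg, neg_sq, ContinuousLinearMap.neg_comp,
    ContinuousLinearMap.comp_neg, neg_neg, ContinuousLinearMap.comp_assoc,
    ← ContinuousLinearMap.comp_assoc (pt _), h2, ← ContinuousLinearMap.comp_assoc, tr_comm,
    ← ContinuousLinearMap.comp_assoc, h2]

/-- a space-time equation -/
def Eqn (M : ℝ → Set E3) (p : ℝ × E3) (w : ℝ × E3 → ℝ) : Prop :=
  ContDiff ℝ ∞ w ∧ sg w p ≠ 0 ∧ ∀ᶠ q : ℝ × E3 in 𝓝 p, q.2 ∈ M q.1 ↔ w q = 0

lemma Eqn.isEqn {M : ℝ → Set E3} (h : Eqn M p w) : IsEqn (M p.1) p.2 fun y => w (p.1, y) :=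
  ⟨h.1.comp (contDiff_const.prodMk contDiff_id), h.2.1,
    ((Continuous.prodMk_right p.1).tendsto p.2).eventually h.2.2⟩

lemma Eqn.eventually {M : ℝ → Set E3} (h : Eqn M p w) : ∀ᶠ q in 𝓝 p, Eqn M q w := by
  filter_upwards [(contDiff_sg h.1).continuous.continuousAt.eventually_ne h.2.1,
    h.2.2.eventually_nhds] with q h1 h2 using ⟨h.1, h1, h2⟩

/-- the tangential derivative of the normal does not depend on the equation, up to the sign -/
lemma nrm_indep {M : ℝ → Set E3} (c : Chart M) (hp : p ∈ c.U) (hx : p.2 ∈ M p.1)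
    (h : Eqn M p w) : ∃ ε : ℝ, (ε = 1 ∨ ε = -1) ∧ nrm w p = ε • nrm c.w p ∧
      ∀ a, fderiv ℝ c.w p a = 0 → fderiv ℝ (nrm w) p a = ε • fderiv ℝ (nrm c.w) p a := by
  obtain ⟨ε, hε, h1, -⟩ := (c.isEqn hp).sign h.isEqn hx
  rw [nrm_eq, nrm_eq] at h1
  refine ⟨ε, hε, h1, fun a ha => ?_⟩
  have h0 := (c.zero p hp).1 hx
  have hq := c.proj p hp
  have hF := c.F_prj hp h0
  have hd := c.hasFDerivAt_F hq
  have hT : Tendsto c.F (𝓝 (prj c.b p)) (𝓝 p) := by
    have := hd.continuousAt.tendsto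
    rwa [hF] at this
  have n1 := contDiffAt_nrm h.1 h.2.1
  have n2 := contDiffAt_nrm c.smooth (c.sg_ne hp)
  have hc : ContinuousAt (fun q => ‖nrm w q - ε • nrm c.w q‖) p :=
    (n1.continuousAt.sub (n2.continuousAt.const_smul ε)).norm
  have hlt : ∀ᶠ q in 𝓝 p, ‖nrm w q - ε • nrm c.w q‖ < 1 :=
    hc.eventually (gt_mem_nhds (by simp [h1]))
  have hE : nrm w ∘ c.F =ᶠ[𝓝 (prj c.b p)] fun y => ε • (nrm c.w ∘ c.F) y := by
    filter_upwards [c.openO.mem_nhds hq, hT.eventually h.eventually, hT.eventually hlt]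
      with y hy h2 h3
    have hU := c.F_mem hy
    obtain ⟨ε', hε', h4, -⟩ := (c.isEqn hU).sign h2.isEqn ((c.zero _ hU).2 (c.w_F hy))
    rw [nrm_eq, nrm_eq] at h4
    rw [h4, ← sub_smul, norm_smul, norm_nrm (c.sg_ne hU), mul_one] at h3
    have : ε' = ε := by
      rcases hε with h5 | h5 <;> rcases hε' with h6 | h6 <;> rw [h5, h6] at h3 ⊢ <;>
        norm_num at h3
    rw [Function.comp_apply, h4, this]
    rfl
  have d1 : HasFDerivAt (nrm w) (fderiv ℝ (nrm w) p) (c.F (prj c.b p)) := by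
    rw [hF]; exact (n1.differentiableAt (by simp)).hasFDerivAt
  have d2 : HasFDerivAt (nrm c.w) (fderiv ℝ (nrm c.w) p) (c.F (prj c.b p)) := by
    rw [hF]; exact (n2.differentiableAt (by simp)).hasFDerivAt
  have h5 := (d1.comp _ hd).unique (((d2.comp _ hd).const_smul ε).congr_of_eventuallyEq hE)
  have h6 := congrArg (fun L : ℝ × P2 →L[ℝ] E3 => L (prj c.b a)) h5
  have h7 := c.decomp hp a
  rw [ha, mul_zero, zero_smul, add_zero] at h7
  simp only [ContinuousLinearMap.comp_apply, smul_apply, hF, ← h7] at h6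
  exact h6

lemma zv_indep {M : ℝ → Set E3} (c : Chart M) (hp : p ∈ c.U) (hx : p.2 ∈ M p.1)
    (h : Eqn M p w) : zv w p = zv c.w p := by
  obtain ⟨ε, hε, h1, h2⟩ := nrm_indep c hp hx h
  have hg := c.sg_ne hp
  have hd : DifferentiableAt ℝ w p := h.1.differentiable (by simp) p
  have e : ∀ v : E3, ((1, v) : ℝ × E3) = (1, 0) + (0, v) := fun v => by simp
  have t0 : ∀ {w' : ℝ × E3 → ℝ}, ContDiff ℝ ∞ w' → sg w' p ≠ 0 →
      fderiv ℝ w' p (1, sp w' p • nrm w' p) = 0 := fun {w'} h1 h2 => by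
    have h8 : ⟪sg w' p, nrm w' p⟫ = ‖sg w' p‖ := inner_grad_nuw h2
    rw [e, map_add, ← inner_sg (h1.differentiable (by simp) p), inner_smul_right, h8, sp,
      div_mul_cancel₀ _ (norm_ne_zero_iff.2 h2), add_neg_cancel]
  have t1 : ∀ u, ⟪nrm c.w p, u⟫ = 0 → fderiv ℝ c.w p (0, u) = 0 := fun u hu => by
    rw [← inner_sg (c.diffw p), sg_eq_nrm hg, real_inner_smul_left, hu, mul_zero]
  have t2 := c.tangent_of_eqn hp ((c.zero p hp).1 hx) hd h.2.1 h.2.2 (t0 h.1 h.2.1)
  have t3 : sp w p • nrm w p = sp c.w p • nrm c.w p := by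
    have h8 : ⟪sg c.w p, nrm c.w p⟫ = ‖sg c.w p‖ := inner_grad_nuw hg
    have t4 := t0 c.smooth hg
    rw [e, map_add, ← inner_sg (c.diffw p)] at t2 t4
    rw [h1, smul_smul] at t2 ⊢
    rw [inner_smul_right, h8] at t2 t4
    congr 1
    exact mul_right_cancel₀ (norm_ne_zero_iff.2 hg) (by linarith)
  have y1 : yv w p = ε • yv c.w p := by
    rw [yv, h2 _ t2, t3, yv]
  have a1 : ∀ u, ⟪nrm c.w p, u⟫ = 0 → dn w p u = ε • dn c.w p u := fun u hu => h2 _ (t1 u hu)
  have r1 : tr (dn w p) = ε * tr (dn c.w p) := by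
    obtain ⟨a, b, hab⟩ := exists_triple (norm_nrm hg)
    have z1 : ⟪dn c.w p (nrm c.w p), nrm c.w p⟫ = 0 := by
      rw [real_inner_comm]; exact inner_dnrm c.smooth hg _
    have z2 : ⟪dn w p (nrm c.w p), nrm c.w p⟫ = 0 := by
      have := inner_dnrm h.1 h.2.1 (0, nrm c.w p)
      rw [h1, real_inner_smul_left] at this
      rw [real_inner_comm]
      rcases hε with h5 | h5 <;> simpa [h5, dn, res_apply] using this
    rw [hab.tr_eq, hab.tr_eq, z1, z2, a1 a (by rw [real_inner_comm]; exact hab.ac),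
      a1 b (by rw [real_inner_comm]; exact hab.bc), real_inner_smul_left, real_inner_smul_left]
    ring
  rw [zv, zv, r1, y1, map_smul, a1 (yv c.w p) (inner_dnrm c.smooth hg _), smul_smul, smul_smul,
    sign_mul_self hε, one_smul, mul_right_comm, sign_mul_self hε, one_mul]

open Classical in
/-- the flux, on the track -/
noncomputable def flux (M : ℝ → Set E3) (p : ℝ × E3) : E3 :=
  if h : ∃ w, Eqn M p w then zv h.choose p else 0

lemma flux_eq {M : ℝ → Set E3} (c : Chart M) (hp : p ∈ c.U) (hx : p.2 ∈ M p.1) :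
    flux M p = zv c.w p := by
  have h : ∃ w, Eqn M p w :=
    ⟨c.w, c.smooth, c.sg_ne hp, mem_of_superset (c.openU.mem_nhds hp) c.zero⟩
  rw [flux, dif_pos h]
  exact zv_indep c hp hx h.choose_spec

/-- the space-time flux -/
noncomputable def fl (M : ℝ → Set E3) (t : ℝ) (x : E3) : ℝ × E3 :=
  (gK (M t) x, gK (M t) x • Hv (M t) x - flux M (t, x))

/-- the localised evolution equation of the total curvature -/
def PK (M : ℝ → Set E3) (I : Set ℝ) (f : ℝ × E3 → ℝ) : Prop :=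
  ∀ t ∈ I, Integrable (fun x => f (t, x) * gK (M t) x) (area (M t)) ∧
    Integrable (fun x => fderiv ℝ f (t, x) (fl M t x)) (area (M t)) ∧
    HasDerivAt (fun s => ∫ x, f (s, x) * gK (M s) x ∂area (M s))
      (∫ x, fderiv ℝ f (t, x) (fl M t x) ∂area (M t)) t

variable {M : ℝ → Set E3} {I : Set ℝ}

lemma pk_chart (h : IsMCF M I) (c : Chart M) {K : Set (ℝ × E3)} (hKc : IsCompact K)
    (hK : K ⊆ c.U) {f : ℝ × E3 → ℝ} (hf : ContDiff ℝ 1 f) (h0 : ∀ p ∉ K, f p = 0) :
    PK M I f := by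
  intro t ht
  have hF := isFam_of_mcf h
  have hD : Continuous (fderiv ℝ f) := hf.continuous_fderiv (by simp)
  have cs : ContinuousOn (s2 c.w) c.U := fun p hp =>
    (contDiffAt_s2 c.smooth (c.sg_ne hp)).continuousAt.continuousWithinAt
  have cz : ContinuousOn (zv c.w) c.U := fun p hp =>
    (contDiffAt_zv c.smooth (c.sg_ne hp)).continuousAt.continuousWithinAt
  let g : ℝ × E3 → ℝ := fun p => f p * s2 c.w p
  let X : ℝ × E3 → E3 := fun p => f p • zv c.w p
  let φ : ℝ × E3 → ℝ := fun p =>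
    fderiv ℝ f p (s2 c.w p, s2 c.w p • mc c.w p • nrm c.w p - zv c.w p)
  have g0 : ∀ p ∉ K, g p = 0 := fun p hp => by simp [g, h0 p hp]
  have z : ∀ p ∉ K, φ p = 0 := fun p hp => by simp [φ, Chart.fderiv_zero hKc h0 hp]
  have cφ : ContinuousOn φ c.U := hD.continuousOn.clm_apply (cs.prodMk
    ((cs.smul (c.continuousOn_mc.smul c.continuousOn_nrm)).sub cz))
  have a₁ : ∀ s ∈ I, (fun x => g (s, x)) =ᵐ[area (M s)] fun x => f (s, x) * gK (M s) x := by
    intro s hs
    filter_upwards [hF.ae_mem hs] with x hx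
    by_cases hp : (s, x) ∈ K
    · rw [gK_eq c (hK hp) hx]
    · rw [g0 _ hp, h0 _ hp, zero_mul]
  have a₂ : (fun x => φ (t, x)) =ᵐ[area (M t)] fun x => fderiv ℝ f (t, x) (fl M t x) := by
    filter_upwards [hF.ae_mem ht] with x hx
    by_cases hp : (t, x) ∈ K
    · rw [fl, gK_eq c (hK hp) hx, c.Hv_eq (hK hp) hx, flux_eq c (hK hp) hx]
    · rw [z _ hp, Chart.fderiv_zero hKc h0 hp]
      simp
  refine ⟨(c.integrable_cont hKc hK g0 (hf.continuous.continuousOn.mul
    (cs.mono fun p hp => hp.1)) t).congr (a₁ t ht),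
    (c.integrable_cont hKc hK z (cφ.mono fun p hp => hp.1) t).congr a₂, ?_⟩
  have dg : ∀ p ∈ c.U, ContDiffAt ℝ 1 g p := fun p hp =>
    hf.contDiffAt.mul (contDiffAt_s2 c.smooth (c.sg_ne hp))
  have dX : ∀ p ∈ c.U, ContDiffAt ℝ 1 X p := fun p hp =>
    hf.contDiffAt.smul (contDiffAt_zv c.smooth (c.sg_ne hp))
  have d1 : ∀ p ∈ c.U, ContDiffAt ℝ 1 (evW c.w g) p := fun p hp =>
    ((dg p hp).mul ((contDiff_fderiv_apply c.smooth _).contDiffAt.of_le (by simp))).neg.smul
      ((contDiffAt_nrm c.smooth (c.sg_ne hp)).of_le (by simp))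
  have d2 : ∀ p ∈ c.U, ContDiffAt ℝ 1 (fvW c.w X) p := fun p hp =>
    (((contDiffAt_nsg c.smooth (c.sg_ne hp)).of_le (by simp)).smul (dX p hp)).sub
      (((dX p hp).inner ℝ ((contDiff_sg c.smooth).contDiffAt.of_le (by simp))).smul
        ((contDiffAt_nrm c.smooth (c.sg_ne hp)).of_le (by simp)))
  have W0 : ∀ p ∉ K, evW c.w g p - fvW c.w X p = 0 := fun p hp => by
    simp [evW, fvW, g, X, h0 p hp]
  have k0 : ∀ p ∉ K, g p * ‖sg c.w p‖ = 0 := fun p hp => by simp [g0 p hp]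
  have hh : ContDiffOn ℝ 1 (fun p => g p * ‖sg c.w p‖) c.U := fun p hp =>
    ((dg p hp).mul ((contDiffAt_nsg c.smooth (c.sg_ne hp)).of_le (by simp))).contDiffWithinAt
  have k := c.key hKc hK hh (W := fun p => evW c.w g p - fvW c.w X p)
    (fun p hp => ((d1 p hp).sub (d2 p hp)).contDiffWithinAt) k0 W0 (fun q hq => by
      have e : ((g q * ‖sg c.w q‖, evW c.w g q - fvW c.w X q) : ℝ × E3) =
          (g q * ‖sg c.w q‖, evW c.w g q) - (0, fvW c.w X q) := by simp
      rw [e, map_sub, ev_tang c.smooth (c.sg_ne hq), fv_tang c.smooth (c.sg_ne hq), sub_zero]) t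
  have e : ∀ p, g p * ‖sg c.w p‖ / ‖sg c.w p‖ = g p := fun p => by
    by_cases hp : p ∈ K
    · exact mul_div_cancel_right₀ _ (norm_ne_zero_iff.2 (c.sg_ne (hK hp)))
    · simp [g0 p hp]
  simp only [e] at k
  have k' : HasDerivAt (fun s => ∫ x, g (s, x) ∂area (M s))
      (∫ x, fderiv ℝ f (t, x) (fl M t x) ∂area (M t)) t := by
    convert k using 1
    rw [← integral_congr_ae a₂]
    refine integral_congr_ae ?_
    filter_upwards [hF.ae_mem ht] with x hx
    by_cases hp : (t, x) ∈ K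
    · have hU := hK hp
      have hg := c.sg_ne hU
      have f1 := hf.differentiable (by simp) (t, x)
      have f2 := (contDiffAt_s2 c.smooth hg).differentiableAt (by simp)
      have f3 := (contDiffAt_zv c.smooth hg).differentiableAt (by simp)
      have f4 : HasFDerivAt g _ (t, x) := f1.hasFDerivAt.mul f2.hasFDerivAt
      have f5 : HasFDerivAt X _ (t, x) := f1.hasFDerivAt.smul f3.hasFDerivAt
      have f6 := div_zv c.smooth hg
      have f7 : ⟪zv c.w (t, x), nrm c.w (t, x)⟫ = 0 := by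
        rw [real_inner_comm, inner_zv c.smooth hg]
      have e3 : ∀ (s : ℝ) (a b : E3), ((s, s • a - b) : ℝ × E3) =
          s • ((1, a) : ℝ × E3) - (0, b) := fun s a b => by simp
      rw [sp, c.speed h hU ht hx] at f6
      rw [sdiv_sub ((d1 _ hU).differentiableAt (by simp)) ((d2 _ hU).differentiableAt (by simp)),
        ← add_sub_assoc, sub_div, ev_div c.smooth hg f4.differentiableAt,
        fv_div c.smooth hg f5.differentiableAt, c.speed h hU ht hx, sdiv_smul f1 f3, f4.fderiv,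
        f5.fderiv]
      simp only [φ, g, X, e3, map_sub, map_smul, add_apply, smul_apply, smul_eq_mul,
        ContinuousLinearMap.smulRight_apply, inner_add_left, real_inner_smul_left,
        inner_smul_right, f7]
      linear_combination f (t, x) * f6
    · rw [z _ hp, Chart.fderiv_zero hKc k0 hp]
      simp [EV.sdiv, Chart.fderiv_zero hKc W0 hp, tr]
  refine k'.congr_of_eventuallyEq ?_
  filter_upwards [h.isOpen.mem_nhds ht] with s hs
  exact (integral_congr_ae (a₁ s hs)).symm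

lemma pk_of_ae (h : IsFam M I) {f : ℝ × E3 → ℝ}
    (h1 : ∀ t ∈ I, ∀ x ∈ M t, f (t, x) = 0 ∧ fderiv ℝ f (t, x) = 0) : PK M I f := by
  intro t ht
  have a : ∀ t ∈ I, (fun _ => (0 : ℝ)) =ᵐ[area (M t)] fun x => f (t, x) * gK (M t) x :=
    fun t ht => by
      filter_upwards [h.ae_mem ht] with x hx
      rw [(h1 t ht x hx).1, zero_mul]
  have a₂ : (fun _ => (0 : ℝ)) =ᵐ[area (M t)] fun x => fderiv ℝ f (t, x) (fl M t x) := by
    filter_upwards [h.ae_mem ht] with x hx
    simp [(h1 t ht x hx).2]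
  refine ⟨(integrable_zero _ _ _).congr (a t ht), (integrable_zero _ _ _).congr a₂, ?_⟩
  rw [← integral_congr_ae a₂, integral_zero]
  refine (hasDerivAt_const t (0 : ℝ)).congr_of_eventuallyEq ?_
  filter_upwards [h.isOpen.mem_nhds ht] with s hs
  rw [← integral_congr_ae (a s hs), integral_zero]

lemma pk_loc (h : IsMCF M I) {K : Set (ℝ × E3)} (hKc : IsCompact K) (hK : ∀ p ∈ K, p.1 ∈ I) :
    ∃ ψ : ℝ × E3 → ℝ, ContDiff ℝ ∞ ψ ∧ (∀ p ∈ K, ψ p = 1) ∧
      ∀ f, ContDiff ℝ 1 f → PK M I fun p => ψ p • f p := by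
  have hF := isFam_of_mcf h
  refine localise (fun f => ContDiff ℝ 1 f) (PK M I)
    (fun χ f hχ hf => (hχ.of_le (by simp)).smul hf)
    (pk_of_ae hF fun t _ x _ => ⟨rfl, by simp⟩) ?_ hKc fun p hp => ?_
  · intro f g hf hg h1 h2 t ht
    obtain ⟨a1, a2, a3⟩ := h1 t ht
    obtain ⟨b1, b2, b3⟩ := h2 t ht
    rw [PK] at h1 h2
    simp only [add_mul, fderiv_fun_add (hf.differentiable (by simp) _)
      (hg.differentiable (by simp) _), add_apply]
    refine ⟨a1.add b1, a2.add b2, ?_⟩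
    rw [integral_add a2 b2]
    refine (a3.add b3).congr_of_eventuallyEq ?_
    filter_upwards [h.isOpen.mem_nhds ht] with s hs
    exact integral_add (h1 s hs).1 (h2 s hs).1
  · rcases hF.cases (hK p hp) with ⟨c, hc, -⟩ | hU
    · exact ⟨c.U, c.openU.mem_nhds hc, fun f hf K' h1 h2 h3 => pk_chart h c h1 h2 hf h3⟩
    · refine ⟨_, hU, fun f _ K' h1 h2 h3 => pk_of_ae hF fun t _ x hx => ?_⟩
      have : (t, x) ∉ K' := fun h' => h2 h' hx
      exact ⟨h3 _ this, Chart.fderiv_zero h1 h3 this⟩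

lemma hasDerivAt_total (h : IsMCF M I) {R : ℝ} (hR : ∀ t ∈ I, M t ⊆ closedBall 0 R) {t : ℝ}
    (ht : t ∈ I) : HasDerivAt (fun s => ∫ x, gK (M s) x ∂area (M s)) 0 t := by
  have hF := isFam_of_mcf h
  obtain ⟨δ, hδ, hI⟩ := nhds_basis_closedBall.mem_iff.1 (h.isOpen.mem_nhds ht)
  obtain ⟨ψ, -, h1, h2⟩ := pk_loc h
    ((isCompact_closedBall t δ).prod (isCompact_closedBall (0 : E3) (R + 1))) fun p hp => hI hp.1
  obtain ⟨-, -, h5⟩ := h2 (fun _ => 1) contDiff_const t ht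
  simp only [smul_eq_mul, mul_one] at h5
  have e : ∫ x, fderiv ℝ ψ (t, x) (fl M t x) ∂area (M t) = 0 := by
    refine integral_eq_zero_of_ae ?_
    filter_upwards [hF.ae_mem ht] with x hx
    have : ψ =ᶠ[𝓝 (t, x)] fun _ => 1 := by
      filter_upwards [prod_mem_nhds (closedBall_mem_nhds t hδ) (closedBall_mem_nhds_of_mem
        (closedBall_subset_ball (lt_add_one R) (hR t ht hx)))] with p hp using h1 p hp
    rw [this.fderiv_eq]
    simp
  rw [e] at h5
  refine h5.congr_of_eventuallyEq ?_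
  filter_upwards [closedBall_mem_nhds t hδ] with s hs
  refine integral_congr_ae ?_
  filter_upwards [hF.ae_mem (hI hs)] with x hx
  rw [h1 (s, x) ⟨hs, closedBall_subset_closedBall (by linarith) (hR s (hI hs) hx)⟩, one_mul]

end KC

/-- **The total Gauss curvature is constant.** -/
theorem kconst_proof : KConstStmt := fun _ _ _ _ h hR _ hs _ ht =>
  isOpen_Ioo.is_const_of_deriv_eq_zero isPreconnected_Ioo
    (fun _ hu => (KC.hasDerivAt_total h hR hu).differentiableAt.differentiableWithinAt)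
    (fun _ hu => (KC.hasDerivAt_total h hR hu).deriv) hs ht

end Vale.Agent.P218F.Lgb
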