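import Vale.Agent.P218F.LgbMain
import Vale.Agent.P218F.LgbCount
import Vale.Agent.P218F.LgbK
import Vale.Agent.P218FS.Final2

/-! The local Gauss-Bonnet estimate along flows of closed connected surfaces. -/

namespace Vale.Agent.P218F.Lgb

universe u

theorem lgbFlow_proof : P218FS.LGBFlowStmt := lgbFlow_of count_proof kconst_proof P218FS.ratio

theorem final_of_core (hC : P218FS.CoreStmt) : P218FS.FinalStmt.{u} :=
  P218FS.final_of_core lgbFlow_proof hC

end Vale.Agent.P218F.Lgb
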