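import Vale.Agent.P218F.MeshA
import Mathlib.MeasureTheory.Integral.MeanInequalities
import Mathlib.MeasureTheory.Integral.IntervalIntegral.FundThmCalculus
import Mathlib.MeasureTheory.Covering.BesicovitchVectorSpace
import Mathlib.Analysis.Calculus.FDeriv.Measurable

/-! The mesh Poincaré inequality. -/

open MeasureTheory Set Filter Topology Metric
open scoped ENNReal NNReal RealInnerProductSpace ContDiff

namespace Vale.Agent.P218F.Mesh

open Vale.Agent.P218FT
open Vale.Agent.P218FT.Chart (E2 Frame gr jac IsChart)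

/-- Cauchy-Schwarz against the constant one -/
lemma lint_sq_le {α : Type*} [MeasurableSpace α] (μ : Measure α) {g : α → ℝ≥0∞}
    (hg : AEMeasurable g μ) : (∫⁻ a, g a ∂μ) ^ 2 ≤ μ univ * ∫⁻ a, g a ^ 2 ∂μ := by
  have h := ENNReal.lintegral_mul_le_Lp_mul_Lq μ Real.HolderConjugate.two_two hg
    (g := fun _ => 1) aemeasurable_const
  simp only [Pi.mul_apply, mul_one, lintegral_const, ENNReal.rpow_two] at h
  refine (pow_le_pow_left' h 2).trans_eq ?_
  rw [mul_pow, ← ENNReal.rpow_two, ← ENNReal.rpow_two, ← ENNReal.rpow_mul, ← ENNReal.rpow_mul,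
    mul_comm]
  norm_num

variable {F φ : E2 → ℝ} {c : E2} {s : ℝ}

/-- the increment along a segment -/
lemma seg (hF : ∀ v ∈ ball c s, ContDiffAt ℝ 1 F v) {u q : E2} (hu : u ∈ ball c s)
    (hq : q ∈ ball c s) : ‖F u - F q‖ₑ ^ 2 ≤ ENNReal.ofReal ((2 * s) ^ 2) *
      ∫⁻ t in Ioc (0 : ℝ) 1, (ball c s).indicator (fun v => ‖fderiv ℝ F v‖ₑ ^ 2)
        (u + t • (q - u)) := by
  have hm : ∀ t ∈ uIcc (0 : ℝ) 1, u + t • (q - u) ∈ ball c s := fun t ht => by
    rw [uIcc_of_le zero_le_one] at ht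
    exact (convex_ball c s).add_smul_sub_mem hu hq ht
  have hl : ∀ t : ℝ, HasDerivAt (fun t : ℝ => u + t • (q - u)) (q - u) t := fun t => by
    simpa using ((hasDerivAt_id t).smul_const (q - u)).const_add u
  have hd : ∀ t ∈ uIcc (0 : ℝ) 1, HasDerivAt (fun t : ℝ => F (u + t • (q - u)))
      (fderiv ℝ F (u + t • (q - u)) (q - u)) t := fun t ht =>
    ((hF _ (hm t ht)).differentiableAt one_ne_zero).hasFDerivAt.comp_hasDerivAt t (hl t)
  have hc : ContinuousOn (fun t : ℝ => fderiv ℝ F (u + t • (q - u)) (q - u)) (uIcc (0 : ℝ) 1) :=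
    fun t ht => (ContinuousAt.clm_apply (ContinuousAt.comp (f := fun t : ℝ => u + t • (q - u))
      ((hF _ (hm t ht)).continuousAt_fderiv one_ne_zero) (hl t).continuousAt)
      continuousAt_const).continuousWithinAt
  have h1 := intervalIntegral.integral_eq_sub_of_hasDerivAt hd hc.intervalIntegrable
  rw [intervalIntegral.integral_of_le zero_le_one, one_smul, zero_smul, add_zero,
    add_sub_cancel] at h1
  have hn : ‖q - u‖ ≤ 2 * s := by
    have := dist_triangle_right q u c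
    rw [dist_eq_norm] at this
    linarith [mem_ball.1 hu, mem_ball.1 hq]
  have hme : AEMeasurable (fun t : ℝ => ‖fderiv ℝ F (u + t • (q - u)) (q - u)‖ₑ)
      (volume.restrict (Ioc (0 : ℝ) 1)) := by
    refine (ContinuousOn.aemeasurable ?_ measurableSet_Ioc).enorm
    exact hc.mono (by rw [uIcc_of_le zero_le_one]; exact Ioc_subset_Icc_self)
  rw [enorm_sub_rev, ← h1]
  refine (pow_le_pow_left' (enorm_integral_le_lintegral_enorm _) 2).trans ?_
  refine (lint_sq_le _ hme).trans ?_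
  rw [Measure.restrict_apply_univ, Real.volume_Ioc, sub_zero, ENNReal.ofReal_one, one_mul,
    ← lintegral_const_mul' _ _ ENNReal.ofReal_ne_top]
  refine setLIntegral_mono' measurableSet_Ioc fun t ht => ?_
  rw [indicator_of_mem (hm t (by rw [uIcc_of_le zero_le_one]; exact Ioc_subset_Icc_self ht)),
    ENNReal.ofReal_pow ((norm_nonneg _).trans hn), ← mul_pow, mul_comm]
  refine pow_le_pow_left' (((fderiv ℝ F _).le_opENorm _).trans ?_) 2
  gcongr
  rw [← ofReal_norm]
  exact ENNReal.ofReal_le_ofReal hn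

/-- the double integral of the increments over a disc -/
lemma planar (hF : ∀ v ∈ ball c s, ContDiffAt ℝ 1 F v) :
    ∫⁻ u in ball c s, ∫⁻ q in ball c s, ‖F u - F q‖ₑ ^ 2 ≤ ENNReal.ofReal ((2 * s) ^ 2) *
      (volume (ball (0 : E2) (2 * s)) * ∫⁻ v in ball c s, ‖fderiv ℝ F v‖ₑ ^ 2) := by
  set Ψ : E2 → ℝ≥0∞ := (ball c s).indicator fun v => ‖fderiv ℝ F v‖ₑ ^ 2 with hΨ
  have hΨm : Measurable Ψ :=
    ((measurable_fderiv ℝ F).enorm.pow_const 2).indicator measurableSet_ball
  set K : E2 → E2 → ℝ≥0∞ := fun u v => ∫⁻ t in Ioc (0 : ℝ) 1, Ψ (u + t • v) with hK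
  have hKm : Measurable (Function.uncurry K) :=
    Measurable.lintegral_prod_right' (f := fun p : (E2 × E2) × ℝ => Ψ (p.1.1 + p.2 • p.1.2))
      (hΨm.comp (by fun_prop))
  have h1 : ∀ u ∈ ball c s, ∫⁻ q in ball c s, ‖F u - F q‖ₑ ^ 2 ≤
      ENNReal.ofReal ((2 * s) ^ 2) * ∫⁻ v in ball (0 : E2) (2 * s), K u v := by
    intro u hu
    refine (setLIntegral_mono' measurableSet_ball fun q hq => seg hF hu hq).trans ?_
    rw [lintegral_const_mul' _ _ ENNReal.ofReal_ne_top]
    gcongr _ * ?_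
    rw [← lintegral_indicator measurableSet_ball, ← lintegral_indicator measurableSet_ball,
      ← lintegral_add_left_eq_self _ u]
    refine lintegral_mono fun v => ?_
    by_cases hv : u + v ∈ ball c s
    · have hv' : v ∈ ball (0 : E2) (2 * s) := by
        have := dist_triangle_right (u + v) u c
        rw [dist_eq_norm, add_sub_cancel_left] at this
        rw [mem_ball_zero_iff]
        linarith [mem_ball.1 hu, mem_ball.1 hv]
      simp only [indicator_of_mem hv, indicator_of_mem hv', add_sub_cancel_left]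
      exact le_rfl
    · simp only [indicator_of_notMem hv]
      exact zero_le
  refine (setLIntegral_mono' measurableSet_ball h1).trans ?_
  rw [lintegral_const_mul' _ _ ENNReal.ofReal_ne_top]
  gcongr _ * ?_
  refine (setLIntegral_le_lintegral _ _).trans ?_
  rw [lintegral_lintegral_swap hKm.aemeasurable]
  have h2 : ∀ v : E2, ∫⁻ u, K u v = ∫⁻ v in ball c s, ‖fderiv ℝ F v‖ₑ ^ 2 := by
    intro v
    rw [hK]
    simp only
    rw [lintegral_lintegral_swap (f := fun (u : E2) (t : ℝ) => Ψ (u + t • v))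
      (hΨm.comp (by fun_prop)).aemeasurable]
    simp only [lintegral_add_right_eq_self Ψ]
    rw [lintegral_const, Measure.restrict_apply_univ, Real.volume_Ioc, sub_zero,
      ENNReal.ofReal_one, mul_one, hΨ, lintegral_indicator measurableSet_ball]
  simp only [h2]
  rw [lintegral_const, Measure.restrict_apply_univ, mul_comm]

lemma enorm_add_sq_le (a b : ℝ) : ‖a + b‖ₑ ^ 2 ≤ 2 * ‖a‖ₑ ^ 2 + 2 * ‖b‖ₑ ^ 2 := by
  have e : ∀ t : ℝ, ‖t‖ₑ ^ 2 = ENNReal.ofReal (t ^ 2) := fun t => by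
    rw [← ofReal_norm, ← ENNReal.ofReal_pow (norm_nonneg _), Real.norm_eq_abs, sq_abs]
  rw [e, e, e, ← ENNReal.ofReal_ofNat 2, ← ENNReal.ofReal_mul (by norm_num),
    ← ENNReal.ofReal_mul (by norm_num), ← ENNReal.ofReal_add (by positivity) (by positivity)]
  exact ENNReal.ofReal_le_ofReal (by nlinarith [sq_nonneg (a - b)])

/-- the Poincaré inequality on a disc, with a weighted mean -/
lemma planar_w (hF : ∀ v ∈ closedBall c s, ContDiffAt ℝ 1 F v)
    (hφ : ContinuousOn φ (closedBall c s)) (h2 : ∀ v ∈ ball c s, |φ v| ≤ 2) :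
    ‖∫ v in ball c s, φ v‖ₑ ^ 2 * ∫⁻ u in ball c s, ‖F u‖ₑ ^ 2 ≤
      2 * volume (ball c s) * ‖∫ v in ball c s, φ v * F v‖ₑ ^ 2 +
        8 * volume (ball c s) * (ENNReal.ofReal ((2 * s) ^ 2) *
          (volume (ball (0 : E2) (2 * s)) * ∫⁻ v in ball c s, ‖fderiv ℝ F v‖ₑ ^ 2)) := by
  have hFc : ContinuousOn F (closedBall c s) := fun v hv =>
    (hF v hv).continuousAt.continuousWithinAt
  have i1 : IntegrableOn φ (ball c s) :=
    (hφ.integrableOn_compact (isCompact_closedBall c s)).mono_set ball_subset_closedBall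
  have i2 : IntegrableOn (fun v => φ v * F v) (ball c s) :=
    ((hφ.mul hFc).integrableOn_compact (isCompact_closedBall c s)).mono_set ball_subset_closedBall
  set m := ∫ v in ball c s, φ v with hm
  set l := ∫ v in ball c s, φ v * F v with hl
  have h1 : ∀ u, ‖m‖ₑ ^ 2 * ‖F u‖ₑ ^ 2 ≤ 2 * ‖l‖ₑ ^ 2 +
      8 * volume (ball c s) * ∫⁻ q in ball c s, ‖F u - F q‖ₑ ^ 2 := by
    intro u
    have e : m * F u = l + ∫ q in ball c s, φ q * (F u - F q) := by
      simp only [mul_sub]
      rw [integral_sub (i1.mul_const _) i2, integral_mul_const]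
      ring
    rw [← mul_pow, ← enorm_mul, e]
    refine (enorm_add_sq_le _ _).trans ?_
    gcongr 2 * ‖l‖ₑ ^ 2 + ?_
    have hme : AEMeasurable (fun q => ‖F u - F q‖ₑ) (volume.restrict (ball c s)) :=
      (((continuousOn_const.sub hFc).mono ball_subset_closedBall).aemeasurable
        measurableSet_ball).enorm
    have h3 : ‖∫ q in ball c s, φ q * (F u - F q)‖ₑ ≤ 2 * ∫⁻ q in ball c s, ‖F u - F q‖ₑ := by
      refine (enorm_integral_le_lintegral_enorm _).trans ?_
      rw [← lintegral_const_mul' _ _ (by norm_num)]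
      refine setLIntegral_mono' measurableSet_ball fun q hq => ?_
      rw [enorm_mul]
      gcongr
      rw [← ofReal_norm, ← ENNReal.ofReal_ofNat 2]
      exact ENNReal.ofReal_le_ofReal (h2 q hq)
    have h4 := lint_sq_le _ hme
    rw [Measure.restrict_apply_univ] at h4
    calc 2 * ‖∫ q in ball c s, φ q * (F u - F q)‖ₑ ^ 2
        ≤ 2 * (2 * ∫⁻ q in ball c s, ‖F u - F q‖ₑ) ^ 2 := by gcongr
      _ = 8 * (∫⁻ q in ball c s, ‖F u - F q‖ₑ) ^ 2 := by ring
      _ ≤ 8 * (volume (ball c s) * ∫⁻ q in ball c s, ‖F u - F q‖ₑ ^ 2) := by gcongr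
      _ = _ := by rw [mul_assoc]
  rw [← lintegral_const_mul' _ _ (by finiteness)]
  refine (lintegral_mono h1).trans ?_
  rw [lintegral_add_left measurable_const, lintegral_const, Measure.restrict_apply_univ,
    lintegral_const_mul' _ _ (ENNReal.mul_ne_top (by norm_num) measure_ball_lt_top.ne),
    mul_right_comm]
  gcongr
  exact planar fun v hv => hF v (ball_subset_closedBall hv)

lemma enorm_sq (t : ℝ) : ‖t‖ₑ ^ 2 = ENNReal.ofReal (t ^ 2) := by
  rw [← ofReal_norm, ← ENNReal.ofReal_pow (norm_nonneg _), Real.norm_eq_abs, sq_abs]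

lemma two_mul_ofReal (a : ℝ) : 2 * ENNReal.ofReal a = ENNReal.ofReal (2 * a) := by
  rw [ENNReal.ofReal_mul (by norm_num), ENNReal.ofReal_ofNat]

lemma le_of_ofReal_mul_le {k α β α' β' : ℝ} {I E : ℝ≥0∞} (hk : 0 < k) (hα : α ≤ k * α')
    (hβ : β ≤ k * β') (h : ENNReal.ofReal k * I ≤ ENNReal.ofReal α + ENNReal.ofReal β * E) :
    I ≤ ENNReal.ofReal α' + ENNReal.ofReal β' * E := by
  refine (ENNReal.mul_le_mul_iff_right (ENNReal.ofReal_pos.2 hk).ne' ENNReal.ofReal_ne_top).1
    (h.trans ?_)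
  rw [mul_add, ← mul_assoc, ← ENNReal.ofReal_mul hk.le, ← ENNReal.ofReal_mul hk.le]
  gcongr

lemma vol_ball (c : E2) {s : ℝ} (hs : 0 ≤ s) :
    volume (ball c s) = ENNReal.ofReal (Real.pi * s ^ 2) := by
  rw [EuclideanSpace.volume_ball_fin_two, ← ENNReal.ofReal_pow hs,
    ← ENNReal.ofReal_mul (by positivity), mul_comm]

variable {N : Set E3} {x n : E3} {J : E2 →L[ℝ] E3} {pr : E3 →L[ℝ] E2} {h : E2 → ℝ} {δ : ℝ}

namespace Disc

lemma contDiffAt_gr (D : Disc N x n J pr h δ) {u : E2} (hu : u ∈ ball (pr x) δ) :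
    ContDiffAt ℝ 1 (gr n J h) u :=
  J.contDiff.contDiffAt.add (((D.smooth u hu).of_le (by simp)).smul contDiffAt_const)

lemma contDiffOn (D : Disc N x n J pr h δ) : ContDiffOn ℝ 1 h (ball (pr x) δ) :=
  fun u hu => ((D.smooth u hu).of_le (by simp)).contDiffWithinAt

lemma continuousAt_jac (D : Disc N x n J pr h δ) {u : E2} (hu : u ∈ ball (pr x) δ) :
    ContinuousAt (jac h) u := by
  have : ContinuousAt (fun u => ‖fderiv ℝ h u‖) u :=
    ((D.smooth u hu).continuousAt_fderiv (by simp)).norm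
  unfold jac
  simp only [Chart.norm_gradient]
  fun_prop

lemma restrict (D : Disc N x n J pr h δ) {T : Set E2} (hT : T ⊆ ball (pr x) δ)
    (hm : MeasurableSet T) :
    (area N).restrict (gr n J h '' T) = (μHE[2] : Measure E3).restrict (gr n J h '' T) := by
  refine IsChart.restrict_area ?_ (hm.image_of_continuousOn_injOn (fun u hu =>
    (D.contDiffAt_gr (hT hu)).continuousAt.continuousWithinAt) (D.frame.gr_injective h).injOn)
  rintro _ ⟨u, hu, rfl⟩
  exact D.mem u (hT hu)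

lemma lintegral (D : Disc N x n J pr h δ) {T : Set E2} (hT : T ⊆ ball (pr x) δ)
    (hm : MeasurableSet T) (g : E3 → ℝ≥0∞) : ∫⁻ y in gr n J h '' T, g y ∂(area N) =
      ∫⁻ u in T, ENNReal.ofReal (jac h u) * g (gr n J h u) := by
  rw [D.restrict hT hm, D.frame.lintegral_graph isOpen_ball D.contDiffOn hm hT]

lemma integral (D : Disc N x n J pr h δ) {T : Set E2} (hT : T ⊆ ball (pr x) δ)
    (hm : MeasurableSet T) (g : E3 → ℝ) : ∫ y in gr n J h '' T, g y ∂(area N) =
      ∫ u in T, jac h u * g (gr n J h u) := by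
  rw [D.restrict hT hm, D.frame.integral_graph isOpen_ball D.contDiffOn hm hT]
  rfl

lemma mem_image (D : Disc N x n J pr h δ) {s : ℝ} (hs : s ≤ δ) {y : E3} (hy : y ∈ N)
    (h1 : ‖y - x‖ < s) : y ∈ gr n J h '' ball (pr x) s := by
  refine ⟨pr y, ?_, D.onto y hy (h1.trans_le hs)⟩
  rw [mem_ball_iff_norm, ← map_sub]
  exact (D.frame.norm_pr_le _).trans_lt h1

/-- the pull-back of a function which is `C¹` along the surface -/
lemma pull (D : Disc N x n J pr h δ) {u : E2} (hu : u ∈ ball (pr x) δ)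
    {f f' : E3 → ℝ} (hf : ContDiffAt ℝ 1 f' (gr n J h u))
    (he : ∀ᶠ z in 𝓝 (gr n J h u), z ∈ N → f z = f' z) :
    ContDiffAt ℝ 1 (fun v => f (gr n J h v)) u ∧ ‖fderiv ℝ (fun v => f (gr n J h v)) u‖ ≤
      2 * ‖pt (nu N (gr n J h u)) (gradient f' (gr n J h u))‖ := by
  have e : (fun v => f (gr n J h v)) =ᶠ[𝓝 u] f' ∘ gr n J h := by
    filter_upwards [(D.contDiffAt_gr hu).continuousAt.eventually he, isOpen_ball.mem_nhds hu]
      with v h1 h2
    exact h1 (D.mem v h2)
  refine ⟨(hf.comp u (D.contDiffAt_gr hu)).congr_of_eventuallyEq e, ?_⟩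
  have hd := (hf.differentiableAt one_ne_zero).hasFDerivAt.comp u
    (Chart.hasFDerivAt_gr (n := n) (J := J) ((D.smooth u hu).differentiableAt (by simp)))
  rw [e.fderiv_eq, hd.fderiv]
  refine ContinuousLinearMap.opNorm_le_bound _ (by positivity) fun v => ?_
  have h1 : ‖J v + fderiv ℝ h u v • n‖ ≤ 2 * ‖v‖ := by
    have a1 := D.frame.norm_sq_add v (fderiv ℝ h u v)
    have a2 := Chart.jac_sq h u
    have a3 : jac h u ^ 2 ≤ 2 ^ 2 := pow_le_pow_left₀ (Chart.jac_pos h u).le (D.jac_le u hu) 2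
    have a4 : |fderiv ℝ h u v| ≤ ‖gradient h u‖ * ‖v‖ := by
      rw [Chart.norm_gradient]; exact (fderiv ℝ h u).le_opNorm v
    have a5 := pow_le_pow_left₀ (abs_nonneg _) a4 2
    rw [sq_abs, mul_pow] at a5
    refine (pow_le_pow_iff_left₀ (norm_nonneg _) (by positivity) two_ne_zero).1 ?_
    nlinarith [sq_nonneg ‖v‖]
  have h2 : fderiv ℝ f' (gr n J h u) (J v + fderiv ℝ h u v • n) =
      ⟪pt (nu N (gr n J h u)) (gradient f' (gr n J h u)), J v + fderiv ℝ h u v • n⟫ := by
    rw [inner_pt_left, pt_of_orth (D.tang u hu v), inner_grad]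
  simp only [ContinuousLinearMap.comp_apply, _root_.add_apply,
    ContinuousLinearMap.smulRight_apply]
  rw [h2]
  refine (norm_inner_le_norm _ _).trans ?_
  calc _ ≤ ‖pt (nu N (gr n J h u)) (gradient f' (gr n J h u))‖ * (2 * ‖v‖) := by gcongr
    _ = _ := by ring

end Disc

lemma gw_ge {R : ℝ} {y : E3} (hy : ‖y‖ ≤ R) : Real.exp (-R ^ 2 / 4) ≤ gw y :=
  Real.exp_le_exp.2 (by nlinarith [norm_nonneg y])

lemma ae_mem (hN : IsSurf N) : ∀ᵐ y ∂(area N), y ∈ N := ae_restrict_mem hN.1.measurableSet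

/-- the Poincaré inequality in one cell of the mesh -/
lemma cell (hN : IsSurf N) {R C r₀ r : ℝ} (hr : 0 < r) (hr1 : r ≤ 1 / 10) (hrC : C * r ≤ 1 / 40)
    (hr0 : 8 * r ≤ r₀) (hT : ∀ y ∈ N, ‖y‖ ≤ R + 1 → TwoPt N y r₀ C) {p y₀ : E3}
    (hp : ‖p‖ ≤ R + 1 / 2) (hy₀ : y₀ ∈ N) (h0 : ‖y₀ - p‖ ≤ r / 16) {f G : E3 → ℝ}
    (hf : GradLe N (R + 1) f G) :
    ∫⁻ y in closedBall p (9 / 8 * r), ENNReal.ofReal (f y ^ 2 * gw y) ∂(area N) ≤
      ENNReal.ofReal (2 * 10 ^ 7 / Real.exp (-(R + 1) ^ 2 / 4) ^ 3 *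
        ((r ^ 2)⁻¹ * (∫ y, f y * bump p r y * gw y ∂(area N)) ^ 2)) +
      ENNReal.ofReal (2 * 10 ^ 7 / Real.exp (-(R + 1) ^ 2 / 4) ^ 3 * r ^ 2) *
        ∫⁻ y in closedBall p (2 * r), ENNReal.ofReal (G y ^ 2 * gw y) ∂(area N) := by
  set ρ₀ := Real.exp (-(R + 1) ^ 2 / 4) with hρ₀
  have hρ : 0 < ρ₀ := Real.exp_pos _
  have hρ1 : ρ₀ ≤ 1 := Real.exp_le_one_iff.2 (by have := sq_nonneg (R + 1); linarith)
  have tri : ∀ y : E3, ‖y - p‖ ≤ ‖y - y₀‖ + r / 16 := fun y => by
    linarith [norm_sub_le_norm_sub_add_norm_sub y y₀ p]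
  have tri' : ∀ y : E3, ‖y - y₀‖ ≤ ‖y - p‖ + r / 16 := fun y => by
    linarith [norm_sub_le_norm_sub_add_norm_sub y p y₀, norm_sub_rev p y₀]
  have big : ∀ y : E3, ‖y - y₀‖ ≤ 4 * r → ‖y‖ ≤ R + 1 := fun y hy => by
    linarith [tri y, norm_sub_norm_le y p]
  obtain ⟨J, pr, h, D⟩ := exists_disc (δ := 2 * r) (C := C) (r₀ := r₀) hN hy₀ (by linarith)
    (by linarith) (by linarith) fun y hy h1 => hT y hy (big y (by linarith))
  set n := nu N y₀
  set c := pr y₀
  set s := 5 / 4 * r with hs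
  have sub : closedBall c s ⊆ ball c (2 * r) := closedBall_subset_ball (by linarith)
  have sub' : ball c s ⊆ ball c (2 * r) := ball_subset_closedBall.trans sub
  have nr : ∀ u ∈ closedBall c s, ‖gr n J h u - y₀‖ ≤ 11 / 8 * r := fun u hu => by
    linarith [D.near u (sub hu), mem_closedBall_iff_norm.1 hu]
  set F : E2 → ℝ := fun v => f (gr n J h v) with hF
  set φ : E2 → ℝ := fun v => jac h v * (bump p r (gr n J h v) * gw (gr n J h v)) with hφ
  have pl : ∀ u ∈ closedBall c s, ContDiffAt ℝ 1 F u ∧ ‖fderiv ℝ F u‖ ≤ 2 * G (gr n J h u) := by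
    intro u hu
    obtain ⟨f', h1, h2, h3⟩ := hf _ (D.mem u (sub hu)) (big _ (by linarith [nr u hu]))
    have := D.pull (sub hu) h1 h2
    exact ⟨this.1, this.2.trans (by linarith)⟩
  have φc : ContinuousOn φ (closedBall c s) := fun u hu => by
    have h1 := (D.contDiffAt_gr (sub hu)).continuousAt
    exact ((D.continuousAt_jac (sub hu)).mul (((continuous_bump p r).continuousAt.comp h1).mul
      (continuous_gw.continuousAt.comp h1))).continuousWithinAt
  have φ0 : ∀ v, 0 ≤ φ v := fun v =>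
    mul_nonneg (Chart.jac_pos h v).le (mul_nonneg (bump_nonneg _ _ _) (gw_pos _).le)
  have φ2 : ∀ v ∈ ball c s, |φ v| ≤ 2 := fun v hv => by
    rw [abs_of_nonneg (φ0 v)]
    have h1 : bump p r (gr n J h v) * gw (gr n J h v) ≤ 1 :=
      mul_le_one₀ (bump_le_one _ _ _) (gw_pos _).le (gw_le_one _)
    have h2 := D.jac_le v (sub' hv)
    have h3 := (Chart.jac_pos h v).le
    change jac h v * _ ≤ 2
    nlinarith
  have key := planar_w (fun v hv => (pl v hv).1) φc φ2
  -- the weighted mean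
  have el : ∫ v in ball c s, φ v * F v = ∫ y, f y * bump p r y * gw y ∂(area N) := by
    rw [← setIntegral_eq_integral_of_ae_compl_eq_zero (s := gr n J h '' ball c s),
      D.integral sub' measurableSet_ball]
    · exact integral_congr_ae (Eventually.of_forall fun v => by simp only [hφ, hF]; ring)
    · filter_upwards [ae_mem hN] with y hy hn
      have : r / 2 ≤ ‖y - p‖ := by
        by_contra hlt
        exact hn (D.mem_image (by linarith) hy (by linarith [tri' y, not_le.1 hlt]))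
      rw [bump_eq_zero hr this, mul_zero, zero_mul]
  have i1 : IntegrableOn φ (ball c s) :=
    (φc.integrableOn_compact (isCompact_closedBall c s)).mono_set ball_subset_closedBall
  have hm : ρ₀ * (Real.pi * (r / 8) ^ 2) ≤ ∫ v in ball c s, φ v := by
    have s8 : ball c (r / 8) ⊆ ball c s := ball_subset_ball (by linarith)
    refine le_trans ?_ (setIntegral_mono_set i1 (Eventually.of_forall φ0) s8.eventuallyLE)
    have := setIntegral_ge_of_const_le_real (μ := volume) (c := ρ₀) measurableSet_ball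
      measure_ball_lt_top.ne (fun v hv => ?_) (i1.mono_set s8)
    · rwa [Measure.real, vol_ball _ (by positivity), ENNReal.toReal_ofReal (by positivity)] at this
    · have h1 := D.near v (sub' (s8 hv))
      have h2 := mem_ball_iff_norm.1 hv
      have h3 := gw_ge (big (gr n J h v) (by linarith))
      have h4 := Chart.one_le_jac h v
      change _ ≤ jac h v * _
      rw [bump_eq_one hr (by linarith [tri (gr n J h v)]), one_mul]
      nlinarith
  -- the gradient term
  have hE : ENNReal.ofReal (ρ₀ / 4) * ∫⁻ v in ball c s, ‖fderiv ℝ F v‖ₑ ^ 2 ≤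
      ∫⁻ y in closedBall p (2 * r), ENNReal.ofReal (G y ^ 2 * gw y) ∂(area N) := by
    refine le_trans ?_ (lintegral_mono_set (s := gr n J h '' ball c s) ?_)
    · rw [D.lintegral sub' measurableSet_ball, ← lintegral_const_mul' _ _ ENNReal.ofReal_ne_top]
      refine setLIntegral_mono' measurableSet_ball fun v hv => ?_
      have hv' := ball_subset_closedBall hv
      rw [← ofReal_norm, ← ENNReal.ofReal_pow (norm_nonneg _), ← ENNReal.ofReal_mul (by positivity),
        ← ENNReal.ofReal_mul (Chart.jac_pos h v).le]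
      refine ENNReal.ofReal_le_ofReal ?_
      have h1 := pow_le_pow_left₀ (norm_nonneg _) (pl v hv').2 2
      have h3 := gw_ge (big (gr n J h v) (by linarith [nr v hv']))
      have h4 := Chart.one_le_jac h v
      have h5 : ρ₀ * G (gr n J h v) ^ 2 ≤ G (gr n J h v) ^ 2 * gw (gr n J h v) := by
        nlinarith [sq_nonneg (G (gr n J h v))]
      have h6 : 0 ≤ G (gr n J h v) ^ 2 * gw (gr n J h v) := mul_nonneg (sq_nonneg _) (gw_pos _).le
      nlinarith
    · rintro _ ⟨v, hv, rfl⟩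
      rw [mem_closedBall_iff_norm]
      linarith [tri (gr n J h v), nr v (ball_subset_closedBall hv)]
  -- the left side
  have hL : ∫⁻ y in closedBall p (9 / 8 * r), ENNReal.ofReal (f y ^ 2 * gw y) ∂(area N) ≤
      2 * ∫⁻ u in ball c s, ‖F u‖ₑ ^ 2 := by
    refine (lintegral_mono_set' (t := gr n J h '' ball c s) ?_).trans ?_
    · filter_upwards [ae_mem hN] with y hy h1
      exact D.mem_image (by linarith) hy (by linarith [tri' y, mem_closedBall_iff_norm.1 h1])
    · rw [D.lintegral sub' measurableSet_ball, ← lintegral_const_mul' _ _ (by norm_num)]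
      refine setLIntegral_mono' measurableSet_ball fun v hv => ?_
      rw [enorm_sq, ← ENNReal.ofReal_ofNat 2]
      gcongr
      · exact D.jac_le v (sub' hv)
      · exact mul_le_of_le_one_right (sq_nonneg _) (gw_le_one _)
  rw [el, enorm_sq, enorm_sq, vol_ball _ (by positivity), vol_ball _ (by positivity)] at key
  set l := ∫ y, f y * bump p r y * gw y ∂(area N)
  set I := ∫⁻ u in ball c s, ‖F u‖ₑ ^ 2
  set E := ∫⁻ v in ball c s, ‖fderiv ℝ F v‖ₑ ^ 2
  set m₀ := ρ₀ * (Real.pi * (r / 8) ^ 2) with hm₀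
  have m0 : 0 < m₀ := by positivity
  have key2 : ENNReal.ofReal (m₀ ^ 2) * I ≤ ENNReal.ofReal (2 * (Real.pi * s ^ 2) * l ^ 2) +
      ENNReal.ofReal (8 * (Real.pi * s ^ 2) * ((2 * s) ^ 2 * (Real.pi * (2 * s) ^ 2))) * E := by
    refine le_trans (by gcongr) (key.trans_eq ?_)
    rw [ENNReal.ofReal_mul (p := 2 * _) (by positivity), ENNReal.ofReal_mul (p := 2) (by norm_num),
      ENNReal.ofReal_mul (p := 8 * _) (by positivity), ENNReal.ofReal_mul (p := 8) (by norm_num),
      ENNReal.ofReal_mul (p := (2 * s) ^ 2) (by positivity), ENNReal.ofReal_ofNat,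
      ENNReal.ofReal_ofNat]
    ring
  have hpi := Real.pi_gt_three
  have key3 := le_of_ofReal_mul_le (α' := 10 ^ 7 / ρ₀ ^ 3 * ((r ^ 2)⁻¹ * l ^ 2))
    (β' := 10 ^ 7 / ρ₀ ^ 3 * r ^ 2 * (ρ₀ / 4)) (by positivity) ?_ ?_ key2
  · refine hL.trans ((mul_le_mul_right key3 2).trans ?_)
    rw [mul_add, two_mul_ofReal, ENNReal.ofReal_mul (q := ρ₀ / 4) (by positivity),
      mul_assoc _ _ E, ← mul_assoc _ _ (_ * E), two_mul_ofReal]
    exact add_le_add (ENNReal.ofReal_le_ofReal (le_of_eq (by ring)))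
      (mul_le_mul' (ENNReal.ofReal_le_ofReal (le_of_eq (by ring))) hE)
  · have e1 : m₀ ^ 2 * (10 ^ 7 / ρ₀ ^ 3 * ((r ^ 2)⁻¹ * l ^ 2)) =
        (Real.pi * r ^ 2 * l ^ 2) * (Real.pi * (10 ^ 7 / 4096) / ρ₀) := by
      rw [hm₀]; field_simp; ring
    have e2 : 2 * (Real.pi * s ^ 2) * l ^ 2 = (Real.pi * r ^ 2 * l ^ 2) * (25 / 8) := by
      rw [hs]; ring
    rw [e1, e2]
    refine mul_le_mul_of_nonneg_left ?_ (by positivity)
    rw [le_div_iff₀ hρ]
    nlinarith
  · have e1 : m₀ ^ 2 * (10 ^ 7 / ρ₀ ^ 3 * r ^ 2 * (ρ₀ / 4)) =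
        (Real.pi ^ 2 * r ^ 6) * (10 ^ 7 / 16384) := by
      rw [hm₀]; field_simp; ring
    have e2 : 8 * (Real.pi * s ^ 2) * ((2 * s) ^ 2 * (Real.pi * (2 * s) ^ 2)) =
        (Real.pi ^ 2 * r ^ 6) * (15625 / 32) := by
      rw [hs]; ring
    rw [e1, e2]
    exact mul_le_mul_of_nonneg_left (by norm_num) (by positivity)

open Classical in
/-- bounded overlap of the doubled balls of a separated set -/
lemma overlap {P : Finset E3} {r : ℝ} (hr : 0 < r) (hsep : ∀ p ∈ P, ∀ q ∈ P, p ≠ q → r ≤ ‖p - q‖)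
    (z : E3) : (P.filter fun p => z ∈ closedBall p (2 * r)).card ≤ 125 := by
  set Q := P.filter fun p => z ∈ closedBall p (2 * r) with hQ
  have hi : Function.Injective fun p : E3 => r⁻¹ • (p - z) := fun p q e =>
    sub_left_injective (smul_right_injective E3 (inv_ne_zero hr.ne') e)
  have := Besicovitch.card_le_of_separated (Q.image fun p : E3 => r⁻¹ • (p - z)) ?_ ?_
  · rw [Finset.card_image_of_injective _ hi] at this
    simpa using this
  · intro c hc
    obtain ⟨p, hp, rfl⟩ := Finset.mem_image.1 hc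
    rw [norm_scale hr, div_le_iff₀ hr, norm_sub_rev]
    exact mem_closedBall_iff_norm.1 (Finset.mem_filter.1 hp).2
  · intro c hc d hd hne
    obtain ⟨p, hp, rfl⟩ := Finset.mem_image.1 hc
    obtain ⟨q, hq, rfl⟩ := Finset.mem_image.1 hd
    rw [← smul_sub, norm_scale hr, le_div_iff₀ hr, one_mul, sub_sub_sub_cancel_right]
    exact hsep p (Finset.mem_filter.1 hp).1 q (Finset.mem_filter.1 hq).1 fun e => hne (by rw [e])

lemma sum_lintegral_le {μ : Measure E3} {P : Finset E3} {r : ℝ} (hr : 0 < r)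
    (hsep : ∀ p ∈ P, ∀ q ∈ P, p ≠ q → r ≤ ‖p - q‖) {B : Set E3}
    (hB : ∀ p ∈ P, closedBall p (2 * r) ⊆ B) {g : E3 → ℝ≥0∞} (hg : AEMeasurable g (μ.restrict B)) :
    ∑ p ∈ P, ∫⁻ y in closedBall p (2 * r), g y ∂μ ≤ 125 * ∫⁻ y in B, g y ∂μ := by
  classical
  have e : ∀ p ∈ P, ∫⁻ y in closedBall p (2 * r), g y ∂μ =
      ∫⁻ y in B, (closedBall p (2 * r)).indicator g y ∂μ := fun p hp => by
    rw [lintegral_indicator measurableSet_closedBall,
      Measure.restrict_restrict measurableSet_closedBall, inter_eq_left.2 (hB p hp)]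
  rw [Finset.sum_congr rfl e, ← lintegral_finsetSum' _ fun p _ =>
    hg.indicator measurableSet_closedBall, ← lintegral_const_mul' _ _ (by norm_num)]
  refine lintegral_mono fun z => ?_
  simp only [indicator_apply]
  rw [← Finset.sum_filter, Finset.sum_const, nsmul_eq_mul]
  gcongr
  exact_mod_cast overlap hr hsep z

/-- the mesh Poincaré inequality for the area measure -/
theorem poinc_area (hN : IsSurf N) {R C r₀ r : ℝ} (hr : 0 < r) (hr1 : r ≤ 1 / 10)
    (hrC : C * r ≤ 1 / 40) (hr0 : 8 * r ≤ r₀) (hT : ∀ y ∈ N, ‖y‖ ≤ R + 1 → TwoPt N y r₀ C)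
    {S : Set E3} {P : Finset E3} (hP : IsMesh S R r P) (hc : HClose N S R (r / 16))
    {f G : E3 → ℝ} (hf : GradLe N (R + 1) f G)
    (hG : IntegrableOn (fun y => G y ^ 2 * gw y) (closedBall 0 (R + 1)) (area N)) :
    ∫ y in closedBall (0 : E3) R, f y ^ 2 * gw y ∂(area N) ≤
      125 * (2 * 10 ^ 7 / Real.exp (-(R + 1) ^ 2 / 4) ^ 3) *
        (r ^ 2 * ∫ y in closedBall (0 : E3) (R + 1), G y ^ 2 * gw y ∂(area N) +
          (r ^ 2)⁻¹ * ∑ p ∈ P, (∫ y, f y * bump p r y * gw y ∂(area N)) ^ 2) := by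
  set A := 2 * 10 ^ 7 / Real.exp (-(R + 1) ^ 2 / 4) ^ 3 with hA
  have A0 : 0 < A := by positivity
  have nn : ∀ (g : E3 → ℝ) y, 0 ≤ g y ^ 2 * gw y := fun g y => mul_nonneg (sq_nonneg _) (gw_pos y).le
  have E0 : 0 ≤ ∫ y in closedBall (0 : E3) (R + 1), G y ^ 2 * gw y ∂(area N) :=
    integral_nonneg (nn G)
  have L0 : 0 ≤ ∑ p ∈ P, (∫ y, f y * bump p r y * gw y ∂(area N)) ^ 2 :=
    Finset.sum_nonneg fun _ _ => sq_nonneg _
  by_cases hi : IntegrableOn (fun y => f y ^ 2 * gw y) (closedBall 0 R) (area N)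
  swap
  · rw [integral_undef hi]; positivity
  rw [← ENNReal.ofReal_le_ofReal_iff (by positivity),
    ofReal_integral_eq_lintegral_ofReal hi (Eventually.of_forall (nn f))]
  have h1 : ∫⁻ y in closedBall (0 : E3) R, ENNReal.ofReal (f y ^ 2 * gw y) ∂(area N) ≤
      ∑ p ∈ P, ∫⁻ y in closedBall p (9 / 8 * r), ENNReal.ofReal (f y ^ 2 * gw y) ∂(area N) := by
    refine (lintegral_mono_set' (t := ⋃ p : P, closedBall (p : E3) (9 / 8 * r)) ?_).trans ?_
    · filter_upwards [ae_mem hN] with y hy h2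
      obtain ⟨z, hz, h3⟩ := hc.1 y hy (mem_closedBall_zero_iff.1 h2)
      obtain ⟨p, hp, h4⟩ := hP.cover z hz (by
        linarith [norm_sub_norm_le z y, norm_sub_rev z y, mem_closedBall_zero_iff.1 h2])
      refine mem_iUnion.2 ⟨⟨p, hp⟩, mem_closedBall_iff_norm.2 ?_⟩
      linarith [norm_sub_le_norm_sub_add_norm_sub y z p]
    · refine (lintegral_iUnion_le _ _).trans_eq ?_
      rw [tsum_fintype, Finset.sum_coe_sort P fun p =>
        ∫⁻ y in closedBall p (9 / 8 * r), ENNReal.ofReal (f y ^ 2 * gw y) ∂(area N)]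
  have h2 := sum_lintegral_le (μ := area N) hr hP.sep (B := closedBall 0 (R + 1))
    (fun p hp => closedBall_subset_closedBall' (by
      rw [dist_zero_right]; linarith [hP.norm_le p hp]))
    (g := fun y => ENNReal.ofReal (G y ^ 2 * gw y)) hG.aemeasurable.ennreal_ofReal
  rw [← ofReal_integral_eq_lintegral_ofReal hG (Eventually.of_forall (nn G))] at h2
  refine h1.trans ((Finset.sum_le_sum fun p hp => ?_).trans
    (b := ∑ p ∈ P, (ENNReal.ofReal (A * ((r ^ 2)⁻¹ * (∫ y, f y * bump p r y * gw y ∂(area N)) ^ 2))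
      + ENNReal.ofReal (A * r ^ 2) *
        ∫⁻ y in closedBall p (2 * r), ENNReal.ofReal (G y ^ 2 * gw y) ∂(area N))) ?_)
  · obtain ⟨y₀, hy₀, h0⟩ := hc.2 p (hP.mem p hp) (hP.norm_le p hp)
    exact cell hN hr hr1 hrC hr0 hT (hP.norm_le p hp) hy₀ h0 hf
  · rw [Finset.sum_add_distrib, ← Finset.mul_sum, ← ENNReal.ofReal_sum_of_nonneg
      (fun _ _ => by positivity), ← Finset.mul_sum, ← Finset.mul_sum]
    refine (add_le_add le_rfl (mul_le_mul_right h2 _)).trans ?_
    rw [show (125 : ℝ≥0∞) = ENNReal.ofReal 125 by simp, ← ENNReal.ofReal_mul (by norm_num),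
      ← ENNReal.ofReal_mul (by positivity), ← ENNReal.ofReal_add (by positivity) (by positivity)]
    refine ENNReal.ofReal_le_ofReal ?_
    have : 0 ≤ A * ((r ^ 2)⁻¹ * ∑ p ∈ P, (∫ y, f y * bump p r y * gw y ∂(area N)) ^ 2) := by
      positivity
    nlinarith

theorem poinc_proof : PoincStmt := by
  intro R C r₀ c hr₀ hc
  set A := 125 * (2 * 10 ^ 7 / Real.exp (-(R + 1) ^ 2 / 4) ^ 3) with hA
  have A0 : 0 < A := by positivity
  have c0 : (0 : ℝ) < c := hc
  have hC : 0 < |C| + 1 := by positivity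
  refine ⟨A * (1 + (c : ℝ)⁻¹), min (1 / 10) (min (r₀ / 8) (1 / 40 / (|C| + 1))), by positivity,
    by positivity, min_le_left _ _, fun r hr h1 S N P hP hN hT hcl f G hf hG => ?_⟩
  rw [le_min_iff, le_min_iff, le_div_iff₀ hC] at h1
  have hG' : IntegrableOn (fun y => G y ^ 2 * gw y) (closedBall 0 (R + 1)) (area N) := by
    rw [IntegrableOn, Measure.restrict_smul] at hG
    exact (integrable_smul_measure (c := (c : ℝ≥0∞)) (by exact_mod_cast hc.ne')
      ENNReal.coe_ne_top).1 hG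
  have key := poinc_area hN hr h1.1 (by nlinarith [le_abs_self C]) (by linarith [h1.2.1]) hT hP
    hcl hf hG'
  have E0 : 0 ≤ ∫ y in closedBall (0 : E3) (R + 1), G y ^ 2 * gw y ∂(area N) :=
    integral_nonneg fun y => mul_nonneg (sq_nonneg _) (gw_pos y).le
  have L0 : 0 ≤ ∑ p ∈ P, (∫ y, f y * bump p r y * gw y ∂(area N)) ^ 2 :=
    Finset.sum_nonneg fun _ _ => sq_nonneg _
  simp only [Measure.restrict_smul, integral_smul_nnreal_measure, NNReal.smul_def, smul_eq_mul,
    mul_pow, ← Finset.mul_sum]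
  rw [← hA] at key
  set E := ∫ y in closedBall (0 : E3) (R + 1), G y ^ 2 * gw y ∂(area N)
  set L := ∑ p ∈ P, (∫ y, f y * bump p r y * gw y ∂(area N)) ^ 2
  refine (mul_le_mul_of_nonneg_left key c0.le).trans ?_
  have e : A * (1 + (c : ℝ)⁻¹) * (r ^ 2 * (c * E) + (r ^ 2)⁻¹ * ((c : ℝ) ^ 2 * L)) =
      c * (A * (r ^ 2 * E + (r ^ 2)⁻¹ * L)) +
        A * (r ^ 2 * E + (r ^ 2)⁻¹ * ((c : ℝ) ^ 2 * L)) := by
    field_simp
    ring
  rw [e]
  exact le_add_of_nonneg_right (by positivity)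

theorem net_proof : NetStmt := by
  classical
  intro S R r hr
  obtain ⟨T, -, hTf, hT⟩ := finite_cover_balls_of_compact
    (isCompact_closedBall (0 : E3) (R + 1 / 2)) (half_pos hr)
  set Q : Finset E3 → Prop := fun P => (∀ p ∈ P, p ∈ S ∧ ‖p‖ ≤ R + 1 / 2) ∧
    ∀ p ∈ P, ∀ q ∈ P, p ≠ q → r ≤ ‖p - q‖ with hQ
  have bd : ∀ P, Q P → P.card ≤ hTf.toFinset.card := by
    intro P hP
    have ex : ∀ p : E3, ∃ t, p ∈ P → t ∈ T ∧ p ∈ ball t (r / 2) := fun p => by
      by_cases hp : p ∈ P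
      · obtain ⟨t, ht, h⟩ := mem_iUnion₂.1 (hT (mem_closedBall_zero_iff.2 (hP.1 p hp).2))
        exact ⟨t, fun _ => ⟨ht, h⟩⟩
      · exact ⟨0, fun h => absurd h hp⟩
    choose t ht using ex
    refine Finset.card_le_card_of_injOn t (fun p hp => by simpa using (ht p hp).1) ?_
    intro p hp q hq e
    by_contra hne
    have h1 := hP.2 p hp q hq hne
    have h2 := dist_triangle_right p q (t q)
    have h3 := mem_ball.1 (ht p hp).2
    have h4 := mem_ball.1 (ht q hq).2
    rw [e] at h3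
    rw [dist_eq_norm] at h2
    linarith
  have hex : ∃ P, Q P ∧ ∀ P', Q P' → P'.card ≤ P.card := by
    have hne : ∃ P, Q P ∧ P.card = Nat.findGreatest (fun k => ∃ P, Q P ∧ P.card = k)
        hTf.toFinset.card := Nat.findGreatest_spec (P := fun k => ∃ P, Q P ∧ P.card = k)
      (Nat.zero_le _) ⟨∅, ⟨by simp, by simp⟩, rfl⟩
    obtain ⟨P, hP, e⟩ := hne
    exact ⟨P, hP, fun P' hP' => e ▸ Nat.le_findGreatest (bd P' hP') ⟨P', hP', rfl⟩⟩
  obtain ⟨P, hP, hmax⟩ := hex
  refine ⟨P, fun p hp => (hP.1 p hp).1, fun p hp => (hP.1 p hp).2, hP.2, fun x hx hxR => ?_⟩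
  by_contra hcon
  push Not at hcon
  have hxP : x ∉ P := fun h => by simpa [hr.not_gt] using hcon x h
  have := hmax (insert x P) ⟨?_, ?_⟩
  · rw [Finset.card_insert_of_notMem hxP] at this
    omega
  · intro p hp
    rcases Finset.mem_insert.1 hp with rfl | hp
    · exact ⟨hx, hxR⟩
    · exact hP.1 p hp
  · intro p hp q hq hne
    rcases Finset.mem_insert.1 hp with rfl | hp' <;> rcases Finset.mem_insert.1 hq with rfl | hq'
    · exact absurd rfl hne
    · exact (hcon q hq').le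
    · rw [norm_sub_rev]; exact (hcon p hp').le
    · exact hP.2 p hp' q hq' hne

lemma Disc.area_ge (D : Disc N x n J pr h δ) (hδ : 0 ≤ δ) :
    ENNReal.ofReal (Real.pi * δ ^ 2) ≤ area N (closedBall x (2 * δ)) := by
  refine le_trans ?_ (measure_mono (s := gr n J h '' ball (pr x) δ) ?_)
  · rw [← vol_ball (pr x) hδ, ← setLIntegral_one, ← setLIntegral_one,
      D.lintegral Subset.rfl measurableSet_ball]
    exact lintegral_mono fun u => by
      rw [mul_one]; exact ENNReal.one_le_ofReal.2 (Chart.one_le_jac h u)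
  · rintro _ ⟨u, hu, rfl⟩
    rw [mem_closedBall_iff_norm]
    linarith [D.near u hu, mem_ball_iff_norm.1 hu]

/-- small balls about a point of a surface have positive area -/
lemma area_ball_pos (hN : IsSurf N) (hx : x ∈ N) {r : ℝ} (hr : 0 < r) : 0 < area N (ball x r) := by
  obtain ⟨t, h1, h2⟩ := ((Chart.lower_proof N hN x hx).and (Ioo_mem_nhdsGT hr)).exists
  exact (ENNReal.ofReal_pos.2 (pow_pos h2.1 2)).trans_le
    (h1.trans (measure_mono (ball_subset_ball h2.2.le)))

lemma integrable_area (hN : IsSurf N) {φ : E3 → ℝ} (hφ : Continuous φ)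
    (hc : HasCompactSupport φ) : Integrable φ (area N) :=
  haveI := Chart.locFin_proof N hN
  hφ.integrable_of_hasCompactSupport hc

/-- the bump at a point of the surface has positive integral -/
lemma integral_bump_pos (hN : IsSurf N) (hx : x ∈ N) {r : ℝ} (hr : 0 < r) :
    0 < ∫ y, bump x r y ∂(area N) := by
  rw [integral_pos_iff_support_of_nonneg (fun y => bump_nonneg x r y)
    (integrable_area hN (continuous_bump x r) (hasCompactSupport_bump x hr))]
  refine (area_ball_pos hN hx (r := r / 4) (by positivity)).trans_le (measure_mono fun y hy => ?_)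
  rw [Function.mem_support, bump_eq_one hr (mem_ball_iff_norm.1 hy).le]
  exact one_ne_zero

theorem close_proof : CloseStmt := by
  intro ι l N S R C r₀ c hr₀ hc hS hN hw ε hε
  have c0 : (0 : ℝ) < c := hc
  simp only [integral_smul_nnreal_measure, NNReal.smul_def, smul_eq_mul] at hw
  refine Eventually.and ?_ ?_
  · have hC : 0 < |C| + 1 := by positivity
    obtain ⟨δ, hδ, d1, d2, d3, d4⟩ : ∃ δ : ℝ, 0 < δ ∧ δ ≤ ε / 4 ∧ δ ≤ 1 / 2 ∧ δ ≤ r₀ / 4 ∧
        δ ≤ 1 / 20 / (|C| + 1) :=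
      ⟨min (min (ε / 4) (1 / 2)) (min (r₀ / 4) (1 / 20 / (|C| + 1))), by positivity,
        (min_le_left _ _).trans (min_le_left _ _), (min_le_left _ _).trans (min_le_right _ _),
        (min_le_right _ _).trans (min_le_left _ _), (min_le_right _ _).trans (min_le_right _ _)⟩
    rw [le_div_iff₀ hC] at d4
    set K : Set E3 := closedBall 0 (R + 1) ∩ ⋂ x ∈ S, (ball x (ε / 2))ᶜ with hK
    have Kc : IsCompact K := (isCompact_closedBall _ _).inter_right
      (isClosed_biInter fun x _ => isOpen_ball.isClosed_compl)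
    obtain ⟨φ, φ1, φ0, φc, φb⟩ := exists_continuous_one_zero_of_isCompact Kc hS.1
      (disjoint_left.2 fun y hy hyS => mem_iInter₂.1 hy.2 y hyS (mem_ball_self (half_pos hε)))
    have h0 : ∫ y, φ y ∂(area S) = 0 :=
      integral_eq_zero_of_ae (by filter_upwards [ae_mem hS] with y hy using φ0 hy)
    have h1 := hw φ φ.continuous φc
    rw [h0, mul_zero] at h1
    filter_upwards [hN, h1.eventually (gt_mem_nhds (show (0 : ℝ) < c * (Real.pi * δ ^ 2) by
      positivity))] with i hi h2 y hy hyR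
    by_contra hcon
    push Not at hcon
    obtain ⟨J, pr, h, D⟩ := exists_disc (δ := δ) (C := C) (r₀ := r₀) hi.1 hy hδ
      (by nlinarith [le_abs_self C]) (by linarith) fun z hz h3 => hi.2 z hz (by
        linarith [norm_sub_norm_le z y])
    have := Chart.locFin_proof _ hi.1
    have i1 := integrable_area hi.1 φ.continuous φc
    have h3 := setIntegral_ge_of_const_le_real (μ := area (N i)) (c := 1) (f := φ)
      (s := closedBall y (2 * δ)) measurableSet_closedBall measure_closedBall_lt_top.ne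
      (fun z hz => by
        have h4 := mem_closedBall_iff_norm.1 hz
        refine (φ1 ⟨mem_closedBall_zero_iff.2 (by linarith [norm_sub_norm_le z y]),
          mem_iInter₂.2 fun x hx hb => ?_⟩).ge
        linarith [hcon x hx, mem_ball_iff_norm.1 hb, norm_sub_le_norm_sub_add_norm_sub y z x,
          norm_sub_rev y z]) i1.integrableOn
    have h4 := setIntegral_le_integral (s := closedBall y (2 * δ)) i1
      (Eventually.of_forall fun z => (φb z).1)
    have h5 := (ENNReal.ofReal_le_iff_le_toReal measure_closedBall_lt_top.ne).1 (D.area_ge hδ.le)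
    rw [one_mul, Measure.real] at h3
    have := lt_of_mul_lt_mul_left h2 c0.le
    linarith
  · obtain ⟨P, hP⟩ := net_proof S R (ε / 2) (half_pos hε)
    have h1 : ∀ᶠ i in l, ∀ p ∈ P, ∃ y ∈ N i, ‖y - p‖ ≤ ε / 2 := by
      rw [eventually_all_finset]
      intro p hp
      have h2 := hw _ (continuous_bump p (ε / 2)) (hasCompactSupport_bump p (half_pos hε))
      filter_upwards [hN, h2.eventually (lt_mem_nhds (mul_pos c0
        (integral_bump_pos hS (hP.mem p hp) (half_pos hε))))] with i hi h3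
      by_contra hcon
      push Not at hcon
      rw [integral_eq_zero_of_ae (by
        filter_upwards [ae_mem hi.1] with y hy
        exact bump_eq_zero (half_pos hε) (by linarith [hcon y hy])), mul_zero] at h3
      exact lt_irrefl _ h3
    filter_upwards [h1] with i hi x hx hxR
    obtain ⟨p, hp, h2⟩ := hP.cover x hx hxR
    obtain ⟨y, hy, h3⟩ := hi p hp
    exact ⟨y, hy, by linarith [norm_sub_le_norm_sub_add_norm_sub y p x, norm_sub_rev p x]⟩

end Vale.Agent.P218F.Mesh
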