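import Vale.Agent.P218F.Tube3
import Vale.Agent.P218F.DynSpec
import Vale.Agent.P218FT.Local

/-! The truncated signed distance function of a surface with uniform two-point bounds. -/

open MeasureTheory Set Filter Topology Metric
open scoped RealInnerProductSpace ContDiff

namespace Vale.Agent.P218F.Tube

open Vale.Agent.P218.H313 (grad)
open Vale.Agent.P218.H63 (Theta bmp hasDerivAt_Theta Theta_eq Theta_ge Theta_le Theta_neg bmp_one
  bmp_zero exists_deriv_bmp_le)
open Vale.Agent.P218FT (E3 IsSurf IsEqn nu Hv relV TwoPt)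
open Vale.Agent.P218F.Dyn (Tube0 Tube3 SDStmt zs ee)

set_option linter.unusedSectionVars false
set_option linter.style.haveILetI false
set_option maxSynthPendingDepth 3

section theta

variable {a : ℝ} (ha : 0 < a)

lemma contDiff_Theta_inf : ContDiff ℝ ∞ (Theta a ha) := by
  refine contDiff_infty_iff_deriv.2 ⟨fun s => (hasDerivAt_Theta ha s).differentiableAt, ?_⟩
  have e : deriv (Theta a ha) = bmp a ha := funext fun s => (hasDerivAt_Theta ha s).deriv
  rw [e]
  exact (bmp a ha).contDiff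

lemma Theta_const {t : ℝ} (ht : 2 * a < |t|) : ∀ᶠ u in 𝓝 t, Theta a ha u = Theta a ha t := by
  have h1 : ∀ᶠ u in 𝓝 t, 2 * a < |u| :=
    continuousAt_const.eventually_lt continuous_abs.continuousAt ht
  obtain ⟨ε, hε, h2⟩ := Metric.eventually_nhds_iff_ball.1 h1
  filter_upwards [ball_mem_nhds t hε] with u hu
  refine (convex_ball t ε).is_const_of_fderivWithin_eq_zero (𝕜 := ℝ)
    (fun z _ => (hasDerivAt_Theta ha z).differentiableAt.differentiableWithinAt) (fun z hz => ?_)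
    hu (mem_ball_self hε)
  have h3 := (hasDerivAt_Theta ha z).hasFDerivAt
  rw [bmp_zero ha (h2 z hz).le] at h3
  rw [fderivWithin_of_isOpen isOpen_ball hz, h3.fderiv]
  simp

end theta

variable {E : Type*} [NormedAddCommGroup E] [InnerProductSpace ℝ E] [FiniteDimensional ℝ E]
variable {N : Set E} {n : E → E} {r : ℝ} {p q y z : E} {w s : E → ℝ} {a : ℝ} (ha : 0 < a)

lemma gr_eq_grad (w : E → ℝ) : gr w = grad w := rfl

namespace SD

variable (h : SD N n r s)
include h

omit h in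
lemma abs_lt_of_trunc (hy : |Theta a ha (s y)| < a) : |s y| < a := by
  by_contra h1
  exact absurd (Theta_ge ha (not_lt.1 h1)) (not_le.2 hy)

lemma trunc_ev (hy : |s y| < a) : (fun y => Theta a ha (s y)) =ᶠ[𝓝 y] s :=
  (h.ev_lt hy).mono fun _ hz => Theta_eq ha hz.le

lemma trunc_const (hy : 2 * a < |s y|) :
    (fun y => Theta a ha (s y)) =ᶠ[𝓝 y] fun _ => Theta a ha (s y) :=
  h.cont.continuousAt.eventually (Theta_const ha hy)

lemma trunc_contDiff (har : 2 * a ≤ r / 8) {m : ℕ} (hm : m ≠ 0)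
    (hw : ∀ p ∈ N, ∃ w, LEq (m + 1) N p w) : ContDiff ℝ (m + 1) fun y => Theta a ha (s y) := by
  refine contDiff_iff_contDiffAt.2 fun y => ?_
  rcases le_or_gt |s y| (2 * a) with hy | hy
  · obtain ⟨w, hw⟩ := hw _ (h.ft_mem y)
    exact ((contDiff_Theta_inf ha).of_le (by exact_mod_cast le_top)).contDiffAt.comp y
      (h.contDiffAt hm (hy.trans har) hw)
  · exact contDiffAt_const.congr_of_eventuallyEq (h.trunc_const ha hy)

lemma gr_trunc (har : 2 * a ≤ r / 8) :
    gr (fun y => Theta a ha (s y)) = fun y => bmp a ha (s y) • gr s y := by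
  have hr := h.pos
  ext1 y
  rcases le_or_gt |s y| (2 * a) with hy | hy
  · have hy2 : |s y| ≤ r / 2 := by linarith
    rw [h.gr_eq hy2]
    refine gr_eq_of_hasFDerivAt ?_
    rw [map_smul]
    exact (hasDerivAt_Theta ha (s y)).comp_hasFDerivAt y (h.hasFDerivAt hy2)
  · rw [bmp_zero ha hy.le, zero_smul]
    refine gr_eq_of_hasFDerivAt ?_
    rw [map_zero]
    exact (hasFDerivAt_const _ y).congr_of_eventuallyEq (h.trunc_const ha hy)

theorem tube0 (har : 2 * a ≤ r / 8) (hw : ∀ p ∈ N, ∃ w, LEq 2 N p w) {B Kb K : ℝ}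
    (hB : ∀ p ∈ N, |⟪p, n p⟫| ≤ B) (hKb : ∀ t, |deriv (bmp a ha) t| ≤ Kb)
    (h0 : 2 * a ≤ K) (h1 : 1 ≤ K) (h2 : 6 / r + Kb ≤ K) (h3 : B + 2 * a ≤ K) :
    Tube0 (fun y => Theta a ha (s y)) a K := by
  have hr := h.pos
  have e2 : (2 : WithTop ℕ∞) = (1 : ℕ) + 1 := by norm_num
  have hb : ∀ t, |bmp a ha t| ≤ 1 := fun t => by
    rw [abs_of_nonneg (bmp a ha).nonneg]; exact (bmp a ha).le_one
  refine ⟨ha, e2 ▸ h.trunc_contDiff ha har one_ne_zero (e2 ▸ hw),
    fun y => (Theta_le ha _).trans h0, fun y => ?_, fun y => ?_, fun y => ?_, fun y hy => ?_⟩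
  · rw [← gr_eq_grad, h.gr_trunc ha har]
    rcases le_or_gt |s y| (2 * a) with hy | hy
    · simp only [norm_smul, h.norm_gr (y := y) (by linarith), mul_one, Real.norm_eq_abs]
      exact (hb _).trans h1
    · simp only [bmp_zero ha hy.le, zero_smul, norm_zero]; linarith
  · rw [← gr_eq_grad, h.gr_trunc ha har]
    rcases le_or_gt |s y| (2 * a) with hy | hy
    · have hy2 : |s y| < r / 2 := by linarith
      obtain ⟨w, hw⟩ := hw _ (h.ft_mem y)
      have h4 : ContDiffAt ℝ 1 (gr s) y :=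
        contDiffAt_gr (h.contDiffAt one_ne_zero (hy.trans har) (e2 ▸ hw)) (by norm_num)
      have h5 : HasDerivAt (bmp a ha) (deriv (bmp a ha) (s y)) (s y) :=
        (((bmp a ha).contDiff (n := 1)).differentiable one_ne_zero _).hasDerivAt
      have h6 := (h5.comp_hasFDerivAt y (h.hasFDerivAt hy2.le)).smul
        (h4.differentiableAt one_ne_zero).hasFDerivAt
      refine (congrArg norm h6.fderiv).trans_le ((norm_add_le _ _).trans ?_)
      rw [norm_smul, ContinuousLinearMap.norm_smulRight_apply, norm_smul, innerSL_apply_norm,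
        h.norm_n, h.norm_gr hy2.le, Real.norm_eq_abs, Real.norm_eq_abs, mul_one, mul_one]
      have h7 := mul_le_mul (hb (s y)) (h.norm_hess hy2) (norm_nonneg _) zero_le_one
      have h8 := hKb (s y)
      rw [Function.comp_apply]
      linarith
    · have h4 : (fun y => bmp a ha (s y) • gr s y) =ᶠ[𝓝 y] fun _ => 0 := by
        filter_upwards [continuousAt_const.eventually_lt h.cont.abs.continuousAt hy] with z hz
        rw [bmp_zero ha hz.le, zero_smul]
      rw [h4.fderiv_eq, fderiv_fun_const]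
      simp only [Pi.zero_apply, norm_zero]
      linarith
  · rw [← gr_eq_grad, h.gr_trunc ha har]
    rcases le_or_gt |s y| (2 * a) with hy | hy
    · have h4 := h.decomp (y := y) (by linarith)
      have h5 : ⟪y, n (ft N y)⟫ = ⟪ft N y, n (ft N y)⟫ + s y := by
        conv_lhs => arg 2; rw [← h4]
        rw [inner_add_left, real_inner_smul_left, real_inner_self_eq_norm_sq, h.norm_n]
        ring
      simp only [h.gr_eq (y := y) (by linarith), real_inner_smul_right, h5, abs_mul]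
      have h6 := (abs_add_le _ _).trans (add_le_add (hB _ (h.ft_mem y)) hy)
      have h7 := mul_le_mul (hb (s y)) h6 (abs_nonneg _) zero_le_one
      linarith
    · simp only [bmp_zero ha hy.le, zero_smul, inner_zero_right, abs_zero]; linarith
  · have h4 := abs_lt_of_trunc ha hy
    rw [← gr_eq_grad, h.gr_trunc ha har]
    simp only [bmp_one ha h4.le, one_smul]
    exact h.norm_gr (by linarith)

lemma trunc_eq_zero : Theta a ha (s y) = 0 ↔ y ∈ N := by
  constructor
  · intro h0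
    have h1 := abs_lt_of_trunc ha (s := s) (y := y) (by rw [h0, abs_zero]; exact ha)
    rw [Theta_eq ha h1.le] at h0
    exact h.eq_zero.1 h0
  · intro h0
    rw [h.eq_zero.2 h0, Theta_eq ha (by rw [abs_zero]; exact ha.le)]

end SD

lemma leq_of_isEqn {N : Set E3} {p : E3} {w : E3 → ℝ} (h : IsEqn N p w) (m : ℕ) : LEq m N p w := by
  refine ⟨(h.1.of_le (by exact_mod_cast le_top)).contDiffAt, fun h0 => h.2.1 ?_, h.2.2⟩
  rw [← norm_eq_zero, P218FT.norm_grad, h0, norm_zero]

/-- the reach of a surface with uniform two-point bounds -/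
lemma hyp_of_twoPt {N : Set E3} {r C : ℝ} (hr : 0 < r) (hN : IsSurf N) (hne : N.Nonempty)
    (h2 : ∀ p ∈ N, TwoPt N p r C) : Hyp N (nu N) (2 * max C r⁻¹)⁻¹ := by
  have hM : 0 < max C r⁻¹ := lt_max_of_lt_right (by positivity)
  refine ⟨by positivity, hN.1, hne, fun p hp => hN.norm_nu hp,
    fun p hp => ⟨_, by exact_mod_cast leq_of_isEqn (hN.isEqn hp) 1⟩, fun p hp q hq => ?_⟩
  have h1 : |⟪q - p, nu N p⟫| ≤ max C r⁻¹ * ‖q - p‖ ^ 2 := by
    rcases le_total ‖q - p‖ r with h | h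
    · exact (h2 p hp q hq h).trans (by gcongr; exact le_max_left _ _)
    · have h3 : |⟪q - p, nu N p⟫| ≤ ‖q - p‖ := by
        simpa [hN.norm_nu hp] using abs_real_inner_le_norm (q - p) (nu N p)
      have h4 : ‖q - p‖ ≤ r⁻¹ * ‖q - p‖ ^ 2 := by
        rw [← div_eq_inv_mul, le_div_iff₀ hr]
        nlinarith [norm_nonneg (q - p)]
      exact h3.trans (h4.trans (by gcongr; exact le_max_right _ _))
  have e : 2 * (2 * max C r⁻¹)⁻¹ = (max C r⁻¹)⁻¹ := by field_simp
  rw [e, ← div_eq_inv_mul, div_le_iff₀ hM]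
  linarith

/-- the defect of a smooth tube function on its zero set -/
lemma ee_smul_grad {V : E3 → ℝ} {c K : ℝ} (hV : Tube0 V c K) (hs : ContDiff ℝ ∞ V) {p : E3}
    (hp : V p = 0) : (grad V p = nu (zs V) p ∨ grad V p = -nu (zs V) p) ∧
      ee V p • grad V p = -relV (zs V) 0 1 p := by
  have hc : |V p| < c := by rw [hp, abs_zero]; exact hV.cpos
  have h1 : ‖gradient V p‖ = 1 := hV.eik p hc
  have hE : IsEqn (zs V) p V :=
    ⟨hs, by rw [← norm_ne_zero_iff, h1]; norm_num, Eventually.of_forall fun _ => Iff.rfl⟩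
  have h2 : P218FT.nuw V p = grad V p := by rw [P218FT.nuw, h1, inv_one, one_smul]; rfl
  obtain ⟨ε, hε, h3, -⟩ := hE.nu_sh hp
  have h4 : grad V p = nu (zs V) p ∨ grad V p = -nu (zs V) p := by
    rcases hε with rfl | rfl
    · left; rw [h3, h2, one_smul]
    · right; rw [h3, h2, neg_one_smul, neg_neg]
  refine ⟨h4, ?_⟩
  have h5 : (fderiv ℝ (gradient V) p).comp (P218FT.pt (grad V p)) = fderiv ℝ (gradient V) p := by
    ext1 v
    rw [ContinuousLinearMap.comp_apply, P218FT.pt_apply, map_sub, map_smul]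
    have h6 : fderiv ℝ (gradient V) p (grad V p) = 0 := hV.hess_grad hc
    rw [h6, smul_zero, sub_zero]
  have h6 : P218FT.tr (P218FT.shw V p) = -P218.H313.tr (fderiv ℝ (grad V) p) := by
    rw [P218FT.shw, P218FT.tr_smul, h1, h2, h5]
    have h7 : P218FT.tr ((P218FT.pt (grad V p)).comp (fderiv ℝ (gradient V) p))
        = P218FT.tr ((fderiv ℝ (gradient V) p).comp (P218FT.pt (grad V p))) :=
      P218.H313.tr_comm _ _
    rw [h7, h5, inv_one, neg_one_mul]
    rfl
  have h7 : ⟪p, nu (zs V) p⟫ • nu (zs V) p = ⟪p, grad V p⟫ • grad V p := by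
    rcases h4 with e | e <;> simp [e]
  rw [relV, hE.Hv_eq hp, h6, h2, sub_zero, mul_smul, h7, ee]
  module

theorem sd_proof : SDStmt := by
  intro r C K hr
  obtain ⟨c₁, hc₁, hnw⟩ := exists_nw_bound E3
  set ρ := (2 * max C r⁻¹)⁻¹ with hρ
  have hρ0 : 0 < ρ := by
    have hM : 0 < max C r⁻¹ := lt_max_of_lt_right (by positivity)
    positivity
  set a := min (ρ / 16) (2 * (c₁ * |K| + 1))⁻¹ with ha'
  have ha : 0 < a := lt_min (by positivity) (by positivity)
  have har : 2 * a ≤ ρ / 8 := by linarith [min_le_left (ρ / 16) (2 * (c₁ * |K| + 1))⁻¹]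
  have haK : c₁ * |K| * a ≤ 1 / 2 := by
    have h1 : a ≤ (2 * (c₁ * |K| + 1))⁻¹ := min_le_right _ _
    rw [← one_div, le_div_iff₀ (by positivity)] at h1
    nlinarith
  obtain ⟨Kb, hKb0, hKb⟩ := exists_deriv_bmp_le ha
  refine ⟨a, 2 * a + 1 + (6 / ρ + Kb) + |K|, ha, fun L q => ?_⟩
  refine ⟨18 * (c₁ * K ^ 2 + c₁ * (|L| * (1 + a) ^ q)) + 36 / ρ * (c₁ * |K|),
    fun N hN hne h2 hw hB => ?_⟩
  obtain ⟨n, s, hn, h⟩ := (hyp_of_twoPt hr hN hne h2).exists_sd
  have hsm : ∀ m : ℕ, ∀ p ∈ N, ∃ w, LEq m N p w := fun m p hp =>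
    ⟨_, leq_of_isEqn (hN.isEqn hp) m⟩
  have hK0 := abs_nonneg K
  have h6 : 0 ≤ 6 / ρ := by positivity
  have hT : Tube0 (fun y => Theta a ha (s y)) a (2 * a + 1 + (6 / ρ + Kb) + |K|) := by
    refine h.tube0 ha har (by exact_mod_cast hsm 2) (B := |K|) (fun p hp => ?_) hKb
      (by linarith) (by linarith) (by linarith) (by linarith)
    refine le_trans ?_ ((hB p hp).trans (le_abs_self K))
    rcases hn p hp with e | e <;> simp [e]
  have hS : ContDiff ℝ ∞ fun y => Theta a ha (s y) := contDiff_infty.2 fun m =>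
    (h.trunc_contDiff ha har (m := m + 1) (Nat.succ_ne_zero m)
      (by exact_mod_cast hsm (m + 1 + 1))).of_le (by exact_mod_cast (by omega : m ≤ m + 1 + 1))
  have hz : zs (fun y => Theta a ha (s y)) = N := Set.ext fun y => h.trunc_eq_zero ha
  refine ⟨fun y => Theta a ha (s y), ⟨hT, contDiff_infty.1 hS 3, fun y hy => ?_⟩, hS,
    hz, fun y hy => ?_, fun p hp => ?_⟩
  · have h1 := SD.abs_lt_of_trunc ha hy
    have h3 : grad (fun y => Theta a ha (s y)) =ᶠ[𝓝 y] gr s := by
      filter_upwards [(h.trunc_ev ha h1).fderiv (𝕜 := ℝ)] with z hz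
      rw [← gr_eq_grad, gr, gr, hz]
    rw [h3.fderiv.fderiv_eq]
    obtain ⟨w, hw, hw1, hw2, hw3⟩ := hw _ (h.ft_mem y)
    have hw4 : LEq 3 N (ft N y) w := by exact_mod_cast leq_of_isEqn hw 3
    obtain ⟨h4, h5⟩ := hnw w _ hw4.1 hw1
    have hw2' : ‖fderiv ℝ (gr w) (ft N y)‖ ≤ |K| := hw2.trans (le_abs_self K)
    have h7 : ‖ft N y‖ ≤ ‖y‖ + a := by
      have h8 := norm_sub_norm_le (ft N y) y
      rw [norm_sub_rev, h.toHyp.norm_sub_ft, ← h.abs] at h8
      linarith
    have h8 : (1 : ℝ) ≤ (1 + ‖y‖) ^ q := one_le_pow₀ (by linarith [norm_nonneg y])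
    have hw3' : ‖fderiv ℝ (fderiv ℝ (gr w)) (ft N y)‖ ≤ |L| * (1 + a) ^ q * (1 + ‖y‖) ^ q := by
      refine hw3.trans ((mul_le_mul_of_nonneg_right (le_abs_self L) (by positivity)).trans ?_)
      rw [mul_assoc, ← mul_pow]
      gcongr
      nlinarith [norm_nonneg y]
    have h9 : ‖fderiv ℝ (gr w) (ft N y)‖ ^ 2 ≤ K ^ 2 := by
      rw [← sq_abs K]; gcongr
    have h10 := h.norm_third (by linarith) hw4 (a₁ := c₁ * |K|)
      (a₂ := c₁ * K ^ 2 + c₁ * (|L| * (1 + a) ^ q * (1 + ‖y‖) ^ q)) (h4.trans (by gcongr))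
      (h5.trans (by gcongr)) (le_trans (by gcongr) haK)
    refine h10.trans ?_
    have h11 : 0 ≤ 18 * (c₁ * K ^ 2) + 36 / ρ * (c₁ * |K|) := by positivity
    nlinarith [mul_le_mul_of_nonneg_left h8 h11]
  · have h1 : |s y| < a := hy.elim (SD.abs_lt_of_trunc ha) fun h1 => by rwa [h.abs]
    rw [← h.abs]
    exact congrArg abs (Theta_eq ha h1.le)
  · have h1 := ee_smul_grad hT hS (p := p) ((h.trunc_eq_zero ha).2 hp)
    rwa [hz] at h1

end Vale.Agent.P218F.Tube
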