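import Vale.Agent.P218F.DynFin
import Vale.Agent.P218F.DynST4
import Vale.Agent.P218F.DynST5
import Vale.Agent.P218F.DynST56
import Vale.Agent.P218F.DynST6
import Vale.Agent.P218F.DynF2
import Vale.Agent.P218F.DynAF
import Vale.Agent.P218F.DynGeo
import Vale.Agent.P218F.DynSlice
import Vale.Agent.P218F.DynShrBd
import Vale.Agent.P218F.TubeSD
import Vale.Agent.P218F.MeshB
import Vale.Agent.P218F.LgbFin
import Vale.Agent.P218F.EndsFin
import Vale.Agent.P218FT.ConvAll
import Vale.Agent.P218FT.ConvB

/-! Block DYN, assembled. -/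

namespace Vale.Agent.P218F.Dyn

open Vale.Agent.P218FT

universe u

theorem st56_proof : ST56Stmt := st56_of (st5_of DynF.field_proof) st6_proof

theorem geo_all : GeoStmt := Ge.geo_proof Tube.sd_proof (Sl.slice_proof fv_proof)

theorem shrBd_proof : ShrBdStmt := shrBd_of Ends.ends_proof

theorem static_of_ls (hLS : LSStmt) : StaticStmt :=
  static_of shrBd_proof Tube.sd_proof hLS geo_all st14_proof st56_proof Mesh.net_proof

theorem core_of_ls (hLS : LSStmt) : P218FS.CoreStmt :=
  DynCore.core_of_static fv_proof ev_proof cont_proof t1_all conv_all Conv.slice_proof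
    Conv.slimInt_proof
    (staticLoj_of Af.af_proof Mesh.poinc_proof Mesh.close_proof (static_of_ls hLS))

/-- **The final statement from the finite dimensional family.** -/
theorem final_of_ls (hLS : LSStmt) : P218FS.FinalStmt.{u} :=
  Lgb.final_of_core (core_of_ls hLS)

end Vale.Agent.P218F.Dyn
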