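import Vale.Agent.P218.H313.Main

/-! A Lojasiewicz inequality near one limit forces the rescaled flow to converge to it. -/

open MeasureTheory Set Filter Topology Metric
open scoped ENNReal NNReal RealInnerProductSpace

namespace Vale.Agent.P218F.DynFlow

open Vale.Agent.P218 Vale.Agent.P218.H313

set_option linter.unusedSectionVars false
set_option linter.unusedVariables false

/-! ### The length estimate -/

lemma lint_sublevel {Φ D : ℝ → ℝ} {a b u : ℝ} (hab : a ≤ b)
    (hD : IntervalIntegrable D volume a b) (hD0 : ∀ s, 0 ≤ D s) (hΦ0 : 0 ≤ Φ b)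
    (hΦ : ∀ s ∈ Icc a b, ∫ x in s..b, D x ≤ Φ s - Φ b) :
    ∫⁻ s in Icc a b ∩ {s | Φ s ≤ u}, ENNReal.ofReal (D s) ≤ ENNReal.ofReal u := by
  set A := Icc a b ∩ {s | Φ s ≤ u} with hA
  rcases A.eq_empty_or_nonempty with h | h
  · rw [h]; simp
  have hbd : BddBelow A := ⟨a, fun s hs => hs.1.1⟩
  set c := sInf A with hc
  have hcA : c ∈ closure A := csInf_mem_closure h hbd
  have hcI : c ∈ Icc a b := isClosed_Icc.closure_subset_iff.2 inter_subset_left hcA
  have hsub : A ⊆ Icc c b := fun s hs => ⟨csInf_le hbd hs, hs.1.2⟩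
  have hcont : ContinuousOn (fun s => ∫ x in s..b, D x) (Icc a b) := by
    have h1 := (intervalIntegral.continuousOn_primitive_interval' hD right_mem_uIcc).neg
    rw [uIcc_of_le hab] at h1
    refine h1.congr fun s _ => ?_
    simp only [Pi.neg_apply]
    rw [intervalIntegral.integral_symm]
  have hle : ∫ x in c..b, D x ≤ u := by
    refine ContinuousWithinAt.closure_le (f := fun s => ∫ x in s..b, D x) (g := fun _ => u) hcA
      ((hcont c hcI).mono inter_subset_left) continuousWithinAt_const fun s hs => ?_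
    have h1 := hΦ s hs.1
    have h2 : Φ s ≤ u := hs.2
    linarith
  have hI : IntegrableOn D (Icc c b) := by
    have : IntervalIntegrable D volume c b :=
      hD.mono_set (by rw [uIcc_of_le hcI.2, uIcc_of_le hab]; exact Icc_subset_Icc_left hcI.1)
    exact (intervalIntegrable_iff_integrableOn_Icc_of_le hcI.2).1 this
  calc ∫⁻ s in A, ENNReal.ofReal (D s) ≤ ∫⁻ s in Icc c b, ENNReal.ofReal (D s) :=
        lintegral_mono_set hsub
    _ = ENNReal.ofReal (∫ x in c..b, D x) := by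
        rw [intervalIntegral.integral_of_le hcI.2, ← integral_Icc_eq_integral_Ioc,
          ofReal_integral_eq_lintegral_ofReal hI (Eventually.of_forall hD0)]
    _ ≤ _ := ENNReal.ofReal_le_ofReal hle

lemma exists_level {θ C A e d : ℝ} (hθ0 : 0 < θ) (hC : 0 < C) (hA : 0 < A) (he0 : 0 ≤ e)
    (heA : e ≤ A) (hd : 0 < d) (h : e ^ θ ≤ C * √d) :
    ∃ k : ℕ, e ≤ A * (1 / 2) ^ k ∧ √d ≤ C * (A * (1 / 2) ^ (k + 1)) ^ (-θ) * d := by
  have hs : 0 < √d := Real.sqrt_pos.2 hd
  have hCs : 0 < C * √d := mul_pos hC hs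
  set y := min ((C * √d) ^ θ⁻¹) A with hy
  have hy0 : 0 < y := lt_min (Real.rpow_pos_of_pos hCs _) hA
  have hyA : y ≤ A := min_le_right _ _
  have hey : e ≤ y := by
    refine le_min ?_ heA
    calc e = (e ^ θ) ^ θ⁻¹ := (Real.rpow_rpow_inv he0 hθ0.ne').symm
      _ ≤ _ := Real.rpow_le_rpow (Real.rpow_nonneg he0 _) h (inv_nonneg.2 hθ0.le)
  have hyθ : y ^ θ ≤ C * √d := by
    calc y ^ θ ≤ ((C * √d) ^ θ⁻¹) ^ θ := Real.rpow_le_rpow hy0.le (min_le_left _ _) hθ0.le
      _ = _ := Real.rpow_inv_rpow hCs.le hθ0.ne'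
  obtain ⟨k, hk1, hk2⟩ := exists_nat_pow_near_of_lt_one (x := y / A) (y := (1 / 2 : ℝ))
    (div_pos hy0 hA) ((div_le_one hA).2 hyA) (by norm_num) (by norm_num)
  rw [lt_div_iff₀ hA] at hk1
  rw [div_le_iff₀ hA] at hk2
  refine ⟨k, by linarith, ?_⟩
  have hz : 0 < A * (1 / 2 : ℝ) ^ (k + 1) := by positivity
  have h1 : (A * (1 / 2 : ℝ) ^ (k + 1)) ^ θ ≤ C * √d :=
    (Real.rpow_le_rpow hz.le (by linarith) hθ0.le).trans hyθ
  have hzθ : 0 < (A * (1 / 2 : ℝ) ^ (k + 1)) ^ θ := Real.rpow_pos_of_pos hz _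
  rw [Real.rpow_neg hz.le]
  have e1 : C * ((A * (1 / 2 : ℝ) ^ (k + 1)) ^ θ)⁻¹ * d
      = (C * √d / (A * (1 / 2 : ℝ) ^ (k + 1)) ^ θ) * √d := by
    have := Real.mul_self_sqrt hd.le
    field_simp
    nlinarith
  rw [e1]
  have h2 : 1 ≤ C * √d / (A * (1 / 2 : ℝ) ^ (k + 1)) ^ θ := (one_le_div hzθ).2 h1
  nlinarith

lemma level_term {θ C A : ℝ} (hA : 0 < A) (k : ℕ) :
    C * (A * (1 / 2) ^ (k + 1)) ^ (-θ) * (A * (1 / 2) ^ k)
      = C * 2 ^ θ * A ^ (1 - θ) * ((1 / 2 : ℝ) ^ (1 - θ)) ^ k := by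
  have h2 : (0 : ℝ) < 1 / 2 := by norm_num
  have e1 : (A * (1 / 2 : ℝ) ^ (k + 1)) ^ (-θ)
      = A ^ (-θ) * (((1 / 2 : ℝ) ^ (-θ)) ^ k * (1 / 2 : ℝ) ^ (-θ)) := by
    rw [Real.mul_rpow hA.le (by positivity), pow_succ, Real.mul_rpow (by positivity) h2.le,
      ← Real.rpow_natCast, ← Real.rpow_natCast, ← Real.rpow_mul h2.le, ← Real.rpow_mul h2.le,
      mul_comm (k : ℝ)]
  have e2 : (1 / 2 : ℝ) ^ (-θ) = 2 ^ θ := by
    rw [Real.rpow_neg h2.le, one_div, Real.inv_rpow (by norm_num), inv_inv]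
  have e3 : A ^ (1 - θ) = A * A ^ (-θ) := by
    rw [sub_eq_add_neg, Real.rpow_add hA, Real.rpow_one]
  have e4 : (1 / 2 : ℝ) ^ (1 - θ) = (1 / 2) * (1 / 2 : ℝ) ^ (-θ) := by
    rw [sub_eq_add_neg, Real.rpow_add h2, Real.rpow_one]
  rw [e1, e3, e4, mul_pow, e2]
  ring

lemma sqrt_le_add {d η : ℝ} (hd : 0 ≤ d) (hη : 0 < η) : √d ≤ η + d / η := by
  have h1 := Real.mul_self_sqrt hd
  have h2 := Real.sqrt_nonneg d
  have h3 : √d * η ≤ (η + d / η) * η := by
    have : (η + d / η) * η = η * η + d := by field_simp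
    rw [this]
    nlinarith [sq_nonneg (√d - η)]
  exact le_of_mul_le_mul_right h3 hη

lemma intervalIntegrable_sqrt {D : ℝ → ℝ} {a b : ℝ} (hD : IntervalIntegrable D volume a b)
    (hD0 : ∀ s, 0 ≤ D s) : IntervalIntegrable (fun s => √(D s)) volume a b := by
  rw [intervalIntegrable_iff] at hD ⊢
  have h1 : IntegrableOn (fun s => 1 + D s / 1) (uIoc a b) :=
    (integrableOn_const (by simp [uIoc])).add (hD.div_const 1)
  refine h1.mono' (Real.continuous_sqrt.comp_aestronglyMeasurable hD.1)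
    (Eventually.of_forall fun s => ?_)
  rw [Real.norm_of_nonneg (Real.sqrt_nonneg _)]
  exact sqrt_le_add (hD0 s) one_pos

/-- **Finite length from the Lojasiewicz inequality.** -/
theorem length_le {θ C : ℝ} (hθ0 : 0 < θ) (hθ : θ < 1) (hC : 0 < C) :
    ∃ K : ℝ, 0 ≤ K ∧ ∀ (Φ D : ℝ → ℝ) (a b A : ℝ), a ≤ b → 0 < A →
      IntervalIntegrable D volume a b → (∀ s, 0 ≤ D s) → AntitoneOn Φ (Icc a b) → 0 ≤ Φ b →
      Φ a ≤ A → (∀ s ∈ Icc a b, ∫ x in s..b, D x ≤ Φ s - Φ b) →
      (∀ᵐ s ∂(volume.restrict (Icc a b)), Φ s ^ θ ≤ C * √(D s)) →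
      ∫ s in a..b, √(D s) ≤ K * A ^ (1 - θ) := by
  set r : ℝ := (1 / 2 : ℝ) ^ (1 - θ) with hr
  have hr0 : 0 ≤ r := by positivity
  have hr1 : r < 1 := Real.rpow_lt_one (by norm_num) (by norm_num) (by linarith)
  have hr2 : 0 < 1 - r := by linarith
  refine ⟨C * 2 ^ θ * (1 - r)⁻¹, by positivity, fun Φ D a b A hab hA hD hD0 hanti hb hAa hΦ hL => ?_⟩
  set B : ℕ → Set ℝ := fun k => Icc a b ∩ {s | Φ s ≤ A * (1 / 2) ^ k} with hB
  have hBm : ∀ k, MeasurableSet (B k) := by
    intro k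
    refine OrdConnected.measurableSet ⟨fun x hx y hy z hz => ?_⟩
    have hzI : z ∈ Icc a b := ⟨hx.1.1.trans hz.1, hz.2.trans hy.1.2⟩
    exact ⟨hzI, (hanti hx.1 hzI hz.1).trans hx.2⟩
  set w : ℕ → ℝ := fun k => C * (A * (1 / 2) ^ (k + 1)) ^ (-θ) with hw
  have hw0 : ∀ k, 0 ≤ w k := fun k => by simp only [hw]; positivity
  have hDI : IntegrableOn D (Icc a b) := (intervalIntegrable_iff_integrableOn_Icc_of_le hab).1 hD
  have hsI : IntegrableOn (fun s => √(D s)) (Icc a b) :=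
    (intervalIntegrable_iff_integrableOn_Icc_of_le hab).1 (intervalIntegrable_sqrt hD hD0)
  have hm : AEMeasurable (fun s => ENNReal.ofReal (D s)) (volume.restrict (Icc a b)) :=
    hDI.1.aemeasurable.ennreal_ofReal
  have h1 : ∫⁻ s in Icc a b, ENNReal.ofReal √(D s) ≤
      ∫⁻ s in Icc a b, ∑' k, ENNReal.ofReal (w k) *
        (B k).indicator (fun s => ENNReal.ofReal (D s)) s := by
    refine lintegral_mono_ae ?_
    filter_upwards [hL, ae_restrict_mem measurableSet_Icc] with s hs hsI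
    rcases (hD0 s).eq_or_lt with h0 | h0
    · rw [← h0]; simp
    have hs0 : 0 ≤ Φ s := hb.trans (hanti hsI (right_mem_Icc.2 hab) hsI.2)
    have hsA : Φ s ≤ A := (hanti (left_mem_Icc.2 hab) hsI hsI.1).trans hAa
    obtain ⟨k, hk1, hk2⟩ := exists_level hθ0 hC hA hs0 hsA h0 hs
    refine le_trans ?_ (ENNReal.le_tsum k)
    rw [indicator_of_mem (show s ∈ B k from ⟨hsI, hk1⟩), ← ENNReal.ofReal_mul (hw0 k)]
    exact ENNReal.ofReal_le_ofReal hk2
  have h2 : ∫⁻ s in Icc a b, ∑' k, ENNReal.ofReal (w k) *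
        (B k).indicator (fun s => ENNReal.ofReal (D s)) s
      ≤ ∑' k : ℕ, ENNReal.ofReal (C * 2 ^ θ * A ^ (1 - θ) * r ^ k) := by
    rw [lintegral_tsum fun k => (hm.indicator (hBm k)).const_mul _]
    refine ENNReal.tsum_le_tsum fun k => ?_
    rw [lintegral_const_mul' _ _ ENNReal.ofReal_ne_top, lintegral_indicator (hBm k),
      Measure.restrict_restrict (hBm k), inter_eq_left.2 inter_subset_left, ← level_term hA k,
      ENNReal.ofReal_mul (hw0 k)]
    gcongr
    exact lint_sublevel hab hD hD0 hb hΦ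
  have h3 : ∑' k : ℕ, ENNReal.ofReal (C * 2 ^ θ * A ^ (1 - θ) * r ^ k)
      = ENNReal.ofReal (C * 2 ^ θ * (1 - r)⁻¹ * A ^ (1 - θ)) := by
    rw [← ENNReal.ofReal_tsum_of_nonneg (fun k => by positivity)
      ((summable_geometric_of_lt_one hr0 hr1).mul_left _), tsum_mul_left,
      tsum_geometric_of_lt_one hr0 hr1]
    congr 1; ring
  rw [intervalIntegral.integral_of_le hab, ← integral_Icc_eq_integral_Ioc,
    ← ENNReal.ofReal_le_ofReal_iff (by positivity),
    ofReal_integral_eq_lintegral_ofReal hsI (Eventually.of_forall fun s => Real.sqrt_nonneg _), ← h3]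
  exact h1.trans h2

/-! ### Motion of the slices -/

variable {E : Type*} [NormedAddCommGroup E] [InnerProductSpace ℝ E] [FiniteDimensional ℝ E]
  [MeasurableSpace E] [BorelSpace E]
variable {m : ℕ} {N : ℝ → Measure E} {T : ℝ → E → Submodule ℝ E} {H : ℝ → E → E} {s₀ : ℝ}
  {κ : Measure E}

lemma LL_le {μ : Measure E} {T : E → Submodule ℝ E} {H : E → E} (hS : GSlice m μ T H)
    {f : E → ℝ} (hf : PG f) (hf0 : ∀ x, 0 ≤ f x) {B : ℝ} (hB : ∀ x, ‖fderiv ℝ f x‖ ≤ B) :
    LL μ T H f ≤ B * √(FA μ) * √(dis μ T H) := by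
  have hB0 : 0 ≤ B := (norm_nonneg _).trans (hB 0)
  have hv := hS.toSlice.vel_meas
  have i0 : Integrable (fun x => (1 : ℝ) ^ 2 * rho x) μ := by simpa using hS.mom 0
  have i2 : Integrable (fun x => ‖vel T H x‖ ^ 2 * rho x) μ := by simpa using hS.vsq 0
  have i1 : Integrable (fun x => 1 * ‖vel T H x‖ * rho x) μ := by
    refine hS.integrable (u := fun x => 1 * ‖vel T H x‖) (hv.norm.const_mul 1) (C := 1) (p := 0)
      (Eventually.of_forall fun x => ?_)
    rw [one_mul, abs_norm, pow_zero, mul_one, one_mul]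
    nlinarith [sq_nonneg (‖vel T H x‖ - 1), norm_nonneg (vel T H x)]
  have h1 := abs_integral_mul_le (a := fun _ => 1) (b := fun x => ‖vel T H x‖) (r := rho)
    (fun x => (rho_pos x).le) i0 i2 i1
  have ia : Integrable (fun x => fderiv ℝ f x (vel T H x) * rho x) μ := by
    have h2 := hS.integrable_inner_vel (X := grad f)
      (continuous_grad hf.cd).aestronglyMeasurable
      (PB.of_bound (C := B) fun x => by rw [norm_grad]; exact hB x)
    simpa only [inner_grad] using h2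
  have ib := hS.integrable_mul_vel_sq hf.cont.aestronglyMeasurable hf.b0
  have h3 : LL μ T H f ≤ ∫ x, B * (1 * ‖vel T H x‖ * rho x) ∂μ := by
    unfold LL
    refine integral_mono ?_ (i1.const_mul B) fun x => ?_
    · refine (ia.sub ib).congr (Eventually.of_forall fun x => ?_)
      simp only [Pi.sub_apply]; ring
    · have e1 : fderiv ℝ f x (vel T H x) ≤ B * ‖vel T H x‖ := by
        refine (le_abs_self _).trans ?_
        rw [← Real.norm_eq_abs]
        exact ((fderiv ℝ f x).le_opNorm _).trans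
          (mul_le_mul_of_nonneg_right (hB x) (norm_nonneg _))
      have e2 : 0 ≤ f x * ‖vel T H x‖ ^ 2 := mul_nonneg (hf0 x) (sq_nonneg _)
      have e3 := (rho_pos x).le
      calc (fderiv ℝ f x (vel T H x) - f x * ‖vel T H x‖ ^ 2) * rho x
          ≤ (B * ‖vel T H x‖) * rho x := mul_le_mul_of_nonneg_right (by linarith) e3
        _ = _ := by ring
  rw [integral_const_mul] at h3
  refine h3.trans ?_
  rw [mul_assoc]
  refine mul_le_mul_of_nonneg_left ((le_abs_self _).trans (h1.trans (le_of_eq ?_))) hB0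
  unfold FA dis
  simp

/-- the dissipation along the flow -/
noncomputable abbrev dd (N : ℝ → Measure E) (T : ℝ → E → Submodule ℝ E) (H : ℝ → E → E)
    (s : ℝ) : ℝ := dis (N s) (T s) (H s)

lemma sqrt_int (h : RF m N T H s₀) {a b : ℝ} (ha : s₀ ≤ a) (hab : a ≤ b) :
    IntervalIntegrable (fun s => √(dd N T H s)) volume a b :=
  intervalIntegrable_sqrt (h.dis_int ha hab).1 fun _ => dis_nonneg

lemma integrable_bdd (h : RF m N T H s₀) {s : ℝ} (hs : s₀ ≤ s) {f : E → ℝ} (hf : Continuous f)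
    {A : ℝ} (hA : ∀ x, |f x| ≤ A) : Integrable (fun x => f x * rho x) (N s) := by
  obtain ⟨C, hC⟩ := h.moment 0
  have h1 : Integrable (fun x => A * rho x) (N s) := by
    have := (hC s hs).1.const_mul A
    simpa using this
  refine h1.mono' (hf.mul continuous_rho).aestronglyMeasurable (Eventually.of_forall fun x => ?_)
  rw [Real.norm_eq_abs, abs_mul, abs_of_pos (rho_pos x)]
  exact mul_le_mul_of_nonneg_right (hA x) (rho_pos x).le

lemma move_le' (h : RF m N T H s₀) {f : E → ℝ} (hf : ContDiff ℝ 1 f) {A B : ℝ}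
    (hA : ∀ x, |f x| ≤ A) (hB : ∀ x, ‖fderiv ℝ f x‖ ≤ B) {a b : ℝ} (ha : s₀ ≤ a) (hab : a ≤ b) :
    ∫ x, f x * rho x ∂(N b) - ∫ x, f x * rho x ∂(N a)
      ≤ B * √(FA (N s₀)) * (∫ s in a..b, √(dd N T H s)) + A * (FA (N a) - FA (N b)) := by
  have hB0 : 0 ≤ B := (norm_nonneg _).trans (hB 0)
  have hpf : PG f := ⟨hf, PB.of_bound (C := A) fun x => by rw [Real.norm_eq_abs]; exact hA x,
    PB.of_bound hB⟩
  have hg : PG fun x => f x + A := hpf.add (PG.const A)
  have hg0 : ∀ x, 0 ≤ f x + A := fun x => by have := (abs_le.1 (hA x)).1; linarith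
  have hgB : ∀ x, ‖fderiv ℝ (fun x => f x + A) x‖ ≤ B := fun x => by
    rw [fderiv_add_const]; exact hB x
  obtain ⟨h1, h2⟩ := h.ineq_PG hg hg0 ha hab
  have h3 : ∫ s in a..b, LL (N s) (T s) (H s) (fun x => f x + A)
      ≤ ∫ s in a..b, B * √(FA (N s₀)) * √(dd N T H s) := by
    refine intervalIntegral.integral_mono_ae_restrict hab h1 ((sqrt_int h ha hab).const_mul _) ?_
    filter_upwards [h.ae_gslice ha hab, ae_restrict_mem measurableSet_Icc] with s hs hs'
    refine (LL_le hs hg hg0 hgB).trans ?_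
    have := h.FA_anti le_rfl (ha.trans hs'.1)
    gcongr
  rw [intervalIntegral.integral_const_mul] at h3
  have e : ∀ s, s₀ ≤ s → ∫ x, (f x + A) * rho x ∂(N s)
      = ∫ x, f x * rho x ∂(N s) + A * FA (N s) := by
    intro s hs
    have i1 := integrable_bdd h hs hf.continuous hA
    have i2 := integrable_bdd h hs (f := fun _ => A) continuous_const (A := |A|) fun _ => le_rfl
    unfold FA
    rw [← integral_const_mul, ← integral_add i1 i2]
    congr 1; ext x; ring
  rw [e b (ha.trans hab), e a ha] at h2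
  linarith

/-- the integrals of a test function move at most by the length and the drop -/
theorem exists_move (h : RF m N T H s₀) {φ : E → ℝ} (hφ : ContDiff ℝ 1 φ)
    (hφc : HasCompactSupport φ) : ∃ A : ℝ, 0 ≤ A ∧ ∀ a b, s₀ ≤ a → a ≤ b →
      |∫ x, φ x ∂(N b) - ∫ x, φ x ∂(N a)|
        ≤ A * ((∫ s in a..b, √(dd N T H s)) + (FA (N a) - FA (N b))) := by
  set f : E → ℝ := fun x => φ x * Real.exp (‖x‖ ^ 2 / 4) with hf
  have hf1 : ContDiff ℝ 1 f := hφ.mul (contDiff_rho_inv (n := 1))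
  have hfc : HasCompactSupport f := hφc.mul_right
  obtain ⟨A, hA⟩ := hf1.continuous.bounded_above_of_compact_support hfc
  obtain ⟨B, hB⟩ := (hf1.continuous_fderiv (by norm_num)).bounded_above_of_compact_support
    (hfc.fderiv (𝕜 := ℝ))
  have hA0 : 0 ≤ A := (norm_nonneg _).trans (hA 0)
  have hB0 : 0 ≤ B := (norm_nonneg _).trans (hB 0)
  refine ⟨B * √(FA (N s₀)) + A, by positivity, fun a b ha hab => ?_⟩
  have h1 := move_le' h hf1 (A := A) (fun x => by rw [← Real.norm_eq_abs]; exact hA x) hB ha hab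
  have h2 := move_le' h hf1.neg (A := A) (B := B)
    (fun x => by rw [abs_neg, ← Real.norm_eq_abs]; exact hA x)
    (fun x => by rw [fderiv_fun_neg, norm_neg]; exact hB x) ha hab
  simp only [neg_mul, integral_neg] at h2
  simp only [hf, int_div_rho] at h1 h2
  have h3 : 0 ≤ ∫ s in a..b, √(dd N T H s) :=
    intervalIntegral.integral_nonneg hab fun s _ => Real.sqrt_nonneg _
  have h4 := h.FA_anti ha hab
  have h5 : 0 ≤ B * √(FA (N s₀)) := by positivity
  rw [abs_le]
  constructor <;> nlinarith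

lemma sqrt_int_le (h : RF m N T H s₀) {a b η : ℝ} (ha : s₀ ≤ a) (hab : a ≤ b) (hη : 0 < η) :
    ∫ s in a..b, √(dd N T H s) ≤ η * (b - a) + (FA (N a) - FA (N b)) / η := by
  obtain ⟨h1, h2⟩ := h.dis_int ha hab
  have h3 : ∫ s in a..b, √(dd N T H s) ≤ ∫ s in a..b, (η + dd N T H s / η) :=
    intervalIntegral.integral_mono_on hab (sqrt_int h ha hab)
      (intervalIntegrable_const.add (h1.div_const η)) fun s _ => sqrt_le_add dis_nonneg hη
  rw [intervalIntegral.integral_add intervalIntegrable_const (h1.div_const η),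
    intervalIntegral.integral_const, intervalIntegral.integral_div, smul_eq_mul] at h3
  have h4 : (∫ s in a..b, dd N T H s) / η ≤ (FA (N a) - FA (N b)) / η := by gcongr
  linarith

/-- the rescaled flow varies slowly -/
theorem slow (h : RF m N T H s₀) : Slow N s₀ where
  bdd := by
    intro K hK
    obtain ⟨R, hR⟩ := hK.isBounded.subset_closedBall (0 : E)
    set M := Real.exp (R ^ 2 / 4) * FA (N s₀) with hM
    refine ⟨M.toNNReal, fun τ hτ => ?_⟩
    have hfin := h.fin τ hτ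
    have i1 : Integrable (fun x => Real.exp (R ^ 2 / 4) * rho x) (N τ) :=
      integrable_bdd h hτ (f := fun _ => Real.exp (R ^ 2 / 4)) continuous_const fun _ => le_rfl
    have h1 : (N τ).real K ≤ M := by
      calc (N τ).real K = ∫ x, K.indicator 1 x ∂(N τ) :=
            (integral_indicator_one hK.measurableSet).symm
        _ ≤ ∫ x, Real.exp (R ^ 2 / 4) * rho x ∂(N τ) := by
            refine integral_mono ((integrable_const (1 : ℝ)).indicator hK.measurableSet) i1
              fun x => ?_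
            by_cases hx : x ∈ K
            · have h2 : ‖x‖ ≤ R := mem_closedBall_zero_iff.1 (hR hx)
              simp only [indicator_of_mem hx, Pi.one_apply, rho]
              rw [← Real.exp_add, Real.one_le_exp_iff]
              nlinarith [norm_nonneg x]
            · simp only [indicator_of_notMem hx]
              exact mul_nonneg (Real.exp_pos _).le (rho_pos x).le
        _ = Real.exp (R ^ 2 / 4) * FA (N τ) := integral_const_mul _ _
        _ ≤ M := mul_le_mul_of_nonneg_left (h.FA_anti le_rfl hτ) (Real.exp_pos _).le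
    rw [← ENNReal.ofReal_toReal (measure_ne_top (N τ) K)]
    exact ENNReal.ofReal_le_ofReal h1
  slow := by
    intro φ hφ hφc k hk ε hε
    obtain ⟨A, hA0, hA⟩ := exists_move h hφ hφc
    set η := ε / (3 * (A + 1) * k) with hη
    have hη0 : 0 < η := by positivity
    set δ := min (ε / (3 * (A + 1))) (η * (ε / (3 * (A + 1)))) with hδ
    have hδ0 : 0 < δ := lt_min (by positivity) (by positivity)
    obtain ⟨S, hS, hdrop⟩ := H552.exists_drop_le (θ := fun s => FA (N s)) (τ₀ := s₀)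
      (fun a b ha hab => h.FA_anti ha hab) (fun s => RF.FA_nonneg _) hδ0
    refine ⟨S, hS, fun τ τ' h1 h2 h3 => (hA τ τ' (hS.trans h1) h2).trans ?_⟩
    have h4 := sqrt_int_le h (hS.trans h1) h2 hη0
    have h5 := hdrop τ τ' h1 h2
    have h6 : (FA (N τ) - FA (N τ')) / η ≤ ε / (3 * (A + 1)) := by
      rw [div_le_iff₀ hη0, mul_comm]; exact h5.trans (min_le_right _ _)
    have h7 : FA (N τ) - FA (N τ') ≤ ε / (3 * (A + 1)) := h5.trans (min_le_left _ _)
    have h8 : η * (τ' - τ) ≤ ε / (3 * (A + 1)) := by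
      calc η * (τ' - τ) ≤ η * k := mul_le_mul_of_nonneg_left (by linarith) hη0.le
        _ = _ := by rw [hη]; field_simp
    calc A * ((∫ s in τ..τ', √(dd N T H s)) + (FA (N τ) - FA (N τ')))
        ≤ A * (3 * (ε / (3 * (A + 1)))) := mul_le_mul_of_nonneg_left (by linarith) hA0
      _ = ε * (A / (A + 1)) := by field_simp
      _ ≤ ε := mul_le_of_le_one_right hε.le ((div_le_one (by linarith)).2 (by linarith))

lemma exists_not_of_not_ae (h : RF m N T H s₀) {a : ℝ} (ha : s₀ ≤ a) {p : ℝ → Prop}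
    (hp : ¬ ∀ᵐ s ∂(volume.restrict (Icc a (a + 1))), p s) :
    ∃ s ∈ Icc a (a + 1), GSlice m (N s) (T s) (H s) ∧ ¬ p s := by
  by_contra hcon
  push Not at hcon
  refine hp ?_
  filter_upwards [h.ae_gslice ha (by linarith : a ≤ a + 1), ae_restrict_mem measurableSet_Icc]
    with s h1 h2 using hcon s h2 h1

/-- the Gaussian areas decrease to the Gaussian area of any limit -/
theorem tendsto_FA (h : RF m N T H s₀) [IsLocallyFiniteMeasure κ] {τ : ℕ → ℝ}
    (hτ : Tendsto τ atTop atTop) (hκ : WeakTendsto (fun i => N (τ i)) κ) :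
    Tendsto (fun s => FA (N s)) atTop (𝓝 (FA κ)) ∧ ∀ s, s₀ ≤ s → FA κ ≤ FA (N s) := by
  have key : ∀ i, ∃ s ∈ Icc (max (τ i) s₀) (max (τ i) s₀ + 1), GSlice m (N s) (T s) (H s) := by
    intro i
    obtain ⟨s, h1, h2, -⟩ := exists_not_of_not_ae h (le_max_right (τ i) s₀) (p := fun _ => False)
      (by
        intro h0
        rw [ae_iff] at h0
        simp at h0)
    exact ⟨s, h1, h2⟩
  choose σ hσ hg using key
  have hσt : Tendsto σ atTop atTop :=
    tendsto_atTop_mono (fun i => (le_max_left _ _).trans (hσ i).1) hτ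
  have hw : WeakTendsto (fun i => N (σ i)) κ := by
    refine (slow h).weakTendsto_shift hτ one_pos ?_ hκ
    filter_upwards [hτ.eventually_ge_atTop s₀] with i hi
    have h1 := hσ i
    rw [max_eq_left hi] at h1
    rw [abs_le]
    constructor <;> linarith [h1.1, h1.2]
  have h1 : Tendsto σ atTop (nearF m N T H κ) :=
    tendsto_nearF hσt (Eventually.of_forall hg) fun φ h1 h2 => hw φ h1 h2
  have h2 : Tendsto (fun i => FA (N (σ i))) atTop (𝓝 (FA κ)) := by
    have h3 := (h.lim_PB (κ := κ) (f := fun _ => 1) continuous_const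
      (PB.of_bound (C := 1) fun _ => by simp)).comp h1
    simpa [FA, Function.comp_def] using h3
  have h4 : ∀ s, s₀ ≤ s → FA κ ≤ FA (N s) := by
    intro s hs
    refine le_of_tendsto h2 ?_
    filter_upwards [hσt.eventually_ge_atTop s] with i hi using h.FA_anti hs hi
  refine ⟨tendsto_order.2 ⟨fun c hc => ?_, fun c hc => ?_⟩, h4⟩
  · filter_upwards [eventually_ge_atTop s₀] with s hs using hc.trans_le (h4 s hs)
  · obtain ⟨i, hi1, hi2⟩ := ((h2.eventually (gt_mem_nhds hc)).and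
      (hσt.eventually_ge_atTop s₀)).exists
    filter_upwards [eventually_ge_atTop (σ i)] with s hs using (h.FA_anti hi2 hs).trans_lt hi1

/-- from ultrafilters to a uniform constant -/
lemma exists_uniform {ι : Type*} {l : Filter ι} {p : ℕ → ι → Prop}
    (hp : ∀ n n' i, n ≤ n' → p n i → p n' i)
    (h : ∀ U : Ultrafilter ι, (U : Filter ι) ≤ l → ∃ n, ∀ᶠ i in (U : Filter ι), p n i) :
    ∃ n, ∀ᶠ i in l, p n i := by
  by_contra hcon
  push Not at hcon
  have hne : (⨅ n : ℕ, l ⊓ 𝓟 {i | ¬ p n i}).NeBot := by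
    refine iInf_neBot_of_directed' ?_ fun n => ?_
    · refine directed_of_isDirected_le fun n n' hn => inf_le_inf_left _ (principal_mono.2 ?_)
      exact fun i hi hi' => hi (hp n n' i hn hi')
    · exact frequently_iff_neBot.1 (hcon n)
  obtain ⟨n, hn⟩ := h (Ultrafilter.of (⨅ n : ℕ, l ⊓ 𝓟 {i | ¬ p n i}))
    ((Ultrafilter.of_le _).trans ((iInf_le _ 0).trans inf_le_left))
  have h2 : ∀ᶠ i in (Ultrafilter.of (⨅ n : ℕ, l ⊓ 𝓟 {i | ¬ p n i}) : Filter ι), ¬ p n i :=
    ((Ultrafilter.of_le _).trans ((iInf_le _ n).trans inf_le_right)) (mem_principal_self _)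
  obtain ⟨i, h3, h4⟩ := (hn.and h2).exists
  exact h4 h3

/-- **Convergence from the Lojasiewicz inequality.** -/
theorem converge (h : RF m N T H s₀) [IsLocallyFiniteMeasure κ] {τ : ℕ → ℝ}
    (hτ : Tendsto τ atTop atTop) (hκ : WeakTendsto (fun i => N (τ i)) κ) {θ C : ℝ}
    (hθ0 : 0 < θ) (hθ : θ < 1) (hC : 0 < C)
    (hL : ∀ᶠ s in nearF m N T H κ, (FA (N s) - FA κ) ^ θ ≤ C * √(dd N T H s))
    {φ : E → ℝ} (hφ : Continuous φ) (hφc : HasCompactSupport φ) :
    Tendsto (fun s => ∫ x, φ x ∂(N s)) atTop (𝓝 (∫ x, φ x ∂κ)) := by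
  obtain ⟨K, hK0, hK⟩ := length_le hθ0 hθ hC
  obtain ⟨hF, hF0⟩ := tendsto_FA h hτ hκ
  set Φ : ℝ → ℝ := fun s => FA (N s) - FA κ with hΦ
  set p : ℝ → Prop := fun s => Φ s ^ θ ≤ C * √(dd N T H s) with hp
  have hΦt : Tendsto Φ atTop (𝓝 0) := by
    have := hF.sub_const (FA κ)
    rwa [sub_self] at this
  obtain ⟨n₀, hn₀⟩ := eventually_atTop.1 (hτ.eventually_ge_atTop s₀)
  have hsh : Tendsto (fun n : ℕ => n + n₀) atTop atTop := tendsto_add_atTop_nat n₀
  set σ : ℕ → ℝ := fun i => τ (i + n₀) with hσ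
  have hσ0 : ∀ i, s₀ ≤ σ i := fun i => hn₀ _ (by omega)
  have hσt : Tendsto σ atTop atTop := hτ.comp hsh
  have hσκ : WeakTendsto (fun i => N (σ i)) κ := fun φ h1 h2 => (hκ φ h1 h2).comp hsh
  -- the small quantity at the index `i`
  set e : ℕ → ℝ := fun i => K * (Φ (σ i) + 1 / ((i : ℝ) + 1)) ^ (1 - θ) + Φ (σ i) with he
  have het : Tendsto e atTop (𝓝 0) := by
    have h1 : Tendsto (fun i : ℕ => Φ (σ i) + 1 / ((i : ℝ) + 1)) atTop (𝓝 0) := by
      have := (hΦt.comp hσt).add tendsto_one_div_add_atTop_nhds_zero_nat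
      rwa [add_zero] at this
    have h2 := ((h1.rpow_const (p := 1 - θ) (Or.inr (by linarith))).const_mul K).add (hΦt.comp hσt)
    rwa [Real.zero_rpow (by linarith), mul_zero, add_zero] at h2
  have hlen : ∀ i b, σ i ≤ b → (∀ᵐ s ∂(volume.restrict (Icc (σ i) b)), p s) →
      (∫ s in (σ i)..b, √(dd N T H s)) + (FA (N (σ i)) - FA (N b)) ≤ e i := by
    intro i b hb hae
    have h0 : 0 ≤ Φ (σ i) := sub_nonneg.2 (hF0 _ (hσ0 i))
    have hb0 := hF0 b ((hσ0 i).trans hb)
    have h1 := hK Φ (dd N T H) (σ i) b (Φ (σ i) + 1 / ((i : ℝ) + 1)) hb (by positivity)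
      (h.dis_int (hσ0 i) hb).1 (fun _ => dis_nonneg)
      (fun s hs t _ hst => sub_le_sub_right (h.FA_anti ((hσ0 i).trans hs.1) hst) _)
      (sub_nonneg.2 hb0) (le_add_of_nonneg_right (by positivity))
      (fun s hs => by
        have := (h.dis_int ((hσ0 i).trans hs.1) hs.2).2
        simp only [hΦ]; linarith) hae
    simp only [he, hΦ] at h1 ⊢
    linarith
  -- sequences which stay within small length of `σ i` converge to `κ`
  have hconv : ∀ t : ℕ → ℝ, (∀ i, σ i ≤ t i) →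
      (∀ᶠ i in atTop, ∀ᵐ s ∂(volume.restrict (Icc (σ i) (t i))), p s) →
      WeakTendsto (fun i => N (t i)) κ := by
    intro t ht hae
    refine weakTendsto_of_contDiff (slow h) (fun i => (hσ0 i).trans (ht i)) fun ψ hψ hψc => ?_
    obtain ⟨A, hA0, hA⟩ := exists_move h (hψ.of_le (by norm_num)) hψc
    have h1 : Tendsto (fun i => ∫ x, ψ x ∂(N (t i)) - ∫ x, ψ x ∂(N (σ i))) atTop (𝓝 0) := by
      have h2 := het.const_mul A
      rw [mul_zero] at h2
      refine squeeze_zero_norm' ?_ h2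
      filter_upwards [hae] with i hi
      exact (hA _ _ (hσ0 i) (ht i)).trans (mul_le_mul_of_nonneg_left (hlen i _ (ht i) hi) hA0)
    have h3 := h1.add (hσκ ψ hψ.continuous hψc)
    simpa using h3
  have hstep : ∀ (a : ℝ) (k : ℕ),
      (∀ j < k, ∀ᵐ s ∂(volume.restrict (Icc (a + j) (a + j + 1))), p s) →
      ∀ᵐ s ∂(volume.restrict (Icc a (a + k))), p s := by
    intro a k
    induction k with
    | zero => intro _; simp
    | succ k ih =>
      intro hj
      have h1 := ih fun j hjk => hj j (by omega)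
      have h2 := hj k (by omega)
      have hk : (0 : ℝ) ≤ k := k.cast_nonneg
      have e1 : Icc a (a + (k + 1 : ℕ)) = Icc a (a + k) ∪ Icc (a + k) (a + k + 1) := by
        rw [Icc_union_Icc_eq_Icc (by linarith) (by linarith)]; push_cast; rw [add_assoc]
      rw [e1, ae_restrict_union_iff]
      exact ⟨h1, h2⟩
  -- from some index on the inequality holds for almost all later times
  have hall : ∃ i, ∀ k : ℕ, ∀ᵐ s ∂(volume.restrict (Icc (σ i + k) (σ i + k + 1))), p s := by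
    by_contra hcon
    simp only [not_exists, not_forall] at hcon
    classical
    set k : ℕ → ℕ := fun i => Nat.find (hcon i) with hk
    have hk0 : ∀ i, (0 : ℝ) ≤ k i := fun i => (k i).cast_nonneg
    have h1 : ∀ i, ∃ s ∈ Icc (σ i + k i) (σ i + k i + 1), GSlice m (N s) (T s) (H s) ∧ ¬ p s :=
      fun i => exists_not_of_not_ae h (by linarith [hσ0 i, hk0 i]) (Nat.find_spec (hcon i))
    choose t ht hg hn using h1
    have h2 : WeakTendsto (fun i => N (σ i + k i)) κ := by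
      refine hconv _ (fun i => by linarith [hk0 i]) (Eventually.of_forall fun i => ?_)
      exact hstep _ _ fun j hj => not_not.1 (Nat.find_min (hcon i) hj)
    have h3 : Tendsto (fun i => σ i + k i) atTop atTop :=
      tendsto_atTop_mono (fun i => by linarith [hk0 i]) hσt
    have h4 : WeakTendsto (fun i => N (t i)) κ := by
      refine (slow h).weakTendsto_shift h3 one_pos (Eventually.of_forall fun i => ?_) h2
      rw [abs_le]
      constructor <;> linarith [(ht i).1, (ht i).2]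
    have h5 : Tendsto t atTop (nearF m N T H κ) :=
      tendsto_nearF (tendsto_atTop_mono (fun i => (ht i).1) h3) (Eventually.of_forall hg)
        fun φ h1 h2 => h4 φ h1 h2
    obtain ⟨i, hi⟩ := (h5.eventually hL).exists
    exact hn i hi
  obtain ⟨i₀, hi₀⟩ := hall
  have hae : ∀ a b, σ i₀ ≤ a → ∀ᵐ s ∂(volume.restrict (Icc a b)), p s := by
    intro a b ha
    obtain ⟨k, hk⟩ := exists_nat_ge (b - σ i₀)
    exact ae_restrict_of_ae_restrict_of_subset (Icc_subset_Icc ha (by linarith))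
      (hstep (σ i₀) k fun j _ => hi₀ j)
  by_contra hcon
  rw [Metric.tendsto_atTop] at hcon
  push Not at hcon
  obtain ⟨ε, hε, hcon⟩ := hcon
  choose t ht1 ht2 using fun i => hcon (σ i)
  have h6 := hconv t ht1 (by
    filter_upwards [hσt.eventually_ge_atTop (σ i₀)] with i hi using hae _ _ hi) φ hφ hφc
  obtain ⟨i, hi⟩ := (Metric.tendsto_nhds.1 h6 ε hε).exists
  exact absurd hi (not_lt.2 (ht2 i))

/-- The same, from the static inequality along ultrafilters of good times with vanishing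
dissipation. -/
theorem converge_of_static (h : RF m N T H s₀) [IsLocallyFiniteMeasure κ] {τ : ℕ → ℝ}
    (hτ : Tendsto τ atTop atTop) (hκ : WeakTendsto (fun i => N (τ i)) κ) {γ : ℝ}
    (hγ : 1 / 2 < γ)
    (hL : ∀ U : Ultrafilter ℝ, (U : Filter ℝ) ≤ nearF m N T H κ →
      Tendsto (dd N T H) U (𝓝 0) →
      ∃ C : ℝ, ∀ᶠ s in (U : Filter ℝ), FA (N s) - FA κ ≤ C * dd N T H s ^ γ)
    {φ : E → ℝ} (hφ : Continuous φ) (hφc : HasCompactSupport φ) :
    Tendsto (fun s => ∫ x, φ x ∂(N s)) atTop (𝓝 (∫ x, φ x ∂κ)) := by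
  have hγ0 : 0 < γ := by linarith
  obtain ⟨hF, hF0⟩ := tendsto_FA h hτ hκ
  have h1 : ∃ n : ℕ, ∀ᶠ s in nearF m N T H κ, FA (N s) - FA κ ≤ n * dd N T H s ^ γ := by
    refine exists_uniform (fun n n' s hn hs => hs.trans ?_) fun U hU => ?_
    · exact mul_le_mul_of_nonneg_right (by exact_mod_cast hn) (Real.rpow_nonneg dis_nonneg _)
    by_cases h0 : Tendsto (dd N T H) U (𝓝 0)
    · obtain ⟨C, hC⟩ := hL U hU h0
      obtain ⟨n, hn⟩ := exists_nat_ge C
      exact ⟨n, hC.mono fun s hs =>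
        hs.trans (mul_le_mul_of_nonneg_right hn (Real.rpow_nonneg dis_nonneg _))⟩
    · rw [Metric.tendsto_nhds] at h0
      push Not at h0
      obtain ⟨δ, hδ, h0⟩ := h0
      have hδγ : 0 < δ ^ γ := Real.rpow_pos_of_pos hδ _
      obtain ⟨n, hn⟩ := exists_nat_ge (FA (N s₀) / δ ^ γ)
      rw [div_le_iff₀ hδγ] at hn
      refine ⟨n, ?_⟩
      filter_upwards [h0, (hU.trans nearF_atTop) (eventually_ge_atTop s₀)] with s h2 h3
      rw [dist_zero_right, Real.norm_of_nonneg dis_nonneg] at h2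
      have h4 := h.FA_anti le_rfl h3
      have h5 := RF.FA_nonneg κ
      have h6 : (n : ℝ) * δ ^ γ ≤ n * dd N T H s ^ γ :=
        mul_le_mul_of_nonneg_left (Real.rpow_le_rpow hδ.le h2 hγ0.le) n.cast_nonneg
      linarith
  obtain ⟨n, hn⟩ := h1
  have hθ0 : 0 < (2 * γ)⁻¹ := by positivity
  refine converge h hτ hκ hθ0 (inv_lt_one_of_one_lt₀ (by linarith))
    (C := ((n : ℝ) + 1) ^ (2 * γ)⁻¹) (by positivity) ?_ hφ hφc
  filter_upwards [hn, nearF_atTop (eventually_ge_atTop s₀)] with s h2 h3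
  have hd : 0 ≤ dd N T H s := dis_nonneg
  have hdγ := Real.rpow_nonneg hd γ
  calc (FA (N s) - FA κ) ^ (2 * γ)⁻¹ ≤ (((n : ℝ) + 1) * dd N T H s ^ γ) ^ (2 * γ)⁻¹ :=
        Real.rpow_le_rpow (sub_nonneg.2 (hF0 s h3)) (by nlinarith) hθ0.le
    _ = _ := by
        rw [Real.mul_rpow (by positivity) hdγ, ← Real.rpow_mul hd, Real.sqrt_eq_rpow]
        congr 2
        field_simp

end Vale.Agent.P218F.DynFlow
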