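import Vale.Agent.P218F.DynBridge
import Vale.Agent.P218F.DynFlow
import Vale.Agent.P218F.EndsSpec
import Vale.Agent.P218FS.Spec

/-! The core statement follows from the static Lojasiewicz inequality. -/

open MeasureTheory Set Filter Topology Metric
open scoped ENNReal NNReal RealInnerProductSpace ContDiff

namespace Vale.Agent.P218F.DynCore

open Vale.Agent.P218FT
open Vale.Agent.P218 (WeakTendsto fnl weakTendsto_iff)
open Vale.Agent.P218.H313 (GSlice RF rho dis FA Conv nearF nearF_atTop)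
open Vale.Agent.P218F.Dyn (hm tg Cv)
open Vale.Agent.P218F.DynBridge

/-- **The static Lojasiewicz inequality** near a nonempty shrinker of class `C(D, G)`, for
families of smooth surfaces with locally uniform two-point bounds. -/
def StaticLojStmt : Prop :=
  ∀ (D G : ℝ) (S : Set E3), IsShr S → InC D G (ssFlow S) (Iio 0) → S.Nonempty →
    ∀ (l : Filter ℝ) (N : ℝ → Set E3), (∀ᶠ s in l, IsSurf (N s)) →
      (∀ R : ℝ, ∃ r C : ℝ, 0 < r ∧ 0 < C ∧ ∀ᶠ s in l, ∀ y ∈ N s, ‖y‖ ≤ R → TwoPt (N s) y r C) →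
      Cv l (fun s => hm (N s)) (fun s => tg (N s)) (fun s => Hv (N s)) (hm S) →
      ∃ γ : ℝ, 1 / 2 < γ ∧ ∀ U : Ultrafilter ℝ, (U : Filter ℝ) ≤ l →
        Tendsto (fun s => dis (hm (N s)) (tg (N s)) (Hv (N s))) U (𝓝 0) →
        ∃ C : ℝ, ∀ᶠ s in (U : Filter ℝ),
          FA (hm (N s)) - FA (hm S) ≤ C * dis (hm (N s)) (tg (N s)) (Hv (N s)) ^ γ

lemma ssFlow_neg_one (S : Set E3) : ssFlow S (-1) = S := by
  rw [ssFlow, neg_neg, Real.sqrt_one, scaleSet_one_zero]

/-- convergence to the zero measure -/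
lemma tendsto_zero {N : ℝ → Measure E3} {T : ℝ → E3 → Submodule ℝ E3} {H : ℝ → E3 → E3} {s₀ : ℝ}
    (h : RF 2 N T H s₀) (h0 : Tendsto (fun s => FA (N s)) atTop (𝓝 0)) {φ : E3 → ℝ}
    (hφ : Continuous φ) (hφc : HasCompactSupport φ) :
    Tendsto (fun s => ∫ x, φ x ∂(N s)) atTop (𝓝 0) := by
  set f : E3 → ℝ := fun x => φ x * Real.exp (‖x‖ ^ 2 / 4) with hf
  have hf1 : Continuous f := by fun_prop
  obtain ⟨A, hA⟩ := hf1.bounded_above_of_compact_support hφc.mul_right
  have h1 := h0.const_mul A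
  rw [mul_zero] at h1
  refine squeeze_zero_norm' ?_ h1
  filter_upwards [eventually_ge_atTop s₀] with s hs
  rw [← Vale.Agent.P218.H313.int_div_rho, FA, ← integral_const_mul]
  refine norm_integral_le_of_norm_le
    (DynFlow.integrable_bdd h hs (f := fun _ => A) continuous_const fun _ => le_rfl)
    (Eventually.of_forall fun x => ?_)
  rw [norm_mul, Real.norm_of_nonneg (Vale.Agent.P218.H313.rho_pos x).le]
  exact mul_le_mul_of_nonneg_right (hA x) (Vale.Agent.P218.H313.rho_pos x).le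

lemma scaleFlow_eq {lam s : ℝ} (hl : 0 < lam) (hs : s < 0) (M : ℝ → Set E3) (x₀ : E3) (b : ℝ) :
    scaleFlow lam x₀ b M s = scaleSet (√(-s)) 0 (rs M x₀ b (2 * Real.log (lam / √(-s)))) := by
  have h1 : 0 < √(-s) := Real.sqrt_pos.2 (by linarith)
  have h2 : Real.exp (2 * Real.log (lam / √(-s)) / 2) = lam / √(-s) := by
    rw [mul_div_cancel_left₀ _ two_ne_zero, Real.exp_log (div_pos hl h1)]
  rw [rs_eq, h2, scaleFlow_apply, scaleFlow_apply, scaleSet_scaleSet, smul_zero, add_zero,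
    div_mul_cancel₀ _ h1.ne', div_pow, Real.sq_sqrt (by linarith)]
  congr 3
  field_simp

/-- **The core statement from the static inequality.** -/
theorem core_of_static (hFV : FVStmt) (hEV : EVStmt) (hC : ContStmt) (hT : T1Stmt)
    (hConv : ConvStmt) (hSl : Ends.SliceStmt) (hInt : SLimIntStmt) (hL : StaticLojStmt) :
    P218FS.CoreStmt := by
  intro D G M a b hab hcl hM x₀
  obtain ⟨R, hR⟩ := hcl.bdd
  obtain ⟨s₀, h0⟩ := exists_start hab
  have hRF := rf hFV hEV hC hM.mcf hM.ratio hR x₀ h0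
  set U : Ultrafilter ℕ := Ultrafilter.of atTop with hU
  have hUle : (U : Filter ℕ) ≤ atTop := Ultrafilter.of_le _
  have hlam : Tendsto (fun n : ℕ => Real.exp ((s₀ + n) / 2)) U atTop :=
    (Real.tendsto_exp_atTop.comp ((tendsto_atTop_add_const_left _ s₀
      tendsto_natCast_atTop_atTop).atTop_div_const two_pos)).mono_left hUle
  obtain ⟨S, hS, hSC, hlim, -⟩ := hConv D G M a b hab hM x₀ ℕ U _ hlam
  have h1 := hSl ℕ U _ _ _ hlim (-1) (by norm_num)
  simp only [← rs_eq, ssFlow_neg_one] at h1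
  have hlf := locFin_hm hS.1
  have hsurf : ∀ n : ℕ, IsSurf (rs M x₀ b (s₀ + n)) := fun n =>
    isSurf_rs hM.mcf x₀ h0 (le_add_of_nonneg_right n.cast_nonneg)
  have h2 : Tendsto (fun n : ℕ => fnl (hm (rs M x₀ b (s₀ + n)))) U (𝓝 (fnl (hm S))) := by
    rw [tendsto_pi_nhds]
    intro φ
    obtain ⟨L, hL⟩ := φ.hasCompactSupport.isCompact.isBounded.subset_ball 0
    have h3 := hInt ℕ U _ S (Eventually.of_forall hsurf) hS.1 h1 (fun q => φ q.1) L
      (φ.continuous.comp continuous_fst) fun q hq => image_eq_zero_of_notMem_tsupport fun h =>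
        absurd (mem_ball_zero_iff.1 (hL h)) (not_lt.2 hq)
    simp only [fnl, integral_hm]
    exact h3.const_mul _
  have h3 : fnl (hm S) ∈ fnl '' Vale.Agent.P218.limitSet fun s => hm (rs M x₀ b s) := by
    rw [(DynFlow.slow hRF).image_limitSet]
    exact h2.mapClusterPt.mono hUle
  obtain ⟨κ, ⟨-, τ, hτ, hκ⟩, hκS⟩ := h3
  rw [weakTendsto_iff, hκS, ← weakTendsto_iff] at hκ
  have key : ∀ φ : E3 → ℝ, Continuous φ → HasCompactSupport φ →
      Tendsto (fun s => ∫ x, φ x ∂(hm (rs M x₀ b s))) atTop (𝓝 (∫ x, φ x ∂(hm S))) := by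
    intro φ hφ hφc
    rcases S.eq_empty_or_nonempty with he | hne
    · have h4 := (DynFlow.tendsto_FA hRF hτ hκ).1
      have h5 : hm S = 0 := by rw [he, hm, Measure.restrict_empty]
      rw [h5, FA, integral_zero_measure] at h4
      rw [h5, integral_zero_measure]
      exact tendsto_zero hRF h4 hφ hφc
    · obtain ⟨γ, hγ, h4⟩ := hL D G S hS hSC hne
        (nearF 2 (fun s => hm (rs M x₀ b s)) (fun s => tg (rs M x₀ b s))
          (fun s => Hv (rs M x₀ b s)) (hm S)) (rs M x₀ b)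
        (nearF_atTop ((eventually_ge_atTop s₀).mono fun s hs => isSurf_rs hM.mcf x₀ h0 hs))
        (fun L => by
          obtain ⟨r, C, hr, hC, h⟩ := twoPt_rs hT hab hM x₀ L
          exact ⟨r, C, hr, hC, nearF_atTop h⟩)
        (fun V hV => hRF.conv hV)
      exact DynFlow.converge_of_static hRF hτ hκ hγ h4 hφ hφc
  refine ⟨S, hS.1, hS.2, fun s hs φ hφ hφc => ?_⟩
  have hk : 0 < √(-s) := Real.sqrt_pos.2 (by linarith)
  have h4 : Tendsto (fun lam : ℝ => 2 * Real.log (lam / √(-s))) atTop atTop :=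
    (Real.tendsto_log_atTop.comp (tendsto_id.atTop_div_const hk)).const_mul_atTop two_pos
  have h5 := ((key (fun x => φ (√(-s) • (x - 0))) (by fun_prop)
    (hφc.comp_homeomorph (Sc.dnH _ hk.ne' 0))).comp h4).const_mul (√(-s) ^ 2 * cE)
  rw [integral_scale hk, integral_area, smul_eq_mul, ← mul_assoc]
  refine h5.congr' ?_
  filter_upwards [eventually_gt_atTop 0] with lam hl
  rw [scaleFlow_eq hl hs, integral_scale hk, integral_area, smul_eq_mul, ← mul_assoc]
  rfl

end Vale.Agent.P218F.DynCore
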