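import Vale.Agent.P223.H316.Flow3
import Mathlib.MeasureTheory.Integral.IntervalIntegral.FundThmCalculus
import Mathlib.Analysis.SpecialFunctions.ExpDeriv
import Mathlib.Analysis.InnerProductSpace.Calculus

/-! A transport equation `Da X + w a = -χ` solved along the flow of `X`, with bounds. -/

open Set Filter Topology Metric
open scoped NNReal RealInnerProductSpace

namespace Vale.Agent.P218F.DynF

open Vale.Agent.P223.H316

section flows

variable {E : Type} [NormedAddCommGroup E] [NormedSpace ℝ E] [FiniteDimensional ℝ E]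

theorem exists_sol {F : E → E} (hF : ContDiff ℝ 1 F) {L : ℝ} (hb : ∀ x, ‖F x‖ ≤ L) (x : E)
    {T : ℝ} (hT : 0 < T) : ∃ f : ℝ → E, f 0 = x ∧ ∀ t ∈ Ioo (-T) T, HasDerivAt f (F (f t)) t := by
  have : CompleteSpace E := FiniteDimensional.complete ℝ E
  have hL : 0 ≤ L := (norm_nonneg _).trans (hb x)
  set a : ℝ := L * T with ha
  have ha0 : 0 ≤ a := by positivity
  obtain ⟨K, hK, -, hK2⟩ := lip_ball hF (‖x‖ + a)
  have hsub : closedBall x a ⊆ closedBall 0 (‖x‖ + a) := by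
    intro y hy
    rw [mem_closedBall_zero_iff]
    rw [mem_closedBall, dist_eq_norm] at hy
    have := norm_le_norm_add_norm_sub' y x
    linarith
  have hlip : LipschitzOnWith (Real.toNNReal K) F (closedBall x (⟨a, ha0⟩ : ℝ≥0)) :=
    LipschitzOnWith.of_dist_le_mul fun y hy z hz => by
      rw [dist_eq_norm, dist_eq_norm, Real.coe_toNNReal _ (by linarith)]
      exact hK2 y (hsub hy) z (hsub hz)
  have h0 : (0 : ℝ) ∈ Icc (-T) T := ⟨by linarith, hT.le⟩
  have hP : IsPicardLindelof (fun _ => F) (tmin := -T) (tmax := T) ⟨0, h0⟩ x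
      (⟨a, ha0⟩ : ℝ≥0) 0 (⟨L, hL⟩ : ℝ≥0) (Real.toNNReal K) := by
    refine IsPicardLindelof.of_time_independent (fun y _ => hb y) hlip ?_
    simp only [sub_zero, zero_sub, neg_neg, max_self, NNReal.coe_zero]
    exact le_of_eq ha.symm
  obtain ⟨f, hf0, hf⟩ := hP.exists_eq_forall_mem_Icc_hasDerivWithinAt₀
  exact ⟨f, hf0, fun t ht => (hf t ⟨ht.1.le, ht.2.le⟩).hasDerivAt (Icc_mem_nhds ht.1 ht.2)⟩

theorem sol_unique_Ioo {F : E → E} (hF : ContDiff ℝ 1 F) {f g : ℝ → E} {T : ℝ}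
    (hf : ∀ t ∈ Ioo (-T) T, HasDerivAt f (F (f t)) t)
    (hg : ∀ t ∈ Ioo (-T) T, HasDerivAt g (F (g t)) t)
    (h0 : f 0 = g 0) {t : ℝ} (ht : t ∈ Ioo (-T) T) : f t = g t := by
  set S : ℝ := (|t| + T) / 2 with hS
  have ht' : |t| < T := abs_lt.2 ht
  have h1 : |t| < S := by rw [hS]; linarith
  have h2 : S < T := by rw [hS]; linarith
  have hsub : Icc (-S) S ⊆ Ioo (-T) T := fun s hs => ⟨by linarith [hs.1], by linarith [hs.2]⟩
  have hfc : ContinuousOn f (Icc (-S) S) := fun s hs =>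
    (hf s (hsub hs)).continuousAt.continuousWithinAt
  have hgc : ContinuousOn g (Icc (-S) S) := fun s hs =>
    (hg s (hsub hs)).continuousAt.continuousWithinAt
  obtain ⟨R₁, h3⟩ := (isCompact_Icc (a := -S) (b := S)).exists_bound_of_continuousOn hfc
  obtain ⟨R₂, h4⟩ := (isCompact_Icc (a := -S) (b := S)).exists_bound_of_continuousOn hgc
  obtain ⟨K, hK, -, hK2⟩ := lip_ball hF (max R₁ R₂)
  have hl : LipschitzOnWith (Real.toNNReal K) F (closedBall 0 (max R₁ R₂)) :=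
    LipschitzOnWith.of_dist_le_mul fun x hx y hy => by
      rw [dist_eq_norm, dist_eq_norm, Real.coe_toNNReal _ (by linarith)]
      exact hK2 x hx y hy
  have hS0 : 0 < S := (abs_nonneg t).trans_lt h1
  have h5 := ODE_solution_unique_of_mem_Ioo (v := fun _ => F)
    (s := fun _ => closedBall 0 (max R₁ R₂)) (a := -S) (b := S) (t₀ := 0)
    (fun _ _ => hl) ⟨by linarith, hS0⟩
    (fun s hs => ⟨hf s (hsub ⟨hs.1.le, hs.2.le⟩), mem_closedBall_zero_iff.2
      ((h3 s ⟨hs.1.le, hs.2.le⟩).trans (le_max_left _ _))⟩)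
    (fun s hs => ⟨hg s (hsub ⟨hs.1.le, hs.2.le⟩), mem_closedBall_zero_iff.2
      ((h4 s ⟨hs.1.le, hs.2.le⟩).trans (le_max_right _ _))⟩) h0
  exact h5 ⟨by linarith [neg_abs_le t], by linarith [le_abs_self t]⟩

/-- bounded `C¹` vector fields are complete -/
theorem exists_flw {F : E → E} (hF : ContDiff ℝ 1 F) {L : ℝ} (hb : ∀ x, ‖F x‖ ≤ L) :
    ∃ Φ, Flw F Φ := by
  choose f hf0 hf using fun (x : E) (T : {T : ℝ // 0 < T}) => exists_sol hF hb x T.2
  let τ : ℝ → {T : ℝ // 0 < T} := fun t => ⟨|t| + 1, by positivity⟩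
  have hmem : ∀ t : ℝ, t ∈ Ioo (-(|t| + 1)) (|t| + 1) := fun t =>
    ⟨by linarith [neg_abs_le t], by linarith [le_abs_self t]⟩
  have hag : ∀ x (T₁ T₂ : {T : ℝ // 0 < T}) t, t ∈ Ioo (-T₁.1) T₁.1 → t ∈ Ioo (-T₂.1) T₂.1 →
      f x T₁ t = f x T₂ t := by
    intro x T₁ T₂ t h1 h2
    refine sol_unique_Ioo hF (T := min T₁.1 T₂.1) (fun s hs => hf x T₁ s
      ⟨by linarith [hs.1, min_le_left T₁.1 T₂.1], by linarith [hs.2, min_le_left T₁.1 T₂.1]⟩)
      (fun s hs => hf x T₂ s ⟨by linarith [hs.1, min_le_right T₁.1 T₂.1],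
        by linarith [hs.2, min_le_right T₁.1 T₂.1]⟩) ((hf0 x T₁).trans (hf0 x T₂).symm) ?_
    refine ⟨?_, lt_min h1.2 h2.2⟩
    rw [neg_lt, lt_min_iff]
    exact ⟨by linarith [h1.1], by linarith [h2.1]⟩
  refine ⟨fun t x => f x (τ t) t, fun z => hf0 z _, fun t z => ?_⟩
  have h1 := hf z (τ (|t| + 1)) t (by
    change t ∈ Ioo (-(|(|t| + 1)| + 1)) (|(|t| + 1)| + 1)
    rw [abs_of_pos (by positivity : (0 : ℝ) < |t| + 1)]
    exact ⟨by linarith [neg_abs_le t], by linarith [le_abs_self t]⟩)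
  have h2 : ∀ s : ℝ, |s| < |t| + 1 → f z (τ s) s = f z (τ (|t| + 1)) s := by
    intro s hs
    refine hag z _ _ s (hmem s) ?_
    change s ∈ Ioo (-(|(|t| + 1)| + 1)) (|(|t| + 1)| + 1)
    rw [abs_of_pos (by positivity : (0 : ℝ) < |t| + 1)]
    exact ⟨by linarith [neg_abs_le s], by linarith [le_abs_self s]⟩
  rw [h2 t (by linarith)]
  refine h1.congr_of_eventuallyEq ?_
  have h3 : ∀ᶠ s in 𝓝 t, |s| < |t| + 1 :=
    (continuous_abs.tendsto t).eventually (gt_mem_nhds (lt_add_one |t|))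
  filter_upwards [h3] with s hs
  exact h2 s hs

omit [FiniteDimensional ℝ E] in
/-- a flow augmented by the integral of a function along the orbits -/
theorem flw_aug {F : E → E} {Φ : ℝ → E → E} (hΦ : Flw F Φ) {g : E → ℝ} (hg : Continuous g) :
    Flw (fun p : E × ℝ => (F p.1, g p.1))
      (fun t p => (Φ t p.1, p.2 + ∫ r in (0 : ℝ)..t, g (Φ r p.1))) := by
  refine ⟨fun p => by simp [hΦ.zero], fun t p => (hΦ.der t p.1).prodMk ?_⟩
  have hc : Continuous fun r => g (Φ r p.1) := hg.comp (hΦ.cont_time p.1)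
  exact (intervalIntegral.integral_hasDerivAt_right (hc.intervalIntegrable 0 t)
    (hc.stronglyMeasurableAtFilter _ _) hc.continuousAt).const_add p.2

/-- the flow of a `C¹` vector field is `C¹` -/
theorem flw_contDiff {F : E → E} {Φ : ℝ → E → E} (hΦ : Flw F Φ) (hF : ContDiff ℝ 1 F) {T : ℝ}
    (hT : 0 ≤ T) : ContDiff ℝ 1 (Φ T) := by
  refine contDiff_one_iff_fderiv.2 ⟨fun z => hΦ.diff hF T z, ?_⟩
  refine continuous_iff_continuousAt.2 fun z₀ => Metric.continuousAt_iff'.2 fun ε hε => ?_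
  obtain ⟨r, R, K, hr, hK, hK1, htube, hlip⟩ := hΦ.tube hF z₀ T
  have hz₀ : z₀ ∈ ball z₀ r := mem_ball_self hr
  set e : ℝ := Real.exp (K * T) with he
  have he0 : 0 < e := Real.exp_pos _
  have h1 := (isCompact_closedBall (0 : E) R).uniformContinuousOn_of_continuous
    (hF.continuous_fderiv one_ne_zero).continuousOn
  obtain ⟨δ, hδ, h2⟩ := Metric.uniformContinuousOn_iff_le.1 h1 (ε / (2 * e ^ 2)) (by positivity)
  have B0 : ∀ z, fderiv ℝ (Φ 0) z = ContinuousLinearMap.id ℝ E := fun z => by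
    have : Φ 0 = id := funext fun z => hΦ.zero z
    rw [this, fderiv_id]
  filter_upwards [ball_mem_nhds z₀ hr, ball_mem_nhds z₀ (show 0 < δ / e by positivity)]
    with z hz hz'
  rw [dist_eq_norm]
  refine lt_of_le_of_lt (ContinuousLinearMap.opNorm_le_of_unit_norm (C := ε / 2) (by positivity)
    fun v hv => ?_) (by linarith)
  have b1 : ∀ t ∈ Icc 0 T, ‖fderiv ℝ (Φ t) z₀ v‖ ≤ e := by
    intro t ht
    have := gw (δ := 1) (ε := 0) hK le_rfl zero_le_one (fun s _ => hΦ.ode hF s z₀ v)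
      (by rw [B0]; exact hv.le) (fun s hs => by
        rw [add_zero]
        exact (fderiv ℝ F (Φ s z₀)).le_of_opNorm_le (hK1 _ (htube z₀ hz₀ s ⟨hs.1, hs.2.le⟩)) _) ht
    simpa using this
  have b2 := gw (δ := 0) (ε := ε / (2 * e ^ 2) * e) hK (by positivity) le_rfl
    (fun s _ => (hΦ.ode hF s z v).sub (hΦ.ode hF s z₀ v))
    (by simp [B0]) (fun s hs => by
      have hs' : s ∈ Icc 0 T := ⟨hs.1, hs.2.le⟩
      have e1 : fderiv ℝ F (Φ s z) (fderiv ℝ (Φ s) z v) - fderiv ℝ F (Φ s z₀) (fderiv ℝ (Φ s) z₀ v) =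
          fderiv ℝ F (Φ s z) (fderiv ℝ (Φ s) z v - fderiv ℝ (Φ s) z₀ v) +
            (fderiv ℝ F (Φ s z) - fderiv ℝ F (Φ s z₀)) (fderiv ℝ (Φ s) z₀ v) := by
        rw [map_sub, sub_apply]; abel
      rw [e1]
      refine (norm_add_le _ _).trans (add_le_add
        ((fderiv ℝ F (Φ s z)).le_of_opNorm_le (hK1 _ (htube z hz s hs')) _) ?_)
      refine ((fderiv ℝ F (Φ s z) - fderiv ℝ F (Φ s z₀)).le_opNorm _).trans ?_
      have e2 : ‖fderiv ℝ F (Φ s z) - fderiv ℝ F (Φ s z₀)‖ ≤ ε / (2 * e ^ 2) := by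
        rw [← dist_eq_norm]
        refine h2 _ (htube z hz s hs') _ (htube z₀ hz₀ s hs') ?_
        rw [dist_eq_norm]
        refine (hlip z hz z₀ hz₀ s hs').trans ?_
        rw [mem_ball, dist_eq_norm, lt_div_iff₀ he0] at hz'
        exact hz'.le
      have e3 := b1 s hs'
      gcongr) (right_mem_Icc.2 hT)
  refine b2.trans (le_of_eq ?_)
  rw [← he]
  field_simp
  ring

end flows

lemma hd_fst {F G : Type*} [NormedAddCommGroup F] [NormedSpace ℝ F] [NormedAddCommGroup G]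
    [NormedSpace ℝ G] {f : ℝ → F × G} {f' : F × G} {t : ℝ} (h : HasDerivAt f f' t) :
    HasDerivAt (fun s => (f s).1) f'.1 t :=
  (ContinuousLinearMap.fst ℝ F G).hasFDerivAt.comp_hasDerivAt t h

lemma hd_snd {F G : Type*} [NormedAddCommGroup F] [NormedSpace ℝ F] [NormedAddCommGroup G]
    [NormedSpace ℝ G] {f : ℝ → F × G} {f' : F × G} {t : ℝ} (h : HasDerivAt f f' t) :
    HasDerivAt (fun s => (f s).2) f'.2 t :=
  (ContinuousLinearMap.snd ℝ F G).hasFDerivAt.comp_hasDerivAt t h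

lemma le_of_deriv {f f' : ℝ → ℝ} {a T : ℝ} (hT : a ≤ T) (hf : ∀ t, HasDerivAt f (f' t) t)
    (h : ∀ t ∈ Icc a T, 0 ≤ f' t) : f a ≤ f T :=
  monotoneOn_of_deriv_nonneg (convex_Icc a T)
    (fun t _ => (hf t).continuousAt.continuousWithinAt)
    (fun t _ => (hf t).differentiableAt.differentiableWithinAt)
    (fun t ht => by rw [(hf t).deriv]; exact h t (interior_subset ht))
    (left_mem_Icc.2 hT) (right_mem_Icc.2 hT) hT

lemma abs_le_of_deriv {f f' g g' : ℝ → ℝ} {a T : ℝ} (hT : a ≤ T)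
    (hf : ∀ t, HasDerivAt f (f' t) t) (hg : ∀ t, HasDerivAt g (g' t) t)
    (h : ∀ t ∈ Icc a T, |f' t| ≤ g' t) : |f T - f a| ≤ g T - g a := by
  have h1 := le_of_deriv hT (fun t => (hg t).sub (hf t)) fun t ht => by
    linarith [le_abs_self (f' t), h t ht]
  have h2 := le_of_deriv hT (fun t => (hg t).add (hf t)) fun t ht => by
    linarith [neg_abs_le (f' t), h t ht]
  simp only [Pi.sub_apply, Pi.add_apply] at h1 h2
  rw [abs_le]
  constructor <;> linarith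

variable {E : Type} [NormedAddCommGroup E] [InnerProductSpace ℝ E] [FiniteDimensional ℝ E]

/-- the data of the transport equation -/
structure TData (X : E → E) (w χ : E → ℝ) (R₁ C : ℝ) (q : ℕ) : Prop where
  sX : ContDiff ℝ 1 X
  sw : ContDiff ℝ 1 w
  sχ : ContDiff ℝ 1 χ
  bX : ∃ L, ∀ y, ‖X y‖ ≤ L
  out : ∀ y, 0 ≤ ⟪y, X y⟫
  w1 : ∀ y, R₁ ≤ ‖y‖ → w y ≤ -4
  w2 : ∀ y, R₁ ≤ ‖y‖ → w y + 2 * ‖fderiv ℝ X y‖ ≤ 0
  w3 : ∀ y, R₁ ≤ ‖y‖ → w y * (1 + ‖y‖ ^ 2) + 8 * q * ⟪y, X y⟫ ≤ 0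
  dw : ∀ y, R₁ ≤ ‖y‖ → ‖fderiv ℝ w y‖ ≤ C * (1 + ‖y‖ ^ 2) ^ q
  χ0 : ∀ y, 0 ≤ χ y
  χ1 : ∀ y, R₁ ≤ ‖y‖ → χ y ≤ 1
  dχ : ∀ y, ‖fderiv ℝ χ y‖ ≤ C

omit [FiniteDimensional ℝ E] in
/-- the estimate for the variational equation -/
theorem TData.var {X : E → E} {w χ : E → ℝ} {R₁ C : ℝ} {q : ℕ} (h : TData X w χ R₁ C q)
    {T₀ T : ℝ} (hT0 : 0 ≤ T₀) (hT : T₀ ≤ T) {γ u : ℝ → E} {l lam α : ℝ → ℝ}
    (dγ : ∀ t, HasDerivAt γ (X (γ t)) t) (hU : ∀ t, 0 ≤ t → R₁ ≤ ‖γ t‖)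
    (dl : ∀ t, HasDerivAt l (w (γ t)) t) (l0 : l 0 = 0)
    (du : ∀ t, HasDerivAt u (fderiv ℝ X (γ t) (u t)) t) (u0 : ‖u 0‖ = 1)
    (dlam : ∀ t, HasDerivAt lam (fderiv ℝ w (γ t) (u t)) t) (lam0 : lam 0 = 0)
    (dα : ∀ t, HasDerivAt α (χ (γ t) * (Real.exp (l t) * lam t) +
      Real.exp (l t) * fderiv ℝ χ (γ t) (u t)) t) :
    |α T - α T₀| ≤ 2 * C * (1 + ‖γ 0‖ ^ 2) ^ q * Real.exp (-T₀) := by
  have hC : 0 ≤ C := (norm_nonneg _).trans (h.dχ 0)
  have dn : ∀ t, HasDerivAt (fun s => ‖γ s‖ ^ 2) (2 * ⟪γ t, X (γ t)⟫) t := fun t =>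
    (dγ t).norm_sq
  have dE : ∀ (k t : ℝ), HasDerivAt (fun s => Real.exp (k * l s))
      (Real.exp (k * l t) * (k * w (γ t))) t := fun k t => ((dl t).const_mul k).exp
  obtain ⟨M, hM⟩ : ∃ M, M = C * (1 + ‖γ 0‖ ^ 2) ^ q := ⟨_, rfl⟩
  have hCM : C ≤ M := by
    rw [hM]
    exact le_mul_of_one_le_right hC (one_le_pow₀ (by nlinarith [sq_nonneg ‖γ 0‖]))
  have hM0 : 0 ≤ M := hC.trans hCM
  have b1 : ∀ t, 0 ≤ t → ‖u t‖ ≤ Real.exp (-(1 / 2) * l t) := by
    intro t ht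
    have h1 := le_of_deriv ht (fun s => ((dE 1 s).mul (du s).norm_sq).neg) fun s hs => by
      have e1 := h.w2 _ (hU s hs.1)
      have e2 := Real.exp_pos (1 * l s)
      have e3 : ⟪u s, fderiv ℝ X (γ s) (u s)⟫ ≤
          ‖fderiv ℝ X (γ s)‖ * ‖u s‖ ^ 2 := by
        refine (real_inner_le_norm _ _).trans ?_
        have := (fderiv ℝ X (γ s)).le_opNorm (u s)
        nlinarith [norm_nonneg (u s)]
      have e4 : 1 * w (γ s) * ‖u s‖ ^ 2 +
          2 * ⟪u s, fderiv ℝ X (γ s) (u s)⟫ ≤ 0 := by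
        nlinarith [sq_nonneg ‖u s‖]
      nlinarith
    simp only [Pi.neg_apply, Pi.mul_apply, l0, mul_zero, Real.exp_zero, u0] at h1
    have e5 : Real.exp (-(1 / 2) * l t) ^ 2 * Real.exp (1 * l t) = 1 := by
      rw [← Real.exp_nat_mul, ← Real.exp_add, ← Real.exp_zero]
      congr 1
      push_cast
      ring
    refine (sq_le_sq₀ (norm_nonneg _) (Real.exp_pos _).le).1 ?_
    have e6 := Real.exp_pos (1 * l t)
    refine le_of_mul_le_mul_right ?_ e6
    rw [e5]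
    linarith
  have b2 : ∀ t, 0 ≤ t →
      Real.exp (1 / 4 * l t) * (1 + ‖γ t‖ ^ 2) ^ q ≤ (1 + ‖γ 0‖ ^ 2) ^ q := by
    intro t ht
    have h1 := le_of_deriv ht
      (fun s => ((dE (1 / 4) s).mul (((dn s).const_add 1).pow q)).neg) fun s hs => by
      have e1 := h.w3 _ (hU s hs.1)
      have e2 := Real.exp_pos (1 / 4 * l s)
      have e9 : 1 / 4 * w (γ s) * (1 + ‖γ s‖ ^ 2) ^ q +
          (q : ℝ) * (1 + ‖γ s‖ ^ 2) ^ (q - 1) * (2 * ⟪γ s, X (γ s)⟫) ≤ 0 := by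
        rcases Nat.eq_zero_or_pos q with h0 | h0
        · have := h.w1 _ (hU s hs.1)
          simp only [h0, pow_zero, Nat.cast_zero, zero_mul]
          linarith
        · have e6 : (1 + ‖γ s‖ ^ 2) ^ q = (1 + ‖γ s‖ ^ 2) ^ (q - 1) * (1 + ‖γ s‖ ^ 2) := by
            rw [← pow_succ]; congr 1; omega
          have e7 : 0 ≤ (1 + ‖γ s‖ ^ 2) ^ (q - 1) := by positivity
          rw [e6]
          nlinarith [mul_nonneg e7 (neg_nonneg.2 e1)]
      simp only [Pi.pow_apply]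
      nlinarith
    simp only [Pi.neg_apply, Pi.mul_apply, Pi.pow_apply, l0, mul_zero, Real.exp_zero] at h1
    linarith
  have b3 : ∀ t, 0 ≤ t → |lam t| ≤ M * Real.exp (-(3 / 4) * l t) := by
    intro t ht
    have h1 := abs_le_of_deriv ht (fun s => dlam s)
      (fun s => (dE (-(3 / 4)) s).const_mul M) fun s hs => by
      have e1 := h.dw _ (hU s hs.1)
      have e2 := b1 s hs.1
      have e3 := b2 s hs.1
      have e4 := h.w1 _ (hU s hs.1)
      have e5 : Real.exp (-(1 / 2) * l s) =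
          Real.exp (1 / 4 * l s) * Real.exp (-(3 / 4) * l s) := by
        rw [← Real.exp_add]; congr 1; ring
      have e6 := Real.exp_pos (-(3 / 4) * l s)
      have e7 : |fderiv ℝ w (γ s) (u s)| ≤ M * Real.exp (-(3 / 4) * l s) := by
        calc |fderiv ℝ w (γ s) (u s)| ≤ ‖fderiv ℝ w (γ s)‖ * ‖u s‖ :=
              (fderiv ℝ w (γ s)).le_opNorm _
          _ ≤ (C * (1 + ‖γ s‖ ^ 2) ^ q) * Real.exp (-(1 / 2) * l s) := by gcongr
          _ = C * (Real.exp (1 / 4 * l s) * (1 + ‖γ s‖ ^ 2) ^ q) *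
              Real.exp (-(3 / 4) * l s) := by rw [e5]; ring
          _ ≤ M * Real.exp (-(3 / 4) * l s) := by rw [hM]; gcongr
      refine e7.trans ?_
      have e8 : 0 ≤ M * Real.exp (-(3 / 4) * l s) := by positivity
      nlinarith
    simp only [lam0, sub_zero, l0, mul_zero, Real.exp_zero] at h1
    linarith
  have b0 : ∀ t, 0 ≤ t → l t ≤ -(4 * t) := by
    intro t ht
    have := le_of_deriv ht (fun r => ((dl r).add ((hasDerivAt_id r).const_mul 4)).neg)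
      fun r hr => by linarith [h.w1 _ (hU r hr.1)]
    simp only [Pi.neg_apply, Pi.add_apply, l0, id] at this
    linarith
  have b4 := abs_le_of_deriv hT (fun s => dα s)
    (fun s => ((dE (1 / 4) s).const_mul (2 * M)).neg) fun s hs => by
    have hs0 : 0 ≤ s := hT0.trans hs.1
    have e1 := b1 s hs0
    have e2 := b3 s hs0
    have e3 := h.w1 _ (hU s hs0)
    have e4 : Real.exp (l s) * Real.exp (-(3 / 4) * l s) = Real.exp (1 / 4 * l s) := by
      rw [← Real.exp_add]; congr 1; ring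
    have e5 : l s ≤ 0 := by linarith [b0 s hs0]
    have e6 : Real.exp (l s) * Real.exp (-(1 / 2) * l s) ≤ Real.exp (1 / 4 * l s) := by
      rw [← Real.exp_add]
      exact Real.exp_le_exp.2 (by linarith)
    have e7 := Real.exp_pos (l s)
    have e8 : |χ (γ s) * (Real.exp (l s) * lam s)| ≤ M * Real.exp (1 / 4 * l s) := by
      rw [abs_mul, abs_mul, abs_of_nonneg (h.χ0 _), abs_of_pos e7, ← e4]
      calc χ (γ s) * (Real.exp (l s) * |lam s|)
          ≤ 1 * (Real.exp (l s) * (M * Real.exp (-(3 / 4) * l s))) := by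
            gcongr
            exact h.χ1 _ (hU s hs0)
        _ = _ := by ring
    have e9 : |Real.exp (l s) * fderiv ℝ χ (γ s) (u s)| ≤
        M * Real.exp (1 / 4 * l s) := by
      rw [abs_mul, abs_of_pos e7]
      calc Real.exp (l s) * |fderiv ℝ χ (γ s) (u s)|
          ≤ Real.exp (l s) * (M * Real.exp (-(1 / 2) * l s)) := by
            gcongr
            refine ((fderiv ℝ χ (γ s)).le_opNorm _).trans ?_
            have := (h.dχ (γ s)).trans hCM
            gcongr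
        _ = M * (Real.exp (l s) * Real.exp (-(1 / 2) * l s)) := by ring
        _ ≤ _ := by gcongr
    refine (abs_add_le _ _).trans ?_
    have e10 : 0 ≤ M * Real.exp (1 / 4 * l s) := by
      have := hC.trans hCM
      positivity
    nlinarith
  simp only [Pi.neg_apply] at b4
  have e11 : 0 ≤ 2 * M * Real.exp (1 / 4 * l T) := by positivity
  have e12 : 2 * C * (1 + ‖γ 0‖ ^ 2) ^ q = 2 * M := by rw [hM]; ring
  have e13 : Real.exp (1 / 4 * l T₀) ≤ Real.exp (-T₀) :=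
    Real.exp_le_exp.2 (by linarith [b0 T₀ hT0])
  rw [e12]
  nlinarith

/-- approximate solutions -/
theorem TData.approx {X : E → E} {w χ : E → ℝ} {R₁ C : ℝ} {q : ℕ} (h : TData X w χ R₁ C q) :
    ∃ A : ℝ → E → ℝ, (∀ T, 0 ≤ T → ContDiff ℝ 1 (A T)) ∧ (∀ T, Differentiable ℝ (A T)) ∧
      (∀ y, A 0 y = 0) ∧
      ∀ y, R₁ ≤ ‖y‖ → ∀ T, 0 ≤ T →
      |fderiv ℝ (A T) y (X y) + w y * A T y + χ y| ≤ Real.exp (-T) ∧ ∀ T', T ≤ T' →
        A T y ≤ A T' y ∧ A T' y ≤ A T y + Real.exp (-T) ∧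
        ‖fderiv ℝ (A T') y - fderiv ℝ (A T) y‖ ≤ 2 * C * (1 + ‖y‖ ^ 2) ^ q * Real.exp (-T) := by
  obtain ⟨L, hL⟩ := h.bX
  have hX1 : ContDiff ℝ 1 X := h.sX
  obtain ⟨Φ, hΦ⟩ := exists_flw hX1 hL
  have hC : 0 ≤ C := (norm_nonneg _).trans (h.dχ 0)
  have hg2 : ContDiff ℝ 1 fun p : E × ℝ => χ p.1 * Real.exp p.2 :=
    (h.sχ.comp contDiff_fst).mul contDiff_snd.exp
  have hΨ := flw_aug (flw_aug hΦ h.sw.continuous) hg2.continuous
  set F₂ : (E × ℝ) × ℝ → (E × ℝ) × ℝ :=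
    fun p => ((X p.1.1, w p.1.1), χ p.1.1 * Real.exp p.1.2) with hF₂
  set Ψ : ℝ → (E × ℝ) × ℝ → (E × ℝ) × ℝ := fun t p =>
    ((Φ t p.1.1, p.1.2 + ∫ r in (0 : ℝ)..t, w (Φ r p.1.1)), p.2 + ∫ r in (0 : ℝ)..t,
      χ (Φ r p.1.1) * Real.exp (p.1.2 + ∫ s in (0 : ℝ)..r, w (Φ s p.1.1))) with hΨdef
  replace hΨ : Flw F₂ Ψ := hΨ
  have hF1 : ContDiff ℝ 1 F₂ :=
    ((h.sX.comp (contDiff_fst.comp contDiff_fst)).prodMk
      (h.sw.comp (contDiff_fst.comp contDiff_fst))).prodMk (hg2.comp contDiff_fst)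
  set ι : E →L[ℝ] (E × ℝ) × ℝ :=
    (ContinuousLinearMap.inl ℝ (E × ℝ) ℝ).comp (ContinuousLinearMap.inl ℝ E ℝ) with hι
  have hιa : ∀ y, ι y = ((y, 0), 0) := fun y => rfl
  set l : ℝ → E → ℝ := fun t y => (Ψ t (ι y)).1.2 with hl
  set A : ℝ → E → ℝ := fun t y => (Ψ t (ι y)).2 with hA
  have dl : ∀ t y, HasDerivAt (fun s => l s y) (w (Φ t y)) t := fun t y =>
    hd_snd (hd_fst (hΨ.der t (ι y)))
  have dA : ∀ t y, HasDerivAt (fun s => A s y) (χ (Φ t y) * Real.exp (l t y)) t := fun t y =>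
    hd_snd (hΨ.der t (ι y))
  have l0 : ∀ y, l 0 y = 0 := fun y => by simp only [hl, hΨ.zero, hιa]
  have A0 : ∀ y, A 0 y = 0 := fun y => by simp only [hA, hΨ.zero, hιa]
  have dn : ∀ t y, HasDerivAt (fun s => ‖Φ s y‖ ^ 2) (2 * ⟪Φ t y, X (Φ t y)⟫) t := fun t y =>
    (hΦ.der t y).norm_sq
  have mono : ∀ y t, 0 ≤ t → ‖y‖ ≤ ‖Φ t y‖ := by
    intro y t ht
    have h1 := le_of_deriv ht (fun s => dn s y) fun s _ => by linarith [h.out (Φ s y)]
    rw [hΦ.zero] at h1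
    exact (sq_le_sq₀ (norm_nonneg _) (norm_nonneg _)).1 h1
  have hsm : ∀ T, 0 ≤ T → ContDiff ℝ 1 (Ψ T) := fun T hT => flw_contDiff hΨ hF1 hT
  have ha : ∀ T, 0 ≤ T → ContDiff ℝ 1 (A T) := fun T hT =>
    contDiff_snd.comp ((hsm T hT).comp ι.contDiff)
  refine ⟨A, ha, fun T y => ((hΨ.diff hF1 T (ι y)).comp y ι.differentiableAt).snd, A0,
    fun y hy T hT => ?_⟩
  have hU : ∀ t, 0 ≤ t → R₁ ≤ ‖Φ t y‖ := fun t ht => hy.trans (mono y t ht)
  have hl4 : ∀ t, 0 ≤ t → Real.exp (l t y) ≤ Real.exp (-t) := by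
    intro t ht
    have := le_of_deriv ht (fun r => ((dl r y).add (hasDerivAt_id r)).neg)
      fun r hr => by linarith [h.w1 _ (hU r hr.1)]
    simp only [Pi.neg_apply, Pi.add_apply, l0, id] at this
    exact Real.exp_le_exp.2 (by linarith)
  refine ⟨?_, fun T' hT' => ⟨?_, ?_, ?_⟩⟩
  · have hco : ∀ t, A (T + t) y = A t y + Real.exp (l t y) * A T (Φ t y) := by
      intro t
      have h1 := congrArg Prod.snd (hΨ.add hF1 T t (ι y))
      change A (T + t) y = A t y + ∫ r in (0 : ℝ)..T, χ (Φ r (Φ t y)) *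
        Real.exp (l t y + ∫ s in (0 : ℝ)..r, w (Φ s (Φ t y))) at h1
      rw [h1]
      change _ = A t y + Real.exp (l t y) * (0 + ∫ r in (0 : ℝ)..T, χ (Φ r (Φ t y)) *
        Real.exp (0 + ∫ s in (0 : ℝ)..r, w (Φ s (Φ t y))))
      rw [zero_add, ← intervalIntegral.integral_const_mul]
      congr 2
      funext r
      rw [Real.exp_add, zero_add]
      ring
    have d1 : HasDerivAt (fun t => A (T + t) y) (χ (Φ T y) * Real.exp (l T y)) 0 := by
      have := HasDerivAt.comp_const_add T 0 (dA (T + 0) y)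
      rwa [add_zero] at this
    have d2 := ((ha T hT).differentiable one_ne_zero (Φ 0 y)).hasFDerivAt.comp_hasDerivAt 0 (hΦ.der 0 y)
    have d3 := (dA 0 y).add ((dl 0 y).exp.mul d2)
    have d4 := (d1.congr_of_eventuallyEq (f₁ := fun t => A t y + Real.exp (l t y) * A T (Φ t y))
      (Eventually.of_forall fun t => (hco t).symm)).unique d3
    simp only [hΦ.zero, l0, Real.exp_zero, mul_one, one_mul, Function.comp] at d4
    have e1 : fderiv ℝ (A T) y (X y) + w y * A T y + χ y = χ (Φ T y) * Real.exp (l T y) := by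
      linarith
    have e2 := h.χ0 (Φ T y)
    have e3 := h.χ1 _ (hU T hT)
    have e4 := hl4 T hT
    have e5 := Real.exp_pos (l T y)
    rw [e1, abs_of_nonneg (mul_nonneg e2 e5.le)]
    nlinarith

  · exact le_of_deriv (f := fun s => A s y) hT' (fun t => dA t y) fun t _ => mul_nonneg (h.χ0 _) (Real.exp_pos _).le
  · have h1 := abs_le_of_deriv hT' (fun t => dA t y) (fun t => (dl t y).exp.neg) fun t ht => by
      have e1 := h.χ0 (Φ t y)
      have e2 := h.χ1 _ (hU t (hT.trans ht.1))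
      have e3 := h.w1 _ (hU t (hT.trans ht.1))
      have e4 := Real.exp_pos (l t y)
      rw [abs_of_nonneg (mul_nonneg e1 e4.le)]
      nlinarith
    simp only [Pi.neg_apply] at h1
    linarith [le_abs_self (A T' y - A T y), Real.exp_pos (l T' y), hl4 T hT]
  · refine ContinuousLinearMap.opNorm_le_of_unit_norm (by positivity) fun v hv => ?_
    set U : ℝ → (E × ℝ) × ℝ := fun s => fderiv ℝ (Ψ s) (ι y) (ι v) with hUdef
    have U0 : U 0 = ι v := by
      have : Ψ 0 = id := funext fun z => hΨ.zero z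
      simp only [hUdef, this, fderiv_id, ContinuousLinearMap.coe_id', id_eq]
    have hUT : ∀ T, 0 ≤ T → fderiv ℝ (A T) y v = (U T).2 := by
      intro T hT
      have h1 := (((hsm T hT).differentiable one_ne_zero (ι y)).hasFDerivAt.comp y ι.hasFDerivAt).snd
      rw [show A T = fun x => ((Ψ T ∘ ι) x).2 from rfl, h1.fderiv]
      rfl
    have dU : ∀ t, HasDerivAt U ((fderiv ℝ X (Φ t y) (U t).1.1, fderiv ℝ w (Φ t y) (U t).1.1),
        χ (Φ t y) * (Real.exp (l t y) * (U t).1.2) +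
          Real.exp (l t y) * fderiv ℝ χ (Φ t y) (U t).1.1) t := by
      intro t
      have h1 := hΨ.ode hF1 t (ι y) (ι v)
      have p11 : HasFDerivAt (fun p : (E × ℝ) × ℝ => p.1.1)
          ((ContinuousLinearMap.fst ℝ E ℝ).comp (ContinuousLinearMap.fst ℝ (E × ℝ) ℝ))
          (Ψ t (ι y)) := hasFDerivAt_fst.fst
      have p12 : HasFDerivAt (fun p : (E × ℝ) × ℝ => p.1.2)
          ((ContinuousLinearMap.snd ℝ E ℝ).comp (ContinuousLinearMap.fst ℝ (E × ℝ) ℝ))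
          (Ψ t (ι y)) := hasFDerivAt_fst.snd
      have k1 := (h.sX.differentiable one_ne_zero (Φ t y)).hasFDerivAt.comp (Ψ t (ι y)) p11
      have k2 := (h.sw.differentiable one_ne_zero (Φ t y)).hasFDerivAt.comp (Ψ t (ι y)) p11
      have k3 := (h.sχ.differentiable one_ne_zero (Φ t y)).hasFDerivAt.comp (Ψ t (ι y)) p11
      have k4 : HasFDerivAt F₂ _ (Ψ t (ι y)) := (k1.prodMk k2).prodMk (k3.mul p12.exp)
      rw [k4.fderiv] at h1
      exact h1
    rw [sub_apply, hUT T hT, hUT T' (hT.trans hT'), Real.norm_eq_abs]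
    have := h.var hT hT' (fun t => hΦ.der t y) hU (fun t => dl t y) (l0 y)
      (fun t => hd_fst (hd_fst (dU t))) (by rw [U0]; exact hv) (fun t => hd_snd (hd_fst (dU t)))
      (by rw [U0]; rfl) (fun t => hd_snd (dU t))
    rwa [hΦ.zero] at this

/-- **The transport equation.** -/
theorem TData.solve {X : E → E} {w χ : E → ℝ} {R₁ C : ℝ} {q : ℕ} (h : TData X w χ R₁ C q) :
    ∃ a : E → ℝ, ∀ y, R₁ < ‖y‖ → ContDiffAt ℝ 1 a y ∧
      0 ≤ a y ∧ a y ≤ 1 ∧ ‖fderiv ℝ a y‖ ≤ 2 * C * (1 + ‖y‖ ^ 2) ^ q ∧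
      fderiv ℝ a y (X y) + w y * a y = -χ y := by
  obtain ⟨A, hA, hAd, A0, hb⟩ := h.approx
  have hC : 0 ≤ C := (norm_nonneg _).trans (h.dχ 0)
  have hexp : Tendsto (fun T : ℝ => Real.exp (-T)) atTop (𝓝 0) := Real.tendsto_exp_neg_atTop_nhds_zero
  have cauchy : ∀ {F : Type} [NormedAddCommGroup F] [CompleteSpace F] (f : ℝ → F) (M : ℝ),
      (∀ T, 0 ≤ T → ∀ T', T ≤ T' → ‖f T' - f T‖ ≤ M * Real.exp (-T)) →
      Tendsto f atTop (𝓝 (limUnder atTop f)) ∧
        ∀ T, 0 ≤ T → ‖limUnder atTop f - f T‖ ≤ M * Real.exp (-T) := by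
    intro F _ _ f M hf
    have h1 : CauchySeq f := by
      refine Metric.cauchySeq_iff'.2 fun ε hε => ?_
      have h2 := (hexp.const_mul M).eventually (gt_mem_nhds (show M * 0 < ε by simpa using hε))
      obtain ⟨T, hT1, hT2⟩ := (h2.and (eventually_ge_atTop 0)).exists
      exact ⟨T, fun T' hT' => by rw [dist_eq_norm]; exact (hf T hT2 T' hT').trans_lt hT1⟩
    refine ⟨h1.tendsto_limUnder, fun T hT => ?_⟩
    exact le_of_tendsto ((h1.tendsto_limUnder.sub_const (f T)).norm)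
      ((eventually_ge_atTop T).mono fun T' hT' => hf T hT T' hT')
  set a : E → ℝ := fun y => limUnder atTop fun T => A T y with ha
  set a' : E → E →L[ℝ] ℝ := fun y => limUnder atTop fun T => fderiv ℝ (A T) y with ha'
  have c1 : ∀ y, R₁ ≤ ‖y‖ → Tendsto (fun T => A T y) atTop (𝓝 (a y)) := fun y hy =>
    (cauchy (fun T => A T y) 1 fun T hT T' hT' => by
      obtain ⟨e1, e2, -⟩ := (hb y hy T hT).2 T' hT'
      rw [Real.norm_eq_abs, abs_of_nonneg (by linarith)]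
      linarith).1
  have c2 : ∀ y, R₁ ≤ ‖y‖ → _ := fun y hy =>
    cauchy (fun T => fderiv ℝ (A T) y) _ fun T hT T' hT' => ((hb y hy T hT).2 T' hT').2.2
  refine ⟨a, fun y hy => ?_⟩
  set s : Set E := {z | R₁ < ‖z‖} ∩ ball 0 (‖y‖ + 1) with hs
  have hso : IsOpen s := (isOpen_lt continuous_const continuous_norm).inter isOpen_ball
  have hys : y ∈ s := ⟨hy, by simp⟩
  have hun : TendstoUniformlyOn (fun T z => fderiv ℝ (A T) z) a' atTop s := by
    refine Metric.tendstoUniformlyOn_iff.2 fun ε hε => ?_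
    have h2 := (hexp.const_mul (2 * C * (1 + (‖y‖ + 1) ^ 2) ^ q)).eventually
      (gt_mem_nhds (show 2 * C * (1 + (‖y‖ + 1) ^ 2) ^ q * 0 < ε by simpa using hε))
    filter_upwards [h2, eventually_ge_atTop 0] with T h3 hT z hz
    rw [dist_eq_norm]
    refine (((c2 z (le_of_lt hz.1)).2 T hT).trans ?_).trans_lt h3
    have := (mem_ball_zero_iff.1 hz.2).le
    gcongr
  have hder : ∀ z ∈ s, HasFDerivAt a (a' z) z := fun z hz =>
    hasFDerivAt_of_tendstoUniformlyOn hso hun (fun T x _ => (hAd T x).hasFDerivAt)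
      (fun x hx => c1 x (le_of_lt hx.1)) hz
  have hcont : ContinuousOn a' s := hun.continuousOn
    (((eventually_ge_atTop 0).mono fun T hT =>
      ((hA T hT).continuous_fderiv one_ne_zero).continuousOn).frequently)
  refine ⟨contDiffAt_one_iff.2 ⟨a', s, hso.mem_nhds hys, hcont, hder⟩, ?_, ?_, ?_, ?_⟩
  · refine ge_of_tendsto (c1 y hy.le) ((eventually_ge_atTop 0).mono fun T hT => ?_)
    have := ((hb y hy.le 0 le_rfl).2 T hT).1
    rwa [A0] at this
  · refine le_of_tendsto (c1 y hy.le) ((eventually_ge_atTop 0).mono fun T hT => ?_)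
    have := ((hb y hy.le 0 le_rfl).2 T hT).2.1
    simpa [A0] using this
  · have h1 := (c2 y hy.le).2 0 le_rfl
    have h2 : A 0 = fun _ => 0 := funext A0
    rw [(hder y hys).fderiv]
    simpa [h2] using h1
  · rw [(hder y hys).fderiv]
    have h0 : Tendsto (fun T => fderiv ℝ (A T) y (X y)) atTop (𝓝 (a' y (X y))) :=
      ((ContinuousLinearMap.apply ℝ ℝ (X y)).continuous.tendsto _).comp (c2 y hy.le).1
    have h1 := ((h0.add ((c1 y hy.le).const_mul (w y))).add_const (χ y)).abs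
    have h2 := le_of_tendsto_of_tendsto h1 hexp
      ((eventually_ge_atTop 0).mono fun T hT => (hb y hy.le T hT).1)
    have h3 := abs_nonpos_iff.1 h2
    linarith

end Vale.Agent.P218F.DynF
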