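import Vale.Agent.P218F.DynStatic
import Vale.Agent.P218F.DynCore

/-! The static inequality for smooth slices from the abstract one. -/

open MeasureTheory Set Filter Topology Metric
open scoped ENNReal NNReal RealInnerProductSpace ContDiff

namespace Vale.Agent.P218F.Dyn

open Vale.Agent.P214 (proj divAlong)
open Vale.Agent.P218 Vale.Agent.P218.H313
open Vale.Agent.P218FT (E3 IsSurf IsEqn nu Hv relV TwoPt IsShr InC ssFlow pt area)
open Vale.Agent.P218F.Mesh (IsMesh bump NetStmt PoincStmt CloseStmt gw)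
open Vale.Agent.P218F.DynBridge

lemma sheet_of_twoPt (hA : AFStmt) {N : Set E3} (hN : IsSurf N) {R r C : ℝ}
    (h : ∀ y ∈ N, ‖y‖ ≤ R → TwoPt N y r C) : Sheet (hm N) (tg N) R r C := by
  refine ⟨N, hN.1.measurableSet, (ae_mem hN.1).mono fun y hy _ => hy, hA N hN,
    fun y hy hR x hx hxy => ?_⟩
  rw [proj_tg hN hy, P218FT.pt_apply, sub_sub_cancel, norm_smul, hN.norm_nu hy, mul_one,
    Real.norm_eq_abs, real_inner_comm]
  exact h y hy hR x hx hxy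

lemma poinEv_of (hP : PoincStmt) (hCl : CloseStmt) {S : Set E3} (hS : IsSurf S) {l : Filter ℝ}
    {N : ℝ → Set E3} (hN : ∀ᶠ s in l, IsSurf (N s))
    (h2 : ∀ R : ℝ, ∃ r C : ℝ, 0 < r ∧ 0 < C ∧ ∀ᶠ s in l, ∀ y ∈ N s, ‖y‖ ≤ R → TwoPt (N s) y r C)
    (hCv : Cv l (fun s => hm (N s)) (fun s => tg (N s)) (fun s => Hv (N s)) (hm S)) :
    PoinEv l (fun s => hm (N s)) (fun s => tg (N s)) S := by
  intro R ε hε
  obtain ⟨r, C, hr, -, h3⟩ := h2 (R + 1)
  have hc : (0 : ℝ≥0) < cE⁻¹ := inv_pos.2 (pos_iff_ne_zero.2 cE_ne)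
  obtain ⟨A, r₁, hA, hr₁, -, h4⟩ := hP R C r cE⁻¹ hr hc
  refine ⟨min r₁ √(ε / A), lt_min hr₁ (Real.sqrt_pos.2 (div_pos hε hA)),
    fun ρ hρ hρ1 P hP' => ⟨A * (ρ ^ 2)⁻¹, ?_⟩⟩
  have h5 : A * ρ ^ 2 ≤ ε := by
    have h6 : ρ ^ 2 ≤ ε / A := by
      rw [← Real.sq_sqrt (div_pos hε hA).le]
      exact pow_le_pow_left₀ hρ.le (hρ1.trans (min_le_right _ _)) 2
    rwa [le_div_iff₀ hA, mul_comm] at h6
  have hcl := hCl ℝ l N S R C r cE⁻¹ hr hc hS (hN.and h3) (fun φ hφ hφc => by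
    simp only [← hm_eq]
    exact tendsto_iff_ultrafilter _ _ _ |>.2 fun U hU => (hCv U hU).lim φ hφ hφc) (ρ / 16)
    (by positivity)
  have hsl : ∀ᶠ s in l, GSlice 2 (hm (N s)) (tg (N s)) (Hv (N s)) :=
    (Filter.mem_iff_ultrafilter).2 fun U hU => (hCv U hU).sl
  filter_upwards [hN, h3, hcl, hsl] with s e1 e2 e3 e4 f hf
  have hi : Integrable (fun y => wt 0 y * ‖proj (tg (N s) y) (grad f y)‖ ^ 2 * rho y) (hm (N s)) :=
    int_TG e4 hf 0
  have he : (fun y => wt 0 y * ‖proj (tg (N s) y) (grad f y)‖ ^ 2 * rho y)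
      =ᵐ[hm (N s)] fun y => ‖pt (nu (N s) y) (gradient f y)‖ ^ 2 * gw y := by
    filter_upwards [ae_mem e1.1] with y hy
    rw [proj_tg e1 hy, wt, pow_zero, one_mul]
    rfl
  have hi' := hi.congr he
  have h7 := h4 ρ hρ (hρ1.trans (min_le_left _ _)) S (N s) P hP' e1 e2 e3 f _
    (Mesh.gradLe_of_contDiff (N s) (R + 1) hf.cd) (by rw [← hm_eq]; exact hi'.integrableOn)
  rw [← hm_eq] at h7
  have h8 : ∫ y in closedBall (0 : E3) (R + 1), ‖pt (nu (N s) y) (gradient f y)‖ ^ 2 * gw y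
      ∂(hm (N s)) ≤ TG (hm (N s)) (tg (N s)) f 0 := by
    rw [TG, integral_congr_ae he]
    exact setIntegral_le_integral hi' (Eventually.of_forall fun y =>
      mul_nonneg (sq_nonneg _) (Mesh.gw_pos y).le)
  have h9 := TG_nonneg' (hm (N s)) (tg (N s)) f
  rw [← Finset.sum_coe_sort P] at h7
  refine h7.trans ?_
  rw [mul_add, ← mul_assoc, ← mul_assoc]
  refine add_le_add ?_ le_rfl
  exact (mul_le_mul_of_nonneg_left h8 (by positivity)).trans (mul_le_mul_of_nonneg_right h5 h9)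

theorem staticLoj_of (hA : AFStmt) (hP : PoincStmt) (hCl : CloseStmt) (hS : StaticStmt) :
    DynCore.StaticLojStmt := by
  intro D G S h1 h2 h3 l N h4 h5 h6
  refine hS D G S h1 h2 h3 l _ _ _ h6 (fun R => ?_) (poinEv_of hP hCl h1.1 h4 h5 h6)
  obtain ⟨r, C, hr, -, h7⟩ := h5 R
  exact ⟨r, C, hr, (h4.and h7).mono fun s hs => sheet_of_twoPt hA hs.1 hs.2⟩

end Vale.Agent.P218F.Dyn
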