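import Vale.Agent.P218.H313.Blow

/-! Static estimates on one Gaussian slice for tube functions whose zero set is only an
approximate shrinker. -/

open MeasureTheory Set Filter Topology Metric
open scoped ENNReal NNReal RealInnerProductSpace

namespace Vale.Agent.P218F.Dyn

open Vale.Agent.P214 (proj divAlong)
open Vale.Agent.P218 Vale.Agent.P218.H313

set_option linter.unusedSectionVars false
set_option linter.unusedVariables false

variable {E : Type*} [NormedAddCommGroup E] [InnerProductSpace ℝ E] [FiniteDimensional ℝ E]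

/-- A function `W` which near its zero set is the signed distance to it, with uniform bounds. -/
structure Tube0 (W : E → ℝ) (c K : ℝ) : Prop where
  cpos : 0 < c
  smooth : ContDiff ℝ 2 W
  b0 : ∀ x, |W x| ≤ K
  b1 : ∀ x, ‖grad W x‖ ≤ K
  b2 : ∀ x, ‖fderiv ℝ (grad W) x‖ ≤ K
  bx : ∀ x, |⟪x, grad W x⟫| ≤ K
  eik : ∀ x, |W x| < c → ‖grad W x‖ = 1

/-- the defect in the shrinker equation, corrected to first order off the zero set -/
noncomputable def dfc (W : E → ℝ) (x : E) : ℝ :=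
  tr (fderiv ℝ (grad W) x) - 1 / 2 * ⟪x, grad W x⟫
    + (tr ((fderiv ℝ (grad W) x).comp (fderiv ℝ (grad W) x)) + 1 / 2) * W x

variable {m : ℕ} {W : E → ℝ} {c K : ℝ}

lemma tube0_of_tubeD (hW : TubeD W c K) : Tube0 W c K :=
  ⟨hW.cpos, hW.smooth, hW.b0, hW.b1, hW.b2, hW.bx, hW.eik⟩

namespace Tube0

lemma K_nonneg (hW : Tube0 W c K) : 0 ≤ K := (abs_nonneg _).trans (hW.b0 0)

lemma cont (hW : Tube0 W c K) : Continuous W := hW.smooth.continuous

lemma grad_cd (hW : Tube0 W c K) : ContDiff ℝ 1 (grad W) := contDiff_grad_one hW.smooth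

lemma pg (hW : Tube0 W c K) : PG W where
  cd := hW.smooth.of_le (by norm_num)
  b0 := PB.of_bound (C := K) fun x => by rw [Real.norm_eq_abs]; exact hW.b0 x
  b1 := PB.of_bound (C := K) fun x => by rw [← norm_grad]; exact hW.b1 x

lemma pg_grad (hW : Tube0 W c K) : PG (grad W) where
  cd := hW.grad_cd
  b0 := PB.of_bound (C := K) hW.b1
  b1 := PB.of_bound (C := K) hW.b2

lemma diff (hW : Tube0 W c K) (x : E) : DifferentiableAt ℝ W x := hW.pg.diff x

lemma q_le (hW : Tube0 W c K) (x : E) :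
    |tr ((fderiv ℝ (grad W) x).comp (fderiv ℝ (grad W) x))| ≤ Module.finrank ℝ E * K ^ 2 := by
  refine (abs_tr_le _).trans ?_
  gcongr
  refine (ContinuousLinearMap.opNorm_comp_le _ _).trans ?_
  have := hW.b2 x
  have h0 := norm_nonneg (fderiv ℝ (grad W) x)
  nlinarith

lemma isOpen (hW : Tube0 W c K) : IsOpen {x | |W x| < c} :=
  isOpen_lt hW.smooth.continuous.abs continuous_const

/-- the Hessian kills the gradient in the tube -/
lemma hess_grad (hW : Tube0 W c K) {x : E} (hx : |W x| < c) :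
    fderiv ℝ (grad W) x (grad W x) = 0 := by
  have h1 : ContDiff ℝ 1 (grad W) := contDiff_grad_one hW.smooth
  have hd : HasFDerivAt (grad W) (fderiv ℝ (grad W) x) x :=
    (h1.differentiable (by norm_num) x).hasFDerivAt
  have h2 : HasFDerivAt (fun y => ‖grad W y‖ ^ 2)
      (2 • (innerSL ℝ (grad W x)).comp (fderiv ℝ (grad W) x)) x := hd.norm_sq
  have h3 : (fun y => ‖grad W y‖ ^ 2) =ᶠ[𝓝 x] fun _ => 1 := by
    filter_upwards [hW.isOpen.mem_nhds hx] with y hy
    rw [hW.eik y hy]; norm_num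
  have h4 : HasFDerivAt (fun y => ‖grad W y‖ ^ 2) (0 : E →L[ℝ] ℝ) x :=
    (hasFDerivAt_const (1 : ℝ) x).congr_of_eventuallyEq h3
  have h5 := h2.unique h4
  apply ext_inner_left ℝ
  intro v
  rw [inner_zero_right, ← hess_symm hW.smooth]
  have h6 := congrArg (fun L : E →L[ℝ] ℝ => L v) h5
  simp at h6
  rw [real_inner_comm]
  exact h6

/-- the trace of the Hessian along a hyperplane differs from the Laplacian by a quadratic term -/
theorem trace_est (hW : Tube0 W c K) (hE : Module.finrank ℝ E = m + 1) (x : E)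
    (T : Submodule ℝ E) (hT : Module.finrank ℝ T = m) (hx : |W x| < c) :
    |tr ((proj T).comp (fderiv ℝ (grad W) x)) - tr (fderiv ℝ (grad W) x)|
      ≤ K * ‖proj T (grad W x)‖ ^ 2 := by
  obtain ⟨n, hn1, hnT, -, hn⟩ := H63.exists_normal hE hT
  have e0 : tr ((proj T).comp (fderiv ℝ (grad W) x))
      = tr (fderiv ℝ (grad W) x) - ⟪fderiv ℝ (grad W) x n, n⟫ := H63.divAlong_normal hn (grad W) x
  rw [e0]
  set g := grad W x with hg
  set B := fderiv ℝ (grad W) x with hB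
  have hg1 : ‖g‖ = 1 := hW.eik x hx
  have hBg : B g = 0 := hW.hess_grad hx
  set v := n - ⟪n, g⟫ • g with hv
  have hBv : B n = B v := by rw [hv, map_sub, map_smul, hBg, smul_zero, sub_zero]
  have e2 : ⟪B n, n⟫ = ⟪v, B v⟫ := by
    rw [hBv, hess_symm hW.smooth x v n]
    change ⟪v, B n⟫ = _
    rw [hBv]
  have e3 : ‖proj T g‖ ^ 2 = ‖v‖ ^ 2 := by
    rw [H63.norm_proj_sq hn1 hn, hv, H63.norm_sub_sq' hn1 hg1, hg1]; norm_num
  have h2 : |⟪B n, n⟫| ≤ K * ‖proj T g‖ ^ 2 := by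
    rw [e2, e3]
    refine (abs_real_inner_le_norm _ _).trans ?_
    have h1 : ‖B v‖ ≤ K * ‖v‖ :=
      (B.le_opNorm v).trans (mul_le_mul_of_nonneg_right (hW.b2 x) (norm_nonneg _))
    calc ‖v‖ * ‖B v‖ ≤ ‖v‖ * (K * ‖v‖) := mul_le_mul_of_nonneg_left h1 (norm_nonneg _)
      _ = _ := by ring
  have e4 : tr B - ⟪B n, n⟫ - tr B = -⟪B n, n⟫ := by ring
  rw [e4, abs_neg]
  exact h2

theorem hess_est (hW : Tube0 W c K) (hE : Module.finrank ℝ E = m + 1) (x : E)
    (T : Submodule ℝ E) (hT : Module.finrank ℝ T = m) (hx : |W x| < c) (A : E →L[ℝ] E) :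
    |tr ((proj T).comp A) - (tr A - ⟪A (grad W x), grad W x⟫)|
      ≤ 4 * ‖A‖ * ‖proj T (grad W x)‖ := by
  obtain ⟨n, hn1, hnT, hnφ, hn⟩ := H63.exists_normal hE hT
  have hg1 : ‖grad W x‖ = 1 := hW.eik x hx
  generalize grad W x = g at hg1 ⊢
  have e0 : tr ((proj T).comp A) = tr A - ⟪A n, n⟫ := by
    have h1 : (proj T).comp A = A - ((innerSL ℝ n).comp A).smulRight n := by
      ext v
      simp [hn]
    rw [h1, tr_sub]
    congr 1
    have h2 := tr_comp_smulRight (ContinuousLinearMap.id ℝ E) ((innerSL ℝ n).comp A) n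
    rw [ContinuousLinearMap.id_comp] at h2
    rw [h2]
    simp [real_inner_comm]
  have e1 : tr A - ⟪A n, n⟫ - (tr A - ⟪A g, g⟫) = -(⟪A n, n⟫ - ⟪A g, g⟫) := by ring
  rw [e0, e1, abs_neg]
  have h1 := H63.abs_quad_sub_le A hn1 hg1
  have e2 : √(1 - ⟪n, g⟫ ^ 2) = ‖proj T g‖ := by
    have e3 : ‖proj T g‖ ^ 2 = 1 - ⟪n, g⟫ ^ 2 := by
      rw [H63.norm_proj_sq hn1 hn, hg1]; norm_num
    rw [← e3, Real.sqrt_sq (norm_nonneg _)]
  rw [e2] at h1
  exact h1

theorem normal_est (hW : Tube0 W c K) (hE : Module.finrank ℝ E = m + 1) (x : E)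
    (T : Submodule ℝ E) (hT : Module.finrank ℝ T = m) (hx : |W x| < c) {φ : E} (hφ : φ ∈ Tᗮ)
    (v : E) :
    |⟪v, φ⟫ - ⟪v, grad W x⟫ * ⟪grad W x, φ⟫| ≤ ‖v‖ * ‖proj T (grad W x)‖ * ‖φ‖ := by
  obtain ⟨n, hn1, hnT, hnφ, hn⟩ := H63.exists_normal hE hT
  have hg1 : ‖grad W x‖ = 1 := hW.eik x hx
  generalize grad W x = g at hg1 ⊢
  set c := ⟪n, φ⟫ with hc
  have hφ' : φ = c • n := hnφ φ hφ
  have hcφ : |c| = ‖φ‖ := by rw [hφ', norm_smul, hn1, mul_one, Real.norm_eq_abs]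
  have e1 : ⟪v, φ⟫ - ⟪v, g⟫ * ⟪g, φ⟫ = c * ⟪v, n - ⟪n, g⟫ • g⟫ := by
    rw [hφ']
    simp only [real_inner_smul_right, inner_sub_right]
    rw [real_inner_comm n g]; ring
  have e2 : ‖proj T g‖ = ‖n - ⟪n, g⟫ • g‖ := by
    have e3 : ‖proj T g‖ ^ 2 = ‖n - ⟪n, g⟫ • g‖ ^ 2 := by
      rw [H63.norm_proj_sq hn1 hn, H63.norm_sub_sq' hn1 hg1, hg1]; norm_num
    exact (pow_left_inj₀ (norm_nonneg _) (norm_nonneg _) two_ne_zero).1 e3
  rw [e1, abs_mul, hcφ]
  have h2 := abs_real_inner_le_norm v (n - ⟪n, g⟫ • g)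
  rw [← e2] at h2
  calc ‖φ‖ * |⟪v, n - ⟪n, g⟫ • g⟫| ≤ ‖φ‖ * (‖v‖ * ‖proj T g‖) :=
        mul_le_mul_of_nonneg_left h2 (norm_nonneg _)
    _ = _ := by ring

/-- crude bound for the drift term -/
lemma drift_le (hW : Tube0 W c K) (x : E) (T : Submodule ℝ E) :
    |tr ((proj T).comp (fderiv ℝ (grad W) x)) - 1 / 2 * ⟪x, grad W x⟫|
      ≤ (Module.finrank ℝ E + 1) * K := by
  have e1 := abs_tr_proj_comp_le T (fderiv ℝ (grad W) x)
  have e2 := hW.b2 x
  have e3 := hW.bx x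
  have hK := hW.K_nonneg
  have e4 := abs_sub (tr ((proj T).comp (fderiv ℝ (grad W) x))) (1 / 2 * ⟪x, grad W x⟫)
  rw [abs_mul, abs_of_pos (by norm_num : (0 : ℝ) < 1 / 2)] at e4
  have e5 : (Module.finrank ℝ E : ℝ) * ‖fderiv ℝ (grad W) x‖ ≤ Module.finrank ℝ E * K := by gcongr
  nlinarith

end Tube0

/-- pointwise estimate behind the energy inequality -/
lemma energy_pt (hE : Module.finrank ℝ E = m + 1) (hc : 0 < c) (hK : 0 ≤ K) :
    ∃ C : ℝ, 0 ≤ C ∧ ∀ W : E → ℝ, Tube0 W c K → ∀ (x : E) (η : ℝ),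
      (|W x| < c → |dfc W x| ≤ K * W x ^ 2 + η) → ∀ T : Submodule ℝ E, Module.finrank ℝ T = m →
      -(W x * (tr ((proj T).comp (fderiv ℝ (grad W) x)) - 1 / 2 * ⟪x, grad W x⟫))
        ≤ 1 / 2 * ‖proj T (grad W x)‖ ^ 2 + C * W x ^ 2 + η ^ 2 := by
  set n : ℝ := (Module.finrank ℝ E : ℝ) with hn
  have hn0 : 0 ≤ n := by rw [hn]; positivity
  set c₁ := min c (1 / (2 * (K + 1))) with hc₁
  have hc₁0 : 0 < c₁ := lt_min hc (by positivity)
  refine ⟨n * K ^ 2 + 2 + (n + 1) * K / c₁, by positivity, fun W hW x η hη T hT => ?_⟩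
  set A := tr ((proj T).comp (fderiv ℝ (grad W) x)) - 1 / 2 * ⟪x, grad W x⟫ with hA
  set q := tr ((fderiv ℝ (grad W) x).comp (fderiv ℝ (grad W) x)) with hq
  set g2 := ‖proj T (grad W x)‖ ^ 2 with hg2
  have hg20 : 0 ≤ g2 := sq_nonneg _
  set w := W x with hw
  have hw2 : 0 ≤ w ^ 2 := sq_nonneg _
  have hη2 : 0 ≤ η ^ 2 := sq_nonneg _
  by_cases hx : |w| < c₁
  · have hxc : |w| < c := hx.trans_le (min_le_left _ _)
    have h1 := hW.trace_est hE x T hT hxc
    have h2 := hη hxc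
    have h3 : |q| ≤ n * K ^ 2 := hW.q_le x
    have h4 : |w| * K ≤ 1 / 2 := by
      have h5 : |w| ≤ 1 / (2 * (K + 1)) := hx.le.trans (min_le_right _ _)
      have h6 : |w| * K ≤ (1 / (2 * (K + 1))) * K := by gcongr
      refine h6.trans ?_
      rw [show (1 / (2 * (K + 1))) * K = K / (2 * (K + 1)) by field_simp]
      rw [div_le_div_iff₀ (by positivity) (by norm_num)]
      nlinarith
    set t := tr ((proj T).comp (fderiv ℝ (grad W) x)) - tr (fderiv ℝ (grad W) x) with ht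
    have h5 : -(w * A) = (q + 1 / 2) * w ^ 2 - w * t - w * dfc W x := by
      simp only [hA, ht, dfc, ← hw, ← hq]; ring
    have h6 : -(w * t) ≤ 1 / 2 * g2 := by
      calc -(w * t) ≤ |w * t| := neg_le_abs _
        _ = |w| * |t| := abs_mul _ _
        _ ≤ |w| * (K * g2) := by gcongr
        _ = (|w| * K) * g2 := by ring
        _ ≤ 1 / 2 * g2 := by gcongr
    have h7 : -(w * dfc W x) ≤ w ^ 2 + η ^ 2 := by
      have e1 : w ^ 2 = |w| ^ 2 := (sq_abs _).symm
      calc -(w * dfc W x) ≤ |w * dfc W x| := neg_le_abs _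
        _ = |w| * |dfc W x| := abs_mul _ _
        _ ≤ |w| * (K * w ^ 2 + η) := by gcongr
        _ = (|w| * K) * w ^ 2 + |w| * η := by ring
        _ ≤ 1 / 2 * w ^ 2 + |w| * η := by gcongr
        _ ≤ w ^ 2 + η ^ 2 := by rw [e1]; nlinarith [sq_nonneg (|w| - η)]
    have h8 : (q + 1 / 2) * w ^ 2 ≤ (n * K ^ 2 + 1) * w ^ 2 := by
      have := le_abs_self q
      nlinarith
    have h9 : 0 ≤ (n + 1) * K / c₁ * w ^ 2 := by positivity
    rw [h5]
    nlinarith
  · push Not at hx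
    have h1 : |A| ≤ (n + 1) * K := hW.drift_le x T
    have h2 : |w| ≤ w ^ 2 / c₁ := by
      rw [le_div_iff₀ hc₁0, ← sq_abs w]
      nlinarith [abs_nonneg w]
    have h3 : -(w * A) ≤ (n + 1) * K / c₁ * w ^ 2 := by
      calc -(w * A) ≤ |w * A| := neg_le_abs _
        _ = |w| * |A| := abs_mul _ _
        _ ≤ (w ^ 2 / c₁) * ((n + 1) * K) := by gcongr
        _ = _ := by ring
    have h4 : 0 ≤ (n * K ^ 2 + 2) * w ^ 2 := by positivity
    nlinarith

lemma aux_near {B K η w P g : ℝ} (hB : 0 ≤ B) (hK : 0 ≤ K) (hη : 0 ≤ η) (hg : 0 ≤ g) :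
    w * (4 * B * P) + B * (K * (w ^ 2 + P ^ 2) + η)
      ≤ (2 * B + B * K + B) * (w ^ 2 + P ^ 2 + η + g) := by
  have h1 := mul_nonneg hB (sq_nonneg (w - P))
  have h2 := mul_nonneg hB hη
  have h3 := mul_nonneg hB hg
  have h4 := mul_nonneg (mul_nonneg hB hK) hη
  have h5 := mul_nonneg (mul_nonneg hB hK) hg
  have h6 := mul_nonneg hB (sq_nonneg w)
  have h7 := mul_nonneg hB (sq_nonneg P)
  nlinarith

lemma aux_abs {B c w g : ℝ} (hB : 0 ≤ B) (hc : 0 < c) (hw : c ≤ |w|) :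
    B * |g| ≤ B / c * (w ^ 2 + g ^ 2) := by
  have e1 : c * |g| ≤ w ^ 2 + g ^ 2 := by
    rw [← sq_abs w, ← sq_abs g]
    have := abs_nonneg g
    nlinarith [sq_nonneg (|w| - |g|), mul_le_mul_of_nonneg_right hw this]
  calc B * |g| = B / c * (c * |g|) := by field_simp
    _ ≤ _ := mul_le_mul_of_nonneg_left e1 (by positivity)

/-- the pointwise error in the Jacobi equation -/
lemma jac_pt (hE : Module.finrank ℝ E = m + 1) (hc : 0 < c) (hK : 0 ≤ K) {B : ℝ}
    (hB : 0 ≤ B) : ∃ C : ℝ, 0 ≤ C ∧ ∀ W : E → ℝ, Tube0 W c K → ∀ ζ : E → ℝ,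
      (∀ x, |ζ x| ≤ B) → (∀ x, ‖fderiv ℝ (grad ζ) x‖ ≤ B) →
      ∀ (x : E) (g η : ℝ), 0 ≤ η → (|W x| < c → |dfc W x - g| ≤ K * W x ^ 2 + η) →
      ∀ T : Submodule ℝ E, Module.finrank ℝ T = m →
      |W x * (tr (fderiv ℝ (grad ζ) x) - ⟪fderiv ℝ (grad ζ) x (grad W x), grad W x⟫
          - tr ((proj T).comp (fderiv ℝ (grad ζ) x)))
        + ζ x * (tr ((proj T).comp (fderiv ℝ (grad W) x)) - 1 / 2 * ⟪x, grad W x⟫
          + (tr ((fderiv ℝ (grad W) x).comp (fderiv ℝ (grad W) x)) + 1 / 2) * W x) - ζ x * g|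
        ≤ C * (W x ^ 2 + ‖proj T (grad W x)‖ ^ 2 + η + g ^ 2) := by
  set n : ℝ := (Module.finrank ℝ E : ℝ) with hn
  have hn0 : 0 ≤ n := by rw [hn]; positivity
  set C₁ := 2 * B + B * K + B with hC₁
  set C₂ := (2 * n + K ^ 2) * B / c + B * ((n + 1) * K + (n * K ^ 2 + 1) * K) / c ^ 2 with hC₂
  have hC₁0 : 0 ≤ C₁ := by positivity
  have hC₂0 : 0 ≤ C₂ := by positivity
  refine ⟨C₁ + C₂ + B / c, by positivity, fun W hW ζ hζ0 hζ2 x g η hη hd T hT => ?_⟩
  set D := fderiv ℝ (grad ζ) x with hD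
  set G := grad W x with hG
  set q := tr ((fderiv ℝ (grad W) x).comp (fderiv ℝ (grad W) x)) with hq
  set a := tr ((proj T).comp (fderiv ℝ (grad W) x)) - 1 / 2 * ⟪x, G⟫ with ha
  set P := ‖proj T G‖ with hP
  have hP0 : 0 ≤ P := norm_nonneg _
  have hw2 : W x ^ 2 = |W x| ^ 2 := (sq_abs _).symm
  have hwa := abs_nonneg (W x)
  have hDB : ‖D‖ ≤ B := hζ2 x
  have hg2 : 0 ≤ g ^ 2 := sq_nonneg _
  have hsum : 0 ≤ W x ^ 2 + P ^ 2 := by positivity
  have hBc : 0 ≤ B / c := by positivity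
  have tri : |W x * (tr D - ⟪D G, G⟫ - tr ((proj T).comp D)) + ζ x * (a + (q + 1 / 2) * W x)
      - ζ x * g| ≤ |W x| * |tr D - ⟪D G, G⟫ - tr ((proj T).comp D)|
        + B * |a + (q + 1 / 2) * W x - g| := by
    rw [add_sub_assoc, ← mul_sub]
    refine (abs_add_le _ _).trans ?_
    rw [abs_mul, abs_mul]
    have := hζ0 x
    gcongr
  refine tri.trans ?_
  by_cases hx : |W x| < c
  · have h1 := hW.hess_est hE x T hT hx D
    have h2 := hW.trace_est hE x T hT hx
    have h3 : |tr D - ⟪D G, G⟫ - tr ((proj T).comp D)| ≤ 4 * B * P := by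
      rw [abs_sub_comm]
      refine h1.trans ?_
      gcongr
    have h4 : |a + (q + 1 / 2) * W x - g| ≤ K * (W x ^ 2 + P ^ 2) + η := by
      have e : a + (q + 1 / 2) * W x - g
          = (tr ((proj T).comp (fderiv ℝ (grad W) x)) - tr (fderiv ℝ (grad W) x))
            + (dfc W x - g) := by
        simp only [ha, dfc, ← hG, ← hq]; ring
      rw [e]
      refine (abs_add_le _ _).trans ?_
      have := hd hx
      linarith
    calc |W x| * |tr D - ⟪D G, G⟫ - tr ((proj T).comp D)| + B * |a + (q + 1 / 2) * W x - g|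
        ≤ |W x| * (4 * B * P) + B * (K * (W x ^ 2 + P ^ 2) + η) := by gcongr
      _ ≤ C₁ * (W x ^ 2 + P ^ 2 + η + g ^ 2) := by
          rw [hC₁, hw2]
          exact aux_near hB hK hη hg2
      _ ≤ (C₁ + C₂ + B / c) * (W x ^ 2 + P ^ 2 + η + g ^ 2) := by gcongr; linarith
  · push Not at hx
    have h2 : |tr D - ⟪D G, G⟫ - tr ((proj T).comp D)| ≤ (2 * n + K ^ 2) * B := by
      have e1 := abs_tr_le D
      have e2 := abs_tr_proj_comp_le T D
      have e3 : |⟪D G, G⟫| ≤ K ^ 2 * B := by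
        refine (abs_real_inner_le_norm _ _).trans ?_
        have e4 := D.le_opNorm G
        have e5 : ‖G‖ ≤ K := hW.b1 x
        calc ‖D G‖ * ‖G‖ ≤ (‖D‖ * ‖G‖) * ‖G‖ := by gcongr
          _ ≤ (B * K) * K := by gcongr
          _ = K ^ 2 * B := by ring
      have e6 : |tr D| ≤ n * B := e1.trans (by gcongr)
      have e7 : |tr ((proj T).comp D)| ≤ n * B := e2.trans (by gcongr)
      have e8 := abs_sub (tr D - ⟪D G, G⟫) (tr ((proj T).comp D))
      have e9 := abs_sub (tr D) ⟪D G, G⟫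
      linarith
    have h3 : |a + (q + 1 / 2) * W x| ≤ (n + 1) * K + (n * K ^ 2 + 1) * K := by
      have e4 : |a| ≤ (n + 1) * K := hW.drift_le x T
      have e5 : |q| ≤ n * K ^ 2 := hW.q_le x
      have e6 : |(q + 1 / 2) * W x| ≤ (n * K ^ 2 + 1) * K := by
        rw [abs_mul]
        have e7 : |q + 1 / 2| ≤ n * K ^ 2 + 1 := by
          refine (abs_add_le _ _).trans ?_
          rw [abs_of_pos (by norm_num : (0 : ℝ) < 1 / 2)]
          linarith
        have e8 := hW.b0 x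
        gcongr
      have e9 := abs_add_le a ((q + 1 / 2) * W x)
      linarith
    have h5 := aux_far hc hx hB (by positivity : 0 ≤ (2 * n + K ^ 2) * B)
      (by positivity : 0 ≤ (n + 1) * K + (n * K ^ 2 + 1) * K) h2 h3
    have h6 : B * |g| ≤ B / c * (W x ^ 2 + g ^ 2) := aux_abs hB hc hx
    have h7 : B * |a + (q + 1 / 2) * W x - g| ≤ B * |a + (q + 1 / 2) * W x| + B * |g| := by
      rw [← mul_add]
      exact mul_le_mul_of_nonneg_left (abs_sub _ _) hB
    have hP2 : 0 ≤ P ^ 2 := sq_nonneg _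
    have e1 : C₂ * |W x| ^ 2 ≤ C₂ * (W x ^ 2 + P ^ 2 + η + g ^ 2) :=
      mul_le_mul_of_nonneg_left (by rw [hw2]; linarith) hC₂0
    have e2 : 0 ≤ C₁ * (W x ^ 2 + P ^ 2 + η + g ^ 2) := by positivity
    have e3 : B / c * (W x ^ 2 + g ^ 2) ≤ B / c * (W x ^ 2 + P ^ 2 + η + g ^ 2) :=
      mul_le_mul_of_nonneg_left (by linarith) hBc
    linarith

variable [MeasurableSpace E] [BorelSpace E]
variable {μ : Measure E} {T : E → Submodule ℝ E} {H : E → E}

lemma int_TG (hS : GSlice m μ T H) (hW : PG W) (j : ℕ) :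
    Integrable (fun x => wt j x * ‖proj (T x) (grad W x)‖ ^ 2 * rho x) μ := by
  have hg : Continuous (grad W) := continuous_grad hW.cd
  have hgb : PB (grad W) := hW.b1.mono fun x => by rw [norm_grad]
  refine hS.integrable_dom (g := fun x => wt j x * ‖grad W x‖ ^ 2)
    ((PG.wt j).cont.aestronglyMeasurable.mul
      ((hS.proj_apply_meas hg.aestronglyMeasurable).norm.pow 2))
    ((PG.wt j).b0.mul (hgb.norm.pow 2)) fun x => ?_
  have h1 := norm_proj_apply_le (T x) (grad W x)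
  have h2 := wt_pos j x
  rw [abs_of_nonneg (by positivity), abs_of_nonneg (by positivity)]
  gcongr

lemma int_DD (hS : GSlice m μ T H) (hW : PG W) (j : ℕ) :
    Integrable (fun x => W x ^ 2 * wt j x * rho x) μ :=
  hS.integrable_PB ((hW.cont.pow 2).mul (PG.wt j).cont).aestronglyMeasurable
    ((hW.b0.pow 2).mul (PG.wt j).b0)

lemma int_VW (hS : GSlice m μ T H) (hW : PG W) (j : ℕ) :
    Integrable (fun x => W x ^ 2 * wt j x * ‖vel T H x‖ ^ 2 * rho x) μ :=
  hS.integrable_mul_vel_sq ((hW.cont.pow 2).mul (PG.wt j).cont).aestronglyMeasurable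
    ((hW.b0.pow 2).mul (PG.wt j).b0)

lemma int_sq (hS : GSlice m μ T H) {f : E → ℝ} (hf : Continuous f) (hb : PB f) :
    Integrable (fun x => f x ^ 2 * rho x) μ :=
  hS.integrable_PB (hf.pow 2).aestronglyMeasurable (hb.pow 2)

lemma int_vel (hS : GSlice m μ T H) : Integrable (fun x => ‖vel T H x‖ * rho x) μ := by
  refine hS.integrable hS.vel_meas.norm (C := 1) (p := 0) (Eventually.of_forall fun x => ?_)
  rw [abs_of_nonneg (norm_nonneg _)]
  nlinarith [sq_nonneg (‖vel T H x‖ - 1), norm_nonneg (vel T H x)]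

lemma VW_zero_le (hS : GSlice m μ T H) (hW : PG W) (hb : ∀ x, |W x| ≤ K) :
    VW μ T H W 0 ≤ K ^ 2 * dis μ T H := by
  unfold VW dis
  rw [← integral_const_mul]
  refine integral_mono (int_VW hS hW 0) (hS.int_vel_sq.const_mul _) fun x => ?_
  have h1 := hb x
  have h2 : W x ^ 2 ≤ K ^ 2 := by rw [← sq_abs]; gcongr
  have h3 := rho_pos x
  have h4 : 0 ≤ ‖vel T H x‖ ^ 2 * rho x := by positivity
  simp only [wt, pow_zero, mul_one]
  nlinarith

/-- **energy estimate**: the tilt is controlled by the height, the dissipation and the defect -/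
theorem exists_TG_le (hE : Module.finrank ℝ E = m + 1) (hc : 0 < c) (hK : 0 ≤ K) :
    ∃ C : ℝ, 0 ≤ C ∧ ∀ (W : E → ℝ), Tube0 W c K → ∀ η : E → ℝ, Continuous η → PB η →
      (∀ x, |W x| < c → |dfc W x| ≤ K * W x ^ 2 + η x) →
      ∀ (μ : Measure E) (T : E → Submodule ℝ E) (H : E → E), GSlice m μ T H →
      TG μ T W 0 ≤ C * (DD μ W 0 + dis μ T H + ∫ x, η x ^ 2 * rho x ∂μ) := by
  obtain ⟨C₀, hC₀, hpt⟩ := energy_pt (E := E) hE hc hK
  refine ⟨2 * C₀ + 2 * K + 2, by positivity, fun W hW η hηc hηb hd μ T H hS => ?_⟩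
  have hXpg : PG (fun x => W x • grad W x) := hW.pg.smul hW.pg_grad
  have hwfv := hS.wfv hXpg.cd hXpg.b0 hXpg.b1
  have i0 := int_DD hS hW.pg 0
  have i1 := int_TG hS hW.pg 0
  have i2 := int_sq hS hηc hηb
  have i3 := hS.int_vel_sq
  have iv := hS.integrable_inner_vel hXpg.cont.aestronglyMeasurable hXpg.b0
  have hdiv : ∀ x, divAlong (T x) (fun x => W x • grad W x) x
      = W x * tr ((proj (T x)).comp (fderiv ℝ (grad W) x)) + ‖proj (T x) (grad W x)‖ ^ 2 := by
    intro x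
    rw [divAlong_smul (T x) (hW.diff x) (hW.pg_grad.diff x), divAlong_eq, ← norm_proj_sq]
  have iX : Integrable (fun x => (divAlong (T x) (fun x => W x • grad W x) x
      - 1 / 2 * ⟪x, W x • grad W x⟫) * rho x) μ := by
    have dX := hS.integrable_div hXpg.cd hXpg.b1
    have nX := hS.integrable_PB (continuous_id.inner hXpg.cont).aestronglyMeasurable
      (PB.id'.inner' hXpg.b0)
    refine (dX.sub (nX.const_mul (1 / 2))).congr (Eventually.of_forall fun x => ?_)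
    simp only [Pi.sub_apply, id]
    ring
  have h1 : 1 / 2 * TG μ T W 0 - C₀ * DD μ W 0 - ∫ x, η x ^ 2 * rho x ∂μ
      ≤ ∫ x, (divAlong (T x) (fun x => W x • grad W x) x
        - 1 / 2 * ⟪x, W x • grad W x⟫) * rho x ∂μ := by
    have e := integral_comb i1 i0 i2 (1 / 2) (-C₀) (-1)
    have e' : 1 / 2 * TG μ T W 0 - C₀ * DD μ W 0 - ∫ x, η x ^ 2 * rho x ∂μ
        = ∫ x, (1 / 2 * (wt 0 x * ‖proj (T x) (grad W x)‖ ^ 2 * rho x)
          + -C₀ * (W x ^ 2 * wt 0 x * rho x) + -1 * (η x ^ 2 * rho x)) ∂μ := by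
      rw [e]
      change _ = 1 / 2 * TG μ T W 0 + -C₀ * DD μ W 0 + _
      ring
    rw [e']
    refine integral_mono_ae (((i1.const_mul _).add (i0.const_mul _)).add (i2.const_mul _)) iX ?_
    filter_upwards [hS.mc.dim] with x hx
    have h2 := hpt W hW x (η x) (hd x) (T x) hx
    have h3 := rho_pos x
    rw [hdiv, real_inner_smul_right]
    have h4 := mul_le_mul_of_nonneg_right h2 h3.le
    simp only [wt, pow_zero, mul_one, one_mul]
    nlinarith
  have h2 : -∫ x, ⟪W x • grad W x, vel T H x⟫ * rho x ∂μ ≤ K * (DD μ W 0 + dis μ T H) := by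
    rw [← integral_neg]
    have e : K * (DD μ W 0 + dis μ T H)
        = ∫ x, (K * (W x ^ 2 * wt 0 x * rho x) + K * (‖vel T H x‖ ^ 2 * rho x)) ∂μ := by
      rw [integral_comb2 i0 i3, mul_add]; rfl
    rw [e]
    refine integral_mono iv.neg ((i0.const_mul _).add (i3.const_mul _)) fun x => ?_
    have h4 := rho_pos x
    have h5 : -⟪W x • grad W x, vel T H x⟫ ≤ K * W x ^ 2 + K * ‖vel T H x‖ ^ 2 := by
      rw [real_inner_smul_left]
      calc -(W x * ⟪grad W x, vel T H x⟫) ≤ |W x * ⟪grad W x, vel T H x⟫| := neg_le_abs _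
        _ = |W x| * |⟪grad W x, vel T H x⟫| := abs_mul _ _
        _ ≤ |W x| * (K * ‖vel T H x‖) := by
            gcongr
            exact (abs_real_inner_le_norm _ _).trans
              (mul_le_mul_of_nonneg_right (hW.b1 x) (norm_nonneg _))
        _ ≤ K * W x ^ 2 + K * ‖vel T H x‖ ^ 2 := by
            have : W x ^ 2 = |W x| ^ 2 := (sq_abs _).symm
            rw [this]
            nlinarith [mul_nonneg hK (sq_nonneg (|W x| - ‖vel T H x‖)),
              mul_nonneg hK (mul_nonneg (abs_nonneg (W x)) (norm_nonneg (vel T H x)))]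
    have h6 := mul_le_mul_of_nonneg_right h5 h4.le
    simp only [wt, pow_zero, mul_one] at h6 ⊢
    nlinarith
  have h4 := DD_nonneg (μ := μ) (W := W) 0
  have h5 := dis_nonneg (μ := μ) (T := T) (H := H)
  have h6 : 0 ≤ ∫ x, η x ^ 2 * rho x ∂μ :=
    integral_nonneg fun x => mul_nonneg (sq_nonneg _) (rho_pos x).le
  rw [hwfv] at h1
  nlinarith

/-- the second moment of the squared height -/
theorem DD_one_le (hS : GSlice m μ T H) (hW : PG W) :
    DD μ W 1 ≤ (1 + 4 * m) * DD μ W 0 + 32 * TG μ T W 0 + 8 * VW μ T H W 0 := by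
  set F : E → ℝ := fun x => W x ^ 2 with hF
  have hFpg : PG F := hW.pow 2
  have hXpg : PG (fun x => F x • x) := hFpg.smul PG.id'
  have hwfv := hS.wfv hXpg.cd hXpg.b0 hXpg.b1
  have i0 := int_DD hS hW 0
  have i1 := int_TG hS hW 0
  have i2 := int_VW hS hW 0
  have iq : Integrable (fun x => W x ^ 2 * ‖x‖ ^ 2 * rho x) μ :=
    hS.integrable_PB ((hW.cont.pow 2).mul (continuous_norm.pow 2)).aestronglyMeasurable
      ((hW.b0.pow 2).mul PB.normSq)
  set Q := ∫ x, W x ^ 2 * ‖x‖ ^ 2 * rho x ∂μ with hQ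
  have eD1 : DD μ W 1 = DD μ W 0 + Q := by
    have := integral_comb2 i0 iq 1 1
    simp only [one_mul] at this
    rw [DD_eq 0, hQ, ← this, DD_eq 1]
    congr 1
    ext x
    simp only [wt, pow_zero, pow_one]
    ring
  have hdivle : 1 / 2 * Q ≤ m * DD μ W 0 + (1 / 8 * Q + 8 * TG μ T W 0)
      + (1 / 8 * Q + 2 * VW μ T H W 0) := by
    have e1 : 1 / 2 * Q = ∫ x, (divAlong (T x) (fun x => F x • x) x * rho x) ∂μ
        + ∫ x, ⟪F x • x, vel T H x⟫ * rho x ∂μ := by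
      have j1 := hS.integrable_div hXpg.cd hXpg.b1
      have j2 : ∫ x, (divAlong (T x) (fun x => F x • x) x - 1 / 2 * ⟪x, F x • x⟫) * rho x ∂μ
          = ∫ x, divAlong (T x) (fun x => F x • x) x * rho x ∂μ - 1 / 2 * Q := by
        have := integral_comb2 j1 iq 1 (-(1 / 2))
        simp only [one_mul, neg_mul, ← sub_eq_add_neg] at this
        rw [hQ, ← this]
        congr 1
        ext x
        rw [real_inner_smul_right, real_inner_self_eq_norm_sq]
        simp only [hF]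
        ring
      rw [j2] at hwfv
      linarith
    have e2 : ∫ x, (divAlong (T x) (fun x => F x • x) x * rho x) ∂μ
        ≤ m * DD μ W 0 + (1 / 8 * Q + 8 * TG μ T W 0) := by
      have e3 : m * DD μ W 0 + (1 / 8 * Q + 8 * TG μ T W 0)
          = ∫ x, (m * (W x ^ 2 * wt 0 x * rho x) + 1 / 8 * (W x ^ 2 * ‖x‖ ^ 2 * rho x)
            + 8 * (wt 0 x * ‖proj (T x) (grad W x)‖ ^ 2 * rho x)) ∂μ := by
        rw [integral_comb i0 iq i1]
        change _ = m * DD μ W 0 + 1 / 8 * Q + 8 * TG μ T W 0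
        ring
      rw [e3]
      refine integral_mono_ae (hS.integrable_div hXpg.cd hXpg.b1)
        (((i0.const_mul _).add (iq.const_mul _)).add (i1.const_mul _)) ?_
      filter_upwards [hS.mc.dim] with x hx
      have h4 := rho_pos x
      have h5 : divAlong (T x) (fun x => F x • x) x
          = W x ^ 2 * m + 2 * W x * ⟪proj (T x) (grad W x), x⟫ := by
        rw [divAlong_smul (T x) (hFpg.diff x) differentiableAt_fun_id, divAlong_id, hx, hF,
          grad_sq (hW.diff x), map_smul, real_inner_smul_left]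
      rw [h5]
      have h6 : 2 * W x * ⟪proj (T x) (grad W x), x⟫
          ≤ 1 / 8 * (W x ^ 2 * ‖x‖ ^ 2) + 8 * ‖proj (T x) (grad W x)‖ ^ 2 := by
        calc 2 * W x * ⟪proj (T x) (grad W x), x⟫ ≤ |2 * W x * ⟪proj (T x) (grad W x), x⟫| :=
              le_abs_self _
          _ = 2 * |W x| * |⟪proj (T x) (grad W x), x⟫| := by rw [abs_mul, abs_mul, abs_two]
          _ ≤ 2 * |W x| * (‖proj (T x) (grad W x)‖ * ‖x‖) := by
              gcongr
              exact abs_real_inner_le_norm _ _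
          _ ≤ 1 / 8 * (W x ^ 2 * ‖x‖ ^ 2) + 8 * ‖proj (T x) (grad W x)‖ ^ 2 := by
              have : W x ^ 2 = |W x| ^ 2 := (sq_abs _).symm
              rw [this]
              nlinarith [sq_nonneg (|W x| * ‖x‖ - 8 * ‖proj (T x) (grad W x)‖)]
      have h7 := mul_le_mul_of_nonneg_right h6 h4.le
      simp only [wt, pow_zero, mul_one, one_mul]
      nlinarith
    have e4 : ∫ x, ⟪F x • x, vel T H x⟫ * rho x ∂μ ≤ 1 / 8 * Q + 2 * VW μ T H W 0 := by
      have e5 : 1 / 8 * Q + 2 * VW μ T H W 0 = ∫ x, (1 / 8 * (W x ^ 2 * ‖x‖ ^ 2 * rho x)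
          + 2 * (W x ^ 2 * wt 0 x * ‖vel T H x‖ ^ 2 * rho x)) ∂μ := by
        rw [integral_comb2 iq i2]; rfl
      rw [e5]
      refine integral_mono (hS.integrable_inner_vel hXpg.cont.aestronglyMeasurable hXpg.b0)
        ((iq.const_mul _).add (i2.const_mul _)) fun x => ?_
      have h4 := rho_pos x
      have h6 : ⟪F x • x, vel T H x⟫ ≤ 1 / 8 * (W x ^ 2 * ‖x‖ ^ 2)
          + 2 * (W x ^ 2 * ‖vel T H x‖ ^ 2) := by
        rw [real_inner_smul_left]
        have h7 : ⟪x, vel T H x⟫ ≤ ‖x‖ * ‖vel T H x‖ := real_inner_le_norm _ _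
        have h8 : ‖x‖ * ‖vel T H x‖ ≤ 1 / 8 * ‖x‖ ^ 2 + 2 * ‖vel T H x‖ ^ 2 := by
          nlinarith [sq_nonneg (‖x‖ - 4 * ‖vel T H x‖)]
        have h9 := mul_le_mul_of_nonneg_left (h7.trans h8) (sq_nonneg (W x))
        simp only [hF]
        linarith
      have h7 := mul_le_mul_of_nonneg_right h6 h4.le
      simp only [wt, pow_zero, mul_one]
      nlinarith
    linarith
  rw [eD1]
  linarith

lemma continuous_jac {W ζ : E → ℝ} (hW : ContDiff ℝ 2 W) (hζ : ContDiff ℝ 2 ζ) :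
    Continuous (jac W ζ) := by
  have h1 : Continuous (fderiv ℝ (grad ζ)) :=
    (contDiff_grad_one hζ).continuous_fderiv (by norm_num)
  have h2 : Continuous (fderiv ℝ (grad W)) :=
    (contDiff_grad_one hW).continuous_fderiv (by norm_num)
  have h3 : Continuous (grad W) := (contDiff_grad_one hW).continuous
  have h4 : Continuous (grad ζ) := (contDiff_grad_one hζ).continuous
  have h5 := hζ.continuous
  have h6 : Continuous (fun x => tr (fderiv ℝ (grad ζ) x)) := (trL E).continuous.comp h1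
  have h7 : Continuous (fun x => tr ((fderiv ℝ (grad W) x).comp (fderiv ℝ (grad W) x))) :=
    (trL E).continuous.comp (h2.clm_comp h2)
  unfold jac
  exact ((h6.sub ((h1.clm_apply h3).inner h3)).sub
    (continuous_const.mul (continuous_id.inner h4))).add ((h7.add continuous_const).mul h5)

/-- **the almost Jacobi equation with right-hand side** on a Gaussian slice -/
theorem exists_jac_est (hE : Module.finrank ℝ E = m + 1) (hc : 0 < c) (hK : 0 ≤ K)
    {ζ : E → ℝ} (hζ : ContDiff ℝ 2 ζ) (hζc : HasCompactSupport ζ) :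
    ∃ C : ℝ, 0 ≤ C ∧ ∀ W : E → ℝ, Tube0 W c K → ∀ g η : E → ℝ, Continuous g → PB g →
      Continuous η → PB η → (∀ x, 0 ≤ η x) →
      (∀ x, |W x| < c → |dfc W x - g x| ≤ K * W x ^ 2 + η x) →
      ∀ (μ : Measure E) (T : E → Submodule ℝ E) (H : E → E), GSlice m μ T H →
      |∫ x, W x * jac W ζ x * rho x ∂μ - ∫ x, ζ x * g x * rho x ∂μ|
        ≤ C * (DD μ W 0 + TG μ T W 0 + ∫ x, η x * rho x ∂μ + ∫ x, g x ^ 2 * rho x ∂μ
          + ∫ x, ‖vel T H x‖ * rho x ∂μ) := by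
  obtain ⟨B, hB, hζ0, hζ1, hζ2⟩ := exists_bounds2 hζ hζc
  obtain ⟨C₁, hC₁, hpt⟩ := jac_pt (E := E) hE hc hK hB
  refine ⟨C₁ + 2 * B * K, by positivity, fun W hW g η hgc hgb hηc hηb hη0 hd μ T H hS => ?_⟩
  have hDD := DD_nonneg (μ := μ) (W := W) 0
  have hTG := TG_nonneg (μ := μ) (T := T) (W := W) 0
  have hζpg : PG ζ := PG.of_compact (hζ.of_le (by norm_num)) hζc
  have hgζpg : PG (grad ζ) := PG.of_compact (contDiff_grad_one hζ) (hasCompactSupport_grad hζc)
  have hXpg : PG (fun x => ζ x • grad W x) := hζpg.smul hW.pg_grad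
  have hYpg : PG (fun x => W x • grad ζ x) := hW.pg.smul hgζpg
  have wX := hS.wfv hXpg.cd hXpg.b0 hXpg.b1
  have wY := hS.wfv hYpg.cd hYpg.b0 hYpg.b1
  have dX := hS.integrable_div hXpg.cd hXpg.b1
  have dY := hS.integrable_div hYpg.cd hYpg.b1
  have nX := hS.integrable_PB (continuous_id.inner hXpg.cont).aestronglyMeasurable
    (PB.id'.inner' hXpg.b0)
  have nY := hS.integrable_PB (continuous_id.inner hYpg.cont).aestronglyMeasurable
    (PB.id'.inner' hYpg.b0)
  have ivel := int_vel hS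
  have iη : Integrable (fun x => η x * rho x) μ := hS.integrable_PB hηc.aestronglyMeasurable hηb
  have ig := int_sq hS hgc hgb
  have iζg : Integrable (fun x => ζ x * g x * rho x) μ :=
    hS.integrable_PB (hζpg.cont.mul hgc).aestronglyMeasurable (hζpg.b0.mul hgb)
  set R : E → ℝ := fun x => W x * (tr (fderiv ℝ (grad ζ) x)
        - ⟪fderiv ℝ (grad ζ) x (grad W x), grad W x⟫
        - tr ((proj (T x)).comp (fderiv ℝ (grad ζ) x)))
      + ζ x * (tr ((proj (T x)).comp (fderiv ℝ (grad W) x)) - 1 / 2 * ⟪x, grad W x⟫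
        + (tr ((fderiv ℝ (grad W) x).comp (fderiv ℝ (grad W) x)) + 1 / 2) * W x)
      - ζ x * g x with hR
  have hpw : ∀ x, W x * jac W ζ x * rho x - ζ x * g x * rho x
      = ((divAlong (T x) (fun x => W x • grad ζ x) x - 1 / 2 * ⟪x, W x • grad ζ x⟫) * rho x
        - (divAlong (T x) (fun x => ζ x • grad W x) x - 1 / 2 * ⟪x, ζ x • grad W x⟫) * rho x)
        + R x * rho x := by
    intro x
    rw [divAlong_smul (T x) (hW.diff x) (hgζpg.diff x),
      divAlong_smul (T x) (hζpg.diff x) (hW.pg_grad.diff x), H552.inner_proj_left,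
      real_inner_smul_right, real_inner_smul_right, divAlong_eq, divAlong_eq,
      real_inner_comm (proj (T x) (grad ζ x)) (grad W x)]
    simp only [hR, jac]
    ring
  have iJ : Integrable (fun x => W x * jac W ζ x * rho x) μ := by
    refine hS.integrable_PB (hW.cont.mul (continuous_jac hW.smooth hζ)).aestronglyMeasurable ?_
    exact hW.pg.b0.mul (PB.of_compact (continuous_jac hW.smooth hζ) (hasCompactSupport_jac hζc))
  have iX : Integrable (fun x => (divAlong (T x) (fun x => ζ x • grad W x) x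
      - 1 / 2 * ⟪x, ζ x • grad W x⟫) * rho x) μ := by
    refine (dX.sub (nX.const_mul (1 / 2))).congr (Eventually.of_forall fun x => ?_)
    simp only [Pi.sub_apply, id]
    ring
  have iY : Integrable (fun x => (divAlong (T x) (fun x => W x • grad ζ x) x
      - 1 / 2 * ⟪x, W x • grad ζ x⟫) * rho x) μ := by
    refine (dY.sub (nY.const_mul (1 / 2))).congr (Eventually.of_forall fun x => ?_)
    simp only [Pi.sub_apply, id]
    ring
  have iR : Integrable (fun x => R x * rho x) μ := by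
    refine ((iJ.sub iζg).sub (iY.sub iX)).congr (Eventually.of_forall fun x => ?_)
    simp only [Pi.sub_apply]
    rw [hpw x]
    ring
  have hid : ∫ x, W x * jac W ζ x * rho x ∂μ - ∫ x, ζ x * g x * rho x ∂μ
      = - ∫ x, ⟪W x • grad ζ x, vel T H x⟫ * rho x ∂μ
        + ∫ x, ⟪ζ x • grad W x, vel T H x⟫ * rho x ∂μ + ∫ x, R x * rho x ∂μ := by
    have h := integral_comb iY iX iR 1 (-1) 1
    simp only [one_mul, neg_mul, ← sub_eq_add_neg] at h
    rw [← integral_sub iJ iζg, integral_congr_ae (Eventually.of_forall hpw), h, wX, wY]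
    ring
  have bY : |∫ x, ⟪W x • grad ζ x, vel T H x⟫ * rho x ∂μ|
      ≤ B * K * ∫ x, ‖vel T H x‖ * rho x ∂μ := by
    rw [← integral_const_mul, ← Real.norm_eq_abs]
    refine norm_integral_le_of_norm_le (ivel.const_mul _) (Eventually.of_forall fun x => ?_)
    rw [norm_mul, Real.norm_of_nonneg (rho_pos x).le, ← mul_assoc]
    refine mul_le_mul_of_nonneg_right ?_ (rho_pos x).le
    refine (norm_inner_le_norm _ _).trans (mul_le_mul_of_nonneg_right ?_ (norm_nonneg _))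
    rw [norm_smul, Real.norm_eq_abs, mul_comm]
    exact mul_le_mul (hζ1 x) (hW.b0 x) (abs_nonneg _) hB
  have bX : |∫ x, ⟪ζ x • grad W x, vel T H x⟫ * rho x ∂μ|
      ≤ B * K * ∫ x, ‖vel T H x‖ * rho x ∂μ := by
    rw [← integral_const_mul, ← Real.norm_eq_abs]
    refine norm_integral_le_of_norm_le (ivel.const_mul _) (Eventually.of_forall fun x => ?_)
    rw [norm_mul, Real.norm_of_nonneg (rho_pos x).le, ← mul_assoc]
    refine mul_le_mul_of_nonneg_right ?_ (rho_pos x).le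
    refine (norm_inner_le_norm _ _).trans (mul_le_mul_of_nonneg_right ?_ (norm_nonneg _))
    rw [norm_smul, Real.norm_eq_abs]
    exact mul_le_mul (hζ0 x) (hW.b1 x) (norm_nonneg _) hB
  have i0 := int_DD hS hW.pg 0
  have i1 := int_TG hS hW.pg 0
  have bR : |∫ x, R x * rho x ∂μ| ≤ C₁ * (DD μ W 0 + TG μ T W 0 + ∫ x, η x * rho x ∂μ
      + ∫ x, g x ^ 2 * rho x ∂μ) := by
    have j1 : Integrable (fun x => 1 * (W x ^ 2 * wt 0 x * rho x)
        + 1 * (wt 0 x * ‖proj (T x) (grad W x)‖ ^ 2 * rho x) + 1 * (η x * rho x)) μ :=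
      ((i0.const_mul _).add (i1.const_mul _)).add (iη.const_mul _)
    have e : C₁ * (DD μ W 0 + TG μ T W 0 + ∫ x, η x * rho x ∂μ + ∫ x, g x ^ 2 * rho x ∂μ)
        = ∫ x, (C₁ * (1 * (W x ^ 2 * wt 0 x * rho x)
          + 1 * (wt 0 x * ‖proj (T x) (grad W x)‖ ^ 2 * rho x) + 1 * (η x * rho x))
          + C₁ * (g x ^ 2 * rho x)) ∂μ := by
      rw [integral_comb2 j1 ig, integral_comb i0 i1 iη]
      change _ = C₁ * (1 * DD μ W 0 + 1 * TG μ T W 0 + _) + _
      ring
    rw [e, ← Real.norm_eq_abs]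
    refine norm_integral_le_of_norm_le ((j1.const_mul _).add (ig.const_mul _)) ?_
    filter_upwards [hS.mc.dim] with x hx
    rw [norm_mul, Real.norm_of_nonneg (rho_pos x).le, Real.norm_eq_abs]
    have h1 := hpt W hW ζ hζ0 hζ2 x (g x) (η x) (hη0 x) (hd x) (T x) hx
    have h2 := mul_le_mul_of_nonneg_right h1 (rho_pos x).le
    simp only [wt, pow_zero, mul_one, one_mul]
    refine h2.trans (le_of_eq (by ring))
  rw [hid]
  have t1 := abs_add_le (- ∫ x, ⟪W x • grad ζ x, vel T H x⟫ * rho x ∂μ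
        + ∫ x, ⟪ζ x • grad W x, vel T H x⟫ * rho x ∂μ) (∫ x, R x * rho x ∂μ)
  have t2 := abs_add_le (- ∫ x, ⟪W x • grad ζ x, vel T H x⟫ * rho x ∂μ)
    (∫ x, ⟪ζ x • grad W x, vel T H x⟫ * rho x ∂μ)
  rw [abs_neg] at t2
  have hv0 : 0 ≤ ∫ x, ‖vel T H x‖ * rho x ∂μ :=
    integral_nonneg fun x => mul_nonneg (norm_nonneg _) (rho_pos x).le
  have hη1 : 0 ≤ ∫ x, η x * rho x ∂μ :=
    integral_nonneg fun x => mul_nonneg (hη0 x) (rho_pos x).le
  have hg1 : 0 ≤ ∫ x, g x ^ 2 * rho x ∂μ :=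
    integral_nonneg fun x => mul_nonneg (sq_nonneg _) (rho_pos x).le
  have hBK := mul_nonneg hB hK
  nlinarith [mul_nonneg hC₁ hv0, mul_nonneg hBK hDD, mul_nonneg hBK hTG, mul_nonneg hBK hη1,
    mul_nonneg hBK hg1]

end Vale.Agent.P218F.Dyn
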