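import Vale.Agent.P218F.DynST1
import Mathlib.Analysis.Normed.Lp.SmoothApprox

/-! Strong convergence of functions on varifolds converging with multiplicity one, for a nonzero
weak limit. -/

open MeasureTheory Set Filter Topology Metric
open scoped ENNReal NNReal RealInnerProductSpace

namespace Vale.Agent.P218F.Dyn

open Vale.Agent.P214 (proj divAlong)
open Vale.Agent.P218 Vale.Agent.P218.H313

set_option linter.unusedSectionVars false
set_option linter.unusedVariables false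

variable {E : Type*} [NormedAddCommGroup E] [InnerProductSpace ℝ E] [FiniteDimensional ℝ E]
  [MeasurableSpace E] [BorelSpace E]
variable {m : ℕ}

section single

variable {μ : Measure E} {T : E → Submodule ℝ E} {H : E → E}

/-- weak type estimate for the maximal function of `g κ`, measured by `μ` -/
lemma bad_set2 [IsFiniteMeasureOnCompacts μ] {κ : Measure E} {C lam R G : ℝ} (hC : 0 < C)
    (hlam : 0 < lam)
    (hratio : ∀ (x : E) (r : ℝ), 0 < r → r ≤ 1 → μ.real (closedBall x r) ≤ C * r ^ m)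
    {g : E → ℝ} (g0 : ∀ y, 0 ≤ g y) (hg : IntegrableOn g (closedBall 0 (R + 1)) κ)
    (hG : ∫ y in closedBall 0 (R + 1), g y ∂κ ≤ G) (A : Set E)
    (hA : ∀ x ∈ A, x ∈ closedBall (0 : E) R ∧
      ∃ t, 0 < t ∧ t ≤ 1 ∧ lam * t ^ m < ∫ y in closedBall x t, g y ∂κ) :
    μ A ≤ ENNReal.ofReal (Vale.Agent.P214.BES.nB E * C * (G / lam)) := by
  have hprop : ProperSpace E := FiniteDimensional.proper_real E
  have hq : 0 < lam / C := div_pos hlam hC
  have h := Vale.Agent.P214.BES.weak_type_set μ (κ.withDensity fun y => ENNReal.ofReal (g y)) 1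
    (ENNReal.ofReal (lam / C)) (by simpa using hq) ENNReal.ofReal_ne_top (closedBall 0 (R + 1))
    A (fun x hx => ?_)
  · refine h.trans ?_
    rw [withDensity_apply _ measurableSet_closedBall]
    have e1 : ∫⁻ y in closedBall 0 (R + 1), ENNReal.ofReal (g y) ∂κ ≤ ENNReal.ofReal G := by
      rw [← ofReal_integral_eq_lintegral_ofReal hg (Eventually.of_forall g0)]
      exact ENNReal.ofReal_le_ofReal hG
    calc (Vale.Agent.P214.BES.nB E : ℝ≥0∞) * ((∫⁻ y in closedBall 0 (R + 1),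
          ENNReal.ofReal (g y) ∂κ) / ENNReal.ofReal (lam / C))
        ≤ (Vale.Agent.P214.BES.nB E : ℝ≥0∞) * (ENNReal.ofReal G / ENNReal.ofReal (lam / C)) := by
          gcongr
      _ = ENNReal.ofReal (Vale.Agent.P214.BES.nB E * C * (G / lam)) := by
          rw [← ENNReal.ofReal_div_of_pos hq, ← ENNReal.ofReal_natCast,
            ← ENNReal.ofReal_mul (by positivity)]
          congr 1
          field_simp
  · obtain ⟨hx1, t, ht0, ht1, ht2⟩ := hA x hx
    have hsub : closedBall x t ⊆ closedBall 0 (R + 1) := by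
      refine closedBall_subset_closedBall' ?_
      rw [mem_closedBall] at hx1
      linarith
    refine ⟨t, ht0, ht1, hsub, ?_⟩
    have h1 := hratio x t ht0 ht1
    have h2 : μ (closedBall x t) = ENNReal.ofReal (μ.real (closedBall x t)) := by
      rw [Measure.real, ENNReal.ofReal_toReal]
      exact (isCompact_closedBall x t).measure_lt_top.ne
    rw [withDensity_apply _ measurableSet_closedBall,
      ← ofReal_integral_eq_lintegral_ofReal (hg.mono_set hsub) (Eventually.of_forall g0), h2,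
      ← ENNReal.ofReal_mul hq.le]
    refine ENNReal.ofReal_le_ofReal ?_
    calc lam / C * μ.real (closedBall x t) ≤ lam / C * (C * t ^ m) := by gcongr
      _ = lam * t ^ m := by field_simp
      _ ≤ _ := ht2.le

/-- good points outside a given small set -/
lemma exists_good2 (hS : Slice m μ T H) {w : E → ℝ} (hw : ContDiff ℝ 1 w) {C R G s lam β : ℝ}
    (hC : 0 < C) (hs : 0 < s) (hlam : 0 < lam) (hG0 : 0 ≤ G) (hβ : 0 ≤ β)
    (hratio : ∀ (x : E) (r : ℝ), 0 < r → r ≤ 1 → μ.real (closedBall x r) ≤ C * r ^ m)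
    (hG : ∫ y in closedBall 0 (R + 1), dom T H w s y ∂μ ≤ G) {A' : Set E}
    (hA' : μ A' ≤ ENNReal.ofReal β)
    (hbig : ENNReal.ofReal (Vale.Agent.P214.BES.nB E * C * (G / lam) + β)
      < μ {x | x ∈ closedBall (0 : E) R ∧ 2 * s ≤ w x}) :
    ∃ x ∈ closedBall (0 : E) R, x ∉ A' ∧
      (∀ t, 0 < t → t ≤ 1 → om m ≤ JJ m μ (fun y => gam s (w y)) x t + lam * t) ∧
      (∀ t, 0 < t → t ≤ 1 → ∫ y in closedBall x t, w y ^ 2 ∂μ ≤ lam * t ^ m) := by
  have hfin := hS.mc.fin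
  have hprop : ProperSpace E := FiniteDimensional.proper_real E
  set A : Set E := {x | x ∈ closedBall (0 : E) R ∧
      ∃ t, 0 < t ∧ t ≤ 1 ∧ lam * t ^ m < ∫ y in closedBall x t, dom T H w s y ∂μ} with hA
  have hbad : μ A ≤ ENNReal.ofReal (Vale.Agent.P214.BES.nB E * C * (G / lam)) :=
    bad_set hC hlam le_rfl hratio (fun y => dom_nonneg hs y)
      (hS.dom_integrableOn hw s (isCompact_closedBall _ _)) hG A (fun x hx => hx)
  have hbad2 : μ (A ∪ A') ≤ ENNReal.ofReal (Vale.Agent.P214.BES.nB E * C * (G / lam) + β) := by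
    refine (measure_union_le _ _).trans ?_
    rw [ENNReal.ofReal_add (by positivity) hβ]
    exact add_le_add hbad hA'
  have hex : ∃ x, (x ∈ closedBall (0 : E) R ∧ 2 * s ≤ w x) ∧ x ∉ A ∪ A' ∧
      ∀ c < om m, ∀ᶠ r in 𝓝[>] (0 : ℝ), c ≤ (∫ y, H313.ker (r⁻¹ • (y - x)) ∂μ) / r ^ m := by
    by_contra hcon
    push Not at hcon
    have : μ {x | x ∈ closedBall (0 : E) R ∧ 2 * s ≤ w x} ≤ μ (A ∪ A') := by
      refine measure_mono_ae ?_
      filter_upwards [hS.dens] with x hx hxs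
      by_contra hxA
      obtain ⟨c, hc1, hc2⟩ := hcon x hxs hxA
      exact hc2 ((hx c hc1).mono fun r hr => not_lt.2 hr)
    exact absurd (lt_of_lt_of_le hbig (this.trans hbad2)) (lt_irrefl _)
  obtain ⟨x, ⟨hx1, hx2⟩, hxA, hxd⟩ := hex
  have hgood : ∀ t, 0 < t → t ≤ 1 → ∫ y in closedBall x t, dom T H w s y ∂μ ≤ lam * t ^ m := by
    intro t ht ht1
    by_contra hcon
    push Not at hcon
    exact hxA (Or.inl ⟨hx1, t, ht, ht1, hcon⟩)
  have hh : ContDiff ℝ 1 (fun y => gam s (w y)) := (contDiff_gam s).comp hw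
  refine ⟨x, hx1, fun h => hxA (Or.inr h), fun t ht ht1 => ?_, fun t ht ht1 => ?_⟩
  · have h1 := om_mul_le hS hh (fun y => gam_nonneg s _) hxd (lam := lam) ht (fun τ hτ hτt => by
      refine le_trans ?_ (hgood τ hτ (hτt.trans ht1))
      exact integral_mono (hS.err_integrableOn hh (isCompact_closedBall _ _))
        (hS.dom_integrableOn hw s (isCompact_closedBall _ _)) fun y => err_gam_le hw hs y)
    rw [gam_one hs hx2, mul_one] at h1
    exact h1
  · refine le_trans ?_ (hgood t ht ht1)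
    refine integral_mono ((hw.continuous.pow 2).continuousOn.integrableOn_compact
      (isCompact_closedBall _ _)) (hS.dom_integrableOn hw s (isCompact_closedBall _ _)) fun y => ?_
    simp only [dom]
    have h1 : 0 ≤ 4 / s * (1 + ‖proj (T y) (grad w y)‖ ^ 2) + (1 + ‖H y‖ ^ 2) := by positivity
    linarith

/-- the local energy density -/
noncomputable def En (T : E → Submodule ℝ E) (H : E → E) (w : E → ℝ) (x : E) : ℝ :=
  w x ^ 2 + ‖proj (T x) (grad w x)‖ ^ 2 + ‖H x‖ ^ 2 + w x ^ 2 * ‖H x‖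

lemma En_nonneg (w : E → ℝ) (x : E) : 0 ≤ En T H w x := by unfold En; positivity

lemma En_integrableOn (hS : Slice m μ T H) {w : E → ℝ} (hw : ContDiff ℝ 1 w) {K : Set E}
    (hK : IsCompact K) : IntegrableOn (En T H w) K μ := by
  have := hS.mc.fin
  have i1 : IntegrableOn (fun y => w y ^ 2) K μ :=
    (hw.continuous.pow 2).continuousOn.integrableOn_compact hK
  exact ((i1.add (hS.sq_proj_grad_integrableOn hw hK)).add (hS.mc.locL2 _ hK)).add
    (hS.sq_mul_H_integrableOn hw.continuous hK)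

lemma En_lin {w v : E → ℝ} (hw : ContDiff ℝ 1 w) (hv : ContDiff ℝ 1 v) {B σ : ℝ}
    (hσ : σ ^ 2 = 1) (h0 : ∀ x, |v x| ≤ B) (h1 : ∀ x, ‖grad v x‖ ≤ B) (x : E) :
    En T H (fun y => σ * (w y - v y)) x ≤ (2 + B ^ 2) * En T H w x + 5 * B ^ 2 := by
  have dw := hw.differentiable (by norm_num) x
  have dv := hv.differentiable (by norm_num) x
  have e : grad (fun y => σ * (w y - v y)) x = σ • (grad w x - grad v x) := by
    rw [grad_const_mul σ (f := fun y => w y - v y) (dw.sub dv)]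
    congr 1
    refine grad_unique fun z => ?_
    rw [inner_sub_left, inner_grad, inner_grad]
    have := (dw.hasFDerivAt.sub dv.hasFDerivAt).fderiv
    rw [show (fun y => w y - v y) = w - v from rfl, this]
    rfl
  have hσ1 : |σ| = 1 := by
    have : |σ| ^ 2 = 1 := by rw [sq_abs]; exact hσ
    exact (pow_eq_one_iff_of_nonneg (abs_nonneg _) two_ne_zero).1 this
  unfold En
  rw [e, map_smul, norm_smul, Real.norm_eq_abs, hσ1, one_mul, map_sub, mul_pow, hσ, one_mul]
  have a1 : v x ^ 2 ≤ B ^ 2 := by rw [← sq_abs]; have := h0 x; gcongr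
  have a2 : (w x - v x) ^ 2 ≤ 2 * w x ^ 2 + 2 * B ^ 2 := by nlinarith [sq_nonneg (w x + v x)]
  have a3 : ‖proj (T x) (grad w x) - proj (T x) (grad v x)‖ ^ 2
      ≤ 2 * ‖proj (T x) (grad w x)‖ ^ 2 + 2 * B ^ 2 := by
    have b1 := norm_sub_le (proj (T x) (grad w x)) (proj (T x) (grad v x))
    have b2 := (norm_proj_apply_le (T x) (grad v x)).trans (h1 x)
    have b3 : ‖proj (T x) (grad w x) - proj (T x) (grad v x)‖ ≤ ‖proj (T x) (grad w x)‖ + B := by
      linarith
    have b4 : ‖proj (T x) (grad w x) - proj (T x) (grad v x)‖ ^ 2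
        ≤ (‖proj (T x) (grad w x)‖ + B) ^ 2 := by gcongr
    nlinarith [sq_nonneg (‖proj (T x) (grad w x)‖ - B)]
  have hH := norm_nonneg (H x)
  have a4 : (w x - v x) ^ 2 * ‖H x‖ ≤ 2 * (w x ^ 2 * ‖H x‖) + B ^ 2 * (1 + ‖H x‖ ^ 2) := by
    have b1 := mul_le_mul_of_nonneg_right a2 hH
    have b2 : 2 * ‖H x‖ ≤ 1 + ‖H x‖ ^ 2 := by nlinarith [sq_nonneg (‖H x‖ - 1)]
    have b3 := mul_le_mul_of_nonneg_left b2 (sq_nonneg B)
    nlinarith
  have p1 := mul_nonneg (sq_nonneg B) (sq_nonneg (w x))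
  have p2 := mul_nonneg (sq_nonneg B) (sq_nonneg ‖proj (T x) (grad w x)‖)
  have p3 := mul_nonneg (sq_nonneg B) (mul_nonneg (sq_nonneg (w x)) hH)
  have p4 := sq_nonneg ‖H x‖
  nlinarith

end single

section seq

variable {ι : Type*}

/-- **convergence in measure up to the size of the weak limit, one-sided** -/
lemma conv_meas2 (U : Ultrafilter ι) {N : ι → Measure E}
    {T : ι → E → Submodule ℝ E} {H : ι → E → E} {κ : Measure E} [IsLocallyFiniteMeasure κ]
    (hsl : ∀ᶠ i in (U : Filter ι), Slice m (N i) (T i) (H i))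
    (hlim : ∀ φ : E → ℝ, Continuous φ → HasCompactSupport φ →
      Tendsto (fun i => ∫ x, φ x ∂(N i)) U (𝓝 (∫ x, φ x ∂κ)))
    {C : ℝ} (hC : 0 < C)
    (hratio : ∀ᶠ i in (U : Filter ι), ∀ (x : E) (r : ℝ), 0 < r → r ≤ 1 →
      (N i).real (closedBall x r) ≤ C * r ^ m)
    (hκ : ∀ x : E, ∀ c > om m, ∀ᶠ r in 𝓝[>] (0 : ℝ), (∫ y, H313.ker (r⁻¹ • (y - x)) ∂κ) / r ^ m ≤ c)
    {w : ι → E → ℝ} (hw : ∀ᶠ i in (U : Filter ι), ContDiff ℝ 1 (w i)) (R : ℝ) {C₁ : ℝ}
    (hC₁ : ∀ᶠ i in (U : Filter ι),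
      ∫ x in closedBall (0 : E) (R + 1), En (T i) (H i) (w i) x ∂(N i) ≤ C₁)
    {f : E → ℝ} (hf : IntegrableOn f (closedBall 0 (R + 1)) κ) {Γ : ℝ}
    (hΓ : ∫ x in closedBall (0 : E) (R + 1), |f x| ∂κ ≤ Γ)
    (h0 : ∀ ζ : E → ℝ, Continuous ζ → HasCompactSupport ζ →
      Tendsto (fun i => ∫ x, ζ x * w i x ∂(N i)) U (𝓝 (∫ x, ζ x * f x ∂κ)))
    {s : ℝ} (hs : 0 < s) {δ : ℝ} (hδ : 0 < δ) :
    ∀ᶠ i in (U : Filter ι), N i {x | x ∈ closedBall (0 : E) R ∧ 2 * s ≤ w i x}
      ≤ ENNReal.ofReal (δ + Vale.Agent.P214.BES.nB E * C * (Γ / (s * om m / (4 * 2 ^ m)))) := by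
  have hprop : ProperSpace E := FiniteDimensional.proper_real E
  have hom := om_pos m
  have hfin : ∀ᶠ i in (U : Filter ι), IsFiniteMeasureOnCompacts (N i) := by
    filter_upwards [hsl] with i hi using hi.mc.fin
  obtain ⟨M, hM0, hM⟩ := exists_mass U hfin hlim (R + 1)
  set G : ℝ := (1 + 4 / s) * (M + |C₁|) with hGdef
  have hG0 : 0 < G := by positivity
  have hnB : 0 < (Vale.Agent.P214.BES.nB E : ℝ) := by
    unfold Vale.Agent.P214.BES.nB; positivity
  set lam : ℝ := Vale.Agent.P214.BES.nB E * C * G / δ with hlamdef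
  have hlam : 0 < lam := by positivity
  have hval : Vale.Agent.P214.BES.nB E * C * (G / lam) = δ := by
    rw [hlamdef]; field_simp
  set σ : ℝ := s * om m / (4 * 2 ^ m) with hσ
  have hσp : 0 < σ := by positivity
  have hΓ0 : 0 ≤ Γ := (integral_nonneg fun x => abs_nonneg _).trans hΓ
  set A' : Set E := {x | x ∈ closedBall (0 : E) R ∧
      ∃ t, 0 < t ∧ t ≤ 1 ∧ σ * t ^ m < ∫ y in closedBall x t, |f y| ∂κ} with hA'
  by_contra hcon
  rw [← Ultrafilter.eventually_not] at hcon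
  simp only [not_le] at hcon
  have hdom : ∀ᶠ i in (U : Filter ι),
      ∫ y in closedBall 0 (R + 1), dom (T i) (H i) (w i) s y ∂(N i) ≤ G := by
    filter_upwards [hsl, hw, hM, hC₁] with i hi hwi hMi hCi
    have := hi.mc.fin
    have hK : IsCompact (closedBall (0 : E) (R + 1)) := isCompact_closedBall _ _
    have i5 := En_integrableOn hi hwi hK
    have i6 : IntegrableOn (fun _ : E => (1 : ℝ)) (closedBall (0 : E) (R + 1)) (N i) :=
      (locallyIntegrable_const (1 : ℝ)).integrableOn_isCompact hK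
    calc ∫ y in closedBall 0 (R + 1), dom (T i) (H i) (w i) s y ∂(N i)
        ≤ ∫ y in closedBall 0 (R + 1), (1 + 4 / s) * (1 + En (T i) (H i) (w i) y) ∂(N i) := by
          refine integral_mono (hi.dom_integrableOn hwi s hK) ((i6.add i5).const_mul _) fun y => ?_
          simp only [dom, En]
          have p1 := sq_nonneg (w i y)
          have p2 := sq_nonneg ‖proj (T i y) (grad (w i) y)‖
          have p3 := sq_nonneg ‖H i y‖
          have p4 : 0 ≤ w i y ^ 2 * ‖H i y‖ := by positivity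
          have p5 : 0 ≤ 4 / s := by positivity
          nlinarith [mul_nonneg p5 p1, mul_nonneg p5 p3, mul_nonneg p5 p4]
      _ = (1 + 4 / s) * ((N i).real (closedBall 0 (R + 1)) + ∫ y in closedBall 0 (R + 1),
            En (T i) (H i) (w i) y ∂(N i)) := by
          rw [integral_const_mul, integral_add i6 i5, setIntegral_const, smul_eq_mul, mul_one]
      _ ≤ G := by
          rw [hGdef]
          have := le_abs_self C₁
          have p5 : 0 ≤ 4 / s := by positivity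
          gcongr
          linarith
  have hgood : ∀ᶠ i in (U : Filter ι), ∃ x, x ∈ closedBall (0 : E) R ∧ x ∉ A' ∧
      (∀ t, 0 < t → t ≤ 1 → om m ≤ JJ m (N i) (fun y => gam s (w i y)) x t + lam * t) ∧
      (∀ t, 0 < t → t ≤ 1 → ∫ y in closedBall x t, w i y ^ 2 ∂(N i) ≤ lam * t ^ m) := by
    filter_upwards [hsl, hw, hratio, hdom, hcon] with i h1 h2 h3 h4 h5
    rw [← hval] at h5
    have := h1.mc.fin
    have h6 := bad_set2 hC hσp h3 (fun y => abs_nonneg (f y)) hf.abs hΓ A' (fun x hx => hx)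
    obtain ⟨x, hx, hx0, hx1, hx2⟩ := exists_good2 h1 h2 hC hs hlam hG0.le (by positivity) h3 h4 h6 h5
    exact ⟨x, hx, hx0, hx1, hx2⟩
  obtain ⟨x, hx⟩ := hgood.choice
  obtain ⟨x₀, hx₀, hxlim⟩ := (isCompact_closedBall (0 : E) R).ultrafilter_le_nhds (U.map x) (by
    rw [Ultrafilter.coe_map, le_principal_iff, mem_map]
    exact hx.mono fun i hi => hi.1)
  have hxt : Tendsto x U (𝓝 x₀) := hxlim
  set η : ℝ := s * om m / (4 * (lam * 2 ^ m)) with hη
  have hηp : 0 < η := by positivity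
  set ε : ℝ := min (om m / 16) (η * (s * om m) / 8) with hε
  have hεp : 0 < ε := lt_min (by positivity) (by positivity)
  have hε1 : ε ≤ om m / 16 := min_le_left _ _
  have hε2 : ε ≤ η * (s * om m) / 8 := min_le_right _ _
  obtain ⟨t, ht1, ht2⟩ : ∃ t : ℝ, (∫ y, H313.ker (t⁻¹ • (y - x₀)) ∂κ) / t ^ m ≤ om m + ε ∧
      t ∈ Ioo 0 (min (1 / 2) (ε / lam)) :=
    ((hκ x₀ (om m + ε) (by linarith)).and
      (Ioo_mem_nhdsGT (lt_min (by norm_num) (by positivity)))).exists
  have ht : 0 < t := ht2.1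
  have htm : 0 < t ^ m := by positivity
  have ht3 : 2 * t ≤ 1 := by
    have := lt_of_lt_of_le ht2.2 (min_le_left _ _)
    linarith
  have ht4 : lam * t ≤ ε := by
    have := (lt_of_lt_of_le ht2.2 (min_le_right _ _)).le
    rw [le_div_iff₀ hlam] at this
    linarith
  rw [div_le_iff₀ htm] at ht1
  have hev1 : ∀ᶠ i in (U : Filter ι), ∫ y, H313.ker (t⁻¹ • (y - x₀)) ∂(N i) ≤ (om m + 2 * ε) * t ^ m := by
    have h1 := hlim _ (continuous_ker_scale t x₀) (hasCompactSupport_ker_scale ht x₀)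
    have h2 : ∫ y, H313.ker (t⁻¹ • (y - x₀)) ∂κ < (om m + 2 * ε) * t ^ m := by
      have : 0 < ε * t ^ m := by positivity
      linarith
    filter_upwards [h1.eventually (gt_mem_nhds h2)] with i hi using hi.le
  have hdist : Tendsto (fun i => dist (x i) x₀) U (𝓝 0) := tendsto_iff_dist_tendsto_zero.1 hxt
  have hev2 : ∀ᶠ i in (U : Filter ι), 4 * (t⁻¹ * dist (x i) x₀) * M ≤ ε * t ^ m := by
    have h1 : Tendsto (fun i => 4 * (t⁻¹ * dist (x i) x₀) * M) U (𝓝 (4 * (t⁻¹ * 0) * M)) :=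
      ((hdist.const_mul _).const_mul _).mul_const _
    have h2 : 4 * (t⁻¹ * 0) * M < ε * t ^ m := by
      simp; positivity
    filter_upwards [h1.eventually (gt_mem_nhds h2)] with i hi using hi.le
  have hev3 : ∀ᶠ i in (U : Filter ι), dist (x i) x₀ ≤ t := by
    filter_upwards [hdist.eventually (gt_mem_nhds ht)] with i hi using hi.le
  -- the limit is small near `x₀`
  have hsmall : ∫ y, H313.ker (t⁻¹ • (y - x₀)) * f y ∂κ < s * om m / 2 * t ^ m := by
    obtain ⟨i, ⟨hi1, hi2, -⟩, hi3⟩ := (hx.and hev3).exists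
    have hsub : closedBall (x i) (2 * t) ⊆ closedBall 0 (R + 1) := by
      refine closedBall_subset_closedBall' ?_
      rw [mem_closedBall] at hi1
      linarith
    have h1 : ∫ y in closedBall (x i) (2 * t), |f y| ∂κ ≤ σ * (2 * t) ^ m := by
      by_contra hc
      push Not at hc
      exact hi2 ⟨hi1, 2 * t, by positivity, ht3, hc⟩
    have h2 : ∫ y, H313.ker (t⁻¹ • (y - x₀)) * f y ∂κ ≤ ∫ y in closedBall (x i) (2 * t), |f y| ∂κ := by
      rw [← integral_indicator measurableSet_closedBall]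
      refine (le_abs_self _).trans ?_
      rw [← Real.norm_eq_abs]
      refine norm_integral_le_of_norm_le ((integrable_indicator_iff measurableSet_closedBall).2
        (hf.mono_set hsub).abs) (Eventually.of_forall fun y => ?_)
      by_cases hy : y ∈ closedBall (x i) (2 * t)
      · rw [indicator_of_mem hy, norm_mul, Real.norm_of_nonneg (kern_nonneg _), Real.norm_eq_abs]
        exact mul_le_of_le_one_left (abs_nonneg _) (kern_le_one _)
      · rw [indicator_of_notMem hy, ker_scale_zero' ht, zero_mul, norm_zero]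
        intro hy'
        refine hy ?_
        rw [mem_closedBall] at hy' ⊢
        have := dist_triangle y x₀ (x i)
        rw [dist_comm x₀ (x i)] at this
        linarith
    have h3 : σ * (2 * t) ^ m = s * om m / 4 * t ^ m := by
      rw [hσ, mul_pow]; field_simp
    have h4 : 0 < s * om m * t ^ m := by positivity
    linarith
  have hev4 : ∀ᶠ i in (U : Filter ι), ∫ y, H313.ker (t⁻¹ • (y - x₀)) * w i y ∂(N i)
      < s * om m / 2 * t ^ m :=
    (h0 _ (continuous_ker_scale t x₀) (hasCompactSupport_ker_scale ht x₀)).eventually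
      (gt_mem_nhds hsmall)
  obtain ⟨i, ⟨hi1, -, hi2, hi3⟩, hi4, hi5, hi6, hi7, hi8, hi9, hi10⟩ :=
    (hx.and (hfin.and (hw.and (hM.and (hev1.and (hev2.and (hev3.and hev4))))))).exists
  have h1 := int_lower (m := m) (μ := N i) (lam := lam) (η := η) (ε := ε) hi5.continuous hs hi1 hx₀
    ht ht3 hi6 hi8 hi9 hi7 (hi2 t ht (by linarith)) (hi3 (2 * t) (by positivity) ht3) hηp
  have e1 : η * (lam * 2 ^ m) = s * om m / 4 := by
    rw [hη]; field_simp
  have e2 : (3 * ε + lam * t) / (4 * η) ≤ s * om m / 8 := by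
    rw [div_le_iff₀ (by positivity)]
    nlinarith
  have e3 : s * om m * (7 / 8) ≤ s * (om m - lam * t - ε) := by
    have : om m * (7 / 8) ≤ om m - lam * t - ε := by linarith
    have := mul_le_mul_of_nonneg_left this hs.le
    linarith
  have e4 : s * om m / 2 ≤ s * (om m - lam * t - ε) - η * (lam * 2 ^ m)
      - (3 * ε + lam * t) / (4 * η) := by
    rw [e1]; linarith
  have e5 := mul_le_mul_of_nonneg_right e4 htm.le
  linarith

/-- smooth approximation in `L²` and `L¹` of a compact set -/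
lemma exists_smooth_approx {κ : Measure E} [IsLocallyFiniteMeasure κ] {K : Set E}
    (hK : IsCompact K) {u : E → ℝ} (hum : AEStronglyMeasurable u κ)
    (hu : IntegrableOn (fun x => u x ^ 2) K κ) {η : ℝ} (hη : 0 < η) :
    ∃ v : E → ℝ, ContDiff ℝ 1 v ∧ HasCompactSupport v ∧
      IntegrableOn (fun x => (u x - v x) ^ 2) K κ ∧
      ∫ x in K, (u x - v x) ^ 2 ∂κ ≤ η ∧ ∫ x in K, |u x - v x| ∂κ ≤ η := by
  have hprop : ProperSpace E := FiniteDimensional.proper_real E
  have hfin : IsFiniteMeasure (κ.restrict K) := isFiniteMeasure_restrict.2 hK.measure_lt_top.ne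
  have hmem : MemLp u 2 (κ.restrict K) := (memLp_two_iff_integrable_sq hum.restrict).2 hu
  set M := κ.real K with hM
  have hM0 : 0 ≤ M := measureReal_nonneg
  set θ : ℝ := min 1 (η / (1 + M)) with hθ
  have hθp : 0 < θ := lt_min one_pos (by positivity)
  have hθ1 : θ ≤ 1 := min_le_left _ _
  have hθ2 : θ * (1 + M) ≤ η := by
    have : θ ≤ η / (1 + M) := min_le_right _ _
    rwa [le_div_iff₀ (by positivity)] at this
  obtain ⟨v, hvc, hv, hd⟩ := hmem.exist_eLpNorm_sub_le (by norm_num) (by norm_num) hθp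
  have hvm : MemLp v 2 (κ.restrict K) := hv.continuous.memLp_of_hasCompactSupport hvc
  have hdm : MemLp (u - v) 2 (κ.restrict K) := hmem.sub hvm
  have i2 : IntegrableOn (fun x => (u x - v x) ^ 2) K κ := hdm.integrable_sq
  have h2 : ∫ x in K, (u x - v x) ^ 2 ∂κ ≤ θ ^ 2 := by
    have e := hdm.eLpNorm_eq_integral_rpow_norm (by norm_num) (by norm_num)
    rw [e, ENNReal.ofReal_le_ofReal_iff hθp.le] at hd
    simp only [ENNReal.toReal_ofNat, Real.rpow_ofNat, Real.norm_eq_abs, sq_abs, Pi.sub_apply] at hd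
    have h3 : 0 ≤ ∫ x in K, (u x - v x) ^ 2 ∂κ := integral_nonneg fun x => sq_nonneg _
    have h4 : ((∫ x in K, (u x - v x) ^ 2 ∂κ) ^ (2⁻¹ : ℝ)) ^ 2 ≤ θ ^ 2 :=
      pow_le_pow_left₀ (Real.rpow_nonneg h3 _) hd 2
    rwa [← Real.rpow_natCast, ← Real.rpow_mul h3, show (2⁻¹ : ℝ) * ((2 : ℕ) : ℝ) = 1 by norm_num,
      Real.rpow_one] at h4
  refine ⟨v, hv.of_le (by norm_cast), hvc, i2, ?_, ?_⟩
  · nlinarith
  · have i6 : IntegrableOn (fun _ : E => (1 : ℝ)) K κ :=
      (locallyIntegrable_const (1 : ℝ)).integrableOn_isCompact hK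
    have h3 : ∫ x in K, |u x - v x| ∂κ ≤ ∫ x in K, (θ⁻¹ * (u x - v x) ^ 2 + θ * 1) ∂κ := by
      refine integral_mono_of_nonneg (Eventually.of_forall fun x => abs_nonneg _)
        ((i2.const_mul _).add (i6.const_mul _)) (Eventually.of_forall fun x => ?_)
      simp only
      rw [← sq_abs]
      set a := |u x - v x|
      have ha : 0 ≤ a := abs_nonneg _
      have e : θ⁻¹ * a ^ 2 + θ * 1 - a = θ⁻¹ * ((a - θ) ^ 2 + a * θ) := by field_simp; ring
      have : 0 ≤ θ⁻¹ * ((a - θ) ^ 2 + a * θ) := by positivity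
      linarith
    rw [integral_comb2 i2 i6, setIntegral_const, smul_eq_mul, mul_one, ← hM] at h3
    have h4 : θ⁻¹ * ∫ x in K, (u x - v x) ^ 2 ∂κ ≤ θ := by
      calc θ⁻¹ * ∫ x in K, (u x - v x) ^ 2 ∂κ ≤ θ⁻¹ * θ ^ 2 := by gcongr
        _ = θ := by field_simp
    nlinarith

/-- uniform integrability of one integrable function -/
lemma exists_tail {κ : Measure E} {K : Set E} {f : E → ℝ} (hf : IntegrableOn f K κ) {ε : ℝ}
    (hε : 0 < ε) : ∃ S₀ : ℝ, ∀ S, S₀ ≤ S → 0 ≤ S → ∫ x in K, max (f x - S) 0 ∂κ ≤ ε := by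
  have hint : ∀ S : ℝ, 0 ≤ S → IntegrableOn (fun x => max (f x - S) 0) K κ := by
    intro S hS
    refine hf.norm.mono' ((hf.aestronglyMeasurable.sub aestronglyMeasurable_const).sup
      aestronglyMeasurable_const) (Eventually.of_forall fun x => ?_)
    rw [Real.norm_of_nonneg (le_max_right _ _), Real.norm_eq_abs]
    have := le_abs_self (f x)
    exact max_le (by linarith) (abs_nonneg _)
  have h1 : Tendsto (fun n : ℕ => ∫ x in K, max (f x - n) 0 ∂κ) atTop (𝓝 (∫ x in K, (0 : ℝ) ∂κ)) := by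
    refine tendsto_integral_of_dominated_convergence (fun x => ‖f x‖)
      (fun n => (hint n n.cast_nonneg).aestronglyMeasurable) hf.norm (fun n => ?_) ?_
    · refine Eventually.of_forall fun x => ?_
      rw [Real.norm_of_nonneg (le_max_right _ _), Real.norm_eq_abs]
      have := le_abs_self (f x)
      have : (0 : ℝ) ≤ n := n.cast_nonneg
      exact max_le (by linarith) (abs_nonneg _)
    · refine Eventually.of_forall fun x => tendsto_const_nhds.congr' ?_
      obtain ⟨n₀, hn₀⟩ := exists_nat_ge (f x)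
      filter_upwards [eventually_ge_atTop n₀] with n hn
      have : (n₀ : ℝ) ≤ n := by exact_mod_cast hn
      rw [max_eq_right (by linarith)]
  rw [integral_zero] at h1
  obtain ⟨n, hn⟩ := (h1.eventually (gt_mem_nhds hε)).exists
  refine ⟨n, fun S hS hS0 => le_trans ?_ hn.le⟩
  refine integral_mono (hint S hS0) (hint n n.cast_nonneg) fun x => ?_
  exact max_le_max (by linarith) le_rfl

lemma split_sq {z B s S w v : ℝ} (hz0 : 0 ≤ z) (hzB : z ≤ B) (hS : 0 ≤ S) :
    z * (w - v) ^ 2 ≤ B * (4 * s ^ 2) + 2 * B * (if S ≤ w ^ 2 then w ^ 2 else 0)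
      + 4 * S * B * (if 2 * s ≤ w - v ∨ 2 * s ≤ -(w - v) then 1 else 0)
      + 2 * (z * max (v ^ 2 - S) 0) := by
  have hB : 0 ≤ B := hz0.trans hzB
  have h1 : 0 ≤ (if S ≤ w ^ 2 then w ^ 2 else 0) := by split_ifs <;> positivity
  have h2 : 0 ≤ z * max (v ^ 2 - S) 0 := mul_nonneg hz0 (le_max_right _ _)
  have h3 : 0 ≤ B * (4 * s ^ 2) := by positivity
  by_cases hA : 2 * s ≤ w - v ∨ 2 * s ≤ -(w - v)
  · rw [if_pos hA]
    have h4 : w ^ 2 ≤ (if S ≤ w ^ 2 then w ^ 2 else 0) + S := by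
      split_ifs with h
      · linarith
      · push Not at h; linarith
    have h5 : v ^ 2 ≤ max (v ^ 2 - S) 0 + S := by
      have := le_max_left (v ^ 2 - S) 0
      linarith
    have h6 : (w - v) ^ 2 ≤ 2 * w ^ 2 + 2 * v ^ 2 := by nlinarith [sq_nonneg (w + v)]
    have h7 : z * (w - v) ^ 2 ≤ z * (2 * ((if S ≤ w ^ 2 then w ^ 2 else 0) + S)
        + 2 * (max (v ^ 2 - S) 0 + S)) := mul_le_mul_of_nonneg_left (by linarith) hz0
    have h8 := mul_le_mul_of_nonneg_right hzB h1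
    have h9 := mul_le_mul_of_nonneg_right hzB hS
    nlinarith
  · rw [if_neg hA]
    push Not at hA
    have h4 : (w - v) ^ 2 ≤ 4 * s ^ 2 := by nlinarith [hA.1, hA.2]
    have h5 : z * (w - v) ^ 2 ≤ B * (4 * s ^ 2) := mul_le_mul hzB h4 (sq_nonneg _) hB
    have h6 : 0 ≤ 2 * B * (if S ≤ w ^ 2 then w ^ 2 else 0) := by positivity
    linarith

lemma integrable_mul_loc {κ : Measure E} [IsLocallyFiniteMeasure κ] {u : E → ℝ}
    (hum : AEStronglyMeasurable u κ)
    (hu : ∀ R : ℝ, IntegrableOn (fun x => u x ^ 2) (closedBall (0 : E) R) κ)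
    {ζ : E → ℝ} (hζ : Continuous ζ) (hζc : HasCompactSupport ζ) :
    Integrable (fun x => ζ x * u x) κ := by
  have hprop : ProperSpace E := FiniteDimensional.proper_real E
  obtain ⟨R', hR'⟩ := hζc.isCompact.isBounded.subset_closedBall (0 : E)
  have hc := isCompact_closedBall (0 : E) R'
  have hfinK : IsFiniteMeasure (κ.restrict (closedBall (0 : E) R')) :=
    isFiniteMeasure_restrict.2 hc.measure_lt_top.ne
  have h1 : IntegrableOn u (closedBall (0 : E) R') κ :=
    ((memLp_two_iff_integrable_sq hum.restrict).2 (hu R')).integrable (by norm_num)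
  have h2 : IntegrableOn (fun x => ζ x * u x) (closedBall (0 : E) R') κ :=
    IntegrableOn.continuousOn_mul hζ.continuousOn h1 hc
  refine (integrableOn_iff_integrable_of_support_subset ?_).1 h2
  intro x hx
  exact hR' (subset_tsupport _ (left_ne_zero_of_mul hx))

/-- convergence in measure of `w_i - v`, both signs -/
lemma conv_meas3 (U : Ultrafilter ι) {N : ι → Measure E}
    {T : ι → E → Submodule ℝ E} {H : ι → E → E} {κ : Measure E} [IsLocallyFiniteMeasure κ]
    (hsl : ∀ᶠ i in (U : Filter ι), Slice m (N i) (T i) (H i))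
    (hlim : ∀ φ : E → ℝ, Continuous φ → HasCompactSupport φ →
      Tendsto (fun i => ∫ x, φ x ∂(N i)) U (𝓝 (∫ x, φ x ∂κ)))
    {C : ℝ} (hC : 0 < C)
    (hratio : ∀ᶠ i in (U : Filter ι), ∀ (x : E) (r : ℝ), 0 < r → r ≤ 1 →
      (N i).real (closedBall x r) ≤ C * r ^ m)
    (hκ : ∀ x : E, ∀ c > om m, ∀ᶠ r in 𝓝[>] (0 : ℝ),
      (∫ y, H313.ker (r⁻¹ • (y - x)) ∂κ) / r ^ m ≤ c)
    {w : ι → E → ℝ} (hw : ∀ᶠ i in (U : Filter ι), ContDiff ℝ 1 (w i)) (R : ℝ) {C₁ : ℝ}
    (hC₁ : ∀ᶠ i in (U : Filter ι),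
      ∫ x in closedBall (0 : E) (R + 1), En (T i) (H i) (w i) x ∂(N i) ≤ C₁)
    {u : E → ℝ} (hum : AEStronglyMeasurable u κ)
    (hu : ∀ R : ℝ, IntegrableOn (fun x => u x ^ 2) (closedBall (0 : E) R) κ)
    (h0 : ∀ ζ : E → ℝ, Continuous ζ → HasCompactSupport ζ →
      Tendsto (fun i => ∫ x, ζ x * w i x ∂(N i)) U (𝓝 (∫ x, ζ x * u x ∂κ)))
    {v : E → ℝ} (hv : ContDiff ℝ 1 v) (hvc : HasCompactSupport v) {η : ℝ}
    (hv1 : ∫ x in closedBall (0 : E) (R + 1), |u x - v x| ∂κ ≤ η)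
    {s : ℝ} (hs : 0 < s) {δ : ℝ} (hδ : 0 < δ) {τ : ℝ} (hτ : τ ^ 2 = 1) :
    ∀ᶠ i in (U : Filter ι), N i {x | x ∈ closedBall (0 : E) R ∧ 2 * s ≤ τ * (w i x - v x)}
      ≤ ENNReal.ofReal (δ + Vale.Agent.P214.BES.nB E * C * (η / (s * om m / (4 * 2 ^ m)))) := by
  have hprop : ProperSpace E := FiniteDimensional.proper_real E
  have hfin : ∀ᶠ i in (U : Filter ι), IsFiniteMeasureOnCompacts (N i) := by
    filter_upwards [hsl] with i hi using hi.mc.fin
  obtain ⟨M, hM0, hM⟩ := exists_mass U hfin hlim (R + 1)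
  have hK' : IsCompact (closedBall (0 : E) (R + 1)) := isCompact_closedBall _ _
  obtain ⟨Bv, hBv0, hBv1⟩ : ∃ Bv : ℝ, (∀ x, |v x| ≤ Bv) ∧ ∀ x, ‖grad v x‖ ≤ Bv := by
    obtain ⟨B₁, h₁⟩ := hvc.exists_bound_of_continuous hv.continuous
    obtain ⟨B₂, h₂⟩ := (hasCompactSupport_grad hvc).exists_bound_of_continuous (continuous_grad hv)
    exact ⟨max B₁ B₂, fun x => (h₁ x).trans (le_max_left _ _),
      fun x => (h₂ x).trans (le_max_right _ _)⟩
  have iu1 : IntegrableOn u (closedBall (0 : E) (R + 1)) κ := by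
    have hfinK : IsFiniteMeasure (κ.restrict (closedBall (0 : E) (R + 1))) :=
      isFiniteMeasure_restrict.2 hK'.measure_lt_top.ne
    exact ((memLp_two_iff_integrable_sq hum.restrict).2 (hu (R + 1))).integrable (by norm_num)
  have iv1 : IntegrableOn v (closedBall (0 : E) (R + 1)) κ :=
    hv.continuous.continuousOn.integrableOn_compact hK'
  have hτ1 : |τ| = 1 := by
    have : |τ| ^ 2 = 1 := by rw [sq_abs]; exact hτ
    exact (pow_eq_one_iff_of_nonneg (abs_nonneg _) two_ne_zero).1 this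
  refine conv_meas2 (w := fun i x => τ * (w i x - v x)) U hsl hlim hC hratio hκ
    (hw.mono fun i hi => contDiff_const.mul (hi.sub hv)) R
    (C₁ := (2 + Bv ^ 2) * C₁ + 5 * Bv ^ 2 * M) ?_ (f := fun x => τ * (u x - v x))
    ((iu1.sub iv1).const_mul τ) (Γ := η) ?_ ?_ hs hδ
  · filter_upwards [hsl, hw, hM, hC₁] with i hi hwi hMi hCi
    have := hi.mc.fin
    have i5 := En_integrableOn hi hwi hK'
    have i6 : IntegrableOn (fun _ : E => (1 : ℝ)) (closedBall (0 : E) (R + 1)) (N i) :=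
      (locallyIntegrable_const (1 : ℝ)).integrableOn_isCompact hK'
    calc ∫ x in closedBall (0 : E) (R + 1), En (T i) (H i) (fun x => τ * (w i x - v x)) x ∂(N i)
        ≤ ∫ x in closedBall (0 : E) (R + 1),
            ((2 + Bv ^ 2) * En (T i) (H i) (w i) x + 5 * Bv ^ 2 * 1) ∂(N i) := by
          refine integral_mono (En_integrableOn hi (contDiff_const.mul (hwi.sub hv)) hK')
            ((i5.const_mul _).add (i6.const_mul _)) fun x => ?_
          have := En_lin (T := T i) (H := H i) hwi hv hτ hBv0 hBv1 x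
          simp only [mul_one]
          exact this
      _ ≤ _ := by
          rw [integral_comb2 i5 i6, setIntegral_const, smul_eq_mul, mul_one]
          gcongr
  · refine le_trans (le_of_eq ?_) hv1
    congr 1; ext x
    rw [abs_mul, hτ1, one_mul]
  · intro ζ hζ hζc
    have l1 := h0 ζ hζ hζc
    have l2 := hlim (fun x => ζ x * v x) (hζ.mul hv.continuous) hζc.mul_right
    have l3 := (l1.sub l2).const_mul τ
    have e : ∫ x, ζ x * (τ * (u x - v x)) ∂κ
        = τ * (∫ x, ζ x * u x ∂κ - ∫ x, ζ x * v x ∂κ) := by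
      have j : Integrable (fun x => ζ x * v x) κ :=
        (hζ.mul hv.continuous).integrable_of_hasCompactSupport hζc.mul_right
      rw [← integral_sub (integrable_mul_loc hum hu hζ hζc) j, ← integral_const_mul]
      congr 1; ext x; ring
    rw [e]
    refine l3.congr' ?_
    filter_upwards [hfin, hw] with i hi hwi
    have j1 : Integrable (fun x => ζ x * w i x) (N i) :=
      (hζ.mul hwi.continuous).integrable_of_hasCompactSupport hζc.mul_right
    have j2 : Integrable (fun x => ζ x * v x) (N i) :=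
      (hζ.mul hv.continuous).integrable_of_hasCompactSupport hζc.mul_right
    rw [← integral_sub j1 j2, ← integral_const_mul]
    congr 1; ext x; ring

/-- the part where `v` is large -/
lemma big_v_le {κ : Measure E} [IsLocallyFiniteMeasure κ] {K : Set E} (hK : IsCompact K)
    {χ u v : E → ℝ} (hχ : Continuous χ) (hχc : HasCompactSupport χ)
    (hχz : ∀ x, x ∉ K → χ x = 0) {B S : ℝ} (hB : 0 ≤ B) (hBb : ∀ x, χ x ≤ B) (hS : 0 ≤ S)
    (hv : Continuous v) (hu2 : IntegrableOn (fun x => 2 * u x ^ 2) K κ)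
    (i2 : IntegrableOn (fun x => (u x - v x) ^ 2) K κ) :
    ∫ x, χ x * max (v x ^ 2 - S) 0 ∂κ
      ≤ 2 * B * ∫ x in K, (u x - v x) ^ 2 ∂κ + B * ∫ x in K, max (2 * u x ^ 2 - S) 0 ∂κ := by
  have hprop : ProperSpace E := FiniteDimensional.proper_real E
  have hc : Continuous fun x => χ x * max (v x ^ 2 - S) 0 :=
    hχ.mul (((hv.pow 2).sub continuous_const).max continuous_const)
  have i1 : IntegrableOn (fun x => max (2 * u x ^ 2 - S) 0) K κ := by
    refine hu2.mono' ((hu2.aestronglyMeasurable.sub aestronglyMeasurable_const).sup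
      aestronglyMeasurable_const) (Eventually.of_forall fun x => ?_)
    rw [Real.norm_of_nonneg (le_max_right _ _)]
    exact max_le (by linarith) (by positivity)
  rw [← integral_comb2 i2 i1, ← integral_indicator hK.measurableSet]
  refine integral_mono (hc.integrable_of_hasCompactSupport hχc.mul_right)
    ((integrable_indicator_iff hK.measurableSet).2 ((i2.const_mul _).add (i1.const_mul _)))
    fun x => ?_
  by_cases hx : x ∈ K
  · simp only [indicator_of_mem hx]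
    have a1 : max (v x ^ 2 - S) 0 ≤ 2 * (u x - v x) ^ 2 + max (2 * u x ^ 2 - S) 0 := by
      have b1 := le_max_left (2 * u x ^ 2 - S) 0
      have b2 := le_max_right (2 * u x ^ 2 - S) 0
      refine max_le ?_ (by positivity)
      nlinarith [sq_nonneg (2 * u x - v x)]
    have a2 := mul_le_mul (hBb x) a1 (le_max_right _ _) hB
    linarith
  · simp only [indicator_of_notMem hx, hχz x hx, zero_mul, le_refl]

lemma cross_le {κ : Measure E} [IsLocallyFiniteMeasure κ] {χ u v : E → ℝ}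
    (hum : AEStronglyMeasurable u κ)
    (hu : ∀ R : ℝ, IntegrableOn (fun x => u x ^ 2) (closedBall (0 : E) R) κ)
    (hχ : Continuous χ) (hχc : HasCompactSupport χ) (hχ0 : ∀ x, 0 ≤ χ x) (hv : Continuous v) :
    2 * ∫ x, χ x * v x * u x ∂κ - ∫ x, χ x * v x ^ 2 ∂κ ≤ ∫ x, χ x * u x ^ 2 ∂κ := by
  have hprop : ProperSpace E := FiniteDimensional.proper_real E
  obtain ⟨R, hR⟩ := hχc.isCompact.isBounded.subset_closedBall (0 : E)
  have i1 : Integrable (fun x => χ x * v x * u x) κ :=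
    integrable_mul_loc hum hu (ζ := fun x => χ x * v x) (hχ.mul hv) hχc.mul_right
  have i2 : Integrable (fun x => χ x * v x ^ 2) κ :=
    (hχ.mul (hv.pow 2)).integrable_of_hasCompactSupport hχc.mul_right
  have i3 : Integrable (fun x => χ x * u x ^ 2) κ := by
    have h2 : IntegrableOn (fun x => χ x * u x ^ 2) (closedBall (0 : E) R) κ :=
      IntegrableOn.continuousOn_mul hχ.continuousOn (hu R) (isCompact_closedBall _ _)
    refine (integrableOn_iff_integrable_of_support_subset ?_).1 h2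
    intro x hx
    exact hR (subset_tsupport _ (left_ne_zero_of_mul hx))
  rw [← integral_const_mul, ← integral_sub (i1.const_mul 2) i2]
  refine integral_mono ((i1.const_mul 2).sub i2) i3 fun x => ?_
  have := mul_nonneg (hχ0 x) (sq_nonneg (u x - v x))
  simp only
  nlinarith

/-- the decomposition on one measure -/
lemma split_int {μ : Measure E} [IsFiniteMeasureOnCompacts μ] {K : Set E} (hK : IsCompact K)
    {χ w v : E → ℝ} (hχ : Continuous χ) (hχc : HasCompactSupport χ) (hχ0 : ∀ x, 0 ≤ χ x)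
    (hχz : ∀ x, x ∉ K → χ x = 0) {B S s : ℝ} (hB : 0 ≤ B) (hBb : ∀ x, χ x ≤ B) (hS : 0 ≤ S)
    (hw : Continuous w) (hv : Continuous v) :
    ∫ x, χ x * w x ^ 2 ∂μ ≤ B * (4 * s ^ 2) * μ.real K
      + 2 * B * ∫ x in {x | x ∈ K ∧ S ≤ w x ^ 2}, w x ^ 2 ∂μ
      + 4 * S * B * μ.real ({x | x ∈ K ∧ 2 * s ≤ 1 * (w x - v x)} ∪
          {x | x ∈ K ∧ 2 * s ≤ -1 * (w x - v x)})
      + 2 * ∫ x, χ x * max (v x ^ 2 - S) 0 ∂μ
      + (2 * ∫ x, χ x * v x * w x ∂μ - ∫ x, χ x * v x ^ 2 ∂μ) := by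
  have hprop : ProperSpace E := FiniteDimensional.proper_real E
  set A₁ : Set E := {x | x ∈ K ∧ S ≤ w x ^ 2} with hA₁
  set A₂ : Set E := {x | x ∈ K ∧ 2 * s ≤ 1 * (w x - v x)} ∪
    {x | x ∈ K ∧ 2 * s ≤ -1 * (w x - v x)} with hA₂
  have mA₁ : MeasurableSet A₁ :=
    hK.measurableSet.inter (measurableSet_le measurable_const (hw.pow 2).measurable)
  have mA₂ : MeasurableSet A₂ :=
    (hK.measurableSet.inter (measurableSet_le measurable_const
      (continuous_const.mul (hw.sub hv)).measurable)).union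
    (hK.measurableSet.inter (measurableSet_le measurable_const
      (continuous_const.mul (hw.sub hv)).measurable))
  have i1 : IntegrableOn (fun y => w y ^ 2) K μ :=
    (hw.pow 2).continuousOn.integrableOn_compact hK
  have iA₁ : IntegrableOn (fun y => w y ^ 2) A₁ μ := i1.mono_set fun x hx => hx.1
  have hA₂fin : μ A₂ ≠ ⊤ := by
    refine ne_top_of_le_ne_top hK.measure_lt_top.ne (measure_mono ?_)
    rintro x (hx | hx) <;> exact hx.1
  have j1 : Integrable (K.indicator fun _ => (1 : ℝ)) μ :=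
    (integrable_indicator_iff hK.measurableSet).2
      ((locallyIntegrable_const (1 : ℝ)).integrableOn_isCompact hK)
  have j2 : Integrable (A₁.indicator fun y => w y ^ 2) μ :=
    (integrable_indicator_iff mA₁).2 iA₁
  have j3 : Integrable (A₂.indicator fun _ => (1 : ℝ)) μ :=
    (integrable_indicator_iff mA₂).2 (integrableOn_const hA₂fin)
  have j4 : Integrable (fun x => χ x * max (v x ^ 2 - S) 0) μ :=
    (hχ.mul (((hv.pow 2).sub continuous_const).max
      continuous_const)).integrable_of_hasCompactSupport hχc.mul_right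
  have j5 : Integrable (fun x => χ x * (w x - v x) ^ 2) μ :=
    (hχ.mul ((hw.sub hv).pow 2)).integrable_of_hasCompactSupport hχc.mul_right
  have j6 : Integrable (fun x => B * (4 * s ^ 2) * K.indicator (fun _ => (1 : ℝ)) x
      + 2 * B * A₁.indicator (fun y => w y ^ 2) x
      + 4 * S * B * A₂.indicator (fun _ => (1 : ℝ)) x) μ :=
    ((j1.const_mul _).add (j2.const_mul _)).add (j3.const_mul _)
  have hmain : ∫ x, χ x * (w x - v x) ^ 2 ∂μ
      ≤ B * (4 * s ^ 2) * μ.real K + 2 * B * ∫ x in A₁, w x ^ 2 ∂μ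
        + 4 * S * B * μ.real A₂ + 2 * ∫ x, χ x * max (v x ^ 2 - S) 0 ∂μ := by
    have e1 := integral_comb j1 j2 j3 (B * (4 * s ^ 2)) (2 * B) (4 * S * B)
    rw [integral_indicator hK.measurableSet, integral_indicator mA₁, integral_indicator mA₂,
      setIntegral_const, setIntegral_const, smul_eq_mul, smul_eq_mul, mul_one, mul_one] at e1
    rw [← e1, ← integral_const_mul, ← integral_add j6 (j4.const_mul 2)]
    refine integral_mono j5 (j6.add (j4.const_mul 2)) fun x => ?_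
    by_cases hx : x ∈ K
    · have a1 := split_sq (s := s) (w := w x) (v := v x) (hχ0 x) (hBb x) hS
      have a2 : A₁.indicator (fun y => w y ^ 2) x = if S ≤ w x ^ 2 then w x ^ 2 else 0 := by
        by_cases h : S ≤ w x ^ 2
        · rw [if_pos h, indicator_of_mem (show x ∈ A₁ from ⟨hx, h⟩)]
        · rw [if_neg h, indicator_of_notMem (fun h' : x ∈ A₁ => h h'.2)]
      have a3 : A₂.indicator (fun _ => (1 : ℝ)) x
          = if 2 * s ≤ w x - v x ∨ 2 * s ≤ -(w x - v x) then 1 else 0 := by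
        by_cases h : 2 * s ≤ w x - v x ∨ 2 * s ≤ -(w x - v x)
        · rw [if_pos h, indicator_of_mem]
          rcases h with h | h
          · exact Or.inl ⟨hx, by linarith⟩
          · exact Or.inr ⟨hx, by linarith⟩
        · rw [if_neg h, indicator_of_notMem]
          rintro (h' | h')
          · exact h (Or.inl (by linarith [h'.2]))
          · exact h (Or.inr (by linarith [h'.2]))
      simp only [indicator_of_mem hx, a2, a3, mul_one]
      exact a1
    · have a2 : 0 ≤ A₁.indicator (fun y => w y ^ 2) x :=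
        indicator_nonneg (fun y _ => sq_nonneg _) x
      have a3 : 0 ≤ A₂.indicator (fun _ => (1 : ℝ)) x :=
        indicator_nonneg (fun y _ => zero_le_one) x
      simp only [indicator_of_notMem hx, hχz x hx, zero_mul, mul_zero, zero_add, add_zero]
      positivity
  have hsplit : ∫ x, χ x * w x ^ 2 ∂μ = ∫ x, χ x * (w x - v x) ^ 2 ∂μ
      + (2 * ∫ x, χ x * v x * w x ∂μ - ∫ x, χ x * v x ^ 2 ∂μ) := by
    have k1 : Integrable (fun x => χ x * v x * w x) μ :=
      ((hχ.mul hv).mul hw).integrable_of_hasCompactSupport hχc.mul_right.mul_right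
    have k2 : Integrable (fun x => χ x * v x ^ 2) μ :=
      (hχ.mul (hv.pow 2)).integrable_of_hasCompactSupport hχc.mul_right
    have e := integral_comb j5 k1 k2 1 2 (-1)
    have e' : ∫ x, χ x * w x ^ 2 ∂μ = ∫ x, (1 * (χ x * (w x - v x) ^ 2)
        + 2 * (χ x * v x * w x) + -1 * (χ x * v x ^ 2)) ∂μ := by
      congr 1; ext x; ring
    rw [e', e]; ring
  rw [hsplit]
  linarith

/-- uniform integrability of `w²` on one slice -/
lemma tail_real (hm : 0 < m) {μ : Measure E} {T : E → Submodule ℝ E} {H : E → E}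
    (hS : Slice m μ T H) {w : E → ℝ} (hw : ContDiff ℝ 1 w) {C R G r S : ℝ} (hC : 0 < C)
    (hG0 : 0 < G) (hr : 0 < r) (hr1 : r ≤ 1)
    (hratio : ∀ (x : E) (r : ℝ), 0 < r → r ≤ 1 → μ.real (closedBall x r) ≤ C * r ^ m)
    (hG : ∫ x in closedBall (0 : E) (R + 1), En T H w x ∂μ ≤ G)
    (hSS : 4 * G / (om m * r ^ m) ≤ S) :
    ∫ x in {x | x ∈ closedBall (0 : E) R ∧ S ≤ w x ^ 2}, w x ^ 2 ∂μ
      ≤ 2 ^ (m + 3) * G / om m * (Vale.Agent.P214.BES.nB E * C) * r := by
  have hprop : ProperSpace E := FiniteDimensional.proper_real E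
  have := hS.mc.fin
  have hom := om_pos m
  have hK' : IsCompact (closedBall (0 : E) (R + 1)) := isCompact_closedBall _ _
  have i1 : IntegrableOn (fun y => w y ^ 2) (closedBall (0 : E) (R + 1)) μ :=
    (hw.continuous.pow 2).continuousOn.integrableOn_compact hK'
  have i5 := En_integrableOn hS hw hK'
  have hcd : ContDiff ℝ 1 (fun y => w y ^ 2) := hw.pow 2
  have g1 : ∫ y in closedBall (0 : E) (R + 1), err T H (fun y => w y ^ 2) y ∂μ ≤ G :=
    le_trans (integral_mono (hS.err_integrableOn hcd hK') i5 fun y => err_sq_le hw y) hG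
  have g2 : ∫ y in closedBall (0 : E) (R + 1), w y ^ 2 ∂μ ≤ G := by
    refine le_trans (integral_mono i1 i5 fun y => ?_) hG
    simp only [En]
    have p2 := sq_nonneg ‖proj (T y) (grad w y)‖
    have p3 := sq_nonneg ‖H y‖
    have p4 : 0 ≤ w y ^ 2 * ‖H y‖ := by positivity
    linarith
  have htail := tail_int hm hS hcd (fun y => sq_nonneg _) (C := C) (R := R) (G := G) (r := r) hC hG0
    hr hr1 hratio g1 g2
  have iA₁ : IntegrableOn (fun y => w y ^ 2) {x | x ∈ closedBall (0 : E) R ∧ S ≤ w x ^ 2} μ :=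
    i1.mono_set fun x hx => closedBall_subset_closedBall (by linarith) hx.1
  have a1 : ∫⁻ x in {x | x ∈ closedBall (0 : E) R ∧ S ≤ w x ^ 2}, ENNReal.ofReal (w x ^ 2) ∂μ
      ≤ ENNReal.ofReal (2 ^ (m + 3) * G / om m * (Vale.Agent.P214.BES.nB E * C) * r) :=
    by
    refine le_trans (lintegral_mono_set fun x hx => ?_) htail
    exact ⟨hx.1, hSS.trans hx.2⟩
  rw [← ofReal_integral_eq_lintegral_ofReal iA₁ (Eventually.of_forall fun y => sq_nonneg _)] at a1
  exact (ENNReal.ofReal_le_ofReal_iff (by positivity)).1 a1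

lemma arith1 {B ε a b c : ℝ} (hB : 0 < B) (hε : 0 < ε) (h1 : a ≤ 2 * B * b + B * c) (h2 : b ≤ ε)
    (h3 : c ≤ ε) : a < 4 * (B * ε) := by
  have a1 := mul_le_mul_of_nonneg_left h2 (by positivity : 0 ≤ 2 * B)
  have a2 := mul_le_mul_of_nonneg_left h3 hB.le
  have a3 : 0 < B * ε := by positivity
  linarith

lemma arith2 {B S ε ε₁ δ s M a k t₁ t₂ t₃ t₄ L : ℝ} (hB : 0 < B) (hS : 0 < S) (hε : 0 < ε)
    (hBε : B * ε₁ = ε / 32) (hδ : 2 * S * δ = ε₁) (hsM : 4 * s ^ 2 * M ≤ ε₁)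
    (q0 : a ≤ B * (4 * s ^ 2) * k + 2 * B * t₁ + 4 * S * B * t₂ + 2 * t₃ + t₄) (h3 : k ≤ M)
    (q1 : t₁ ≤ ε₁) (q2 : t₂ ≤ 4 * δ) (h8 : t₃ ≤ 4 * (B * ε₁)) (h9 : t₄ ≤ L + ε / 32) :
    a ≤ L + ε := by
  have t1 : B * (4 * s ^ 2) * k ≤ B * ε₁ := by
    have a1 : 4 * s ^ 2 * k ≤ 4 * s ^ 2 * M := by gcongr
    rw [mul_assoc]
    exact mul_le_mul_of_nonneg_left (a1.trans hsM) hB.le
  have t2 := mul_le_mul_of_nonneg_left q1 (by positivity : 0 ≤ 2 * B)
  have t3 := mul_le_mul_of_nonneg_left q2 (by positivity : 0 ≤ 4 * S * B)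
  have t4 : 4 * S * B * (4 * δ) = 8 * (B * ε₁) := by rw [← hδ]; ring
  linarith

lemma ev_big {l : Filter ι} {N : ι → Measure E} {κ : Measure E}
    (hlim : ∀ φ : E → ℝ, Continuous φ → HasCompactSupport φ →
      Tendsto (fun i => ∫ x, φ x ∂(N i)) l (𝓝 (∫ x, φ x ∂κ)))
    {χ v : E → ℝ} (hχ : Continuous χ) (hχc : HasCompactSupport χ) (hv : Continuous v) {S a : ℝ}
    (h : ∫ x, χ x * max (v x ^ 2 - S) 0 ∂κ < a) :
    ∀ᶠ i in l, ∫ x, χ x * max (v x ^ 2 - S) 0 ∂(N i) ≤ a := by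
  have hc : Continuous fun x => χ x * max (v x ^ 2 - S) 0 :=
    hχ.mul (((hv.pow 2).sub continuous_const).max continuous_const)
  have l1 := hlim _ hc hχc.mul_right
  filter_upwards [l1.eventually (gt_mem_nhds h)] with i hi using hi.le

lemma ev_cross {l : Filter ι} {N : ι → Measure E} {κ : Measure E} [IsLocallyFiniteMeasure κ]
    (hlim : ∀ φ : E → ℝ, Continuous φ → HasCompactSupport φ →
      Tendsto (fun i => ∫ x, φ x ∂(N i)) l (𝓝 (∫ x, φ x ∂κ)))
    {u : E → ℝ} (hum : AEStronglyMeasurable u κ)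
    (hu : ∀ R : ℝ, IntegrableOn (fun x => u x ^ 2) (closedBall (0 : E) R) κ) {w : ι → E → ℝ}
    (h0 : ∀ ζ : E → ℝ, Continuous ζ → HasCompactSupport ζ →
      Tendsto (fun i => ∫ x, ζ x * w i x ∂(N i)) l (𝓝 (∫ x, ζ x * u x ∂κ)))
    {χ v : E → ℝ} (hχ : Continuous χ) (hχc : HasCompactSupport χ) (hχ0 : ∀ x, 0 ≤ χ x)
    (hv : Continuous v) {ε : ℝ} (hε : 0 < ε) :
    ∀ᶠ i in l, 2 * ∫ x, χ x * v x * w i x ∂(N i) - ∫ x, χ x * v x ^ 2 ∂(N i)
      ≤ ∫ x, χ x * u x ^ 2 ∂κ + ε := by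
  have c1 : HasCompactSupport (fun x => χ x * v x) := hχc.mul_right (f' := v)
  have c2 : HasCompactSupport (fun x => χ x * v x ^ 2) := hχc.mul_right (f' := fun x => v x ^ 2)
  have l1 : Tendsto (fun i => ∫ x, χ x * v x * w i x ∂(N i)) l (𝓝 (∫ x, χ x * v x * u x ∂κ)) :=
    h0 (fun x => χ x * v x) (hχ.mul hv) c1
  have l2 : Tendsto (fun i => ∫ x, χ x * v x ^ 2 ∂(N i)) l (𝓝 (∫ x, χ x * v x ^ 2 ∂κ)) :=
    hlim (fun x => χ x * v x ^ 2) (hχ.mul (hv.pow 2)) c2
  have l3 : Tendsto (fun i => 2 * ∫ x, χ x * v x * w i x ∂(N i) - ∫ x, χ x * v x ^ 2 ∂(N i)) l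
      (𝓝 (2 * ∫ x, χ x * v x * u x ∂κ - ∫ x, χ x * v x ^ 2 ∂κ)) := (l1.const_mul 2).sub l2
  have h1 := cross_le hum hu hχ hχc hχ0 hv
  have h2 := h1.trans_lt (lt_add_of_pos_right _ hε)
  exact (l3.eventually (gt_mem_nhds h2)).mono fun i hi => hi.le

/-- **Strong convergence**: no loss of `L²` mass in the limit. -/
theorem strong_upper (U : Ultrafilter ι) (hm : 0 < m) {N : ι → Measure E}
    {T : ι → E → Submodule ℝ E} {H : ι → E → E} {κ : Measure E} [IsLocallyFiniteMeasure κ]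
    (hsl : ∀ᶠ i in (U : Filter ι), Slice m (N i) (T i) (H i))
    (hlim : ∀ φ : E → ℝ, Continuous φ → HasCompactSupport φ →
      Tendsto (fun i => ∫ x, φ x ∂(N i)) U (𝓝 (∫ x, φ x ∂κ)))
    (hratio : ∃ C : ℝ, ∀ᶠ i in (U : Filter ι), ∀ (x : E) (r : ℝ), 0 < r → r ≤ 1 →
      (N i).real (closedBall x r) ≤ C * r ^ m)
    (hκ : ∀ x : E, ∀ c > om m, ∀ᶠ r in 𝓝[>] (0 : ℝ),
      (∫ y, H313.ker (r⁻¹ • (y - x)) ∂κ) / r ^ m ≤ c)
    {w : ι → E → ℝ} (hw : ∀ᶠ i in (U : Filter ι), ContDiff ℝ 1 (w i))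
    (hbd : ∀ R : ℝ, ∃ C : ℝ, ∀ᶠ i in (U : Filter ι),
      ∫ x in closedBall (0 : E) R, En (T i) (H i) (w i) x ∂(N i) ≤ C)
    {u : E → ℝ} (hum : AEStronglyMeasurable u κ)
    (hu : ∀ R : ℝ, IntegrableOn (fun x => u x ^ 2) (closedBall (0 : E) R) κ)
    (h0 : ∀ ζ : E → ℝ, Continuous ζ → HasCompactSupport ζ →
      Tendsto (fun i => ∫ x, ζ x * w i x ∂(N i)) U (𝓝 (∫ x, ζ x * u x ∂κ)))
    (χ : E → ℝ) (hχ : Continuous χ) (hχc : HasCompactSupport χ) (hχ0 : ∀ x, 0 ≤ χ x)
    {ε : ℝ} (hε : 0 < ε) :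
    ∀ᶠ i in (U : Filter ι), ∫ x, χ x * w i x ^ 2 ∂(N i) ≤ ∫ x, χ x * u x ^ 2 ∂κ + ε := by
  have hprop : ProperSpace E := FiniteDimensional.proper_real E
  have hom := om_pos m
  have hfin : ∀ᶠ i in (U : Filter ι), IsFiniteMeasureOnCompacts (N i) := by
    filter_upwards [hsl] with i hi using hi.mc.fin
  obtain ⟨R, hR⟩ := hχc.isCompact.isBounded.subset_closedBall (0 : E)
  have hχz : ∀ x, x ∉ closedBall (0 : E) R → χ x = 0 := fun x hx =>
    image_eq_zero_of_notMem_tsupport fun h => hx (hR h)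
  obtain ⟨B, hBp, hBb⟩ : ∃ B : ℝ, 0 < B ∧ ∀ x, χ x ≤ B := by
    obtain ⟨B', hB'⟩ := hχ.bounded_above_of_compact_support hχc
    refine ⟨|B'| + 1, by positivity, fun x => ?_⟩
    have := hB' x
    rw [Real.norm_eq_abs] at this
    have := le_abs_self B'
    have := le_abs_self (χ x)
    linarith
  obtain ⟨M, hM0, hM⟩ := exists_mass U hfin hlim R
  obtain ⟨C, hC, hratio'⟩ : ∃ C : ℝ, 0 < C ∧ ∀ᶠ i in (U : Filter ι), ∀ (x : E) (r : ℝ),
      0 < r → r ≤ 1 → (N i).real (closedBall x r) ≤ C * r ^ m := by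
    obtain ⟨C', hC'⟩ := hratio
    refine ⟨max C' 1, lt_of_lt_of_le one_pos (le_max_right _ _), ?_⟩
    filter_upwards [hC'] with i hi x r hr hr1
    refine (hi x r hr hr1).trans ?_
    exact mul_le_mul_of_nonneg_right (le_max_left _ _) (by positivity)
  obtain ⟨G, hG0, hG⟩ : ∃ G : ℝ, 0 < G ∧ ∀ᶠ i in (U : Filter ι),
      ∫ x in closedBall (0 : E) (R + 1), En (T i) (H i) (w i) x ∂(N i) ≤ G := by
    obtain ⟨C₁, hC₁⟩ := hbd (R + 1)
    exact ⟨max C₁ 1, lt_of_lt_of_le one_pos (le_max_right _ _),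
      hC₁.mono fun i hi => hi.trans (le_max_left _ _)⟩
  have hnB : 0 < (Vale.Agent.P214.BES.nB E : ℝ) := by
    unfold Vale.Agent.P214.BES.nB; positivity
  have hK : IsCompact (closedBall (0 : E) R) := isCompact_closedBall _ _
  have hK' : IsCompact (closedBall (0 : E) (R + 1)) := isCompact_closedBall _ _
  have hKK' : closedBall (0 : E) R ⊆ closedBall 0 (R + 1) :=
    closedBall_subset_closedBall (by linarith)
  obtain ⟨ε₁, hε₁p, hBε⟩ : ∃ ε₁ : ℝ, 0 < ε₁ ∧ B * ε₁ = ε / 32 :=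
    ⟨ε / (32 * B), by positivity, by field_simp⟩
  obtain ⟨r, hrp, hr1, hQr⟩ : ∃ r : ℝ, 0 < r ∧ r ≤ 1 ∧
      2 ^ (m + 3) * G / om m * (Vale.Agent.P214.BES.nB E * C) * r ≤ ε₁ := by
    set Q : ℝ := 2 ^ (m + 3) * G / om m * (Vale.Agent.P214.BES.nB E * C) with hQ
    have hQp : 0 < Q := by positivity
    refine ⟨min 1 (ε₁ / Q), lt_min one_pos (by positivity), min_le_left _ _, ?_⟩
    have : min 1 (ε₁ / Q) ≤ ε₁ / Q := min_le_right _ _
    rw [le_div_iff₀ hQp] at this
    linarith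
  have hu2 : IntegrableOn (fun x => 2 * u x ^ 2) (closedBall (0 : E) R) κ := (hu R).const_mul 2
  obtain ⟨S, hSp, hS1, htu⟩ : ∃ S : ℝ, 0 < S ∧ 4 * G / (om m * r ^ m) ≤ S ∧
      ∫ x in closedBall (0 : E) R, max (2 * u x ^ 2 - S) 0 ∂κ ≤ ε₁ := by
    obtain ⟨S₀, hS₀⟩ := exists_tail hu2 hε₁p
    have h1 : 0 < max (4 * G / (om m * r ^ m)) S₀ :=
      lt_of_lt_of_le (by positivity) (le_max_left _ _)
    exact ⟨_, h1, le_max_left _ _, hS₀ _ (le_max_right _ _) h1.le⟩
  obtain ⟨s, hs, hsM⟩ : ∃ s : ℝ, 0 < s ∧ 4 * s ^ 2 * M ≤ ε₁ := by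
    have h1 : Tendsto (fun s : ℝ => 4 * s ^ 2 * M) (𝓝[>] 0) (𝓝 0) := by
      have : Continuous fun s : ℝ => 4 * s ^ 2 * M := by fun_prop
      have h := this.tendsto 0
      simp only [ne_eq, OfNat.ofNat_ne_zero, not_false_eq_true, zero_pow, mul_zero, zero_mul] at h
      exact h.mono_left nhdsWithin_le_nhds
    obtain ⟨s, hs1, hs2⟩ := ((h1.eventually (gt_mem_nhds hε₁p)).and self_mem_nhdsWithin).exists
    exact ⟨s, hs2, hs1.le⟩
  obtain ⟨δ, hδp, hδ⟩ : ∃ δ : ℝ, 0 < δ ∧ 2 * S * δ = ε₁ :=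
    ⟨ε₁ / (2 * S), by positivity, by field_simp⟩
  obtain ⟨η, hηp, hη1, hη2⟩ : ∃ η : ℝ, 0 < η ∧ η ≤ ε₁ ∧
      Vale.Agent.P214.BES.nB E * C * (η / (s * om m / (4 * 2 ^ m))) ≤ δ := by
    set σ : ℝ := s * om m / (4 * 2 ^ m) with hσ
    have hσp : 0 < σ := by positivity
    refine ⟨min ε₁ (δ * σ / (Vale.Agent.P214.BES.nB E * C)), lt_min hε₁p (by positivity),
      min_le_left _ _, ?_⟩
    have h1 := min_le_right ε₁ (δ * σ / (Vale.Agent.P214.BES.nB E * C))
    rw [le_div_iff₀ (by positivity)] at h1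
    rw [← mul_div_assoc, div_le_iff₀ hσp]
    linarith
  obtain ⟨v, hv, hvc, iuv, hv2, hv1⟩ := exists_smooth_approx hK' hum (hu (R + 1)) hηp
  have hsgn := fun (τ : ℝ) (hτ : τ ^ 2 = 1) =>
    conv_meas3 U hsl hlim hC hratio' hκ hw R hG hum hu h0 hv hvc hv1 hs hδp hτ
  have hvbig : ∀ᶠ i in (U : Filter ι), ∫ x, χ x * max (v x ^ 2 - S) 0 ∂(N i) ≤ 4 * (B * ε₁) := by
    have h1 := big_v_le hK hχ hχc hχz hBp.le hBb hSp.le hv.continuous hu2 (iuv.mono_set hKK')
    have h2 : ∫ x in closedBall (0 : E) R, (u x - v x) ^ 2 ∂κ ≤ ε₁ :=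
      (setIntegral_mono_set iuv (Eventually.of_forall fun x => sq_nonneg _)
        (LE.le.eventuallyLE hKK')).trans (hv2.trans hη1)
    exact ev_big hlim hχ hχc hv.continuous (arith1 hBp hε₁p h1 h2 htu)
  have hcross := ev_cross hlim hum hu h0 hχ hχc hχ0 hv.continuous (by positivity : 0 < ε / 32)
  filter_upwards [hsl, hw, hM, hratio', hG, hsgn 1 (by norm_num), hsgn (-1) (by norm_num), hvbig,
    hcross] with i h1 h2 h3 h4 h5 h6 h7 h8 h9
  have := h1.mc.fin
  have q0 := split_int (μ := N i) (s := s) hK hχ hχc hχ0 hχz hBp.le hBb hSp.le h2.continuous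
    hv.continuous
  have q1 := (tail_real hm h1 h2 hC hG0 hrp hr1 h4 h5 hS1).trans hQr
  have q2 : (N i).real ({x | x ∈ closedBall (0 : E) R ∧ 2 * s ≤ 1 * (w i x - v x)} ∪
      {x | x ∈ closedBall (0 : E) R ∧ 2 * s ≤ -1 * (w i x - v x)}) ≤ 4 * δ := by
    refine ENNReal.toReal_le_of_le_ofReal (by positivity) ?_
    have a1 := h6.trans (ENNReal.ofReal_le_ofReal (add_le_add le_rfl hη2))
    have a2 := h7.trans (ENNReal.ofReal_le_ofReal (add_le_add le_rfl hη2))
    refine (measure_union_le _ _).trans ((add_le_add a1 a2).trans (le_of_eq ?_))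
    rw [← ENNReal.ofReal_add (by positivity) (by positivity)]
    congr 1; ring
  exact arith2 hBp hSp hε hBε hδ hsM q0 h3 q1 q2 h8 h9

end seq

end Vale.Agent.P218F.Dyn
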