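import Vale.Agent.P218F.DynST1

/-! The static estimate `height + tilt + multipliers ≤ C · dissipation` from a mesh Poincaré
inequality on the slices. -/

open MeasureTheory Set Filter Topology Metric
open scoped ENNReal NNReal RealInnerProductSpace

namespace Vale.Agent.P218F.Dyn

open Vale.Agent.P214 (proj divAlong)
open Vale.Agent.P218 Vale.Agent.P218.H313

set_option linter.unusedSectionVars false
set_option linter.unusedVariables false

variable {E : Type*} [NormedAddCommGroup E] [InnerProductSpace ℝ E] [FiniteDimensional ℝ E]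
variable {m : ℕ} {c K : ℝ}

/-- pointwise estimate behind the energy inequality, keeping the main part of the defect -/
lemma energy_pt2 (hE : Module.finrank ℝ E = m + 1) (hc : 0 < c) (hK : 0 ≤ K) :
    ∃ C : ℝ, 0 ≤ C ∧ ∀ W : E → ℝ, Tube0 W c K → ∀ (x : E) (g η : ℝ), |g| ≤ 1 →
      (|W x| < c → |dfc W x - g| ≤ K * W x ^ 2 + η) → ∀ T : Submodule ℝ E,
      Module.finrank ℝ T = m →
      -(W x * (tr ((proj T).comp (fderiv ℝ (grad W) x)) - 1 / 2 * ⟪x, grad W x⟫))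
        ≤ 1 / 2 * ‖proj T (grad W x)‖ ^ 2 + C * W x ^ 2 + η ^ 2 - W x * g := by
  set n : ℝ := (Module.finrank ℝ E : ℝ) with hn
  have hn0 : 0 ≤ n := by rw [hn]; positivity
  set c₁ := min c (1 / (2 * (K + 1))) with hc₁
  have hc₁0 : 0 < c₁ := lt_min hc (by positivity)
  refine ⟨n * K ^ 2 + 2 + ((n + 1) * K + 1) / c₁, by positivity,
    fun W hW x g η hg hη T hT => ?_⟩
  set A := tr ((proj T).comp (fderiv ℝ (grad W) x)) - 1 / 2 * ⟪x, grad W x⟫ with hA
  set q := tr ((fderiv ℝ (grad W) x).comp (fderiv ℝ (grad W) x)) with hq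
  set g2 := ‖proj T (grad W x)‖ ^ 2 with hg2
  have hg20 : 0 ≤ g2 := sq_nonneg _
  set w := W x with hw
  have hw2 : 0 ≤ w ^ 2 := sq_nonneg _
  have hη2 : 0 ≤ η ^ 2 := sq_nonneg _
  by_cases hx : |w| < c₁
  · have hxc : |w| < c := hx.trans_le (min_le_left _ _)
    have h1 := hW.trace_est hE x T hT hxc
    have h2 := hη hxc
    have h3 : |q| ≤ n * K ^ 2 := hW.q_le x
    have h4 : |w| * K ≤ 1 / 2 := by
      have h5 : |w| ≤ 1 / (2 * (K + 1)) := hx.le.trans (min_le_right _ _)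
      have h6 : |w| * K ≤ (1 / (2 * (K + 1))) * K := by gcongr
      refine h6.trans ?_
      rw [show (1 / (2 * (K + 1))) * K = K / (2 * (K + 1)) by field_simp]
      rw [div_le_div_iff₀ (by positivity) (by norm_num)]
      nlinarith
    set t := tr ((proj T).comp (fderiv ℝ (grad W) x)) - tr (fderiv ℝ (grad W) x) with ht
    have h5 : -(w * A) = (q + 1 / 2) * w ^ 2 - w * t - w * (dfc W x - g) - w * g := by
      simp only [hA, ht, dfc, ← hw, ← hq]; ring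
    have h6 : -(w * t) ≤ 1 / 2 * g2 := by
      calc -(w * t) ≤ |w * t| := neg_le_abs _
        _ = |w| * |t| := abs_mul _ _
        _ ≤ |w| * (K * g2) := by gcongr
        _ = (|w| * K) * g2 := by ring
        _ ≤ 1 / 2 * g2 := by gcongr
    have h7 : -(w * (dfc W x - g)) ≤ w ^ 2 + η ^ 2 := by
      have e1 : w ^ 2 = |w| ^ 2 := (sq_abs _).symm
      calc -(w * (dfc W x - g)) ≤ |w * (dfc W x - g)| := neg_le_abs _
        _ = |w| * |dfc W x - g| := abs_mul _ _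
        _ ≤ |w| * (K * w ^ 2 + η) := by gcongr
        _ = (|w| * K) * w ^ 2 + |w| * η := by ring
        _ ≤ 1 / 2 * w ^ 2 + |w| * η := by gcongr
        _ ≤ w ^ 2 + η ^ 2 := by rw [e1]; nlinarith [sq_nonneg (|w| - η)]
    have h8 : (q + 1 / 2) * w ^ 2 ≤ (n * K ^ 2 + 1) * w ^ 2 := by
      have := le_abs_self q
      nlinarith
    have h9 : 0 ≤ ((n + 1) * K + 1) / c₁ * w ^ 2 := by positivity
    rw [h5]
    nlinarith
  · push Not at hx
    have h1 : |A - g| ≤ (n + 1) * K + 1 := (abs_sub _ _).trans (add_le_add (hW.drift_le x T) hg)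
    have h2 : |w| ≤ w ^ 2 / c₁ := by
      rw [le_div_iff₀ hc₁0, ← sq_abs w]
      nlinarith [abs_nonneg w]
    have h3 : -(w * (A - g)) ≤ ((n + 1) * K + 1) / c₁ * w ^ 2 := by
      calc -(w * (A - g)) ≤ |w * (A - g)| := neg_le_abs _
        _ = |w| * |A - g| := abs_mul _ _
        _ ≤ (w ^ 2 / c₁) * ((n + 1) * K + 1) := by gcongr
        _ = _ := by ring
    have h4 : 0 ≤ (n * K ^ 2 + 2) * w ^ 2 := by positivity
    nlinarith

/-- pointwise estimate behind the detection of the multipliers -/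
lemma detect_pt (hE : Module.finrank ℝ E = m + 1) (hc : 0 < c) (hK : 0 ≤ K) :
    ∃ C : ℝ, 0 ≤ C ∧ ∀ W : E → ℝ, Tube0 W c K → ∀ (x : E) (g η : ℝ), |g| ≤ 1 → 0 ≤ η →
      (|W x| < c → |dfc W x - g| ≤ K * W x ^ 2 + η) → ∀ T : Submodule ℝ E,
      Module.finrank ℝ T = m →
      |tr ((proj T).comp (fderiv ℝ (grad W) x)) - 1 / 2 * ⟪x, grad W x⟫ - g|
        ≤ C * (|W x| + ‖proj T (grad W x)‖ + η) := by
  set n : ℝ := (Module.finrank ℝ E : ℝ) with hn
  have hn0 : 0 ≤ n := by rw [hn]; positivity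
  refine ⟨n * K ^ 2 + 1 + K ^ 2 + K + ((n + 1) * K + 1) / c, by positivity,
    fun W hW x g η hg hη0 hη T hT => ?_⟩
  set A := tr ((proj T).comp (fderiv ℝ (grad W) x)) - 1 / 2 * ⟪x, grad W x⟫ with hA
  set q := tr ((fderiv ℝ (grad W) x).comp (fderiv ℝ (grad W) x)) with hq
  set P := ‖proj T (grad W x)‖ with hP
  have hP0 : 0 ≤ P := norm_nonneg _
  set w := W x with hw
  have hw0 := abs_nonneg w
  have hd : 0 ≤ ((n + 1) * K + 1) / c := by positivity
  by_cases hx : |w| < c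
  · have h1 := hW.trace_est hE x T hT hx
    have h2 := hη hx
    have h3 : |q + 1 / 2| ≤ n * K ^ 2 + 1 := by
      refine (abs_add_le _ _).trans ?_
      rw [abs_of_pos (by norm_num : (0 : ℝ) < 1 / 2)]
      have := hW.q_le x
      linarith
    have hP1 : P ≤ 1 := (norm_proj_apply_le T _).trans (hW.eik x hx).le
    set t := tr ((proj T).comp (fderiv ℝ (grad W) x)) - tr (fderiv ℝ (grad W) x) with ht
    have h5 : A - g = t + (dfc W x - g) - (q + 1 / 2) * w := by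
      simp only [hA, ht, dfc, ← hw, ← hq]; ring
    have h6 : |t| ≤ K * P := h1.trans (by
      have : P ^ 2 ≤ P := by nlinarith
      exact mul_le_mul_of_nonneg_left this hK)
    have h7 : K * w ^ 2 ≤ K ^ 2 * |w| := by
      have e1 : w ^ 2 = |w| * |w| := by rw [← sq_abs]; ring
      have e2 : |w| ≤ K := hW.b0 x
      rw [e1]
      have := mul_le_mul_of_nonneg_right e2 hw0
      nlinarith
    have h8 : |(q + 1 / 2) * w| ≤ (n * K ^ 2 + 1) * |w| := by rw [abs_mul]; gcongr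
    have h9 : |A - g| ≤ |t| + |dfc W x - g| + |(q + 1 / 2) * w| := by
      rw [h5]
      exact (abs_sub _ _).trans (add_le_add (abs_add_le _ _) le_rfl)
    have p1 : 0 ≤ n * K ^ 2 := by positivity
    have p2 := sq_nonneg K
    nlinarith [mul_nonneg hd hw0, mul_nonneg hd hP0, mul_nonneg hd hη0, mul_nonneg p1 hP0,
      mul_nonneg p1 hη0, mul_nonneg p2 hP0, mul_nonneg p2 hη0, mul_nonneg hK hw0,
      mul_nonneg hK hη0]
  · push Not at hx
    have h1 : |A - g| ≤ (n + 1) * K + 1 := (abs_sub _ _).trans (add_le_add (hW.drift_le x T) hg)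
    have h2 : (n + 1) * K + 1 ≤ ((n + 1) * K + 1) / c * |w| := by
      rw [div_mul_eq_mul_div, le_div_iff₀ hc]
      exact mul_le_mul_of_nonneg_left hx (by positivity)
    have h3 : ((n + 1) * K + 1) / c * |w|
        ≤ (n * K ^ 2 + 1 + K ^ 2 + K + ((n + 1) * K + 1) / c) * (|w| + P + η) :=
      mul_le_mul (by have : 0 ≤ n * K ^ 2 + 1 + K ^ 2 + K := by positivity
                     linarith) (by linarith) hw0 (by positivity)
    linarith

variable [MeasurableSpace E] [BorelSpace E]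

section slice

variable {μ : Measure E} {T : E → Submodule ℝ E} {H : E → E} {W : E → ℝ}

lemma int_div_sub (hS : GSlice m μ T H) {X : E → E} (hX : PG X) :
    Integrable (fun x => (divAlong (T x) X x - 1 / 2 * ⟪x, X x⟫) * rho x) μ := by
  have dX := hS.integrable_div hX.cd hX.b1
  have nX := hS.integrable_PB (continuous_id.inner hX.cont).aestronglyMeasurable
    (PB.id'.inner' hX.b0)
  refine (dX.sub (nX.const_mul (1 / 2))).congr (Eventually.of_forall fun x => ?_)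
  simp only [Pi.sub_apply, id]
  ring

/-- **energy estimate** keeping the main part of the defect -/
theorem exists_TG_le2 (hE : Module.finrank ℝ E = m + 1) (hc : 0 < c) (hK : 0 ≤ K) :
    ∃ C : ℝ, 0 ≤ C ∧ ∀ (W : E → ℝ), Tube0 W c K → ∀ g η : E → ℝ, Continuous g →
      (∀ x, |g x| ≤ 1) → Continuous η → PB η →
      (∀ x, |W x| < c → |dfc W x - g x| ≤ K * W x ^ 2 + η x) →
      ∀ (μ : Measure E) (T : E → Submodule ℝ E) (H : E → E), GSlice m μ T H →
      TG μ T W 0 ≤ C * (DD μ W 0 + dis μ T H + ∫ x, η x ^ 2 * rho x ∂μ)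
        - 2 * ∫ x, W x * g x * rho x ∂μ := by
  obtain ⟨C₀, hC₀, hpt⟩ := energy_pt2 (E := E) hE hc hK
  refine ⟨2 * C₀ + 2 * K + 2, by positivity, fun W hW g η hgc hg1 hηc hηb hd μ T H hS => ?_⟩
  have hgb : PB g := PB.of_bound (C := 1) hg1
  have hXpg : PG (fun x => W x • grad W x) := hW.pg.smul hW.pg_grad
  have hwfv := hS.wfv hXpg.cd hXpg.b0 hXpg.b1
  have i0 := int_DD hS hW.pg 0
  have i1 := int_TG hS hW.pg 0
  have i2 := int_sq hS hηc hηb
  have i3 := hS.int_vel_sq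
  have i4 : Integrable (fun x => W x * g x * rho x) μ :=
    hS.integrable_PB (hW.cont.mul hgc).aestronglyMeasurable (hW.pg.b0.mul hgb)
  have iv := hS.integrable_inner_vel hXpg.cont.aestronglyMeasurable hXpg.b0
  have hdiv : ∀ x, divAlong (T x) (fun x => W x • grad W x) x
      = W x * tr ((proj (T x)).comp (fderiv ℝ (grad W) x)) + ‖proj (T x) (grad W x)‖ ^ 2 := by
    intro x
    rw [divAlong_smul (T x) (hW.diff x) (hW.pg_grad.diff x), divAlong_eq, ← norm_proj_sq]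
  have iX := int_div_sub hS hXpg
  have h1 : 1 / 2 * TG μ T W 0 - C₀ * DD μ W 0 - ∫ x, η x ^ 2 * rho x ∂μ
      + ∫ x, W x * g x * rho x ∂μ
      ≤ ∫ x, (divAlong (T x) (fun x => W x • grad W x) x
        - 1 / 2 * ⟪x, W x • grad W x⟫) * rho x ∂μ := by
    have j1 : Integrable (fun x => 1 / 2 * (wt 0 x * ‖proj (T x) (grad W x)‖ ^ 2 * rho x)
        + -C₀ * (W x ^ 2 * wt 0 x * rho x) + -1 * (η x ^ 2 * rho x)) μ :=
      ((i1.const_mul _).add (i0.const_mul _)).add (i2.const_mul _)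
    have e := integral_comb i1 i0 i2 (1 / 2) (-C₀) (-1)
    have e' : 1 / 2 * TG μ T W 0 - C₀ * DD μ W 0 - ∫ x, η x ^ 2 * rho x ∂μ
        + ∫ x, W x * g x * rho x ∂μ
        = ∫ x, ((1 / 2 * (wt 0 x * ‖proj (T x) (grad W x)‖ ^ 2 * rho x)
          + -C₀ * (W x ^ 2 * wt 0 x * rho x) + -1 * (η x ^ 2 * rho x))
          + W x * g x * rho x) ∂μ := by
      rw [integral_add j1 i4, e]
      change _ = 1 / 2 * TG μ T W 0 + -C₀ * DD μ W 0 + _ + _
      ring
    rw [e']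
    refine integral_mono_ae (j1.add i4) iX ?_
    filter_upwards [hS.mc.dim] with x hx
    have h2 := hpt W hW x (g x) (η x) (hg1 x) (hd x) (T x) hx
    have h3 := rho_pos x
    rw [hdiv, real_inner_smul_right]
    have h4 := mul_le_mul_of_nonneg_right h2 h3.le
    simp only [wt, pow_zero, mul_one, one_mul]
    nlinarith
  have h2 : -∫ x, ⟪W x • grad W x, vel T H x⟫ * rho x ∂μ ≤ K * (DD μ W 0 + dis μ T H) := by
    rw [← integral_neg]
    have e : K * (DD μ W 0 + dis μ T H)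
        = ∫ x, (K * (W x ^ 2 * wt 0 x * rho x) + K * (‖vel T H x‖ ^ 2 * rho x)) ∂μ := by
      rw [integral_comb2 i0 i3, mul_add]; rfl
    rw [e]
    refine integral_mono iv.neg ((i0.const_mul _).add (i3.const_mul _)) fun x => ?_
    have h4 := rho_pos x
    have h5 : -⟪W x • grad W x, vel T H x⟫ ≤ K * W x ^ 2 + K * ‖vel T H x‖ ^ 2 := by
      rw [real_inner_smul_left]
      calc -(W x * ⟪grad W x, vel T H x⟫) ≤ |W x * ⟪grad W x, vel T H x⟫| := neg_le_abs _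
        _ = |W x| * |⟪grad W x, vel T H x⟫| := abs_mul _ _
        _ ≤ |W x| * (K * ‖vel T H x‖) := by
            gcongr
            exact (abs_real_inner_le_norm _ _).trans
              (mul_le_mul_of_nonneg_right (hW.b1 x) (norm_nonneg _))
        _ ≤ K * W x ^ 2 + K * ‖vel T H x‖ ^ 2 := by
            have : W x ^ 2 = |W x| ^ 2 := (sq_abs _).symm
            rw [this]
            nlinarith [mul_nonneg hK (sq_nonneg (|W x| - ‖vel T H x‖)),
              mul_nonneg hK (mul_nonneg (abs_nonneg (W x)) (norm_nonneg (vel T H x)))]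
    have h6 := mul_le_mul_of_nonneg_right h5 h4.le
    simp only [wt, pow_zero, mul_one] at h6 ⊢
    nlinarith
  have h4 := DD_nonneg (μ := μ) (W := W) 0
  have h5 := dis_nonneg (μ := μ) (T := T) (H := H)
  have h6 : 0 ≤ ∫ x, η x ^ 2 * rho x ∂μ :=
    integral_nonneg fun x => mul_nonneg (sq_nonneg _) (rho_pos x).le
  rw [hwfv] at h1
  nlinarith

lemma amgm4 {B t C a b d e : ℝ} (ht : 0 < t) :
    B * (C * (a + b + d + e)) ≤ t * B ^ 2 + C ^ 2 / t * (a ^ 2 + b ^ 2 + d ^ 2 + e ^ 2) := by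
  have h1 : (a + b + d + e) ^ 2 ≤ 4 * (a ^ 2 + b ^ 2 + d ^ 2 + e ^ 2) := by
    nlinarith [sq_nonneg (a - b), sq_nonneg (a - d), sq_nonneg (a - e), sq_nonneg (b - d),
      sq_nonneg (b - e), sq_nonneg (d - e)]
  set s := a + b + d + e
  have h2 : B * (C * s) ≤ t * B ^ 2 + C ^ 2 / t * (s ^ 2 / 4) := by
    have e : t * B ^ 2 + C ^ 2 / t * (s ^ 2 / 4) - B * (C * s) = (t * B - C * s / 2) ^ 2 / t := by
      field_simp; ring
    have : 0 ≤ (t * B - C * s / 2) ^ 2 / t := by positivity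
    linarith
  have h3 : C ^ 2 / t * (s ^ 2 / 4) ≤ C ^ 2 / t * (a ^ 2 + b ^ 2 + d ^ 2 + e ^ 2) :=
    mul_le_mul_of_nonneg_left (by linarith) (by positivity)
  linarith

/-- **detection of the main part of the defect** -/
theorem exists_detect (hE : Module.finrank ℝ E = m + 1) (hc : 0 < c) (hK : 0 ≤ K) :
    ∃ C : ℝ, 0 ≤ C ∧ ∀ (W : E → ℝ), Tube0 W c K → ∀ g η : E → ℝ, PG g →
      (∀ x, |g x| ≤ 1) → Continuous η → PB η → (∀ x, 0 ≤ η x) →
      (∀ x, |W x| < c → |dfc W x - g x| ≤ K * W x ^ 2 + η x) →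
      ∀ B t : ℝ, 0 < t → (∀ x, |g x| ≤ B) → (∀ x, ‖grad g x‖ ≤ B) →
      ∀ (μ : Measure E) (T : E → Submodule ℝ E) (H : E → E), GSlice m μ T H →
      ∫ x, g x ^ 2 * rho x ∂μ ≤ t * B ^ 2 * ∫ x, rho x ∂μ
        + C / t * (DD μ W 0 + TG μ T W 0 + ∫ x, η x ^ 2 * rho x ∂μ + dis μ T H) := by
  obtain ⟨C₀, hC₀, hpt⟩ := detect_pt (E := E) hE hc hK
  refine ⟨(C₀ + 1 + K) ^ 2, by positivity,
    fun W hW g η hg hg1 hηc hηb hη0 hd B t ht hB0 hB1 μ T H hS => ?_⟩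
  have hB : 0 ≤ B := (abs_nonneg _).trans (hB0 0)
  have hXpg : PG (fun x => g x • grad W x) := hg.smul hW.pg_grad
  have hwfv := hS.wfv hXpg.cd hXpg.b0 hXpg.b1
  have i0 := int_DD hS hW.pg 0
  have i1 := int_TG hS hW.pg 0
  have i2 := int_sq hS hηc hηb
  have i3 := hS.int_vel_sq
  have i4 := int_sq hS hg.cont hg.b0
  have i5 : Integrable (fun x => rho x) μ := by simpa using hS.mom 0
  have iv := hS.integrable_inner_vel hXpg.cont.aestronglyMeasurable hXpg.b0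
  have iX := int_div_sub hS hXpg
  have e1 : ∫ x, g x ^ 2 * rho x ∂μ = ∫ x, (g x ^ 2 * rho x
      - (divAlong (T x) (fun x => g x • grad W x) x - 1 / 2 * ⟪x, g x • grad W x⟫) * rho x
      - ⟪g x • grad W x, vel T H x⟫ * rho x) ∂μ := by
    have j0 : Integrable (fun x => g x ^ 2 * rho x
      - (divAlong (T x) (fun x => g x • grad W x) x - 1 / 2 * ⟪x, g x • grad W x⟫) * rho x) μ :=
      i4.sub iX
    rw [integral_sub j0 iv, integral_sub i4 iX, hwfv]
    ring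
  have j1 : Integrable (fun x => 1 * (W x ^ 2 * wt 0 x * rho x)
      + 1 * (wt 0 x * ‖proj (T x) (grad W x)‖ ^ 2 * rho x) + 1 * (η x ^ 2 * rho x)) μ :=
    ((i0.const_mul _).add (i1.const_mul _)).add (i2.const_mul _)
  have e2 : t * B ^ 2 * ∫ x, rho x ∂μ
      + (C₀ + 1 + K) ^ 2 / t * (DD μ W 0 + TG μ T W 0 + ∫ x, η x ^ 2 * rho x ∂μ + dis μ T H)
      = ∫ x, (t * B ^ 2 * rho x + (C₀ + 1 + K) ^ 2 / t * (1 * (W x ^ 2 * wt 0 x * rho x)
        + 1 * (wt 0 x * ‖proj (T x) (grad W x)‖ ^ 2 * rho x) + 1 * (η x ^ 2 * rho x))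
        + (C₀ + 1 + K) ^ 2 / t * (‖vel T H x‖ ^ 2 * rho x)) ∂μ := by
    rw [integral_comb i5 j1 i3, integral_comb i0 i1 i2]
    change _ = _ + _ * (1 * DD μ W 0 + 1 * TG μ T W 0 + _) + _ * dis μ T H
    ring
  rw [e1, e2]
  refine integral_mono_ae ((i4.sub iX).sub iv)
    (((i5.const_mul _).add (j1.const_mul _)).add (i3.const_mul _)) ?_
  filter_upwards [hS.mc.dim] with x hx
  have h2 := hpt W hW x (g x) (η x) (hg1 x) (hη0 x) (hd x) (T x) hx
  have h3 := rho_pos x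
  rw [divAlong_smul (T x) (hg.diff x) (hW.pg_grad.diff x), divAlong_eq, real_inner_smul_right,
    real_inner_smul_left, H552.inner_proj_left]
  set A := tr ((proj (T x)).comp (fderiv ℝ (grad W) x)) - 1 / 2 * ⟪x, grad W x⟫ - g x with hA
  set P := ‖proj (T x) (grad W x)‖ with hP
  set φ := ‖vel T H x‖ with hφ
  have hP0 : 0 ≤ P := norm_nonneg _
  have hφ0 : 0 ≤ φ := norm_nonneg _
  have hw0 := abs_nonneg (W x)
  have a1 : -(g x * A) ≤ B * (C₀ * (|W x| + P + η x)) := by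
    refine (neg_le_abs _).trans ?_
    rw [abs_mul]
    exact mul_le_mul (hB0 x) h2 (abs_nonneg _) hB
  have a2 : -⟪grad g x, proj (T x) (grad W x)⟫ ≤ B * P :=
    (neg_le_abs _).trans ((abs_real_inner_le_norm _ _).trans
      (mul_le_mul_of_nonneg_right (hB1 x) hP0))
  have a3 : -(g x * ⟪grad W x, vel T H x⟫) ≤ B * (K * φ) := by
    refine (neg_le_abs _).trans ?_
    rw [abs_mul]
    exact mul_le_mul (hB0 x) ((abs_real_inner_le_norm _ _).trans
      (mul_le_mul_of_nonneg_right (hW.b1 x) hφ0)) (abs_nonneg _) hB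
  have a4 : B * (C₀ * (|W x| + P + η x)) + B * P + B * (K * φ)
      ≤ B * ((C₀ + 1 + K) * (|W x| + P + η x + φ)) := by
    rw [← mul_add, ← mul_add]
    refine mul_le_mul_of_nonneg_left ?_ hB
    have := hη0 x
    nlinarith [mul_nonneg hK hw0, mul_nonneg hK hP0, mul_nonneg hK this, mul_nonneg hC₀ hφ0]
  have a5 := amgm4 (B := B) (C := C₀ + 1 + K) (a := |W x|) (b := P) (d := η x) (e := φ) ht
  rw [sq_abs] at a5
  have a6 : g x ^ 2 - (g x * tr ((proj (T x)).comp (fderiv ℝ (grad W) x))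
      + ⟪grad g x, proj (T x) (grad W x)⟫ - 1 / 2 * (g x * ⟪x, grad W x⟫))
      - g x * ⟪grad W x, vel T H x⟫
      ≤ t * B ^ 2 + (C₀ + 1 + K) ^ 2 / t * (W x ^ 2 + P ^ 2 + η x ^ 2 + φ ^ 2) := by
    have e : g x ^ 2 - (g x * tr ((proj (T x)).comp (fderiv ℝ (grad W) x))
        + ⟪grad g x, proj (T x) (grad W x)⟫ - 1 / 2 * (g x * ⟪x, grad W x⟫))
        - g x * ⟪grad W x, vel T H x⟫
        = -(g x * A) + -⟪grad g x, proj (T x) (grad W x)⟫ + -(g x * ⟪grad W x, vel T H x⟫) := by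
      rw [hA]; ring
    rw [e]
    linarith
  have a7 := mul_le_mul_of_nonneg_right a6 h3.le
  simp only [wt, pow_zero, mul_one, one_mul]
  refine le_trans (le_of_eq ?_) (a7.trans (le_of_eq ?_)) <;> ring

/-- the part of the squared height outside a ball -/
lemma DD_le_ball (hS : GSlice m μ T H) (hW : PG W) {R : ℝ} (hR : 0 < R) :
    DD μ W 0 ≤ ∫ x in closedBall (0 : E) R, W x ^ 2 * rho x ∂μ + (R ^ 2)⁻¹ * DD μ W 1 := by
  have i0 := int_sq hS hW.cont hW.b0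
  have i1 := int_DD hS hW 1
  have i2 : Integrable ((closedBall (0 : E) R).indicator fun x => W x ^ 2 * rho x) μ :=
    i0.indicator measurableSet_closedBall
  rw [DD_zero_eq, ← integral_indicator measurableSet_closedBall, DD_eq 1, ← integral_const_mul,
    ← integral_add i2 (i1.const_mul _)]
  refine integral_mono i0 (i2.add (i1.const_mul _)) fun x => ?_
  have h1 := rho_pos x
  have h2 := wt_pos 1 x
  by_cases hx : x ∈ closedBall (0 : E) R
  · simp only [indicator_of_mem hx]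
    have : 0 ≤ (R ^ 2)⁻¹ * (W x ^ 2 * wt 1 x * rho x) := by positivity
    linarith
  · simp only [indicator_of_notMem hx, zero_add]
    rw [mem_closedBall_zero_iff, not_le] at hx
    have h3 : 1 ≤ (R ^ 2)⁻¹ * wt 1 x := by
      rw [← div_eq_inv_mul, le_div_iff₀ (by positivity)]
      simp only [wt, pow_one, one_mul]
      nlinarith
    calc W x ^ 2 * rho x ≤ ((R ^ 2)⁻¹ * wt 1 x) * (W x ^ 2 * rho x) :=
          le_mul_of_one_le_left (by positivity) h3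
      _ = _ := by ring

end slice

section comb

variable {I : Type*} [Fintype I] {χ : I → E → ℝ}

/-- the combination of the bumps -/
noncomputable def cmb (χ : I → E → ℝ) (k : I → ℝ) (y : E) : ℝ := ∑ j, k j * χ j y

lemma cmb_contDiff (h1 : ∀ j, ContDiff ℝ 1 (χ j)) (k : I → ℝ) : ContDiff ℝ 1 (cmb χ k) :=
  ContDiff.sum fun j _ => contDiff_const.mul (h1 j)

lemma cmb_continuous (h1 : ∀ j, Continuous (χ j)) (k : I → ℝ) : Continuous (cmb χ k) :=
  continuous_finsetSum _ fun j _ => continuous_const.mul (h1 j)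

lemma cmb_compact (h2 : ∀ j, HasCompactSupport (χ j)) (k : I → ℝ) :
    HasCompactSupport (cmb χ k) := by
  refine HasCompactSupport.intro (K := ⋃ j, tsupport (χ j))
    (isCompact_iUnion fun j => (h2 j).isCompact) fun y hy => ?_
  refine Finset.sum_eq_zero fun j _ => ?_
  rw [image_eq_zero_of_notMem_tsupport fun h => hy (mem_iUnion.2 ⟨j, h⟩), mul_zero]

lemma cmb_bounds (h1 : ∀ j, ContDiff ℝ 1 (χ j)) (h2 : ∀ j, HasCompactSupport (χ j)) :
    ∃ B : ℝ, 0 < B ∧ ∀ (k : I → ℝ) (y : E), |cmb χ k y| ≤ B * ‖k‖ ∧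
      ‖grad (cmb χ k) y‖ ≤ B * ‖k‖ := by
  have h3 : ∀ j, ∃ B : ℝ, 0 ≤ B ∧ ∀ y, |χ j y| ≤ B ∧ ‖fderiv ℝ (χ j) y‖ ≤ B := by
    intro j
    obtain ⟨B₁, h₁⟩ := (h2 j).exists_bound_of_continuous (h1 j).continuous
    obtain ⟨B₂, h₂⟩ := ((h2 j).fderiv (𝕜 := ℝ)).exists_bound_of_continuous
      ((h1 j).continuous_fderiv (by norm_num))
    exact ⟨max B₁ B₂, ((norm_nonneg _).trans (h₁ 0)).trans (le_max_left _ _),
      fun y => ⟨(h₁ y).trans (le_max_left _ _), (h₂ y).trans (le_max_right _ _)⟩⟩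
  choose B hB0 hB using h3
  have hs : 0 ≤ ∑ j, B j := Finset.sum_nonneg fun j _ => hB0 j
  refine ⟨∑ j, B j + 1, by linarith, fun k y => ⟨?_, ?_⟩⟩
  · refine (Finset.abs_sum_le_sum_abs _ _).trans ?_
    have h4 : ∑ j, |k j * χ j y| ≤ ∑ j, B j * ‖k‖ := by
      refine Finset.sum_le_sum fun j _ => ?_
      rw [abs_mul, mul_comm]
      exact mul_le_mul (hB j y).1 (norm_le_pi_norm k j) (abs_nonneg _) (hB0 j)
    rw [← Finset.sum_mul] at h4
    nlinarith [norm_nonneg k]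
  · rw [norm_grad]
    have h4 : HasFDerivAt (cmb χ k) (∑ j, k j • fderiv ℝ (χ j) y) y :=
      HasFDerivAt.fun_sum fun j _ =>
        ((h1 j).differentiable (by norm_num) y).hasFDerivAt.const_mul (k j)
    rw [h4.fderiv]
    refine (norm_sum_le _ _).trans ?_
    have h5 : ∑ j, ‖k j • fderiv ℝ (χ j) y‖ ≤ ∑ j, B j * ‖k‖ := by
      refine Finset.sum_le_sum fun j _ => ?_
      rw [norm_smul, mul_comm]
      exact mul_le_mul (hB j y).2 (norm_le_pi_norm k j) (norm_nonneg _) (hB0 j)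
    rw [← Finset.sum_mul] at h5
    nlinarith [norm_nonneg k]

lemma integral_cmb_sq {μ : Measure E} [IsFiniteMeasureOnCompacts μ]
    (h1 : ∀ j, Continuous (χ j)) (h2 : ∀ j, HasCompactSupport (χ j)) (k : I → ℝ) :
    ∫ y, cmb χ k y ^ 2 * rho y ∂μ = ∑ j, ∑ l, k j * k l * ∫ y, χ j y * χ l y * rho y ∂μ := by
  have hi : ∀ j l, Integrable (fun y => k j * k l * (χ j y * χ l y * rho y)) μ := fun j l =>
    ((((h1 j).mul (h1 l)).mul continuous_rho).integrable_of_hasCompactSupport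
      (h2 j).mul_right.mul_right).const_mul _
  have e : ∀ y, cmb χ k y ^ 2 * rho y = ∑ j, ∑ l, k j * k l * (χ j y * χ l y * rho y) := by
    intro y
    rw [cmb, sq, Finset.sum_mul_sum, Finset.sum_mul]
    refine Finset.sum_congr rfl fun j _ => ?_
    rw [Finset.sum_mul]
    exact Finset.sum_congr rfl fun l _ => by ring
  simp_rw [e]
  rw [integral_finsetSum _ fun j _ => integrable_finsetSum _ fun l _ => hi j l]
  refine Finset.sum_congr rfl fun j _ => ?_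
  rw [integral_finsetSum _ fun l _ => hi j l]
  exact Finset.sum_congr rfl fun l _ => integral_const_mul _ _

/-- the Gram form of independent bumps is coercive -/
lemma exists_coercive {κ : Measure E} [IsFiniteMeasureOnCompacts κ]
    (h1 : ∀ j, Continuous (χ j)) (h2 : ∀ j, HasCompactSupport (χ j))
    (hind : ∀ k : I → ℝ, (∀ᵐ y ∂κ, cmb χ k y = 0) → k = 0) :
    ∃ lam : ℝ, 0 < lam ∧ ∀ k : I → ℝ, lam * ‖k‖ ^ 2 ≤ ∫ y, cmb χ k y ^ 2 * rho y ∂κ := by
  set Q : (I → ℝ) → ℝ := fun k => ∫ y, cmb χ k y ^ 2 * rho y ∂κ with hQ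
  have hQc : Continuous Q := by
    have : Q = fun k => ∑ j, ∑ l, k j * k l * ∫ y, χ j y * χ l y * rho y ∂κ :=
      funext fun k => integral_cmb_sq h1 h2 k
    rw [this]
    fun_prop
  have hpos : ∀ k, k ≠ 0 → 0 < Q k := by
    intro k hk
    have h0 : 0 ≤ Q k := integral_nonneg fun y => mul_nonneg (sq_nonneg _) (rho_pos y).le
    refine h0.lt_of_ne fun h => hk (hind k ?_)
    have hcs : HasCompactSupport (fun y => cmb χ k y ^ 2 * rho y) :=
      (cmb_compact h2 k).mono fun y hy h0 => hy (by simp [h0])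
    have hct : Continuous (fun y => cmb χ k y ^ 2 * rho y) :=
      ((cmb_continuous h1 k).pow 2).mul continuous_rho
    have hi : Integrable (fun y => cmb χ k y ^ 2 * rho y) κ :=
      hct.integrable_of_hasCompactSupport hcs
    have h3 := (integral_eq_zero_iff_of_nonneg (fun y => mul_nonneg (sq_nonneg _)
      (rho_pos y).le) hi).1 h.symm
    filter_upwards [h3] with y hy
    have h4 : cmb χ k y ^ 2 * rho y = 0 := hy
    exact pow_eq_zero_iff two_ne_zero |>.1 ((mul_eq_zero.1 h4).resolve_right (rho_pos y).ne')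
  have hhom : ∀ (t : ℝ) (k : I → ℝ), Q (t • k) = t ^ 2 * Q k := by
    intro t k
    simp only [hQ]
    rw [← integral_const_mul]
    congr 1; ext y
    have : cmb χ (t • k) y = t * cmb χ k y := by
      simp only [cmb, Pi.smul_apply, smul_eq_mul, Finset.mul_sum, mul_assoc]
    rw [this]; ring
  by_cases hne : (sphere (0 : I → ℝ) 1).Nonempty
  · obtain ⟨k₀, hk₀, hmin⟩ := (isCompact_sphere (0 : I → ℝ) 1).exists_isMinOn hne hQc.continuousOn
    have hk₀' : k₀ ≠ 0 := by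
      intro h; rw [h] at hk₀; simp at hk₀
    refine ⟨Q k₀, hpos k₀ hk₀', fun k => ?_⟩
    by_cases hk : k = 0
    · rw [hk, norm_zero]
      simp only [ne_eq, OfNat.ofNat_ne_zero, not_false_eq_true, zero_pow, mul_zero]
      exact integral_nonneg fun y => mul_nonneg (sq_nonneg _) (rho_pos y).le
    · have hn : 0 < ‖k‖ := norm_pos_iff.2 hk
      have h3 : ‖k‖⁻¹ • k ∈ sphere (0 : I → ℝ) 1 := by
        rw [mem_sphere_zero_iff_norm, norm_smul, norm_inv, norm_norm, inv_mul_cancel₀ hn.ne']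
      have h4 : Q k₀ ≤ Q (‖k‖⁻¹ • k) := hmin h3
      rw [hhom] at h4
      calc Q k₀ * ‖k‖ ^ 2 ≤ (‖k‖⁻¹ ^ 2 * Q k) * ‖k‖ ^ 2 := by gcongr
        _ = Q k := by field_simp
  · refine ⟨1, one_pos, fun k => ?_⟩
    have hk : k = 0 := by
      by_contra hk
      have hn : 0 < ‖k‖ := norm_pos_iff.2 hk
      exact hne ⟨‖k‖⁻¹ • k, by
        rw [mem_sphere_zero_iff_norm, norm_smul, norm_inv, norm_norm, inv_mul_cancel₀ hn.ne']⟩
    rw [hk, norm_zero]
    simp only [ne_eq, OfNat.ofNat_ne_zero, not_false_eq_true, zero_pow, mul_zero]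
    exact integral_nonneg fun y => mul_nonneg (sq_nonneg _) (rho_pos y).le

/-- uniform coercivity along a weakly converging family -/
lemma ev_coercive {ι : Type*} {l : Filter ι} {N : ι → Measure E} {κ : Measure E}
    [IsFiniteMeasureOnCompacts κ] (hfin : ∀ᶠ i in l, IsFiniteMeasureOnCompacts (N i))
    (hlim : ∀ φ : E → ℝ, Continuous φ → HasCompactSupport φ →
      Tendsto (fun i => ∫ x, φ x ∂(N i)) l (𝓝 (∫ x, φ x ∂κ)))
    (h1 : ∀ j, Continuous (χ j)) (h2 : ∀ j, HasCompactSupport (χ j))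
    (hind : ∀ k : I → ℝ, (∀ᵐ y ∂κ, cmb χ k y = 0) → k = 0) :
    ∃ lam : ℝ, 0 < lam ∧ ∀ᶠ i in l, ∀ k : I → ℝ,
      lam * ‖k‖ ^ 2 ≤ ∫ y, cmb χ k y ^ 2 * rho y ∂(N i) := by
  obtain ⟨lam, hlam, hco⟩ := exists_coercive h1 h2 hind
  set n : ℝ := (Fintype.card I : ℝ) with hn
  have hn0 : 0 ≤ n := by positivity
  set θ := lam / (2 * (n ^ 2 + 1)) with hθ
  have hθp : 0 < θ := by positivity
  have hev : ∀ᶠ i in l, ∀ j l', |∫ y, χ j y * χ l' y * rho y ∂(N i)
      - ∫ y, χ j y * χ l' y * rho y ∂κ| ≤ θ := by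
    refine eventually_all.2 fun j => eventually_all.2 fun l' => ?_
    have h3 := hlim (fun y => χ j y * χ l' y * rho y) (((h1 j).mul (h1 l')).mul continuous_rho)
      (h2 j).mul_right.mul_right
    filter_upwards [Metric.tendsto_nhds.1 h3 θ hθp] with i hi
    rw [Real.dist_eq] at hi
    exact hi.le
  refine ⟨lam / 2, by positivity, ?_⟩
  filter_upwards [hev, hfin] with i hi hf k
  have h3 := hco k
  rw [integral_cmb_sq h1 h2] at h3 ⊢
  have h4 : ∑ j, ∑ l', k j * k l' * ∫ y, χ j y * χ l' y * rho y ∂κ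
      - ∑ j, ∑ l', k j * k l' * ∫ y, χ j y * χ l' y * rho y ∂(N i) ≤ n * (n * (θ * ‖k‖ ^ 2)) := by
    rw [← Finset.sum_sub_distrib]
    refine (Finset.sum_le_card_nsmul _ _ (n * (θ * ‖k‖ ^ 2)) fun j _ => ?_).trans
      (by rw [nsmul_eq_mul, Finset.card_univ])
    rw [← Finset.sum_sub_distrib]
    refine (Finset.sum_le_card_nsmul _ _ (θ * ‖k‖ ^ 2) fun l' _ => ?_).trans
      (by rw [nsmul_eq_mul, Finset.card_univ])
    rw [← mul_sub]
    refine (le_abs_self _).trans ?_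
    rw [abs_mul, abs_mul, abs_sub_comm, mul_comm, sq]
    exact mul_le_mul (hi j l') (mul_le_mul (norm_le_pi_norm k j) (norm_le_pi_norm k l')
      (abs_nonneg _) (norm_nonneg _)) (by positivity) hθp.le
  have h5 : n * (n * (θ * ‖k‖ ^ 2)) ≤ lam / 2 * ‖k‖ ^ 2 := by
    have e : n * (n * (θ * ‖k‖ ^ 2)) = (n ^ 2 * θ) * ‖k‖ ^ 2 := by ring
    rw [e]
    refine mul_le_mul_of_nonneg_right ?_ (sq_nonneg _)
    rw [hθ, ← mul_div_assoc, div_le_div_iff₀ (by positivity) (by norm_num)]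
    nlinarith
  linarith

lemma integral_mul_cmb {μ : Measure E} [IsFiniteMeasureOnCompacts μ]
    (h1 : ∀ j, Continuous (χ j)) (h2 : ∀ j, HasCompactSupport (χ j)) {f : E → ℝ}
    (hf : Continuous f) (k : I → ℝ) :
    ∫ y, f y * cmb χ k y * rho y ∂μ = ∑ j, k j * ∫ y, f y * χ j y * rho y ∂μ := by
  have hi : ∀ j, Integrable (fun y => k j * (f y * χ j y * rho y)) μ := fun j =>
    (((hf.mul (h1 j)).mul continuous_rho).integrable_of_hasCompactSupport
      (h2 j).mul_left.mul_right).const_mul _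
  have e : ∀ y, f y * cmb χ k y * rho y = ∑ j, k j * (f y * χ j y * rho y) := by
    intro y
    rw [cmb, Finset.mul_sum, Finset.sum_mul]
    exact Finset.sum_congr rfl fun j _ => by ring
  simp_rw [e]
  rw [integral_finsetSum _ fun j _ => hi j]
  exact Finset.sum_congr rfl fun j _ => integral_const_mul _ _

end comb

/-- the arithmetic of the static estimate -/
lemma est_arith {C₀ C₁ K m' ε R θ D D₁ G k d : ℝ} (hC₀ : 0 ≤ C₀) (hC₁ : 0 ≤ C₁) (hm : 0 ≤ m')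
    (hD : 0 ≤ D) (hG : 0 ≤ G) (hk : 0 ≤ k) (hd : 0 ≤ d) (hR : 0 ≤ R) (hθ : 0 ≤ θ) (hε : 0 ≤ ε)
    (hε1 : ε * (2 * C₀ + 2) ≤ 1 / 8) (hR1 : R * (1 + 4 * m' + 32 * (2 * C₀ + 2)) ≤ 1 / 8)
    (hθ1 : θ * (C₁ + 1) ≤ 1 / 8)
    (h1 : G ≤ C₀ * (D + d) + θ * (k + D)) (h2 : k ≤ C₁ * (D + G + d))
    (h3 : D ≤ ε * G + θ * D + R * D₁) (h4 : D₁ ≤ (1 + 4 * m') * D + 32 * G + 8 * K ^ 2 * d) :
    D₁ + G + k ≤ ((1 + 4 * m' + (33 + C₁) * (2 * C₀ + 2) + C₁) * (2 + 8 * K ^ 2) + 8 * K ^ 2) * d := by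
  have a1 : θ * (k + D) ≤ 1 / 8 * (D + G + d) := by
    have b1 : k + D ≤ (C₁ + 1) * (D + G + d) := by nlinarith
    calc θ * (k + D) ≤ θ * ((C₁ + 1) * (D + G + d)) := mul_le_mul_of_nonneg_left b1 hθ
      _ = (θ * (C₁ + 1)) * (D + G + d) := by ring
      _ ≤ _ := mul_le_mul_of_nonneg_right hθ1 (by positivity)
  have a2 : G ≤ (2 * C₀ + 2) * (D + d) := by nlinarith
  have a3 : ε * G ≤ 1 / 8 * (D + d) := by
    calc ε * G ≤ ε * ((2 * C₀ + 2) * (D + d)) := mul_le_mul_of_nonneg_left a2 hε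
      _ = (ε * (2 * C₀ + 2)) * (D + d) := by ring
      _ ≤ _ := mul_le_mul_of_nonneg_right hε1 (by positivity)
  have a4 : θ * D ≤ 1 / 8 * D := mul_le_mul_of_nonneg_right (by nlinarith) hD
  have a5 : D₁ ≤ (1 + 4 * m' + 32 * (2 * C₀ + 2)) * (D + d) + 8 * K ^ 2 * d := by nlinarith
  have hR2 : R ≤ 1 / 8 := by nlinarith
  have a6 : R * D₁ ≤ 1 / 8 * (D + d) + K ^ 2 * d := by
    calc R * D₁ ≤ R * ((1 + 4 * m' + 32 * (2 * C₀ + 2)) * (D + d) + 8 * K ^ 2 * d) :=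
          mul_le_mul_of_nonneg_left a5 hR
      _ = (R * (1 + 4 * m' + 32 * (2 * C₀ + 2))) * (D + d) + R * (8 * K ^ 2 * d) := by ring
      _ ≤ 1 / 8 * (D + d) + 1 / 8 * (8 * K ^ 2 * d) :=
          add_le_add (mul_le_mul_of_nonneg_right hR1 (by positivity))
            (mul_le_mul_of_nonneg_right hR2 (by positivity))
      _ = _ := by ring
  have hK2 : 0 ≤ K ^ 2 * d := by positivity
  have a7 : D + d ≤ (2 + 8 * K ^ 2) * d := by nlinarith
  have a8 : D₁ + G + k ≤ (1 + 4 * m' + (33 + C₁) * (2 * C₀ + 2) + C₁) * (D + d)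
      + 8 * K ^ 2 * d := by
    have b1 := mul_le_mul_of_nonneg_left a2 hC₁
    nlinarith
  have a9 := mul_le_mul_of_nonneg_left a7
    (by positivity : 0 ≤ 1 + 4 * m' + (33 + C₁) * (2 * C₀ + 2) + C₁)
  linarith

variable {ι : Type*} {I : Type*} [Fintype I]

/-- the mesh Poincaré inequality on the slices -/
def PO (l : Filter ι) (N : ι → Measure E) (T : ι → E → Submodule ℝ E) (χ : I → E → ℝ)
    (R ε : ℝ) : Prop :=
  ∃ A : ℝ, ∀ᶠ i in l, ∀ f : E → ℝ, PG f →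
    ∫ y in closedBall (0 : E) R, f y ^ 2 * rho y ∂(N i)
      ≤ ε * TG (N i) (T i) f 0 + A * ∑ j, (∫ y, f y * χ j y * rho y ∂(N i)) ^ 2

/-- the multipliers are controlled -/
lemma ev_detect (hE : Module.finrank ℝ E = m + 1) (hc : 0 < c) (hK : 0 ≤ K) {U : Ultrafilter ι}
    {N : ι → Measure E} {T : ι → E → Submodule ℝ E} {H : ι → E → E} {κ : Measure E}
    (h : Conv U m N T H κ) {W : ι → E → ℝ} {k : ι → I → ℝ} {η : ι → E → ℝ} {χ : I → E → ℝ}
    (h1 : ∀ j, ContDiff ℝ 1 (χ j)) (h2 : ∀ j, HasCompactSupport (χ j))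
    (hind : ∀ k : I → ℝ, (∀ᵐ y ∂κ, cmb χ k y = 0) → k = 0)
    (hW : ∀ᶠ i in (U : Filter ι), Tube0 (W i) c K ∧ Continuous (η i) ∧ PB (η i) ∧
      (∀ y, 0 ≤ η i y) ∧ ∀ y, |W i y| < c → |dfc (W i) y - cmb χ (k i) y| ≤ K * W i y ^ 2 + η i y)
    (hk : Tendsto k U (𝓝 0)) :
    ∃ C : ℝ, 0 ≤ C ∧ ∀ᶠ i in (U : Filter ι), (∀ y, |cmb χ (k i) y| ≤ 1) ∧
      ‖k i‖ ^ 2 ≤ C * (DD (N i) (W i) 0 + TG (N i) (T i) (W i) 0
        + ∫ y, η i y ^ 2 * rho y ∂(N i) + dis (N i) (T i) (H i)) := by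
  have := h.lf
  obtain ⟨C, hC, hdet⟩ := exists_detect (E := E) hE hc hK
  obtain ⟨B, hB, hBb⟩ := cmb_bounds h1 h2
  obtain ⟨lam, hlam, hco⟩ := ev_coercive (h.sl.mono fun i hi => hi.mc.fin) h.lim
    (fun j => (h1 j).continuous) h2 hind
  obtain ⟨M, hM⟩ := h.mom 0
  set t := lam / (2 * (B ^ 2 * (|M| + 1))) with ht
  have htp : 0 < t := by positivity
  have hsmall : ∀ᶠ i in (U : Filter ι), ‖k i‖ ≤ 1 / B := by
    have h3 := hk.norm
    rw [norm_zero] at h3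
    exact h3.eventually_le_const (by positivity)
  refine ⟨2 / lam * (C / t), by positivity, ?_⟩
  filter_upwards [hW, hco, hM, hsmall, h.sl] with i ⟨a1, a2, a3, a4, a5⟩ hi1 hi2 hi3 hs
  have hg1 : ∀ y, |cmb χ (k i) y| ≤ 1 := fun y => by
    refine (hBb (k i) y).1.trans ?_
    rw [le_div_iff₀ hB] at hi3
    linarith
  refine ⟨hg1, ?_⟩
  have h3 := hdet (W i) a1 (cmb χ (k i)) (η i) (PG.of_compact (cmb_contDiff h1 _) (cmb_compact h2 _))
    hg1 a2 a3 a4 a5 (B * ‖k i‖) t htp (fun y => (hBb (k i) y).1) (fun y => (hBb (k i) y).2)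
    (N i) (T i) (H i) hs
  have h4 := hi1 (k i)
  have h5 : ∫ x, rho x ∂(N i) ≤ |M| + 1 := by
    have := le_abs_self M
    simp only [pow_zero, one_mul] at hi2
    linarith
  have h6 : t * (B * ‖k i‖) ^ 2 * ∫ x, rho x ∂(N i) ≤ lam / 2 * ‖k i‖ ^ 2 := by
    calc t * (B * ‖k i‖) ^ 2 * ∫ x, rho x ∂(N i) ≤ t * (B * ‖k i‖) ^ 2 * (|M| + 1) := by gcongr
      _ = _ := by rw [ht]; field_simp
  generalize DD (N i) (W i) 0 + TG (N i) (T i) (W i) 0 + ∫ y, η i y ^ 2 * rho y ∂(N i)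
    + dis (N i) (T i) (H i) = X at h3 ⊢
  have h7 : lam / 2 * ‖k i‖ ^ 2 ≤ C / t * X := by linarith
  calc ‖k i‖ ^ 2 = 2 / lam * (lam / 2 * ‖k i‖ ^ 2) := by field_simp
    _ ≤ 2 / lam * (C / t * X) := by gcongr
    _ = _ := by ring

lemma gauge_term {n θ a D s : ℝ} {k v : I → ℝ} (hn : (Fintype.card I : ℝ) = n) (hθ : 0 < θ)
    (hD : 0 ≤ D) (hv : ∀ j, v j ^ 2 ≤ θ ^ 2 * D) :
    -(2 * ∑ j, k j * v j) ≤ n * θ * (‖k‖ ^ 2 + D) := by
  have h1 : ∀ j, -(2 * (k j * v j)) ≤ θ * (‖k‖ ^ 2 + D) := by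
    intro j
    have b1 : k j ^ 2 ≤ ‖k‖ ^ 2 := by
      rw [← sq_abs]
      exact pow_le_pow_left₀ (abs_nonneg _) (norm_le_pi_norm k j) 2
    have b2 : 0 ≤ (θ * k j + v j) ^ 2 := sq_nonneg _
    have b3 := hv j
    have b4 : θ * (-(2 * (k j * v j))) ≤ θ * (θ * (‖k‖ ^ 2 + D)) := by
      nlinarith [mul_le_mul_of_nonneg_left b1 (sq_nonneg θ)]
    exact le_of_mul_le_mul_left b4 hθ
  rw [Finset.mul_sum, ← Finset.sum_neg_distrib]
  refine (Finset.sum_le_card_nsmul _ _ _ fun j _ => h1 j).trans (le_of_eq ?_)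
  rw [nsmul_eq_mul, Finset.card_univ, hn]; ring

/-- **The static estimate.** -/
theorem est (hE : Module.finrank ℝ E = m + 1) (hc : 0 < c) (hK : 0 ≤ K) :
    ∃ ε₀ R₀ : ℝ, 0 < ε₀ ∧ 0 < R₀ ∧ ∀ {ι : Type} {I : Type} [Fintype I] (U : Ultrafilter ι)
      (N : ι → Measure E) (T : ι → E → Submodule ℝ E) (H : ι → E → E) (κ : Measure E),
      Conv U m N T H κ → ∀ (W : ι → E → ℝ) (k : ι → I → ℝ) (η : ι → E → ℝ) (χ : I → E → ℝ),
      (∀ j, ContDiff ℝ 1 (χ j)) → (∀ j, HasCompactSupport (χ j)) →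
      (∀ k : I → ℝ, (∀ᵐ y ∂κ, cmb χ k y = 0) → k = 0) →
      (∀ᶠ i in (U : Filter ι), Tube0 (W i) c K ∧ Continuous (η i) ∧ PB (η i) ∧ (∀ y, 0 ≤ η i y) ∧
        ∀ y, |W i y| < c → |dfc (W i) y - cmb χ (k i) y| ≤ K * W i y ^ 2 + η i y) →
      Tendsto k U (𝓝 0) →
      (∀ θ > 0, ∀ᶠ i in (U : Filter ι),
        ∫ y, η i y ^ 2 * rho y ∂(N i) ≤ θ * (‖k i‖ ^ 2 + DD (N i) (W i) 0)) →
      (∀ θ > 0, ∀ᶠ i in (U : Filter ι), ∀ j,
        (∫ y, W i y * χ j y * rho y ∂(N i)) ^ 2 ≤ θ * DD (N i) (W i) 0) →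
      ∀ R ε : ℝ, R₀ ≤ R → ε ≤ ε₀ → PO U N T χ R ε →
      ∃ C : ℝ, 0 ≤ C ∧ ∀ᶠ i in (U : Filter ι),
        DD (N i) (W i) 1 + TG (N i) (T i) (W i) 0 + ‖k i‖ ^ 2 ≤ C * dis (N i) (T i) (H i) := by
  obtain ⟨C₀, hC₀, hTG⟩ := exists_TG_le2 (E := E) hE hc hK
  set L : ℝ := 8 * (1 + 4 * m + 32 * (2 * C₀ + 2)) with hL
  have hL1 : 1 ≤ L := by
    have : (0 : ℝ) ≤ m := m.cast_nonneg
    rw [hL]; nlinarith
  refine ⟨1 / (8 * (2 * C₀ + 2)), L, by positivity, by linarith, ?_⟩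
  intro ι I _ U N T H κ h W k η χ h1 h2 hind hW hk hη hg R ε hR hε ⟨A, hA⟩
  obtain ⟨C₁, hC₁, hdet⟩ := ev_detect hE hc hK h h1 h2 hind hW hk
  set n : ℝ := (Fintype.card I : ℝ) with hn
  have hn0 : 0 ≤ n := by positivity
  have hRp : 0 < R := by linarith
  obtain ⟨θ, hθp, hθ1, hθ2, hθ3, hθ4⟩ : ∃ θ : ℝ, 0 < θ ∧ θ ≤ 1 ∧ θ * C₁ ≤ 1 / 2 ∧
      (C₀ + n) * θ * (2 * (C₁ + 1) + 1) ≤ 1 / 8 ∧ |A| * n * θ ≤ C₀ + n := by
    have l1 : Tendsto (fun θ : ℝ => θ) (𝓝[>] 0) (𝓝 0) := tendsto_id.mono_left nhdsWithin_le_nhds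
    have e1 := l1.eventually_le_const one_pos
    have e2 := (l1.mul_const C₁).eventually_le_const (by norm_num : 0 * C₁ < 1 / 2)
    have e3 := ((l1.const_mul (C₀ + n)).mul_const (2 * (C₁ + 1) + 1)).eventually_le_const
      (by norm_num : (C₀ + n) * 0 * (2 * (C₁ + 1) + 1) < 1 / 8)
    have e4 := (l1.const_mul |A|).eventually_le_const (by norm_num : |A| * 0 < 1)
    obtain ⟨θ, ⟨⟨⟨a1, a2⟩, a3⟩, a4⟩, a5⟩ :=
      ((((e1.and e2).and e3).and e4).and self_mem_nhdsWithin).exists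
    refine ⟨θ, a5, a1, a2, a3, ?_⟩
    have := mul_le_mul_of_nonneg_left a4 hn0
    nlinarith
  refine ⟨(1 + 4 * m + (33 + 2 * (C₁ + 1)) * (2 * C₀ + 2) + 2 * (C₁ + 1)) * (2 + 8 * K ^ 2)
    + 8 * K ^ 2, by positivity, ?_⟩
  filter_upwards [hW, hdet, hη θ hθp, hg (θ ^ 2) (by positivity), hA, h.sl] with
    i ⟨a1, a2, a3, a4, a5⟩ ⟨b1, b2⟩ b3 b4 b5 hs
  have := hs.mc.fin
  have c1 := hTG (W i) a1 (cmb χ (k i)) (η i) (cmb_contDiff h1 _).continuous b1 a2 a3 a5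
    (N i) (T i) (H i) hs
  rw [integral_mul_cmb (fun j => (h1 j).continuous) h2 a1.cont] at c1
  have c2 := DD_le_ball hs a1.pg hRp
  have c3 := b5 (W i) a1.pg
  have c4 := DD_one_le hs a1.pg
  have c5 := VW_zero_le hs a1.pg a1.b0
  have d0 := DD_nonneg (μ := N i) (W := W i) 0
  have d1 := TG_nonneg (μ := N i) (T := T i) (W := W i) 0
  have d2 := dis_nonneg (μ := N i) (T := T i) (H := H i)
  have d3 := DD_nonneg (μ := N i) (W := W i) 1
  have c6 := gauge_term (a := 0) (s := 0) (k := k i) hn.symm hθp d0 b4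
  have c7 : A * ∑ j, (∫ y, W i y * χ j y * rho y ∂(N i)) ^ 2
      ≤ (C₀ + n) * θ * DD (N i) (W i) 0 := by
    have e1 : ∑ j, (∫ y, W i y * χ j y * rho y ∂(N i)) ^ 2 ≤ n * (θ ^ 2 * DD (N i) (W i) 0) :=
      (Finset.sum_le_card_nsmul _ _ _ fun j _ => b4 j).trans
        (by rw [nsmul_eq_mul, Finset.card_univ])
    have e2 : 0 ≤ ∑ j, (∫ y, W i y * χ j y * rho y ∂(N i)) ^ 2 :=
      Finset.sum_nonneg fun j _ => sq_nonneg _
    calc _ ≤ |A| * (n * (θ ^ 2 * DD (N i) (W i) 0)) :=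
          mul_le_mul (le_abs_self A) e1 e2 (abs_nonneg A)
      _ = (|A| * n * θ) * (θ * DD (N i) (W i) 0) := by ring
      _ ≤ (C₀ + n) * (θ * DD (N i) (W i) 0) := mul_le_mul_of_nonneg_right hθ4 (by positivity)
      _ = _ := by ring
  generalize DD (N i) (W i) 0 = D at *
  generalize DD (N i) (W i) 1 = D₁ at *
  generalize TG (N i) (T i) (W i) 0 = G at *
  generalize dis (N i) (T i) (H i) = d at *
  generalize VW (N i) (T i) (H i) (W i) 0 = v at *
  generalize ∫ y, η i y ^ 2 * rho y ∂(N i) = e at *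
  generalize ∑ j, k i j * ∫ y, W i y * χ j y * rho y ∂(N i) = s₁ at *
  generalize A * ∑ j, (∫ y, W i y * χ j y * rho y ∂(N i)) ^ 2 = s₂ at *
  generalize ∫ y in closedBall (0 : E) R, W i y ^ 2 * rho y ∂(N i) = s₃ at *
  have hk2 : 0 ≤ ‖k i‖ ^ 2 := sq_nonneg _
  generalize ‖k i‖ ^ 2 = kk at *
  have hε₀ : 0 ≤ 1 / (8 * (2 * C₀ + 2)) := by positivity
  refine est_arith (ε := 1 / (8 * (2 * C₀ + 2))) (R := (R ^ 2)⁻¹) (θ := (C₀ + n) * θ) hC₀
    (by positivity) m.cast_nonneg d0 d1 hk2 d2 (by positivity) (by positivity) hε₀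
    (le_of_eq (by field_simp)) ?_ hθ3 ?_ ?_ ?_ (by linarith)
  · rw [← div_eq_inv_mul, div_le_iff₀ (by positivity)]
    have : L ≤ R ^ 2 := by nlinarith
    linarith
  · have f1 := mul_le_mul_of_nonneg_left b3 hC₀
    nlinarith
  · have f1 := mul_le_mul_of_nonneg_left b3 hC₁
    have f2 : C₁ * (θ * (kk + D)) ≤ 1 / 2 * (kk + D) := by
      rw [← mul_assoc, mul_comm C₁]
      exact mul_le_mul_of_nonneg_right hθ2 (by positivity)
    nlinarith
  · have f1 := mul_le_mul_of_nonneg_right hε d1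
    linarith

end Vale.Agent.P218F.Dyn
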