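import Vale.Agent.P218FT.Defs
import Mathlib.Analysis.Calculus.BumpFunction.InnerProduct

/-! Mesh bumps on a surface and the mesh Poincaré inequality: definitions and statements. -/

open MeasureTheory Set Filter Topology Metric
open scoped ENNReal NNReal RealInnerProductSpace ContDiff

namespace Vale.Agent.P218F.Mesh

open Vale.Agent.P218FT

/-- the Gaussian weight (definitionally the weight `rho` of the folder `P218/H313`) -/
noncomputable def gw (x : E3) : ℝ := Real.exp (-‖x‖ ^ 2 / 4)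

/-- the model bump: one on `closedBall 0 (1/4)`, zero outside `ball 0 (1/2)` -/
noncomputable def beta : ContDiffBump (0 : E3) := ⟨1 / 4, 1 / 2, by norm_num, by norm_num⟩

/-- the bump of width `r` at `p` -/
noncomputable def bump (p : E3) (r : ℝ) (y : E3) : ℝ := beta (r⁻¹ • (y - p))

/-- `P` is an `r`-separated `r`-net of `S ∩ closedBall 0 (R + 1/2)` -/
structure IsMesh (S : Set E3) (R r : ℝ) (P : Finset E3) : Prop where
  mem : ∀ p ∈ P, p ∈ S
  norm_le : ∀ p ∈ P, ‖p‖ ≤ R + 1 / 2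
  sep : ∀ p ∈ P, ∀ q ∈ P, p ≠ q → r ≤ ‖p - q‖
  cover : ∀ x ∈ S, ‖x‖ ≤ R + 1 / 2 → ∃ p ∈ P, ‖x - p‖ ≤ r

/-- `N` is `ε`-close to `S` in the ball of radius `R`, in both directions -/
def HClose (N S : Set E3) (R ε : ℝ) : Prop :=
  (∀ y ∈ N, ‖y‖ ≤ R → ∃ x ∈ S, ‖y - x‖ ≤ ε) ∧ ∀ x ∈ S, ‖x‖ ≤ R + 1 / 2 → ∃ y ∈ N, ‖y - x‖ ≤ ε

/-- on `N ∩ closedBall 0 R` the function `f` is `C¹` along `N`, with tangential gradient bounded
by `G` -/
def GradLe (N : Set E3) (R : ℝ) (f G : E3 → ℝ) : Prop :=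
  ∀ y ∈ N, ‖y‖ ≤ R → ∃ f' : E3 → ℝ, ContDiffAt ℝ 1 f' y ∧ (∀ᶠ z in 𝓝 y, z ∈ N → f z = f' z) ∧
    ‖pt (nu N y) (gradient f' y)‖ ≤ G y

/-- meshes exist -/
def NetStmt : Prop := ∀ (S : Set E3) (R r : ℝ), 0 < r → ∃ P, IsMesh S R r P

/-- **Mesh Poincaré inequality**, for the measure `c • area N` -/
def PoincStmt : Prop :=
  ∀ (R C r₀ : ℝ) (c : ℝ≥0), 0 < r₀ → 0 < c → ∃ A r₁ : ℝ, 0 < A ∧ 0 < r₁ ∧ r₁ ≤ 1 / 10 ∧
    ∀ r : ℝ, 0 < r → r ≤ r₁ → ∀ (S N : Set E3) (P : Finset E3), IsMesh S R r P → IsSurf N →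
      (∀ y ∈ N, ‖y‖ ≤ R + 1 → TwoPt N y r₀ C) → HClose N S R (r / 16) →
      ∀ f G : E3 → ℝ, GradLe N (R + 1) f G →
        IntegrableOn (fun y => G y ^ 2 * gw y) (closedBall 0 (R + 1)) (c • area N) →
        ∫ y in closedBall (0 : E3) R, f y ^ 2 * gw y ∂(c • area N) ≤
          A * (r ^ 2 * ∫ y in closedBall (0 : E3) (R + 1), G y ^ 2 * gw y ∂(c • area N) +
            (r ^ 2)⁻¹ * ∑ p ∈ P, (∫ y, f y * bump p r y * gw y ∂(c • area N)) ^ 2)

/-- weak convergence and two-point bounds give closeness -/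
def CloseStmt : Prop :=
  ∀ (ι : Type) (l : Filter ι) (N : ι → Set E3) (S : Set E3) (R C r₀ : ℝ) (c : ℝ≥0), 0 < r₀ →
    0 < c → IsSurf S → (∀ᶠ i in l, IsSurf (N i) ∧ ∀ y ∈ N i, ‖y‖ ≤ R + 1 → TwoPt (N i) y r₀ C) →
    (∀ φ : E3 → ℝ, Continuous φ → HasCompactSupport φ →
      Tendsto (fun i => ∫ y, φ y ∂(c • area (N i))) l (𝓝 (∫ y, φ y ∂(c • area S)))) →
    ∀ ε : ℝ, 0 < ε → ∀ᶠ i in l, HClose (N i) S R ε

lemma gw_pos (x : E3) : 0 < gw x := Real.exp_pos _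

lemma gw_le_one (x : E3) : gw x ≤ 1 :=
  Real.exp_le_one_iff.2 (by have := sq_nonneg ‖x‖; linarith)

lemma continuous_gw : Continuous gw := by unfold gw; fun_prop

lemma contDiff_bump (p : E3) (r : ℝ) : ContDiff ℝ ∞ (bump p r) :=
  beta.contDiff.comp ((contDiff_id.sub contDiff_const).const_smul r⁻¹)

lemma continuous_bump (p : E3) (r : ℝ) : Continuous (bump p r) := (contDiff_bump p r).continuous

lemma bump_nonneg (p : E3) (r : ℝ) (y : E3) : 0 ≤ bump p r y := beta.nonneg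

lemma bump_le_one (p : E3) (r : ℝ) (y : E3) : bump p r y ≤ 1 := beta.le_one

lemma norm_scale {r : ℝ} (hr : 0 < r) (v : E3) : ‖r⁻¹ • v‖ = ‖v‖ / r := by
  rw [norm_smul, norm_inv, Real.norm_eq_abs, abs_of_pos hr, div_eq_inv_mul]

lemma bump_eq_one {p y : E3} {r : ℝ} (hr : 0 < r) (h : ‖y - p‖ ≤ r / 4) : bump p r y = 1 := by
  refine beta.one_of_mem_closedBall ?_
  rw [mem_closedBall_zero_iff, norm_scale hr, div_le_iff₀ hr]
  change _ ≤ 1 / 4 * r
  linarith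

lemma bump_eq_zero {p y : E3} {r : ℝ} (hr : 0 < r) (h : r / 2 ≤ ‖y - p‖) : bump p r y = 0 := by
  refine beta.zero_of_le_dist ?_
  rw [dist_zero_right, norm_scale hr, le_div_iff₀ hr]
  change 1 / 2 * r ≤ _
  linarith

lemma bump_self (p : E3) {r : ℝ} (hr : 0 < r) : bump p r p = 1 :=
  bump_eq_one hr (by rw [sub_self, norm_zero]; positivity)

lemma hasCompactSupport_bump (p : E3) {r : ℝ} (hr : 0 < r) : HasCompactSupport (bump p r) :=
  HasCompactSupport.intro (isCompact_closedBall p (r / 2)) fun _ hy =>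
    bump_eq_zero hr (not_le.1 (mt mem_closedBall_iff_norm.2 hy)).le

namespace IsMesh

variable {S : Set E3} {R r : ℝ} {P : Finset E3}

lemma bump_of_ne (h : IsMesh S R r P) (hr : 0 < r) {p q : E3} (hp : p ∈ P) (hq : q ∈ P)
    (hne : p ≠ q) : bump p r q = 0 :=
  bump_eq_zero hr (by have := h.sep q hq p hp hne.symm; linarith)

/-- the supports are disjoint -/
lemma bump_mul (h : IsMesh S R r P) (hr : 0 < r) {p q : E3} (hp : p ∈ P) (hq : q ∈ P)
    (hne : p ≠ q) (y : E3) : bump p r y * bump q r y = 0 := by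
  rcases le_or_gt (r / 2) ‖y - p‖ with h1 | h1
  · rw [bump_eq_zero hr h1, zero_mul]
  · have h2 := h.sep p hp q hq hne
    have h3 : ‖p - q‖ ≤ ‖y - q‖ + ‖y - p‖ := by
      rw [show p - q = (y - q) - (y - p) by abel]; exact norm_sub_le _ _
    rw [bump_eq_zero (p := q) hr (by linarith), mul_zero]

/-- the bumps are linearly independent on `S` -/
lemma indep (h : IsMesh S R r P) (hr : 0 < r) (κ : P → ℝ)
    (h0 : ∀ y ∈ S, ∑ p : P, κ p * bump p r y = 0) : κ = 0 := by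
  funext q
  have := h0 q (h.mem q q.2)
  rw [Finset.sum_eq_single q (fun p _ hp => by
    rw [h.bump_of_ne hr p.2 q.2 fun e => hp (Subtype.ext e), mul_zero]) (by simp),
    bump_self _ hr, mul_one] at this
  exact this

/-- the bumps vanish outside `ball 0 (R + 1)` -/
lemma bump_far (h : IsMesh S R r P) (hr : 0 < r) (hr1 : r ≤ 1) {p : E3} (hp : p ∈ P) {y : E3}
    (hy : R + 1 ≤ ‖y‖) : bump p r y = 0 := by
  refine bump_eq_zero hr ?_
  have h1 := h.norm_le p hp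
  have h2 := norm_sub_norm_le y p
  linarith

end IsMesh

lemma hClose_self (S : Set E3) (R : ℝ) {ε : ℝ} (hε : 0 ≤ ε) : HClose S S R ε :=
  ⟨fun y hy _ => ⟨y, hy, by simpa using hε⟩, fun y hy _ => ⟨y, hy, by simpa using hε⟩⟩

/-- ambient `C¹` functions -/
lemma gradLe_of_contDiff (N : Set E3) (R : ℝ) {f : E3 → ℝ} (hf : ContDiff ℝ 1 f) :
    GradLe N R f fun y => ‖pt (nu N y) (gradient f y)‖ :=
  fun _ _ _ => ⟨f, hf.contDiffAt, Eventually.of_forall fun _ _ => rfl, le_rfl⟩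

end Vale.Agent.P218F.Mesh
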