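import Vale.Agent.P218F.DynSpec
import Vale.Agent.P218F.MeshSpec
import Vale.Agent.P218FT.ConvSpec

/-! Block DYN: what the reduction has to deliver, and the static Lojasiewicz inequality. -/

open MeasureTheory Set Filter Topology Metric
open scoped ENNReal NNReal RealInnerProductSpace ContDiff

namespace Vale.Agent.P218F.Dyn

open Vale.Agent.P214 (proj divAlong)
open Vale.Agent.P218 Vale.Agent.P218.H313
open Vale.Agent.P218FT (E3 IsSurf IsEqn nu Hv relV TwoPt IsShr InC ssFlow)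
open Vale.Agent.P218F.Mesh (IsMesh bump NetStmt)

/-- `V₀` is a smooth truncated signed distance to `S` -/
structure TubeOf (S : Set E3) (V₀ : E3 → ℝ) (c₀ K₀ : ℝ) : Prop where
  tube : Tube0 V₀ c₀ K₀
  smooth : ContDiff ℝ ∞ V₀
  zero : zs V₀ = S
  dist : ∀ y, |V₀ y| < c₀ ∨ infDist y S < c₀ → |V₀ y| = infDist y S
  normal : ∀ p ∈ S, grad V₀ p = nu S p ∨ grad V₀ p = -nu S p

/-- **SHRBD**: uniform bounds on a shrinker of class `C(D, G)` -/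
def ShrBdStmt : Prop :=
  ∀ (D G : ℝ) (S : Set E3), IsShr S → InC D G (ssFlow S) (Iio 0) → ∃ r C K : ℝ, 0 < r ∧
    (∀ p ∈ S, TwoPt S p r C) ∧
    (∀ p ∈ S, ∃ w : E3 → ℝ, IsEqn S p w ∧ ‖gradient w p‖ = 1 ∧
      ‖fderiv ℝ (gradient w) p‖ ≤ K ∧ ‖fderiv ℝ (fderiv ℝ (gradient w)) p‖ ≤ K) ∧
    ∀ p ∈ S, |⟪p, nu S p⟫| ≤ K

/-- **LS**: the finite dimensional family. The constants `r, C, K` do not depend on the mesh; the
bumps of the mesh are among the functions `χ i`. -/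
def LSStmt : Prop :=
  ∀ (D G : ℝ) (S : Set E3), IsShr S → InC D G (ssFlow S) (Iio 0) → S.Nonempty →
    ∀ (V₀ : E3 → ℝ) (c₀ K₀ : ℝ), TubeOf S V₀ c₀ K₀ → ∃ r C K R₂ : ℝ, 0 < r ∧
      ∀ R : ℝ, R₂ ≤ R → ∃ r₂ : ℝ, 0 < r₂ ∧ ∀ ρ : ℝ, 0 < ρ → ρ ≤ r₂ →
        ∀ P : Finset E3, IsMesh S R ρ P →
          ∃ (X : Type) (_ : NormedAddCommGroup X) (_ : NormedSpace ℝ X)
            (_ : FiniteDimensional ℝ X) (ι : Type) (_ : Fintype ι) (e : P → ι) (Sx : X → Set E3)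
            (u : X → E3 → ℝ) (u' : X →ₗ[ℝ] (E3 → ℝ)) (χ : ι → E3 → ℝ) (kap : X → ι → ℝ)
            (L R₁ : ℝ) (q : ℕ) (β : ℝ), Function.Injective e ∧ (∀ p : P, χ (e p) = bump p ρ) ∧
            Geo S V₀ Sx u u' χ kap r C K L R₁ q β

/-- the slices have one sheet in every ball, eventually -/
def SheetEv (l : Filter ℝ) (N : ℝ → Measure E3) (T : ℝ → E3 → Submodule ℝ E3) : Prop :=
  ∀ R : ℝ, ∃ r C : ℝ, 0 < r ∧ ∀ᶠ s in l, Sheet (N s) (T s) R r C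

/-- the mesh Poincare inequality holds on the slices, eventually, for all fine meshes of `S` -/
def PoinEv (l : Filter ℝ) (N : ℝ → Measure E3) (T : ℝ → E3 → Submodule ℝ E3) (S : Set E3) : Prop :=
  ∀ R ε : ℝ, 0 < ε → ∃ r₁ : ℝ, 0 < r₁ ∧ ∀ ρ : ℝ, 0 < ρ → ρ ≤ r₁ → ∀ P : Finset E3,
    IsMesh S R ρ P → ∃ A : ℝ, ∀ᶠ s in l, PoinAt (N s) (T s) (fun p : P => bump p ρ) R ε A

/-- **The static Lojasiewicz inequality** for slices which converge to a shrinker -/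
def StaticStmt : Prop :=
  ∀ (D G : ℝ) (S : Set E3), IsShr S → InC D G (ssFlow S) (Iio 0) → S.Nonempty →
    ∀ (l : Filter ℝ) (N : ℝ → Measure E3) (T : ℝ → E3 → Submodule ℝ E3) (H : ℝ → E3 → E3),
      Cv l N T H (hm S) → SheetEv l N T → PoinEv l N T S →
      ∃ γ : ℝ, 1 / 2 < γ ∧ ∀ U : Ultrafilter ℝ, (U : Filter ℝ) ≤ l →
        Tendsto (fun s => dis (N s) (T s) (H s)) U (𝓝 0) →
        ∃ C : ℝ, ∀ᶠ s in (U : Filter ℝ), FA (N s) - FA (hm S) ≤ C * dis (N s) (T s) (H s) ^ γ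

lemma PoinAt.of_inj {μ : Measure E3} {T : E3 → Submodule ℝ E3} {ι ι' : Type} [Fintype ι]
    [Fintype ι'] {χ : ι → E3 → ℝ} {χ' : ι' → E3 → ℝ} {e : ι → ι'} (he : Function.Injective e)
    (hχ : ∀ p, χ' (e p) = χ p) {R ε A : ℝ} (h : PoinAt μ T χ R ε A) : PoinAt μ T χ' R ε |A| := by
  classical
  intro f hf
  refine (h f hf).trans (add_le_add_right ?_ _)
  have h1 : ∑ i, (∫ y, f y * χ i y * rho y ∂μ) ^ 2 ≤ ∑ i, (∫ y, f y * χ' i y * rho y ∂μ) ^ 2 := by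
    have h2 : ∑ i, (∫ y, f y * χ i y * rho y ∂μ) ^ 2
        = ∑ i ∈ Finset.univ.image e, (∫ y, f y * χ' i y * rho y ∂μ) ^ 2 := by
      rw [Finset.sum_image fun a _ b _ hab => he hab]
      simp only [hχ]
    rw [h2]
    exact Finset.sum_le_sum_of_subset_of_nonneg (Finset.subset_univ _) fun i _ _ => sq_nonneg _
  have h0 : 0 ≤ ∑ i, (∫ y, f y * χ i y * rho y ∂μ) ^ 2 := Finset.sum_nonneg fun i _ => sq_nonneg _
  exact mul_le_mul (le_abs_self A) h1 h0 (abs_nonneg A)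

lemma DD_nonneg' (μ : Measure E3) (W : E3 → ℝ) : 0 ≤ DD μ W 0 :=
  integral_nonneg fun x => mul_nonneg (by positivity) (rho_pos x).le

lemma TG_nonneg' (μ : Measure E3) (T : E3 → Submodule ℝ E3) (W : E3 → ℝ) : 0 ≤ TG μ T W 0 :=
  integral_nonneg fun x => mul_nonneg (mul_nonneg (wt_pos 0 x).le (sq_nonneg _)) (rho_pos x).le

lemma dis_nonneg' (μ : Measure E3) (T : E3 → Submodule ℝ E3) (H : E3 → E3) : 0 ≤ dis μ T H :=
  integral_nonneg fun x => mul_nonneg (sq_nonneg _) (rho_pos x).le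

/-- the inequality for one family of tube functions -/
theorem static_of_FT (h56 : ST56Stmt) {X : Type} [NormedAddCommGroup X] [NormedSpace ℝ X]
    {ι : Type} [Fintype ι] {V w : X → E3 → ℝ} {w' : X →ₗ[ℝ] (E3 → ℝ)} {χ : ι → E3 → ℝ}
    {kap : X → ι → ℝ} {c K L : ℝ} {q : ℕ} {β : ℝ} (hF : FT V w w' χ kap c K L q β)
    {U : Ultrafilter ℝ} {N : ℝ → Measure E3} {T : ℝ → E3 → Submodule ℝ E3} {H : ℝ → E3 → E3}
    (hC : Conv U 2 N T H (hm (zs (V 0)))) (hS : SheetEv U N T)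
    (hd : Tendsto (fun s => dis (N s) (T s) (H s)) U (𝓝 0)) {x : ℝ → X} {C : ℝ}
    (hx : Tendsto x U (𝓝 0))
    (h14 : ∀ᶠ s in (U : Filter ℝ), DD (N s) (V (x s)) 0 + TG (N s) (T s) (V (x s)) 0
      + ‖kap (x s)‖ ^ 2 ≤ C * dis (N s) (T s) (H s)) :
    ∃ C' : ℝ, ∀ᶠ s in (U : Filter ℝ), FA (N s) - FA (hm (zs (V 0)))
      ≤ C' * dis (N s) (T s) (H s) ^ (min (β / 2) (3 / 4)) := by
  obtain ⟨R, p, h1⟩ := h56 c K L q
  obtain ⟨r, C₀, hr, hSh⟩ := hS R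
  obtain ⟨M, hM⟩ := hC.mom p
  obtain ⟨C₁, h2⟩ := h1 r C₀ M hr
  have hB : ∀ i, ∃ B : ℝ, ∀ y, ‖χ i y‖ ≤ B := fun i =>
    (hF.chi i).2.exists_bound_of_continuous (hF.chi i).1.continuous
  choose B hB using hB
  have hB0 : ∀ i, 0 ≤ B i := fun i => (norm_nonneg _).trans (hB i 0)
  set κ : ℝ := ∑ i, B i + 1 with hκ
  have hκ1 : 1 ≤ κ := by
    have : 0 ≤ ∑ i, B i := Finset.sum_nonneg fun i _ => hB0 i
    linarith
  set A : ℝ := |C| * κ ^ 2 + 1 with hA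
  have hA0 : 0 < A := by positivity
  have hβ := hF.beta
  have hsmall : ∀ᶠ s in (U : Filter ℝ), A * dis (N s) (T s) (H s) ≤ 1 := by
    have h3 := hd.const_mul A
    rw [mul_zero] at h3
    exact h3.eventually (ge_mem_nhds one_pos)
  refine ⟨|C₁| * A ^ (3 / 4 : ℝ) + |L| * |C| ^ (β / 2), ?_⟩
  filter_upwards [hSh, hM, hC.sl, h14, hsmall, hx.eventually hF.tube, hx.eventually hF.slice,
    hx.eventually (hF.defect 1 one_pos), hx.eventually hF.loj] with s e1 e2 e3 e4 e5 e6 e7 e8 e9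
  set d := dis (N s) (T s) (H s) with hdd
  have hd0 : 0 ≤ d := dis_nonneg' _ _ _
  have hA1 : 1 ≤ A := by
    have : 0 ≤ |C| * κ ^ 2 := by positivity
    linarith
  have hd1 : d ≤ 1 := by nlinarith
  have g1 := DD_nonneg' (N s) (V (x s))
  have g2 := TG_nonneg' (N s) (T s) (V (x s))
  have g3 : C * d ≤ |C| * d := mul_le_mul_of_nonneg_right (le_abs_self C) hd0
  have hk : ∀ y, V (x s) y = 0 → |ee (V (x s)) y| ≤ κ * ‖kap (x s)‖ * (1 + ‖y‖) ^ q := by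
    intro y hy
    have f1 := e8 y hy
    have f2 : |∑ i, kap (x s) i * χ i y| ≤ (∑ i, B i) * ‖kap (x s)‖ := by
      rw [Finset.sum_mul]
      refine (Finset.abs_sum_le_sum_abs _ _).trans (Finset.sum_le_sum fun i _ => ?_)
      rw [abs_mul, mul_comm]
      exact mul_le_mul (hB i y) (norm_le_pi_norm (kap (x s)) i) (abs_nonneg _) (hB0 i)
    have f3 : 1 ≤ (1 + ‖y‖) ^ q := one_le_pow₀ (one_le_one_add_norm y)
    have f4 : 0 ≤ (∑ i, B i) * ‖kap (x s)‖ :=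
      mul_nonneg (Finset.sum_nonneg fun i _ => hB0 i) (norm_nonneg _)
    have f5 := abs_add_le (ee (V (x s)) y - ∑ i, kap (x s) i * χ i y) (∑ i, kap (x s) i * χ i y)
    rw [sub_add_cancel] at f5
    rw [hκ]
    nlinarith
  have hκ2 : 1 ≤ κ ^ 2 := one_le_pow₀ hκ1
  have f6 := h2 (V (x s)) e6 e7 (κ * ‖kap (x s)‖) (by positivity) hk (N s) (T s) (H s) e3 e1 e2
    (A * d) e5 (by
      rw [hA, mul_pow]
      have : (DD (N s) (V (x s)) 0 + TG (N s) (T s) (V (x s)) 0 + ‖kap (x s)‖ ^ 2) * κ ^ 2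
          ≤ |C| * d * κ ^ 2 := mul_le_mul_of_nonneg_right (e4.trans g3) (by positivity)
      nlinarith)
  set γ := min (β / 2) (3 / 4) with hγ
  have hγ0 : 0 < γ := lt_min (by linarith) (by norm_num)
  have p1 : d ^ (3 / 4 : ℝ) ≤ d ^ γ :=
    Real.rpow_le_rpow_of_exponent_ge' hd0 hd1 hγ0.le (min_le_right _ _)
  have p2 : d ^ (β / 2) ≤ d ^ γ :=
    Real.rpow_le_rpow_of_exponent_ge' hd0 hd1 hγ0.le (min_le_left _ _)
  have p3 : C₁ * (A * d) ^ (3 / 4 : ℝ) ≤ |C₁| * A ^ (3 / 4 : ℝ) * d ^ γ := by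
    rw [Real.mul_rpow hA0.le hd0, mul_assoc]
    refine mul_le_mul (le_abs_self _) ?_ (by positivity) (abs_nonneg _)
    gcongr
  have p4 : ‖kap (x s)‖ ^ β ≤ |C| ^ (β / 2) * d ^ γ := by
    have q1 : ‖kap (x s)‖ ^ β = (‖kap (x s)‖ ^ 2) ^ (β / 2) := by
      rw [← Real.rpow_natCast, ← Real.rpow_mul (norm_nonneg _)]
      congr 1; push_cast; ring
    have q2 : ‖kap (x s)‖ ^ 2 ≤ |C| * d := by linarith
    rw [q1]
    refine (Real.rpow_le_rpow (sq_nonneg _) q2 (by linarith)).trans ?_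
    rw [Real.mul_rpow (abs_nonneg _) hd0]
    gcongr
  have p5 : L * ‖kap (x s)‖ ^ β ≤ |L| * (|C| ^ (β / 2) * d ^ γ) :=
    mul_le_mul (le_abs_self _) p4 (by positivity) (abs_nonneg _)
  nlinarith

theorem exists_tubeOf (hB : ShrBdStmt) (hSD : SDStmt) {D G : ℝ} {S : Set E3} (hS : IsShr S)
    (hI : InC D G (ssFlow S) (Iio 0)) (hne : S.Nonempty) : ∃ V₀ c₀ K₀, TubeOf S V₀ c₀ K₀ := by
  obtain ⟨r, C, K, hr, h1, h2, h3⟩ := hB D G S hS hI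
  obtain ⟨c, K₁, -, h4⟩ := hSD r C K hr
  obtain ⟨L₁, h5⟩ := h4 K 0
  obtain ⟨V, h6, h7, h8, h9, h10⟩ := h5 S hS.1 hne h1 (by simpa using h2) h3
  exact ⟨V, c, K₁, h6.toTube0, h7, h8, h9, fun p hp => (h10 p hp).1⟩

/-- **Assembly of the static inequality.** -/
theorem static_of (hB : ShrBdStmt) (hSD : SDStmt) (hLS : LSStmt) (hG : GeoStmt) (h14 : ST14Stmt)
    (h56 : ST56Stmt) (hN : NetStmt) : StaticStmt := by
  intro D G S hS hI hne l N T H hCv hSh hP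
  obtain ⟨V₀, c₀, K₀, hV₀⟩ := exists_tubeOf hB hSD hS hI hne
  obtain ⟨r, C, K, R₂, hr, h1⟩ := hLS D G S hS hI hne V₀ c₀ K₀ hV₀
  obtain ⟨c, K₁, h2⟩ := hG r C K hr
  obtain ⟨ε₀, R₀, hε₀, h3⟩ := h14 c K₁
  obtain ⟨r₂, hr₂, h4⟩ := h1 (max R₀ R₂) (le_max_right _ _)
  obtain ⟨r₁, hr₁, h5⟩ := hP (max R₀ R₂) ε₀ hε₀
  have hρ : 0 < min r₁ r₂ := lt_min hr₁ hr₂
  obtain ⟨P, hP'⟩ := hN S (max R₀ R₂) _ hρ
  obtain ⟨X, i1, i2, i3, ι, i4, e, Sx, u, u', χ, kap, L, R₁, q, β, he, hχ, hGeo⟩ :=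
    h4 _ hρ (min_le_right _ _) P hP'
  obtain ⟨A, h6⟩ := h5 _ hρ (min_le_left _ _) P hP'
  obtain ⟨V, w, w', L₁, h7, hF⟩ := h2 S V₀ c₀ K₀ hne hV₀.tube hV₀.zero hV₀.dist X ι Sx u u' χ kap
    L R₁ q β hGeo
  have hβ := hF.beta
  refine ⟨min (β / 2) (3 / 4), lt_min (by linarith) (by norm_num), fun U hU hd => ?_⟩
  have hC : Conv U 2 N T H (hm (zs (V 0))) := by rw [h7]; exact hCv U hU
  obtain ⟨x, C', hx, h8⟩ := h3 X ι V w w' χ kap L₁ q β hF U N T H hC _ |A| (le_max_left _ _)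
    ((h6.filter_mono hU).mono fun s hs => hs.of_inj he hχ)
  have h9 := static_of_FT h56 hF hC (fun R => by
    obtain ⟨r', C'', h10, h11⟩ := hSh R
    exact ⟨r', C'', h10, h11.filter_mono hU⟩) hd hx h8
  rwa [h7] at h9

end Vale.Agent.P218F.Dyn
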