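import Mathlib.Analysis.ODE.ExistUnique
import Mathlib.Analysis.Calculus.ContDiff.RCLike
import Mathlib.Analysis.Calculus.Deriv.MeanValue
import Mathlib.Analysis.SpecialFunctions.ExpDeriv
import Mathlib.Analysis.SpecialFunctions.Trigonometric.ArctanDeriv
import Mathlib.Topology.Order.MonotoneContinuity

/-!
# P218F, block E2: the ODE of a self-shrinking plane curve

`p = <z, T>`, `h = -<z, N>`, `θ` the angle of the tangent `T`; the parameter is the arc length.
An embedded solution with `h > 0` is the circle of radius `√2`.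
-/

open Set Filter Topology Real

namespace Vale.Agent.P218F.E2

/-- The system `p' = 1 - h²/2`, `h' = h p / 2`, `θ' = h / 2`. -/
structure Sol (p h θ : ℝ → ℝ) : Prop where
  dp : ∀ s, HasDerivAt p (1 - h s ^ 2 / 2) s
  dh : ∀ s, HasDerivAt h (h s * p s / 2) s
  dθ : ∀ s, HasDerivAt θ (h s / 2) s

variable {p h θ : ℝ → ℝ}

theorem Sol.cp (S : Sol p h θ) : Continuous p :=
  continuous_iff_continuousAt.2 fun s => (S.dp s).continuousAt

theorem Sol.ch (S : Sol p h θ) : Continuous h :=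
  continuous_iff_continuousAt.2 fun s => (S.dh s).continuousAt

theorem Sol.cθ (S : Sol p h θ) : Continuous θ :=
  continuous_iff_continuousAt.2 fun s => (S.dθ s).continuousAt

theorem const_of_deriv {f : ℝ → ℝ} (hf : ∀ s, HasDerivAt f 0 s) (s t : ℝ) : f s = f t :=
  is_const_of_deriv_eq_zero (fun x => (hf x).differentiableAt) (fun x => (hf x).deriv) s t

theorem lt_of_deriv_pos {f f' : ℝ → ℝ} (hf : ∀ s, HasDerivAt f (f' s) s) {a b : ℝ} (hab : a < b)
    (hpos : ∀ s ∈ Ioo a b, 0 < f' s) : f a < f b := by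
  obtain ⟨c, hc, e⟩ := exists_hasDerivAt_eq_slope f f' hab
    (fun x _ => (hf x).continuousAt.continuousWithinAt) (fun x _ => hf x)
  have h1 := hpos c hc
  rw [e] at h1
  have := (div_pos_iff_of_pos_right (sub_pos.2 hab)).1 h1
  linarith

/-- The first integral. -/
theorem Sol.integral (S : Sol p h θ) (s : ℝ) :
    h s * exp (-(p s ^ 2 + h s ^ 2) / 4) = h 0 * exp (-(p 0 ^ 2 + h 0 ^ 2) / 4) := by
  refine const_of_deriv (f := fun s => h s * exp (-(p s ^ 2 + h s ^ 2) / 4)) (fun s => ?_) s 0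
  have h1 := (S.dh s).fun_mul
    (((((S.dp s).fun_pow 2).fun_add ((S.dh s).fun_pow 2)).fun_neg.div_const 4).exp)
  refine h1.congr_deriv ?_
  norm_num
  ring

theorem Sol.h_eq (S : Sol p h θ) (s : ℝ) :
    h s = h 0 * exp (-(p 0 ^ 2 + h 0 ^ 2) / 4) * exp ((p s ^ 2 + h s ^ 2) / 4) := by
  rw [← S.integral s, mul_assoc, ← exp_add]
  have : -(p s ^ 2 + h s ^ 2) / 4 + (p s ^ 2 + h s ^ 2) / 4 = 0 := by ring
  rw [this, exp_zero, mul_one]

/-- Bounds in the case `h 0 > 0`. -/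
theorem Sol.bounds (S : Sol p h θ) (h0 : 0 < h 0) :
    ∃ c M : ℝ, 0 < c ∧ ∀ s, c ≤ h s ∧ |h s| ≤ M ∧ |p s| ≤ M := by
  set c := h 0 * exp (-(p 0 ^ 2 + h 0 ^ 2) / 4) with hc
  have c0 : 0 < c := mul_pos h0 (exp_pos _)
  refine ⟨c, 4 / c, c0, fun s => ?_⟩
  have e := S.h_eq s
  rw [← hc] at e
  have h1 : (p s ^ 2 + h s ^ 2) / 4 + 1 ≤ exp ((p s ^ 2 + h s ^ 2) / 4) := add_one_le_exp _
  have h2 : c * ((p s ^ 2 + h s ^ 2) / 4 + 1) ≤ h s := by
    calc _ ≤ c * exp ((p s ^ 2 + h s ^ 2) / 4) := mul_le_mul_of_nonneg_left h1 c0.le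
      _ = h s := e.symm
  have h3 : c ≤ h s := by nlinarith [sq_nonneg (p s), sq_nonneg (h s)]
  have hs : 0 < h s := c0.trans_le h3
  have h4 : h s ≤ 4 / c := by
    rw [le_div_iff₀ c0]
    by_contra hcon
    push Not at hcon
    nlinarith [sq_nonneg (p s)]
  refine ⟨h3, by rwa [abs_of_pos hs], ?_⟩
  have h5 : c * p s ^ 2 ≤ 4 * (4 / c) := by nlinarith [sq_nonneg (h s)]
  have h6 : p s ^ 2 ≤ (4 / c) ^ 2 := by
    have : (4 / c) ^ 2 * c = 4 * (4 / c) := by field_simp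
    by_contra hcon
    push Not at hcon
    nlinarith
  exact abs_le_of_sq_le_sq' h6 (by positivity) |> fun h => abs_le.2 h

/-- Uniqueness for the system in `(p, h)`. -/
theorem unique {p h p' h' θ θ' : ℝ → ℝ} (S : Sol p h θ) (S' : Sol p' h' θ') {M : ℝ}
    (hb : ∀ s, |h s| ≤ M ∧ |p s| ≤ M) (hb' : ∀ s, |h' s| ≤ M ∧ |p' s| ≤ M) {t : ℝ}
    (e1 : p t = p' t) (e2 : h t = h' t) (s : ℝ) : p s = p' s ∧ h s = h' s := by
  let v : ℝ × ℝ → ℝ × ℝ := fun z => (1 - z.2 ^ 2 / 2, z.2 * z.1 / 2)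
  have hv : ContDiff ℝ 1 v := by
    unfold v
    fun_prop
  obtain ⟨K, hK⟩ := hv.locallyLipschitz.locallyLipschitzOn.exists_lipschitzOnWith_of_compact
    (isCompact_closedBall (0 : ℝ × ℝ) M)
  have key := ODE_solution_unique_univ (v := fun _ => v) (s := fun _ => Metric.closedBall 0 M)
    (K := K) (f := fun s => (p s, h s)) (g := fun s => (p' s, h' s)) (t₀ := t) (fun _ => hK)
    (fun s => ⟨(S.dp s).prodMk (S.dh s), by
      rw [mem_closedBall_zero_iff, Prod.norm_mk]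
      exact max_le (hb s).2 (hb s).1⟩)
    (fun s => ⟨(S'.dp s).prodMk (S'.dh s), by
      rw [mem_closedBall_zero_iff, Prod.norm_mk]
      exact max_le (hb' s).2 (hb' s).1⟩) (by rw [e1, e2])
  have := congrFun key s
  exact ⟨congrArg Prod.fst this, congrArg Prod.snd this⟩

theorem Sol.shift (S : Sol p h θ) (τ : ℝ) :
    Sol (fun s => p (s + τ)) (fun s => h (s + τ)) (fun s => θ (s + τ)) :=
  ⟨fun s => (S.dp (s + τ)).comp_add_const s τ, fun s => (S.dh (s + τ)).comp_add_const s τ,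
    fun s => (S.dθ (s + τ)).comp_add_const s τ⟩

theorem sol_circle : Sol (fun _ => 0) (fun _ => √2) (fun s => √2 / 2 * s) := by
  refine ⟨fun s => ?_, fun s => ?_, fun s => ?_⟩
  · have : (1 : ℝ) - √2 ^ 2 / 2 = 0 := by rw [sq_sqrt (by norm_num)]; norm_num
    rw [this]
    exact hasDerivAt_const s 0
  · simpa using hasDerivAt_const s (√2)
  · simpa using (hasDerivAt_id s).const_mul (√2 / 2)

/-- If the equilibrium is met once, the solution is the equilibrium. -/
theorem Sol.equil (S : Sol p h θ) (h0 : 0 < h 0) {t : ℝ} (e1 : p t = 0) (e2 : h t = √2) (s : ℝ) :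
    p s = 0 ∧ h s = √2 := by
  obtain ⟨c, M, -, hb⟩ := S.bounds h0
  have hM : √2 ≤ M := by
    have := (hb t).2.1
    rw [e2] at this
    exact (le_abs_self _).trans this
  have h2 : 0 ≤ √2 := sqrt_nonneg 2
  exact unique S sol_circle (M := M) (fun s => (hb s).2)
    (fun _ => ⟨by rwa [abs_of_nonneg h2], by simpa using h2.trans hM⟩) e1 e2 s

theorem Sol.strictMono (S : Sol p h θ) (hpos : ∀ s, 0 < h s) : StrictMono θ := fun _ _ hab =>
  lt_of_deriv_pos S.dθ hab fun s _ => half_pos (hpos s)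

/-- A function without zero on an open interval has a sign there. -/
theorem sign_of_ne {f : ℝ → ℝ} (hf : Continuous f) {a b : ℝ} (hne : ∀ s ∈ Ioo a b, f s ≠ 0) :
    (∀ s ∈ Ioo a b, 0 < f s) ∨ ∀ s ∈ Ioo a b, f s < 0 := by
  by_contra hcon
  push Not at hcon
  obtain ⟨⟨s, hs, h1⟩, ⟨t, ht, h2⟩⟩ := hcon
  obtain ⟨u, hu, e⟩ := isPreconnected_Ioo.intermediate_value hs ht hf.continuousOn ⟨h1, h2⟩
  exact hne u hu e

theorem nonneg_ends {f : ℝ → ℝ} (hf : Continuous f) {a b : ℝ} (hab : a < b)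
    (hpos : ∀ s ∈ Ioo a b, 0 < f s) : 0 ≤ f a ∧ 0 ≤ f b := by
  have hc : IsClosed {s | 0 ≤ f s} := isClosed_le continuous_const hf
  have : closure (Ioo a b) ⊆ {s | 0 ≤ f s} := hc.closure_subset_iff.2 fun s hs => (hpos s hs).le
  rw [closure_Ioo hab.ne] at this
  exact ⟨this (left_mem_Icc.2 hab.le), this (right_mem_Icc.2 hab.le)⟩

/-- First Sturm comparison: an interval over which the tangent turns by `π` contains a zero
of `p`. -/
theorem Sol.sturm1 (S : Sol p h θ) (hpos : ∀ s, 0 < h s) {a b : ℝ} (hab : a < b)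
    (e : θ b = θ a + π) : ∃ s ∈ Ioo a b, p s = 0 := by
  by_contra hcon
  push Not at hcon
  have hm := S.strictMono hpos
  have hF : ∀ s, HasDerivAt (fun s => (2 / h s - h s) * sin (θ s - θ a) - p s * cos (θ s - θ a))
      (-(p s / h s) * sin (θ s - θ a)) s := fun s => by
    have h1 := (((hasDerivAt_const s (2 : ℝ)).fun_div (S.dh s) (hpos s).ne').fun_sub
      (S.dh s)).fun_mul ((S.dθ s).sub_const (θ a)).sin
    have h2 := (S.dp s).fun_mul ((S.dθ s).sub_const (θ a)).cos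
    refine (h1.fun_sub h2).congr_deriv ?_
    have := (hpos s).ne'
    field_simp
    ring
  have hsin : ∀ s ∈ Ioo a b, 0 < sin (θ s - θ a) := fun s hs =>
    sin_pos_of_pos_of_lt_pi (sub_pos.2 (hm hs.1)) (by have := hm hs.2; linarith)
  have eb : θ b - θ a = π := by linarith
  rcases sign_of_ne S.cp hcon with hp | hp
  · have h1 := lt_of_deriv_pos (fun s => (hF s).neg) hab fun s hs => by
      have := mul_pos (div_pos (hp s hs) (hpos s)) (hsin s hs)
      linarith
    simp only [Pi.neg_apply, sub_self, sin_zero, cos_zero, eb, sin_pi, cos_pi] at h1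
    have := nonneg_ends S.cp hab hp
    linarith [this.1, this.2]
  · have h1 := lt_of_deriv_pos hF hab fun s hs => by
      have := mul_pos (div_pos (neg_pos.2 (hp s hs)) (hpos s)) (hsin s hs)
      rw [neg_div] at this
      exact this
    simp only [sub_self, sin_zero, cos_zero, eb, sin_pi, cos_pi] at h1
    have := nonneg_ends S.cp.neg hab fun s hs => neg_pos.2 (hp s hs)
    simp only [Pi.neg_apply] at this
    linarith [this.1, this.2]

theorem deriv_nonpos_of_left {f : ℝ → ℝ} {f' a b : ℝ} (hf : HasDerivAt f f' b) (hab : a < b)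
    (hb : f b = 0) (hpos : ∀ s ∈ Ioo a b, 0 < f s) : f' ≤ 0 := by
  have h1 := hasDerivAt_iff_tendsto_slope.1 hf
  have h2 : Tendsto (slope f b) (𝓝[<] b) (𝓝 f') :=
    h1.mono_left (nhdsWithin_mono _ fun s hs => ne_of_lt hs)
  refine le_of_tendsto h2 ?_
  filter_upwards [Ioo_mem_nhdsLT hab] with s hs
  rw [slope_def_field, hb, sub_zero]
  exact (div_neg_of_pos_of_neg (hpos s hs) (sub_neg.2 hs.2)).le

/-- Second Sturm comparison: between consecutive zeros of `p` the tangent turns by more than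
`π / 2`. -/
theorem Sol.sturm2 (S : Sol p h θ) (hpos : ∀ s, 0 < h s) {a b : ℝ} (hab : a < b) (ha : p a = 0)
    (hb : p b = 0) (hne : ∀ s ∈ Ioo a b, p s ≠ 0) : θ a + π / 2 < θ b := by
  by_contra hcon
  push Not at hcon
  have hm := S.strictMono hpos
  have hG : ∀ s, HasDerivAt (fun s => (2 * p s ^ 2 + 4 - 2 * h s ^ 2) * sin (2 * (θ s - θ a)) -
      4 * (h s * p s) * cos (2 * (θ s - θ a))) (4 * p s * sin (2 * (θ s - θ a))) s := fun s => by
    have h0 := ((S.dθ s).sub_const (θ a)).const_mul 2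
    have h1 := (((((S.dp s).fun_pow 2).const_mul 2).add_const 4).fun_sub
      (((S.dh s).fun_pow 2).const_mul 2)).fun_mul h0.sin
    have h2 := (((S.dh s).fun_mul (S.dp s)).const_mul 4).fun_mul h0.cos
    refine (h1.fun_sub h2).congr_deriv ?_
    norm_num
    ring
  have hsin : ∀ s ∈ Ioo a b, 0 < sin (2 * (θ s - θ a)) := fun s hs =>
    sin_pos_of_pos_of_lt_pi (by have := hm hs.1; linarith) (by have := hm hs.2; linarith)
  have hsb : 0 ≤ sin (2 * (θ b - θ a)) :=
    sin_nonneg_of_nonneg_of_le_pi (by have := hm hab; linarith) (by linarith)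
  rcases sign_of_ne S.cp hne with hp | hp
  · have h1 := lt_of_deriv_pos hG hab fun s hs => by
      have := mul_pos (hp s hs) (hsin s hs)
      linarith
    simp only [sub_self, mul_zero, sin_zero, ha, hb] at h1
    have h2 := deriv_nonpos_of_left (S.dp b) hab hb hp
    nlinarith
  · have h1 := lt_of_deriv_pos (fun s => (hG s).neg) hab fun s hs => by
      have := mul_pos (neg_pos.2 (hp s hs)) (hsin s hs)
      linarith
    simp only [Pi.neg_apply, sub_self, mul_zero, sin_zero, ha, hb] at h1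
    have h2 := deriv_nonpos_of_left (S.dp b).neg hab (by simp [hb])
      fun s hs => neg_pos.2 (hp s hs)
    nlinarith

theorem Sol.reach (S : Sol p h θ) {c : ℝ} (c0 : 0 < c) (hc : ∀ s, c ≤ h s) (a : ℝ) {d : ℝ}
    (hd : 0 < d) : ∃ b, a < b ∧ θ b = θ a + d := by
  have hpos : ∀ s, 0 < h s := fun s => c0.trans_le (hc s)
  have hT : 0 < 4 * d / c := by positivity
  have h1 := lt_of_deriv_pos (f := fun s => θ s - c / 4 * s) (f' := fun s => h s / 2 - c / 4)
    (fun s => ((S.dθ s).fun_sub ((hasDerivAt_id' s).const_mul (c / 4))).congr_deriv (by ring))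
    (show a < a + 4 * d / c by linarith) fun s _ => by have := hc s; linarith
  have h2 : c / 4 * (a + 4 * d / c) = c / 4 * a + d := by field_simp
  obtain ⟨b, hb, e⟩ := intermediate_value_Icc (show a ≤ a + 4 * d / c by linarith)
    S.cθ.continuousOn (show θ a + d ∈ Icc (θ a) (θ (a + 4 * d / c)) from ⟨by linarith, by linarith⟩)
  refine ⟨b, lt_of_le_of_ne hb.1 ?_, e⟩
  rintro rfl
  linarith

theorem pos_right {f : ℝ → ℝ} {f' a : ℝ} (hf : HasDerivAt f f' a) (ha : f a = 0) (h0 : 0 < f') :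
    ∃ δ > 0, ∀ s ∈ Ioo a (a + δ), 0 < f s := by
  have h1 := hasDerivAt_iff_tendsto_slope.1 hf
  have h2 : Tendsto (slope f a) (𝓝[>] a) (𝓝 f') :=
    h1.mono_left (nhdsWithin_mono _ fun s hs => ne_of_gt hs)
  obtain ⟨u, hu, h3⟩ := mem_nhdsGT_iff_exists_Ioo_subset.1 (h2.eventually (lt_mem_nhds h0))
  refine ⟨u - a, sub_pos.2 hu, fun s hs => ?_⟩
  have h4 : 0 < slope f a s := h3 ⟨hs.1, by linarith [hs.2]⟩
  rw [slope_def_field, ha, sub_zero] at h4
  exact (div_pos_iff_of_pos_right (sub_pos.2 hs.1)).1 h4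

/-- The next zero of `p`. -/
theorem Sol.next (S : Sol p h θ) (h0 : 0 < h 0) (hne : ∀ s, p s = 0 → 1 - h s ^ 2 / 2 ≠ 0)
    {a : ℝ} (ha : p a = 0) :
    ∃ b, a < b ∧ p b = 0 ∧ (∀ s ∈ Ioo a b, p s ≠ 0) ∧ θ a + π / 2 < θ b ∧ θ b < θ a + π ∧
      (1 - h a ^ 2 / 2) * (1 - h b ^ 2 / 2) < 0 := by
  obtain ⟨c, M, c0, hb⟩ := S.bounds h0
  have hpos : ∀ s, 0 < h s := fun s => c0.trans_le (hb s).1
  obtain ⟨a', ha', e⟩ := S.reach c0 (fun s => (hb s).1) a pi_pos
  obtain ⟨z, hz, hz0⟩ := S.sturm1 hpos ha' e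
  obtain ⟨δ, δ0, hδ⟩ : ∃ δ > 0, ∀ s ∈ Ioo a (a + δ), 0 < (1 - h a ^ 2 / 2) * p s := by
    refine pos_right ((S.dp a).const_mul (1 - h a ^ 2 / 2)) (by rw [ha, mul_zero]) ?_
    exact mul_self_pos.2 (hne a ha)
  let Z : Set ℝ := {s | a + δ ≤ s ∧ p s = 0}
  have hZc : IsClosed Z := (isClosed_le continuous_const continuous_id).inter
    (isClosed_eq S.cp continuous_const)
  have hzZ : z ∈ Z := ⟨by
    by_contra hcon
    push Not at hcon
    have := hδ z ⟨hz.1, hcon⟩
    rw [hz0, mul_zero] at this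
    exact lt_irrefl _ this, hz0⟩
  have hbd : BddBelow Z := ⟨a + δ, fun s hs => hs.1⟩
  have hb' := hZc.csInf_mem ⟨z, hzZ⟩ hbd
  set b := sInf Z with hbdef
  have hab : a < b := by linarith [hb'.1]
  have hno : ∀ s ∈ Ioo a b, p s ≠ 0 := fun s hs hs0 => by
    by_cases h1 : s < a + δ
    · have := hδ s ⟨hs.1, h1⟩
      rw [hs0, mul_zero] at this
      exact lt_irrefl _ this
    · exact absurd (csInf_le hbd ⟨not_lt.1 h1, hs0⟩) (not_le.2 hs.2)
  refine ⟨b, hab, hb'.2, hno, S.sturm2 hpos hab ha hb'.2 hno, ?_, ?_⟩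
  · rw [← e]
    exact S.strictMono hpos ((csInf_le hbd hzZ).trans_lt hz.2)
  · have hsg : ∀ s ∈ Ioo a b, 0 < (1 - h a ^ 2 / 2) * p s := by
      rcases sign_of_ne (f := fun s => (1 - h a ^ 2 / 2) * p s) (continuous_const.mul S.cp)
        (fun s hs => mul_ne_zero (hne a ha) (hno s hs)) with h1 | h1
      · exact h1
      · have h2 : a + δ / 2 ∈ Ioo a b := ⟨by linarith, by linarith [hb'.1]⟩
        exact absurd (h1 _ h2) (not_lt.2 (hδ _ ⟨by linarith, by linarith⟩).le)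
    have h1 := deriv_nonpos_of_left ((S.dp b).const_mul (1 - h a ^ 2 / 2)) hab
      (by rw [hb'.2, mul_zero]) hsg
    exact lt_of_le_of_ne h1 (mul_ne_zero (hne a ha) (hne b hb'.2))

/-- A solution which is not the equilibrium has no period over which the tangent turns by
`2π`. -/
theorem Sol.no_period (S : Sol p h θ) (h0 : 0 < h 0) (hne : ∀ s, p s = 0 → 1 - h s ^ 2 / 2 ≠ 0)
    {τ : ℝ} (e1 : ∀ s, p (s + τ) = p s) (e2 : ∀ s, h (s + τ) = h s)
    (e3 : ∀ s, θ (s + τ) = θ s + 2 * π) : False := by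
  obtain ⟨c, M, c0, hb⟩ := S.bounds h0
  have hpos : ∀ s, 0 < h s := fun s => c0.trans_le (hb s).1
  have hm := S.strictMono hpos
  obtain ⟨a', ha', e⟩ := S.reach c0 (fun s => (hb s).1) 0 pi_pos
  obtain ⟨s0, -, z0⟩ := S.sturm1 hpos ha' e
  obtain ⟨s1, -, z1, -, l1, u1, g1⟩ := S.next h0 hne z0
  obtain ⟨s2, -, z2, -, l2, u2, g2⟩ := S.next h0 hne z1
  obtain ⟨s3, -, z3, n3, l3, -, g3⟩ := S.next h0 hne z2
  obtain ⟨s4, -, -, n4, l4, -, -⟩ := S.next h0 hne z3
  have z5 : p (s0 + τ) = 0 := by rw [e1, z0]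
  have a2 : s2 < s0 + τ := hm.lt_iff_lt.1 (by rw [e3]; linarith)
  have a4 : s0 + τ < s4 := hm.lt_iff_lt.1 (by rw [e3]; linarith)
  have a3 : s0 + τ = s3 := by
    rcases lt_trichotomy (s0 + τ) s3 with h1 | h1 | h1
    · exact absurd z5 (n3 _ ⟨a2, h1⟩)
    · exact h1
    · exact absurd z5 (n4 _ ⟨h1, a4⟩)
  rw [← a3, e2] at g3
  generalize 1 - h s0 ^ 2 / 2 = x at g1 g3
  generalize 1 - h s1 ^ 2 / 2 = y at g1 g2
  generalize 1 - h s2 ^ 2 / 2 = z at g2 g3
  have h1 : 0 < x * y * (y * z) := mul_pos_of_neg_of_neg g1 g2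
  have h2 : y ^ 2 * (z * x) ≤ 0 := mul_nonpos_of_nonneg_of_nonpos (sq_nonneg y) g3.le
  nlinarith

/-- The maximum and the minimum of `h`. -/
theorem Sol.extrema (S : Sol p h θ) (h0 : 0 < h 0) (hne : ∀ s, p s = 0 → 1 - h s ^ 2 / 2 ≠ 0) :
    (∃ a, ∀ s, h s ≤ h a) ∧ ∃ a, ∀ s, h a ≤ h s := by
  obtain ⟨c, M, c0, hb⟩ := S.bounds h0
  have hpos : ∀ s, 0 < h s := fun s => c0.trans_le (hb s).1
  obtain ⟨a', ha', e⟩ := S.reach c0 (fun s => (hb s).1) 0 pi_pos
  obtain ⟨s0, -, z0⟩ := S.sturm1 hpos ha' e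
  obtain ⟨s1, -, z1, -, -, -, g1⟩ := S.next h0 hne z0
  have hk : ∀ u : ℝ, HasDerivAt (fun u : ℝ => u * exp (-u ^ 2 / 4))
      ((1 - u ^ 2 / 2) * exp (-u ^ 2 / 4)) u := fun u => by
    refine ((hasDerivAt_id' u).fun_mul
      (((hasDerivAt_id' u).fun_pow 2).fun_neg.div_const 4).exp).congr_deriv ?_
    norm_num
    ring
  have hE : ∀ a s, p a = 0 → h a * exp (-h a ^ 2 / 4) ≤ h s * exp (-h s ^ 2 / 4) := fun a s ha => by
    have e1 := (S.integral a).trans (S.integral s).symm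
    rw [ha] at e1
    have e2 : -((0 : ℝ) ^ 2 + h a ^ 2) / 4 = -h a ^ 2 / 4 := by ring
    rw [e2] at e1
    rw [e1]
    exact mul_le_mul_of_nonneg_left (exp_le_exp.2 (by nlinarith [sq_nonneg (p s)])) (hpos s).le
  have hmax : ∀ a, p a = 0 → 1 - h a ^ 2 / 2 < 0 → ∀ s, h s ≤ h a := fun a ha hs s => by
    by_contra hcon
    push Not at hcon
    have h1 := lt_of_deriv_pos (fun u => (hk u).fun_neg) hcon fun u hu => by
      have h2 : 1 - u ^ 2 / 2 < 0 := by nlinarith [hu.1, hpos a]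
      exact neg_pos.2 (mul_neg_of_neg_of_pos h2 (exp_pos _))
    linarith [hE a s ha]
  have hmin : ∀ a, p a = 0 → 0 < 1 - h a ^ 2 / 2 → ∀ s, h a ≤ h s := fun a ha hs s => by
    by_contra hcon
    push Not at hcon
    have h1 := lt_of_deriv_pos hk hcon fun u hu => by
      have h2 : 0 < 1 - u ^ 2 / 2 := by nlinarith [hu.1, hu.2, hpos s]
      exact mul_pos h2 (exp_pos _)
    linarith [hE a s ha]
  rcases mul_neg_iff.1 g1 with ⟨h1, h2⟩ | ⟨h1, h2⟩
  · exact ⟨⟨s1, hmax s1 z1 h2⟩, s0, hmin s0 z0 h1⟩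
  · exact ⟨⟨s0, hmax s0 z0 h1⟩, s1, hmin s1 z1 h2⟩

theorem polar {p h : ℝ} (hh : 0 < h) :
    h = √(p ^ 2 + h ^ 2) * cos (arctan (p / h)) ∧ p = √(p ^ 2 + h ^ 2) * sin (arctan (p / h)) := by
  have h1 : √(p ^ 2 + h ^ 2) = h * √(1 + (p / h) ^ 2) := by
    rw [← sqrt_sq hh.le, ← sqrt_mul (sq_nonneg h), sqrt_sq hh.le]
    congr 1
    field_simp
    ring
  have h2 : 0 < √(1 + (p / h) ^ 2) := sqrt_pos.2 (by positivity)
  rw [h1, cos_arctan, sin_arctan]
  constructor <;> field_simp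

/-- **An embedded solution with `h > 0` is the circle.** -/
theorem Sol.core (S : Sol p h θ) (h0 : 0 < h 0)
    (emb : ∀ s t, p s * cos (θ s) + h s * sin (θ s) = p t * cos (θ t) + h t * sin (θ t) →
      p s * sin (θ s) - h s * cos (θ s) = p t * sin (θ t) - h t * cos (θ t) →
      cos (θ s) * sin (θ t) - sin (θ s) * cos (θ t) = 0) : p 0 = 0 ∧ h 0 = √2 := by
  by_contra hcon
  obtain ⟨c, M, c0, hb⟩ := S.bounds h0
  have hpos : ∀ s, 0 < h s := fun s => c0.trans_le (hb s).1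
  have hne : ∀ s, p s = 0 → 1 - h s ^ 2 / 2 ≠ 0 := fun s hs h1 => by
    refine hcon (S.equil h0 hs ?_ 0)
    rw [← sqrt_sq (hpos s).le]
    congr 1
    linarith
  let φ : ℝ → ℝ := fun s => θ s + arctan (p s / h s)
  have dφ : ∀ s, HasDerivAt φ (h s / (p s ^ 2 + h s ^ 2)) s := fun s => by
    refine ((S.dθ s).fun_add ((S.dp s).fun_div (S.dh s) (hpos s).ne').arctan).congr_deriv ?_
    have := (hpos s).ne'
    have h2 : p s ^ 2 + h s ^ 2 ≠ 0 := by have := hpos s; positivity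
    field_simp
    ring
  have cφ : Continuous φ := continuous_iff_continuousAt.2 fun s => (dφ s).continuousAt
  have mφ : StrictMono φ := fun _ _ hab =>
    lt_of_deriv_pos dφ hab fun s _ => by have := hpos s; positivity
  have hθ : StrictMono fun s => θ s - c / 4 * s := fun _ _ hab =>
    lt_of_deriv_pos (f' := fun s => h s / 2 - c / 4)
      (fun s => ((S.dθ s).fun_sub ((hasDerivAt_id' s).const_mul (c / 4))).congr_deriv (by ring))
      hab fun s _ => by have := (hb s).1; linarith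
  have sφ : Function.Surjective φ := fun y => by
    set A := 4 * (|y| + |θ 0| + π) / c with hA
    have A0 : 0 < A := by have := pi_pos; positivity
    have eA : c / 4 * A = |y| + |θ 0| + π := by rw [hA]; field_simp
    have h1 := hθ A0
    have h2 := hθ (neg_lt_zero.2 A0)
    simp only [mul_zero, sub_zero, mul_neg, sub_neg_eq_add] at h1 h2
    refine mem_range_of_exists_le_of_exists_ge cφ ⟨-A, ?_⟩ ⟨A, ?_⟩
    · have := arctan_lt_pi_div_two (p (-A) / h (-A))
      change θ (-A) + _ ≤ y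
      linarith [neg_abs_le y, le_abs_self (θ 0), pi_pos]
    · have := neg_pi_div_two_lt_arctan (p A / h A)
      change y ≤ θ A + _
      linarith [le_abs_self y, neg_abs_le (θ 0), pi_pos]
  let Φ := mφ.orderIsoOfSurjective φ sφ
  let t : ℝ → ℝ := fun s => Φ.symm (φ s + 2 * π)
  have ct : Continuous t := Φ.symm.continuous.comp (cφ.add continuous_const)
  have et : ∀ s, φ (t s) = φ s + 2 * π := fun s => Φ.apply_symm_apply _
  obtain ⟨⟨a, ha⟩, ⟨b, hb2⟩⟩ := S.extrema h0 hne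
  obtain ⟨s, hs⟩ := mem_range_of_exists_le_of_exists_ge (f := fun s => h (t s) - h s) (c := 0)
    ((S.ch.comp ct).sub S.ch) ⟨a, sub_nonpos.2 (ha _)⟩ ⟨b, sub_nonneg.2 (hb2 _)⟩
  have e1 : h (t s) = h s := sub_eq_zero.1 hs
  have e2 : p (t s) ^ 2 + h (t s) ^ 2 = p s ^ 2 + h s ^ 2 := by
    have h1 := (S.integral (t s)).trans (S.integral s).symm
    rw [e1] at h1 ⊢
    have h2 := exp_injective (mul_left_cancel₀ (hpos s).ne' h1)
    linarith
  have z1 : ∀ u, p u * cos (θ u) + h u * sin (θ u) = √(p u ^ 2 + h u ^ 2) * sin (φ u) := fun u => by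
    obtain ⟨h1, h2⟩ := polar (p := p u) (hpos u)
    change _ = _ * sin (θ u + _)
    rw [sin_add]
    linear_combination cos (θ u) * h2 + sin (θ u) * h1
  have z2 : ∀ u, p u * sin (θ u) - h u * cos (θ u) = -(√(p u ^ 2 + h u ^ 2) * cos (φ u)) :=
    fun u => by
    obtain ⟨h1, h2⟩ := polar (p := p u) (hpos u)
    change _ = -(_ * cos (θ u + _))
    rw [cos_add]
    linear_combination sin (θ u) * h2 - cos (θ u) * h1
  have w1 : p s * cos (θ s) + h s * sin (θ s) =
      p (t s) * cos (θ (t s)) + h (t s) * sin (θ (t s)) := by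
    rw [z1, z1, et, e2, sin_add_two_pi]
  have w2 : p s * sin (θ s) - h s * cos (θ s) =
      p (t s) * sin (θ (t s)) - h (t s) * cos (θ (t s)) := by
    rw [z2, z2, et, e2, cos_add_two_pi]
  have w3 := emb s (t s) w1 w2
  have q1 := sin_sq_add_cos_sq (θ s)
  have q2 := sin_sq_add_cos_sq (θ (t s))
  have w4 : h s * (1 - (cos (θ s) * cos (θ (t s)) + sin (θ s) * sin (θ (t s)))) = 0 := by
    rw [e1] at w1 w2
    linear_combination sin (θ s) * w1 - cos (θ s) * w2 - h s * q1 - p (t s) * w3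
  have w5 : cos (θ s) * cos (θ (t s)) + sin (θ s) * sin (θ (t s)) = 1 := by
    have := (mul_eq_zero.1 w4).resolve_left (hpos s).ne'
    linarith
  have e3 : p (t s) = p s := by
    linear_combination -cos (θ s) * w1 - sin (θ s) * w2 + p s * q1 - p (t s) * w5 - h (t s) * w3
  have e4 : θ (t s) = θ s + 2 * π := by
    have := et s
    change θ (t s) + arctan (p (t s) / h (t s)) = θ s + arctan (p s / h s) + 2 * π at this
    rw [e1, e3] at this
    linarith
  have S' := S.shift (t s - s)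
  have per := unique S' S (M := M) (fun u => (hb _).2) (fun u => (hb u).2) (t := s)
    (by simpa using e3) (by simpa using e1)
  refine S.no_period h0 hne (τ := t s - s) (fun u => (per u).1) (fun u => (per u).2) fun u => ?_
  have := const_of_deriv (f := fun u => θ (u + (t s - s)) - θ u)
    (fun u => ((S'.dθ u).fun_sub (S.dθ u)).congr_deriv (by rw [(per u).2]; ring)) u s
  simp only [add_sub_cancel] at this
  linarith

end Vale.Agent.P218F.E2
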