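import Vale.Agent.P218F.E2Core
import Mathlib.Analysis.SpecialFunctions.Complex.Arg
import Mathlib.Analysis.SpecialFunctions.Sqrt

/-!
# P218F, block E2: properly embedded self-shrinking plane curves

A closed subset of the plane which is locally the zero set of a `C²` submersion satisfying the
shrinker equation is empty, a line through the origin, or the circle of radius `√2`.
-/

open Set Filter Topology Real Metric
open scoped NNReal

namespace Vale.Agent.P218F.E2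

section ODE

variable {E : Type*} [NormedAddCommGroup E] [NormedSpace ℝ E]

theorem uniq_ev {G : E → E} (hG : ContDiff ℝ 1 G) {f g : ℝ → E} {t : ℝ}
    (hf : ∀ᶠ s in 𝓝 t, HasDerivAt f (G (f s)) s) (hg : ∀ᶠ s in 𝓝 t, HasDerivAt g (G (g s)) s)
    (e : f t = g t) : f =ᶠ[𝓝 t] g := by
  obtain ⟨K, U, hU, hK⟩ := (hG.contDiffAt (x := f t)).exists_lipschitzOnWith
  exact ODE_solution_unique_of_eventually (v := fun _ => G) (s := fun _ => U) (K := K)
    (Eventually.of_forall fun _ => hK) (hf.and (hf.self_of_nhds.continuousAt hU))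
    (hg.and (hg.self_of_nhds.continuousAt (by rw [← e]; exact hU))) e

theorem uniq_Ioo {G : E → E} (hG : ContDiff ℝ 1 G) {f g : ℝ → E} {T : ℝ}
    (hf : ∀ s ∈ Ioo (-T) T, HasDerivAt f (G (f s)) s)
    (hg : ∀ s ∈ Ioo (-T) T, HasDerivAt g (G (g s)) s) (e : f 0 = g 0) {t : ℝ}
    (ht : t ∈ Ioo (-T) T) : f t = g t := by
  have h0 : (0 : ℝ) ∈ Ioo (-T) T := ⟨by linarith [ht.1, ht.2], by linarith [ht.1, ht.2]⟩
  have loc : ∀ s ∈ Ioo (-T) T, f s = g s → f =ᶠ[𝓝 s] g := fun s hs es =>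
    uniq_ev hG (Filter.eventually_of_mem (Ioo_mem_nhds hs.1 hs.2) hf)
      (Filter.eventually_of_mem (Ioo_mem_nhds hs.1 hs.2) hg) es
  have key := isPreconnected_Ioo.subset_of_closure_inter_subset (u := {s | f =ᶠ[𝓝 s] g})
    isOpen_setOfPred_eventually_nhds ⟨0, h0, loc 0 h0 e⟩ (fun s hs => loc s hs.2 (by
      have h1 : ∃ᶠ u in 𝓝 s, f u = g u :=
        (mem_closure_iff_frequently.1 hs.1).mono fun u hu => hu.self_of_nhds
      exact tendsto_nhds_unique_of_frequently_eq (hf s hs.2).continuousAt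
        (hg s hs.2).continuousAt h1))
  exact (key ht).self_of_nhds

theorem glue {G : E → E} (hG : ContDiff ℝ 1 G) {x : E}
    (hT : ∀ T : ℝ, 0 < T → ∃ f : ℝ → E, f 0 = x ∧ ∀ s ∈ Ioo (-T) T, HasDerivAt f (G (f s)) s) :
    ∃ f : ℝ → E, f 0 = x ∧ ∀ s, HasDerivAt f (G (f s)) s := by
  choose! f hf0 hf using hT
  have hag : ∀ s T : ℝ, |s| + 1 ≤ T → f (|s| + 1) s = f T s := fun s T hs => by
    have h1 : 0 < |s| + 1 := by positivity
    refine uniq_Ioo hG (hf _ h1) (fun u hu => hf T (by linarith) u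
      ⟨by linarith [hu.1], by linarith [hu.2]⟩) ((hf0 _ h1).trans (hf0 T (by linarith)).symm)
      ⟨by linarith [neg_abs_le s], by linarith [le_abs_self s]⟩
  refine ⟨fun s => f (|s| + 1) s, hf0 _ (by positivity), fun s => ?_⟩
  have h1 := hf (|s| + 2) (by positivity) s
    ⟨by linarith [neg_abs_le s], by linarith [le_abs_self s]⟩
  beta_reduce
  rw [hag s (|s| + 2) (by linarith)]
  refine h1.congr_of_eventuallyEq ?_
  filter_upwards [(continuous_abs.tendsto s).eventually (gt_mem_nhds (lt_add_one |s|))] with u hu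
  exact hag u _ (by linarith)

end ODE

/-- the vector field of a shrinking curve, in the position and the angle of the tangent -/
noncomputable def fld (q : ℝ × ℝ × ℝ) : ℝ × ℝ × ℝ :=
  (cos q.2.2, sin q.2.2, (q.1 * sin q.2.2 - q.2.1 * cos q.2.2) / 2)

theorem fld_smooth : ContDiff ℝ 1 fld := by
  unfold fld
  fun_prop

theorem abs_sub_le_of_deriv {f f' : ℝ → ℝ} {T : ℝ} (hf : ∀ s ∈ Ioo (-T) T, HasDerivAt f (f' s) s)
    (hb : ∀ s, |f' s| ≤ 1) {s : ℝ} (hs : s ∈ Ioo (-T) T) : |f s| ≤ |f 0| + T := by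
  have h0 : (0 : ℝ) ∈ Ioo (-T) T := ⟨by linarith [hs.1, hs.2], by linarith [hs.1, hs.2]⟩
  have h1 := (convex_Ioo (-T) T).norm_image_sub_le_of_norm_hasDerivWithin_le (C := 1)
    (fun u hu => (hf u hu).hasDerivWithinAt) (fun u _ => hb u) h0 hs
  rw [sub_zero, one_mul, norm_eq_abs, norm_eq_abs] at h1
  have h2 : |s| < T := abs_lt.2 hs
  have := abs_sub_abs_le_abs_sub (f s) (f 0)
  linarith

theorem exists_T (x : ℝ × ℝ × ℝ) (T : ℝ) (hT : 0 < T) :
    ∃ f : ℝ → ℝ × ℝ × ℝ, f 0 = x ∧ ∀ s ∈ Ioo (-T) T, HasDerivAt f (fld (f s)) s := by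
  set R : ℝ := |x.1| + |x.2.1| + T with hR
  have R0 : 0 ≤ R := by positivity
  let cl : ℝ → ℝ := fun u => max (min u R) (-R)
  have hcl : LipschitzWith 1 cl := (LipschitzWith.id.min_const R).max_const (-R)
  have bcl : ∀ u, |cl u| ≤ R := fun u =>
    abs_le.2 ⟨le_max_right _ _, max_le (min_le_right _ _) (by linarith)⟩
  have ecl : ∀ u, |u| ≤ R → cl u = u := fun u hu => by
    change max (min u R) (-R) = u
    rw [min_eq_left (abs_le.1 hu).2, max_eq_left (abs_le.1 hu).1]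
  let P : ℝ × ℝ × ℝ → ℝ × ℝ × ℝ := fun q => (cl q.1, cl q.2.1, q.2.2)
  have hP : LocallyLipschitz P :=
    ((hcl.comp LipschitzWith.prod_fst).prodMk (((hcl.comp LipschitzWith.prod_fst).prodMk
      LipschitzWith.prod_snd).comp LipschitzWith.prod_snd)).locallyLipschitz
  have hb : ∀ q, ‖fld (P q)‖ ≤ 1 + R := fun q => by
    have h1 := abs_cos_le_one q.2.2
    have h2 := abs_sin_le_one q.2.2
    have h3 : |cl q.1 * sin q.2.2 - cl q.2.1 * cos q.2.2| ≤ R + R := by
      refine (abs_sub _ _).trans (add_le_add ?_ ?_) <;> rw [abs_mul]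
      · exact (mul_le_of_le_one_right (abs_nonneg _) h2).trans (bcl _)
      · exact (mul_le_of_le_one_right (abs_nonneg _) h1).trans (bcl _)
    simp only [fld, P, Prod.norm_mk, norm_eq_abs, max_le_iff, abs_div, abs_two]
    exact ⟨by linarith, by linarith, by linarith⟩
  have a0 : 0 ≤ (1 + R) * T := by positivity
  obtain ⟨K, hK⟩ := (fld_smooth.locallyLipschitz.comp hP).locallyLipschitzOn
    |>.exists_lipschitzOnWith_of_compact (isCompact_closedBall x ((1 + R) * T))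
  have h0 : (0 : ℝ) ∈ Icc (-T) T := ⟨by linarith, hT.le⟩
  have hPL : IsPicardLindelof (fun _ => fld ∘ P) (tmin := -T) (tmax := T) ⟨0, h0⟩ x
      (⟨(1 + R) * T, a0⟩ : ℝ≥0) 0 (⟨1 + R, by positivity⟩ : ℝ≥0) K := by
    refine IsPicardLindelof.of_time_independent (fun y _ => hb y) hK ?_
    simp only [sub_zero, zero_sub, neg_neg, max_self, NNReal.coe_zero]
    exact le_rfl
  obtain ⟨f, hf0, hf⟩ := hPL.exists_eq_forall_mem_Icc_hasDerivWithinAt₀
  have hd : ∀ s ∈ Ioo (-T) T, HasDerivAt f (fld (P (f s))) s := fun s hs =>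
    (hf s ⟨hs.1.le, hs.2.le⟩).hasDerivAt (Icc_mem_nhds hs.1 hs.2)
  refine ⟨f, hf0, fun s hs => ?_⟩
  have hf0' : f 0 = x := hf0
  have b1 := abs_sub_le_of_deriv (f := fun s => (f s).1) (f' := fun s => cos (f s).2.2)
    (fun u hu => (hd u hu).fst) (fun u => abs_cos_le_one _) hs
  have b2 := abs_sub_le_of_deriv (f := fun s => (f s).2.1) (f' := fun s => sin (f s).2.2)
    (fun u hu => (hd u hu).snd.fst) (fun u => abs_sin_le_one _) hs
  simp only [hf0'] at b1 b2
  have e : P (f s) = f s := by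
    simp only [P]
    rw [ecl _ (by linarith [abs_nonneg x.2.1]), ecl _ (by linarith [abs_nonneg x.1])]
  have := hd s hs
  rwa [e] at this

/-- a complete shrinking curve, parametrised by the arc length -/
structure Crv (x y θ : ℝ → ℝ) : Prop where
  dx : ∀ s, HasDerivAt x (cos (θ s)) s
  dy : ∀ s, HasDerivAt y (sin (θ s)) s
  dθ : ∀ s, HasDerivAt θ ((x s * sin (θ s) - y s * cos (θ s)) / 2) s

theorem exists_crv (x₀ y₀ θ₀ : ℝ) : ∃ x y θ, Crv x y θ ∧ x 0 = x₀ ∧ y 0 = y₀ ∧ θ 0 = θ₀ := by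
  obtain ⟨f, h0, hf⟩ := glue fld_smooth (exists_T (x₀, y₀, θ₀))
  exact ⟨fun s => (f s).1, fun s => (f s).2.1, fun s => (f s).2.2,
    ⟨fun s => (hf s).fst, fun s => (hf s).snd.fst, fun s => (hf s).snd.snd⟩,
    by simp [h0], by simp [h0], by simp [h0]⟩

variable {x y θ : ℝ → ℝ}

theorem Crv.sol (C : Crv x y θ) : Sol (fun s => x s * cos (θ s) + y s * sin (θ s))
    (fun s => x s * sin (θ s) - y s * cos (θ s)) θ := by
  refine ⟨fun s => ?_, fun s => ?_, C.dθ⟩
  · refine (((C.dx s).fun_mul (C.dθ s).cos).fun_add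
      ((C.dy s).fun_mul (C.dθ s).sin)).congr_deriv ?_
    linear_combination sin_sq_add_cos_sq (θ s)
  · refine (((C.dx s).fun_mul (C.dθ s).sin).fun_sub
      ((C.dy s).fun_mul (C.dθ s).cos)).congr_deriv ?_
    ring

/-- `W` is a local equation of the shrinking curve `Γ` at `z` -/
structure Eqn (Γ : Set (ℝ × ℝ)) (z : ℝ × ℝ) (W : ℝ × ℝ → ℝ) : Prop where
  sm : ContDiff ℝ 2 W
  ne : fderiv ℝ W z ≠ 0
  mem : ∀ᶠ u in 𝓝 z, u ∈ Γ ↔ W u = 0
  ode : ∀ᶠ u in 𝓝 z, u ∈ Γ → ∀ τ : ℝ × ℝ, τ.1 ^ 2 + τ.2 ^ 2 = 1 → fderiv ℝ W u τ = 0 →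
    fderiv ℝ (fderiv ℝ W) u τ τ = fderiv ℝ W u u / 2

variable {Γ : Set (ℝ × ℝ)} {z : ℝ × ℝ} {W : ℝ × ℝ → ℝ}

theorem lin_apply (L : ℝ × ℝ →L[ℝ] ℝ) (v : ℝ × ℝ) : L v = v.1 * L (1, 0) + v.2 * L (0, 1) := by
  have : v = v.1 • ((1, 0) : ℝ × ℝ) + v.2 • ((0, 1) : ℝ × ℝ) := by ext <;> simp
  conv_lhs => rw [this]
  rw [map_add, map_smul, map_smul, smul_eq_mul, smul_eq_mul]

theorem lin_ne {L : ℝ × ℝ →L[ℝ] ℝ} (hL : L ≠ 0) : L (1, 0) ^ 2 + L (0, 1) ^ 2 ≠ 0 := fun h => by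
  have h1 : L (1, 0) = 0 := by nlinarith [sq_nonneg (L (1, 0)), sq_nonneg (L (0, 1))]
  have h2 : L (0, 1) = 0 := by nlinarith [sq_nonneg (L (1, 0)), sq_nonneg (L (0, 1))]
  exact hL (ContinuousLinearMap.ext fun v => by rw [lin_apply L v, h1, h2]; simp)

theorem lin_par {L : ℝ × ℝ →L[ℝ] ℝ} (hL : L ≠ 0) {v v' : ℝ × ℝ} (h1 : L v = 0) (h2 : L v' = 0) :
    v.1 * v'.2 - v.2 * v'.1 = 0 := by
  rw [lin_apply] at h1 h2
  refine (mul_eq_zero.1 ?_).resolve_left (lin_ne hL)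
  linear_combination (L (1, 0) * v'.2 - L (0, 1) * v'.1) * h1 -
    (L (1, 0) * v.2 - L (0, 1) * v.1) * h2

theorem deriv_zero {g : ℝ → ℝ} {g' c t : ℝ} (hg : HasDerivAt g g' t) (h : ∀ᶠ s in 𝓝 t, g s = c) :
    g' = 0 :=
  hg.unique ((hasDerivAt_const t c).congr_of_eventuallyEq h)

theorem Eqn.tang (h : Eqn Γ z W) {α : ℝ → ℝ × ℝ} {v : ℝ × ℝ} {t : ℝ}
    (hα : HasDerivAt α v t) (e : α t = z) (hm : ∀ᶠ s in 𝓝 t, α s ∈ Γ) : fderiv ℝ W z v = 0 := by
  subst e
  have h1 := ((h.sm.differentiable (by norm_num)) (α t)).hasFDerivAt.comp_hasDerivAt t hα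
  refine deriv_zero (c := 0) h1 ?_
  filter_upwards [hm, hα.continuousAt.eventually h.mem] with s h2 h3
  exact h3.1 h2

/-- A solution which is tangent to `Γ` at one time stays in `Γ` for a short time. -/
theorem Crv.stay (C : Crv x y θ) {t : ℝ} (h : Eqn Γ (x t, y t) W) (hz : (x t, y t) ∈ Γ)
    (ht : fderiv ℝ W (x t, y t) (cos (θ t), sin (θ t)) = 0) : ∀ᶠ s in 𝓝 t, (x s, y s) ∈ Γ := by
  have hD : ContDiff ℝ 1 (fderiv ℝ W) := h.sm.fderiv_right (by norm_num)
  have dW := h.sm.differentiable (by norm_num)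
  let a : ℝ × ℝ → ℝ := fun u => fderiv ℝ W u (1, 0)
  let b : ℝ × ℝ → ℝ := fun u => fderiv ℝ W u (0, 1)
  have ha : ContDiff ℝ 1 a := hD.clm_apply contDiff_const
  have hb : ContDiff ℝ 1 b := hD.clm_apply contDiff_const
  have eW : ∀ u v : ℝ × ℝ, fderiv ℝ W u v = v.1 * a u + v.2 * b u := fun u v => lin_apply _ v
  set z : ℝ × ℝ := (x t, y t) with hzdef
  have n0 : a z ^ 2 + b z ^ 2 ≠ 0 := lin_ne h.ne
  set l : ℝ := a z * sin (θ t) - b z * cos (θ t) with hl
  have q := sin_sq_add_cos_sq (θ t)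
  rw [eW] at ht
  have l2 : l ^ 2 = a z ^ 2 + b z ^ 2 := by
    rw [hl]
    linear_combination (a z ^ 2 + b z ^ 2) * q - (cos (θ t) * a z + sin (θ t) * b z) * ht
  have l0 : l ≠ 0 := fun h0 => n0 (by rw [← l2, h0]; ring)
  let ρ : ℝ × ℝ → ℝ := fun u => l / |l| * √(a u ^ 2 + b u ^ 2)
  have ρ2 : ∀ u, ρ u ^ 2 = a u ^ 2 + b u ^ 2 := fun u => by
    simp only [ρ]
    rw [mul_pow, div_pow, sq_abs, div_self (pow_ne_zero 2 l0), one_mul, sq_sqrt (by positivity)]
  have ρz : ρ z = l := by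
    simp only [ρ]
    rw [← l2, sqrt_sq_eq_abs, div_mul_cancel₀ _ (abs_ne_zero.2 l0)]
  have hρ : ContDiffAt ℝ 1 ρ z :=
    contDiffAt_const.mul (((ha.pow 2).add (hb.pow 2)).contDiffAt.sqrt n0)
  let X : ℝ × ℝ → ℝ × ℝ := fun u => (-b u / ρ u, a u / ρ u)
  have hX : ContDiffAt ℝ 1 X z := (hb.contDiffAt.neg.div hρ (by rw [ρz]; exact l0)).prodMk
    (ha.contDiffAt.div hρ (by rw [ρz]; exact l0))
  have Xz : X z = (cos (θ t), sin (θ t)) := by
    simp only [X, ρz]
    ext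
    · rw [div_eq_iff l0, hl]
      linear_combination (-sin (θ t)) * ht + b z * q
    · rw [div_eq_iff l0, hl]
      linear_combination (cos (θ t)) * ht - a z * q
  have XW : ∀ u, fderiv ℝ W u (X u) = 0 := fun u => by
    rw [eW]
    simp only [X]
    ring
  obtain ⟨α, α0, ε, ε0, hα⟩ := hX.exists_forall_mem_closedBall_exists_eq_forall_mem_Ioo_hasDerivAt₀ t
  have tI : t ∈ Ioo (t - ε) (t + ε) := ⟨by linarith, by linarith⟩
  have αI : ∀ᶠ s in 𝓝 t, s ∈ Ioo (t - ε) (t + ε) := Ioo_mem_nhds tI.1 tI.2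
  have αc : Tendsto α (𝓝 t) (𝓝 z) := by
    rw [← α0]
    exact (hα t tI).continuousAt
  have Wα : ∀ s ∈ Ioo (t - ε) (t + ε), W (α s) = 0 := fun s hs => by
    have h1 := (convex_Ioo (t - ε) (t + ε)).norm_image_sub_le_of_norm_hasDerivWithin_le (C := 0)
      (f := fun s => W (α s)) (f' := fun _ => 0) (fun u hu => by
        have := (dW (α u)).hasFDerivAt.comp_hasDerivAt u (hα u hu)
        rw [XW] at this
        exact this.hasDerivWithinAt) (fun _ _ => by simp) tI hs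
    rw [α0, h.mem.self_of_nhds.1 hz, sub_zero, zero_mul] at h1
    exact norm_le_zero_iff.1 h1
  have αΓ : ∀ᶠ s in 𝓝 t, α s ∈ Γ := by
    filter_upwards [αI, αc.eventually h.mem] with s h1 h2
    exact h2.2 (Wα s h1)
  have ρne : ∀ᶠ s in 𝓝 t, ρ (α s) ≠ 0 :=
    αc.eventually (hρ.continuousAt.eventually_ne (by rw [ρz]; exact l0))
  have unit : ∀ u, ρ u ≠ 0 → (X u).1 ^ 2 + (X u).2 ^ 2 = 1 := fun u hu => by
    simp only [X]
    field_simp
    linear_combination -ρ2 u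
  let G : (ℝ × ℝ) × ℝ × ℝ → (ℝ × ℝ) × ℝ × ℝ := fun q =>
    (q.2, -q.2.2 * ((q.1.1 * q.2.2 - q.1.2 * q.2.1) / 2),
      q.2.1 * ((q.1.1 * q.2.2 - q.1.2 * q.2.1) / 2))
  have hG : ContDiff ℝ 1 G := by
    unfold G
    fun_prop
  have key := uniq_ev hG (f := fun s => ((x s, y s), cos (θ s), sin (θ s)))
    (g := fun s => (α s, X (α s))) (t := t)
    (Eventually.of_forall fun s => ((C.dx s).prodMk (C.dy s)).prodMk
      ((C.dθ s).cos.prodMk (C.dθ s).sin)) ?_ (by rw [α0, Xz])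
  · filter_upwards [key, αΓ] with s h1 h2
    have h3 : (x s, y s) = α s := congrArg Prod.fst h1
    rwa [h3]
  · filter_upwards [αI, αΓ, αc.eventually h.ode, ρne, ρne.eventually_nhds,
      αc.eventually (hX.eventually (by norm_num))] with s s1 s2 s3 s4 s5 s6
    have dα := hα s s1
    have dX := (s6.differentiableAt (by norm_num)).hasFDerivAt.comp_hasDerivAt s dα
    set V := fderiv ℝ X (α s) (X (α s)) with hV
    have dX1 : HasDerivAt (fun u => (X (α u)).1) V.1 s := dX.fst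
    have dX2 : HasDerivAt (fun u => (X (α u)).2) V.2 s := dX.snd
    have i1 := deriv_zero (c := 1) ((dX1.fun_pow 2).fun_add (dX2.fun_pow 2))
      (s5.mono fun u hu => unit _ hu)
    have dD := ((hD.differentiable (by norm_num)) (α s)).hasFDerivAt.comp_hasDerivAt s dα
    have i2 := deriv_zero (c := 0) (dD.clm_apply dX) (Eventually.of_forall fun u => XW _)
    have i3 := s3 s2 (X (α s)) (unit _ s4) (XW _)
    have i4 := unit _ s4
    simp only [Function.comp_apply] at i1 i2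
    rw [i3, eW, eW] at i2
    have ea : a (α s) = ρ (α s) * (X (α s)).2 := by
      simp only [X]
      field_simp
    have eb : b (α s) = -(ρ (α s) * (X (α s)).1) := by
      simp only [X]
      field_simp
    rw [ea, eb] at i2
    have i5 : (X (α s)).1 * V.2 - (X (α s)).2 * V.1 =
        ((α s).1 * (X (α s)).2 - (α s).2 * (X (α s)).1) / 2 := by
      refine mul_left_cancel₀ s4 ?_
      linear_combination -i2
    norm_num at i1
    have eV : V = (-(X (α s)).2 * (((α s).1 * (X (α s)).2 - (α s).2 * (X (α s)).1) / 2),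
        (X (α s)).1 * (((α s).1 * (X (α s)).2 - (α s).2 * (X (α s)).1) / 2)) := by
      rw [← i5]
      ext
      · linear_combination (X (α s)).1 / 2 * i1 - V.1 * i4
      · linear_combination (X (α s)).2 / 2 * i1 - V.2 * i4
    rw [eV] at dX
    exact dα.prodMk dX

/-- A solution which is tangent to `Γ` at time zero stays in `Γ`. -/
theorem Crv.stays (C : Crv x y θ) (hΓ : IsClosed Γ) (hE : ∀ z ∈ Γ, ∃ W, Eqn Γ z W)
    (h0 : ∀ᶠ s in 𝓝 0, (x s, y s) ∈ Γ) (s : ℝ) : (x s, y s) ∈ Γ := by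
  have dz : ∀ s, HasDerivAt (fun s => (x s, y s)) (cos (θ s), sin (θ s)) s := fun s =>
    (C.dx s).prodMk (C.dy s)
  have cz : Continuous fun s => (x s, y s) :=
    continuous_iff_continuousAt.2 fun s => (dz s).continuousAt
  have key := isPreconnected_univ.subset_of_closure_inter_subset
    (u := {t | ∀ᶠ s in 𝓝 t, (x s, y s) ∈ Γ}) isOpen_setOfPred_eventually_nhds ⟨0, trivial, h0⟩
    fun t ht => by
      have h1 := mem_closure_iff_frequently.1 ht.1
      have h2 : (x t, y t) ∈ Γ :=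
        hΓ.mem_of_frequently_of_tendsto (h1.mono fun u hu => hu.self_of_nhds) (cz.tendsto t)
      obtain ⟨W, hW⟩ := hE _ h2
      refine C.stay hW h2 ?_
      have hD : Continuous (fderiv ℝ W) := hW.sm.continuous_fderiv (by norm_num)
      have c1 : Continuous fun s => fderiv ℝ W (x s, y s) (cos (θ s), sin (θ s)) :=
        (hD.comp cz).clm_apply ((continuous_cos.comp C.sol.cθ).prodMk (continuous_sin.comp C.sol.cθ))
      refine tendsto_nhds_unique_of_frequently_eq (c1.tendsto t) tendsto_const_nhds ?_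
      refine (h1.and_eventually ((cz.tendsto t).eventually hW.mem).eventually_nhds).mono
        fun u hu => ?_
      have h3 := ((hW.sm.differentiable (by norm_num)) _).hasFDerivAt.comp_hasDerivAt u (dz u)
      refine deriv_zero (c := 0) h3 ?_
      filter_upwards [hu.1, hu.2] with v v1 v2
      exact v2.1 v1
  exact (key (mem_univ s)).self_of_nhds

theorem exists_angle {c s : ℝ} (h : c ^ 2 + s ^ 2 = 1) : ∃ θ, cos θ = c ∧ sin θ = s := by
  have h1 : ‖(⟨c, s⟩ : ℂ)‖ = 1 := by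
    rw [Complex.norm_eq_sqrt_sq_add_sq, h, sqrt_one]
  have h2 : (⟨c, s⟩ : ℂ) ≠ 0 := fun h0 => by
    rw [h0, norm_zero] at h1
    exact zero_ne_one h1
  refine ⟨Complex.arg ⟨c, s⟩, ?_, ?_⟩
  · rw [Complex.cos_arg h2, h1, div_one]
  · rw [Complex.sin_arg, h1, div_one]

/-- Each point of `Γ` lies on a line through the origin contained in `Γ`, or on the circle of
radius `√2`, contained in `Γ`. -/
theorem point_cases (hΓ : IsClosed Γ) (hE : ∀ z ∈ Γ, ∃ W, Eqn Γ z W) (hz : z ∈ Γ) :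
    (∃ c s : ℝ, c ^ 2 + s ^ 2 = 1 ∧ z.1 * s - z.2 * c = 0 ∧ ∀ u : ℝ, (u * c, u * s) ∈ Γ) ∨
      (z.1 ^ 2 + z.2 ^ 2 = 2 ∧ ∀ u : ℝ × ℝ, u.1 ^ 2 + u.2 ^ 2 = 2 → u ∈ Γ) := by
  obtain ⟨W, hW⟩ := hE z hz
  obtain ⟨c, s, cs, ht, hh⟩ : ∃ c s : ℝ, c ^ 2 + s ^ 2 = 1 ∧ fderiv ℝ W z (c, s) = 0 ∧
      0 ≤ z.1 * s - z.2 * c := by
    have n0 := lin_ne hW.ne
    set a := fderiv ℝ W z (1, 0) with ha
    set b := fderiv ℝ W z (0, 1) with hb
    have r0 : 0 < √(a ^ 2 + b ^ 2) := sqrt_pos.2 (by positivity)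
    have r2 : √(a ^ 2 + b ^ 2) ^ 2 = a ^ 2 + b ^ 2 := sq_sqrt (by positivity)
    set r := √(a ^ 2 + b ^ 2)
    rcases le_total 0 (z.1 * (a / r) - z.2 * (-b / r)) with h1 | h1
    · refine ⟨-b / r, a / r, ?_, ?_, h1⟩
      · field_simp
        linarith
      · rw [lin_apply, ← ha, ← hb]
        ring
    · refine ⟨b / r, -a / r, ?_, ?_, ?_⟩
      · field_simp
        linarith
      · rw [lin_apply, ← ha, ← hb]
        ring
      · rw [neg_div] at h1 ⊢
        linarith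
  obtain ⟨θ₀, e1, e2⟩ := exists_angle cs
  obtain ⟨x, y, θ, C, x0, y0, θ0⟩ := exists_crv z.1 z.2 θ₀
  have z0 : (x 0, y 0) = z := by rw [x0, y0]
  have hin := C.stays hΓ hE (C.stay (W := W) (by rwa [z0]) (by rwa [z0])
    (by rwa [z0, θ0, e1, e2]))
  have S := C.sol
  rcases hh.eq_or_lt with h1 | h1
  · left
    have hz0 : ∀ u, x u * sin (θ u) - y u * cos (θ u) = 0 := fun u => by
      have := S.h_eq u
      simp only [x0, y0, θ0, e1, e2, ← h1, zero_mul] at this
      exact this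
    have hθ : ∀ u, θ u = θ₀ := fun u => by
      rw [← θ0]
      exact const_of_deriv (fun v => (C.dθ v).congr_deriv (by rw [hz0]; simp)) u 0
    have hx : ∀ u, x u - u * c = z.1 := fun u => by
      have := const_of_deriv (f := fun u => x u - u * c) (fun v => ((C.dx v).fun_sub
        ((hasDerivAt_id' v).mul_const c)).congr_deriv (by rw [hθ, e1]; ring)) u 0
      rw [this, x0]
      ring
    have hy : ∀ u, y u - u * s = z.2 := fun u => by
      have := const_of_deriv (f := fun u => y u - u * s) (fun v => ((C.dy v).fun_sub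
        ((hasDerivAt_id' v).mul_const s)).congr_deriv (by rw [hθ, e2]; ring)) u 0
      rw [this, y0]
      ring
    refine ⟨c, s, cs, h1.symm, fun u => ?_⟩
    have h2 := hin (u - (z.1 * c + z.2 * s))
    have h3 : x (u - (z.1 * c + z.2 * s)) = u * c := by
      linear_combination hx (u - (z.1 * c + z.2 * s)) - z.1 * cs - s * h1
    have h4 : y (u - (z.1 * c + z.2 * s)) = u * s := by
      linear_combination hy (u - (z.1 * c + z.2 * s)) - z.2 * cs + c * h1
    rwa [h3, h4] at h2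
  · right
    have h0 : 0 < x 0 * sin (θ 0) - y 0 * cos (θ 0) := by rwa [x0, y0, θ0, e1, e2]
    have ex : ∀ u, (x u * cos (θ u) + y u * sin (θ u)) * cos (θ u) +
        (x u * sin (θ u) - y u * cos (θ u)) * sin (θ u) = x u := fun u => by
      linear_combination x u * sin_sq_add_cos_sq (θ u)
    have ey : ∀ u, (x u * cos (θ u) + y u * sin (θ u)) * sin (θ u) -
        (x u * sin (θ u) - y u * cos (θ u)) * cos (θ u) = y u := fun u => by
      linear_combination y u * sin_sq_add_cos_sq (θ u)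
    have core := S.core h0 fun u v e3 e4 => by
      rw [ex, ex] at e3
      rw [ey, ey] at e4
      obtain ⟨W', hW'⟩ := hE _ (hin u)
      exact lin_par hW'.ne
        (hW'.tang ((C.dx u).prodMk (C.dy u)) rfl (Eventually.of_forall hin))
        (hW'.tang ((C.dx v).prodMk (C.dy v)) (by rw [e3, e4]) (Eventually.of_forall hin))
    have eq := S.equil h0 core.1 core.2
    have r2 : √2 ^ 2 = (2 : ℝ) := sq_sqrt (by norm_num)
    have r0 : 0 < √2 := by positivity
    have ex' : ∀ u, x u = √2 * sin (θ u) := fun u => by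
      rw [← ex u, (eq u).1, (eq u).2]
      ring
    have ey' : ∀ u, y u = -(√2 * cos (θ u)) := fun u => by
      rw [← ey u, (eq u).1, (eq u).2]
      ring
    refine ⟨?_, fun u hu => ?_⟩
    · rw [← x0, ← y0, ex', ey']
      linear_combination √2 ^ 2 * sin_sq_add_cos_sq (θ 0) + r2
    · obtain ⟨ψ, f1, f2⟩ := exists_angle (c := -u.2 / √2) (s := u.1 / √2) (by
        field_simp
        linarith)
      have hθ : ∀ v, θ v - √2 / 2 * v = θ₀ := fun v => by
        have := const_of_deriv (f := fun v => θ v - √2 / 2 * v) (fun v => ((C.dθ v).fun_sub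
          ((hasDerivAt_id' v).const_mul (√2 / 2))).congr_deriv (by rw [(eq v).2]; ring)) v 0
        rw [this, θ0]
        ring
      have h2 : θ (√2 * (ψ - θ₀)) = ψ := by
        linear_combination hθ (√2 * (ψ - θ₀)) + (ψ - θ₀) / 2 * r2
      have h3 := hin (√2 * (ψ - θ₀))
      rw [ex', ey', h2, f1, f2] at h3
      have h4 : (√2 * (u.1 / √2), -(√2 * (-u.2 / √2))) = u := by
        ext <;> field_simp
      rwa [h4] at h3

/-- **Classification of properly embedded shrinking curves.** -/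
theorem plane_cases (hΓ : IsClosed Γ) (hE : ∀ z ∈ Γ, ∃ W, Eqn Γ z W) :
    Γ = ∅ ∨ (∃ c s : ℝ, c ^ 2 + s ^ 2 = 1 ∧ Γ = {u | u.1 * s - u.2 * c = 0}) ∨
      Γ = {u | u.1 ^ 2 + u.2 ^ 2 = 2} := by
  have dl : ∀ c s t : ℝ, HasDerivAt (fun u : ℝ => (u * c, u * s)) (c, s) t := fun c s t => by
    simpa using ((hasDerivAt_id' t).mul_const c).prodMk ((hasDerivAt_id' t).mul_const s)
  have lc : ∀ c s : ℝ, c ^ 2 + s ^ 2 = 1 → (∀ u : ℝ, (u * c, u * s) ∈ Γ) →
      (∀ u : ℝ × ℝ, u.1 ^ 2 + u.2 ^ 2 = 2 → u ∈ Γ) → False := fun c s cs h1 h2 => by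
    obtain ⟨W, hW⟩ := hE _ (h1 √2)
    have r2 : √2 ^ 2 = (2 : ℝ) := sq_sqrt (by norm_num)
    have r0 : 0 < √2 := by positivity
    have d1 : HasDerivAt (fun u : ℝ => (√2 * (c * cos u - s * sin u), √2 * (s * cos u + c * sin u)))
        (√2 * -s, √2 * c) 0 := by
      simpa using ((((hasDerivAt_cos 0).const_mul c).fun_sub
        ((hasDerivAt_sin 0).const_mul s)).const_mul √2).prodMk
        ((((hasDerivAt_cos 0).const_mul s).fun_add ((hasDerivAt_sin 0).const_mul c)).const_mul √2)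
    have h3 := lin_par hW.ne (hW.tang (dl c s √2) rfl (Eventually.of_forall h1))
      (hW.tang d1 (by simp) (Eventually.of_forall fun u => h2 _ (by
        linear_combination √2 ^ 2 * (c ^ 2 + s ^ 2) * sin_sq_add_cos_sq u + √2 ^ 2 * cs + r2)))
    have h4 : √2 = 0 := by linear_combination h3 - √2 * cs
    exact r0.ne' h4
  rcases Γ.eq_empty_or_nonempty with h0 | ⟨z, hz⟩
  · exact Or.inl h0
  right
  rcases point_cases hΓ hE hz with ⟨c, s, cs, -, h1⟩ | ⟨-, h1⟩
  · refine Or.inl ⟨c, s, cs, Subset.antisymm (fun u hu => ?_) fun u hu => ?_⟩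
    · rcases point_cases hΓ hE hu with ⟨c', s', cs', h2, h3⟩ | ⟨-, h2⟩
      · obtain ⟨W, hW⟩ := hE _ (h1 0)
        have h4 := lin_par hW.ne (hW.tang (dl c s 0) rfl (Eventually.of_forall h1))
          (hW.tang (dl c' s' 0) (by simp) (Eventually.of_forall h3))
        change u.1 * s - u.2 * c = 0
        linear_combination (c * c' + s * s') * h2 - (u.1 * c' + u.2 * s') * h4 -
          (u.1 * s - u.2 * c) * cs'
      · exact (lc c s cs h1 h2).elim
    · have h2 : u.1 * s - u.2 * c = 0 := hu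
      have h3 : ((u.1 * c + u.2 * s) * c, (u.1 * c + u.2 * s) * s) = u := by
        ext
        · linear_combination u.1 * cs - s * h2
        · linear_combination u.2 * cs + c * h2
      rw [← h3]
      exact h1 _
  · refine Or.inr (Subset.antisymm (fun u hu => ?_) h1)
    rcases point_cases hΓ hE hu with ⟨c, s, cs, -, h3⟩ | ⟨h2, -⟩
    · exact (lc c s cs h3 h1).elim
    · exact h2

end Vale.Agent.P218F.E2
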