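import Vale.Agent.P218F.EndV

/-!
# Cylindrical ends: the exact properties of `r = ρ (1 + v)`
-/

set_option maxSynthPendingDepth 3

namespace Vale.Agent.P218F.End

open Set Metric Wien
open Cone (W A T3 BC J6 jets vT vYT vTT jets_apply)

noncomputable section

variable {a b : ℝ} (κ : Co) (ρ : BC) (v : T3 0) (z θ : ℝ)

theorem cval {s : ℕ} (u : W s) : Cone.val u z θ = val u z θ := rfl

theorem dth_const_mul {s : ℕ} (f : BC) (u : W (s + 1)) :
    dth s BC (const ℤ (s + 1) BC f * u) = const ℤ s BC f * dth s BC u := by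
  ext k
  simp

theorem dth_one {s : ℕ} : dth s BC (1 : W (s + 1)) = 0 := by
  rw [← map_one (const ℤ (s + 1) BC), dth_const]

theorem dth_incl {s : ℕ} (u : W (s + 2)) :
    dth s BC (incl ℤ BC (Nat.le_succ (s + 1)) u) = incl ℤ BC (Nat.le_succ s) (dth (s + 1) BC u) := by
  ext k
  simp

theorem val_eOf0 : val (eOf κ ρ v).1 z θ = ρ z * (1 + val v.1 z θ) := by simp [eOf]

theorem val_eOf1 :
    val (eOf κ ρ v).2.1 z θ = ρ z * (κ.2.2.1 z * (1 + val v.1 z θ) + val v.2.1 z θ) := by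
  simp [eOf]

theorem val_eOf2 : val (eOf κ ρ v).2.2 z θ =
    ρ z * (pp κ z * (1 + val v.1 z θ) + 2 * κ.2.2.1 z * val v.2.1 z θ + val v.2.2 z θ) := by
  simp [eOf, cz, jets_apply]

theorem vT_eOf : vT (eOf κ ρ v) z θ = ρ z * vT v z θ := by
  simp [vT, cval, eOf, dth_const_mul, dth_one]

theorem vYT_eOf : vYT (eOf κ ρ v) z θ = ρ z * (κ.2.2.1 z * vT v z θ + vYT v z θ) := by
  simp [vT, vYT, cval, eOf, dth_const_mul, dth_one, dth_incl]

theorem vTT_eOf : vTT (eOf κ ρ v) z θ = ρ z * vTT v z θ := by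
  simp [vTT, cval, eOf, dth_const_mul, dth_one]

theorem pp_apply : pp κ z = κ.2.2.2 z / 2 * κ.2.2.1 z + κ.1 z - 1 / 2 -
    (1 - κ.2.2.2 z * κ.2.2.1 z) * κ.2.1 z * κ.2.2.1 z ^ 2 / 2 + κ.2.2.1 z ^ 2 := by
  simp [pp]
  ring

theorem val_NlW_jets : val (NlW κ (jets 0 v)) z θ = Nl (1 / 2) (κ.1 z) (κ.2.1 z) (κ.2.2.1 z) (κ.2.2.2 z)
    (val v.1 z θ, val v.2.1 z θ, vT v z θ, val v.2.2 z θ, vYT v z θ, vTT v z θ) := by
  simp only [NlW, Nl, half, cz, jets_apply, val_add, val_sub, val_mul, val_pow, val_one, val_const,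
    val_ofNat, val_incl, val_algebraMap, vT, vYT, vTT, cval, Algebra.algebraMap_self,
    RingHom.id_apply]

theorem val_res {s : ℕ} (u : W s) : val (res a b s u) z θ = val u (Mode.cl a b z) θ :=
  val_congr (fun k => cf_res a b u k z) θ

theorem cf_one {s : ℕ} (k : ℤ) : cf (1 : W s) k z = if k = 0 then 1 else 0 := by
  rw [one_def, cf_single]
  split_ifs <;> rfl

theorem cf_eOf0 (k : ℤ) : cf (eOf κ ρ v).1 k z = ρ z * ((if k = 0 then 1 else 0) + cf v.1 k z) := by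
  simp [eOf, cf_one]

theorem cf_eOf1 (k : ℤ) : cf (eOf κ ρ v).2.1 k z =
    ρ z * (κ.2.2.1 z * ((if k = 0 then 1 else 0) + cf v.1 k z) + cf v.2.1 k z) := by
  simp [eOf, cf_one]

variable {κ ρ v z}

/-- the model equation at a point -/
theorem LinEq.val {wi : BC} {F : W 0} (h : LinEq a b wi v F) (hz : z ∈ Icc a b) :
    val v.2.2 z θ - (z : ℂ) / 2 * val v.2.1 z θ + (vTT v z θ + 2 * val v.1 z θ) * wi z =
      val F z θ := by
  have h1 := ((hasSum_val v.2.2 z θ).sub ((hasSum_val v.2.1 z θ).mul_left ((z : ℂ) / 2))).add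
    (((hasSum_val (dth 0 BC (dth 1 BC v.1)) z θ).add
      ((hasSum_val v.1 z θ).mul_left 2)).mul_right (wi z))
  refine h1.unique ?_
  convert hasSum_val F z θ using 2 with k
  rw [← h k z hz]
  simp only [cf_dth, BoundedContinuousFunction.coe_smul, smul_eq_mul]
  linear_combination (ch θ k * k ^ 2 * cf v.1 k z * wi z) * Complex.I_sq

theorem res3_eOf (hκ : ∀ z, κ.2.2.1 (Mode.cl a b z) = κ.2.2.1 z ∧ pp κ (Mode.cl a b z) = pp κ z)
    (hρ : Mode.Clamped a b ρ) (hv : res3 a b v = v) : res3 a b (eOf κ ρ v) = eOf κ ρ v := by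
  have h0 : ∀ z θ, val v.1 (Mode.cl a b z) θ = val v.1 z θ := fun z θ => by
    rw [← val_res, show res a b 2 v.1 = v.1 from congrArg Prod.fst hv]
  have h1 : ∀ z θ, val v.2.1 (Mode.cl a b z) θ = val v.2.1 z θ := fun z θ => by
    rw [← val_res, show res a b 1 v.2.1 = v.2.1 from congrArg (·.2.1) hv]
  have h2 : ∀ z θ, val v.2.2 (Mode.cl a b z) θ = val v.2.2 z θ := fun z θ => by
    rw [← val_res, show res a b 0 v.2.2 = v.2.2 from congrArg (·.2.2) hv]
  refine Prod.ext (ext_val fun z θ => ?_) (Prod.ext (ext_val fun z θ => ?_) (ext_val fun z θ => ?_))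
  · rw [res3, val_res, val_eOf0, val_eOf0, h0, hρ z]
  · rw [res3, val_res, val_eOf1, val_eOf1, h0, h1, hρ z, (hκ z).1]
  · rw [res3, val_res, val_eOf2, val_eOf2, h0, h1, h2, hρ z, (hκ z).1, (hκ z).2]

theorem zder_eOf (hρ : ∀ z ∈ Icc a b, HasDerivWithinAt ρ (ρ z * κ.2.2.1 z) (Icc a b) z)
    (hP : ∀ z ∈ Icc a b, HasDerivWithinAt κ.2.2.1 (pp κ z - κ.2.2.1 z ^ 2) (Icc a b) z)
    (h0 : ZDer (Icc a b) v.1 v.2.1) (h1 : ZDer (Icc a b) v.2.1 v.2.2) :
    ZDer (Icc a b) (eOf κ ρ v).1 (eOf κ ρ v).2.1 ∧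
      ZDer (Icc a b) (eOf κ ρ v).2.1 (eOf κ ρ v).2.2 := by
  refine ⟨zder_of_val (convex_Icc a b) fun θ z hz => ?_,
    zder_of_val (convex_Icc a b) fun θ z hz => ?_⟩
  · have e0 := h0.hasDerivWithinAt_val (convex_Icc a b) hz θ
    simp only [val_eOf0, val_eOf1]
    refine ((hρ z hz).mul (e0.const_add 1)).congr_deriv ?_
    ring
  · have e0 := h0.hasDerivWithinAt_val (convex_Icc a b) hz θ
    have e1 := h1.hasDerivWithinAt_val (convex_Icc a b) hz θ
    simp only [val_eOf1, val_eOf2]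
    refine ((hρ z hz).mul (((hP z hz).mul (e0.const_add 1)).add e1)).congr_deriv ?_
    simp only [Pi.add_apply, Pi.mul_apply]
    ring

theorem differentiable_eOf :
    Differentiable ℂ fun x : Co × BC × T3 0 => eOf x.1 x.2.1 x.2.2 := by
  simp only [eOf, pp, cz, const_apply]
  fun_prop

theorem star_const' {s : ℕ} (f : BC) : star (const ℤ s BC f) = const ℤ s BC (star f) := by
  rw [const_apply, star_single, neg_zero, const_apply]

theorem star_pp (κ : Co) : star (pp κ) = pp (star κ) := by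
  ext z
  simp [pp_apply]

theorem star_eOf' (κ : Co) (ρ : BC) (v : T3 0) :
    star (eOf κ ρ v) = eOf (star κ) (star ρ) (star v) := by
  refine Prod.ext (ext_val fun z θ => ?_) (Prod.ext (ext_val fun z θ => ?_) (ext_val fun z θ => ?_))
  · simp [val_star, val_eOf0]
  · simp [val_star, val_eOf1]
  · simp [val_star, val_eOf2, ← star_pp]

theorem star_eOf (hκ : star κ = κ) (hρ : star ρ = ρ) (hv : star v = v) :
    star (eOf κ ρ v) = eOf κ ρ v := by rw [star_eOf', hκ, hρ, hv]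

namespace Dat

variable {C Λ Z₀ R : ℝ} {y c : ℂ} {V P : BC} (h : Dat C Λ Z₀ a R y c V P)
include h

theorem lam_pos : 0 < Λ := by linarith [h.lam, one_le_pow₀ (n := 3) h.c1]

theorem prof : Prof (4 * C) Λ a R V (fun z => P z / (2 * V z)) fun z =>
    z / 2 * (P z / (2 * V z)) + (V z)⁻¹ - 1 / 2 -
      (1 - z * (P z / (2 * V z))) * V z * (P z / (2 * V z)) ^ 2 / 2 :=
  prof_of_sol h.sol h.c1 h.lam (h.z0.trans_le h.za) h.za
    (by nlinarith [h.zl, h.za, h.z0, h.lam_pos]) h.aR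

theorem re_pos (hz : z ∈ Icc a R) : 0 < (V z).re :=
  pos_of_mul_pos_right (h.lam_pos.trans_le (h.prof.s3 z hz)) (sq_nonneg z)

theorem ne (hz : z ∈ Icc a R) : V z ≠ 0 := fun h0 => by simpa [h0] using h.re_pos hz

theorem kap1 (hz : z ∈ Icc a R) : (kap a R V P).1 z = (V z)⁻¹ :=
  Mode.ext_of_mem (V.continuous.continuousOn.inv₀ fun _ hz => h.ne hz) hz

omit h in
theorem kap2 (hz : z ∈ Icc a R) : (kap a R V P).2.1 z = V z := by
  simp only [kap, Mode.clamp_apply, Mode.cl_of_mem hz]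

theorem kap3 (hz : z ∈ Icc a R) : (kap a R V P).2.2.1 z = P z / (2 * V z) :=
  Mode.ext_of_mem (P.continuous.continuousOn.div (by fun_prop)
    fun _ hz => mul_ne_zero two_ne_zero (h.ne hz)) hz

omit h in
theorem kap4 (hz : z ∈ Icc a R) : (kap a R V P).2.2.2 z = z :=
  Mode.ext_of_mem (f := fun z : ℝ => (z : ℂ)) (by fun_prop) hz

theorem rho_eq (hz : z ∈ Icc a R) : rho a R V z = V z ^ (1 / 2 : ℂ) :=
  Mode.ext_of_mem (V.continuous.continuousOn.cpow_const fun _ hz => Or.inl (h.re_pos hz)) hz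

theorem rho_sq (hz : z ∈ Icc a R) : rho a R V z ^ 2 = V z := by
  rw [h.rho_eq hz, one_div]
  exact Complex.cpow_ofNat_inv_pow _ 2

theorem rho_ne (hz : z ∈ Icc a R) : rho a R V z ≠ 0 := fun h0 => by
  have := h.rho_sq hz
  rw [h0] at this
  exact h.ne hz (by rw [← this]; simp)

theorem der_rho (hz : z ∈ Icc a R) :
    HasDerivWithinAt (rho a R V) (rho a R V z * (kap a R V P).2.2.1 z) (Icc a R) z := by
  have h1 := ((Complex.hasStrictDerivAt_cpow_const (c := 1 / 2)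
    (Or.inl (h.re_pos hz))).hasDerivAt.comp_hasDerivWithinAt z (h.prof.dw z hz))
  refine (h1.congr (fun t ht => h.rho_eq ht) (h.rho_eq hz)).congr_deriv ?_
  rw [h.rho_eq hz, h.kap3 hz, Complex.cpow_sub _ _ (h.ne hz), Complex.cpow_one]
  have := h.ne hz
  field_simp

theorem der_kap (hz : z ∈ Icc a R) : HasDerivWithinAt (kap a R V P).2.2.1
    (pp (kap a R V P) z - (kap a R V P).2.2.1 z ^ 2) (Icc a R) z := by
  refine ((h.prof.dP z hz).congr (fun t ht => h.kap3 ht) (h.kap3 hz)).congr_deriv ?_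
  rw [pp_apply, h.kap1 hz, kap2 hz, h.kap3 hz, kap4 hz]
  ring

theorem clamped (z : ℝ) : (kap a R V P).2.2.1 (Mode.cl a R z) = (kap a R V P).2.2.1 z ∧
    pp (kap a R V P) (Mode.cl a R z) = pp (kap a R V P) z := by
  have h1 : (kap a R V P).1 (Mode.cl a R z) = _ := Mode.clamped_ext h.prof.le _ z
  have h2 : (kap a R V P).2.1 (Mode.cl a R z) = _ := Mode.clamped_clamp h.prof.le _ z
  have h3 : (kap a R V P).2.2.1 (Mode.cl a R z) = _ := Mode.clamped_ext h.prof.le _ z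
  have h4 : (kap a R V P).2.2.2 (Mode.cl a R z) = _ := Mode.clamped_ext h.prof.le _ z
  exact ⟨h3, by rw [pp_apply, pp_apply, h1, h2, h3, h4]; rfl⟩

end Dat

theorem out1_proof : Out1Stmt := by
  intro C Λ Z₀ a R y c V P h v D hD hv e
  have hd := zder_eOf (fun _ => hD.der_rho) (fun _ => hD.der_kap) hv.tri.d0 hv.tri.d1
  have hR := hD.prof.memR
  refine ⟨⟨res3_eOf hD.clamped (Mode.clamped_ext hD.prof.le _) hv.tri.cl, hd.1, hd.2⟩,
    fun z hz θ => ?_, fun k hk => ?_, fun k => ?_, ?_, ?_, ?_⟩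
  · have h1 := hv.eq.val θ hz
    rw [val_neg, val_NlW_jets, hD.kap1 hz, Dat.kap2 hz, Dat.kap4 hz, ← hD.rho_sq hz] at h1
    simp only [e, cval, val_eOf0, val_eOf1, val_eOf2, vT_eOf, vYT_eOf, vTT_eOf]
    rw [pp_apply, hD.kap1 hz, Dat.kap2 hz, Dat.kap4 hz, ← hD.rho_sq hz, epol_eq (hD.rho_ne hz), h1,
      neg_add_cancel, mul_zero]
  · have h0 : k ≠ 0 := by rintro rfl; norm_num at hk
    rw [cf_eOf0, if_neg h0, zero_add, hv.bcs.1 k hk, cf_smul, smul_eq_mul,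
      mul_inv_cancel_left₀ (hD.rho_ne hD.prof.mema)]
  · rw [cf_eOf1, hv.bcs.2.1 k, hD.kap3 hR, hD.sol.neu]
    simp
  · rw [cf_eOf0, hv.bcs.2.2 0 (by norm_num), hD.rho_eq hR, hD.sol.tip]
    simp
  · rw [cf_eOf0, hv.bcs.2.2 1 (by norm_num)]
    simp
  · rw [cf_eOf0, hv.bcs.2.2 (-1) (by norm_num)]
    simp

end

end Vale.Agent.P218F.End
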