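import Mathlib.Analysis.Calculus.MeanValue
import Mathlib.Analysis.Calculus.Deriv.MeanValue
import Mathlib.Analysis.Calculus.Deriv.Slope
import Mathlib.Analysis.SpecialFunctions.ExpDeriv
import Mathlib.Analysis.SpecialFunctions.Log.Deriv
import Mathlib.Analysis.SpecialFunctions.Complex.LogDeriv
import Mathlib.Analysis.Complex.RealDeriv

/-! Cylindrical ends: comparison lemmas for complex second order equations with a real drift on a
compact interval, and the weights used for the mode equations. -/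

namespace Vale.Agent.P218F.End

open Set Filter Topology

/-- `f'` is the derivative of `f` on `[a, b]` -/
def Der {E : Type*} [NormedAddCommGroup E] [NormedSpace ℝ E] (a b : ℝ) (f f' : ℝ → E) : Prop :=
  ∀ z ∈ Icc a b, HasDerivWithinAt f (f' z) (Icc a b) z

theorem Der.cont {E : Type*} [NormedAddCommGroup E] [NormedSpace ℝ E] {a b : ℝ} {f f' : ℝ → E}
    (h : Der a b f f') : ContinuousOn f (Icc a b) := fun z hz => (h z hz).continuousWithinAt

theorem Der.of_at {E : Type*} [NormedAddCommGroup E] [NormedSpace ℝ E] {a b : ℝ} {f f' : ℝ → E}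
    (h : ∀ z ∈ Icc a b, HasDerivAt f (f' z) z) : Der a b f f' :=
  fun z hz => (h z hz).hasDerivWithinAt

theorem Der.congr {E : Type*} [NormedAddCommGroup E] [NormedSpace ℝ E] {a b : ℝ}
    {f f' g g' : ℝ → E} (h : Der a b f f') (h1 : ∀ z ∈ Icc a b, g z = f z)
    (h2 : ∀ z ∈ Icc a b, g' z = f' z) : Der a b g g' := fun z hz => by
  rw [h2 z hz]
  exact (h z hz).congr h1 (h1 z hz)

theorem Der.re_mul {a b : ℝ} {f f' : ℝ → ℂ} (h : Der a b f f') (θ : ℂ) :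
    Der a b (fun z => (θ * f z).re) (fun z => (θ * f' z).re) := fun z hz =>
  Complex.reCLM.hasFDerivAt.comp_hasDerivWithinAt z ((h z hz).const_mul θ)

theorem Der.mono_of_nonneg {a b : ℝ} {f f' : ℝ → ℝ} (h : Der a b f f')
    (h0 : ∀ z ∈ Icc a b, 0 ≤ f' z) : MonotoneOn f (Icc a b) :=
  monotoneOn_of_hasDerivWithinAt_nonneg (convex_Icc a b) h.cont
    (fun z hz => (h z (interior_subset hz)).mono interior_subset)
    fun z hz => h0 z (interior_subset hz)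

theorem exists_rot (v : ℂ) : ∃ θ : ℂ, ‖θ‖ = 1 ∧ θ * v = ‖v‖ := by
  by_cases h0 : v = 0
  · exact ⟨1, by simp, by simp [h0]⟩
  · have hn : (‖v‖ : ℂ) ≠ 0 := by simpa using h0
    refine ⟨(starRingEnd ℂ) v / (‖v‖ : ℂ), by simp [h0], ?_⟩
    rw [div_mul_eq_mul_div, Complex.conj_mul', sq, mul_div_assoc, div_self hn, mul_one]

theorem re_mul_le {θ : ℂ} (h : ‖θ‖ = 1) (v : ℂ) : (θ * v).re ≤ ‖v‖ :=
  (Complex.re_le_norm _).trans (by rw [norm_mul, h, one_mul])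

theorem neg_le_re_mul {θ : ℂ} (h : ‖θ‖ = 1) (v : ℂ) : -‖v‖ ≤ (θ * v).re := by
  have := re_mul_le h (-v)
  rw [mul_neg, Complex.neg_re, norm_neg] at this
  linarith

/-- a differential inequality `φ' ≥ A φ` propagates `φ ≤ 0` to the left -/
theorem nonpos_of_ge {a b : ℝ} {φ φ' A B : ℝ → ℝ} (hφ : Der a b φ φ') (hB : Der a b B A)
    (h : ∀ z ∈ Icc a b, A z * φ z ≤ φ' z) {z : ℝ} (hz : z ∈ Icc a b) :
    Real.exp (-B z) * φ z ≤ Real.exp (-B b) * φ b := by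
  have h1 : Der a b (fun z => Real.exp (-B z) * φ z)
      (fun z => Real.exp (-B z) * (φ' z - A z * φ z)) := fun z hz => by
    have := ((hB z hz).neg.exp).mul (hφ z hz)
    refine this.congr_deriv ?_
    simp only [Pi.neg_apply]; ring
  exact h1.mono_of_nonneg (fun z hz => mul_nonneg (Real.exp_pos _).le (by linarith [h z hz]))
    hz ⟨hz.1.trans hz.2, le_rfl⟩ hz.2

/-- first order comparison, integrating inward from `b` -/
theorem fence1 {a b : ℝ} {y y' : ℝ → ℂ} {Y Y' A B : ℝ → ℝ} (hy : Der a b y y') (hY : Der a b Y Y')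
    (hB : Der a b B A) (h : ∀ z ∈ Icc a b, Y' z + ‖y' z - A z * y z‖ ≤ A z * Y z)
    (hb : ‖y b‖ ≤ Y b) {z : ℝ} (hz : z ∈ Icc a b) : ‖y z‖ ≤ Y z := by
  obtain ⟨θ, hθ, hθz⟩ := exists_rot (y z)
  have h1 : Der a b (fun s => (θ * y s).re - Y s) (fun s => (θ * y' s).re - Y' s) :=
    fun s hs => (hy.re_mul θ s hs).sub (hY s hs)
  have h2 := nonpos_of_ge h1 hB (fun s hs => by
    have e1 := neg_le_re_mul hθ (y' s - A s * y s)
    have e2 : (θ * (y' s - A s * y s)).re = (θ * y' s).re - A s * (θ * y s).re := by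
      rw [mul_sub, Complex.sub_re, mul_left_comm, Complex.re_ofReal_mul]
    have := h s hs
    nlinarith) hz
  have h3 : (θ * y b).re - Y b ≤ 0 := by linarith [re_mul_le hθ (y b)]
  have h4 : Real.exp (-B z) * ((θ * y z).re - Y z) ≤ 0 :=
    h2.trans (mul_nonpos_of_nonneg_of_nonpos (Real.exp_pos _).le h3)
  have h5 : (θ * y z).re - Y z ≤ 0 := by
    by_contra h6
    exact absurd h4 (mul_pos (Real.exp_pos _) (not_le.1 h6)).not_ge
  rw [hθz, Complex.ofReal_re] at h5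
  linarith

/-- one-sided second derivative test -/
theorem exists_gt_left {a b z₀ : ℝ} {φ φ' : ℝ → ℝ} {d : ℝ} (hφ : Der a b φ φ')
    (hz : z₀ ∈ Ioc a b) (hd : HasDerivWithinAt φ' d (Icc a b) z₀) (h0 : φ' z₀ ≤ 0) (hd0 : 0 < d) :
    ∃ z ∈ Icc a b, φ z₀ < φ z := by
  have h1 : Icc a b ∈ 𝓝[<] z₀ :=
    mem_of_superset (Ioo_mem_nhdsLT hz.1) fun s hs => ⟨hs.1.le, hs.2.le.trans hz.2⟩
  have h2 : HasDerivWithinAt φ' d (Iio z₀) z₀ := hd.mono_of_mem_nhdsWithin h1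
  rw [hasDerivWithinAt_iff_tendsto_slope' (by simp)] at h2
  have h3 : ∀ᶠ s in 𝓝[<] z₀, φ' s < 0 := by
    filter_upwards [h2.eventually (lt_mem_nhds hd0), self_mem_nhdsWithin] with s hs hs'
    rw [slope_def_field] at hs
    have h4 : s - z₀ < 0 := sub_neg.2 hs'
    have := (div_pos_iff.1 hs).resolve_left fun h => absurd h.2 h4.not_gt
    linarith [this.1]
  obtain ⟨l, hl, hl'⟩ := (mem_nhdsLT_iff_exists_Ioo_subset' hz.1).1 (inter_mem h3 h1)
  obtain ⟨s, hs1, hs2⟩ := exists_between (max_lt (show l < z₀ from hl) hz.1)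
  have hs3 : l < s := (le_max_left _ _).trans_lt hs1
  have hs4 : a < s := (le_max_right _ _).trans_lt hs1
  have hsub : Icc s z₀ ⊆ Icc a b := Icc_subset_Icc hs4.le hz.2
  have h5 : StrictAntiOn φ (Icc s z₀) := by
    refine strictAntiOn_of_hasDerivWithinAt_neg (f' := φ') (convex_Icc _ _) (hφ.cont.mono hsub)
      (fun x hx => (hφ x (hsub (interior_subset hx))).mono (interior_subset.trans hsub))
      fun x hx => ?_
    rw [interior_Icc] at hx
    exact (hl' ⟨hs3.trans hx.1, hx.2⟩).1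
  exact ⟨s, hsub ⟨le_rfl, hs2.le⟩, h5 ⟨le_rfl, hs2.le⟩ ⟨hs2.le, le_rfl⟩ hs2⟩

theorem deriv_nonneg_of_max {a b z₀ : ℝ} {φ : ℝ → ℝ} {d : ℝ} (hz : z₀ ∈ Ioc a b)
    (hd : HasDerivWithinAt φ d (Icc a b) z₀) (hm : ∀ z ∈ Icc a b, φ z ≤ φ z₀) : 0 ≤ d := by
  have h1 : Icc a b ∈ 𝓝[<] z₀ :=
    mem_of_superset (Ioo_mem_nhdsLT hz.1) fun s hs => ⟨hs.1.le, hs.2.le.trans hz.2⟩
  have h2 : HasDerivWithinAt φ d (Iio z₀) z₀ := hd.mono_of_mem_nhdsWithin h1
  rw [hasDerivWithinAt_iff_tendsto_slope' (by simp)] at h2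
  refine ge_of_tendsto h2 ?_
  filter_upwards [h1, self_mem_nhdsWithin] with s hs hs'
  rw [slope_def_field]
  exact div_nonneg_of_nonpos (by linarith [hm s hs]) (sub_neg.2 hs').le

theorem deriv_nonpos_of_max {a b z₀ : ℝ} {φ : ℝ → ℝ} {d : ℝ} (hz : z₀ ∈ Ico a b)
    (hd : HasDerivWithinAt φ d (Icc a b) z₀) (hm : ∀ z ∈ Icc a b, φ z ≤ φ z₀) : d ≤ 0 := by
  have h1 : Icc a b ∈ 𝓝[>] z₀ :=
    mem_of_superset (Ioo_mem_nhdsGT hz.2) fun s hs => ⟨hz.1.trans hs.1.le, hs.2.le⟩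
  have h2 : HasDerivWithinAt φ d (Ioi z₀) z₀ := hd.mono_of_mem_nhdsWithin h1
  rw [hasDerivWithinAt_iff_tendsto_slope' (by simp)] at h2
  refine le_of_tendsto h2 ?_
  filter_upwards [h1, self_mem_nhdsWithin] with s hs hs'
  rw [slope_def_field]
  exact div_nonpos_of_nonpos_of_nonneg (by linarith [hm s hs]) (sub_pos.2 hs').le

/-- maximum principle for `v'' - A v' - β v = F` with a real drift `A` and a complex potential:
Dirichlet data at `a`, Neumann data at `b` -/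
theorem maxP {a b : ℝ} {v v' v'' β : ℝ → ℂ} {m m' m'' A : ℝ → ℝ} (hv : Der a b v v')
    (hv' : Der a b v' v'') (hm : Der a b m m') (hm' : Der a b m' m'')
    (hpos : ∀ z ∈ Icc a b, 0 < m z)
    (hρ : ∀ z ∈ Icc a b, 0 < (β z).re * m z - m'' z + A z * m' z)
    (hF : ∀ z ∈ Icc a b, ‖v'' z - A z * v' z - β z * v z‖ ≤ (β z).re * m z - m'' z + A z * m' z)
    (ha : ‖v a‖ ≤ m a) (hb : ‖v' b‖ ≤ m' b) {z : ℝ} (hz : z ∈ Icc a b) : ‖v z‖ ≤ m z := by
  have hc : ContinuousOn (fun s => ‖v s‖ / m s) (Icc a b) :=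
    hv.cont.norm.div hm.cont fun s hs => (hpos s hs).ne'
  obtain ⟨z₀, hz₀, hmax⟩ := isCompact_Icc.exists_isMaxOn ⟨z, hz⟩ hc
  set t := ‖v z₀‖ / m z₀ with ht
  have hle : ∀ s ∈ Icc a b, ‖v s‖ ≤ t * m s := fun s hs => (div_le_iff₀ (hpos s hs)).1 (hmax hs)
  by_cases ht1 : t ≤ 1
  · exact (hle z hz).trans (mul_le_of_le_one_left (hpos z hz).le ht1)
  exfalso
  rw [not_le] at ht1
  have htm : ‖v z₀‖ = t * m z₀ := by rw [ht, div_mul_cancel₀ _ (hpos z₀ hz₀).ne']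
  have haz : a < z₀ := by
    refine lt_of_le_of_ne hz₀.1 fun h => ?_
    rw [← h] at htm hz₀
    nlinarith [hpos a hz₀]
  obtain ⟨θ, hθ, hθz⟩ := exists_rot (v z₀)
  have h1 : Der a b (fun s => (θ * v s).re - t * m s) (fun s => (θ * v' s).re - t * m' s) :=
    fun s hs => (hv.re_mul θ s hs).sub ((hm s hs).const_mul t)
  have h2 := (hv'.re_mul θ z₀ hz₀).sub ((hm' z₀ hz₀).const_mul t)
  have hmx : ∀ s ∈ Icc a b, (θ * v s).re - t * m s ≤ (θ * v z₀).re - t * m z₀ := fun s hs => by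
    rw [hθz, Complex.ofReal_re, htm, sub_self]
    linarith [re_mul_le hθ (v s), hle s hs]
  have h3 := deriv_nonneg_of_max ⟨haz, hz₀.2⟩ (h1 z₀ hz₀) hmx
  have h4 : (θ * v' z₀).re - t * m' z₀ ≤ 0 := by
    rcases eq_or_lt_of_le hz₀.2 with h | h
    · rw [h]
      have := re_mul_le hθ (v' b)
      nlinarith [norm_nonneg (v' b)]
    · exact deriv_nonpos_of_max ⟨hz₀.1, h⟩ (h1 z₀ hz₀) hmx
  have h5 : (θ * v' z₀).re = t * m' z₀ := by linarith
  have h6 : 0 < (θ * v'' z₀).re - t * m'' z₀ := by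
    have e1 := neg_le_re_mul hθ (v'' z₀ - A z₀ * v' z₀ - β z₀ * v z₀)
    have e2 : (θ * (v'' z₀ - A z₀ * v' z₀ - β z₀ * v z₀)).re =
        (θ * v'' z₀).re - A z₀ * (t * m' z₀) - (β z₀).re * (t * m z₀) := by
      rw [mul_sub, mul_sub, Complex.sub_re, Complex.sub_re, mul_left_comm θ (A z₀ : ℂ),
        Complex.re_ofReal_mul, h5, mul_left_comm θ (β z₀), hθz, Complex.re_mul_ofReal, htm]
    have e3 := hF z₀ hz₀
    have e4 := hρ z₀ hz₀
    nlinarith
  obtain ⟨s, hs, hlt⟩ := exists_gt_left h1 ⟨haz, hz₀.2⟩ h2 h4 h6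
  exact absurd (hmx s hs) hlt.not_ge

/-- second order comparison for the initial value problem, integrating inward from `b`:
`|u'' - A u'| ≤ p |u'| + q |u| + f` -/
theorem fence2 {a b : ℝ} {u u' u'' : ℝ → ℂ} {U U' U'' A B p q f : ℝ → ℝ} (hu : Der a b u u')
    (hu' : Der a b u' u'') (hU : Der a b U U') (hU' : Der a b U' U'') (hB : Der a b B A)
    (hp : ∀ z ∈ Icc a b, 0 ≤ p z) (hq : ∀ z ∈ Icc a b, 0 ≤ q z) (hf : ∀ z ∈ Icc a b, 0 ≤ f z)
    (h1 : ∀ z ∈ Icc a b, 2 * (p z * (-U' z) + q z * U z) ≤ U'' z - A z * U' z)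
    (h2 : ∀ z ∈ Icc a b, 2 * f z ≤ U'' z - A z * U' z)
    (hS : ∀ z ∈ Icc a b, ‖u'' z - A z * u' z‖ ≤ p z * ‖u' z‖ + q z * ‖u z‖ + f z)
    (hb : ‖u b‖ ≤ U b) (hb' : ‖u' b‖ ≤ -U' b) (hb0 : U' b < 0) {z : ℝ} (hz : z ∈ Icc a b) :
    ‖u z‖ ≤ U z ∧ ‖u' z‖ ≤ -U' z := by
  have hV : ∀ s ∈ Icc a b, 0 < -U' s := fun s hs => by
    have e1 := nonpos_of_ge hU' hB (fun s hs => by linarith [h2 s hs, hf s hs]) hs
    have e2 : Real.exp (-B b) * U' b < 0 := mul_neg_of_pos_of_neg (Real.exp_pos _) hb0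
    by_contra h6
    exact absurd (e1.trans_lt e2) (mul_nonneg (Real.exp_pos _).le (by linarith)).not_gt
  have hc : ContinuousOn (fun s => ‖u' s‖ / (-U' s)) (Icc a b) :=
    hu'.cont.norm.div hU'.cont.neg fun s hs => (hV s hs).ne'
  obtain ⟨z₀, hz₀, hmax⟩ := isCompact_Icc.exists_isMaxOn ⟨z, hz⟩ hc
  have key : ∀ t : ℝ, 1 ≤ t → (∀ s ∈ Icc a b, ‖u' s‖ ≤ t * (-U' s)) →
      ∀ s ∈ Icc a b, ‖u s‖ ≤ t * U s := fun t ht h s hs => by
    refine fence1 (Y := fun s => t * U s) (Y' := fun s => t * U' s) (A := fun _ => 0)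
      (B := fun _ => 0) hu (fun s hs => (hU s hs).const_mul t)
      (fun s _ => hasDerivWithinAt_const _ _ _) (fun s hs => ?_) ?_ hs
    · have := h s hs
      simp only [Complex.ofReal_zero, zero_mul, sub_zero]
      linarith
    · nlinarith [norm_nonneg (u b)]
  set t := max 1 (‖u' z₀‖ / (-U' z₀)) with ht
  have ht1 : 1 ≤ t := le_max_left _ _
  have hle : ∀ s ∈ Icc a b, ‖u' s‖ ≤ t * (-U' s) := fun s hs =>
    (div_le_iff₀ (hV s hs)).1 ((hmax hs).trans (le_max_right _ _))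
  have hle2 := key t ht1 hle
  have hbetter : ∀ s ∈ Icc a b, ‖u' s‖ ≤ (t + 1) / 2 * (-U' s) := fun s hs => by
    refine fence1 (Y := fun s => (t + 1) / 2 * (-U' s)) (Y' := fun s => (t + 1) / 2 * (-U'' s))
      hu' (fun s hs => (hU' s hs).neg.const_mul _) hB (fun s hs => ?_) ?_ hs
    · have e1 := hS s hs
      have e2 := mul_le_mul_of_nonneg_left (hle s hs) (hp s hs)
      have e3 := mul_le_mul_of_nonneg_left (hle2 s hs) (hq s hs)
      have e4 := mul_le_mul_of_nonneg_left (h1 s hs) (by linarith : 0 ≤ t)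
      have e5 := h2 s hs
      nlinarith
    · nlinarith [norm_nonneg (u' b)]
  have ht2 : t ≤ 1 := by
    have e1 : ‖u' z₀‖ / (-U' z₀) ≤ (t + 1) / 2 := (div_le_iff₀ (hV z₀ hz₀)).2 (hbetter z₀ hz₀)
    have e2 : t ≤ (t + 1) / 2 := max_le (by linarith) e1
    linarith
  have ht3 : t = 1 := le_antisymm ht2 ht1
  rw [ht3] at hle hle2
  exact ⟨by simpa using hle2 z hz, by simpa using hle z hz⟩

end Vale.Agent.P218F.End
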