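import Vale.Agent.P218F.Mode1
import Vale.Agent.P218F.EndWt

/-!
# Cylindrical ends: existence for the mode equation `u'' - (z/2) u' - β u = F` on `[a, b]`
-/

noncomputable section

namespace Vale.Agent.P218F.End

open Set BoundedContinuousFunction Vale.Agent.P218F.Mode

set_option maxSynthPendingDepth 3

variable {a b : ℝ}

/-- The drift `z / 2` as a bounded function. -/
def drift (a b : ℝ) : BC := ext a b fun z => (z : ℂ) / 2

theorem drift_apply {z : ℝ} (hz : z ∈ Icc a b) : drift a b z = (z : ℂ) / 2 :=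
  ext_of_mem (by fun_prop) hz

theorem star_drift (h : a ≤ b) : star (drift a b) = drift a b := by
  ext z
  simp [drift, ext_apply h (f := fun z => (z : ℂ) / 2) (by fun_prop)]

/-- A solution of the mode equation with its two derivatives. -/
structure MSol (a b : ℝ) (β F u u₁ u₂ : ℝ → ℂ) : Prop where
  d0 : Der a b u u₁
  d1 : Der a b u₁ u₂
  eq : ∀ z ∈ Icc a b, u₂ z - (z : ℂ) / 2 * u₁ z - β z * u z = F z

theorem msol_iff {β F u u₁ u₂ : ℝ → ℂ} :
    MSol a b β F u u₁ u₂ ↔ Sol a b (drift a b) β F u u₁ u₂ :=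
  ⟨fun h => ⟨h.d0, h.d1, fun z hz => by rw [drift_apply hz, ← h.eq z hz]; ring⟩,
    fun h => ⟨h.d0, h.d1, fun z hz => by rw [h.eq z hz, drift_apply hz]; ring⟩⟩

/-- Reordering of the data. -/
def reord : ℂ × ℂ × BC →L[ℂ] D :=
  ((ContinuousLinearMap.snd ℂ _ _).comp (.snd ℂ _ _)).prod ((ContinuousLinearMap.fst ℂ _ _).prod
    ((ContinuousLinearMap.fst ℂ _ _).comp (.snd ℂ _ _)))

@[simp] theorem reord_apply (d : ℂ × ℂ × BC) : reord d = (d.2.2, d.1, d.2.1) := rfl

/-- `(u b, u' b, F) ↦ (u, u', u'')`. -/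
def ivp (a b : ℝ) (β : BC) : ℂ × ℂ × BC →L[ℂ] BC × BC × BC :=
  ((iv0 a b (drift a b) β).prod ((iv1 a b (drift a b) β).prod (iv2 a b (drift a b) β))).comp reord

/-- `(u a, u' b, F) ↦ (u, u', u'')`. -/
def dn (a b : ℝ) (β : BC) : ℂ × ℂ × BC →L[ℂ] BC × BC × BC :=
  ((bv0 a b (drift a b) β).prod ((bv1 a b (drift a b) β).prod (bv2 a b (drift a b) β))).comp reord

theorem ivp_apply (β : BC) (d : ℂ × ℂ × BC) : ivp a b β d =
    (iv0 a b (drift a b) β (d.2.2, d.1, d.2.1), iv1 a b (drift a b) β (d.2.2, d.1, d.2.1),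
      iv2 a b (drift a b) β (d.2.2, d.1, d.2.1)) := rfl

theorem dn_apply (β : BC) (d : ℂ × ℂ × BC) : dn a b β d =
    (bv0 a b (drift a b) β (d.2.2, d.1, d.2.1), bv1 a b (drift a b) β (d.2.2, d.1, d.2.1),
      bv2 a b (drift a b) β (d.2.2, d.1, d.2.1)) := rfl

theorem msol_ivp (β : BC) (d : ℂ × ℂ × BC) :
    MSol a b β d.2.2 (ivp a b β d).1 (ivp a b β d).2.1 (ivp a b β d).2.2 :=
  msol_iff.2 (sol_iv (drift a b) β (d.2.2, d.1, d.2.1))

theorem msol_dn (β : BC) (d : ℂ × ℂ × BC) :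
    MSol a b β d.2.2 (dn a b β d).1 (dn a b β d).2.1 (dn a b β d).2.2 :=
  msol_iff.2 (sol_bv (drift a b) β (d.2.2, d.1, d.2.1))

theorem ivp_right (h : a ≤ b) (β : BC) (d : ℂ × ℂ × BC) :
    (ivp a b β d).1 b = d.1 ∧ (ivp a b β d).2.1 b = d.2.1 :=
  ⟨iv0_right h _ _ _, iv1_right h _ _ _⟩

theorem clamped_ivp (h : a ≤ b) (β : BC) (d : ℂ × ℂ × BC) : Clamped a b (ivp a b β d).1 ∧
    Clamped a b (ivp a b β d).2.1 ∧ Clamped a b (ivp a b β d).2.2 :=
  ⟨clamped_iv0 h _ _ _, clamped_iv1 h _ _ _, clamped_iv2 h _ _ _⟩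

theorem clamped_dn (h : a ≤ b) (β : BC) (d : ℂ × ℂ × BC) : Clamped a b (dn a b β d).1 ∧
    Clamped a b (dn a b β d).2.1 ∧ Clamped a b (dn a b β d).2.2 :=
  ⟨clamped_bv0 h _ _ _, clamped_bv1 h _ _ _, clamped_bv2 h _ _ _⟩

/-- The boundary value problem is nondegenerate. -/
def Nondeg (a b : ℝ) (β : BC) : Prop := phi a b (drift a b) β ≠ 0

theorem nondeg_of_unique (h : a ≤ b) {β : BC}
    (hu : ∀ u u₁ u₂ : ℝ → ℂ, MSol a b β 0 u u₁ u₂ → u a = 0 → u₁ b = 0 → u b = 0) :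
    Nondeg a b β :=
  phi_ne_zero h fun u u₁ u₂ hs => hu u u₁ u₂ (msol_iff.2 hs)

/-- A positive strict supersolution with nonnegative slope at `b` gives nondegeneracy. -/
theorem nondeg_of_barrier (h : a ≤ b) {β : BC} {m m' m'' : ℝ → ℝ} (hm : Der a b m m')
    (hm' : Der a b m' m'') (hpos : ∀ z ∈ Icc a b, 0 < m z)
    (hρ : ∀ z ∈ Icc a b, 0 < (β z).re * m z - m'' z + z / 2 * m' z) (hb : 0 ≤ m' b) :
    Nondeg a b β := by
  refine nondeg_of_unique h fun u u₁ u₂ hs h0 h1 => ?_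
  by_contra hne
  have hmb := hpos b (right_mem_Icc.2 h)
  have hu : 0 < ‖u b‖ := norm_pos_iff.2 hne
  set c : ℝ := 2 * m b / ‖u b‖ with hc
  have key := maxP (v := fun z => (c : ℂ) * u z) (v' := fun z => (c : ℂ) * u₁ z)
    (v'' := fun z => (c : ℂ) * u₂ z) (β := β) (A := fun z => z / 2)
    (fun z hz => (hs.d0 z hz).const_mul _) (fun z hz => (hs.d1 z hz).const_mul _) hm hm' hpos hρ
    (fun z hz => by
      have e := hs.eq z hz
      have : (c : ℂ) * u₂ z - ((z / 2 : ℝ) : ℂ) * (c * u₁ z) - β z * (c * u z) = 0 := by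
        push_cast
        simp only [Pi.zero_apply] at e
        linear_combination (c : ℂ) * e
      rw [this, norm_zero]
      exact (hρ z hz).le)
    (by simp [h0, (hpos a (left_mem_Icc.2 h)).le]) (by simpa [h1] using hb) (right_mem_Icc.2 h)
  rw [norm_mul, Complex.norm_real, Real.norm_of_nonneg (by positivity), hc,
    div_mul_cancel₀ _ hu.ne'] at key
  linarith

theorem dn_left {β : BC} (hn : Nondeg a b β) (d : ℂ × ℂ × BC) : (dn a b β d).1 a = d.1 :=
  bv0_left hn _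

theorem dn_right (h : a ≤ b) (β : BC) (d : ℂ × ℂ × BC) : (dn a b β d).2.1 b = d.2.1 :=
  bv1_right h _ _ _

theorem MSol.eq_ivp {β F : BC} {u u₁ u₂ : ℝ → ℂ} (hs : MSol a b β F u u₁ u₂) {z : ℝ}
    (hz : z ∈ Icc a b) : u z = (ivp a b β (u b, u₁ b, F)).1 z ∧
      u₁ z = (ivp a b β (u b, u₁ b, F)).2.1 z ∧ u₂ z = (ivp a b β (u b, u₁ b, F)).2.2 z :=
  (msol_iff.1 hs).eq_iv hz

theorem MSol.eq_dn {β F : BC} {u u₁ u₂ : ℝ → ℂ} (hs : MSol a b β F u u₁ u₂) (hn : Nondeg a b β)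
    {z : ℝ} (hz : z ∈ Icc a b) : u z = (dn a b β (u a, u₁ b, F)).1 z ∧
      u₁ z = (dn a b β (u a, u₁ b, F)).2.1 z ∧ u₂ z = (dn a b β (u a, u₁ b, F)).2.2 z :=
  (msol_iff.1 hs).eq_bv hn hz

theorem star_ivp (h : a ≤ b) (β : BC) (d : ℂ × ℂ × BC) :
    star (ivp a b β d) = ivp a b (star β) (star d) := by
  have := star_iv h (drift a b) β (d.2.2, d.1, d.2.1)
  rw [star_drift h] at this
  simp only [ivp_apply, Prod.star_def] at this ⊢
  rw [this.1, this.2.1, this.2.2]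

theorem star_dn (h : a ≤ b) (β : BC) (d : ℂ × ℂ × BC) :
    star (dn a b β d) = dn a b (star β) (star d) := by
  have := star_bv h (drift a b) β (d.2.2, d.1, d.2.1)
  rw [star_drift h] at this
  simp only [dn_apply, Prod.star_def] at this ⊢
  rw [this.1, this.2.1, this.2.2]

section Analytic

variable {P : Type*} [NormedAddCommGroup P] [NormedSpace ℂ P] {p : P} {β : P → BC}

theorem analyticAt_clm_prod {X Y Z : Type*} [NormedAddCommGroup X] [NormedSpace ℂ X]
    [NormedAddCommGroup Y] [NormedSpace ℂ Y] [NormedAddCommGroup Z] [NormedSpace ℂ Z]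
    {S : P → X →L[ℂ] Y} {T : P → X →L[ℂ] Z} (hS : AnalyticAt ℂ S p) (hT : AnalyticAt ℂ T p) :
    AnalyticAt ℂ (fun q => (S q).prod (T q)) p := by
  have e : (fun q => (S q).prod (T q)) = fun q =>
      (ContinuousLinearMap.inl ℂ Y Z).comp (S q) + (ContinuousLinearMap.inr ℂ Y Z).comp (T q) := by
    funext q
    ext x <;> simp
  rw [e]
  exact (analyticAt_clm_comp analyticAt_const hS).add (analyticAt_clm_comp analyticAt_const hT)

theorem analyticAt_ivp (h : a ≤ b) (hβ : AnalyticAt ℂ β p) :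
    AnalyticAt ℂ (fun q => ivp a b (β q)) p :=
  analyticAt_clm_comp (analyticAt_clm_prod (analyticAt_iv0 h analyticAt_const hβ)
    (analyticAt_clm_prod (analyticAt_iv1 h analyticAt_const hβ)
      (analyticAt_iv2 h analyticAt_const hβ))) analyticAt_const

theorem analyticAt_dn (h : a ≤ b) (hβ : AnalyticAt ℂ β p) (hn : Nondeg a b (β p)) :
    AnalyticAt ℂ (fun q => dn a b (β q)) p :=
  analyticAt_clm_comp (analyticAt_clm_prod (analyticAt_bv0 h analyticAt_const hβ hn)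
    (analyticAt_clm_prod (analyticAt_bv1 h analyticAt_const hβ hn)
      (analyticAt_bv2 h analyticAt_const hβ hn))) analyticAt_const

theorem differentiableAt_ivp (h : a ≤ b) (hβ : DifferentiableAt ℂ β p) :
    DifferentiableAt ℂ (fun q => ivp a b (β q)) p :=
  DifferentiableAt.comp (g := fun x : BC => ivp a b x) p
    (analyticAt_ivp h analyticAt_id).differentiableAt hβ

theorem differentiableAt_dn (h : a ≤ b) (hβ : DifferentiableAt ℂ β p) (hn : Nondeg a b (β p)) :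
    DifferentiableAt ℂ (fun q => dn a b (β q)) p :=
  DifferentiableAt.comp (g := fun x : BC => dn a b x) p
    (analyticAt_dn h analyticAt_id hn).differentiableAt hβ

end Analytic

end Vale.Agent.P218F.End
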