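import Vale.Agent.P218F.EndWt2
import Vale.Agent.P218F.EndMode

/-! Cylindrical ends: a priori estimates for the mode equations
`u'' - (z/2) u' - (κ² - 2) u / w = F` in weighted sup norms. -/

namespace Vale.Agent.P218F.End

open Set Filter Topology

/-- weights which are admissible for the derivative estimates -/
def AdmD (a R : ℝ) (P : ℝ → ℂ) (m : ℝ → ℝ) : Prop :=
  ∃ m₁, Der a R m m₁ ∧ ∀ z ∈ Icc a R, 0 < m z ∧ m₁ z ≤ (z / 4 + 2 * (P z).re) * m z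

/-- weights which are admissible for the modes `|k| ≥ 2` -/
def AdmH (a R : ℝ) (w : ℝ → ℂ) (m : ℝ → ℝ) : Prop :=
  ∃ m₁ m₂, Der a R m m₁ ∧ Der a R m₁ m₂ ∧ 0 ≤ m₁ R ∧
    ∀ z ∈ Icc a R, 0 < m z ∧ m₂ z - z / 2 * m₁ z ≤ 39 / 20 * mu w z * m z

/-- pairs (weight of the solution, weight of the source) for the potential `-2 α / w` -/
def AdmL (a R : ℝ) (w P : ℝ → ℂ) (α : ℝ) (m f : ℝ → ℝ) : Prop :=
  ∃ U U₁ U₂ : ℝ → ℝ, Der a R U U₁ ∧ Der a R U₁ U₂ ∧ U₁ R < 0 ∧ 0 ≤ U R ∧ ∀ z ∈ Icc a R,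
    U z ≤ m z * Real.exp (α * ell w z) ∧ 0 ≤ f z ∧
    2 * (2 * lm P z * (-U₁ z) + mu w z / 50 * U z) ≤ U₂ z - z / 2 * U₁ z ∧
    2 * (f z * Real.exp (α * ell w z)) ≤ U₂ z - z / 2 * U₁ z

theorem AdmD.add {a R : ℝ} {P : ℝ → ℂ} {m n : ℝ → ℝ} (hm : AdmD a R P m) (hn : AdmD a R P n) :
    AdmD a R P fun z => m z + n z := by
  obtain ⟨m₁, h1, h2⟩ := hm
  obtain ⟨n₁, h3, h4⟩ := hn
  exact ⟨fun z => m₁ z + n₁ z, fun z hz => (h1 z hz).add (h3 z hz), fun z hz =>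
    ⟨add_pos (h2 z hz).1 (h4 z hz).1, by linarith [(h2 z hz).2, (h4 z hz).2]⟩⟩

theorem AdmD.smul {a R c : ℝ} {P : ℝ → ℂ} {m : ℝ → ℝ} (hm : AdmD a R P m) (hc : 0 < c) :
    AdmD a R P fun z => c * m z := by
  obtain ⟨m₁, h1, h2⟩ := hm
  exact ⟨fun z => c * m₁ z, fun z hz => (h1 z hz).const_mul c, fun z hz =>
    ⟨mul_pos hc (h2 z hz).1, by nlinarith [(h2 z hz).2]⟩⟩

theorem AdmD.congr {a R : ℝ} {P : ℝ → ℂ} {m n : ℝ → ℝ} (hm : AdmD a R P m)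
    (h : ∀ z ∈ Icc a R, n z = m z) : AdmD a R P n := by
  obtain ⟨m₁, h1, h2⟩ := hm
  exact ⟨m₁, h1.congr h fun _ _ => rfl, fun z hz => by rw [h z hz]; exact h2 z hz⟩

theorem AdmD.pos {a R : ℝ} {P : ℝ → ℂ} {m : ℝ → ℝ} (hm : AdmD a R P m) {z : ℝ}
    (hz : z ∈ Icc a R) : 0 < m z := (hm.choose_spec.2 z hz).1

theorem AdmD.cont {a R : ℝ} {P : ℝ → ℂ} {m : ℝ → ℝ} (hm : AdmD a R P m) :
    ContinuousOn m (Icc a R) := hm.choose_spec.1.cont

theorem AdmH.add {a R : ℝ} {w : ℝ → ℂ} {m n : ℝ → ℝ} (hm : AdmH a R w m) (hn : AdmH a R w n) :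
    AdmH a R w fun z => m z + n z := by
  obtain ⟨m₁, m₂, h1, h2, h3, h4⟩ := hm
  obtain ⟨n₁, n₂, k1, k2, k3, k4⟩ := hn
  exact ⟨fun z => m₁ z + n₁ z, fun z => m₂ z + n₂ z, fun z hz => (h1 z hz).add (k1 z hz),
    fun z hz => (h2 z hz).add (k2 z hz), add_nonneg h3 k3, fun z hz =>
    ⟨add_pos (h4 z hz).1 (k4 z hz).1, by linarith [(h4 z hz).2, (k4 z hz).2]⟩⟩

theorem AdmH.smul {a R c : ℝ} {w : ℝ → ℂ} {m : ℝ → ℝ} (hm : AdmH a R w m) (hc : 0 < c) :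
    AdmH a R w fun z => c * m z := by
  obtain ⟨m₁, m₂, h1, h2, h3, h4⟩ := hm
  exact ⟨fun z => c * m₁ z, fun z => c * m₂ z, fun z hz => (h1 z hz).const_mul c,
    fun z hz => (h2 z hz).const_mul c, mul_nonneg hc.le h3, fun z hz =>
    ⟨mul_pos hc (h4 z hz).1, by nlinarith [(h4 z hz).2]⟩⟩

theorem AdmH.congr {a R : ℝ} {w : ℝ → ℂ} {m n : ℝ → ℝ} (hm : AdmH a R w m)
    (h : ∀ z ∈ Icc a R, n z = m z) : AdmH a R w n := by
  obtain ⟨m₁, m₂, h1, h2, h3, h4⟩ := hm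
  exact ⟨m₁, m₂, h1.congr h fun _ _ => rfl, h2, h3, fun z hz => by rw [h z hz]; exact h4 z hz⟩

theorem AdmL.mono {a R α : ℝ} {w P : ℝ → ℂ} {m f m' f' : ℝ → ℝ} (hm : AdmL a R w P α m f)
    (h1 : ∀ z ∈ Icc a R, m z ≤ m' z) (h2 : ∀ z ∈ Icc a R, 0 ≤ f' z ∧ f' z ≤ f z) :
    AdmL a R w P α m' f' := by
  obtain ⟨U, U₁, U₂, k1, k2, k3, k4, k5⟩ := hm
  refine ⟨U, U₁, U₂, k1, k2, k3, k4, fun z hz => ⟨(k5 z hz).1.trans ?_, (h2 z hz).1,
    (k5 z hz).2.2.1, le_trans ?_ (k5 z hz).2.2.2⟩⟩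
  · exact mul_le_mul_of_nonneg_right (h1 z hz) (Real.exp_pos _).le
  · have := mul_le_mul_of_nonneg_right (h2 z hz).2 (Real.exp_pos (α * ell w z)).le
    linarith

/-- bounds for the normalised jets of one mode -/
structure JB (a R : ℝ) (w : ℝ → ℂ) (κ : ℝ) (u u₁ u₂ : ℝ → ℂ) (m : ℝ → ℝ) (T : ℝ) : Prop where
  j0 : ∀ z ∈ Icc a R, (1 + κ) ^ 2 * ‖u z‖ ≤ T * m z
  j1 : ∀ z ∈ Icc a R, z * ‖w z‖ * ‖u₁ z‖ ≤ T * m z
  j1' : ∀ z ∈ Icc a R, (1 + κ) * ‖w z‖ * ‖u₁ z‖ ≤ T * m z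
  j2 : ∀ z ∈ Icc a R, ‖w z‖ * ‖u₂ z‖ ≤ T * m z

theorem JB.mono {a R κ T T' : ℝ} {w u u₁ u₂ : ℝ → ℂ} {m m' : ℝ → ℝ} (h : JB a R w κ u u₁ u₂ m T)
    (h1 : ∀ z ∈ Icc a R, T * m z ≤ T' * m' z) : JB a R w κ u u₁ u₂ m' T' :=
  ⟨fun z hz => (h.j0 z hz).trans (h1 z hz), fun z hz => (h.j1 z hz).trans (h1 z hz),
    fun z hz => (h.j1' z hz).trans (h1 z hz), fun z hz => (h.j2 z hz).trans (h1 z hz)⟩

theorem le_of_forall_eps {x A m : ℝ} (hm : 0 ≤ m) (h : ∀ ε > 0, x ≤ (A + ε) * m) : x ≤ A * m := by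
  refine le_of_forall_pos_le_add fun ε hε => (h (ε / (m + 1)) (by positivity)).trans ?_
  have : ε / (m + 1) * m ≤ ε := by
    rw [div_mul_eq_mul_div, div_le_iff₀ (by positivity)]; nlinarith
  linarith

namespace Prof

variable {C₀ Λ a R : ℝ} {w P P₁ : ℝ → ℂ} (h : Prof C₀ Λ a R w P P₁)
  {β F u u₁ u₂ : ℝ → ℂ} {m f : ℝ → ℝ} {κ A B T : ℝ}
include h

/-- (H) the modes `|k| ≥ 2` -/
theorem high (hs : MSol a R β F u u₁ u₂) (hκ : 2 ≤ κ)
    (hβ : ∀ z ∈ Icc a R, β z = ((κ ^ 2 - 2 : ℝ) : ℂ) * (w z)⁻¹) (hm : AdmH a R w m)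
    (hF : ∀ z ∈ Icc a R, ‖F z‖ ≤ A * (mu w z * m z)) (ha : ‖u a‖ ≤ B * m a) (hb : u₁ R = 0)
    {z : ℝ} (hz : z ∈ Icc a R) : (1 + κ) ^ 2 * ‖u z‖ ≤ ((1 + κ) ^ 2 * B + 180 * A) * m z := by
  obtain ⟨m₁, m₂, h1, h2, h3, h4⟩ := hm
  have hk : 0 < (1 + κ) ^ 2 := by positivity
  have hA : 0 ≤ A := nonneg_of_mul_nonneg_left ((norm_nonneg _).trans (hF z hz))
    (mul_pos (h.mu0 hz) (h4 z hz).1)
  have hB : 0 ≤ B := nonneg_of_mul_nonneg_left ((norm_nonneg _).trans ha) (h4 a h.mema).1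
  have key : ‖u z‖ ≤ (B + 180 * A / (1 + κ) ^ 2) * m z := by
    refine le_of_forall_eps (h4 z hz).1.le fun ε hε => ?_
    set t := B + 180 * A / (1 + κ) ^ 2 + ε with ht
    have ht0 : 0 < t := by positivity
    have ht1 : 180 * A ≤ t * (1 + κ) ^ 2 := by
      rw [← div_le_iff₀ hk]; linarith
    have hρ : ∀ z ∈ Icc a R, t * (1 + κ) ^ 2 / 180 * (mu w z * m z) ≤
        (β z).re * (t * m z) - t * m₂ z + z / 2 * (t * m₁ z) := fun z hz => by
      rw [hβ z hz, Complex.re_ofReal_mul]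
      have e1 := mul_le_mul_of_nonneg_left (h4 z hz).2 ht0.le
      have e2 : (1 + κ) ^ 2 / 180 ≤ κ ^ 2 - 2 - 39 / 20 := by nlinarith
      have e3 := mul_le_mul_of_nonneg_left e2 (mul_pos ht0 (mul_pos (h.mu0 hz) (h4 z hz).1)).le
      unfold mu at *
      nlinarith
    refine maxP (m := fun z => t * m z) (m' := fun z => t * m₁ z) (m'' := fun z => t * m₂ z)
      (A := fun z => z / 2) (β := β) hs.d0 hs.d1 (fun z hz => (h1 z hz).const_mul t)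
      (fun z hz => (h2 z hz).const_mul t) (fun z hz => mul_pos ht0 (h4 z hz).1)
      (fun z hz => lt_of_lt_of_le ?_ (hρ z hz)) (fun z hz => le_trans ?_ (hρ z hz)) ?_ ?_ hz
    · have := mul_pos (h.mu0 hz) (h4 z hz).1
      positivity
    · push_cast
      rw [hs.eq z hz]
      refine (hF z hz).trans (mul_le_mul_of_nonneg_right (by linarith)
        (mul_pos (h.mu0 hz) (h4 z hz).1).le)
    · refine ha.trans (mul_le_mul_of_nonneg_right ?_ (h4 a h.mema).1.le)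
      have : 0 ≤ 180 * A / (1 + κ) ^ 2 := by positivity
      linarith
    · rw [hb, norm_zero]
      exact mul_nonneg ht0.le h3
  calc (1 + κ) ^ 2 * ‖u z‖ ≤ (1 + κ) ^ 2 * ((B + 180 * A / (1 + κ) ^ 2) * m z) := by gcongr
    _ = _ := by field_simp

theorem d_quot (hm : AdmD a R P m) : ∃ n₁, Der a R (fun z => m z * ‖w z‖⁻¹) n₁ ∧
    ∀ z ∈ Icc a R, n₁ z ≤ z / 4 * (m z * ‖w z‖⁻¹) := by
  obtain ⟨m₁, h1, h2⟩ := hm
  refine ⟨_, fun z hz => (h1 z hz).mul (h.d_ninv z hz), fun z hz => ?_⟩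
  have := mul_le_mul_of_nonneg_right (h2 z hz).2 (inv_pos.2 (h.n0 hz)).le
  linarith

/-- (D) first and second derivative -/
theorem deriv_le (d1 : Der a R u₁ u₂) (hm : AdmD a R P m) (hb : u₁ R = 0)
    (hH : ∀ z ∈ Icc a R, ‖w z‖ * ‖u₂ z - (z : ℂ) / 2 * u₁ z‖ ≤ A * m z) {z : ℝ}
    (hz : z ∈ Icc a R) : z * ‖w z‖ * ‖u₁ z‖ ≤ 4 * A * m z ∧ ‖w z‖ * ‖u₂ z‖ ≤ 3 * A * m z := by
  obtain ⟨n₁, h1, h2⟩ := h.d_quot hm
  have hA : 0 ≤ A := nonneg_of_mul_nonneg_left (le_trans (by positivity) (hH z hz)) (hm.pos hz)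
  have key : ‖u₁ z‖ ≤ 4 * A * (m z * ‖w z‖⁻¹ * (1 / z)) := by
    refine fence1 (Y := fun z => 4 * A * (m z * ‖w z‖⁻¹ * (1 / z))) (A := fun z => z / 2)
      (B := fun z => z ^ 2 / 4) d1 (fun z hz => ((h1 z hz).mul (h.d_inv z hz)).const_mul _)
      (Der.of_at fun z _ => ?_) (fun z hz => ?_) ?_ hz
    · simpa using ((hasDerivAt_pow 2 z).div_const 4).congr_deriv (by norm_num; ring)
    · have e0 := h.z0 hz
      have e1 : ‖u₂ z - ((z / 2 : ℝ) : ℂ) * u₁ z‖ ≤ A * (m z * ‖w z‖⁻¹) := by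
        push_cast
        rw [← mul_assoc, ← div_eq_mul_inv, le_div_iff₀ (h.n0 hz), mul_comm]
        exact hH z hz
      have e2 : n₁ z * (1 / z) ≤ m z * ‖w z‖⁻¹ / 4 :=
        (mul_le_mul_of_nonneg_right (h2 z hz) (by positivity)).trans_eq (by field_simp)
      have e3 : 0 ≤ m z * ‖w z‖⁻¹ := (mul_pos (hm.pos hz) (inv_pos.2 (h.n0 hz))).le
      have e4 : m z * ‖w z‖⁻¹ * (-1 / z ^ 2) ≤ 0 :=
        mul_nonpos_of_nonneg_of_nonpos e3 (div_nonpos_of_nonpos_of_nonneg (by norm_num) (by positivity))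
      have e5 : z / 2 * (4 * A * (m z * ‖w z‖⁻¹ * (1 / z))) = 2 * A * (m z * ‖w z‖⁻¹) := by
        field_simp; norm_num
      rw [e5]
      nlinarith
    · rw [hb, norm_zero]
      have := hm.pos h.memR
      have := h.R0
      positivity
  have e0 := h.z0 hz
  have e1 := h.n0 hz
  have k1 : z * ‖w z‖ * ‖u₁ z‖ ≤ 4 * A * m z :=
    (mul_le_mul_of_nonneg_left key (by positivity)).trans_eq (by field_simp)
  refine ⟨k1, ?_⟩
  have k2 : ‖u₂ z‖ ≤ ‖u₂ z - (z : ℂ) / 2 * u₁ z‖ + z / 2 * ‖u₁ z‖ := by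
    have := norm_add_le (u₂ z - (z : ℂ) / 2 * u₁ z) ((z : ℂ) / 2 * u₁ z)
    rw [sub_add_cancel, norm_mul, norm_div, Complex.norm_real, Real.norm_of_nonneg e0.le,
      Complex.norm_two] at this
    exact this
  have k3 := mul_le_mul_of_nonneg_left k2 e1.le
  nlinarith [hH z hz]

/-- (D) the mixed derivative -/
theorem mixed_le (d0 : Der a R u u₁) (d1 : Der a R u₁ u₂) (hκ : 0 ≤ κ) (hm : AdmD a R P m)
    (hb : u₁ R = 0) (h0 : ∀ z ∈ Icc a R, (1 + κ) ^ 2 * ‖u z‖ ≤ T * m z)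
    (hH : ∀ z ∈ Icc a R, ‖w z‖ * ‖u₂ z - (z : ℂ) / 2 * u₁ z‖ ≤ A * m z) {z : ℝ}
    (hz : z ∈ Icc a R) : (1 + κ) * ‖w z‖ * ‖u₁ z‖ ≤ (A + 48 * T) * m z := by
  obtain ⟨n₁, h1, h2⟩ := h.d_quot hm
  have hA : 0 ≤ A := nonneg_of_mul_nonneg_left (le_trans (by positivity) (hH z hz)) (hm.pos hz)
  have hT : 0 ≤ T := nonneg_of_mul_nonneg_left (le_trans (by positivity) (h0 z hz)) (hm.pos hz)
  have hk : 0 < 1 + κ := by positivity
  have h3 : ∀ z ∈ Icc a R, (1 + κ) * (κ * ‖u z‖) ≤ 16 * T * (m z * ‖w z‖⁻¹) := fun z hz => by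
    have e1 : m z ≤ 16 * (m z * ‖w z‖⁻¹) := by
      rw [← div_eq_mul_inv, ← mul_div_assoc, le_div_iff₀ (h.n0 hz)]
      nlinarith [h.n16 hz, hm.pos hz]
    have e2 := mul_le_mul_of_nonneg_left e1 hT
    nlinarith [h0 z hz, norm_nonneg (u z)]
  have key : ‖((1 + κ : ℝ) : ℂ) * (u₁ z + κ * u z)‖ ≤ (A + 32 * T) * (m z * ‖w z‖⁻¹) := by
    refine fence1 (y := fun z => ((1 + κ : ℝ) : ℂ) * (u₁ z + κ * u z))
      (Y := fun z => (A + 32 * T) * (m z * ‖w z‖⁻¹)) (A := fun z => z / 2 + κ)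
      (B := fun z => z ^ 2 / 4 + κ * z)
      (fun z hz => ((d1 z hz).add ((d0 z hz).const_mul (κ : ℂ))).const_mul _)
      (fun z hz => (h1 z hz).const_mul _) (Der.of_at fun z _ => ?_) (fun z hz => ?_) ?_ hz
    · exact (((hasDerivAt_pow 2 z).div_const 4).add
        ((hasDerivAt_id z).const_mul κ)).congr_deriv (by norm_num; ring)
    · have e0 := h.z100 hz
      have e1 : ‖u₂ z - (z : ℂ) / 2 * u₁ z‖ ≤ A * (m z * ‖w z‖⁻¹) := by
        rw [← mul_assoc, ← div_eq_mul_inv, le_div_iff₀ (h.n0 hz), mul_comm]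
        exact hH z hz
      have e2 : ((1 + κ : ℝ) : ℂ) * (u₂ z + κ * u₁ z) -
          ((z / 2 + κ : ℝ) : ℂ) * (((1 + κ : ℝ) : ℂ) * (u₁ z + κ * u z)) =
          ((1 + κ : ℝ) : ℂ) * (u₂ z - (z : ℂ) / 2 * u₁ z) -
            (((z / 2 + κ) * ((1 + κ) * κ) : ℝ) : ℂ) * u z := by push_cast; ring
      have e3 : 0 ≤ m z * ‖w z‖⁻¹ := (mul_pos (hm.pos hz) (inv_pos.2 (h.n0 hz))).le
      have e4 := norm_sub_le (((1 + κ : ℝ) : ℂ) * (u₂ z - (z : ℂ) / 2 * u₁ z))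
        ((((z / 2 + κ) * ((1 + κ) * κ) : ℝ) : ℂ) * u z)
      rw [norm_mul, norm_mul, Complex.norm_real, Complex.norm_real, Real.norm_of_nonneg hk.le,
        Real.norm_of_nonneg (by positivity)] at e4
      have e5 := mul_le_mul_of_nonneg_left e1 hk.le
      have e6 := mul_le_mul_of_nonneg_left (h3 z hz) (by positivity : 0 ≤ z / 2 + κ)
      have e7 := mul_le_mul_of_nonneg_left (h2 z hz) (by positivity : 0 ≤ A + 32 * T)
      have e8 := mul_nonneg hA e3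
      have e9 := mul_nonneg hT e3
      rw [e2]
      nlinarith [mul_nonneg hκ e9]
    · rw [hb, zero_add, norm_mul, norm_mul, Complex.norm_real, Complex.norm_real,
        Real.norm_of_nonneg hk.le, Real.norm_of_nonneg hκ]
      have e3 : 0 ≤ m R * ‖w R‖⁻¹ := (mul_pos (hm.pos h.memR) (inv_pos.2 (h.n0 h.memR))).le
      nlinarith [h3 R h.memR, mul_nonneg hA e3, mul_nonneg hT e3]
  rw [norm_mul, Complex.norm_real, Real.norm_of_nonneg hk.le] at key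
  have k1 : ‖u₁ z‖ ≤ ‖u₁ z + κ * u z‖ + κ * ‖u z‖ := by
    have := norm_sub_le (u₁ z + κ * u z) (κ * u z)
    rwa [add_sub_cancel_right, norm_mul, Complex.norm_real, Real.norm_of_nonneg hκ] at this
  have k2 : (1 + κ) * ‖u₁ z‖ ≤ (A + 48 * T) * (m z * ‖w z‖⁻¹) := by
    nlinarith [h3 z hz, mul_le_mul_of_nonneg_left k1 hk.le]
  have e1 := h.n0 hz
  calc (1 + κ) * ‖w z‖ * ‖u₁ z‖ = ‖w z‖ * ((1 + κ) * ‖u₁ z‖) := by ring
    _ ≤ ‖w z‖ * ((A + 48 * T) * (m z * ‖w z‖⁻¹)) := by gcongr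
    _ = _ := by field_simp

/-- (D) all jets from the bound for the function -/
theorem jets (hs : MSol a R β F u u₁ u₂) (hκ : 0 ≤ κ)
    (hβ : ∀ z ∈ Icc a R, β z = ((κ ^ 2 - 2 : ℝ) : ℂ) * (w z)⁻¹) (hm : AdmD a R P m)
    (hb : u₁ R = 0) (h0 : ∀ z ∈ Icc a R, (1 + κ) ^ 2 * ‖u z‖ ≤ T * m z)
    (hF : ∀ z ∈ Icc a R, ‖w z‖ * ‖F z‖ ≤ A * m z) : JB a R w κ u u₁ u₂ m (50 * T + 4 * A) := by
  have hA : 0 ≤ A := nonneg_of_mul_nonneg_left (le_trans (by positivity) (hF a h.mema))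
    (hm.pos h.mema)
  have hT : 0 ≤ T := nonneg_of_mul_nonneg_left (le_trans (by positivity) (h0 a h.mema))
    (hm.pos h.mema)
  have hH : ∀ z ∈ Icc a R, ‖w z‖ * ‖u₂ z - (z : ℂ) / 2 * u₁ z‖ ≤ (2 * T + A) * m z := fun z hz => by
    have e1 : w z * (u₂ z - (z : ℂ) / 2 * u₁ z) = ((κ ^ 2 - 2 : ℝ) : ℂ) * u z + w z * F z := by
      rw [← hs.eq z hz, hβ z hz]; field_simp [h.ne hz]; ring
    have e2 : |κ ^ 2 - 2| ≤ 2 * (1 + κ) ^ 2 := abs_le.2 ⟨by nlinarith, by nlinarith⟩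
    rw [← norm_mul, e1]
    refine (norm_add_le _ _).trans ?_
    rw [norm_mul, norm_mul, Complex.norm_real, Real.norm_eq_abs]
    nlinarith [h0 z hz, hF z hz, mul_le_mul_of_nonneg_right e2 (norm_nonneg (u z))]
  refine ⟨fun z hz => (h0 z hz).trans ?_, fun z hz => (h.deriv_le hs.d1 hm hb hH hz).1.trans ?_,
    fun z hz => (h.mixed_le hs.d0 hs.d1 hκ hm hb h0 hH hz).trans ?_,
    fun z hz => (h.deriv_le hs.d1 hm hb hH hz).2.trans ?_⟩ <;>
  exact mul_le_mul_of_nonneg_right (by linarith) (hm.pos hz).le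

/-- (L) the modes `|k| ≤ 1`, potential `-2 α / w` -/
theorem low {α : ℝ} (hs : MSol a R β F u u₁ u₂) (hα : 0 ≤ α) (hα1 : α ≤ 1)
    (hβ : ∀ z ∈ Icc a R, β z = ((-2 * α : ℝ) : ℂ) * (w z)⁻¹) (hm : AdmL a R w P α m f)
    (hA : 0 ≤ A) (hF : ∀ z ∈ Icc a R, ‖F z‖ ≤ A * f z) (h0 : u R = 0) (hb : u₁ R = 0)
    {z : ℝ} (hz : z ∈ Icc a R) : ‖u z‖ ≤ A * m z := by
  obtain ⟨U, U₁, U₂, k1, k2, k3, k4, k5⟩ := hm
  set G : ℝ → ℂ := fun z => Complex.exp (α * (Complex.log (w z) - 2 * (Real.log z : ℝ))) with hG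
  set L : ℝ → ℂ := fun z => 2 * P z - 2 * ((1 / z : ℝ) : ℂ) with hL
  have dG : Der a R G fun z => G z * (α * L z) := fun z hz =>
    (((h.d_clog z hz).sub ((h.d_log z hz).ofReal_comp.const_mul 2)).const_mul (α : ℂ)).cexp
  have dL : Der a R L fun z => 2 * P₁ z - 2 * ((-1 / z ^ 2 : ℝ) : ℂ) := fun z hz =>
    ((h.dP z hz).const_mul 2).sub ((h.d_inv z hz).ofReal_comp.const_mul 2)
  have nG : ∀ z, ‖G z‖ = Real.exp (α * ell w z) := fun z => by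
    simp [hG, Complex.norm_exp, Complex.log_re, ell]
  have nL : ∀ z ∈ Icc a R, ‖L z‖ ≤ lm P z := fun z hz => by
    refine (norm_sub_le _ _).trans ?_
    have := h.z0 hz
    simp [lm, abs_of_pos this, div_eq_mul_inv]
  have d0 : Der a R (fun z => u z * G z) fun z => (u₁ z + α * L z * u z) * G z := fun z hz =>
    ((hs.d0 z hz).mul (dG z hz)).congr_deriv (by ring)
  have d1 : Der a R (fun z => (u₁ z + α * L z * u z) * G z) fun z =>
      (u₂ z + (α * (2 * P₁ z - 2 * ((-1 / z ^ 2 : ℝ) : ℂ)) * u z + α * L z * u₁ z)) * G z +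
        (u₁ z + α * L z * u z) * (G z * (α * L z)) := fun z hz =>
    ((hs.d1 z hz).add (((dL z hz).const_mul (α : ℂ)).mul (hs.d0 z hz))).mul (dG z hz)
  have key : ∀ ε > 0, ‖u z * G z‖ ≤ (A + ε) * U z := fun ε hε => by
    have hp : 0 < A + ε := by linarith
    refine (fence2 (U := fun z => (A + ε) * U z) (U' := fun z => (A + ε) * U₁ z)
      (U'' := fun z => (A + ε) * U₂ z) (A := fun z => z / 2) (B := fun z => z ^ 2 / 4)
      (p := fun z => 2 * lm P z) (q := fun z => mu w z / 50)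
      (f := fun z => (A + ε) * (f z * Real.exp (α * ell w z))) d0 d1
      (fun z hz => (k1 z hz).const_mul _) (fun z hz => (k2 z hz).const_mul _)
      (Der.of_at fun z _ => ?_) (fun z hz => by linarith [h.lm0 hz])
      (fun z hz => by linarith [h.mu0 hz])
      (fun z hz => mul_nonneg hp.le (mul_nonneg (k5 z hz).2.1 (Real.exp_pos _).le))
      (fun z hz => by nlinarith [mul_le_mul_of_nonneg_left (k5 z hz).2.2.1 hp.le])
      (fun z hz => by nlinarith [mul_le_mul_of_nonneg_left (k5 z hz).2.2.2 hp.le])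
      (fun z hz => ?_) ?_ ?_ (mul_neg_of_pos_of_neg hp k3) hz).1
    · simpa using ((hasDerivAt_pow 2 z).div_const 4).congr_deriv (by norm_num; ring)
    · have e0 : (z : ℂ) ≠ 0 := by exact_mod_cast (h.z0 hz).ne'
      have e1 : (u₂ z + (α * (2 * P₁ z - 2 * ((-1 / z ^ 2 : ℝ) : ℂ)) * u z + α * L z * u₁ z)) * G z +
          (u₁ z + α * L z * u z) * (G z * (α * L z)) -
            ((z / 2 : ℝ) : ℂ) * ((u₁ z + α * L z * u z) * G z) =
          2 * α * L z * ((u₁ z + α * L z * u z) * G z) +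
            (α * (2 * ((1 / z ^ 2 : ℝ) : ℂ) - EE w P z) - (α * L z) ^ 2) * (u z * G z) +
              F z * G z := by
        rw [← hs.eq z hz, hβ z hz, h.ode z hz, EE, hL]
        push_cast
        field_simp
        ring
      have e2 : ‖2 * α * L z‖ ≤ 2 * lm P z := by
        rw [norm_mul, norm_mul, Complex.norm_real, Real.norm_of_nonneg hα, Complex.norm_two]
        nlinarith [nL z hz, norm_nonneg (L z)]
      have e3 : ‖α * (2 * ((1 / z ^ 2 : ℝ) : ℂ) - EE w P z) - (α * L z) ^ 2‖ ≤ mu w z / 50 := by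
        refine (norm_sub_le _ _).trans ?_
        rw [norm_pow, norm_mul, norm_mul, Complex.norm_real, Real.norm_of_nonneg hα]
        have t1 := norm_sub_le (2 * ((1 / z ^ 2 : ℝ) : ℂ)) (EE w P z)
        rw [norm_mul, Complex.norm_real, Real.norm_of_nonneg (by positivity), Complex.norm_two] at t1
        have t2 : (α * ‖L z‖) ^ 2 ≤ lm P z ^ 2 :=
          pow_le_pow_left₀ (by positivity) (by nlinarith [nL z hz, norm_nonneg (L z)]) 2
        have t3 := mul_le_of_le_one_left (norm_nonneg (2 * ((1 / z ^ 2 : ℝ) : ℂ) - EE w P z)) hα1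
        linarith [h.E_small hz, h.z_small hz, h.lm_sq hz, h.mu0 hz]
      rw [e1]
      refine (norm_add₃_le).trans (add_le_add (add_le_add ?_ ?_) ?_)
      · rw [norm_mul]; gcongr
      · rw [norm_mul]; gcongr
      · rw [norm_mul, nG, ← mul_assoc]
        refine mul_le_mul_of_nonneg_right ((hF z hz).trans ?_) (Real.exp_pos _).le
        exact mul_le_mul_of_nonneg_right (by linarith) (k5 z hz).2.1
    · simp only [h0, zero_mul, norm_zero]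
      exact mul_nonneg hp.le k4
    · simp only [h0, hb, mul_zero, add_zero, zero_mul, norm_zero]
      linarith [mul_neg_of_pos_of_neg hp k3]
  have hU : 0 ≤ U z := nonneg_of_mul_nonneg_right ((norm_nonneg _).trans (key 1 one_pos))
    (by linarith)
  have k6 := (le_of_forall_eps hU key).trans (mul_le_mul_of_nonneg_left (k5 z hz).1 hA)
  rw [norm_mul, nG, ← mul_assoc] at k6
  exact le_of_mul_le_mul_right k6 (Real.exp_pos _)

end Prof

/-- the basic family of weights `(|w| / z²)^γ z^β e^(s z + c)` -/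
noncomputable def pw (w : ℝ → ℂ) (γ β s c z : ℝ) : ℝ :=
  Real.exp (γ * ell w z + β * Real.log z + s * z + c)

/-- logarithmic derivative of `pw` -/
noncomputable def pl (P : ℝ → ℂ) (γ β s z : ℝ) : ℝ := γ * e1 P z + β * (1 / z) + s

theorem pw_pos (w : ℝ → ℂ) (γ β s c z : ℝ) : 0 < pw w γ β s c z := Real.exp_pos _

theorem pw_mul (w : ℝ → ℂ) (γ β s c γ' β' s' c' z : ℝ) :
    pw w γ β s c z * pw w γ' β' s' c' z = pw w (γ + γ') (β + β') (s + s') (c + c') z := by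
  unfold pw; rw [← Real.exp_add]; congr 1; ring

theorem pw_mul_exp (w : ℝ → ℂ) (γ β s c α z : ℝ) :
    pw w γ β s c z * Real.exp (α * ell w z) = pw w (γ + α) β s c z := by
  unfold pw; rw [← Real.exp_add]; congr 1; ring

theorem om_eq (a R : ℝ) (w : ℝ → ℂ) :
    om a R w = pw w (19 / 20) 0 (19 / 10 / R) (19 / 10 * Real.log a) := by
  funext z; unfold om pw; congr 1; ring

/-- the boundary layer factor -/
noncomputable def bl (R z : ℝ) : ℝ := Real.exp (z - R)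

theorem bl_pos (R z : ℝ) : 0 < bl R z := Real.exp_pos _

theorem bl_le {R z : ℝ} (h : z ≤ R) : bl R z ≤ 1 := Real.exp_le_one_iff.2 (by linarith)

theorem bl_eq (w : ℝ → ℂ) (R z : ℝ) : bl R z = pw w 0 0 1 (-R) z := by
  unfold bl pw; congr 1; ring

/-- the weight `(z² / |w|)^(9/20)` -/
noncomputable def mL (w : ℝ → ℂ) (z : ℝ) : ℝ := pw w (-(9 / 20)) 0 0 0 z

theorem mL_pos (w : ℝ → ℂ) (z : ℝ) : 0 < mL w z := Real.exp_pos _

namespace Prof

variable {C₀ Λ a R : ℝ} {w P P₁ : ℝ → ℂ} (h : Prof C₀ Λ a R w P P₁)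
  {β F u u₁ u₂ : ℝ → ℂ} {m f : ℝ → ℝ} {κ A B T : ℝ}
include h

theorem norm_eq {z : ℝ} (hz : z ∈ Icc a R) : ‖w z‖ = pw w 1 2 0 0 z := by
  rw [← Real.exp_log (h.n0 hz)]; unfold pw ell; congr 1; ring

theorem ninv_eq {z : ℝ} (hz : z ∈ Icc a R) : ‖w z‖⁻¹ = pw w (-1) (-2) 0 0 z := by
  rw [← Real.exp_log (h.n0 hz), ← Real.exp_neg]; unfold pw ell; congr 1; ring

theorem z_eq {z : ℝ} (hz : z ∈ Icc a R) : z = pw w 0 1 0 0 z := by
  unfold pw; simp [Real.exp_log (h.z0 hz)]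

theorem d_pw (γ b s c : ℝ) : Der a R (pw w γ b s c) fun z => pw w γ b s c z * pl P γ b s z :=
  fun z hz => (((((h.d_ell z hz).const_mul γ).add ((h.d_log z hz).const_mul b)).add
    ((hasDerivWithinAt_id z _).const_mul s)).add_const c).exp.congr_deriv (by
      unfold pw pl; simp)

theorem d_pw1 (γ b s c : ℝ) : Der a R (fun z => pw w γ b s c z * pl P γ b s z) fun z =>
    pw w γ b s c z * (pl P γ b s z ^ 2 + γ * e2 P₁ z - b * (1 / z ^ 2)) := fun z hz =>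
  ((h.d_pw γ b s c z hz).mul ((((h.d_e1 z hz).const_mul γ).add
    ((h.d_inv z hz).const_mul b)).add_const s)).congr_deriv (by simp only [pl, Pi.add_apply]; ring)

theorem pw_op {z : ℝ} (hz : z ∈ Icc a R) (γ b s : ℝ) :
    pl P γ b s z ^ 2 + γ * e2 P₁ z - b * (1 / z ^ 2) - z / 2 * pl P γ b s z =
      pl P γ b s z ^ 2 + γ * (e2 P₁ z - z / 2 * e1 P z) - b * (1 / z ^ 2 + 1 / 2) - s * z / 2 := by
  have := (h.z0 hz).ne'
  unfold pl; field_simp; ring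

theorem inv_le_lm {z : ℝ} (hz : z ∈ Icc a R) : 0 < 1 / z ∧ 2 * (1 / z) ≤ lm P z := by
  have := h.z0 hz
  refine ⟨by positivity, ?_⟩
  have e : 2 * (1 / z) = 2 / z := by ring
  unfold lm
  linarith [norm_nonneg (P z)]

theorem admD_pw {γ b s : ℝ} (c : ℝ) (hγ : |γ| ≤ 3) (hb : b ≤ 4) (hs : s ≤ 5) :
    AdmD a R P (pw w γ b s c) := by
  refine ⟨_, h.d_pw γ b s c, fun z hz => ⟨pw_pos .., ?_⟩⟩
  rw [mul_comm]
  refine mul_le_mul_of_nonneg_right ?_ (pw_pos ..).le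
  have e1' : γ * e1 P z ≤ 3 * lm P z := by
    refine (le_abs_self _).trans ?_
    rw [abs_mul]
    exact mul_le_mul hγ (h.e1_le hz) (abs_nonneg _) (by norm_num)
  have e2 := neg_abs_le (P z).re
  have e3 := mul_le_mul_of_nonneg_right hb (h.inv_le_lm hz).1.le
  unfold pl
  linarith [h.reP_le hz, h.lm_z hz, h.z100 hz, (h.inv_le_lm hz).2]

theorem admD_om : AdmD a R P (om a R w) := by
  rw [om_eq]
  refine h.admD_pw _ (by norm_num [abs_of_pos]) (by norm_num) ?_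
  rw [div_le_iff₀ h.R0]
  linarith [h.z100 h.memR]

theorem pl_om {z : ℝ} (hz : z ∈ Icc a R) (γ : ℝ) :
    |γ * e1 P z + 2 * γ / R| ≤ |γ| * lm P z := by
  have e0 : γ * e1 P z + 2 * γ / R = γ * (e1 P z + 2 / R) := by ring
  rw [e0, abs_mul]
  refine mul_le_mul_of_nonneg_left ?_ (abs_nonneg _)
  have h1 := Complex.abs_re_le_norm (P z)
  have h2 : 2 / R ≤ 2 / z := div_le_div_of_nonneg_left (by norm_num) (h.z0 hz) hz.2
  have h3 : 0 < 2 / R := div_pos two_pos h.R0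
  rw [abs_le] at h1 ⊢
  unfold e1 lm
  constructor <;> linarith [h1.1, h1.2]

theorem admH_om : AdmH a R w (om a R w) := by
  rw [om_eq]
  refine ⟨_, _, h.d_pw _ _ _ _, h.d_pw1 _ _ _ _, ?_, fun z hz => ⟨pw_pos .., ?_⟩⟩
  · refine mul_nonneg (pw_pos ..).le (le_of_eq ?_)
    unfold pl; rw [h.e1_R]; ring
  · have e1' := h.pw_op hz (19 / 20) 0 (19 / 10 / R)
    have e2 := (abs_le.1 (h.master hz)).2
    have e3 : |pl P (19 / 20) 0 (19 / 10 / R) z| ≤ lm P z := by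
      have := h.pl_om hz (19 / 20)
      rw [abs_of_pos (by norm_num : (0 : ℝ) < 19 / 20)] at this
      refine le_trans (le_of_eq ?_) (this.trans (by linarith [h.lm0 hz]))
      unfold pl; congr 1; ring
    have e4 := pow_le_pow_left₀ (abs_nonneg _) e3 2
    rw [sq_abs] at e4
    have e5 : 0 ≤ 19 / 10 / R * z / 2 := by have := h.R0; have := h.z0 hz; positivity
    have e6 := pw_pos w (19 / 20) 0 (19 / 10 / R) (19 / 10 * Real.log a) z
    nlinarith [h.lm_sq hz, h.mu0 hz]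

theorem admL_pw {α γ b : ℝ} (c : ℝ) (h1 : 1 ≤ γ + α) (h2 : γ + α ≤ 2) (hb : b ≤ 0)
    (hb' : -2 ≤ b) : AdmL a R w P α (pw w γ b 0 c) fun z => mu w z * pw w γ b 0 c z / 2 := by
  refine ⟨_, _, _, h.d_pw (γ + α) b 0 c, h.d_pw1 _ _ _ _, ?_, (pw_pos ..).le, fun z hz => ?_⟩
  · refine mul_neg_of_pos_of_neg (pw_pos ..) ?_
    have := (h.inv_le_lm h.memR).1
    have e : pl P (γ + α) b 0 R = (b - 2 * (γ + α)) * (1 / R) := by unfold pl; rw [h.e1_R]; ring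
    rw [e]
    exact mul_neg_of_neg_of_pos (by linarith) this
  · have e1' := h.pw_op hz (γ + α) b 0
    have e2 := (abs_le.1 (h.master hz)).1
    have e3 : -pl P (γ + α) b 0 z ≤ 3 * lm P z := by
      have t1 := mul_le_mul_of_nonneg_left (abs_le.1 (h.e1_le hz)).1 (by linarith : 0 ≤ γ + α)
      have t2 := mul_le_mul_of_nonneg_right hb' (h.inv_le_lm hz).1.le
      have t3 := mul_le_mul_of_nonneg_right h2 (h.lm0 hz)
      unfold pl
      linarith [(h.inv_le_lm hz).2]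
    have e4 := mul_le_mul_of_nonneg_left e3 (h.lm0 hz)
    have e5 : 0 ≤ -b * (1 / z ^ 2 + 1 / 2) := mul_nonneg (by linarith) (by positivity)
    have e6 := pw_pos w (γ + α) b 0 c z
    have e7 : 199 / 100 * mu w z ≤ (γ + α) * (End.e2 P₁ z - z / 2 * e1 P z) := by
      nlinarith [h.mu0 hz]
    have e8 : 199 / 100 * mu w z ≤ pl P (γ + α) b 0 z ^ 2 + (γ + α) * End.e2 P₁ z -
      b * (1 / z ^ 2) - z / 2 * pl P (γ + α) b 0 z := by nlinarith [sq_nonneg (pl P (γ + α) b 0 z)]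
    have e9 := mul_le_mul_of_nonneg_left e8 e6.le
    have e10 : 2 * (2 * lm P z * -pl P (γ + α) b 0 z + mu w z / 50) ≤ mu w z := by
      nlinarith [h.lm_sq hz, h.mu0 hz]
    have e11 := mul_le_mul_of_nonneg_left e10 e6.le
    have e12 := mul_pos e6 (h.mu0 hz)
    refine ⟨(pw_mul_exp ..).ge, (div_pos (mul_pos (h.mu0 hz) (pw_pos ..)) two_pos).le,
      by nlinarith, ?_⟩
    rw [div_mul_eq_mul_div, mul_assoc, pw_mul_exp]
    nlinarith

omit h in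
theorem exp_two : Real.exp 2 ≤ 8 := by
  have := Real.exp_one_lt_d9
  have e : Real.exp 2 = Real.exp 1 * Real.exp 1 := by rw [← Real.exp_add]; norm_num
  nlinarith [Real.exp_pos 1]

theorem pw_cmp {z s : ℝ} (hz : z ∈ Icc a R) (γ b c : ℝ) (hs : 0 ≤ s) (hs' : s * R ≤ 2) :
    pw w γ b 0 c z ≤ pw w γ b s c z ∧ pw w γ b s c z ≤ 8 * pw w γ b 0 c z := by
  have e1 : pw w γ b s c z = Real.exp (s * z) * pw w γ b 0 c z := by
    unfold pw; rw [← Real.exp_add]; congr 1; ring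
  have e2 : 1 ≤ Real.exp (s * z) := Real.one_le_exp (mul_nonneg hs (h.z0 hz).le)
  have e3 : Real.exp (s * z) ≤ 8 :=
    (Real.exp_le_exp.2 ((mul_le_mul_of_nonneg_left hz.2 hs).trans hs')).trans exp_two
  have := pw_pos w γ b 0 c z
  rw [e1]
  constructor <;> nlinarith

theorem admL_om {α : ℝ} (h1 : 1 / 2 ≤ α) (h2 : α ≤ 1) :
    AdmL a R w P α (om a R w) fun z => mu w z * om a R w z / 16 := by
  have hs : ∀ z ∈ Icc a R, _ := fun z hz => h.pw_cmp (s := 19 / 10 / R) hz (19 / 20) 0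
    (19 / 10 * Real.log a) (div_pos (by norm_num) h.R0).le (by
      rw [div_mul_cancel₀ _ h.R0.ne']; norm_num)
  refine (h.admL_pw (γ := 19 / 20) (b := 0) (19 / 10 * Real.log a) (by linarith) (by linarith)
    le_rfl (by norm_num)).mono (fun z hz => ?_) fun z hz => ⟨?_, ?_⟩
  · rw [om_eq]; exact (hs z hz).1
  · have := mul_pos (h.mu0 hz) (om_pos a R w z)
    positivity
  · rw [om_eq]
    nlinarith [(hs z hz).2, h.mu0 hz]

theorem sq_eq {z : ℝ} (hz : z ∈ Icc a R) : om a R w z ^ 2 / ‖w z‖ =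
    pw w (9 / 10) (-2) (19 / 5 / R) (19 / 5 * Real.log a) z := by
  rw [div_eq_mul_inv, h.ninv_eq hz, om_eq, sq, pw_mul, pw_mul]
  congr 1 <;> ring

theorem admD_sq : AdmD a R P fun z => om a R w z ^ 2 / ‖w z‖ := by
  refine (h.admD_pw _ (by norm_num [abs_of_pos]) (by norm_num) ?_).congr fun z hz => h.sq_eq hz
  rw [div_le_iff₀ h.R0]
  linarith [h.z100 h.memR]

/-- the refined weight `ω² / |w|` of the low modes -/
theorem admL_sq {α : ℝ} (h1 : 1 / 2 ≤ α) (h2 : α ≤ 1) :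
    AdmL a R w P α (fun z => om a R w z ^ 2 / ‖w z‖)
      fun z => mu w z * (om a R w z ^ 2 / ‖w z‖) / 128 := by
  have hR : 0 ≤ 19 / 10 / R := (div_pos (by norm_num) h.R0).le
  have hR' : 19 / 10 / R * R ≤ 2 := by rw [div_mul_cancel₀ _ h.R0.ne']; norm_num
  have hs : ∀ z ∈ Icc a R, pw w (9 / 10) (-2) 0 (19 / 5 * Real.log a) z ≤
      om a R w z ^ 2 / ‖w z‖ ∧ om a R w z ^ 2 / ‖w z‖ ≤
        64 * pw w (9 / 10) (-2) 0 (19 / 5 * Real.log a) z := fun z hz => by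
    obtain ⟨t1, t2⟩ := h.pw_cmp hz (19 / 20) 0 (19 / 10 * Real.log a) hR hR'
    have e : pw w (9 / 10) (-2) 0 (19 / 5 * Real.log a) z =
        pw w (19 / 20) 0 0 (19 / 10 * Real.log a) z ^ 2 / ‖w z‖ := by
      rw [div_eq_mul_inv _ ‖w z‖, h.ninv_eq hz, sq, pw_mul, pw_mul]
      congr 1 <;> ring
    have t3 := pw_pos w (19 / 20) 0 0 (19 / 10 * Real.log a) z
    have t4 := h.n0 hz
    rw [e, om_eq, ← mul_div_assoc]
    constructor
    · gcongr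
    · refine div_le_div_of_nonneg_right ?_ t4.le
      have := pow_le_pow_left₀ (pw_pos ..).le t2 2
      linarith
  refine (h.admL_pw (γ := 9 / 10) (b := -2) (19 / 5 * Real.log a) (by linarith) (by linarith)
    (by norm_num) le_rfl).mono (fun z hz => (hs z hz).1) fun z hz => ⟨?_, ?_⟩
  · have := h.mu0 hz
    positivity
  · nlinarith [(hs z hz).2, h.mu0 hz]

theorem om_a : 3 / 4 ≤ om a R w a := by
  have h1 : 3 / 4 ≤ ‖w a‖ :=
    (h.re_ge h.mema (by linarith [h.aR', h.a0])).trans (Complex.re_le_norm _)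
  have h2 := Real.log_le_log (by norm_num) h1
  have h3 : Real.log (3 / 4) ≤ 0 := Real.log_nonpos (by norm_num) (by norm_num)
  have h4 : 0 ≤ 19 / 10 * a / R := by have := h.a0; have := h.R0; positivity
  rw [← Real.exp_log (by norm_num : (0 : ℝ) < 3 / 4)]
  exact Real.exp_le_exp.2 (by unfold ell; linarith)

/-- all jets of a mode `|k| ≥ 2` -/
theorem mode_high (hs : MSol a R β F u u₁ u₂) (hκ : 2 ≤ κ)
    (hβ : ∀ z ∈ Icc a R, β z = ((κ ^ 2 - 2 : ℝ) : ℂ) * (w z)⁻¹) (hm : AdmH a R w m)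
    (hm' : AdmD a R P m) (hF : ∀ z ∈ Icc a R, ‖F z‖ ≤ A * (mu w z * m z)) (ha : ‖u a‖ ≤ B * m a)
    (hb : u₁ R = 0) : JB a R w κ u u₁ u₂ m (50 * ((1 + κ) ^ 2 * B) + 9004 * A) := by
  have hA : 0 ≤ A := nonneg_of_mul_nonneg_left ((norm_nonneg _).trans (hF a h.mema))
    (mul_pos (h.mu0 h.mema) (hm'.pos h.mema))
  refine (h.jets (A := A) hs (by linarith) hβ hm' hb (fun z hz => h.high hs hκ hβ hm hF ha hb hz)
    fun z hz => ?_).mono fun z hz => le_of_eq (by ring)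
  refine (mul_le_mul_of_nonneg_left (hF z hz) (norm_nonneg _)).trans ?_
  nlinarith [mul_le_mul_of_nonneg_left (h.mu_le hz) (mul_nonneg hA (hm'.pos hz).le)]

/-- the function itself for a mode `|k| ≤ 1` -/
theorem low' (hs : MSol a R β F u u₁ u₂) (hκ : 0 ≤ κ) (hκ1 : κ ≤ 1)
    (hβ : ∀ z ∈ Icc a R, β z = ((κ ^ 2 - 2 : ℝ) : ℂ) * (w z)⁻¹)
    (hm : ∀ α, 1 / 2 ≤ α → α ≤ 1 → AdmL a R w P α m f) (hA : 0 ≤ A)
    (hF : ∀ z ∈ Icc a R, ‖F z‖ ≤ A * f z) (h0 : u R = 0) (hb : u₁ R = 0) {z : ℝ}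
    (hz : z ∈ Icc a R) : ‖u z‖ ≤ A * m z :=
  h.low (α := 1 - κ ^ 2 / 2) hs (by nlinarith) (by nlinarith)
    (fun z hz => by rw [hβ z hz]; congr 2; ring) (hm _ (by nlinarith) (by nlinarith)) hA hF h0 hb hz

/-- all jets of a mode `|k| ≤ 1` when the source weight is `μ m / K` -/
theorem mode_low {K : ℝ} (hs : MSol a R β F u u₁ u₂) (hκ : 0 ≤ κ) (hκ1 : κ ≤ 1)
    (hβ : ∀ z ∈ Icc a R, β z = ((κ ^ 2 - 2 : ℝ) : ℂ) * (w z)⁻¹) (hK : 0 < K)
    (hm : ∀ α, 1 / 2 ≤ α → α ≤ 1 → AdmL a R w P α m fun z => mu w z * m z / K)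
    (hm' : AdmD a R P m) (hF : ∀ z ∈ Icc a R, ‖F z‖ ≤ A * (mu w z * m z)) (h0 : u R = 0)
    (hb : u₁ R = 0) : JB a R w κ u u₁ u₂ m ((200 * K + 4) * A) := by
  have hA : 0 ≤ A := nonneg_of_mul_nonneg_left ((norm_nonneg _).trans (hF a h.mema))
    (mul_pos (h.mu0 h.mema) (hm'.pos h.mema))
  refine (h.jets (A := A) (T := 4 * (K * A)) hs hκ hβ hm' hb (fun z hz => ?_)
    fun z hz => ?_).mono fun z hz => le_of_eq (by ring)
  · have e1 := h.low' (A := K * A) hs hκ hκ1 hβ hm (by positivity)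
      (fun z hz => (hF z hz).trans_eq (by field_simp)) h0 hb hz
    have e2 : (1 + κ) ^ 2 ≤ 4 := by nlinarith
    nlinarith [norm_nonneg (u z)]
  · refine (mul_le_mul_of_nonneg_left (hF z hz) (norm_nonneg _)).trans ?_
    nlinarith [mul_le_mul_of_nonneg_left (h.mu_le hz) (mul_nonneg hA (hm'.pos hz).le)]

/-- **the estimate in the main weight**, for every mode `k` -/
theorem mode_om (hs : MSol a R β F u u₁ u₂) (k : ℤ)
    (hβ : ∀ z ∈ Icc a R, β z = ((k : ℂ) ^ 2 - 2) * (w z)⁻¹)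
    (hF : ∀ z ∈ Icc a R, ‖F z‖ ≤ A * (mu w z * om a R w z)) (hB : 0 ≤ B)
    (ha : 2 ≤ |k| → ‖u a‖ ≤ B) (h0 : |k| ≤ 1 → u R = 0) (hb : u₁ R = 0) :
    JB a R w |(k : ℝ)| u u₁ u₂ (om a R w) (67 * ((1 + |(k : ℝ)|) ^ 2 * B) + 9004 * A) := by
  have hA : 0 ≤ A := nonneg_of_mul_nonneg_left ((norm_nonneg _).trans (hF a h.mema))
    (mul_pos (h.mu0 h.mema) (om_pos ..))
  have hβ' : ∀ z ∈ Icc a R, β z = ((|(k : ℝ)| ^ 2 - 2 : ℝ) : ℂ) * (w z)⁻¹ := fun z hz => by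
    rw [hβ z hz, sq_abs]; push_cast; rfl
  have hk : 0 ≤ (1 + |(k : ℝ)|) ^ 2 * B := by positivity
  rcases le_or_gt 2 |k| with h2 | h2
  · refine (h.mode_high (B := 4 / 3 * B) hs (by exact_mod_cast h2) hβ' h.admH_om h.admD_om hF
      ((ha h2).trans (by nlinarith [h.om_a])) hb).mono fun z _ =>
      mul_le_mul_of_nonneg_right (by linarith) (om_pos ..).le
  · have h3 : |k| ≤ 1 := by omega
    refine (h.mode_low (K := 16) hs (abs_nonneg _) (by exact_mod_cast h3) hβ' (by norm_num)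
      (fun α => h.admL_om) h.admD_om hF (h0 h3) hb).mono fun z _ =>
      mul_le_mul_of_nonneg_right (by linarith) (om_pos ..).le

end Prof

end Vale.Agent.P218F.End
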