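import Vale.Agent.P218F.EndV
import Vale.Agent.P218F.EndEst

/-! Cylindrical ends: `ModeEst` for admissible weights. -/

namespace Vale.Agent.P218F.End

open Set

theorem JB.out {C₀ Λ a R : ℝ} {w P P₁ : ℝ → ℂ} (h : Prof C₀ Λ a R w P P₁) {κ T : ℝ}
    {u u₁ u₂ : ℝ → ℂ} {m : ℝ → ℝ} (hj : JB a R w κ u u₁ u₂ m T) {z : ℝ} (hz : z ∈ Icc a R) :
    (1 + κ) ^ 2 * ‖u z‖ ≤ T * m z ∧ ‖u₁ z‖ ≤ T * (m z / (z * ‖w z‖)) ∧
      (1 + κ) * ‖u₁ z‖ ≤ T * (m z / ‖w z‖) ∧ ‖u₂ z‖ ≤ T * (m z / ‖w z‖) := by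
  have h1 := h.z0 hz
  have h2 := h.n0 hz
  refine ⟨hj.j0 z hz, ?_, ?_, ?_⟩ <;> rw [← mul_div_assoc, le_div_iff₀ (by positivity)]
  · linarith [hj.j1 z hz]
  · linarith [hj.j1' z hz]
  · linarith [hj.j2 z hz]

/-- `ModeEst` for a weight which is admissible for all modes -/
theorem Prof.modeEst {C₀ Λ a R K : ℝ} {w P P₁ : ℝ → ℂ} (h : Prof C₀ Λ a R w P P₁) {m : ℝ → ℝ}
    (hH : AdmH a R w m) (hD : AdmD a R P m) (hK : 0 < K)
    (hL : ∀ α, 1 / 2 ≤ α → α ≤ 1 → AdmL a R w P α m fun z => mu w z * m z / K) :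
    ModeEst a R w m (fun z => mu w z * m z) (9054 + 200 * K) := by
  intro k F u u₁ u₂ t ht hs hF hb ha h0 z hz
  have hβ : ∀ z ∈ Icc a R, ((k : ℂ) ^ 2 - 2) * (w z)⁻¹ =
      ((|(k : ℝ)| ^ 2 - 2 : ℝ) : ℂ) * (w z)⁻¹ := fun z hz => by
    rw [sq_abs]; push_cast; rfl
  refine JB.out h ?_ hz
  rcases le_or_gt 2 |k| with h2 | h2
  · have hk : 0 < (1 + |(k : ℝ)|) ^ 2 := by positivity
    refine (h.mode_high (B := t / (1 + |(k : ℝ)|) ^ 2) hs (by exact_mod_cast h2) hβ hH hD hF ?_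
      hb).mono fun z hz => mul_le_mul_of_nonneg_right ?_ (hD.pos hz).le
    · rw [div_mul_eq_mul_div, le_div_iff₀ hk, mul_comm]
      exact ha h2
    · rw [mul_div_cancel₀ _ hk.ne']
      nlinarith
  · have h3 : |k| ≤ 1 := by omega
    exact (h.mode_low hs (abs_nonneg _) (by exact_mod_cast h3) hβ hK hL hD hF (h0 h3) hb).mono
      fun z hz => mul_le_mul_of_nonneg_right (by nlinarith) (hD.pos hz).le

theorem mainEst_proof : MainEstStmt := fun _ _ =>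
  ⟨9054 + 200 * 16, by norm_num, fun _ _ _ _ _ _ h =>
    h.modeEst h.admH_om h.admD_om (by norm_num) fun _ => h.admL_om⟩

end Vale.Agent.P218F.End
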