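import Vale.Agent.P218F.Wien3
import Vale.Agent.P218F.CoreHol

/-!
# Bounded maps which are holomorphic after a norming family of operators are holomorphic
-/

noncomputable section

namespace Vale.Agent.P218F.Wien

open Filter Topology Set Metric BoundedContinuousFunction

set_option maxSynthPendingDepth 3

variable {P : Type*} [NormedAddCommGroup P] [NormedSpace ℂ P]

section Norming

variable {W : Type*} [NormedAddCommGroup W] [NormedSpace ℂ W] [CompleteSpace W] {ι : Type*}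
  {V : ι → Type*} [∀ i, NormedAddCommGroup (V i)] [∀ i, NormedSpace ℂ (V i)]

theorem differentiableAt_of_norming (φ : ∀ i, W →L[ℂ] V i) (h1 : ∀ i w, ‖φ i w‖ ≤ ‖w‖)
    (h2 : ∀ (w : W) (C : ℝ), 0 ≤ C → (∀ i, ‖φ i w‖ ≤ C) → ‖w‖ ≤ C) {g : P → W} {a : P} {r M : ℝ}
    (hr : 0 < r) (hb : ∀ q ∈ ball a r, ‖g q‖ ≤ M)
    (hd : ∀ i, DifferentiableOn ℂ (fun q => φ i (g q)) (ball a r)) : DifferentiableAt ℂ g a := by
  have hM : 0 ≤ M := (norm_nonneg _).trans (hb a (mem_ball_self hr))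
  have b0 : ∀ i, ∀ q ∈ ball a r, ‖φ i (g q)‖ ≤ M := fun i q hq => (h1 i _).trans (hb q hq)
  set L : ∀ i, P →L[ℂ] V i := fun i => fderiv ℂ (fun q => φ i (g q)) a with hL
  set K : ℝ := 4 * M / r ^ 2 with hK
  have hK0 : 0 ≤ K := by positivity
  have rem : ∀ i, ∀ q ∈ ball a r, ‖φ i (g q) - φ i (g a) - L i (q - a)‖ ≤ K * ‖q - a‖ ^ 2 :=
    fun i q hq => Core.rem_le (hd i) (b0 i) hq
  have inj : ∀ w w' : W, (∀ i, φ i w = φ i w') → w = w' := fun w w' h => by
    have := h2 (w - w') 0 le_rfl fun i => by rw [map_sub, h i, sub_self, norm_zero]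
    exact sub_eq_zero.1 (norm_le_zero_iff.1 this)
  have ex : ∀ v : P, ∃ w : W, ∀ i, φ i w = L i v := by
    intro v
    set c : ℝ := r / (‖v‖ + 1) with hc
    have hc0 : 0 < c := by positivity
    set t : ℕ → ℝ := fun n => c * (1 / 2) ^ n with ht
    have ht0 : ∀ n, 0 < t n := fun n => by positivity
    have htv : ∀ n, a + (t n : ℂ) • v ∈ ball a r := fun n => by
      rw [mem_ball_iff_norm, add_sub_cancel_left, norm_smul, Complex.norm_real,
        Real.norm_of_nonneg (ht0 n).le]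
      have h3 : t n ≤ c := mul_le_of_le_one_right hc0.le (pow_le_one₀ (by norm_num) (by norm_num))
      calc t n * ‖v‖ ≤ c * ‖v‖ := by gcongr
        _ < c * (‖v‖ + 1) := by gcongr; linarith
        _ = r := by rw [hc]; field_simp
    set d : ℕ → W := fun n => (t n : ℂ)⁻¹ • (g (a + (t n : ℂ) • v) - g a) with hd'
    have e1 : ∀ n i, ‖φ i (d n) - L i v‖ ≤ K * ‖v‖ ^ 2 * t n := fun n i => by
      have h3 := rem i _ (htv n)
      have hne : (t n : ℂ) ≠ 0 := by exact_mod_cast (ht0 n).ne'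
      rw [add_sub_cancel_left, map_smul, norm_smul, Complex.norm_real,
        Real.norm_of_nonneg (ht0 n).le] at h3
      have h4 : φ i (d n) - L i v =
          (t n : ℂ)⁻¹ • (φ i (g (a + (t n : ℂ) • v)) - φ i (g a) - (t n : ℂ) • L i v) := by
        rw [smul_sub, smul_smul, inv_mul_cancel₀ hne, one_smul, hd']
        simp only [map_smul, map_sub]
      rw [h4, norm_smul, norm_inv, Complex.norm_real, Real.norm_of_nonneg (ht0 n).le,
        inv_mul_le_iff₀ (ht0 n)]
      exact h3.trans (le_of_eq (by ring))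
    have hcs : CauchySeq d := by
      refine cauchySeq_of_le_geometric (1 / 2) (2 * K * ‖v‖ ^ 2 * c) (by norm_num) fun n => ?_
      rw [dist_eq_norm]
      refine h2 _ _ (by positivity) fun i => ?_
      have h3 : φ i (d n - d (n + 1)) = (φ i (d n) - L i v) - (φ i (d (n + 1)) - L i v) := by
        rw [map_sub]; abel
      rw [h3]
      refine (norm_sub_le _ _).trans ((add_le_add (e1 n i) (e1 (n + 1) i)).trans ?_)
      have h4 : t (n + 1) ≤ t n := by
        simp only [ht, pow_succ]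
        have : 0 < c * (1 / 2) ^ n := by positivity
        nlinarith
      have h5 : K * ‖v‖ ^ 2 * t (n + 1) ≤ K * ‖v‖ ^ 2 * t n := by gcongr
      simp only [ht] at h5 ⊢
      linarith
    obtain ⟨w, hw⟩ := cauchySeq_tendsto_of_complete hcs
    refine ⟨w, fun i => tendsto_nhds_unique (((φ i).continuous.tendsto w).comp hw) ?_⟩
    rw [tendsto_iff_norm_sub_tendsto_zero]
    refine squeeze_zero (fun _ => norm_nonneg _) (fun n => e1 n i) ?_
    simpa [ht] using ((tendsto_pow_atTop_nhds_zero_of_lt_one (r := (1 / 2 : ℝ)) (by norm_num)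
      (by norm_num)).const_mul c).const_mul (K * ‖v‖ ^ 2)
  choose D hD using ex
  let T : P →L[ℂ] W := LinearMap.mkContinuous
    { toFun := D
      map_add' := fun x y => inj _ _ fun i => by simp [hD]
      map_smul' := fun c x => inj _ _ fun i => by simp [hD] } (2 * M / r) fun v =>
      h2 _ _ (by positivity) fun i => by
        change ‖φ i (D v)‖ ≤ _
        rw [hD]
        exact ((L i).le_opNorm v).trans
          (mul_le_mul_of_nonneg_right (Core.fderiv_le hr (hd i) (b0 i)) (norm_nonneg _))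
  refine (Core.hasFDerivAt_of_quad (L := T) (C := K) hr fun q hq => ?_).differentiableAt
  refine h2 _ _ (by positivity) fun i => ?_
  have h3 : φ i (T (q - a)) = L i (q - a) := hD _ i
  rw [map_sub, map_sub, h3]
  exact rem i q hq

theorem differentiableOn_of_norming (φ : ∀ i, W →L[ℂ] V i) (h1 : ∀ i w, ‖φ i w‖ ≤ ‖w‖)
    (h2 : ∀ (w : W) (C : ℝ), 0 ≤ C → (∀ i, ‖φ i w‖ ≤ C) → ‖w‖ ≤ C) {g : P → W} {U : Set P}
    (hU : IsOpen U) (hb : ∀ a ∈ U, ∃ M, ∀ᶠ q in 𝓝 a, ‖g q‖ ≤ M)
    (hd : ∀ i, DifferentiableOn ℂ (fun q => φ i (g q)) U) : DifferentiableOn ℂ g U := by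
  intro a ha
  obtain ⟨M, hM⟩ := hb a ha
  obtain ⟨r, hr, hs⟩ := Metric.mem_nhds_iff.1 (inter_mem hM (hU.mem_nhds ha))
  exact (differentiableAt_of_norming φ h1 h2 hr (fun q hq => (hs hq).1)
    fun i => (hd i).mono fun q hq => (hs hq).2).differentiableWithinAt

end Norming

variable {U : Set P}

omit [NormedSpace ℂ P] in
theorem locBdd_of_bdd {W : Type*} [NormedAddCommGroup W] {g : P → W} (hU : IsOpen U) {M : ℝ}
    (hb : ∀ q ∈ U, ‖g q‖ ≤ M) : ∀ a ∈ U, ∃ M, ∀ᶠ q in 𝓝 a, ‖g q‖ ≤ M :=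
  fun _ ha => ⟨M, mem_of_superset (hU.mem_nhds ha) hb⟩

/-- Maps into bounded continuous functions. -/
theorem differentiableOn_bcf {X E : Type*} [TopologicalSpace X] [NormedAddCommGroup E]
    [NormedSpace ℂ E] [CompleteSpace E] {g : P → X →ᵇ E} (hU : IsOpen U)
    (hb : ∀ a ∈ U, ∃ M, ∀ᶠ q in 𝓝 a, ‖g q‖ ≤ M)
    (hd : ∀ x, DifferentiableOn ℂ (fun q => g q x) U) : DifferentiableOn ℂ g U :=
  differentiableOn_of_norming (V := fun _ : X => E) (fun x => evalCLM ℂ x)
    (fun x f => f.norm_coe_le_norm x)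
    (fun _ _ hC h => (BoundedContinuousFunction.norm_le hC).2 h) hU hb hd

/-- Maps into bounded operators. -/
theorem differentiableOn_clm {E F : Type*} [NormedAddCommGroup E] [NormedSpace ℂ E]
    [NormedAddCommGroup F] [NormedSpace ℂ F] [CompleteSpace F] {T : P → E →L[ℂ] F} (hU : IsOpen U)
    (hb : ∀ a ∈ U, ∃ M, ∀ᶠ q in 𝓝 a, ‖T q‖ ≤ M)
    (hd : ∀ u, DifferentiableOn ℂ (fun q => T q u) U) : DifferentiableOn ℂ T U := by
  refine differentiableOn_of_norming (V := fun _ : closedBall (0 : E) 1 => F)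
    (fun u => ContinuousLinearMap.apply ℂ F (u : E)) (fun u S => ?_) (fun S C hC h => ?_) hU hb
    fun u => hd u
  · exact (S.le_opNorm u).trans
      (mul_le_of_le_one_right (norm_nonneg _) (mem_closedBall_zero_iff.1 u.2))
  · exact ContinuousLinearMap.opNorm_le_of_unit_norm hC fun x hx =>
      h ⟨x, mem_closedBall_zero_iff.2 hx.le⟩

variable {G : Type*} [SeminormedAddCommGroup G] {s t : ℕ} {E F : Type*} [NormedAddCommGroup E]
  [NormedSpace ℂ E] [NormedAddCommGroup F] [NormedSpace ℂ F] [CompleteSpace F]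

theorem norm_le_of_proj {u : WA G s F} {C : ℝ} (h : ∀ B : Finset G, ‖proj G s F B u‖ ≤ C) :
    ‖u‖ ≤ C := by
  have h1 : Tendsto (fun B : Finset G => proj G s F B u) atTop (𝓝 u) := by
    simp only [proj_finset]
    exact hasSum_single u
  exact le_of_tendsto' h1.norm h

/-- Maps into the Wiener spaces. -/
theorem differentiableOn_WA {g : P → WA G s F} (hU : IsOpen U)
    (hb : ∀ a ∈ U, ∃ M, ∀ᶠ q in 𝓝 a, ‖g q‖ ≤ M)
    (hd : ∀ k, DifferentiableOn ℂ (fun q => cf (g q) k) U) : DifferentiableOn ℂ g U := by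
  refine differentiableOn_of_norming (V := fun _ : Finset G => WA G s F)
    (fun B => proj G s F B) (fun B u => norm_proj_apply_le _ u) (fun u C _ h => norm_le_of_proj h)
    hU hb fun B => ?_
  simp only [proj_finset]
  exact DifferentiableOn.fun_sum fun k _ =>
    (single s k : F →L[ℂ] WA G s F).differentiable.comp_differentiableOn (hd k)

/-- Maps into `WA G s (X →ᵇ F)`. -/
theorem differentiableOn_WA_bcf {X : Type*} [TopologicalSpace X] {g : P → WA G s (X →ᵇ F)}
    (hU : IsOpen U) (hb : ∀ a ∈ U, ∃ M, ∀ᶠ q in 𝓝 a, ‖g q‖ ≤ M)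
    (hd : ∀ k x, DifferentiableOn ℂ (fun q => cf (g q) k x) U) : DifferentiableOn ℂ g U :=
  differentiableOn_WA hU hb fun k => differentiableOn_bcf hU
    (fun a ha => (hb a ha).imp fun _ hM => hM.mono fun _ hq => (norm_cf_le _ k).trans hq) (hd k)

/-- Operators with values in a Wiener space. -/
theorem differentiableOn_clm_WA {T : P → E →L[ℂ] WA G t F} (hU : IsOpen U)
    (hb : ∀ a ∈ U, ∃ M, ∀ᶠ q in 𝓝 a, ‖T q‖ ≤ M)
    (hd : ∀ u k, DifferentiableOn ℂ (fun q => cf (T q u) k) U) : DifferentiableOn ℂ T U :=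
  differentiableOn_clm hU hb fun u => differentiableOn_WA hU
    (fun a ha => (hb a ha).imp' (fun M => M * ‖u‖) fun _ hM => hM.mono fun q hq =>
      ((T q).le_opNorm u).trans (mul_le_mul_of_nonneg_right hq (norm_nonneg _))) (hd u)

/-- Diagonal operators. -/
theorem differentiableOn_of_isDiag {T : P → WA G s E →L[ℂ] WA G t F} {m : P → G → E →L[ℂ] F}
    (hU : IsOpen U) (hT : ∀ q ∈ U, ∀ u k, cf (T q u) k = m q k (cf u k))
    (hb : ∀ a ∈ U, ∃ M, ∀ᶠ q in 𝓝 a, ‖T q‖ ≤ M)
    (hd : ∀ k, DifferentiableOn ℂ (fun q => m q k) U) : DifferentiableOn ℂ T U :=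
  differentiableOn_clm_WA hU hb fun u k =>
    ((hd k).clm_apply (differentiableOn_const _)).congr fun q hq => hT q hq u k

open Classical in
/-- The diagonal operator without a proof argument (zero if the modes are not uniformly bounded). -/
def diag' (s t : ℕ) (m : G → E →L[ℂ] F) : WA G s E →L[ℂ] WA G t F :=
  if h : ∃ C : ℝ, ∀ k, wt t k * ‖m k‖ ≤ C * wt s k then diag m h.choose h.choose_spec else 0

theorem diag'_eq {m : G → E →L[ℂ] F} {C : ℝ} (h : ∀ k, wt t k * ‖m k‖ ≤ C * wt s k) :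
    diag' s t m = diag m C h := by
  have h' : ∃ C : ℝ, ∀ k, wt t k * ‖m k‖ ≤ C * wt s k := ⟨C, h⟩
  rw [diag', dif_pos h']
  refine ContinuousLinearMap.ext fun u => ext fun k => ?_
  rw [cf_diag, cf_diag]

theorem cf_diag' {m : G → E →L[ℂ] F} {C : ℝ} (h : ∀ k, wt t k * ‖m k‖ ≤ C * wt s k)
    (u : WA G s E) (k : G) : cf (diag' s t m u) k = m k (cf u k) := by
  rw [diag'_eq h, cf_diag]

theorem norm_diag'_le {m : G → E →L[ℂ] F} {C : ℝ} (h : ∀ k, wt t k * ‖m k‖ ≤ C * wt s k) :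
    ‖diag' s t m‖ ≤ C := by
  rw [diag'_eq h]
  exact norm_diag_le _ _ _

theorem differentiableOn_diag' {m : P → G → E →L[ℂ] F} (hU : IsOpen U)
    (hb : ∀ a ∈ U, ∃ C, ∀ᶠ q in 𝓝 a, ∀ k, wt t k * ‖m q k‖ ≤ C * wt s k)
    (hd : ∀ k, DifferentiableOn ℂ (fun q => m q k) U) :
    DifferentiableOn ℂ (fun q => diag' s t (m q)) U :=
  differentiableOn_of_isDiag hU
    (fun q hq u k => by
      obtain ⟨C, hC⟩ := hb q hq
      exact cf_diag' hC.self_of_nhds u k)
    (fun a ha => (hb a ha).imp fun _ hC => hC.mono fun _ hq => norm_diag'_le hq) hd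

end Vale.Agent.P218F.Wien
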