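import Vale.Agent.P218F.EndStab
import Vale.Agent.P218F.EndWt3
import Vale.Agent.P218F.EndOut1
import Vale.Agent.P218F.WienHol

/-! Cylindrical ends: the coefficients, their holomorphy, and the weighted norms. -/

set_option maxSynthPendingDepth 3

namespace Vale.Agent.P218F.End

open Set Metric Wien Filter Topology
open Cone (W A T3 BC J6 jets)

noncomputable section

theorem Prof.est {C₀ Λ a R : ℝ} {w P P₁ : ℝ → ℂ} (h : Prof C₀ Λ a R w P P₁) :
    ModeEst a R w (om a R w) (fun z => mu w z * om a R w z) (9054 + 200 * 16) :=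
  h.modeEst h.admH_om h.admD_om (by norm_num) fun _ => h.admL_om

namespace Dat

variable {C Λ Z₀ a R : ℝ} {y c : ℂ} {V P : BC} (h : Dat C Λ Z₀ a R y c V P) {z : ℝ}
include h

theorem a0 : 0 < a := h.z0.trans_le h.za

theorem lt : a < R := by linarith [h.prof.aR', h.a0]

theorem cont1 : ContinuousOn (fun z => (V z)⁻¹) (Icc a R) :=
  V.continuous.continuousOn.inv₀ fun _ hz => h.prof.ne hz

theorem cont3 : ContinuousOn (fun z => P z / (2 * V z)) (Icc a R) :=
  P.continuous.continuousOn.div (by fun_prop) fun _ hz => mul_ne_zero two_ne_zero (h.prof.ne hz)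

theorem contr : ContinuousOn (fun z => V z ^ (1 / 2 : ℂ)) (Icc a R) :=
  V.continuous.continuousOn.cpow_const fun _ hz => Or.inl (h.prof.re_pos hz)

theorem k1 (hz : z ∈ Icc a R) : (kap a R V P).1 z = (V z)⁻¹ := Mode.ext_of_mem h.cont1 hz

omit h in
theorem k2 (hz : z ∈ Icc a R) : (kap a R V P).2.1 z = V z := by
  simp [kap, Mode.cl_of_mem hz]

theorem k3 (hz : z ∈ Icc a R) : (kap a R V P).2.2.1 z = P z / (2 * V z) :=
  Mode.ext_of_mem h.cont3 hz

omit h in
theorem k4 (hz : z ∈ Icc a R) : (kap a R V P).2.2.2 z = z := Mode.ext_of_mem (by fun_prop) hz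

theorem norm_rho_sq (hz : z ∈ Icc a R) : ‖rho a R V z‖ ^ 2 = ‖V z‖ := by
  rw [← norm_pow, h.rho_sq hz]

theorem norm_rho_inv : ‖(rho a R V a)⁻¹‖ ≤ 2 := by
  have h1 : 3 / 4 ≤ ‖V a‖ := (h.prof.re_ge h.prof.mema
    (by linarith [h.prof.aR', h.a0])).trans (Complex.re_le_norm _)
  rw [← h.norm_rho_sq h.prof.mema] at h1
  have h2 := norm_pos_iff.2 (h.rho_ne h.prof.mema)
  rw [norm_inv, inv_le_comm₀ h2 two_pos]
  nlinarith

theorem coOK : CoOK (4 * C) a R V (kap a R V P) := by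
  have p := h.prof
  have c1 := p.c1
  refine ⟨by linarith [p.a100], fun _ => p.ne, fun _ => p.n16,
    fun z hz => by linarith [p.z2n hz, p.lam1], fun z hz => ?_, fun z hz => ?_, fun z hz => ?_,
    fun z hz => ?_⟩
  · rw [h.k1 hz, norm_inv, inv_eq_one_div]
    gcongr
  · rw [k2 hz]
    nlinarith [norm_nonneg (V z)]
  · rw [h.k3 hz, le_div_iff₀ (mul_pos (p.z0 hz) (p.n0 hz)), mul_comm]
    exact p.P_le hz
  · rw [k4 hz, Complex.norm_real, Real.norm_of_nonneg (p.z0 hz).le]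
    nlinarith [p.z0 hz]

theorem omOK (hz : z ∈ Icc a R) :
    0 ≤ om a R V z ∧ om a R V z ≤ 3002 ∧ om a R V z ≤ 3002 * (z * ‖V z‖) :=
  ⟨(om_pos ..).le, by linarith [h.prof.om_le hz], by
    linarith [h.prof.om_zn hz, mul_pos (h.prof.z0 hz) (h.prof.n0 hz)]⟩

theorem cont_om : ContinuousOn (om a R V) (Icc a R) := by
  have := h.prof.d_ell
  have h1 : ContinuousOn (ell V) (Icc a R) := fun z hz => (this z hz).continuousWithinAt
  unfold om
  fun_prop

theorem cont_mu : ContinuousOn (mu V) (Icc a R) := Complex.continuous_re.comp_continuousOn h.cont1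

theorem om_lb : ∃ m, 0 < m ∧ ∀ z ∈ Icc a R, m ≤ om a R V z := by
  obtain ⟨z, -, hz⟩ := isCompact_Icc.exists_isMinOn (nonempty_Icc.2 h.lt.le) h.cont_om
  exact ⟨_, om_pos .., fun x hx => hz hx⟩

theorem wtOK {ε : ℝ} (hε : 1 ≤ ε * Λ) (hz : z ∈ Icc a R) :
    om a R V z / (z * ‖V z‖) ^ 2 ≤ ε * (mu V z * om a R V z) ∧
      kw V z * om a R V z * om a R V z ≤ 3002 * (mu V z * om a R V z) := by
  have p := h.prof
  have ho := om_pos a R V z
  have hm := p.mu0 hz
  have hq : 0 < (z * ‖V z‖) ^ 2 := pow_pos (mul_pos (p.z0 hz) (p.n0 hz)) 2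
  have hΛ : 0 < Λ := by linarith [p.lam1]
  have hε0 : 0 < ε := by
    by_contra h1
    nlinarith
  constructor
  · rw [div_le_iff₀ hq]
    have h1 := mul_le_mul_of_nonneg_left (p.zn2 hz) hε0.le
    nlinarith
  · nlinarith [p.om_kw hz]

theorem star_kap (hV : ∀ z, (V z).im = 0 ∧ (P z).im = 0) : star (kap a R V P) = kap a R V P := by
  have e1 : ∀ z, star (V z) = V z := fun z => Complex.conj_eq_iff_im.2 (hV z).1
  have e2 : ∀ z, star (P z) = P z := fun z => Complex.conj_eq_iff_im.2 (hV z).2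
  refine Prod.ext ?_ (Prod.ext ?_ (Prod.ext ?_ ?_)) <;> ext z
  · simp only [kap, Prod.fst_star, BoundedContinuousFunction.star_apply,
      Mode.ext_apply h.lt.le h.cont1, star_inv₀, e1]
  · simp only [kap, Prod.fst_star, Prod.snd_star, BoundedContinuousFunction.star_apply,
      Mode.clamp_apply, e1]
  · simp only [kap, Prod.fst_star, Prod.snd_star, BoundedContinuousFunction.star_apply,
      Mode.ext_apply h.lt.le h.cont3, star_div₀, star_mul', star_ofNat, e1, e2]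
  · simp only [kap, Prod.snd_star, BoundedContinuousFunction.star_apply,
      Mode.ext_apply h.lt.le (f := fun z => (z : ℂ)) (by fun_prop)]
    exact Complex.conj_ofReal _

theorem star_rho (hV : ∀ z, (V z).im = 0) : star (rho a R V) = rho a R V := by
  ext z
  have hz := Mode.cl_mem h.lt.le z
  simp only [rho, BoundedContinuousFunction.star_apply, Mode.ext_apply h.lt.le h.contr]
  have e : V (Mode.cl a R z) = ((V (Mode.cl a R z)).re : ℂ) := Complex.ext (by simp) (by simp [hV])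
  have e2 : (1 / 2 : ℂ) = ((1 / 2 : ℝ) : ℂ) := by norm_num
  rw [e, e2, ← Complex.ofReal_cpow (h.prof.re_pos hz).le]
  exact Complex.conj_ofReal _

end Dat

section Hol

variable {C Λ Z₀ a R : ℝ} {U : Set ℂ} {c : ℂ → ℂ} {V P : ℂ → BC} (hU : IsOpen U)
  (h : ∀ y ∈ U, Dat C Λ Z₀ a R y (c y) (V y) (P y)) (hV : DifferentiableOn ℂ V U)
  (hP : DifferentiableOn ℂ P U)

theorem differentiableOn_ext (hU : IsOpen U) (hl : a ≤ R) {f : ℂ → ℝ → ℂ} {M : ℝ}
    (hc : ∀ y ∈ U, ContinuousOn (f y) (Icc a R)) (hb : ∀ y ∈ U, ∀ z ∈ Icc a R, ‖f y z‖ ≤ M)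
    (hd : ∀ z ∈ Icc a R, DifferentiableOn ℂ (fun y => f y z) U) :
    DifferentiableOn ℂ (fun y => Mode.ext a R (f y)) U :=
  differentiableOn_bcf hU (locBdd_of_bdd hU fun y hy => Mode.norm_ext_le hl (hc y hy) (hb y hy))
    fun x => (hd _ (Mode.cl_mem hl x)).congr fun y hy => Mode.ext_apply hl (hc y hy) x

theorem diffOn_eval {V : ℂ → BC} (hV : DifferentiableOn ℂ V U) (z : ℝ) :
    DifferentiableOn ℂ (fun y => V y z) U :=
  (Cone.evy z).differentiable.comp_differentiableOn hV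

include hU h hV hP in
theorem differentiableOn_kap : DifferentiableOn ℂ (fun y => kap a R (V y) (P y)) U := by
  rcases U.eq_empty_or_nonempty with rfl | ⟨y₀, hy₀⟩
  · exact differentiableOn_empty
  have hl := (h y₀ hy₀).lt.le
  refine DifferentiableOn.prodMk ?_ (DifferentiableOn.prodMk
    ((Mode.clamp a R).differentiable.comp_differentiableOn hV)
    (DifferentiableOn.prodMk ?_ (differentiableOn_const _)))
  · refine differentiableOn_ext hU hl (M := R ^ 2) (fun y hy => (h y hy).cont1)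
      (fun y hy z hz => ?_) fun z hz => (diffOn_eval hV z).inv fun y hy => (h y hy).prof.ne hz
    have p := (h y hy).prof
    have h1 : z ^ 2 ≤ R ^ 2 := pow_le_pow_left₀ (p.z0 hz).le hz.2 2
    rw [norm_inv, inv_eq_one_div, div_le_iff₀ (p.n0 hz)]
    nlinarith [p.z2n hz, p.lam1, p.n0 hz]
  · refine differentiableOn_ext hU hl (M := 4 * C * R) (fun y hy => (h y hy).cont3)
      (fun y hy z hz => ?_) fun z hz => (diffOn_eval hP z).div ((diffOn_eval hV z).const_mul 2)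
        fun y hy => mul_ne_zero two_ne_zero ((h y hy).prof.ne hz)
    have p := (h y hy).prof
    have h1 := mul_le_mul_of_nonneg_left (p.P_le hz) (p.z0 hz).le
    have h2 := mul_le_mul_of_nonneg_right (p.z2n hz) (norm_nonneg (P y z / (2 * V y z)))
    have h3 := mul_le_mul_of_nonneg_right p.lam1 (norm_nonneg (P y z / (2 * V y z)))
    have h4 := mul_le_mul_of_nonneg_left hz.2 (by linarith [p.c1] : 0 ≤ 4 * C)
    nlinarith [norm_nonneg (P y z / (2 * V y z))]

include hU h hV in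
theorem differentiableOn_rho : DifferentiableOn ℂ (fun y => rho a R (V y)) U := by
  rcases U.eq_empty_or_nonempty with rfl | ⟨y₀, hy₀⟩
  · exact differentiableOn_empty
  refine differentiableOn_ext hU (h y₀ hy₀).lt.le (M := 4) (fun y hy => (h y hy).contr)
    (fun y hy z hz => ?_) fun z hz => (diffOn_eval hV z).cpow_const fun y hy =>
      Or.inl ((h y hy).prof.re_pos hz)
  rw [← (h y hy).rho_eq hz]
  refine abs_le_of_sq_le_sq' ?_ (by norm_num) |>.2
  rw [(h y hy).norm_rho_sq hz]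
  linarith [(h y hy).prof.n16 hz]

include h hV in
theorem continuousOn_om : ContinuousOn (fun x : ℂ × ℝ => om a R (V x.1) x.2) (U ×ˢ Icc a R) := by
  have h1 : ContinuousOn (fun x : ℂ × ℝ => V x.1 x.2) (U ×ˢ Icc a R) :=
    continuous_eval.comp_continuousOn
      ((hV.continuousOn.comp continuousOn_fst fun _ hx => hx.1).prodMk continuousOn_snd)
  have h2 : ContinuousOn (fun x : ℂ × ℝ => Real.log ‖V x.1 x.2‖) (U ×ˢ Icc a R) :=
    h1.norm.log fun x hx => ((h _ hx.1).prof.n0 hx.2).ne'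
  have h3 : ContinuousOn (fun x : ℂ × ℝ => Real.log x.2) (U ×ˢ Icc a R) :=
    continuousOn_snd.log fun x hx => ((h _ hx.1).prof.z0 hx.2).ne'
  unfold om ell
  fun_prop

include h hV in
theorem continuousOn_mu : ContinuousOn (fun x : ℂ × ℝ => mu (V x.1) x.2) (U ×ˢ Icc a R) := by
  have h1 : ContinuousOn (fun x : ℂ × ℝ => V x.1 x.2) (U ×ˢ Icc a R) :=
    continuous_eval.comp_continuousOn
      ((hV.continuousOn.comp continuousOn_fst fun _ hx => hx.1).prodMk continuousOn_snd)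
  exact Complex.continuous_re.comp_continuousOn (h1.inv₀ fun x hx => (h _ hx.1).prof.ne hx.2)

end Hol

section Wt

variable {a b : ℝ} {f g : ℝ → ℝ}

/-- the reciprocal weight -/
def iw (a b : ℝ) (f : ℝ → ℝ) : BC := Mode.ext a b fun z => ((f z : ℝ) : ℂ)⁻¹

open Classical in
/-- division by the weight -/
def Jw (a b : ℝ) (f : ℝ → ℝ) : W 0 ≃L[ℂ] W 0 :=
  if h : Mode.ext a b (fun z => ((f z : ℝ) : ℂ)) * iw a b f = 1 then
    ContinuousLinearEquiv.equivOfInverse (ContinuousLinearMap.mul ℂ (W 0) (cz (iw a b f)))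
      (ContinuousLinearMap.mul ℂ (W 0) (cz (Mode.ext a b fun z => ((f z : ℝ) : ℂ))))
      (fun u => by
        simp only [ContinuousLinearMap.mul_apply', cz]
        rw [← mul_assoc, ← map_mul, h, map_one, one_mul])
      (fun u => by
        simp only [ContinuousLinearMap.mul_apply', cz]
        rw [← mul_assoc, ← map_mul, mul_comm (iw a b f), h, map_one, one_mul])
  else ContinuousLinearEquiv.refl ℂ _

/-- a positive continuous weight -/
structure Wt (a b : ℝ) (f : ℝ → ℝ) : Prop where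
  le : a ≤ b
  cont : ContinuousOn f (Icc a b)
  pos : ∀ z ∈ Icc a b, 0 < f z

theorem Wt.iw_apply (h : Wt a b f) (z : ℝ) : iw a b f z = ((f (Mode.cl a b z) : ℝ) : ℂ)⁻¹ :=
  Mode.ext_apply h.le ((Complex.continuous_ofReal.comp_continuousOn h.cont).inv₀ fun z hz =>
    Complex.ofReal_ne_zero.2 (h.pos z hz).ne') z

theorem Wt.norm_iw (h : Wt a b f) (z : ℝ) : ‖iw a b f z‖ = (f (Mode.cl a b z))⁻¹ := by
  rw [h.iw_apply, norm_inv, Complex.norm_real,
    Real.norm_of_nonneg (h.pos _ (Mode.cl_mem h.le z)).le]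

theorem Wt.jw_apply (h : Wt a b f) (u : W 0) : Jw a b f u = cz (iw a b f) * u := by
  have e : Mode.ext a b (fun z => ((f z : ℝ) : ℂ)) * iw a b f = 1 := by
    ext z
    rw [BoundedContinuousFunction.mul_apply, h.iw_apply, Mode.ext_apply h.le
      (f := fun z => ((f z : ℝ) : ℂ)) (Complex.continuous_ofReal.comp_continuousOn h.cont)]
    exact mul_inv_cancel₀ (Complex.ofReal_ne_zero.2 (h.pos _ (Mode.cl_mem h.le z)).ne')
  rw [Jw, dif_pos e]
  rfl

theorem Wt.wb (h : Wt a b f) (u : W 0) : WB a b f u ‖Jw a b f u‖ := by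
  rw [h.jw_apply]
  refine WB.of_norm_mul (f := iw a b f) (fun z hz => ?_) (fun z hz => (h.pos z hz).le)
    (WB.of_norm _)
  rw [h.norm_iw, Mode.cl_of_mem hz, inv_mul_cancel₀ (h.pos z hz).ne']

theorem Wt.norm_res (h : Wt a b f) {u : W 0} {D : ℝ} (hu : WB a b f u D) :
    ‖Jw a b f (res a b 0 u)‖ ≤ D := by
  have e : Jw a b f (res a b 0 u) = res a b 0 (cz (iw a b f) * u) := by
    rw [h.jw_apply]
    ext k z
    simp only [cz, cf_const_mul, cf_res, BoundedContinuousFunction.mul_apply, h.iw_apply,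
      Mode.cl_cl h.le]
  have h1 := (hu.const_mul (f := iw a b f) (m' := fun _ => 1) zero_le_one fun z hz => by
    rw [h.norm_iw, Mode.cl_of_mem hz, inv_mul_cancel₀ (h.pos z hz).ne', mul_one]).norm_res h.le
    zero_le_one fun _ _ => le_rfl
  rw [e]
  simpa [cz] using h1

theorem Wt.cmp (h : Wt a b f) (h' : Wt a b g) {K : ℝ} (hK : 0 ≤ K)
    (hfg : ∀ z ∈ Icc a b, g z ≤ K * f z) (u : W 0) : ‖Jw a b f u‖ ≤ K * ‖Jw a b g u‖ := by
  rw [h.jw_apply, h'.jw_apply]
  refine norm_le_of_cf fun k => ?_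
  simp only [cz, cf_const_mul, wt_zero_left, one_mul]
  refine (BoundedContinuousFunction.norm_le (by positivity)).2 fun z => ?_
  have h1 := (iw a b g * cf u k).norm_coe_le_norm z
  have hz := Mode.cl_mem h.le z
  rw [BoundedContinuousFunction.mul_apply, norm_mul, h'.norm_iw] at h1
  rw [BoundedContinuousFunction.mul_apply, norm_mul, h.norm_iw]
  have h2 : (f (Mode.cl a b z))⁻¹ ≤ K * (g (Mode.cl a b z))⁻¹ := by
    rw [← div_eq_mul_inv, inv_eq_one_div, div_le_div_iff₀ (h.pos _ hz) (h'.pos _ hz), one_mul]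
    exact hfg _ hz
  calc _ ≤ K * (g (Mode.cl a b z))⁻¹ * ‖cf u k z‖ := by gcongr
    _ ≤ _ := by rw [mul_assoc]; gcongr

theorem eventually_cmp {U : Set ℂ} (hU : IsOpen U) {f : ℂ → ℝ → ℝ}
    (hc : ContinuousOn (fun x : ℂ × ℝ => f x.1 x.2) (U ×ˢ Icc a b))
    (hp : ∀ y ∈ U, ∀ z ∈ Icc a b, 0 < f y z) {y₀ : ℂ} (hy : y₀ ∈ U) :
    ∀ᶠ y in 𝓝 y₀, ∀ z ∈ Icc a b, f y z ≤ 5 / 4 * f y₀ z ∧ f y₀ z ≤ 5 / 4 * f y z := by
  have h1 : ∀ z ∈ Icc a b, ∀ᶠ x in 𝓝 (y₀, z), x.1 ∈ U → x.2 ∈ Icc a b →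
      f x.1 x.2 ≤ 5 / 4 * f y₀ x.2 ∧ f y₀ x.2 ≤ 5 / 4 * f x.1 x.2 := fun z hz => by
    have c1 : ContinuousWithinAt (fun x : ℂ × ℝ => f x.1 x.2) (U ×ˢ Icc a b) (y₀, z) :=
      hc _ ⟨hy, hz⟩
    have c2 : ContinuousWithinAt (fun x : ℂ × ℝ => f y₀ x.2) (U ×ˢ Icc a b) (y₀, z) :=
      (hc.comp (f := fun x : ℂ × ℝ => (y₀, x.2)) (s := U ×ˢ Icc a b) (by fun_prop)
        fun x hx => ⟨hy, hx.2⟩) _ ⟨hy, hz⟩
    have p := hp y₀ hy z hz
    have e1 := Tendsto.eventually_lt c1 (c2.const_mul (5 / 4)) (by dsimp only; linarith)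
    have e2 := Tendsto.eventually_lt c2 (c1.const_mul (5 / 4)) (by dsimp only; linarith)
    filter_upwards [eventually_nhdsWithin_iff.1 (e1.and e2)] with x hx h1 h2
    exact ⟨(hx ⟨h1, h2⟩).1.le, (hx ⟨h1, h2⟩).2.le⟩
  filter_upwards [isCompact_Icc.eventually_forall_of_forall_eventually (P := fun y z => y ∈ U →
    z ∈ Icc a b → f y z ≤ 5 / 4 * f y₀ z ∧ f y₀ z ≤ 5 / 4 * f y z) h1, hU.mem_nhds hy]
    with y h2 h3 z hz
  exact h2 z hz h3 hz

end Wt

end

end Vale.Agent.P218F.End
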