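import Vale.Agent.P218F.EndPb
import Vale.Agent.P218F.EndFix1

/-! Cylindrical ends: the comparison of two solutions with neighbouring end points. -/

set_option maxSynthPendingDepth 3

namespace Vale.Agent.P218F.End

open Set Metric Wien Filter Topology
open Cone (W A T3 BC J6 jets jets_apply)

noncomputable section

theorem boot {p : ℝ → Prop} {B T₀ : ℝ} (h0 : p T₀) (hm : ∀ T T', T ≤ T' → p T → p T')
    (hs : ∀ T, p T → p (B + T / 2)) {ε : ℝ} (hε : 0 < ε) : p (2 * B + ε) := by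
  have it : ∀ n : ℕ, p (2 * B + (T₀ - 2 * B) * (1 / 2) ^ n) := fun n => by
    induction n with
    | zero => exact hm _ _ (le_of_eq (by ring)) h0
    | succ n ih => exact hm _ _ (le_of_eq (by ring)) (hs _ ih)
  have lim : Tendsto (fun n : ℕ => (T₀ - 2 * B) * (1 / 2 : ℝ) ^ n) atTop (𝓝 ((T₀ - 2 * B) * 0)) :=
    (tendsto_pow_atTop_nhds_zero_of_lt_one (by norm_num) (by norm_num)).const_mul _
  rw [mul_zero] at lim
  obtain ⟨n, hn⟩ := (lim.eventually (gt_mem_nhds hε)).exists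
  exact hm _ _ (by linarith) (it n)

variable {a b R d z x D : ℝ} {w : ℝ → ℂ} {sg : ℝ → ℝ} {J J' : J6 (W 0)} {k : ℤ} {κ κ' : Co}

/-- bounds for one mode of the jets at one point -/
structure MB (w : ℝ → ℂ) (J : J6 (W 0)) (k : ℤ) (z x : ℝ) : Prop where
  v : ‖cf J.1 k z‖ ≤ x
  t : ‖cf J.2.2.2.2.2 k z‖ ≤ x
  a' : z * ‖w z‖ * ‖cf J.2.1 k z‖ ≤ x
  b' : ‖w z‖ * ‖cf J.2.2.2.1 k z‖ ≤ x

/-- `JB` for the mode `k` of a triple -/
abbrev JBk (a R : ℝ) (w : ℝ → ℂ) (p : T3 0) (k : ℤ) (m : ℝ → ℝ) (T : ℝ) : Prop :=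
  JB a R w |(k : ℝ)| (fun z => cf p.1 k z) (fun z => cf p.2.1 k z) (fun z => cf p.2.2 k z) m T

theorem NJ.seq (h : NJ a b w sg J D) (ha : 0 < a) (hw : ∀ z ∈ Icc a b, w z ≠ 0)
    (hs : ∀ z ∈ Icc a b, 0 ≤ sg z) : ∃ c : ℤ → ℝ, (∀ k, 0 ≤ c k) ∧ Summable c ∧
      ∑' k, c k ≤ 4 * D ∧ ∀ k, ∀ z ∈ Icc a b, MB w J k z (c k * sg z) := by
  obtain ⟨c1, p1, s1, t1, b1⟩ := h.v
  obtain ⟨c2, p2, s2, t2, b2⟩ := h.t
  obtain ⟨c3, p3, s3, t3, b3⟩ := h.a'
  obtain ⟨c4, p4, s4, t4, b4⟩ := h.b'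
  simp only [wt_zero_left, one_mul] at s1 s2 s3 s4 t1 t2 t3 t4
  refine ⟨fun k => c1 k + c2 k + c3 k + c4 k, fun k => by linarith [p1 k, p2 k, p3 k, p4 k],
    ((s1.add s2).add s3).add s4, ?_, fun k z hz => ?_⟩
  · rw [((s1.add s2).add s3).tsum_add s4, (s1.add s2).tsum_add s3, s1.tsum_add s2]
    linarith
  · have e0 := norm_pos_iff.2 (hw z hz)
    have e1 : 0 < z := ha.trans_le hz.1
    have q1 := mul_nonneg (p1 k) (hs z hz)
    have q2 := mul_nonneg (p2 k) (hs z hz)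
    have q3 := mul_nonneg (p3 k) (hs z hz)
    have q4 := mul_nonneg (p4 k) (hs z hz)
    have r3 := b3 k z hz
    have r4 := b4 k z hz
    rw [← mul_div_assoc, le_div_iff₀ (by positivity)] at r3 r4
    exact ⟨by linarith [b1 k z hz], by linarith [b2 k z hz], by linarith, by linarith⟩

theorem NJ.mb (h : NJ a b w sg J D) (ha : 0 < a) (hw : ∀ z ∈ Icc a b, w z ≠ 0)
    (hs : ∀ z ∈ Icc a b, 0 ≤ sg z) (k : ℤ) (hz : z ∈ Icc a b) : MB w J k z (4 * D * sg z) := by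
  obtain ⟨c, h0, h1, h2, h3⟩ := h.seq ha hw hs
  have e := mul_le_mul_of_nonneg_right ((h1.le_tsum k fun j _ => h0 j).trans h2) (hs z hz)
  exact ⟨(h3 k z hz).v.trans e, (h3 k z hz).t.trans e, (h3 k z hz).a'.trans e,
    (h3 k z hz).b'.trans e⟩

theorem nj_of_jb {C₀ Λ T : ℝ} {P P₁ : ℝ → ℂ} (hp : Prof C₀ Λ a R w P P₁) {p : T3 0} {c : ℤ → ℝ}
    (h0 : ∀ k, 0 ≤ c k) (h1 : Summable c) (h2 : ∑' k, c k ≤ T)
    (hj : ∀ k : ℤ, JBk a R w p k sg (c k)) :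
    NJ a R w sg (jets 0 p) T := by
  have key : ∀ (u : W 0) (m : ℝ → ℝ), (∀ k, ∀ z ∈ Icc a R, ‖cf u k z‖ ≤ c k * m z) →
      WB a R m u T := fun u m h => WB.intro c h0 h (by simpa using h1) (by simpa using h2)
  have n1 : ∀ k : ℤ, ‖Complex.I * k‖ = |(k : ℝ)| := fun k => by simp
  refine ⟨key _ _ fun k z hz => ?_, key _ _ fun k z hz => ?_, key _ _ fun k z hz => ?_,
    key _ _ fun k z hz => ?_, key _ _ fun k z hz => ?_, key _ _ fun k z hz => ?_⟩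
  · rw [(cf_jets p k z).1]
    refine le_trans ?_ ((hj k).out hp hz).1
    nlinarith [abs_nonneg (k : ℝ), norm_nonneg (cf p.1 k z), sq_nonneg |(k : ℝ)|]
  · rw [(cf_jets p k z).2.1]
    exact ((hj k).out hp hz).2.1
  · rw [(cf_jets p k z).2.2.1, norm_mul, n1]
    refine le_trans ?_ ((hj k).out hp hz).1
    nlinarith [abs_nonneg (k : ℝ), norm_nonneg (cf p.1 k z), sq_nonneg |(k : ℝ)|]
  · rw [(cf_jets p k z).2.2.2.1]
    exact ((hj k).out hp hz).2.2.2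
  · rw [(cf_jets p k z).2.2.2.2.1, norm_mul, n1]
    refine le_trans ?_ ((hj k).out hp hz).2.2.1
    nlinarith [norm_nonneg (cf p.2.1 k z)]
  · rw [(cf_jets p k z).2.2.2.2.2, norm_mul, norm_neg, norm_pow, Complex.norm_intCast]
    refine le_trans ?_ ((hj k).out hp hz).1
    nlinarith [abs_nonneg (k : ℝ), norm_nonneg (cf p.1 k z), sq_nonneg |(k : ℝ)|]

theorem JBk.mb {T : ℝ} {p : T3 0}
    (hj : JBk a R w p k sg T) (hz : z ∈ Icc a R) :
    MB w (jets 0 p) k z (T * sg z) := by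
  refine ⟨?_, ?_, ?_, ?_⟩
  · rw [(cf_jets p k z).1]
    refine le_trans ?_ (hj.j0 z hz)
    nlinarith [abs_nonneg (k : ℝ), norm_nonneg (cf p.1 k z), sq_nonneg |(k : ℝ)|]
  · rw [(cf_jets p k z).2.2.2.2.2, norm_mul, norm_neg, norm_pow, Complex.norm_intCast]
    refine le_trans ?_ (hj.j0 z hz)
    nlinarith [abs_nonneg (k : ℝ), norm_nonneg (cf p.1 k z), sq_nonneg |(k : ℝ)|]
  · rw [(cf_jets p k z).2.1]
    exact hj.j1 z hz
  · rw [(cf_jets p k z).2.2.2.1]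
    exact hj.j2 z hz

theorem lin_aux {c3 c4 c5 v t q : ℂ} {B α : ℝ} (hα : 0 < α) (h3 : ‖c3‖ * 1 ≤ B) (h4 : ‖c4‖ * 1 ≤ B)
    (h5 : ‖c5‖ * (1 / α) ≤ B) (hv : ‖v‖ ≤ x) (ht : ‖t‖ ≤ x) (hq : α * ‖q‖ ≤ x) :
    ‖c3 * t + (c4 * v + c4 * v) + c5 * q‖ ≤ 4 * B * x := by
  rw [mul_one] at h3 h4
  have hB := (norm_nonneg _).trans h3
  have e3 := norm_mul_le_of_le h3 ht
  have e4 := norm_mul_le_of_le h4 hv
  have e5 : ‖c5 * q‖ ≤ B * x := by
    refine le_of_eq_of_le ?_ (mul_le_mul h5 hq (by positivity) hB)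
    rw [norm_mul]; field_simp
  linarith [norm_add₃_le (a := c3 * t) (b := c4 * v + c4 * v) (c := c5 * q),
    norm_add_le (c4 * v) (c4 * v)]

theorem lin_le {C : ℝ} (hC : 1 ≤ C) (hκ : CoOK C a b w κ) (hz : z ∈ Icc a b)
    (hv : ‖cf J.1 k z‖ ≤ x) (ht : ‖cf J.2.2.2.2.2 k z‖ ≤ x)
    (ha : z * ‖w z‖ * ‖cf J.2.1 k z‖ ≤ x) :
    ‖cf (LinW κ J) k z‖ ≤ 4000 * C ^ 5 * (x / (z * ‖w z‖) ^ 2) := by
  have hz0 : 0 < z := by linarith [hκ.one, hz.1]
  have hn := norm_pos_iff.2 (hκ.ne z hz)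
  obtain ⟨⟨b3, -⟩, ⟨b4, -⟩, ⟨b5, -⟩, -⟩ := coef_bd hC hz0 hn (hκ.le z hz) le_rfl
    (RB.const le_rfl (hκ.k2 z hz)) (RB.const le_rfl (hκ.k3 z hz)) (RB.const le_rfl (hκ.k4 z hz))
  rw [cf_LinW, Lin_eq (by norm_num)]
  exact (lin_aux (mul_pos hz0 hn) b3 b4 b5 hv ht ha).trans_eq (by field_simp; ring)

theorem lind_le {C s : ℝ} (hC : 1 ≤ C) (hκ : CoOK C a b w κ) (hκ' : CoOK C a b w κ')
    (hz : z ∈ Icc a b) (s0 : 0 ≤ s) (s2 : ‖κ'.2.1 z - κ.2.1 z‖ ≤ s / z)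
    (s3 : ‖κ'.2.2.1 z - κ.2.2.1 z‖ ≤ s / ‖w z‖) (s4 : ‖κ'.2.2.2 z - κ.2.2.2 z‖ ≤ s)
    (h : MB w J k z x) : ‖cf (LinW κ' J) k z - cf (LinW κ J) k z‖ ≤
      4000 * C ^ 5 * (s / (z * ‖w z‖ ^ 2) * x) := by
  have hz1 : 1 ≤ z := hκ.one.trans hz.1
  have hz0 : 0 < z := by linarith
  have hn := norm_pos_iff.2 (hκ.ne z hz)
  have hzw := hκ.zw z hz
  have hρ : 0 ≤ s * z := by positivity
  obtain ⟨⟨-, b3⟩, ⟨-, b4⟩, ⟨-, b5⟩, -⟩ := coef_bd hC hz0 hn (hκ.le z hz) hρ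
    ⟨hκ.k2 z hz, hκ'.k2 z hz, s2.trans (by
      rw [div_le_iff₀ hz0]
      nlinarith [mul_le_mul hC hzw zero_le_one (by linarith)])⟩
    ⟨hκ.k3 z hz, hκ'.k3 z hz, s3.trans (by
      rw [show C / (z * ‖w z‖) * (s * z) = C * (s / ‖w z‖) by field_simp]
      exact le_mul_of_one_le_left (by positivity) hC)⟩
    ⟨hκ.k4 z hz, hκ'.k4 z hz, s4.trans (by
      nlinarith [mul_le_mul hC (one_le_mul_of_one_le_of_one_le hz1 hz1) zero_le_one
        (by linarith)])⟩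
  rw [cf_LinW, cf_LinW, Lin_eq (by norm_num), Lin_eq (by norm_num)]
  refine le_of_eq_of_le (congrArg norm ?_)
    ((lin_aux (mul_pos hz0 hn) b3 b4 b5 h.v h.t h.a').trans_eq (by field_simp; ring))
  ring

theorem msol_of {wi : BC} {p : T3 0} {F : W 0} (hi : ∀ z ∈ Icc a R, wi z = (w z)⁻¹)
    (d0 : ZDer (Icc a R) p.1 p.2.1) (d1 : ZDer (Icc a R) p.2.1 p.2.2) (he : LinEq a R wi p F)
    (k : ℤ) : MSol a R (fun z => ((|(k : ℝ)| ^ 2 - 2 : ℝ) : ℂ) * (w z)⁻¹) (fun z => cf F k z)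
      (fun z => cf p.1 k z) (fun z => cf p.2.1 k z) (fun z => cf p.2.2 k z) :=
  ⟨d0 k, d1 k, fun z hz => by rw [← he k z hz, hi z hz, sq_abs]; push_cast; rfl⟩

namespace Prof

variable {C₀ Λ : ℝ} {P P₁ : ℝ → ℂ} (hp : Prof C₀ Λ a R w P P₁)
include hp

theorem div_sq_le (hz : z ∈ Icc a R) (hx : 0 ≤ x) : x / (z * ‖w z‖) ^ 2 ≤ mu w z * x / Λ := by
  have h1 : 0 < Λ := by linarith [hp.lam1]
  rw [div_le_div_iff₀ (pow_pos (mul_pos (hp.z0 hz) (hp.n0 hz)) 2) h1]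
  nlinarith [mul_le_mul_of_nonneg_left (hp.zn2 hz) hx]

theorem kw_le (hz : z ∈ Icc a R) : kw w z * ‖w z‖ ≤ 17 * mu w z := by
  have h1 := hp.n0 hz
  have h2 : 1 / (z * ‖w z‖) ≤ mu w z := by
    rw [div_le_iff₀ (mul_pos (hp.z0 hz) h1)]
    nlinarith [hp.margin hz]
  rw [kw, div_mul_cancel₀ _ h1.ne']
  linarith [hp.mu_ge hz]

theorem omM (hz : z ∈ Icc a R) :
    0 ≤ om a R w z ∧ om a R w z ≤ 128 ∧ om a R w z ≤ 128 * (z * ‖w z‖) :=
  ⟨(om_pos ..).le, hp.om_le hz, by linarith [hp.om_zn hz, mul_pos (hp.z0 hz) (hp.n0 hz)]⟩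

end Prof

/-- the low modes of a solution are quadratically small -/
theorem low_ref {C₀ Λ : ℝ} {P P₁ : ℝ → ℂ} (hp : Prof C₀ Λ a R w P P₁) {C Cq : ℝ} (hC : 1 ≤ C)
    (hκ : CoOK C a R w κ) (hΛ : 3 * 10 ^ 8 * C ^ 5 ≤ Λ)
    (hi : ∀ z ∈ Icc a R, κ.1 z = (w z)⁻¹) {v : T3 0} {h : A 2} (d0 : ZDer (Icc a R) v.1 v.2.1)
    (d1 : ZDer (Icc a R) v.2.1 v.2.2) (he : LinEq a R κ.1 v (-NlW κ (jets 0 v)))
    (hb : BCs a R h v)
    (hQ : WB a R (fun z => kw w z * om a R w z * om a R w z) (QW κ (jets 0 v)) Cq)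
    (hk : |k| ≤ 1) : JBk a R w v k (fun z => om a R w z ^ 2 / ‖w z‖) (10 ^ 6 * Cq) := by
  have hm := hp.admD_sq
  have hCq := hQ.nonneg
  have hΛ0 : 0 < Λ := by linarith [hp.lam1]
  have hk' : |(k : ℝ)| ≤ 1 := by exact_mod_cast hk
  obtain ⟨z₀, hz₀, hmin⟩ := isCompact_Icc.exists_isMinOn (nonempty_Icc.2 hp.le) hm.cont
  obtain ⟨T₀, hT₀⟩ := NJ.exists (jets 0 v) hκ.one hp.le hκ.ne hκ.le (hm.pos hz₀) fun z hz => hmin hz
  have step : ∀ T, (∀ z ∈ Icc a R, MB w (jets 0 v) k z (T * (om a R w z ^ 2 / ‖w z‖))) →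
      JBk a R w v k (fun z => om a R w z ^ 2 / ‖w z‖) (450000 * Cq + T / 2) := fun T hT => by
    have hT0 : 0 ≤ T := nonneg_of_mul_nonneg_left ((norm_nonneg _).trans (hT a hp.mema).v)
      (hm.pos hp.mema)
    refine (hp.mode_low (A := 4000 * C ^ 5 * T / Λ + 17 * Cq) (msol_of hi d0 d1 he k)
      (abs_nonneg _) hk' (fun _ _ => rfl) (by norm_num) (fun α => hp.admL_sq) hm (fun z hz => ?_)
      (hb.2.2 k hk) (hb.2.1 k)).mono fun z hz => mul_le_mul_of_nonneg_right ?_ (hm.pos hz).le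
    · have e1 := (lin_le hC hκ hz (hT z hz).v (hT z hz).t (hT z hz).a').trans
        (mul_le_mul_of_nonneg_left (hp.div_sq_le hz (mul_nonneg hT0 (hm.pos hz).le))
          (by positivity))
      have e2 := hQ.norm_cf hz (by have := hp.kw0 hz; have := om_pos a R w z; positivity) k
      have e3 : kw w z * om a R w z * om a R w z ≤ 17 * mu w z * (om a R w z ^ 2 / ‖w z‖) :=
        le_of_eq_of_le (by field_simp [(hp.n0 hz).ne'])
          (mul_le_mul_of_nonneg_right (hp.kw_le hz) (hm.pos hz).le)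
      rw [wt_zero_left, one_mul] at e2
      rw [NlW_eq, cf_neg, cf_add, BoundedContinuousFunction.neg_apply, norm_neg,
        BoundedContinuousFunction.add_apply]
      refine (norm_add_le_of_le e1 (e2.trans (mul_le_mul_of_nonneg_left e3 hCq))).trans_eq ?_
      ring
    · have e1 : 4000 * C ^ 5 * T / Λ ≤ T / 75000 := by
        rw [div_le_div_iff₀ hΛ0 (by norm_num)]
        nlinarith [mul_le_mul_of_nonneg_left hΛ hT0]
      linarith
  have fin : ∀ ε > 0, ∀ z ∈ Icc a R,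
      MB w (jets 0 v) k z ((2 * (450000 * Cq) + ε) * (om a R w z ^ 2 / ‖w z‖)) := fun ε hε =>
    boot (p := fun T => ∀ z ∈ Icc a R, MB w (jets 0 v) k z (T * (om a R w z ^ 2 / ‖w z‖)))
      (fun z hz => hT₀.mb hp.a0 hκ.ne (fun z hz => (hm.pos hz).le) k hz)
      (fun T T' hT h z hz => by
        have := mul_le_mul_of_nonneg_right hT (hm.pos hz).le
        exact ⟨(h z hz).v.trans this, (h z hz).t.trans this, (h z hz).a'.trans this,
          (h z hz).b'.trans this⟩)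
      (fun T hT z hz => (step T hT).mb hz) hε
  refine (step (2 * (450000 * Cq)) fun z hz => ?_).mono fun z hz =>
    mul_le_mul_of_nonneg_right (by linarith) (hm.pos hz).le
  have := (hm.pos hz).le
  exact ⟨le_of_forall_eps this fun ε hε => (fin ε hε z hz).v,
    le_of_forall_eps this fun ε hε => (fin ε hε z hz).t,
    le_of_forall_eps this fun ε hε => (fin ε hε z hz).a',
    le_of_forall_eps this fun ε hε => (fin ε hε z hz).b'⟩

/-- the diagonal part of the source -/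
def dg (a R d : ℝ) (κ κ' : Co) (J J' : J6 (W 0)) : W 0 :=
  resid a R d κ.1 κ'.1 J' - (LinW κ' J' - LinW κ J') - LinW κ (J' - J)

theorem src_eq (a R d : ℝ) (κ κ' : Co) (J J' : J6 (W 0)) :
    -NlW κ' J' + resid a R d κ.1 κ'.1 J' - -NlW κ J =
      dg a R d κ κ' J J' - ((QW κ' J' - QW κ J') + (QW κ J' - QW κ J)) := by
  rw [dg, NlW_eq, NlW_eq, LinW_sub]
  ring

/-- the situation of one step -/
structure SC (C₀ Λ a R d t C Kw Cq Kl : ℝ) (w P P₁ : ℝ → ℂ) (κ κ' : Co) (J J' : J6 (W 0))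
    (p : T3 0) (g : A 2) : Prop where
  hp : Prof C₀ Λ a R w P P₁
  hC : 1 ≤ C
  hK : 1 ≤ Kw
  hKl : 0 ≤ Kl
  hCq : 0 ≤ Cq
  hc : Cmp C a R d w κ κ'
  hi : ∀ z ∈ Icc a R, κ.1 z = (w z)⁻¹
  d0 : 0 ≤ d
  d1 : d ≤ 1
  t0 : 0 ≤ t
  t1 : t ≤ 1
  nj : NJ a R w (om a R w) J' t
  q1 : ∀ T, NJ a R w (sH a R w) (J' - J) T →
    WB a R (fun z => kw w z * om a R w z * sH a R w z) (QW κ J' - QW κ J) (Cq * t * T)
  q2 : WB a R (fun z => C * d * bl R z * om a R w z ^ 2 / ‖w z‖ ^ 2) (QW κ' J' - QW κ J') Cq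
  low : ∀ k : ℤ, |k| ≤ 1 → ∀ z ∈ Icc a R, MB w J' k z (Kl * (om a R w z ^ 2 / ‖w z‖))
  aH : AdmH a R w (sH a R w)
  aD : AdmD a R P (sH a R w)
  aD' : AdmD a R P (sL R w)
  aL : ∀ α, 1 / 2 ≤ α → α ≤ 1 → AdmL a R w P α (fun z => 2 * mL w z) fun z => yL R w z / 25
  wt : ∀ z ∈ Icc a R, 1 ≤ mL w z ∧ b0 a R * sL R w z ≤ 2 * sH a R w z ∧
    bl R z * (om a R w z ^ 2 / ‖w z‖ ^ 2) ≤ Kw * (b0 a R * yL R w z) ∧
    bl R z * (om a R w z ^ 2 / (z * ‖w z‖ ^ 3)) ≤ Kw * (b0 a R * yL R w z)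
  z0 : ZDer (Icc a R) p.1 p.2.1
  z1 : ZDer (Icc a R) p.2.1 p.2.2
  eq : LinEq a R κ.1 p (dg a R d κ κ' J J' - ((QW κ' J' - QW κ J') + (QW κ J' - QW κ J)))
  bc : BCs a R g p
  gn : ‖g‖ ≤ C * d * b0 a R
  lay : NJ a R w (fun z => bl R z * om a R w z) (J' - J - jets 0 p) (63 * d)
  c0 : ∀ k, ∀ z ∈ Icc a R, cf (J' - J).1 k z = cf p.1 k z
  c1 : ∀ k, ∀ z ∈ Icc a R,
    cf (J' - J).2.1 k z = cf p.2.1 k z + ((1 - pb1 R d z : ℝ) : ℂ) * cf J'.2.1 k z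
  c2 : ∀ k : ℤ, ∀ z ∈ Icc a R, cf (J' - J).2.2.2.2.2 k z = -(k : ℂ) ^ 2 * cf p.1 k z

theorem b0_pos (a R : ℝ) : 0 < b0 a R := Real.exp_pos _

/-- the statement which is improved by the iteration -/
def BT (a R : ℝ) (w : ℝ → ℂ) (J J' : J6 (W 0)) (p : T3 0) (T : ℝ) : Prop :=
  NJ a R w (sH a R w) (J' - J) T ∧ ∀ k : ℤ, |k| ≤ 1 → ∀ z ∈ Icc a R,
    ‖cf p.1 k z‖ ≤ T * (b0 a R * sL R w z) ∧
      z * ‖w z‖ * ‖cf (J' - J).2.1 k z‖ ≤ T * (b0 a R * sL R w z)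

namespace SC

variable {C₀ Λ t C Kw Cq Kl T y : ℝ} {P P₁ : ℝ → ℂ} {p : T3 0} {g : A 2}
  (h : SC C₀ Λ a R d t C Kw Cq Kl w P P₁ κ κ' J J' p g)
include h

theorem dg_le (hz : z ∈ Icc a R) (hx : MB w J' k z x) (hv : ‖cf (J' - J).1 k z‖ ≤ y)
    (ht : ‖cf (J' - J).2.2.2.2.2 k z‖ ≤ y) (ha : z * ‖w z‖ * ‖cf (J' - J).2.1 k z‖ ≤ y) :
    ‖cf (dg a R d κ κ' J J') k z‖ ≤
      5000 * C ^ 6 * d * (bl R z * kw w z * x) + 4000 * C ^ 5 * (y / (z * ‖w z‖) ^ 2) := by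
  have e0 := h.hp.z0 hz
  have en := h.hp.n0 hz
  have eb := bl_pos R z
  have hd := h.d0
  have hC := h.hC
  have hx0 := (norm_nonneg _).trans hx.v
  obtain ⟨s1, s2, s3, s4⟩ := h.hc.dif z hz
  have e1 := lin_le hC h.hc.ok hz hv ht ha
  have e2 := lind_le hC h.hc.ok h.hc.ok' hz (by positivity) s2 s3 s4 hx
  have r1 : ‖((pb1 R d z ^ 2 - 1 : ℝ) : ℂ) * cf J'.2.2.2.1 k z‖ ≤
      45 * d * bl R z * (x / ‖w z‖) := by
    rw [norm_mul, Complex.norm_real, Real.norm_eq_abs]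
    refine mul_le_mul (pb1_bd hd h.d1 hz.2).2.1 ?_ (norm_nonneg _) (by positivity)
    rw [le_div_iff₀ en, mul_comm]; exact hx.b'
  have r2 : ‖pc3 a R d z * cf J'.2.1 k z‖ ≤ 6 * d * bl R z * (x / ‖w z‖) := by
    have : ‖cf J'.2.1 k z‖ ≤ x / (z * ‖w z‖) := by
      rw [le_div_iff₀ (by positivity), mul_comm]; exact hx.a'
    exact (norm_mul_le_of_le (pc3_le hd h.d1 hz (by linarith [h.hp.z100 hz])) this).trans_eq
      (by field_simp)
  have r3 : ‖(κ.1 z - κ'.1 z) * (cf J'.2.2.2.2.2 k z + 2 * cf J'.1 k z)‖ ≤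
      C * d * bl R z / (z * ‖w z‖ ^ 2) * (3 * x) := by
    refine norm_mul_le_of_le (by rwa [norm_sub_rev]) ((norm_add_le _ _).trans ?_)
    rw [norm_mul, Complex.norm_two]
    linarith [hx.v, hx.t]
  have e3 : bl R z * kw w z * x =
      bl R z * (x / ‖w z‖) + bl R z / (z * ‖w z‖ ^ 2) * x := by unfold kw; field_simp
  have e4 : C * d * bl R z / (z * ‖w z‖ ^ 2) = C * d * (bl R z / (z * ‖w z‖ ^ 2)) := by ring
  have c1 : C ≤ C ^ 6 := by simpa using pow_le_pow_right₀ hC (show 1 ≤ 6 by norm_num)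
  have p1 : 0 ≤ d * (bl R z * (x / ‖w z‖)) := by positivity
  have p2 : 0 ≤ d * (bl R z / (z * ‖w z‖ ^ 2) * x) := by positivity
  rw [dg, cf_sub, cf_sub, cf_sub, BoundedContinuousFunction.sub_apply,
    BoundedContinuousFunction.sub_apply, BoundedContinuousFunction.sub_apply, cf_resid _ _ _ _ hz]
  refine (norm_sub_le_of_le (norm_sub_le_of_le (norm_add_le_of_le (norm_add_le_of_le r1 r2) r3) e2)
    e1).trans ?_
  rw [e3, e4]
  nlinarith [mul_le_mul_of_nonneg_right c1 p1, mul_le_mul_of_nonneg_right c1 p2,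
    mul_le_mul_of_nonneg_right hC p1, mul_le_mul_of_nonneg_right hC p2]

theorem m1_le (hz : z ∈ Icc a R) : 0 ≤ bl R z * (om a R w z / ‖w z‖) ∧
    bl R z * (om a R w z / ‖w z‖) ≤ sH a R w z ∧ b0 a R ≤ sH a R w z ∧ mL w z ≤ sL R w z := by
  have e1 : 0 ≤ bl R z * (om a R w z / ‖w z‖) := by
    have := bl_pos R z; have := om_pos a R w z; positivity
  have e2 := le_mul_of_one_le_right (b0_pos a R).le (h.wt z hz).1
  have e3 : 0 ≤ z * ‖w z‖ * bl R z := by have := bl_pos R z; have := h.hp.z0 hz; positivity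
  unfold sH sL
  exact ⟨e1, by linarith [b0_pos a R], by linarith, by nlinarith [mL_pos w z]⟩

/-- the source in the weight of the high modes -/
theorem src_high (hT : NJ a R w (sH a R w) (J' - J) T) :
    WB a R (fun z => mu w z * sH a R w z)
      (dg a R d κ κ' J J' - ((QW κ' J' - QW κ J') + (QW κ J' - QW κ J)))
      (340000 * C ^ 6 * d + 16000 * C ^ 5 * T / Λ + (3000 * (C * d) * Cq + 3002 * (Cq * t * T))) := by
  have hp := h.hp
  have hd := h.d0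
  have hC := h.hC
  have hΛ : 0 < Λ := by linarith [hp.lam1]
  obtain ⟨c, p1, s1, t1, b1⟩ := h.nj.seq hp.a0 (fun _ => hp.ne) fun z _ => (om_pos ..).le
  obtain ⟨c', p2, s2, t2, b2⟩ := hT.seq hp.a0 (fun _ => hp.ne) fun z hz => (h.aD.pos hz).le
  refine WB.sub (WB.intro (fun k => 85000 * C ^ 6 * d * c k + 4000 * C ^ 5 / Λ * c' k)
    (fun k => by have := p1 k; have := p2 k; positivity) (fun k z hz => ?_) ?_ ?_)
    ((h.q2.mono_mul (by positivity) fun z hz => ?_).add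
      ((h.q1 T hT).mono_mul (by norm_num) fun z hz => ?_))
  · refine (h.dg_le hz (b1 k z hz) (b2 k z hz).v (b2 k z hz).t (b2 k z hz).a').trans ?_
    have e1 : bl R z * kw w z * (c k * om a R w z) ≤ c k * (17 * mu w z * sH a R w z) := by
      refine le_of_eq_of_le ?_ (mul_le_mul_of_nonneg_left (mul_le_mul (hp.kw_le hz)
        (h.m1_le hz).2.1 (h.m1_le hz).1 (by linarith [hp.mu0 hz])) (p1 k))
      field_simp [(hp.n0 hz).ne']
    have e2 := hp.div_sq_le hz (mul_nonneg (p2 k) (h.aD.pos hz).le)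
    refine (add_le_add (mul_le_mul_of_nonneg_left e1 (by positivity))
      (mul_le_mul_of_nonneg_left e2 (by positivity))).trans_eq (by ring)
  · simpa using (s1.mul_left _).add (s2.mul_left _)
  · simp only [wt_zero_left, one_mul]
    rw [(s1.mul_left _).tsum_add (s2.mul_left _), tsum_mul_left, tsum_mul_left]
    refine (add_le_add (mul_le_mul_of_nonneg_left (t1.trans (by linarith [h.t1] : 4 * t ≤ 4))
      (by positivity)) (mul_le_mul_of_nonneg_left t2 (by positivity))).trans_eq (by ring)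
  · have e1 : om a R w z / ‖w z‖ ≤ 3000 * mu w z := by
      rw [div_le_iff₀ (hp.n0 hz)]; linarith [hp.M1 hz]
    refine le_of_eq_of_le ?_ ((mul_le_mul_of_nonneg_left (mul_le_mul e1 (h.m1_le hz).2.1
      (h.m1_le hz).1 (by linarith [hp.mu0 hz])) (by positivity : 0 ≤ C * d)).trans_eq (by ring))
    ring
  · nlinarith [hp.om_kw hz, h.aD.pos hz]

theorem yL_bd (hz : z ∈ Icc a R) : 0 ≤ yL R w z ∧ mu w z * mL w z ≤ yL R w z ∧
    ‖w z‖ * yL R w z ≤ sL R w z ∧ sL R w z / (z * ‖w z‖) ^ 2 ≤ yL R w z / Λ ∧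
    bl R z * kw w z * (om a R w z ^ 2 / ‖w z‖) ≤ 2 * Kw * (b0 a R * yL R w z) := by
  have hp := h.hp
  have e0 := hp.z0 hz
  have en := hp.n0 hz
  have eb := bl_pos R z
  have em := mL_pos w z
  have eu := hp.mu0 hz
  have hΛ : 0 < Λ := by linarith [hp.lam1]
  refine ⟨by unfold yL; positivity, by unfold yL; nlinarith [mul_pos (mul_pos e0 eb) em], ?_, ?_, ?_⟩
  · unfold yL sL
    nlinarith [mul_le_mul_of_nonneg_right (hp.mu_le hz) em.le]
  · have e1 := hp.div_sq_le hz em.le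
    have e2 : mL w z * (z * ‖w z‖ * bl R z) / (z * ‖w z‖) ^ 2 ≤ z * bl R z * mL w z / Λ := by
      rw [div_le_div_iff₀ (by positivity) hΛ]
      nlinarith [mul_le_mul_of_nonneg_left (hp.z2n hz)
        (by positivity : 0 ≤ mL w z * (z * ‖w z‖ * bl R z))]
    unfold yL sL
    rw [mul_add, add_div, mul_one, add_mul, add_div]
    exact add_le_add e1 e2
  · have e1 : bl R z * kw w z * (om a R w z ^ 2 / ‖w z‖) = bl R z * (om a R w z ^ 2 / ‖w z‖ ^ 2) +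
        bl R z * (om a R w z ^ 2 / (z * ‖w z‖ ^ 3)) := by unfold kw; field_simp
    linarith [(h.wt z hz).2.2.1, (h.wt z hz).2.2.2]

/-- the source of the low modes -/
theorem src_low (hT : BT a R w J J' p T) (hk : |k| ≤ 1) (hz : z ∈ Icc a R) :
    ‖cf (dg a R d κ κ' J J' - ((QW κ' J' - QW κ J') + (QW κ J' - QW κ J))) k z‖ ≤
      (10000 * C ^ 6 * d * Kl * Kw + 4000 * C ^ 5 * T / Λ +
        (Cq * (C * d) * Kw + Cq * t * T * (2 * Kw + 3002))) * (b0 a R * yL R w z) := by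
  have hp := h.hp
  have hd := h.d0
  have hC := h.hC
  have hb := b0_pos a R
  have hT0 := hT.1.nonneg
  have hKl := h.hKl
  have eb := bl_pos R z
  obtain ⟨y0, y1, -, y3, y4⟩ := h.yL_bd hz
  obtain ⟨l1, l2⟩ := hT.2 k hk z hz
  have l3 : ‖cf (J' - J).2.2.2.2.2 k z‖ ≤ T * (b0 a R * sL R w z) := by
    rw [h.c2 k z hz, norm_mul, norm_neg, norm_pow, Complex.norm_intCast]
    have : |(k : ℝ)| ≤ 1 := by exact_mod_cast hk
    exact (mul_le_of_le_one_left (norm_nonneg _) (pow_le_one₀ (abs_nonneg _) this)).trans l1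
  have e1 := h.dg_le hz (h.low k hk z hz) (by rwa [h.c0 k z hz]) l3 l2
  have e2 := h.q2.norm_cf hz (by positivity) k
  have e3 := (h.q1 T hT.1).norm_cf hz
    (mul_pos (mul_pos (hp.kw0 hz) (om_pos ..)) (h.aD.pos hz)).le k
  rw [wt_zero_left, one_mul] at e2 e3
  have f1 : bl R z * kw w z * (Kl * (om a R w z ^ 2 / ‖w z‖)) ≤
      Kl * (2 * Kw * (b0 a R * yL R w z)) :=
    le_of_eq_of_le (by ring) (mul_le_mul_of_nonneg_left y4 hKl)
  have f2 : T * (b0 a R * sL R w z) / (z * ‖w z‖) ^ 2 ≤ T * b0 a R * (yL R w z / Λ) :=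
    le_of_eq_of_le (by ring) (mul_le_mul_of_nonneg_left y3 (by positivity))
  have f3 : C * d * bl R z * om a R w z ^ 2 / ‖w z‖ ^ 2 ≤ C * d * (Kw * (b0 a R * yL R w z)) :=
    le_of_eq_of_le (by ring) (mul_le_mul_of_nonneg_left (h.wt z hz).2.2.1 (by positivity))
  have f4 : kw w z * om a R w z * sH a R w z ≤ (2 * Kw + 3002) * (b0 a R * yL R w z) := by
    have g1 := mul_le_mul_of_nonneg_right (hp.om_kw hz) (mul_pos hb (mL_pos w z)).le
    have g2 := mul_le_mul_of_nonneg_left y1 hb.le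
    have g3 : kw w z * om a R w z * sH a R w z = bl R z * kw w z * (om a R w z ^ 2 / ‖w z‖) +
        kw w z * om a R w z * (b0 a R * mL w z) := by unfold sH; ring
    linarith
  rw [cf_sub, cf_add, BoundedContinuousFunction.sub_apply, BoundedContinuousFunction.add_apply]
  refine (norm_sub_le_of_le (e1.trans (add_le_add (mul_le_mul_of_nonneg_left f1 (by positivity))
    (mul_le_mul_of_nonneg_left f2 (by positivity)))) (norm_add_le_of_le
      (e2.trans (mul_le_mul_of_nonneg_left f3 h.hCq)) (e3.trans (mul_le_mul_of_nonneg_left f4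
        (by have := h.hCq; have := h.t0; positivity))))).trans_eq (by ring)

theorem jb_low {F : W 0} {B : ℝ} (he : LinEq a R κ.1 p F) (hB : 0 ≤ B) (hk : |k| ≤ 1)
    (hF : ∀ z ∈ Icc a R, ‖cf F k z‖ ≤ B * (b0 a R * yL R w z)) :
    JBk a R w p k (sL R w) (10004 * B * b0 a R) := by
  have hp := h.hp
  have hb := b0_pos a R
  have hk' : |(k : ℝ)| ≤ 1 := by exact_mod_cast hk
  have hs := msol_of h.hi h.z0 h.z1 he k
  refine (hp.jets (T := 200 * (B * b0 a R)) (A := B * b0 a R) hs (abs_nonneg _) (fun _ _ => rfl)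
    h.aD' (h.bc.2.1 k) (fun z hz => ?_) fun z hz => ?_).mono fun z _ => le_of_eq (by ring)
  · have e1 := hp.low' (A := 25 * (B * b0 a R)) hs (abs_nonneg _) hk' (fun _ _ => rfl) h.aL
      (by positivity) (fun z hz => (hF z hz).trans_eq (by ring)) (h.bc.2.2 k hk) (h.bc.2.1 k) hz
    have e2 : (1 + |(k : ℝ)|) ^ 2 ≤ 4 := by nlinarith [abs_nonneg (k : ℝ)]
    have e3 := mul_le_mul_of_nonneg_left (h.m1_le hz).2.2.2 (by positivity : 0 ≤ B * b0 a R)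
    nlinarith [norm_nonneg (cf p.1 k z)]
  · refine (mul_le_mul_of_nonneg_left (hF z hz) (norm_nonneg _)).trans ?_
    nlinarith [mul_le_mul_of_nonneg_left (h.yL_bd hz).2.2.1 (by positivity : 0 ≤ B * b0 a R)]

theorem jb_high {F : W 0} {B : ℝ} (he : LinEq a R κ.1 p F) (hk : 2 ≤ |k|)
    (hF : ∀ z ∈ Icc a R, ‖cf F k z‖ ≤ B * (mu w z * sH a R w z)) :
    JBk a R w p k (sH a R w) (50 * (Wien.wt 2 k * ‖cf g k‖ / b0 a R) + 9004 * B) := by
  have hb := b0_pos a R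
  refine (h.hp.mode_high (B := ‖cf g k‖ / b0 a R) (msol_of h.hi h.z0 h.z1 he k)
    (by exact_mod_cast hk) (fun _ _ => rfl) h.aH h.aD hF ?_ (h.bc.2.1 k)).mono fun z _ =>
    le_of_eq (by rw [wt_int]; ring)
  rw [h.bc.1 k hk, div_mul_eq_mul_div, le_div_iff₀ hb]
  exact mul_le_mul_of_nonneg_left (h.m1_le h.hp.mema).2.2.1 (norm_nonneg _)

theorem nj_p {F : W 0} {BH BL : ℝ} (he : LinEq a R κ.1 p F) (hB : 0 ≤ BL)
    (hH : WB a R (fun z => mu w z * sH a R w z) F BH)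
    (hL : ∀ k : ℤ, |k| ≤ 1 → ∀ z ∈ Icc a R, ‖cf F k z‖ ≤ BL * (b0 a R * yL R w z)) :
    NJ a R w (sH a R w) (jets 0 p) (50 * (C * d) + 9004 * BH + 3 * (20008 * BL)) := by
  classical
  obtain ⟨c, p1, s1, t1, b1⟩ := hH
  simp only [wt_zero_left, one_mul] at s1 t1
  have hb := b0_pos a R
  have s0 := ((summable_norm g).div_const (b0 a R)).mul_left 50
  have s2 : HasSum (fun k : ℤ => if k ∈ ({-1, 0, 1} : Finset ℤ) then 20008 * BL else 0)
      (3 * (20008 * BL)) := by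
    have : HasSum (fun k : ℤ => if k ∈ ({-1, 0, 1} : Finset ℤ) then 20008 * BL else 0)
        (∑ k ∈ ({-1, 0, 1} : Finset ℤ), if k ∈ ({-1, 0, 1} : Finset ℤ) then 20008 * BL else 0) :=
      hasSum_sum_of_ne_finset_zero fun k hk => if_neg hk
    rwa [Finset.sum_congr rfl fun k hk => if_pos hk, Finset.sum_const, nsmul_eq_mul] at this
  have n0 : ∀ k, 0 ≤ 50 * (Wien.wt 2 k * ‖cf g k‖ / b0 a R) + 9004 * c k := fun k => by
    have := wt_pos 2 k; have := p1 k; positivity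
  refine nj_of_jb h.hp (c := fun k => 50 * (Wien.wt 2 k * ‖cf g k‖ / b0 a R) + 9004 * c k +
    if k ∈ ({-1, 0, 1} : Finset ℤ) then 20008 * BL else 0) (fun k => add_nonneg (n0 k) ?_)
    ((s0.add (s1.mul_left _)).add s2.summable) ?_ fun k => ?_
  · split_ifs <;> positivity
  · rw [(s0.add (s1.mul_left _)).tsum_add s2.summable, s0.tsum_add (s1.mul_left _), s2.tsum_eq,
      tsum_mul_left, tsum_mul_left, tsum_div_const, ← norm_eq]
    have : ‖g‖ / b0 a R ≤ C * d := (div_le_iff₀ hb).2 h.gn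
    linarith
  · by_cases hk : k ∈ ({-1, 0, 1} : Finset ℤ)
    · have hk' : |k| ≤ 1 := by
        simp only [Finset.mem_insert, Finset.mem_singleton] at hk
        rcases hk with rfl | rfl | rfl <;> simp
      refine (h.jb_low he hB hk' (hL k hk')).mono fun z hz => ?_
      rw [if_pos hk]
      nlinarith [mul_le_mul_of_nonneg_left (h.wt z hz).2.1 hB, mul_nonneg (n0 k) (h.aD.pos hz).le]
    · have hk' : 2 ≤ |k| := by
        simp only [Finset.mem_insert, Finset.mem_singleton] at hk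
        rcases abs_cases k with h | h <;> omega
      exact (h.jb_high he hk' (b1 k)).mono fun z _ => by rw [if_neg hk, add_zero]

theorem step (hΛ : 10 ^ 10 * C ^ 5 ≤ Λ) (ht : 10 ^ 10 * Cq * Kw * t ≤ 1) (hT : BT a R w J J' p T) :
    BT a R w J J' p (10 ^ 10 * C ^ 6 * Kw * (1 + Kl + Cq) * d + T / 2) := by
  have hp := h.hp
  have hd := h.d0
  have hC := h.hC
  have hK := h.hK
  have hKl := h.hKl
  have hCq := h.hCq
  have ht0 := h.t0
  have hb := b0_pos a R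
  have hT0 := hT.1.nonneg
  have hΛ0 : 0 < Λ := by linarith [hp.lam1]
  set BL := 10000 * C ^ 6 * d * Kl * Kw + 4000 * C ^ 5 * T / Λ +
    (Cq * (C * d) * Kw + Cq * t * T * (2 * Kw + 3002)) with hBL
  have hB : 0 ≤ BL := by positivity
  have c1 : C ≤ C ^ 6 := by simpa using pow_le_pow_right₀ hC (show 1 ≤ 6 by norm_num)
  have e1 : C ^ 5 * T / Λ ≤ T / 10 ^ 10 := by
    rw [div_le_div_iff₀ hΛ0 (by norm_num)]
    nlinarith [mul_le_mul_of_nonneg_left hΛ hT0]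
  have e2 : Cq * t * T * Kw ≤ T / 10 ^ 10 := by nlinarith [mul_le_mul_of_nonneg_left ht hT0]
  have e3 : Cq * t * T ≤ Cq * t * T * Kw := le_mul_of_one_le_right (by positivity) hK
  have u1 : d ≤ C * d := le_mul_of_one_le_left hd hC
  have u2 : C * d ≤ C ^ 6 * d := mul_le_mul_of_nonneg_right c1 hd
  have u3 : C ^ 6 * d ≤ C ^ 6 * d * Kw := le_mul_of_one_le_right (by positivity) hK
  have u4 : C * d * Cq ≤ C ^ 6 * d * Kw * Cq := mul_le_mul_of_nonneg_right (u2.trans u3) hCq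
  have u5 : C * d * Kw * Cq ≤ C ^ 6 * d * Kw * Cq := by gcongr
  have u6 : d * Kw * Kl ≤ C ^ 6 * d * Kw * Kl := by gcongr; exact u1.trans u2
  have u7 : 0 ≤ C ^ 6 * d * Kw * Kl := by positivity
  have u8 : 0 ≤ C ^ 6 * d * Kw * Cq := by positivity
  have e4 : 4000 * C ^ 5 * T / Λ = 4000 * (C ^ 5 * T / Λ) := by ring
  have e5 : 16000 * C ^ 5 * T / Λ = 16000 * (C ^ 5 * T / Λ) := by ring
  have hL := fun k hk z hz => h.src_low (k := k) (z := z) hT hk hz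
  refine ⟨?_, fun k hk z hz => ?_⟩
  · have n1 := h.nj_p h.eq hB (h.src_high hT.1) hL
    have n2 : NJ a R w (sH a R w) (J' - J - jets 0 p) (16 * (63 * d)) := by
      have k0 : ∀ z ∈ Icc a R, bl R z * om a R w z ≤ 16 * sH a R w z := fun z hz => by
        have := mul_le_mul (hp.n16 hz) (h.m1_le hz).2.1 (h.m1_le hz).1 (by norm_num)
        refine le_of_eq_of_le ?_ this
        field_simp [(hp.n0 hz).ne']
      have k1 : ∀ f : ℝ → ℝ, (∀ z ∈ Icc a R, 0 ≤ f z) → ∀ z ∈ Icc a R,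
          bl R z * om a R w z / f z ≤ 16 * (sH a R w z / f z) := fun f hf z hz => by
        rw [← mul_div_assoc]; exact div_le_div_of_nonneg_right (k0 z hz) (hf z hz)
      have k2 := k1 (fun z => ‖w z‖) fun _ _ => norm_nonneg _
      have k3 := k1 (fun z => z * ‖w z‖) fun z hz => mul_nonneg (hp.z0 hz).le (norm_nonneg _)
      exact ⟨h.lay.v.mono_mul (by norm_num) k0, h.lay.a'.mono_mul (by norm_num) k3,
        h.lay.q.mono_mul (by norm_num) k0, h.lay.b'.mono_mul (by norm_num) k2,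
        h.lay.m.mono_mul (by norm_num) k2, h.lay.t.mono_mul (by norm_num) k0⟩
    have n3 := n1.add n2
    rw [add_sub_cancel] at n3
    refine n3.mono_const ?_
    rw [hBL, e4, e5]
    nlinarith
  · have j := (h.jb_low h.eq hB hk (hL k hk)).mb hz
    have hs := mul_pos hb (h.aD'.pos hz)
    have v1 : 10004 * BL + 9 * (d * Kw * Kl) ≤ 10 ^ 10 * C ^ 6 * Kw * (1 + Kl + Cq) * d + T / 2 := by
      rw [hBL, e4]
      nlinarith
    have v2 := mul_le_mul_of_nonneg_right v1 hs.le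
    have v3 : 0 ≤ d * Kw * Kl * (b0 a R * sL R w z) := by positivity
    have j1 := j.v
    have j2 := j.a'
    rw [(cf_jets p k z).1] at j1
    rw [(cf_jets p k z).2.1] at j2
    refine ⟨by linarith, ?_⟩
    have x1 : bl R z * (om a R w z ^ 2 / ‖w z‖) ≤ Kw * (b0 a R * sL R w z) := by
      have y1 := mul_le_mul_of_nonneg_left (h.wt z hz).2.2.1 (hp.n0 hz).le
      have y2 := mul_le_mul_of_nonneg_left (h.yL_bd hz).2.2.1 (by positivity : 0 ≤ Kw * b0 a R)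
      refine le_of_eq_of_le ?_ (y1.trans (by linarith))
      field_simp
    have x2 : ‖((1 - pb1 R d z : ℝ) : ℂ)‖ ≤ 9 * d * bl R z := by
      rw [Complex.norm_real, Real.norm_eq_abs, abs_sub_comm]
      exact (pb1_bd hd h.d1 hz.2).1
    have x3 := mul_le_mul x2 (h.low k hk z hz).a' (by have := hp.z0 hz; positivity)
      ((norm_nonneg _).trans x2)
    have x4 := mul_le_mul_of_nonneg_left x1 (by positivity : 0 ≤ 9 * d * Kl)
    have x5 := mul_le_mul_of_nonneg_left (norm_add_le (cf p.2.1 k z)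
      (((1 - pb1 R d z : ℝ) : ℂ) * cf J'.2.1 k z)) (mul_pos (hp.z0 hz) (hp.n0 hz)).le
    rw [norm_mul] at x5
    rw [h.c1 k z hz]
    nlinarith

theorem fin (hΛ : 10 ^ 10 * C ^ 5 ≤ Λ) (ht : 10 ^ 10 * Cq * Kw * t ≤ 1) :
    NJ a R w (sH a R w) (J' - J) (2 * (10 ^ 10 * C ^ 6 * Kw * (1 + Kl + Cq) * d)) := by
  have hp := h.hp
  have hb := b0_pos a R
  have hs : ∀ z ∈ Icc a R, 0 < b0 a R * sL R w z := fun z hz => mul_pos hb (h.aD'.pos hz)
  obtain ⟨T₁, h1⟩ := NJ.exists (J' - J) h.hc.ok.one hp.le h.hc.ok.ne h.hc.ok.le hb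
    fun z hz => (h.m1_le hz).2.2.1
  obtain ⟨T₂, h2⟩ := NJ.exists (sg := fun z => b0 a R * sL R w z) (J' - J) h.hc.ok.one hp.le
    h.hc.ok.ne h.hc.ok.le hb fun z hz =>
      le_mul_of_one_le_right hb.le ((h.wt z hz).1.trans (h.m1_le hz).2.2.2)
  have hm : ∀ T T', T ≤ T' → BT a R w J J' p T → BT a R w J J' p T' := fun T T' hT hB =>
    ⟨hB.1.mono_const hT, fun k hk z hz =>
      have e := mul_le_mul_of_nonneg_right hT (hs z hz).le
      ⟨(hB.2 k hk z hz).1.trans e, (hB.2 k hk z hz).2.trans e⟩⟩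
  have h0 : BT a R w J J' p (T₁ + 4 * T₂) := by
    refine ⟨h1.mono_const (by linarith [h2.nonneg]), fun k _ z hz => ?_⟩
    have j := h2.mb hp.a0 h.hc.ok.ne (fun z hz => (hs z hz).le) k hz
    have e := mul_nonneg h1.nonneg (hs z hz).le
    exact ⟨by rw [← h.c0 k z hz]; linarith [j.v], by linarith [j.a']⟩
  exact NJ.of_forall (fun ε hε => (boot h0 hm (fun T hT => h.step hΛ ht hT) hε).1) hp.a0
    h.hc.ok.ne fun z hz => h.aD.pos hz

end SC

theorem om_cmp {C₀ Λ R' : ℝ} {w' P P₁ P' P₁' : ℝ → ℂ} (hp : Prof C₀ Λ a R w P P₁)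
    (hp' : Prof C₀ Λ a R' w' P' P₁') (hz : z ∈ Icc a R) (hx : x ∈ Icc a R') (hzx : z ≤ x)
    (hw : ‖w' x‖ ≤ 2 * ‖w z‖) : om a R' w' x ≤ 16 * om a R w z := by
  have e1 := Real.log_le_log (hp'.n0 hx) hw
  rw [Real.log_mul two_ne_zero (hp.n0 hz).ne'] at e1
  have e2 := Real.log_le_log (hp.z0 hz) hzx
  have e3 : 19 / 10 * x / R' ≤ 2 := by rw [div_le_iff₀ hp'.R0]; linarith [hx.2, hp'.R0]
  have e4 : 0 ≤ 19 / 10 * z / R := by have := hp.z0 hz; have := hp.R0; positivity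
  have e5 : 0 ≤ Real.log 2 := Real.log_nonneg (by norm_num)
  calc om a R' w' x ≤ Real.exp (Real.log 2 + 2) * om a R w z := by
        unfold om ell
        rw [← Real.exp_add]
        exact Real.exp_le_exp.2 (by linarith)
    _ ≤ 16 * om a R w z := by
        rw [Real.exp_add, Real.exp_log two_pos]
        exact mul_le_mul_of_nonneg_right (by linarith [Prof.exp_two]) (om_pos ..).le

theorem mb_pull {R' K : ℝ} {w' : ℝ → ℂ} {g : C(ℝ, ℝ)} (h : MB w' J k (g z) K) (hz : 0 < z)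
    (h1 : z ≤ g z) (h2 : ‖w z‖ ≤ 2 * ‖w' (g z)‖) (h3 : 2 * K ≤ R') : MB w (pullJ g J) k z R' := by
  have h0 := (norm_nonneg _).trans h.v
  refine ⟨?_, ?_, ?_, ?_⟩ <;> simp only [pullJ, cf_pull]
  · linarith [h.v]
  · linarith [h.t]
  · have := mul_le_mul_of_nonneg_right (mul_le_mul h1 h2 (norm_nonneg _) (hz.le.trans h1))
      (norm_nonneg (cf J.2.1 k (g z)))
    linarith [h.a']
  · have := mul_le_mul_of_nonneg_right h2 (norm_nonneg (cf J.2.2.2.1 k (g z)))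
    linarith [h.b']

section pair

variable {C Λ Z₀ C₁ : ℝ} {y y' c : ℂ} {V P V' P' : BC} {h : A 2} {v v' : T3 0}
  (hP : Pair C Λ Z₀ a R (R + d) y y' c V P V' P')
  (hcm : Cmp C₁ a R d V (kap a R V P) (pullCo (pbC R d) (kap a (R + d) V' P')))
include hP

theorem Pair.d0 : 0 ≤ d := by linarith [hP.le]

theorem Pair.d1 : d ≤ 1 := by
  have h1 := hP.near
  have h2 := hP.l.prof.z100 hP.l.prof.memR
  rw [add_sub_cancel_left] at h1
  nlinarith [hP.d0]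

include hcm

theorem Pair.hV (hz : z ∈ Icc a R) :
    ‖V z‖ ≤ 2 * ‖V' (pb R d z)‖ ∧ ‖V' (pb R d z)‖ ≤ 2 * ‖V z‖ := by
  have := hcm.low z hz
  rwa [show (pullCo (pbC R d) (kap a (R + d) V' P')).2.1 z = V' (pb R d z) from
    Dat.k2 (P := P') (pb_mem hP.d0 hz)] at this

theorem Pair.hom (hz : z ∈ Icc a R) : om a (R + d) V' (pb R d z) ≤ 16 * om a R V z :=
  om_cmp hP.l.prof hP.r.prof hz (pb_mem hP.d0 hz) (pb_bd hP.d0 hz.2).1 (hP.hV hcm hz).2

theorem Pair.nj (hv' : VSol a (R + d) V' P' h v' D) :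
    NJ a R V (om a R V) (pullJ (pbC R d) (jets 0 v')) (32 * D) := by
  refine (hv'.bd.pull (K := 16) (g := pbC R d) (by norm_num) hP.l.a0 fun z hz => ?_).mono_const
    (by linarith)
  rw [pbC_apply]
  exact ⟨pb_mem hP.d0 hz, (pb_bd hP.d0 hz.2).1, (om_pos ..).le, hP.hom hcm hz, hP.l.prof.n0 hz,
    (hP.hV hcm hz).1⟩

theorem Pair.low (hv' : VSol a (R + d) V' P' h v' D) {Cl : ℝ} (hΛ : 3 * 10 ^ 8 * (4 * C) ^ 5 ≤ Λ)
    (hQ : WB a (R + d) (fun z => kw V' z * om a (R + d) V' z * om a (R + d) V' z)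
      (QW (kap a (R + d) V' P') (jets 0 v')) Cl) (hk : |k| ≤ 1) (hz : z ∈ Icc a R) :
    MB V (pullJ (pbC R d) (jets 0 v')) k z (10 ^ 9 * 2 * Cl * (om a R V z ^ 2 / ‖V z‖)) := by
  have hp := hP.l.prof
  have hCl := hQ.nonneg
  have j := (low_ref hP.r.prof (by linarith [hP.l.c1]) hP.r.coOK hΛ (fun z => hP.r.k1) hv'.tri.d0
    hv'.tri.d1 hv'.eq hv'.bcs hQ hk).mb (pb_mem hP.d0 hz)
  refine mb_pull j (hp.z0 hz) (pb_bd hP.d0 hz.2).1 (hP.hV hcm hz).1 ?_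
  have e1 : om a (R + d) V' (pb R d z) ^ 2 / ‖V' (pb R d z)‖ ≤
      (16 * om a R V z) ^ 2 / (‖V z‖ / 2) :=
    div_le_div₀ (by positivity) (pow_le_pow_left₀ (om_pos ..).le (hP.hom hcm hz) 2)
      (half_pos (hp.n0 hz)) (by linarith [(hP.hV hcm hz).1])
  have e2 : (16 * om a R V z) ^ 2 / (‖V z‖ / 2) = 512 * (om a R V z ^ 2 / ‖V z‖) := by
    ring
  have e3 : 0 ≤ Cl * (om a R V z ^ 2 / ‖V z‖) := by positivity
  have e4 := mul_le_mul_of_nonneg_left (e1.trans_eq e2) hCl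
  linarith

theorem Pair.sc (hv : VSol a R V P h v D) (hv' : VSol a (R + d) V' P' h v' D) {Cl Cq Kw : ℝ}
    (hC₁ : 1 ≤ C₁) (hKw : 1 ≤ Kw) (hΛ : 3 * 10 ^ 8 * (4 * C) ^ 5 ≤ Λ) (hD : 32 * D ≤ 1)
    (hh : ‖h‖ ≤ 1) (hρ : ‖(rho a (R + d) V' a)⁻¹ - (rho a R V a)⁻¹‖ ≤ C₁ * d * b0 a R)
    (hQ : WB a (R + d) (fun z => kw V' z * om a (R + d) V' z * om a (R + d) V' z)
      (QW (kap a (R + d) V' P') (jets 0 v')) Cl)
    (q1 : ∀ T, NJ a R V (sH a R V) (pullJ (pbC R d) (jets 0 v') - jets 0 v) T →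
      WB a R (fun z => kw V z * om a R V z * sH a R V z) (QW (kap a R V P)
        (pullJ (pbC R d) (jets 0 v')) - QW (kap a R V P) (jets 0 v)) (Cq * (32 * D) * T))
    (q2 : WB a R (fun z => C₁ * d * bl R z * om a R V z ^ 2 / ‖V z‖ ^ 2)
      (QW (pullCo (pbC R d) (kap a (R + d) V' P')) (pullJ (pbC R d) (jets 0 v')) -
        QW (kap a R V P) (pullJ (pbC R d) (jets 0 v'))) Cq) {Q : ℝ → ℂ} {Q₁ : ℝ → ℂ}
    (hp : Prof (4 * C) Λ a R V Q Q₁) (w1 : AdmH a R V (sH a R V)) (w2 : AdmD a R Q (sH a R V))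
    (w3 : AdmD a R Q (sL R V))
    (w4 : ∀ α, 1 / 2 ≤ α → α ≤ 1 → AdmL a R V Q α (fun z => 2 * mL V z) fun z => yL R V z / 25)
    (w5 : ∀ z ∈ Icc a R, 1 ≤ mL V z ∧ b0 a R * sL R V z ≤ 2 * sH a R V z ∧
      bl R z * (om a R V z ^ 2 / ‖V z‖ ^ 2) ≤ Kw * (b0 a R * yL R V z) ∧
      bl R z * (om a R V z ^ 2 / (z * ‖V z‖ ^ 3)) ≤ Kw * (b0 a R * yL R V z)) :
    SC (4 * C) Λ a R d (32 * D) C₁ Kw Cq (10 ^ 9 * 2 * Cl) V Q Q₁ (kap a R V P)
      (pullCo (pbC R d) (kap a (R + d) V' P')) (jets 0 v) (pullJ (pbC R d) (jets 0 v'))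
      (pbT a R d v' - v) ((rho a (R + d) V' a)⁻¹ • h - (rho a R V a)⁻¹ • h) := by
  have hd0 := hP.d0
  have nj' := hP.nj hcm hv'
  obtain ⟨zd0, zd1⟩ := zder_pbT hd0 hv'.tri.d0 hv'.tri.d1
  have he := (linEq_pbT hd0 hv'.eq (kap a R V P).1).sub hv.eq
  rw [map_neg, pull_NlW] at he
  refine ⟨hp, hC₁, hKw, by linarith [hQ.nonneg], q2.nonneg, hcm, fun z => hP.l.k1, hd0, hP.d1,
    nj'.nonneg, hD, nj', q1, q2, fun k hk z hz => hP.low hcm hv' hΛ hQ hk hz, w1, w2, w3, w4, w5,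
    zd0.sub hv.tri.d0, zd1.sub hv.tri.d1, by rw [← src_eq]; exact he,
    (bcs_pbT (by linarith [hp.aR', hp.a100]) hv'.bcs).sub hv.bcs, ?_, ?_, fun k z hz => ?_,
    fun k z hz => ?_, fun k z hz => ?_⟩
  · rw [← sub_smul, norm_smul]
    exact (mul_le_of_le_one_right (norm_nonneg _) hh).trans hρ
  · rw [jets_sub, sub_sub_sub_cancel_right]
    exact (nj_layer hd0 hP.d1 hcm.ok.one (fun z _ => (om_pos ..).le) nj').mono_const
      (mul_le_of_le_one_right (by positivity) hD)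
  · simp [pullJ, (cf_jets _ k _).1, (cf_pbT v' k hz).1]
  · simp [pullJ, (cf_jets _ k _).2.1, (cf_pbT v' k hz).2.1]
    ring
  · simp [pullJ, (cf_jets _ k _).2.2.2.2.2, (cf_pbT v' k hz).1]
    ring

end pair

theorem step_of (hc : CmpStmt) (hw : WtStmt) : StepStmt := by
  intro C hC
  obtain ⟨C₁, Λ₁, hC₁, hc⟩ := hc C hC
  obtain ⟨Kw, hKw, hw⟩ := hw
  obtain ⟨Cq, hCq, hq⟩ := q_proof C₁ 128 hC₁ (by norm_num)
  obtain ⟨Cd, hCd, hqd⟩ := qd_proof C₁ 128 hC₁ (by norm_num)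
  obtain ⟨Cl, hCl, hl⟩ := q_proof (4 * C) 128 (by linarith) (by norm_num)
  have hN : 1 ≤ 10 ^ 10 * (Cq + Cd) * Kw :=
    one_le_mul_of_one_le_of_one_le (by linarith) hKw
  refine ⟨max Λ₁ (max (10 ^ 10 * C₁ ^ 5) (3 * 10 ^ 8 * (4 * C) ^ 5)),
    1 / (32 * (10 ^ 10 * (Cq + Cd) * Kw)),
    2 * (10 ^ 10 * C₁ ^ 6 * Kw * (1 + 10 ^ 9 * 2 * Cl + (Cq + Cd))), by positivity, ?_, ?_⟩
  · have := one_le_mul_of_one_le_of_one_le (one_le_mul_of_one_le_of_one_le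
      (one_le_pow₀ (n := 6) hC₁) hKw) (by linarith : 1 ≤ 1 + 10 ^ 9 * 2 * Cl + (Cq + Cd))
    linarith
  intro Λ Z₀ a R R' y y' c V P V' P' h v v' D hΛ hP hv hv' hD hh
  obtain ⟨d, rfl⟩ : ∃ d, R' = R + d := ⟨R' - R, by ring⟩
  obtain ⟨hcm, hρ⟩ := hc Λ Z₀ a R _ y y' c V P V' P' ((le_max_left _ _).trans hΛ) hP
  rw [add_sub_cancel_left] at hcm hρ ⊢
  have hp := hP.l.prof
  have hD0 := hv.bd.nonneg
  have ht : 10 ^ 10 * (Cq + Cd) * Kw * (32 * D) ≤ 1 := by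
    rw [le_div_iff₀ (by positivity)] at hD; linarith
  have ht1 : 32 * D ≤ 1 := (le_mul_of_one_le_left (by linarith) hN).trans ht
  have nj' := hP.nj hcm hv'
  obtain ⟨w1, w2, w3, w4, w5⟩ := hw _ _ _ _ _ _ _ hp
  have hQ := (hl a (R + d) V' _ _ (om a (R + d) V') hP.r.coOK (fun z => hP.r.prof.omM)
    fun z _ => (om_pos ..).le).2 (jets 0 v') 0 D D hD0 (by linarith) hv'.bd (nj_zero _ _ hD0)
    (by rw [sub_zero]; exact hv'.bd)
  rw [QW_zero, sub_zero] at hQ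
  have hQ' := hQ.mono_const (B := Cl) (by
    rw [mul_assoc]
    exact mul_le_of_le_one_right (by linarith) (mul_le_one₀ (by linarith) hD0 (by linarith)))
  refine ((hP.sc (Cq := Cq + Cd) hcm hv hv' hC₁ hKw
    ((le_max_right _ _).trans ((le_max_right _ _).trans hΛ)) ht1 hh hρ hQ' (fun T hT => ?_) ?_ hp
    w1 w2 w3 w4 w5).fin ((le_max_left _ _).trans ((le_max_right _ _).trans hΛ)) ht).mono_const
    (le_of_eq (by ring))
  · have := hT.nonneg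
    exact ((hq a R V _ _ (sH a R V) hcm.ok (fun z => hp.omM) fun z hz => (w2.pos hz).le).2 _ _
      (32 * D) T (by linarith) ht1 nj' (hv.bd.mono_const (by linarith)) hT).mono_const
      (by gcongr; linarith)
  · refine (hqd a R V _ _ _ (fun z => C₁ * d * bl R z) hcm.ok hcm.ok' (fun z => hp.omM)
      (fun z hz => ⟨by have := bl_pos R z; have := hP.d0; positivity, hcm.dif z hz⟩) _ (32 * D)
      (by linarith) ht1 nj').mono_const ((mul_le_of_le_one_right (by linarith)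
        (pow_le_one₀ (by linarith) ht1)).trans (by linarith))

end

end Vale.Agent.P218F.End
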