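import Vale.Agent.P218F.EndPb
import Vale.Agent.P218F.EndFix1

/-! Cylindrical ends, X3 (C): comparison of the coefficients for neighbouring end points. -/

set_option maxSynthPendingDepth 3

namespace Vale.Agent.P218F.End.X3C

open Set Metric Wien
open Cone (W A T3 BC J6 jets)

noncomputable section

variable {C Λ Z₀ a R R' : ℝ} {y y' c : ℂ} {V P V' P' : BC} {z : ℝ}

theorem c_le (h : Dat C Λ Z₀ a R y c V P) : C * ‖c‖ * R ^ 2 ≤ 7 * C := by
  have h1 := h.sol.c_le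
  rw [le_div_iff₀ (pow_pos h.prof.R0 2)] at h1
  nlinarith [h.c1]

theorem p_le (h : Dat C Λ Z₀ a R y c V P) (hz : z ∈ Icc Z₀ R) : ‖P z‖ ≤ 7 * C / R := by
  have hR := h.prof.R0
  have h0 : 0 ≤ C * ‖c‖ := mul_nonneg (by linarith [h.c1]) (norm_nonneg c)
  rw [le_div_iff₀ hR]
  calc ‖P z‖ * R ≤ C * ‖c‖ * R * R := by
        gcongr
        exact (h.sol.b1 z hz).trans (by gcongr; exact hz.2)
    _ = C * ‖c‖ * R ^ 2 := by ring
    _ ≤ _ := c_le h

theorem ex_le_one (hz : 0 ≤ z) (hR : z ≤ R) : Sym.ex R z ≤ 1 :=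
  Real.exp_le_one_iff.2 (by nlinarith)

theorem ex_le_bl (hz : 4 ≤ z) (hR : z ≤ R) : Sym.ex R z ≤ bl R z :=
  Real.exp_le_exp.2 (by nlinarith)

theorem F_le (h : Dat C Λ Z₀ a R y c V P) (hz : z ∈ Icc Z₀ R) :
    ‖Sym.Fv z (V z) (P z)‖ ≤ 21 * C := by
  have hR := h.prof.R0
  have hR1 : 1 ≤ R := by linarith [h.prof.aR', h.prof.a100]
  have hz0 : 0 < z := h.z0.trans_le hz.1
  have h0 : 0 ≤ C * ‖c‖ := mul_nonneg (by linarith [h.c1]) (norm_nonneg c)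
  have h1 : 1 ≤ z ^ 2 * ‖V z‖ := by
    have := (h.sol.re_ge z hz).trans (mul_le_mul_of_nonneg_left (Complex.re_le_norm (V z))
      (sq_nonneg z))
    linarith [h.prof.lam1]
  have h2 : 0 < ‖V z‖ := by
    by_contra h3
    nlinarith [sq_nonneg z, norm_nonneg (V z)]
  have h3 : z ^ 2 ≤ R ^ 2 := by gcongr; exact hz.2
  have h4 : 1 / (R ^ 2 * ‖V z‖) ≤ 1 := by
    rw [div_le_one (by positivity)]
    exact h1.trans (by gcongr)
  have h5 := ex_le_one hz0.le hz.2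
  have h6 : 1 ≤ R ^ 2 := one_le_pow₀ hR1
  have h7 : 0 < Sym.ex R z := Real.exp_pos _
  calc _ ≤ C * ‖c‖ * (1 + z ^ 2 * (1 / (R ^ 2 * ‖V z‖) + Sym.ex R z)) := h.sol.b2 z hz
    _ ≤ C * ‖c‖ * (R ^ 2 + R ^ 2 * (1 + 1)) := by gcongr
    _ = 3 * (C * ‖c‖ * R ^ 2) := by ring
    _ ≤ _ := by linarith [c_le h]

theorem lipV (h : Dat C Λ Z₀ a R y c V P) {s : ℝ} (hz : z ∈ Icc Z₀ R) (hs : s ∈ Icc Z₀ R) :
    ‖V s - V z‖ ≤ 7 * C / R * |s - z| :=
  (convex_Icc Z₀ R).norm_image_sub_le_of_norm_hasDerivWithin_le h.sol.d0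
    (fun _ hx => p_le h hx) hz hs

theorem lipP (h : Dat C Λ Z₀ a R y c V P) {s : ℝ} (hz : z ∈ Icc Z₀ R) (hs : s ∈ Icc Z₀ R) :
    ‖P s - P z‖ ≤ 21 * C * |s - z| :=
  (convex_Icc Z₀ R).norm_image_sub_le_of_norm_hasDerivWithin_le h.sol.d1
    (fun _ hx => F_le h hx) hz hs

theorem mem_pb (h : Pair C Λ Z₀ a R R' y y' c V P V' P') (hz : z ∈ Icc a R) :
    pb R (R' - R) z ∈ Icc a R' := by
  simpa using pb_mem (d := R' - R) (sub_nonneg.2 h.le) hz

theorem lip0 (h : Pair C Λ Z₀ a R R' y y' c V P V' P') (hz : z ∈ Icc a R) :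
    ‖V' z - V z‖ ≤ 7 * C * (R' - R) * bl R z / R ∧ ‖P' z - P z‖ ≤ 7 * C * (R' - R) * bl R z := by
  have hd : 0 ≤ R' - R := sub_nonneg.2 h.le
  have hR := h.l.prof.R0
  obtain ⟨h1, h2⟩ := h.lip z ⟨h.l.za.trans hz.1, hz.2⟩
  have h3 := ex_le_bl (by linarith [h.l.prof.z100 hz]) hz.2
  have h4 := c_le h.l
  have h5 : 0 < Sym.ex R z := Real.exp_pos _
  have h6 : 0 ≤ C := by linarith [h.l.c1]
  have h7 : C * ‖c‖ * (R' - R) * R ^ 2 * Sym.ex R z ≤ 7 * C * (R' - R) * bl R z :=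
    calc _ = C * ‖c‖ * R ^ 2 * (R' - R) * Sym.ex R z := by ring
      _ ≤ _ := by gcongr
  refine ⟨?_, h2.trans h7⟩
  rw [le_div_iff₀ hR]
  calc _ ≤ C * ‖c‖ * (R' - R) * R * Sym.ex R z * R := by gcongr
    _ = C * ‖c‖ * (R' - R) * R ^ 2 * Sym.ex R z := by ring
    _ ≤ _ := h7

theorem dVP (h : Pair C Λ Z₀ a R R' y y' c V P V' P') (hz : z ∈ Icc a R) :
    ‖V' (pb R (R' - R) z) - V z‖ ≤ 28 * C * (R' - R) * bl R z / z ∧
      ‖P' (pb R (R' - R) z) - P z‖ ≤ 70 * C * (R' - R) * bl R z := by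
  have hd : 0 ≤ R' - R := sub_nonneg.2 h.le
  have hz0 := h.l.prof.z0 hz
  have hC : 0 ≤ C := by linarith [h.l.c1]
  have hb := bl_pos R z
  obtain ⟨b1, -, b3⟩ := pb_bd hd hz.2
  have m1 : z ∈ Icc Z₀ R' := ⟨h.l.za.trans hz.1, hz.2.trans h.le⟩
  have m2 : pb R (R' - R) z ∈ Icc Z₀ R' := ⟨h.l.za.trans (mem_pb h hz).1, (mem_pb h hz).2⟩
  have e1 := lipV h.r m1 m2
  have e2 := lipP h.r m1 m2
  rw [abs_of_nonneg (sub_nonneg.2 b1)] at e1 e2
  obtain ⟨e3, e4⟩ := lip0 h hz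
  constructor
  · calc _ ≤ ‖V' (pb R (R' - R) z) - V' z‖ + ‖V' z - V z‖ := norm_sub_le_norm_sub_add_norm_sub ..
      _ ≤ 7 * C / z * (3 * (R' - R) * bl R z) + 7 * C * (R' - R) * bl R z / z := by
        refine add_le_add (e1.trans ?_) (e3.trans ?_)
        · gcongr; exact m1.2
        · gcongr; exact hz.2
      _ = _ := by ring
  · calc _ ≤ ‖P' (pb R (R' - R) z) - P' z‖ + ‖P' z - P z‖ := norm_sub_le_norm_sub_add_norm_sub ..
      _ ≤ 21 * C * (3 * (R' - R) * bl R z) + 7 * C * (R' - R) * bl R z :=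
        add_le_add (e2.trans (by gcongr)) e4
      _ = _ := by ring

theorem d_le (h : Pair C Λ Z₀ a R R' y y' c V P V' P') (hz : z ∈ Icc a R) : (R' - R) * z ≤ 1 :=
  (mul_le_mul_of_nonneg_left hz.2 (sub_nonneg.2 h.le)).trans h.near

theorem half_le (h : Pair C Λ Z₀ a R R' y y' c V P V' P') (hz : z ∈ Icc a R) :
    ‖V' (pb R (R' - R) z) - V z‖ ≤ ‖V z‖ / 2 := by
  have hd : 0 ≤ R' - R := sub_nonneg.2 h.le
  have hz0 := h.l.prof.z0 hz
  have hC := h.l.c1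
  have h1 := h.l.prof.z2n hz
  have h2 : C ≤ C ^ 3 := le_self_pow₀ hC (by norm_num)
  have h3 := h.l.lam
  have h4 := d_le h hz
  refine (dVP h hz).1.trans ?_
  rw [div_le_iff₀ hz0]
  refine le_of_mul_le_mul_right ?_ hz0
  calc 28 * C * (R' - R) * bl R z * z = 28 * C * ((R' - R) * z) * bl R z := by ring
    _ ≤ 28 * C * 1 * 1 := by
      gcongr
      · exact (bl_pos R z).le
      · exact bl_le hz.2
    _ ≤ z ^ 2 * ‖V z‖ / 2 := by linarith
    _ = _ := by ring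

theorem low (h : Pair C Λ Z₀ a R R' y y' c V P V' P') (hz : z ∈ Icc a R) :
    ‖V z‖ ≤ 2 * ‖V' (pb R (R' - R) z)‖ ∧ ‖V' (pb R (R' - R) z)‖ ≤ 2 * ‖V z‖ := by
  have h1 := half_le h hz
  have h2 := norm_sub_norm_le (V' (pb R (R' - R) z)) (V z)
  have h3 := norm_sub_norm_le (V z) (V' (pb R (R' - R) z))
  rw [norm_sub_rev] at h3
  constructor <;> linarith [norm_nonneg (V z)]

theorem coOK_mono {C₀ C₁ b : ℝ} {w : ℝ → ℂ} {κ : Co} (h : CoOK C₀ a b w κ) (hC : C₀ ≤ C₁) :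
    CoOK C₁ a b w κ := by
  refine ⟨h.one, h.ne, h.le, h.zw, fun z hz => (h.k1 z hz).trans (by gcongr),
    fun z hz => (h.k2 z hz).trans (by gcongr), fun z hz => ?_, fun z hz => ?_⟩
  · have : 0 ≤ z := by linarith [h.one, hz.1]
    exact (h.k3 z hz).trans (by gcongr)
  · have : 0 ≤ z := by linarith [h.one, hz.1]
    exact (h.k4 z hz).trans (by gcongr)

theorem pull_apply (h : Pair C Λ Z₀ a R R' y y' c V P V' P') (hz : z ∈ Icc a R) :
    (pullCo (pbC R (R' - R)) (kap a R' V' P')).1 z = (V' (pb R (R' - R) z))⁻¹ ∧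
    (pullCo (pbC R (R' - R)) (kap a R' V' P')).2.1 z = V' (pb R (R' - R) z) ∧
    (pullCo (pbC R (R' - R)) (kap a R' V' P')).2.2.1 z =
      P' (pb R (R' - R) z) / (2 * V' (pb R (R' - R) z)) ∧
    (pullCo (pbC R (R' - R)) (kap a R' V' P')).2.2.2 z = pb R (R' - R) z :=
  ⟨h.r.k1 (mem_pb h hz), Dat.k2 (P := P') (mem_pb h hz), h.r.k3 (mem_pb h hz),
    Dat.k4 (V := V') (P := P') (mem_pb h hz)⟩

theorem cmp (h : Pair C Λ Z₀ a R R' y y' c V P V' P') :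
    Cmp (300 * C ^ 2) a R (R' - R) V (kap a R V P)
      (pullCo (pbC R (R' - R)) (kap a R' V' P')) := by
  have hC := h.l.c1
  have hC2 : C ≤ C ^ 2 := le_self_pow₀ hC (by norm_num)
  have hd : 0 ≤ R' - R := sub_nonneg.2 h.le
  have ok := h.l.coOK
  refine ⟨coOK_mono ok (by linarith), ⟨ok.one, ok.ne, ok.le, ok.zw, fun z hz => ?_, fun z hz => ?_,
    fun z hz => ?_, fun z hz => ?_⟩, fun z hz => ?_, fun z hz => ?_⟩
  · rw [(pull_apply h hz).1, norm_inv, inv_eq_one_div,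
      div_le_div_iff₀ (h.r.prof.n0 (mem_pb h hz)) (h.l.prof.n0 hz)]
    nlinarith [(low h hz).1, norm_nonneg (V' (pb R (R' - R) z))]
  · rw [(pull_apply h hz).2.1]
    nlinarith [(low h hz).2, norm_nonneg (V z)]
  · rw [(pull_apply h hz).2.2.1, le_div_iff₀ (mul_pos (h.l.prof.z0 hz) (h.l.prof.n0 hz))]
    have h1 := h.r.prof.P_le (mem_pb h hz)
    have h2 := (pb_bd hd hz.2).1
    have h3 := (low h hz).1
    have h4 := h.l.prof.z0 hz
    calc _ ≤ ‖P' (pb R (R' - R) z) / (2 * V' (pb R (R' - R) z))‖ *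
          (pb R (R' - R) z * (2 * ‖V' (pb R (R' - R) z)‖)) := by gcongr; linarith
      _ ≤ _ := by linarith
  · rw [(pull_apply h hz).2.2.2, Complex.norm_real,
      Real.norm_of_nonneg (h.r.prof.z0 (mem_pb h hz)).le]
    have h1 := (pb_bd hd hz.2).2.1
    have h2 := d_le h hz
    have h3 := h.l.prof.z100 hz
    nlinarith
  · rw [(pull_apply h hz).2.1]; exact low h hz
  · obtain ⟨e1, e2, e3, e4⟩ := pull_apply h hz
    rw [e1, e2, e3, e4, h.l.k1 hz, Dat.k2 hz, h.l.k3 hz, Dat.k4 hz]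
    obtain ⟨d1, d2⟩ := dVP h hz
    have l1 := (low h hz).1
    have hz0 := h.l.prof.z0 hz
    have hw := h.l.prof.n0 hz
    have hw' := h.r.prof.n0 (mem_pb h hz)
    have hn := h.l.prof.ne hz
    have hn' := h.r.prof.ne (mem_pb h hz)
    have hb := bl_pos R z
    have hzw := ok.zw z hz
    have hp : ‖P z‖ ≤ 7 * C / z :=
      (p_le h.l ⟨h.l.za.trans hz.1, hz.2⟩).trans (by gcongr; exact hz.2)
    have b3 := pb_bd hd hz.2
    generalize pb R (R' - R) z = Z at *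
    generalize R' - R = d at *
    have i1 : ‖(V' Z)⁻¹ - (V z)⁻¹‖ ≤ 56 * C * d * bl R z / (z * ‖V z‖ ^ 2) := by
      rw [inv_sub_inv hn' hn, norm_div, norm_mul, norm_sub_rev]
      calc _ ≤ 28 * C * d * bl R z / z / (‖V z‖ / 2 * ‖V z‖) := by gcongr; linarith
        _ = _ := by field_simp; ring
    refine ⟨i1.trans (by gcongr; linarith), d1.trans (by gcongr; linarith), ?_, ?_⟩
    · have e : P' Z / (2 * V' Z) - P z / (2 * V z) =
          (P' Z - P z) / (2 * V' Z) + P z * ((V' Z)⁻¹ - (V z)⁻¹) / 2 := by field_simp; ring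
      rw [e]
      refine (norm_add_le _ _).trans ?_
      rw [norm_div, norm_div, norm_mul, norm_mul, Complex.norm_two]
      calc _ ≤ 70 * C * d * bl R z / ‖V z‖ +
            7 * C / z * (56 * C * d * bl R z / (z * ‖V z‖ ^ 2)) / 2 := by gcongr
        _ = 70 * C * d * bl R z / ‖V z‖ +
            196 * C ^ 2 * d * bl R z / ‖V z‖ / (z ^ 2 * ‖V z‖) := by field_simp; ring
        _ ≤ 70 * C ^ 2 * d * bl R z / ‖V z‖ + 196 * C ^ 2 * d * bl R z / ‖V z‖ / 1 := by gcongr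
        _ = 266 * C ^ 2 * d * bl R z / ‖V z‖ := by ring
        _ ≤ _ := by gcongr; norm_num
    · rw [← Complex.ofReal_sub, Complex.norm_real, Real.norm_of_nonneg (sub_nonneg.2 b3.1)]
      exact b3.2.2.trans (by gcongr; linarith)

theorem re_sqrt {w : ℂ} (hw : 3 / 4 ≤ w.re) : 1 / 2 ≤ (w ^ (1 / 2 : ℂ)).re := by
  have h0 : w ≠ 0 := fun h => by rw [h] at hw; norm_num at hw
  have h1 : (w ^ (1 / 2 : ℂ)) ^ 2 = w := by
    rw [← Complex.cpow_nat_mul]; norm_num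
  have h2 : 0 ≤ (w ^ (1 / 2 : ℂ)).re := by
    have := Complex.cpow_inv_two_re w
    rw [one_div, this]; exact Real.sqrt_nonneg _
  have h3 : (w ^ (1 / 2 : ℂ)).re ^ 2 - (w ^ (1 / 2 : ℂ)).im ^ 2 = w.re := by
    conv_rhs => rw [← h1]
    rw [sq (w ^ (1 / 2 : ℂ)), Complex.mul_re]; ring
  nlinarith [sq_nonneg (w ^ (1 / 2 : ℂ)).im]

theorem bl_le_b0 (h : Dat C Λ Z₀ a R y c V P) : bl R a ≤ b0 a R := by
  have h1 := h.prof.a100
  have h2 := h.prof.aR'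
  have hR := h.prof.R0
  have h3 : 0 ≤ Real.log a := Real.log_nonneg (by linarith)
  have h4 : Real.log R ≤ 2 * √R := by
    have := Real.log_le_sub_one_of_pos (Real.sqrt_pos.2 hR)
    rw [Real.log_sqrt hR.le] at this
    linarith
  have h5 : 100 ≤ √R := Real.le_sqrt_of_sq_le (by linarith)
  have h6 := Real.mul_self_sqrt hR.le
  refine Real.exp_le_exp.2 ?_
  nlinarith

theorem rho_le (h : Pair C Λ Z₀ a R R' y y' c V P V' P') :
    ‖(rho a R' V' a)⁻¹ - (rho a R V a)⁻¹‖ ≤ 300 * C ^ 2 * (R' - R) * b0 a R := by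
  have hC := h.l.c1
  have hC2 : C ≤ C ^ 2 := le_self_pow₀ hC (by norm_num)
  have hd : 0 ≤ R' - R := sub_nonneg.2 h.le
  have m := h.l.prof.mema
  have m' := h.r.prof.mema
  have r1 := re_sqrt (h.l.prof.re_ge m (by linarith [h.l.prof.aR', h.l.a0]))
  have r2 := re_sqrt (h.r.prof.re_ge m' (by linarith [h.r.prof.aR', h.r.a0]))
  rw [← h.l.rho_eq m] at r1
  rw [← h.r.rho_eq m'] at r2
  have n1 := h.l.rho_ne m
  have n2 := h.r.rho_ne m'
  have s1 : 1 ≤ ‖rho a R' V' a + rho a R V a‖ := by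
    have := Complex.re_le_norm (rho a R' V' a + rho a R V a)
    rw [Complex.add_re] at this
    linarith
  have s2 : rho a R' V' a + rho a R V a ≠ 0 := norm_pos_iff.1 (by linarith)
  have e : (rho a R' V' a)⁻¹ - (rho a R V a)⁻¹ = -((rho a R' V' a)⁻¹ * (rho a R V a)⁻¹ *
      (V' a - V a) / (rho a R' V' a + rho a R V a)) := by
    rw [← h.l.rho_sq m, ← h.r.rho_sq m']; field_simp; ring
  have hR1 : 1 ≤ R := by linarith [h.l.prof.aR', h.l.prof.a100]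
  have hb := bl_pos R a
  have e1 : ‖V' a - V a‖ ≤ 7 * C * (R' - R) * b0 a R :=
    (lip0 h m).1.trans ((div_le_self (by positivity) hR1).trans (by gcongr; exact bl_le_b0 h.l))
  have hb0 : 0 < b0 a R := Real.exp_pos _
  rw [e, norm_neg, norm_div, norm_mul, norm_mul]
  calc _ ≤ 2 * 2 * (7 * C * (R' - R) * b0 a R) / 1 := by
        gcongr
        · exact h.r.norm_rho_inv
        · exact h.l.norm_rho_inv
    _ = 28 * C * (R' - R) * b0 a R := by ring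
    _ ≤ _ := by gcongr; linarith

end

end Vale.Agent.P218F.End.X3C

theorem Vale.Agent.P218F.End.cmp_proof : Vale.Agent.P218F.End.CmpStmt := fun C hC =>
  ⟨300 * C ^ 2, 0, by nlinarith, fun _ _ _ _ _ _ _ _ _ _ _ _ _ h =>
    ⟨Vale.Agent.P218F.End.X3C.cmp h, Vale.Agent.P218F.End.X3C.rho_le h⟩⟩
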