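import Vale.Agent.P218F.EndV
import Mathlib.Analysis.SpecialFunctions.Pow.Complex
import Mathlib.Analysis.Normed.Operator.Prod

/-!
# Cylindrical ends: the estimates for `r = ρ (1 + v)`
-/

set_option maxSynthPendingDepth 3

namespace Vale.Agent.P218F.End

open Set Metric Wien
open Cone (W A T3 BC J6 jets fn fn1 vT)

noncomputable section

theorem WB.of_dth {a b A B : ℝ} {m : ℝ → ℝ} {s : ℕ} {u : W (s + 1)} {u₁ u₂ : W s}
    (h₁ : WB a b m u₁ A) (h₂ : WB a b m u₂ B) (e₁ : ∀ k, cf u₁ k = cf u k)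
    (e₂ : ∀ k, cf u₂ k = (Complex.I * k : ℂ) • cf u k) : WB a b m u (A + B) := by
  obtain ⟨c, h0, h2, h3, h1⟩ := h₁
  obtain ⟨d, k0, k2, k3, k1⟩ := h₂
  have hp : ∀ k : ℤ, 0 < 1 + ‖k‖ := fun k => by positivity
  have e : (fun k : ℤ => wt (s + 1) k * ((c k + d k) / (1 + ‖k‖))) =
      fun k => wt s k * c k + wt s k * d k := by
    funext k
    have := (hp k).ne'
    rw [wt_succ]; field_simp
  refine WB.intro (fun k => (c k + d k) / (1 + ‖k‖))
    (fun k => div_nonneg (add_nonneg (h0 k) (k0 k)) (hp k).le) (fun k z hz => ?_) ?_ ?_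
  · have h4 := h1 k z hz
    have h5 := k1 k z hz
    rw [e₁] at h4
    rw [e₂, BoundedContinuousFunction.smul_apply, norm_smul, norm_mul, Complex.norm_I, one_mul,
      Complex.norm_intCast, ← norm_int] at h5
    rw [div_mul_eq_mul_div, le_div_iff₀ (hp k)]
    linarith
  · rw [e]; exact h2.add k2
  · rw [e, h2.tsum_add k2]; linarith

namespace O2

/-! ### values -/

variable {s : ℕ}

theorem val_mul (u v : W s) (z θ : ℝ) : Cone.val (u * v) z θ = Cone.val u z θ * Cone.val v z θ := by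
  simp [Cone.val, ev_mul]

theorem val_add (u v : W s) (z θ : ℝ) : Cone.val (u + v) z θ = Cone.val u z θ + Cone.val v z θ := by
  simp [Cone.val]

theorem val_const (f : BC) (z θ : ℝ) : Cone.val (const ℤ s BC f) z θ = f z := by simp [Cone.val]

theorem val_one (z θ : ℝ) : Cone.val (1 : W s) z θ = 1 := by simp [Cone.val, ev_one]

theorem dth_e (f : BC) (u : W (s + 1)) :
    dth s BC (const ℤ (s + 1) BC f * (1 + u)) = const ℤ s BC f * dth s BC u := by
  have h : dth s BC (const ℤ (s + 1) BC f * u) = const ℤ s BC f * dth s BC u := by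
    ext k; simp
  rw [mul_add, mul_one, map_add, dth_const, zero_add, h]

variable (κ : Co) (ρ : BC) (v : T3 0)

theorem fn_e (z θ : ℝ) : fn (eOf κ ρ v) (z, θ) = ρ z * (1 + Cone.val (jets 0 v).1 z θ) := by
  simp only [fn, eOf, val_mul, val_add, val_const, val_one, Cone.jets_apply, Cone.val_incl]

theorem val_e1 (z θ : ℝ) : Cone.val (eOf κ ρ v).2.1 z θ =
    ρ z * (κ.2.2.1 z * (1 + Cone.val (jets 0 v).1 z θ) + Cone.val (jets 0 v).2.1 z θ) := by
  simp only [eOf, val_mul, val_add, val_const, val_one, Cone.jets_apply, Cone.val_incl]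

theorem vT_e (z θ : ℝ) : vT (eOf κ ρ v) z θ = ρ z * Cone.val (jets 0 v).2.2.1 z θ := by
  simp only [vT, eOf, dth_e, val_mul, val_const, Cone.jets_apply, Cone.val_incl]

theorem e0_eq (c : ℂ) : (eOf κ ρ v).1 - algebraMap ℂ (W 2) c =
    const ℤ 2 BC (ρ - algebraMap ℂ BC c) + const ℤ 2 BC ρ * v.1 := by
  simp only [eOf, map_sub, AlgHom.commutes]; ring

theorem e1_eq : (eOf κ ρ v).2.1 = const ℤ 1 BC (ρ * κ.2.2.1) * (1 + incl ℤ BC (Nat.le_succ 1) v.1) +
    const ℤ 1 BC ρ * v.2.1 := by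
  simp only [eOf, map_mul]; ring

theorem e2_eq : (eOf κ ρ v).2.2 = const ℤ 0 BC (ρ * pp κ) * (1 + (jets 0 v).1) +
    const ℤ 0 BC (ρ * κ.2.2.1 + ρ * κ.2.2.1) * (jets 0 v).2.1 + const ℤ 0 BC ρ * v.2.2 := by
  simp only [eOf, cz, map_mul, map_add]; ring

theorem norm_fn1_le (p : T3 0) (z θ : ℝ) :
    ‖fn1 p (z, θ)‖ ≤ ‖Cone.val p.2.1 z θ‖ + ‖vT p z θ‖ := by
  refine (norm_add_le _ _).trans (add_le_add ?_ ?_) <;>
    rw [ContinuousLinearMap.norm_smulRight_apply]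
  · exact mul_le_of_le_one_left (norm_nonneg _) (ContinuousLinearMap.norm_fst_le ℝ ℝ ℝ)
  · exact mul_le_of_le_one_left (norm_nonneg _) (ContinuousLinearMap.norm_snd_le ℝ ℝ ℝ)

/-! ### clamping -/

theorem res_mul (a b : ℝ) (u v : W s) : res a b s (u * v) = res a b s u * res a b s v :=
  mapL_mul _ (fun _ _ => by ext; simp) u v

theorem res_const (a b : ℝ) (f : BC) :
    res a b s (const ℤ s BC f) = const ℤ s BC (Mode.clamp a b f) := by
  simp [res, const_apply]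

theorem res_alg (a b : ℝ) (c : ℂ) : res a b s (algebraMap ℂ (W s) c) = algebraMap ℂ (W s) c := by
  have : Mode.clamp a b (algebraMap ℂ BC c) = algebraMap ℂ BC c := by ext; simp
  rw [← (const ℤ s BC).commutes, res_const, this]

theorem res_one (a b : ℝ) : res a b s 1 = 1 := by simpa using res_alg (s := s) a b 1

theorem res_incl (a b : ℝ) {t : ℕ} (h : t ≤ s) (u : W s) :
    res a b t (incl ℤ BC h u) = incl ℤ BC h (res a b s u) := by
  ext k z; simp [cf_res]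

theorem res_e {a b : ℝ} {κ : Co} {ρ : BC} {v : T3 0} (hv : res3 a b v = v)
    (h0 : Mode.clamp a b ρ = ρ) (h1 : Mode.clamp a b κ.2.2.1 = κ.2.2.1)
    (h2 : Mode.clamp a b (pp κ) = pp κ) : res3 a b (eOf κ ρ v) = eOf κ ρ v := by
  have e0 : res a b 2 v.1 = v.1 := congrArg Prod.fst hv
  have e1 : res a b 1 v.2.1 = v.2.1 := congrArg (fun p => p.2.1) hv
  have e2 : res a b 0 v.2.2 = v.2.2 := congrArg (fun p => p.2.2) hv
  simp only [res3, eOf, cz, two_mul, Cone.jets_apply, res_mul, map_add, res_const, res_one, res_incl,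
    h0, h1, h2, e0, e1, e2]

/-! ### scalar inequalities -/

theorem norm_half (w : ℂ) : ‖w ^ (1 / 2 : ℂ)‖ = √‖w‖ := by
  rw [show (1 / 2 : ℂ) = ((1 / 2 : ℝ) : ℂ) by norm_num, Complex.norm_cpow_real, Real.sqrt_eq_rpow]

theorem sq_half (w : ℂ) : (w ^ (1 / 2 : ℂ)) ^ 2 = w := by
  rw [one_div]; exact_mod_cast Complex.cpow_nat_inv_pow w two_ne_zero

theorem re_half {w : ℂ} (hw : 0 ≤ w.re) : ‖w ^ (1 / 2 : ℂ)‖ / 2 ≤ (w ^ (1 / 2 : ℂ)).re := by
  rw [norm_half, one_div, Complex.cpow_inv_two_re]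
  refine Real.le_sqrt_of_sq_le ?_
  rw [div_pow, Real.sq_sqrt (norm_nonneg w)]
  linarith [norm_nonneg w]

theorem norm_one_add {v : ℂ} (hv : ‖v‖ ≤ 1 / 4) : ‖1 + v‖ ≤ 5 / 4 := by
  have := norm_add_le 1 v
  rw [norm_one] at this
  linarith

theorem good_aux {w ρ P v a q : ℂ} (hρ : ρ ^ 2 = w) (hw : 0 < w.re) (hv : ‖v‖ ≤ 1 / 4)
    (hq : ‖q‖ ≤ 1) (h1 : ‖w‖ * ‖v‖ ≤ w.re / 10) (h2 : ‖w‖ * ‖q‖ ≤ w.re / 10)
    (h3 : (‖w‖ * ‖P‖) ^ 2 ≤ w.re / 100) (h4 : (‖w‖ * ‖a‖) ^ 2 ≤ w.re / 100) :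
    0 < ((ρ * (1 + v)) ^ 2 * (1 + (ρ * (P * (1 + v) + a)) ^ 2) + (ρ * q) ^ 2).re := by
  have e : (ρ * (1 + v)) ^ 2 * (1 + (ρ * (P * (1 + v) + a)) ^ 2) + (ρ * q) ^ 2 =
      w + (w * v * (1 + (1 + v)) + w * q * q + ((1 + v) * (w * P * (1 + v) + w * a)) ^ 2) := by
    rw [← hρ]; ring
  have h5 := norm_one_add hv
  have h6 : ‖w * v * (1 + (1 + v))‖ ≤ w.re / 10 * (9 / 4) := by
    have := norm_add_le 1 (1 + v)
    rw [norm_one] at this
    rw [norm_mul, norm_mul]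
    exact mul_le_mul h1 (by linarith) (norm_nonneg _) (by positivity)
  have h7 : ‖w * q * q‖ ≤ w.re / 10 * 1 := by
    rw [norm_mul, norm_mul]
    exact mul_le_mul h2 hq (norm_nonneg _) (by positivity)
  have h8 : ‖w * P * (1 + v) + w * a‖ ≤ ‖w‖ * ‖P‖ * (5 / 4) + ‖w‖ * ‖a‖ := by
    refine (norm_add_le _ _).trans ?_
    rw [norm_mul, norm_mul, norm_mul]
    gcongr
  have h9 : ‖((1 + v) * (w * P * (1 + v) + w * a)) ^ 2‖ ≤
      (5 / 4 * (‖w‖ * ‖P‖ * (5 / 4) + ‖w‖ * ‖a‖)) ^ 2 := by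
    rw [norm_pow, norm_mul]
    gcongr
  have h10 := (abs_le.1 (Complex.abs_re_le_norm (w * v * (1 + (1 + v)) + w * q * q +
    ((1 + v) * (w * P * (1 + v) + w * a)) ^ 2))).1
  have h11 := norm_add₃_le (a := w * v * (1 + (1 + v))) (b := w * q * q)
    (c := ((1 + v) * (w * P * (1 + v) + w * a)) ^ 2)
  rw [e, Complex.add_re]
  nlinarith [sq_nonneg (‖w‖ * ‖P‖ * (5 / 4) - ‖w‖ * ‖a‖)]

theorem norm_half_sub {w : ℂ} (hw : 0 ≤ w.re) : ‖w ^ (1 / 2 : ℂ) - (√2 : ℝ)‖ ≤ ‖w - 2‖ := by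
  have h1 : (1 : ℝ) ≤ √2 := Real.one_le_sqrt.2 one_le_two
  have h2 : ((√2 : ℝ) : ℂ) ^ 2 = 2 := by exact_mod_cast Real.sq_sqrt zero_le_two
  have e : w - 2 = (w ^ (1 / 2 : ℂ) - (√2 : ℝ)) * (w ^ (1 / 2 : ℂ) + (√2 : ℝ)) := by
    linear_combination (-1 : ℂ) * sq_half w + h2
  have h3 := Complex.re_le_norm (w ^ (1 / 2 : ℂ) + (√2 : ℝ))
  rw [Complex.add_re, Complex.ofReal_re] at h3
  have h4 := re_half hw
  rw [e, norm_mul]
  exact le_mul_of_one_le_right (norm_nonneg _) (by linarith [norm_nonneg (w ^ (1 / 2 : ℂ))])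

/-! ### the coefficients -/

variable {C Λ Z₀ a R : ℝ} {y c : ℂ} {V P : BC} {h : A 2} {v : T3 0} {D z : ℝ}

/-- `ρ' / ρ` -/
def Pf (V P : BC) (z : ℝ) : ℂ := P z / (2 * V z)

/-- its derivative -/
def P1 (V P : BC) (z : ℝ) : ℂ :=
  z / 2 * Pf V P z + (V z)⁻¹ - 1 / 2 - (1 - z * Pf V P z) * V z * Pf V P z ^ 2 / 2

theorem prof (d : Dat C Λ Z₀ a R y c V P) : Prof (4 * C) Λ a R V (Pf V P) (P1 V P) := by
  have h1 : 0 ≤ Λ := le_trans (by have := d.c1; positivity) d.lam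
  exact prof_of_sol d.sol d.c1 d.lam (d.z0.trans_le d.za) d.za
    (by nlinarith [d.zl, d.z0, d.za]) d.aR

theorem rho_ap (d : Dat C Λ Z₀ a R y c V P) (hz : z ∈ Icc a R) :
    rho a R V z = V z ^ (1 / 2 : ℂ) :=
  Mode.ext_of_mem (V.continuous.continuousOn.cpow_const
    fun _ hx => Or.inl ((prof d).re_pos hx)) hz

theorem k3_ap (d : Dat C Λ Z₀ a R y c V P) (hz : z ∈ Icc a R) :
    (kap a R V P).2.2.1 z = Pf V P z :=
  Mode.ext_of_mem (P.continuous.continuousOn.div (continuous_const.mul V.continuous).continuousOn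
    fun _ hx => mul_ne_zero two_ne_zero ((prof d).ne hx)) hz

theorem pp_ap (d : Dat C Λ Z₀ a R y c V P) (hz : z ∈ Icc a R) :
    pp (kap a R V P) z = P1 V P z + Pf V P z ^ 2 := by
  have h1 : (kap a R V P).1 z = (V z)⁻¹ :=
    Mode.ext_of_mem (V.continuous.continuousOn.inv₀ fun _ hx => (prof d).ne hx) hz
  have h2 : (kap a R V P).2.1 z = V z := by simp [kap, Mode.cl_of_mem hz]
  have h4 : (kap a R V P).2.2.2 z = z :=
    Mode.ext_of_mem (f := fun z => (z : ℂ)) Complex.continuous_ofReal.continuousOn hz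
  simp only [pp, BoundedContinuousFunction.add_apply, BoundedContinuousFunction.sub_apply,
    BoundedContinuousFunction.smul_apply, BoundedContinuousFunction.mul_apply,
    BoundedContinuousFunction.pow_apply, BoundedContinuousFunction.coe_one, Pi.one_apply,
    smul_eq_mul, h1, h2, h4, k3_ap d hz, P1]
  ring

theorem res_e' (hR : a ≤ R) (hv : res3 a R v = v) :
    res3 a R (eOf (kap a R V P) (rho a R V) v) = eOf (kap a R V P) (rho a R V) v := by
  have h1 : Mode.Clamped a R (kap a R V P).1 := Mode.clamped_ext hR _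
  have h2 : Mode.Clamped a R (kap a R V P).2.1 := Mode.clamped_clamp hR _
  have h3 : Mode.Clamped a R (kap a R V P).2.2.1 := Mode.clamped_ext hR _
  have h4 : Mode.Clamped a R (kap a R V P).2.2.2 := Mode.clamped_ext hR _
  refine res_e hv ?_ ?_ ?_ <;> ext z
  · exact Mode.clamped_ext hR _ z
  · exact h3 z
  · simp [pp, h1 z, h2 z, h3 z, h4 z]

theorem rho_sq (d : Dat C Λ Z₀ a R y c V P) (hz : z ∈ Icc a R) :
    ‖rho a R V z‖ ^ 2 = ‖V z‖ := by rw [← norm_pow, rho_ap d hz, sq_half]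

theorem rho_le (d : Dat C Λ Z₀ a R y c V P) (hz : z ∈ Icc a R) : ‖rho a R V z‖ ≤ 4 := by
  refine le_of_sq_le_sq ?_ (by norm_num)
  rw [rho_sq d hz]
  linarith [(prof d).n16 hz]

theorem z_rho (d : Dat C Λ Z₀ a R y c V P) (hz : z ∈ Icc a R) : 1 ≤ z * ‖rho a R V z‖ := by
  have h0 := (prof d).z0 hz
  refine le_of_sq_le_sq ?_ (by positivity)
  rw [mul_pow, rho_sq d hz]
  linarith [(prof d).z2n hz, (prof d).lam1]

theorem rho_P (d : Dat C Λ Z₀ a R y c V P) (hz : z ∈ Icc a R) :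
    ‖rho a R V z‖ * ‖Pf V P z‖ ≤ 4 * C := by
  have h1 := (prof d).P_le hz
  rw [← rho_sq d hz] at h1
  have h2 := mul_le_mul_of_nonneg_right (z_rho d hz)
    (mul_nonneg (norm_nonneg (rho a R V z)) (norm_nonneg (Pf V P z)))
  nlinarith

theorem rho_pp (d : Dat C Λ Z₀ a R y c V P) (hz : z ∈ Icc a R) :
    ‖rho a R V z‖ * ‖pp (kap a R V P) z‖ ≤ 41 * C * z := by
  have h1 := (prof d).P1_le hz
  have h2 := mul_le_mul_of_nonneg_left ((prof d).P_small hz) ((prof d).n0 hz).le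
  have h3 := (prof d).mu_le hz
  have h4 : ‖pp (kap a R V P) z‖ ≤ ‖P1 V P z‖ + ‖Pf V P z‖ ^ 2 := by
    rw [pp_ap d hz, ← norm_pow]; exact norm_add_le _ _
  have h5 := mul_le_mul_of_nonneg_left h4 ((prof d).n0 hz).le
  have h6 : ‖V z‖ * ‖pp (kap a R V P) z‖ ≤ 41 * C := by nlinarith [d.c1]
  rw [← rho_sq d hz] at h6
  have h7 := mul_le_mul_of_nonneg_right (z_rho d hz)
    (mul_nonneg (norm_nonneg (rho a R V z)) (norm_nonneg (pp (kap a R V P) z)))
  have h8 := mul_le_mul_of_nonneg_left h6 ((prof d).z0 hz).le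
  nlinarith

theorem om_rpow (d : Dat C Λ Z₀ a R y c V P) (hz : z ∈ Icc a R) {Z : ℝ} (hZ : 0 < Z) (hZ' : Z ≤ z) :
    om a R V z ≤ 128 * (a / Z) ^ (19 / 10 : ℝ) := by
  have h0 := (prof d).a0
  have h1 := (prof d).om_aux hz (x := Real.log (a / Z) * (19 / 10)) (by
    rw [Real.log_div h0.ne' hZ.ne']
    linarith [Real.log_le_log hZ hZ'])
  rwa [← Real.rpow_def_of_pos (by positivity)] at h1

/-- the coefficients where the profile is close to the cylinder -/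
theorem near (d : Dat C Λ Z₀ a R y c V P) (hz : z ∈ Icc a R) {γ : ℝ} (hγ : ‖c‖ * z ^ 2 ≤ γ)
    (hγ' : γ ≤ 1 / 2) : 1 ≤ ‖V z‖ ∧ ‖rho a R V z - (√2 : ℝ)‖ ≤ 3 / 2 * γ ∧
      z * ‖Pf V P z‖ ≤ C * γ ∧ ‖pp (kap a R V P) z‖ ≤ 40 * C ^ 2 * γ := by
  have hp := prof d
  have hz' : z ∈ Icc Z₀ R := ⟨d.za.trans hz.1, hz.2⟩
  have hz1 := hp.z100 hz
  have hC := d.c1
  have hc := norm_nonneg c
  have hγ0 : 0 ≤ γ := le_trans (by positivity) hγ
  have h1 : ‖V z - 2‖ ≤ 3 / 2 * γ := by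
    have h2 := d.sol.cmp z hz'
    have h3 : ‖c * ((z : ℂ) ^ 2 - 2)‖ = ‖c‖ * (z ^ 2 - 2) := by
      rw [norm_mul, show (z : ℂ) ^ 2 - 2 = ((z ^ 2 - 2 : ℝ) : ℂ) by push_cast; ring,
        Complex.norm_real, Real.norm_of_nonneg (by nlinarith)]
    have h4 := norm_add_le (V z - 2 - c * ((z : ℂ) ^ 2 - 2)) (c * ((z : ℂ) ^ 2 - 2))
    rw [sub_add_cancel, h3] at h4
    nlinarith
  have h2 : 1 ≤ ‖V z‖ := by
    have h3 := norm_sub_le (V z) (V z - 2)
    rw [sub_sub_cancel, Complex.norm_two] at h3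
    linarith
  have h3 : z * ‖Pf V P z‖ ≤ C * γ := by
    have h4 := mul_le_mul_of_nonneg_left (d.sol.b1 z hz') (hp.z0 hz).le
    have h5 : ‖Pf V P z‖ ≤ ‖P z‖ := by
      rw [Pf, norm_div, norm_mul, Complex.norm_two]
      exact div_le_self (norm_nonneg _) (by linarith)
    have h6 := mul_le_mul_of_nonneg_left h5 (hp.z0 hz).le
    have h7 := mul_le_mul_of_nonneg_left hγ (by linarith : 0 ≤ C)
    nlinarith
  refine ⟨h2, ?_, h3, ?_⟩
  · rw [rho_ap d hz]
    exact (norm_half_sub (hp.re_pos hz).le).trans h1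
  · have h4 : ‖Pf V P z‖ ^ 2 ≤ C * γ := by
      have h5 := hp.P_small hz
      have h6 := hp.mu_le hz
      have h7 := hp.mu0 hz
      have h8 : ‖Pf V P z‖ ≤ 1 := le_of_sq_le_sq (by nlinarith) zero_le_one
      have h9 := norm_nonneg (Pf V P z)
      nlinarith
    have e : pp (kap a R V P) z = z / 2 * Pf V P z + (2 - V z) / (2 * V z) +
        (-(EE V (Pf V P) z / 2) + Pf V P z ^ 2) := by
      have := hp.ne hz
      rw [pp_ap d hz, P1, EE]; field_simp; ring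
    have h5 : ‖(z : ℂ) / 2 * Pf V P z‖ ≤ z * ‖Pf V P z‖ := by
      rw [norm_mul, norm_div, Complex.norm_two, Complex.norm_real,
        Real.norm_of_nonneg (by linarith)]
      exact mul_le_mul_of_nonneg_right (by linarith) (norm_nonneg _)
    have h6 : ‖(2 - V z) / (2 * V z)‖ ≤ ‖V z - 2‖ := by
      rw [norm_div, norm_mul, Complex.norm_two, norm_sub_rev]
      exact div_le_self (norm_nonneg _) (by linarith)
    have h7 : ‖-(EE V (Pf V P) z / 2) + Pf V P z ^ 2‖ ≤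
        17 * (4 * C) * (C * γ) / 2 + C * γ := by
      refine (norm_add_le _ _).trans (add_le_add ?_ (by rwa [norm_pow]))
      rw [norm_neg, norm_div, Complex.norm_two]
      have := (hp.E_le' hz).trans (mul_le_mul_of_nonneg_left h4 (by positivity))
      linarith
    have h8 : γ ≤ C * γ := le_mul_of_one_le_left hγ0 hC
    have h9 : C * γ ≤ C * (C * γ) := le_mul_of_one_le_left (by positivity) hC
    rw [e]
    refine norm_add₃_le.trans ?_
    nlinarith

/-! ### Wiener bounds -/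

theorem wb0 {sg : ℝ → ℝ} (hv : NJ a R V sg (jets 0 v) D) : WB a R sg v.1 (4 * D) := by
  have h1 : WB a R sg (incl ℤ BC (Nat.le_succ 1) v.1) (D + D) :=
    hv.v.of_dth hv.q (fun k => by simp [Cone.jets_apply]) fun k => by simp [Cone.jets_apply]
  have h2 : WB a R sg (dth 1 BC v.1) (D + D) :=
    hv.q.of_dth hv.t (fun k => by simp [Cone.jets_apply]) fun k => by simp [Cone.jets_apply]
  exact (h1.of_dth h2 (fun k => by simp) fun k => by simp).mono_const (by linarith)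

theorem div_le (d : Dat C Λ Z₀ a R y c V P) (hz : z ∈ Icc a R) :
    om a R V z / (z * ‖V z‖) ≤ om a R V z / ‖V z‖ :=
  div_le_div_of_nonneg_left (om_pos _ _ _ _).le ((prof d).n0 hz)
    (le_mul_of_one_le_left (norm_nonneg _) (by linarith [(prof d).z100 hz]))

theorem wb1 (d : Dat C Λ Z₀ a R y c V P) (hv : NJ a R V (om a R V) (jets 0 v) D) :
    WB a R (fun z => om a R V z / ‖V z‖) v.2.1 (2 * D) :=
  ((hv.a'.mono (fun _ hz => div_le d hz) le_rfl).of_dth hv.m (fun k => by simp [Cone.jets_apply])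
    fun k => by simp [Cone.jets_apply]).mono_const (by linarith)

/-- the norm on a subinterval -/
theorem bound (d : Dat C Λ Z₀ a R y c V P) (hv : NJ a R V (om a R V) (jets 0 v) D)
    (hD : D ≤ 1 / 1000000) {a' Z A₀ A₁ A₂ μ₀ μ : ℝ} {σ : ℂ} (h1 : a ≤ a') (h2 : a' ≤ Z) (h3 : Z ≤ R)
    (hA : ∀ z ∈ Icc a' Z, ‖rho a R V z - σ‖ ≤ A₀ ∧ ‖rho a R V z‖ * ‖Pf V P z‖ ≤ A₁ ∧
      ‖rho a R V z‖ * ‖pp (kap a R V P) z‖ ≤ A₂ ∧ om a R V z ≤ μ₀ ∧ om a R V z / ‖V z‖ ≤ μ) :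
    ‖res3 a' Z (eOf (kap a R V P) (rho a R V) v) - (algebraMap ℂ (W 2) σ, 0, 0)‖ ≤
      A₀ + 2 * A₁ + 2 * A₂ + 16 * (μ₀ * D) + 12 * C * (μ * D) := by
  have hs : Icc a' Z ⊆ Icc a R := Icc_subset_Icc h1 h3
  have hp := prof d
  have hC := d.c1
  have hD0 : 0 ≤ D := hv.v.nonneg
  obtain ⟨b0, b1, b2, b3, b4⟩ := hA a' ⟨le_rfl, h2⟩
  have hA₀ : 0 ≤ A₀ := (norm_nonneg _).trans b0
  have hA₁ : 0 ≤ A₁ := le_trans (by positivity) b1
  have hA₂ : 0 ≤ A₂ := le_trans (by positivity) b2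
  have hμ₀ : 0 ≤ μ₀ := (om_pos _ _ _ _).le.trans b3
  have hμ : 0 ≤ μ := (div_nonneg (om_pos _ _ _ _).le (norm_nonneg _)).trans b4
  have w0 := (wb0 hv).subset hs
  have u0 : WB a' Z (fun _ => 1) v.1 1 :=
    (w0.mono_mul (K := 128) (by norm_num) fun z hz => by simpa using hp.om_le (hs hz)).mono_const
      (by linarith)
  have n1 : ∀ z ∈ Icc a' Z, ‖rho a R V z‖ * (om a R V z / ‖V z‖) ≤ 4 * μ * 1 := fun z hz => by
    rw [mul_one]
    exact mul_le_mul (rho_le d (hs hz)) (hA z hz).2.2.2.2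
      (div_nonneg (om_pos _ _ _ _).le (norm_nonneg _)) (by norm_num)
  have c0 : WB a' Z (fun _ => 1) ((eOf (kap a R V P) (rho a R V) v).1 - algebraMap ℂ (W 2) σ)
      (A₀ + 4 * μ₀ * (4 * D)) := by
    rw [e0_eq]
    refine (WB.const hA₀ fun z hz => by simpa using (hA z hz).1).add
      (w0.const_mul (by positivity) fun z hz => ?_)
    rw [mul_one]
    exact mul_le_mul (rho_le d (hs hz)) (hA z hz).2.2.2.1 (om_pos _ _ _ _).le (by norm_num)
  have c1 : WB a' Z (fun _ => 1) (eOf (kap a R V P) (rho a R V) v).2.1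
      (A₁ * (1 + 1) + 4 * μ * (2 * D)) := by
    rw [e1_eq]
    refine ((WB.one.add (u0.incl _)).const_mul hA₁ fun z hz => ?_).add
      (((wb1 d hv).subset hs).const_mul (by positivity) n1)
    rw [BoundedContinuousFunction.mul_apply, k3_ap d (hs hz), norm_mul, mul_one, mul_one]
    exact (hA z hz).2.1
  have c2 : WB a' Z (fun _ => 1) (eOf (kap a R V P) (rho a R V) v).2.2
      (A₂ * (1 + 1) + 8 * C * μ * D + 4 * μ * D) := by
    rw [e2_eq]
    refine (((WB.one.add (u0.incl (Nat.zero_le _))).const_mul hA₂ fun z hz => ?_).add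
      ((hv.a'.subset hs).const_mul (by positivity) fun z hz => ?_)).add
      ((hv.b'.subset hs).const_mul (by positivity) n1)
    · rw [BoundedContinuousFunction.mul_apply, norm_mul, mul_one, mul_one]
      exact (hA z hz).2.2.1
    · rw [BoundedContinuousFunction.add_apply, BoundedContinuousFunction.mul_apply,
        k3_ap d (hs hz), mul_one]
      refine mul_le_mul ((norm_add_le _ _).trans ?_) ((div_le d (hs hz)).trans (hA z hz).2.2.2.2)
        (div_nonneg (om_pos _ _ _ _).le (by have := hp.z0 (hs hz); positivity)) (by positivity)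
      rw [norm_mul]
      linarith [rho_P d (hs hz)]
  have d0 := c0.norm_res h2 zero_le_one fun _ _ => le_rfl
  have d1 := c1.norm_res h2 zero_le_one fun _ _ => le_rfl
  have d2 := c2.norm_res h2 zero_le_one fun _ _ => le_rfl
  rw [map_sub, res_alg] at d0
  have e1 : 0 ≤ μ₀ * D := by positivity
  have e2 : 0 ≤ μ * D := by positivity
  have e3 : μ * D ≤ C * (μ * D) := le_mul_of_one_le_left e2 hC
  simp only [res3, Prod.mk_sub_mk, sub_zero, Prod.norm_mk, max_le_iff]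
  refine ⟨d0.trans ?_, d1.trans ?_, d2.trans ?_⟩ <;> nlinarith

/-- the norm where the profile is close to the cylinder -/
theorem bound_near (d : Dat C Λ Z₀ a R y c V P) (hv : NJ a R V (om a R V) (jets 0 v) D)
    (hD : D ≤ 1 / 1000000) {a' Z μ γ : ℝ} (h1 : a ≤ a') (h2 : a' ≤ Z) (h3 : Z ≤ R)
    (hγ : ‖c‖ * Z ^ 2 ≤ γ) (hγ' : γ ≤ 1 / 2) (hμ : ∀ z ∈ Icc a' Z, om a R V z ≤ μ) :
    ‖res3 a' Z (eOf (kap a R V P) (rho a R V) v) - cyl‖ ≤ 330 * C ^ 2 * γ + 28 * C * (μ * D) := by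
  have hC := d.c1
  have hγ0 : 0 ≤ γ := le_trans (by positivity) hγ
  have hμ0 : 0 ≤ μ * D :=
    mul_nonneg ((om_pos _ _ _ _).le.trans (hμ a' ⟨le_rfl, h2⟩)) hv.v.nonneg
  refine (bound d hv hD (A₀ := 3 / 2 * γ) (A₁ := 4 * (C * γ)) (A₂ := 4 * (40 * C ^ 2 * γ))
    (μ₀ := μ) (μ := μ) h1 h2 h3 fun z hz => ?_).trans ?_
  · have hz' : z ∈ Icc a R := ⟨h1.trans hz.1, hz.2.trans h3⟩
    have hz1 := (prof d).z100 hz'
    obtain ⟨b0, b1, b2, b3⟩ := near d hz' (le_trans (mul_le_mul_of_nonneg_left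
      (pow_le_pow_left₀ (by linarith) hz.2 2) (norm_nonneg c)) hγ) hγ'
    refine ⟨b1, mul_le_mul (rho_le d hz') (le_trans ?_ b2) (norm_nonneg _) (by norm_num),
      mul_le_mul (rho_le d hz') b3 (norm_nonneg _) (by norm_num), hμ z hz,
      (div_le_self (om_pos _ _ _ _).le b0).trans (hμ z hz)⟩
    exact le_mul_of_one_le_left (norm_nonneg _) (by linarith)
  · have h8 : γ ≤ C * γ := le_mul_of_one_le_left hγ0 hC
    have h9 : C * γ ≤ C * (C * γ) := le_mul_of_one_le_left (by positivity) hC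
    have e3 : μ * D ≤ C * (μ * D) := le_mul_of_one_le_left hμ0 hC
    nlinarith

end O2

open O2 in
/-- OUT (2) -/
theorem out2_proof : Out2Stmt := by
  intro C hC
  have hC2 : C ≤ C ^ 2 := by nlinarith
  refine ⟨4000 * C ^ 2, 1 / 1000000, by nlinarith, by norm_num, ?_⟩
  intro Λ Z₀ a R y c V P h v D d hs hD e
  have hp := prof d
  have hv := hs.bd
  have hD0 : 0 ≤ D := hv.v.nonneg
  have hom := fun z => (om_pos a R V z).le
  have pv : ∀ z ∈ Icc a R, ∀ θ, ‖Cone.val (jets 0 v).1 z θ‖ ≤ D * om a R V z :=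
    fun z hz θ => hv.v.norm_val hz (hom z) θ
  have pq : ∀ z ∈ Icc a R, ∀ θ, ‖Cone.val (jets 0 v).2.2.1 z θ‖ ≤ D * om a R V z :=
    fun z hz θ => hv.q.norm_val hz (hom z) θ
  have pa : ∀ z ∈ Icc a R, ∀ θ, ‖Cone.val (jets 0 v).2.1 z θ‖ ≤ D * (om a R V z / (z * ‖V z‖)) :=
    fun z hz θ => hv.a'.norm_val hz (div_nonneg (hom z) (by have := hp.z0 hz; positivity)) θ
  have po : ∀ z ∈ Icc a R, D * om a R V z ≤ 1 / 4 := fun z hz => by
    nlinarith [hp.om_le hz, hom z]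
  have pr : ∀ z ∈ Icc a R, ∀ θ, ‖Cone.val e.2.1 z θ‖ ≤ ‖rho a R V z‖ * ‖Pf V P z‖ * (5 / 4) +
      4 * (D * (om a R V z / (z * ‖V z‖))) := fun z hz θ => by
    rw [val_e1, k3_ap d hz, mul_add, ← mul_assoc]
    refine (norm_add_le _ _).trans (add_le_add ?_ ?_)
    · rw [norm_mul, norm_mul]
      exact mul_le_mul_of_nonneg_left (norm_one_add ((pv z hz θ).trans (po z hz))) (by positivity)
    · rw [norm_mul]
      exact mul_le_mul (rho_le d hz) (pa z hz θ) (norm_nonneg _) (by norm_num)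
  refine ⟨?_, fun z hz θ => ⟨?_, ?_⟩, ?_, fun z hz θ => ⟨?_, ?_⟩, fun Z hZ hc => ⟨?_, ?_⟩, ?_⟩
  · have h1 : rho a R V R = y ^ (1 / 2 : ℂ) := by rw [rho_ap d hp.memR, d.sol.tip]
    have h2 : Cone.tr 2 R e.1 - algebraMap ℂ (A 2) (y ^ (1 / 2 : ℂ)) =
        Cone.tr 2 R (const ℤ 2 BC (rho a R V) * v.1) := by
      have h3 : Cone.tr 2 R (const ℤ 2 BC (rho a R V)) = algebraMap ℂ (A 2) (y ^ (1 / 2 : ℂ)) := by
        rw [← (const ℤ 2 ℂ).commutes]
        simp [Cone.tr, const_apply, h1]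
      simp only [e, eOf, mul_add, mul_one, map_add, h3, add_sub_cancel_left]
    have h3 := ((wb0 hv).const_mul (f := rho a R V) (m' := fun z => ‖rho a R V z‖ * om a R V z)
      zero_le_one fun z _ => (one_mul _).ge).norm_tr hp.memR (mul_nonneg (norm_nonneg _) (hom R))
    rw [h1, norm_half] at h3
    rw [h2]
    refine h3.trans ?_
    have h4 := om_rpow d hp.memR hp.R0 le_rfl
    have h5 : 0 ≤ (a / R) ^ (19 / 10 : ℝ) := by have := hp.a0; have := hp.R0; positivity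
    calc 1 * (4 * D) * (√‖y‖ * om a R V R)
        ≤ 1 * (4 * D) * (√‖y‖ * (128 * (a / R) ^ (19 / 10 : ℝ))) := by gcongr
      _ = 512 * D * √‖y‖ * (a / R) ^ (19 / 10 : ℝ) := by ring
      _ ≤ _ := by gcongr; nlinarith
  · have h1 := re_half (hp.re_pos hz).le
    rw [← rho_ap d hz] at h1
    have h2 := (abs_le.1 (Complex.abs_re_le_norm (rho a R V z * Cone.val (jets 0 v).1 z θ))).1
    have h3 := mul_le_mul_of_nonneg_left ((pv z hz θ).trans (po z hz)) (norm_nonneg (rho a R V z))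
    have h4 : 0 < ‖rho a R V z‖ := by
      by_contra h5
      nlinarith [z_rho d hz, hp.z0 hz]
    rw [norm_mul] at h2
    rw [fn_e, mul_add, mul_one, Complex.add_re]
    linarith
  · have h0 := hp.re_pos hz
    have hn := hp.n0 hz
    have hz0 := hp.z0 hz
    have h1 : ‖V z‖ * (D * om a R V z) ≤ (V z).re / 10 := by
      have h2 := mul_le_mul_of_nonneg_left (hp.M1 hz) (mul_nonneg hn.le hD0)
      have h3 := hp.mu_eq hz
      calc ‖V z‖ * (D * om a R V z) ≤ 3000 * D * (mu V z * ‖V z‖ ^ 2) := by linarith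
        _ ≤ _ := by rw [h3]; nlinarith
    rw [fn_e, val_e1, vT_e, k3_ap d hz]
    refine good_aux (by rw [rho_ap d hz, sq_half]) h0 ((pv z hz θ).trans (po z hz))
      ((pq z hz θ).trans ((po z hz).trans (by norm_num)))
      ((mul_le_mul_of_nonneg_left (pv z hz θ) hn.le).trans h1)
      ((mul_le_mul_of_nonneg_left (pq z hz θ) hn.le).trans h1) ?_ ?_
    · have h2 := mul_le_mul_of_nonneg_left (hp.P_small hz) (sq_nonneg ‖V z‖)
      have h3 := hp.mu_eq hz
      rw [mul_pow]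
      nlinarith
    · have h2 : ‖V z‖ * ‖Cone.val (jets 0 v).2.1 z θ‖ ≤ D * (om a R V z / z) :=
        (mul_le_mul_of_nonneg_left (pa z hz θ) hn.le).trans_eq (by field_simp)
      have h3 : om a R V z / z ≤ 2 * (V z).re := by
        rw [div_le_iff₀ hz0, ← hp.mu_eq hz]; linarith [hp.M2 hz]
      have h4 : om a R V z / z ≤ 2 := by
        rw [div_le_iff₀ hz0]; linarith [hp.om_le hz, hp.z100 hz]
      have h5 : 0 ≤ om a R V z / z := div_nonneg (hom z) hz0.le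
      calc _ ≤ (D * (om a R V z / z)) ^ 2 := pow_le_pow_left₀ (by positivity) h2 2
        _ = (D * D) * (om a R V z / z * (om a R V z / z)) := by ring
        _ ≤ (1 / 1000000 * (1 / 1000000)) * (2 * (2 * (V z).re)) := by gcongr
        _ ≤ _ := by linarith
  · have h1 := bound d hv hD (σ := 0) (A₀ := 4) (A₁ := 4 * C) (A₂ := 41 * C * R) (μ₀ := 128)
      (μ := 2 * R) le_rfl hp.le le_rfl fun z hz => ⟨by simpa using rho_le d hz, rho_P d hz,
        (rho_pp d hz).trans (mul_le_mul_of_nonneg_left hz.2 (by positivity)), hp.om_le hz, by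
          rw [div_le_iff₀ (hp.n0 hz)]
          nlinarith [hp.om_zn hz, mul_le_mul_of_nonneg_right hz.2 (hp.n0 hz).le]⟩
    rw [res_e' hp.le hs.tri.cl, map_zero, Prod.mk_zero_zero, Prod.mk_zero_zero, sub_zero] at h1
    refine h1.trans ?_
    have h2 : 1 ≤ R := by linarith [hp.z100 hp.memR]
    have h3 : C ≤ C * R := le_mul_of_one_le_right (by linarith) h2
    have h4 : C * R ≤ C ^ 2 * R := mul_le_mul_of_nonneg_right hC2 (by linarith)
    have h5 : C * R * D ≤ C * R * 1 := mul_le_mul_of_nonneg_left (by linarith) (by positivity)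
    nlinarith
  · rw [fn_e, norm_mul]
    exact (mul_le_mul (rho_le d hz) (norm_one_add ((pv z hz θ).trans (po z hz))) (norm_nonneg _)
      (by norm_num)).trans (by norm_num)
  · refine (norm_fn1_le _ z θ).trans ?_
    have h1 := pr z hz θ
    have h2 : ‖vT e z θ‖ ≤ 4 * (1 / 4) := by
      rw [vT_e, norm_mul]
      exact mul_le_mul (rho_le d hz) ((pq z hz θ).trans (po z hz)) (norm_nonneg _) (by norm_num)
    have h3 : om a R V z / (z * ‖V z‖) ≤ 2 := by
      rw [div_le_iff₀ (mul_pos (hp.z0 hz) (hp.n0 hz))]; exact hp.om_zn hz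
    have h4 := mul_le_mul_of_nonneg_left h3 hD0
    have h5 := rho_P d hz
    linarith
  · refine (bound_near d hv hD (μ := 128) le_rfl hZ.1 hZ.2 le_rfl hc
      fun z hz => hp.om_le ⟨hz.1, hz.2.trans hZ.2⟩).trans ?_
    have h1 : 0 ≤ C ^ 2 * (‖c‖ * Z ^ 2) := by positivity
    have h2 := mul_le_mul_of_nonneg_right hC2 hD0
    have h3 : 0 ≤ C * D := by positivity
    nlinarith
  · intro z hz θ
    have hz' : z ∈ Icc a R := ⟨hz.1, hz.2.trans hZ.2⟩
    have hz0 := hp.z0 hz'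
    obtain ⟨b0, -, b2, -⟩ := near d hz' (mul_le_mul_of_nonneg_left
      (pow_le_pow_left₀ hz0.le hz.2 2) (norm_nonneg c)) hc
    have h1 := mul_le_mul_of_nonneg_left (pr z hz' θ) hz0.le
    have h2 : z * (om a R V z / (z * ‖V z‖)) ≤ 128 := by
      rw [show z * (om a R V z / (z * ‖V z‖)) = om a R V z / ‖V z‖ by field_simp]
      exact (div_le_self (hom z) b0).trans (hp.om_le hz')
    have h3 := mul_le_mul (rho_le d hz') b2 (by positivity) (by norm_num)
    have h4 := mul_le_mul_of_nonneg_left h2 hD0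
    have h5 : 0 ≤ ‖c‖ * Z ^ 2 := by positivity
    have h6 := mul_le_mul_of_nonneg_right hC2 h5
    have h7 : D ≤ C ^ 2 * D := le_mul_of_one_le_left hD0 (by linarith)
    have h8 : 0 ≤ C * (‖c‖ * Z ^ 2) := by positivity
    nlinarith
  · intro hc Z hZ
    refine (bound_near d hv hD (γ := 0) hZ.1 hZ.2 le_rfl (by simp [hc]) (by norm_num)
      fun z hz => om_rpow d ⟨hZ.1.trans hz.1, hz.2⟩ (hp.z0 hZ) hz.1).trans ?_
    have h5 : 0 ≤ D * (a / Z) ^ (19 / 10 : ℝ) := by have := hp.a0; have := hp.z0 hZ; positivity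
    have h2 := mul_le_mul_of_nonneg_right hC2 h5
    have h3 : 0 ≤ C * (D * (a / Z) ^ (19 / 10 : ℝ)) := by positivity
    nlinarith

end

end Vale.Agent.P218F.End
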