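import Vale.Agent.P218F.EndX3S
import Vale.Agent.P218F.EndOut2

/-!
# Cylindrical ends: (X3) from the one step estimate
-/

set_option maxSynthPendingDepth 3

namespace Vale.Agent.P218F.End

open Set Metric Wien
open Cone (W A T3 BC J6 jets)

noncomputable section

namespace X3E

/-! ### pairs of close numbers -/

/-- two numbers of size `M` at distance `M ε` -/
structure Cl (x x' : ℂ) (M ε : ℝ) : Prop where
  l : ‖x‖ ≤ M
  r : ‖x'‖ ≤ M
  d : ‖x' - x‖ ≤ M * ε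
  e : 0 ≤ ε

variable {x x' y y' : ℂ} {M N ε : ℝ}

theorem Cl.nonneg (h : Cl x x' M ε) : 0 ≤ M := (norm_nonneg _).trans h.l

theorem Cl.mono (h : Cl x x' M ε) (hM : M ≤ N) : Cl x x' N ε :=
  ⟨h.l.trans hM, h.r.trans hM, h.d.trans (mul_le_mul_of_nonneg_right hM h.e), h.e⟩

theorem Cl.const (x : ℂ) (he : 0 ≤ ε) : Cl x x ‖x‖ ε :=
  ⟨le_rfl, le_rfl, by rw [sub_self, norm_zero]; positivity, he⟩

theorem Cl.add (h : Cl x x' M ε) (k : Cl y y' N ε) : Cl (x + y) (x' + y') (M + N) ε :=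
  ⟨norm_add_le_of_le h.l k.l, norm_add_le_of_le h.r k.r, by
    rw [add_sub_add_comm, add_mul]; exact norm_add_le_of_le h.d k.d, h.e⟩

theorem Cl.sub (h : Cl x x' M ε) (k : Cl y y' N ε) : Cl (x - y) (x' - y') (M + N) ε :=
  ⟨norm_sub_le_of_le h.l k.l, norm_sub_le_of_le h.r k.r, by
    rw [sub_sub_sub_comm, add_mul]; exact norm_sub_le_of_le h.d k.d, h.e⟩

theorem Cl.mul (h : Cl x x' M ε) (k : Cl y y' N ε) : Cl (x * y) (x' * y') (2 * (M * N)) ε := by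
  have h0 := mul_nonneg h.nonneg k.nonneg
  refine ⟨(norm_mul_le_of_le h.l k.l).trans (by linarith),
    (norm_mul_le_of_le h.r k.r).trans (by linarith), ?_, h.e⟩
  rw [show x' * y' - x * y = x' * (y' - y) + (x' - x) * y by ring]
  exact (norm_add_le_of_le (norm_mul_le_of_le h.r k.d) (norm_mul_le_of_le h.d k.l)).trans_eq
    (by ring)

/-- `ρ'' / ρ` in terms of `w`, `i = 1 / w`, `Q = ρ' / ρ`, `X = z Q` -/
def ppF (w i Q X : ℂ) : ℂ := X * (1 / 2) + i - 1 / 2 - (1 - X) * w * (Q * Q) * (1 / 2) + Q * Q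

theorem coef (L : ℝ) : ∃ M₁ M₂ : ℝ, ∀ (w w' r r' i i' p p' q q' : ℂ) (ε : ℝ), Cl w w' L ε →
    Cl r r' L ε → Cl i i' L ε → Cl p p' L ε → Cl q q' L ε →
    Cl (r * (p * i * (1 / 2))) (r' * (p' * i' * (1 / 2))) M₁ ε ∧
    Cl (r * ppF w i (p * i * (1 / 2)) (q * i * (1 / 2)))
      (r' * ppF w' i' (p' * i' * (1 / 2)) (q' * i' * (1 / 2))) M₂ ε :=
  ⟨_, _, fun _ _ _ _ _ _ _ _ _ _ _ hw hr hi hp hq =>
    have h2 := Cl.const (1 / 2) hw.e
    have hQ := (hp.mul hi).mul h2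
    have hX := (hq.mul hi).mul h2
    ⟨hr.mul hQ, hr.mul (((((hX.mul h2).add hi).sub h2).sub
      ((((((Cl.const 1 hw.e).sub hX).mul hw).mul (hQ.mul hQ))).mul h2)).add (hQ.mul hQ))⟩⟩

theorem cl_inv {w w' : ℂ} (h : 3 / 4 ≤ ‖w‖) (h' : 3 / 4 ≤ ‖w'‖) :
    ‖w⁻¹‖ ≤ 2 ∧ ‖w'⁻¹ - w⁻¹‖ ≤ 2 * ‖w' - w‖ := by
  have h0 : 0 < ‖w‖ := by linarith
  have h0' : 0 < ‖w'‖ := by linarith
  refine ⟨?_, ?_⟩
  · rw [norm_inv, inv_le_comm₀ h0 two_pos]; linarith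
  · rw [inv_sub_inv (norm_pos_iff.1 h0') (norm_pos_iff.1 h0), norm_div, norm_mul, norm_sub_rev,
      div_le_iff₀ (mul_pos h0' h0)]
    have h1 : 1 / 2 ≤ ‖w'‖ * ‖w‖ := by nlinarith
    nlinarith [norm_nonneg (w' - w)]

theorem cl_half {w w' : ℂ} (h : 3 / 4 ≤ w.re) (h' : 3 / 4 ≤ w'.re) :
    ‖w' ^ (1 / 2 : ℂ) - w ^ (1 / 2 : ℂ)‖ ≤ 2 * ‖w' - w‖ := by
  have k : ∀ u : ℂ, 3 / 4 ≤ u.re → 1 / 4 ≤ (u ^ (1 / 2 : ℂ)).re := fun u hu => by
    have h1 := O2.re_half (w := u) (by linarith)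
    have h2 : (1 / 2 : ℝ) ≤ ‖u ^ (1 / 2 : ℂ)‖ := by
      rw [O2.norm_half]
      exact Real.le_sqrt_of_sq_le (by linarith [Complex.re_le_norm u])
    linarith
  have e : w' - w = (w' ^ (1 / 2 : ℂ) - w ^ (1 / 2 : ℂ)) * (w' ^ (1 / 2 : ℂ) + w ^ (1 / 2 : ℂ)) := by
    linear_combination O2.sq_half w - O2.sq_half w'
  have h3 := Complex.re_le_norm (w' ^ (1 / 2 : ℂ) + w ^ (1 / 2 : ℂ))
  rw [Complex.add_re] at h3
  have h4 := mul_le_mul_of_nonneg_left (show (1 / 2 : ℝ) ≤ _ from le_trans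
    (by linarith [k w h, k w' h']) h3) (norm_nonneg (w' ^ (1 / 2 : ℂ) - w ^ (1 / 2 : ℂ)))
  rw [e, norm_mul]
  linarith

/-! ### Wiener bounds -/

variable {a b B η : ℝ} {s : ℕ}

theorem wb_diff {f f' : BC} {u u' : W s} (hab : a ≤ b) (hf : ∀ z ∈ Icc a b, Cl (f z) (f' z) M ε)
    (hu : WB a b (fun _ => 1) u B) (hd : WB a b (fun _ => 1) (u' - u) η) :
    WB a b (fun _ => 1) (const ℤ s BC f' * u' - const ℤ s BC f * u) (M * η + M * ε * B) := by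
  have h0 := hf a ⟨le_rfl, hab⟩
  have e : const ℤ s BC f' * u' - const ℤ s BC f * u =
      const ℤ s BC f' * (u' - u) + const ℤ s BC (f' - f) * u := by rw [map_sub]; ring
  rw [e]
  exact (hd.const_mul h0.nonneg fun z hz => by simpa using (hf z hz).r).add
    (hu.const_mul (mul_nonneg h0.nonneg h0.e) fun z hz => by simpa using (hf z hz).d)

/-- all three components are bounded -/
structure Flat (a b : ℝ) (p : T3 0) (B : ℝ) : Prop where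
  c0 : WB a b (fun _ => 1) p.1 B
  c1 : WB a b (fun _ => 1) p.2.1 B
  c2 : WB a b (fun _ => 1) p.2.2 B

theorem flat {V : BC} {sg : ℝ → ℝ} {p : T3 0} {D S : ℝ} (h : NJ a b V sg (jets 0 p) D) (hS : 0 ≤ S)
    (hV : ∀ z ∈ Icc a b, 1 ≤ z ∧ 3 / 4 ≤ ‖V z‖ ∧ sg z ≤ S) : Flat a b p (4 * S * D) := by
  have hD := h.v.nonneg
  have h1 : ∀ z ∈ Icc a b, sg z / ‖V z‖ ≤ 2 * S * 1 := fun z hz => by
    obtain ⟨-, e2, e3⟩ := hV z hz
    rw [div_le_iff₀ (by linarith)]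
    nlinarith
  have h2 : ∀ z ∈ Icc a b, sg z / (z * ‖V z‖) ≤ 2 * S * 1 := fun z hz => by
    obtain ⟨e1, e2, e3⟩ := hV z hz
    have e4 : 3 / 4 ≤ z * ‖V z‖ := by nlinarith
    rw [div_le_iff₀ (by linarith)]
    nlinarith
  have h3 : 0 ≤ 2 * S := by linarith
  refine ⟨((O2.wb0 h).mono_mul hS fun z hz => by simpa using (hV z hz).2.2).mono_const
    (le_of_eq (by ring)), (((h.a'.mono_mul h3 h2).of_dth (h.m.mono_mul h3 h1)
      (fun k => by simp [Cone.jets_apply]) fun k => by simp [Cone.jets_apply])).mono_const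
      (le_of_eq (by ring)), (h.b'.mono_mul h3 h1).mono_const (by nlinarith)⟩

theorem nj_subset {a' b' : ℝ} {w sg} {J : J6 (W 0)} {D : ℝ} (h : NJ a b w sg J D)
    (hs : Icc a' b' ⊆ Icc a b) : NJ a' b' w sg J D :=
  ⟨h.v.subset hs, h.a'.subset hs, h.q.subset hs, h.b'.subset hs, h.m.subset hs, h.t.subset hs⟩

theorem nj_unpull {R d : ℝ} {w sg} {v v' : T3 0} {D : ℝ} (hb : b ≤ R - 1)
    (h : NJ a b w sg (pullJ (pbC R d) (jets 0 v') - jets 0 v) D) :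
    NJ a b w sg (jets 0 (v' - v)) D := by
  have e : ∀ z ∈ Icc a b, pbC R d z = z := fun z hz => by
    change pb R d z = z
    simp [pb, max_eq_right (sub_nonpos.2 (hz.2.trans hb))]
  rw [(jets 0).map_sub]
  exact ⟨h.v.congr fun k z hz => by simp [pullJ, e z hz],
    h.a'.congr fun k z hz => by simp [pullJ, e z hz],
    h.q.congr fun k z hz => by simp [pullJ, e z hz],
    h.b'.congr fun k z hz => by simp [pullJ, e z hz],
    h.m.congr fun k z hz => by simp [pullJ, e z hz],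
    h.t.congr fun k z hz => by simp [pullJ, e z hz]⟩

/-- the difference of two triples `ρ (1 + v)` -/
theorem e_diff {κ κ' : Co} {ρ ρ' : BC} {v v' : T3 0} (hab : a ≤ b)
    (h0 : ∀ z ∈ Icc a b, Cl (ρ z) (ρ' z) M ε)
    (h1 : ∀ z ∈ Icc a b, Cl ((ρ * κ.2.2.1) z) ((ρ' * κ'.2.2.1) z) M ε)
    (h2 : ∀ z ∈ Icc a b, Cl ((ρ * pp κ) z) ((ρ' * pp κ') z) M ε) (hv : Flat a b v B)
    (hd : Flat a b (v' - v) η) :
    ‖res3 a b (eOf κ' ρ' v') - res3 a b (eOf κ ρ v)‖ ≤ 4 * (M * η + M * ε * (1 + B)) := by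
  have k0 := h0 a ⟨le_rfl, hab⟩
  have p1 : 0 ≤ M * η := mul_nonneg k0.nonneg hd.c0.nonneg
  have p2 : 0 ≤ M * ε := mul_nonneg k0.nonneg k0.e
  have p3 : 0 ≤ M * ε * B := mul_nonneg p2 hv.c0.nonneg
  have c0 : WB a b (fun _ => 1) ((eOf κ' ρ' v').1 - (eOf κ ρ v).1) (M * η + M * ε * (1 + B)) :=
    wb_diff hab h0 (WB.one.add hv.c0) (by simpa using hd.c0)
  have c1 : WB a b (fun _ => 1) ((eOf κ' ρ' v').2.1 - (eOf κ ρ v).2.1)
      (M * η + M * ε * (1 + B) + (M * η + M * ε * B)) := by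
    rw [O2.e1_eq, O2.e1_eq, add_sub_add_comm]
    exact (wb_diff hab h1 (WB.one.add (hv.c0.incl _))
      (by simpa using hd.c0.incl (Nat.le_succ 1))).add (wb_diff hab h0 hv.c1 hd.c1)
  have c2 : WB a b (fun _ => 1) ((eOf κ' ρ' v').2.2 - (eOf κ ρ v).2.2)
      (M * η + M * ε * (1 + B) + ((M + M) * η + (M + M) * ε * B) + (M * η + M * ε * B)) := by
    rw [O2.e2_eq, O2.e2_eq, add_sub_add_comm, add_sub_add_comm (const ℤ 0 BC (ρ' * pp κ') * _)]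
    refine ((wb_diff hab h2 (WB.one.add (hv.c0.incl (Nat.zero_le _))) ?_).add
      (wb_diff hab (fun z hz => (h1 z hz).add (h1 z hz)) (hv.c1.incl (Nat.zero_le _)) ?_)).add
      (wb_diff hab h0 hv.c2 hd.c2)
    · simpa [Cone.jets_apply] using hd.c0.incl (Nat.zero_le _)
    · simpa [Cone.jets_apply] using hd.c1.incl (Nat.zero_le _)
  have d0 := c0.norm_res hab zero_le_one fun _ _ => le_rfl
  have d1 := c1.norm_res hab zero_le_one fun _ _ => le_rfl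
  have d2 := c2.norm_res hab zero_le_one fun _ _ => le_rfl
  rw [map_sub] at d0 d1 d2
  simp only [res3, Prod.mk_sub_mk, Prod.norm_mk, max_le_iff]
  refine ⟨d0.trans ?_, d1.trans ?_, d2.trans ?_⟩ <;> nlinarith

/-! ### the sizes away from the tip -/

theorem log_le {R : ℝ} (hR : 1000000 ≤ R) : Real.log R ≤ R / 20 := by
  have h1 := Real.log_le_sub_one_of_pos (show 0 < R / 100 by linarith)
  have h2 := Real.log_le_sub_one_of_pos (show (0 : ℝ) < 100 by norm_num)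
  rw [Real.log_div (by linarith) (by norm_num)] at h1
  linarith

theorem bl_le {R z : ℝ} (hR : 1000000 ≤ R) (hz : z ≤ R / 2) :
    bl R z ≤ R ^ (-(28 / 5) : ℝ) := by
  rw [Real.rpow_def_of_pos (by linarith)]
  exact Real.exp_le_exp.2 (by linarith [log_le hR])

theorem ex_le {R z : ℝ} (hR : 1000000 ≤ R) (h0 : 0 ≤ z) (hz : z ≤ R / 2) :
    R * Sym.ex R z ≤ R ^ (-(28 / 5) : ℝ) := by
  have h1 : 0 < R := by linarith
  rw [Real.rpow_def_of_pos h1, Sym.ex]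
  nth_rewrite 1 [← Real.exp_log h1]
  rw [← Real.exp_add]
  exact Real.exp_le_exp.2 (by nlinarith [log_le hR])

theorem sH_le {C₀ Λ a R Z z : ℝ} {w P P₁ : ℝ → ℂ} (h : Prof C₀ Λ a R w P P₁) (hz : z ∈ Icc a Z)
    (hZ : Z ≤ R / 2) : sH a R w z ≤
      (171 + Real.exp (19 / 5 * Real.log a)) * (Z ^ 2 * R ^ (-(28 / 5) : ℝ)) := by
  have hz' : z ∈ Icc a R := ⟨hz.1, by linarith [hz.2, h.R0]⟩
  have hR : 1000000 ≤ R := by linarith [h.aR', h.a100]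
  have h1 : 3 / 4 ≤ ‖w z‖ := (h.re_ge hz' (hz.2.trans hZ)).trans (Complex.re_le_norm _)
  have hz1 := h.z100 hz'
  have hZ1 : 100 ≤ Z := hz1.trans hz.2
  have h2 : om a R w z / ‖w z‖ ≤ 171 := by
    rw [div_le_iff₀ (by linarith)]; linarith [h.om_le hz']
  have h3 : mL w z ≤ Z ^ 2 := by
    have e1 := Real.one_sub_inv_le_log_of_pos (show 0 < ‖w z‖ by linarith)
    have e2 : ‖w z‖⁻¹ ≤ 4 / 3 := by rw [inv_le_comm₀ (by linarith) (by norm_num)]; linarith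
    have e3 := Real.one_sub_inv_le_log_of_pos (show 0 < Z by linarith)
    have e4 : Z⁻¹ ≤ 1 / 2 := by rw [inv_le_comm₀ (by linarith) (by norm_num)]; linarith
    have e5 := Real.log_le_log (by linarith) hz.2
    rw [← Real.exp_log (show 0 < Z ^ 2 by positivity), Real.log_pow]
    exact Real.exp_le_exp.2 (by unfold ell; push_cast; linarith)
  have h4 : b0 a R = Real.exp (19 / 5 * Real.log a) * R ^ (-(28 / 5) : ℝ) := by
    rw [Real.rpow_def_of_pos h.R0, ← Real.exp_add, b0]; congr 1; ring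
  have h5 : 0 < R ^ (-(28 / 5) : ℝ) := Real.rpow_pos_of_pos h.R0 _
  have h6 := mul_le_mul (bl_le hR (hz.2.trans hZ)) h2
    (div_nonneg (om_pos _ _ _ _).le (norm_nonneg _)) h5.le
  have h7 := mul_le_mul_of_nonneg_left h3 (mul_pos (Real.exp_pos (19 / 5 * Real.log a)) h5).le
  have h8 : R ^ (-(28 / 5) : ℝ) ≤ Z ^ 2 * R ^ (-(28 / 5) : ℝ) :=
    le_mul_of_one_le_left h5.le (by nlinarith)
  rw [sH, h4]
  nlinarith

variable {C Λ Z₀ R R' Z z : ℝ} {c : ℂ} {V P V' P' : BC}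

theorem size (d : Dat C Λ Z₀ a R y c V P) (hz : z ∈ Icc a R) (hz' : z ≤ R / 2) :
    3 / 4 ≤ (V z).re ∧ ‖V z‖ ≤ 16 * C ∧ ‖rho a R V z‖ ≤ 16 * C ∧ ‖(V z)⁻¹‖ ≤ 16 * C ∧
      ‖P z‖ ≤ 16 * C ∧ ‖z * P z‖ ≤ 16 * C := by
  have hp := O2.prof d
  have hC := d.c1
  have h1 := hp.re_ge hz hz'
  have h2 := h1.trans (Complex.re_le_norm _)
  have h3 : z * ‖P z‖ ≤ 8 * C := by
    have e := hp.P_le hz
    rw [O2.Pf, norm_div, norm_mul, Complex.norm_two,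
      show z * ‖V z‖ * (‖P z‖ / (2 * ‖V z‖)) = z * ‖P z‖ / 2 by field_simp] at e
    linarith
  have h4 := hp.z100 hz
  refine ⟨h1, by linarith [hp.n16 hz], by linarith [O2.rho_le d hz],
    by linarith [(cl_inv h2 h2).1], by nlinarith [norm_nonneg (P z)], ?_⟩
  rw [norm_mul, Complex.norm_real, Real.norm_of_nonneg (by linarith)]
  linarith

theorem ap (d : Dat C Λ Z₀ a R y c V P) (hz : z ∈ Icc a R) :
    (rho a R V * (kap a R V P).2.2.1) z = rho a R V z * (P z * (V z)⁻¹ * (1 / 2)) ∧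
    (rho a R V * pp (kap a R V P)) z = rho a R V z *
      ppF (V z) (V z)⁻¹ (P z * (V z)⁻¹ * (1 / 2)) (z * P z * (V z)⁻¹ * (1 / 2)) := by
  have e : O2.Pf V P z = P z * (V z)⁻¹ * (1 / 2) := by rw [O2.Pf]; ring
  rw [BoundedContinuousFunction.mul_apply, BoundedContinuousFunction.mul_apply, O2.k3_ap d hz,
    O2.pp_ap d hz, O2.P1, e, ppF]
  exact ⟨rfl, by ring⟩

theorem cl_coef (h : Pair C Λ Z₀ a R R' y y' c V P V' P') (hz : z ∈ Icc a Z) (hZ : Z ≤ R / 2)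
    (he : (R' - R) * R ^ (-(28 / 5) : ℝ) ≤ ε) :
    Cl (V z) (V' z) (16 * C) ε ∧ Cl (rho a R V z) (rho a R' V' z) (16 * C) ε ∧
      Cl (V z)⁻¹ (V' z)⁻¹ (16 * C) ε ∧ Cl (P z) (P' z) (16 * C) ε ∧
      Cl (z * P z) (z * P' z) (16 * C) ε := by
  have hp := O2.prof h.l
  have hC := h.l.c1
  have hR0 := hp.R0
  have hR : 1000000 ≤ R := by linarith [hp.aR', hp.a100]
  have hz0 : z ≤ R / 2 := hz.2.trans hZ
  have hz1 : z ∈ Icc a R := ⟨hz.1, by linarith⟩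
  have hz2 : z ∈ Icc a R' := ⟨hz.1, hz1.2.trans h.le⟩
  have hz3 := hp.z100 hz1
  obtain ⟨a1, a2, a3, a4, a5, a6⟩ := size h.l hz1 hz0
  obtain ⟨b1, b2, b3, b4, b5, b6⟩ := size h.r hz2 (by linarith [h.le])
  obtain ⟨l1, l2⟩ := h.lip z ⟨h.l.za.trans hz.1, hz1.2⟩
  have hd : 0 ≤ R' - R := sub_nonneg.2 h.le
  have hx : 0 < Sym.ex R z := Real.exp_pos _
  have h1 : (R' - R) * (R * Sym.ex R z) ≤ ε :=
    (mul_le_mul_of_nonneg_left (ex_le hR (by linarith) hz0) hd).trans he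
  have he0 : 0 ≤ ε := le_trans (by positivity) h1
  have hc : ‖c‖ * R ^ 2 ≤ 7 := by
    have := h.l.sol.c_le
    rwa [le_div_iff₀ (by positivity)] at this
  have h2 : R * (C * ‖c‖ * (R' - R) * R ^ 2 * Sym.ex R z) ≤ 7 * C * ε :=
    calc _ = C * ((‖c‖ * R ^ 2) * ((R' - R) * (R * Sym.ex R z))) := by ring
      _ ≤ C * (7 * ε) := by gcongr
      _ = _ := by ring
  have h3 : 0 ≤ C * ‖c‖ * (R' - R) * R * Sym.ex R z := by positivity
  have k1 : ‖V' z - V z‖ ≤ 7 * C * ε := l1.trans (le_trans (by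
    have := mul_le_mul_of_nonneg_right (show 1 ≤ R ^ 2 by nlinarith) h3
    linarith) h2)
  have k2 : z * ‖P' z - P z‖ ≤ 7 * C * ε :=
    (mul_le_mul hz1.2 l2 (norm_nonneg _) hR0.le).trans h2
  have h4 : 0 ≤ C * ε := by positivity
  refine ⟨⟨a2, b2, by linarith, he0⟩, ⟨a3, b3, ?_, he0⟩, ⟨a4, b4, ?_, he0⟩,
    ⟨a5, b5, by nlinarith [norm_nonneg (P' z - P z)], he0⟩, ⟨a6, b6, ?_, he0⟩⟩
  · rw [O2.rho_ap h.l hz1, O2.rho_ap h.r hz2]
    linarith [cl_half a1 b1]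
  · linarith [(cl_inv (a1.trans (Complex.re_le_norm _)) (b1.trans (Complex.re_le_norm _))).2]
  · rw [← mul_sub, norm_mul, Complex.norm_real, Real.norm_of_nonneg (by linarith)]
    linarith

/-- one step -/
theorem step (C K a : ℝ) : ∃ C₂ : ℝ, ∀ (Λ Z₀ R R' Z D : ℝ) (y y' c : ℂ) (V P V' P' : BC)
    (v v' : T3 0), Pair C Λ Z₀ a R R' y y' c V P V' P' → NJ a R V (om a R V) (jets 0 v) D → D ≤ 1 →
    NJ a R V (sH a R V) (pullJ (pbC R (R' - R)) (jets 0 v') - jets 0 v) (K * (R' - R)) →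
    Z ∈ Icc a (R / 2) →
    ‖res3 a Z (eOf (kap a R' V' P') (rho a R' V') v') - res3 a Z (eOf (kap a R V P) (rho a R V) v)‖ ≤
      C₂ * ((R' - R) * (Z ^ 2 * R ^ (-(28 / 5) : ℝ))) := by
  obtain ⟨M₁, M₂, hM⟩ := coef (16 * C)
  refine ⟨4 * ((16 * C + M₁ + M₂) * (4 * (171 + Real.exp (19 / 5 * Real.log a)) * K + 513)), ?_⟩
  intro Λ Z₀ R R' Z D y y' c V P V' P' v v' h hv hD hd hZ
  have hp := O2.prof h.l
  have hR0 := hp.R0
  have hR : 1000000 ≤ R := by linarith [hp.aR', hp.a100]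
  have hs : Icc a Z ⊆ Icc a R := Icc_subset_Icc le_rfl (by linarith [hZ.2])
  have hs' : Icc a Z ⊆ Icc a R' := hs.trans (Icc_subset_Icc le_rfl h.le)
  have hZ1 : 100 ≤ Z := hp.a100.trans hZ.1
  have h5 : 0 < R ^ (-(28 / 5) : ℝ) := Real.rpow_pos_of_pos hR0 _
  have hV : ∀ z ∈ Icc a Z, 1 ≤ z ∧ 3 / 4 ≤ ‖V z‖ := fun z hz =>
    ⟨by linarith [hp.z100 (hs hz)],
      (hp.re_ge (hs hz) (hz.2.trans hZ.2)).trans (Complex.re_le_norm _)⟩
  have f1 := flat (nj_subset hv hs) (S := 128) (by norm_num) fun z hz =>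
    ⟨(hV z hz).1, (hV z hz).2, hp.om_le (hs hz)⟩
  have f1' : Flat a Z v 512 :=
    ⟨f1.c0.mono_const (by linarith), f1.c1.mono_const (by linarith), f1.c2.mono_const (by linarith)⟩
  have f2 := flat (nj_unpull (by linarith [hZ.2]) (nj_subset hd hs)) (by positivity) fun z hz =>
    ⟨(hV z hz).1, (hV z hz).2, sH_le hp hz hZ.2⟩
  have he : (R' - R) * R ^ (-(28 / 5) : ℝ) ≤ (R' - R) * (Z ^ 2 * R ^ (-(28 / 5) : ℝ)) :=
    mul_le_mul_of_nonneg_left (le_mul_of_one_le_left h5.le (by nlinarith)) (sub_nonneg.2 h.le)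
  have hc : ∀ z ∈ Icc a Z, _ := fun z hz => cl_coef h hz hZ.2 he
  have hc' : ∀ z ∈ Icc a Z, _ := fun z hz => hM _ _ _ _ _ _ _ _ _ _ _ (hc z hz).1 (hc z hz).2.1
    (hc z hz).2.2.1 (hc z hz).2.2.2.1 (hc z hz).2.2.2.2
  have m0 := (hc a ⟨le_rfl, hZ.1⟩).1.nonneg
  have m1 := (hc' a ⟨le_rfl, hZ.1⟩).1.nonneg
  have m2 := (hc' a ⟨le_rfl, hZ.1⟩).2.nonneg
  refine (e_diff (M := 16 * C + M₁ + M₂) hZ.1 (fun z hz => (hc z hz).2.1.mono (by linarith))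
    (fun z hz => ?_) (fun z hz => ?_) f1' f2).trans_eq (by ring)
  · rw [(ap h.l (hs hz)).1, (ap h.r (hs' hz)).1]
    exact (hc' z hz).1.mono (by linarith)
  · rw [(ap h.l (hs hz)).2, (ap h.r (hs' hz)).2]
    exact (hc' z hz).2.mono (by linarith)

/-- chaining of small steps -/
theorem chain {E : Type*} [SeminormedAddCommGroup E] {f : ℝ → E} {L : ℝ} (hη : 0 < η) (hab : a ≤ b)
    (h : ∀ s t, a ≤ s → s ≤ t → t ≤ b → t - s ≤ η → ‖f t - f s‖ ≤ L * (t - s)) :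
    ‖f b - f a‖ ≤ L * (b - a) := by
  have key : ∀ n : ℕ, ∀ t, a ≤ t → t ≤ b → t ≤ a + n * η → ‖f t - f a‖ ≤ L * (t - a) := by
    intro n
    induction n with
    | zero => intro t h1 h2 h3; exact h a t le_rfl h1 h2 (by simp at h3; linarith)
    | succ n ih =>
      intro t h1 h2 h3
      rcases le_total t (a + n * η) with h4 | h4
      · exact ih t h1 h2 h4
      · have h5 : a ≤ a + n * η := le_add_of_nonneg_right (by positivity)
        have h6 := ih _ h5 (h4.trans h2) le_rfl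
        have h7 := h _ t h5 h4 h2 (by push_cast at h3; linarith)
        linarith [norm_sub_le_norm_sub_add_norm_sub (f t) (f (a + n * η)) (f a)]
  obtain ⟨n, hn⟩ := exists_nat_ge ((b - a) / η)
  exact key n b hab le_rfl (by rw [div_le_iff₀ hη] at hn; linarith)

end X3E

open X3E in
/-- (X3) -/
theorem x3_of (hS : StepStmt) : X3Stmt := by
  intro C K hC hK
  obtain ⟨Λ₁, D₀, K₁, hD₀, hK₁, hS⟩ := hS C hC
  have hK0 : 0 < K := by linarith
  refine ⟨max Λ₁ (640000 * C ^ 3), min D₀ 1 / K, div_pos (lt_min hD₀ one_pos) hK0, ?_⟩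
  intro Λ Z₀ R₀ V P cc Y hΛ hZ₀ hZ₁ hF hL hI δ a v hδ ha hv
  obtain ⟨C₂, hC₂⟩ := step C K₁ a
  refine ⟨max R₀ (a ^ 3), max C₂ 0, ?_⟩
  intro R R' hR hRR hR' h hh c hc Z hZ
  have hΛ0 : 0 ≤ Λ := le_trans (by linarith) hI.room
  have hR0 : 0 < R := (pow_pos (hZ₀.trans_le ha) 3).trans_le ((le_max_right _ _).trans hR)
  have hn : K * ‖h‖ ≤ min D₀ 1 := by
    have := (mem_ball_zero_iff.1 hh).le.trans hδ
    rwa [le_div_iff₀ hK0, mul_comm] at this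
  have hn1 : ‖h‖ ≤ 1 :=
    (le_mul_of_one_le_left (norm_nonneg _) hK).trans (hn.trans (min_le_right _ _))
  have key : ∀ s, R ≤ s → s ≤ R' → Y s c ∈ Sym.D Λ s ∧ cc s (Y s c) = c ∧
      Dat C Λ Z₀ a s (Y s c) c (V s (Y s c)) (P s (Y s c)) ∧
      VSol a s (V s (Y s c)) (P s (Y s c)) h (v s (h, Y s c)) (K * ‖h‖) := fun s h1 h2 => by
    have e0 : max R₀ (a ^ 3) ≤ s := hR.trans h1
    have e1 : R₀ ≤ s := (le_max_left _ _).trans e0
    have e2 := hI.nest s R' e1 h2 (2 * Λ) (by linarith) (by linarith) hc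
    have e3 : Y s c ∈ Sym.D Λ s := ball_subset_ball (by
      have := hI.room
      gcongr; linarith) (hI.mem s e1 (2 * Λ) le_rfl c e2)
    have e4 := hI.right s e1 c e2
    have e5 := hF.sol s e1 _ e3
    rw [e4] at e5
    exact ⟨e3, e4, ⟨e5, hC, (le_max_right _ _).trans hΛ, hZ₀, hZ₁, ha,
      (le_max_right _ _).trans e0⟩, hv.sol s e0 (h, Y s c) ⟨hh, e3⟩⟩
  refine (chain (f := fun s => res3 a Z (eV a V P v s (h, Y s c)))
    (L := max C₂ 0 * (Z ^ 2 * R ^ (-(28 / 5) : ℝ))) (η := 1 / (R + 1)) (by positivity) hRR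
    fun s t h1 h2 h3 h4 => ?_).trans_eq (by ring)
  obtain ⟨a1, a2, a3, a4⟩ := key s h1 (h2.trans h3)
  obtain ⟨b1, b2, b3, b4⟩ := key t (h1.trans h2) h3
  have hp : Pair C Λ Z₀ a s t (Y s c) (Y t c) c (V s (Y s c)) (P s (Y s c)) (V t (Y t c))
      (P t (Y t c)) := by
    refine ⟨a3, b3, h2, ?_, ?_⟩
    · rw [le_div_iff₀ (by linarith)] at h4
      nlinarith
    · have := hL s t (((le_max_left _ _).trans hR).trans h1) h2 (by linarith) _ a1 _ b1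
        (a2.trans b2.symm)
      rwa [a2] at this
  refine (hC₂ Λ Z₀ s t Z _ _ _ c _ _ _ _ _ _ hp a4.bd (hn.trans (min_le_right _ _))
    (hS Λ Z₀ a s t _ _ c _ _ _ _ h _ _ _ ((le_max_left _ _).trans hΛ) hp a4 b4
      (hn.trans (min_le_left _ _)) hn1) ⟨hZ.1, by linarith [hZ.2]⟩).trans ?_
  have h5 : s ^ (-(28 / 5) : ℝ) ≤ R ^ (-(28 / 5) : ℝ) :=
    Real.rpow_le_rpow_of_nonpos hR0 h1 (by norm_num)
  have h6 : 0 ≤ s ^ (-(28 / 5) : ℝ) := Real.rpow_nonneg (by linarith) _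
  have h7 : 0 ≤ t - s := sub_nonneg.2 h2
  calc _ ≤ max C₂ 0 * ((t - s) * (Z ^ 2 * s ^ (-(28 / 5) : ℝ))) :=
        mul_le_mul_of_nonneg_right (le_max_left _ _) (by positivity)
    _ ≤ max C₂ 0 * ((t - s) * (Z ^ 2 * R ^ (-(28 / 5) : ℝ))) := by
        have := le_max_right C₂ 0
        gcongr
    _ = _ := by ring

end

end Vale.Agent.P218F.End
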