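import Vale.Agent.P218F.EndX3S

/-! Cylindrical ends, X3 (W): the weights of the comparison of neighbouring end points. -/

namespace Vale.Agent.P218F.End

open Set

namespace X3W

variable {C₀ Λ a R : ℝ} {w P P₁ : ℝ → ℂ} (h : Prof C₀ Λ a R w P P₁) {z : ℝ}
include h

theorem admH_pw {γ b s : ℝ} (c : ℝ) (h1 : -1 ≤ γ) (h2 : γ ≤ 0) (h3 : 0 ≤ b * (1 / R) + s)
    (h4 : ∀ z ∈ Icc a R, 2 * (b * (1 / z) + s) ^ 2 - b * (1 / z ^ 2 + 1 / 2) ≤ s * z / 2) :
    AdmH a R w (pw w γ b s c) := by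
  refine ⟨_, _, h.d_pw _ _ _ _, h.d_pw1 _ _ _ _, ?_, fun z hz => ⟨pw_pos .., ?_⟩⟩
  · refine mul_nonneg (pw_pos ..).le ?_
    have h5 : 0 ≤ γ * (-2 / R) :=
      mul_nonneg_of_nonpos_of_nonpos h2 (div_nonpos_of_nonpos_of_nonneg (by norm_num) h.R0.le)
    unfold pl; rw [h.e1_R]; linarith
  · have e1' := h.pw_op hz γ b s
    have e2' := (abs_le.1 (h.master hz)).1
    have e3 : (γ * e1 P z) ^ 2 ≤ lm P z ^ 2 := by
      refine sq_le_sq' (abs_le.1 ?_).1 (abs_le.1 ?_).2 <;> rw [abs_mul] <;>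
        exact (mul_le_of_le_one_left (abs_nonneg _) (abs_le.2 ⟨h1, by linarith⟩)).trans (h.e1_le hz)
    have e4 : pl P γ b s z ^ 2 ≤ 2 * (γ * e1 P z) ^ 2 + 2 * (b * (1 / z) + s) ^ 2 := by
      unfold pl; nlinarith [sq_nonneg (γ * e1 P z - (b * (1 / z) + s))]
    have e5 : γ * (e2 P₁ z - z / 2 * e1 P z) ≤ 0 :=
      mul_nonpos_of_nonpos_of_nonneg h2 (by linarith [h.mu0 hz])
    have e6 : pl P γ b s z ^ 2 + γ * e2 P₁ z - b * (1 / z ^ 2) - z / 2 * pl P γ b s z ≤
        39 / 20 * mu w z := by linarith [h.lm_sq hz, h.mu0 hz, h4 z hz]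
    have e7 := mul_le_mul_of_nonneg_left e6 (pw_pos w γ b s c z).le
    linarith

theorem blom_eq (hz : z ∈ Icc a R) : bl R z * (om a R w z / ‖w z‖) =
    pw w (-(1 / 20)) (-2) (1 + 19 / 10 / R) (19 / 10 * Real.log a - R) z := by
  rw [div_eq_mul_inv, h.ninv_eq hz, om_eq, bl_eq w, pw_mul, pw_mul]
  congr 1 <;> ring

theorem s_le : 0 ≤ 19 / 10 / R ∧ 19 / 10 / R ≤ 1 / 10 := by
  refine ⟨(div_pos (by norm_num) h.R0).le, ?_⟩
  rw [div_le_iff₀ h.R0]
  linarith [h.z100 h.memR]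

theorem inv_le (hz : z ∈ Icc a R) : 0 < 1 / z ∧ 1 / z ≤ 1 / 100 :=
  ⟨(h.inv_le_lm hz).1, one_div_le_one_div_of_le (by norm_num) (h.z100 hz)⟩

theorem admH_sH : AdmH a R w (sH a R w) := by
  have h1 : AdmH a R w fun z => bl R z * (om a R w z / ‖w z‖) := by
    refine (admH_pw h _ (by norm_num) (by norm_num) ?_ fun z hz => ?_).congr
      fun z hz => blom_eq h hz
    · linarith [(s_le h).1, (inv_le h h.memR).2]
    · obtain ⟨e1, e2⟩ := s_le h
      obtain ⟨e3, e4⟩ := inv_le h hz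
      have e5 : 1 / z ^ 2 = (1 / z) ^ 2 := by ring
      have e6 : (-2 * (1 / z) + (1 + 19 / 10 / R)) ^ 2 ≤ 2 ^ 2 :=
        sq_le_sq' (by linarith) (by linarith)
      have e7 := h.z100 hz
      rw [e5]
      nlinarith
  have h2 : AdmH a R w (mL w) :=
    admH_pw h 0 (by norm_num) (by norm_num) (by simp) fun z _ => by simp
  exact h1.add (h2.smul (Real.exp_pos _))

theorem admD_mL : AdmD a R P (mL w) :=
  h.admD_pw 0 (by norm_num [abs_of_pos]) (by norm_num) (by norm_num)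

theorem admD_sH : AdmD a R P (sH a R w) := by
  have h1 : AdmD a R P fun z => bl R z * (om a R w z / ‖w z‖) :=
    (h.admD_pw _ (by norm_num [abs_of_pos]) (by norm_num) (by linarith [(s_le h).2])).congr
      fun z hz => blom_eq h hz
  exact h1.add ((admD_mL h).smul (Real.exp_pos _))

theorem admD_sL : AdmD a R P (sL R w) := by
  refine ((admD_mL h).add (h.admD_pw (γ := 11 / 20) (b := 3) (s := 1) (-R)
    (by norm_num [abs_of_pos]) (by norm_num) (by norm_num))).congr fun z hz => ?_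
  have e : mL w z * (z * ‖w z‖ * bl R z) = pw w (11 / 20) 3 1 (-R) z := by
    rw [h.norm_eq hz, bl_eq w, mL]
    nth_rewrite 2 [h.z_eq hz]
    rw [pw_mul, pw_mul, pw_mul]
    congr 1 <;> ring
  rw [sL, mul_add, mul_one, e]

omit h in
theorem d_bl : Der a R (bl R) (bl R) := fun z _ =>
  ((hasDerivWithinAt_id z (Icc a R)).sub_const R).exp.congr_deriv (mul_one _)

theorem admL_mL {α : ℝ} (h1 : 1 / 2 ≤ α) (h2 : α ≤ 1) :
    AdmL a R w P α (fun z => 2 * mL w z) fun z => yL R w z / 25 := by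
  obtain ⟨γ, hγ⟩ : ∃ γ, γ = -(9 / 20) + α := ⟨_, rfl⟩
  have e0 : ∀ z, mL w z * Real.exp (α * ell w z) = pw w γ 0 0 0 z := fun z => by
    rw [mL, pw_mul_exp, hγ]
  refine ⟨fun z => pw w γ 0 0 0 z * (2 - bl R z),
    fun z => pw w γ 0 0 0 z * pl P γ 0 0 z * (2 - bl R z) - pw w γ 0 0 0 z * bl R z,
    fun z => pw w γ 0 0 0 z * ((pl P γ 0 0 z ^ 2 + γ * e2 P₁ z) * (2 - bl R z) -
      2 * pl P γ 0 0 z * bl R z - bl R z), fun z hz => ?_, fun z hz => ?_, ?_, ?_, fun z hz => ?_⟩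
  · exact ((h.d_pw γ 0 0 0 z hz).mul ((d_bl z hz).const_sub 2)).congr_deriv (by ring)
  · exact (((h.d_pw1 γ 0 0 0 z hz).mul ((d_bl z hz).const_sub 2)).sub
      ((h.d_pw γ 0 0 0 z hz).mul (d_bl z hz))).congr_deriv (by ring)
  · have e1 : pl P γ 0 0 R ≤ 0 := by
      have : γ * (-2 / R) ≤ 0 := mul_nonpos_of_nonneg_of_nonpos (by linarith)
        (div_nonpos_of_nonpos_of_nonneg (by norm_num) h.R0.le)
      unfold pl; rw [h.e1_R]; linarith
    have e2 : bl R R = 1 := by simp [bl]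
    have e3 := pw_pos w γ 0 0 0 R
    simp only [e2]
    nlinarith
  · exact mul_nonneg (pw_pos ..).le (by linarith [bl_le (le_refl R)])
  · have hV := pw_pos w γ 0 0 0 z
    have b0 := bl_pos R z
    have b1 := bl_le hz.2
    have hμ := h.mu0 hz
    have hz1 := h.z100 hz
    have hl := h.lm0 hz
    have p0 : pl P γ 0 0 z = γ * e1 P z := by simp [pl]
    have p1 := mul_le_mul_of_nonneg_left (abs_le.1 (h.e1_le hz)).1 (by linarith : 0 ≤ γ)
    have p2 := mul_le_mul_of_nonneg_left (abs_le.1 (h.e1_le hz)).2 (by linarith : 0 ≤ γ)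
    have p3 : γ * lm P z ≤ z / 250 :=
      (mul_le_of_le_one_left hl (by linarith)).trans (h.lm_z hz)
    have q1 : γ * (399 / 200 * mu w z) ≤ γ * (e2 P₁ z - z / 2 * e1 P z) :=
      mul_le_mul_of_nonneg_left (by linarith [(abs_le.1 (h.master hz)).1]) (by linarith)
    have q2 := mul_le_mul_of_nonneg_right (q1.trans (le_add_of_nonneg_left
      (sq_nonneg (γ * e1 P z)))) (by linarith : 0 ≤ 2 - bl R z)
    have q3 : 12 / 25 * z * bl R z ≤ (z / 2 - 1 - 2 * (γ * e1 P z)) * bl R z :=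
      mul_le_mul_of_nonneg_right (by linarith) b0.le
    have key : pw w γ 0 0 0 z * (γ * (399 / 200 * mu w z) * (2 - bl R z) + 12 / 25 * z * bl R z) ≤
        pw w γ 0 0 0 z * ((pl P γ 0 0 z ^ 2 + γ * e2 P₁ z) * (2 - bl R z) -
          2 * pl P γ 0 0 z * bl R z - bl R z) - z / 2 *
          (pw w γ 0 0 0 z * pl P γ 0 0 z * (2 - bl R z) - pw w γ 0 0 0 z * bl R z) := by
      have := mul_le_mul_of_nonneg_left (add_le_add q2 q3) hV.le
      rw [p0]
      linarith
    have m1 : 1 / 20 * mu w z ≤ γ * mu w z := mul_le_mul_of_nonneg_right (by linarith) hμ.le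
    have zb : 0 < z * bl R z := by positivity
    refine ⟨?_, ?_, le_trans ?_ key, le_trans ?_ key⟩
    · rw [mul_assoc, e0]; nlinarith
    · have := mL_pos w z
      unfold yL; positivity
    · have r1 : 4 * lm P z * -(γ * e1 P z) + mu w z / 25 ≤ γ * (399 / 200 * mu w z) := by
        have t1 := mul_le_mul_of_nonneg_left p1 hl
        have t2 := mul_le_mul_of_nonneg_left (h.lm_sq hz) (by linarith : 0 ≤ γ)
        nlinarith
      have r2 := mul_le_mul_of_nonneg_right r1 (by linarith : 0 ≤ 2 - bl R z)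
      have r3 : 4 * lm P z * bl R z ≤ 12 / 25 * z * bl R z :=
        mul_le_mul_of_nonneg_right (by linarith [h.lm_z hz]) b0.le
      have := mul_le_mul_of_nonneg_left (add_le_add r2 r3) hV.le
      simp only [p0]
      linarith
    · have r1 : 2 / 25 * mu w z ≤ γ * (399 / 200 * mu w z) * (2 - bl R z) :=
        le_trans (by linarith) (le_mul_of_one_le_right (by nlinarith) (by linarith))
      have r2 : 2 / 25 * (z * bl R z) ≤ 12 / 25 * z * bl R z := by linarith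
      have := mul_le_mul_of_nonneg_left (add_le_add r1 r2) hV.le
      simp only [yL]
      rw [div_mul_eq_mul_div, mul_assoc, e0]
      linarith

theorem logs (hz : z ∈ Icc a R) : 0 ≤ Real.log z ∧ Real.log z ≤ Real.log R ∧
    3 * Real.log a ≤ Real.log R ∧ Real.log ‖w z‖ ≤ 15 ∧ Real.log ‖w z‖ ≤ Real.log z ∧
    12 * Real.log R ≤ R := by
  have h1 := h.z100 hz
  have h2 := Real.log_le_log (pow_pos h.a0 3) h.aR
  have h3 := Real.log_le_sub_one_of_pos (div_pos h.R0 (by norm_num : (0 : ℝ) < 16))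
  have h4 := Real.log_le_sub_one_of_pos (by norm_num : (0 : ℝ) < 16)
  rw [Real.log_pow] at h2
  rw [Real.log_div h.R0.ne' (by norm_num)] at h3
  exact ⟨Real.log_nonneg (by linarith), Real.log_le_log (h.z0 hz) hz.2, by exact_mod_cast h2,
    by linarith [h.logn_le hz], Real.log_le_log (h.n0 hz) (by linarith [h.n16 hz]),
    by linarith [h.aR', h.a100]⟩

theorem one_le_mL (hz : z ∈ Icc a R) : 1 ≤ mL w z := by
  obtain ⟨h1, -, -, -, h2, -⟩ := logs h hz
  exact Real.one_le_exp (by unfold ell; linarith)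

theorem b0_sL (hz : z ∈ Icc a R) : b0 a R * sL R w z ≤ 2 * sH a R w z := by
  obtain ⟨h1, h2, h3, -, h4, -⟩ := logs h hz
  have h5 : b0 a R * mL w z * (z * ‖w z‖) ≤ om a R w z / ‖w z‖ := by
    have h6 : 0 ≤ 19 / 10 * z / R := by have := h.z0 hz; have := h.R0; positivity
    rw [le_div_iff₀ (h.n0 hz)]
    calc b0 a R * mL w z * (z * ‖w z‖) * ‖w z‖ = b0 a R * mL w z *
          (Real.exp (Real.log z) * Real.exp (Real.log ‖w z‖)) * Real.exp (Real.log ‖w z‖) := by
          rw [Real.exp_log (h.z0 hz), Real.exp_log (h.n0 hz)]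
      _ ≤ _ := by
          simp only [b0, mL, pw, om, ← Real.exp_add]
          exact Real.exp_le_exp.2 (by unfold ell; linarith)
  have h6 := mul_le_mul_of_nonneg_left h5 (bl_pos R z).le
  have h7 : 0 ≤ b0 a R * mL w z := (mul_pos (Real.exp_pos _) (mL_pos w z)).le
  have h8 : 0 ≤ bl R z * (om a R w z / ‖w z‖) :=
    mul_nonneg (bl_pos R z).le (div_nonneg (om_pos ..).le (norm_nonneg _))
  unfold sL sH
  linarith

theorem om_sq (hz : z ∈ Icc a R) : om a R w z ^ 2 ≤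
    Real.exp (4 + 19 / 10 * (Real.log ‖w z‖ - 2 * Real.log z) + 19 / 5 * Real.log a) := by
  have h1 : 19 / 10 * z / R ≤ 2 := by
    rw [div_le_iff₀ h.R0]; linarith [hz.2, h.R0]
  rw [om, sq, ← Real.exp_add]
  exact Real.exp_le_exp.2 (by unfold ell; linarith)

theorem fin (hz : z ∈ Icc a R) {X t : ℝ} (hX : X ≤ Real.exp (t + 19 / 5 * Real.log a))
    (ht : t + 28 / 5 * Real.log R + 9 / 20 * (Real.log ‖w z‖ - 2 * Real.log z) ≤ 40 + Real.log z ∨
      ∃ m, Real.exp m ≤ mu w z ∧ z - R + t + 28 / 5 * Real.log R +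
        9 / 20 * (Real.log ‖w z‖ - 2 * Real.log z) ≤ 40 + m) :
    bl R z * X ≤ Real.exp 40 * (b0 a R * yL R w z) := by
  have h0 : 0 < Real.exp 40 * (b0 a R * mL w z) :=
    mul_pos (Real.exp_pos _) (mul_pos (Real.exp_pos _) (mL_pos w z))
  have e : Real.exp 40 * (b0 a R * yL R w z) = Real.exp 40 * (b0 a R * mL w z) * mu w z +
      bl R z * (Real.exp 40 * (b0 a R * mL w z) * z) := by unfold yL; ring
  have hb := bl_pos R z
  refine (mul_le_mul_of_nonneg_left hX hb.le).trans ?_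
  rw [e]
  rcases ht with ht | ⟨m, hm, ht⟩
  · refine le_add_of_nonneg_of_le (mul_pos h0 (h.mu0 hz)).le (mul_le_mul_of_nonneg_left ?_ hb.le)
    calc _ ≤ Real.exp 40 * (b0 a R * mL w z) * Real.exp (Real.log z) := by
          simp only [b0, mL, pw, ← Real.exp_add]
          exact Real.exp_le_exp.2 (by unfold ell; linarith)
      _ = _ := by rw [Real.exp_log (h.z0 hz)]
  · refine le_add_of_le_of_nonneg (le_trans ?_ (mul_le_mul_of_nonneg_left hm h0.le))
      (mul_pos hb (mul_pos h0 (h.z0 hz))).le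
    simp only [b0, mL, pw, bl, ← Real.exp_add]
    exact Real.exp_le_exp.2 (by unfold ell; linarith)

theorem exp_mu (hz : z ∈ Icc a R) : Real.exp (-15) ≤ mu w z := by
  refine le_trans ?_ (h.mu_ge hz)
  rw [Real.exp_neg, one_div]
  exact inv_anti₀ (by norm_num) (by linarith [Real.add_one_le_exp 15])

theorem log_half (hz : z ∈ Icc a R) (hz' : R / 2 ≤ z) : Real.log R ≤ Real.log z + 1 := by
  have h1 : Real.log R ≤ Real.log (2 * z) := Real.log_le_log h.R0 (by linarith)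
  rw [Real.log_mul two_ne_zero (h.z0 hz).ne'] at h1
  linarith [Real.log_le_sub_one_of_pos two_pos]

theorem src1 (hz : z ∈ Icc a R) :
    bl R z * (om a R w z ^ 2 / ‖w z‖ ^ 2) ≤ Real.exp 40 * (b0 a R * yL R w z) := by
  obtain ⟨h1, h2, h3, h4, -, h5⟩ := logs h hz
  refine fin h hz (t := 4 + 19 / 10 * (Real.log ‖w z‖ - 2 * Real.log z) - 2 * Real.log ‖w z‖) ?_ ?_
  · rw [div_le_iff₀ (pow_pos (h.n0 hz) 2)]
    refine (om_sq h hz).trans_eq ?_
    nth_rewrite 4 [← Real.exp_log (h.n0 hz)]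
    rw [sq, ← Real.exp_add, ← Real.exp_add]
    congr 1; ring
  · rcases le_total z (R / 2) with h6 | h6
    · exact Or.inr ⟨-15, exp_mu h hz, by linarith⟩
    · exact Or.inl (by linarith [log_half h hz h6])

theorem src2 (hz : z ∈ Icc a R) :
    bl R z * (om a R w z ^ 2 / (z * ‖w z‖ ^ 3)) ≤ Real.exp 40 * (b0 a R * yL R w z) := by
  obtain ⟨h1, h2, h3, h4, -, h5⟩ := logs h hz
  have hz0 := h.z0 hz
  have hn := h.n0 hz
  refine fin h hz (t := 4 + 19 / 10 * (Real.log ‖w z‖ - 2 * Real.log z) - 3 * Real.log ‖w z‖ -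
    Real.log z) ?_ ?_
  · have e : z * ‖w z‖ ^ 3 = Real.exp (Real.log z + 3 * Real.log ‖w z‖) := by
      rw [Real.exp_add, Real.exp_log hz0, show (3 : ℝ) = (3 : ℕ) by norm_num, Real.exp_nat_mul,
        Real.exp_log hn]
    rw [div_le_iff₀ (by positivity), e, ← Real.exp_add]
    exact (om_sq h hz).trans_eq (by congr 1; ring)
  · rcases le_total z (R / 2) with h6 | h6
    · have h7 : 3 / 4 ≤ ‖w z‖ := (h.re_ge hz h6).trans (Complex.re_le_norm _)
      have h8 := Real.one_sub_inv_le_log_of_pos hn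
      have h9 : ‖w z‖⁻¹ ≤ (3 / 4)⁻¹ := inv_anti₀ (by norm_num) h7
      exact Or.inr ⟨-15, exp_mu h hz, by linarith⟩
    · have h7 := log_half h hz h6
      rcases le_total (-(3 / 2) * Real.log z) (Real.log ‖w z‖) with h8 | h8
      · exact Or.inl (by linarith)
      · refine Or.inr ⟨-(2 * (Real.log z + Real.log ‖w z‖)), ?_, by linarith [hz.2]⟩
        rw [Real.exp_neg, show (2 : ℝ) = (2 : ℕ) by norm_num, Real.exp_nat_mul, Real.exp_add,
          Real.exp_log hz0, Real.exp_log hn, inv_le_iff_one_le_mul₀ (by positivity)]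
        linarith [h.zn2 hz, h.lam1]

end X3W

open X3W in
/-- X3 (W) -/
theorem wt3_proof : WtStmt :=
  ⟨Real.exp 40, Real.one_le_exp (by norm_num), fun _ _ _ _ _ _ _ h =>
    ⟨admH_sH h, admD_sH h, admD_sL h, fun _ => admL_mL h,
      fun _ hz => ⟨one_le_mL h hz, b0_sL h hz, src1 h hz, src2 h hz⟩⟩⟩

end Vale.Agent.P218F.End
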