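import Vale.Agent.P218F.EndNL
import Vale.Agent.P218F.EndFix1
import Vale.Agent.P218F.EndOut2
import Mathlib.Analysis.ODE.Gronwall

/-!
# Cylindrical ends: local Lipschitz dependence on the end point and on the parameters
-/

set_option maxSynthPendingDepth 3

namespace Vale.Agent.P218F.End

open Set Metric Wien Filter Topology
open Cone (W A T3 BC J6 jets fn fn1 vT)

namespace X4

noncomputable section

section rel
variable {B : Type*} [NormedCommRing B] {ρ A₁ A₂ : ℝ} {x x' y y' : B}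

/-- relative bound for a pair -/
structure RG (ρ : ℝ) (x x' : B) (A : ℝ) : Prop where
  l : ‖x‖ ≤ A
  r : ‖x'‖ ≤ A
  d : ‖x' - x‖ ≤ A * ρ

theorem RG.add (h : RG ρ x x' A₁) (h' : RG ρ y y' A₂) : RG ρ (x + y) (x' + y') (A₁ + A₂) :=
  ⟨norm_add_le_of_le h.l h'.l, norm_add_le_of_le h.r h'.r, by
    rw [add_sub_add_comm, add_mul]; exact norm_add_le_of_le h.d h'.d⟩

theorem RG.neg (h : RG ρ x x' A₁) : RG ρ (-x) (-x') A₁ :=
  ⟨by simpa using h.l, by simpa using h.r, by rw [neg_sub_neg, norm_sub_rev]; exact h.d⟩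

theorem RG.sub (h : RG ρ x x' A₁) (h' : RG ρ y y' A₂) : RG ρ (x - y) (x' - y') (A₁ + A₂) := by
  simpa only [sub_eq_add_neg] using h.add h'.neg

theorem RG.nonneg (h : RG ρ x x' A₁) : 0 ≤ A₁ := (norm_nonneg _).trans h.l

theorem RG.mul (h : RG ρ x x' A₁) (h' : RG ρ y y' A₂) :
    RG ρ (x * y) (x' * y') (2 * (A₁ * A₂)) := by
  have h0 : 0 ≤ A₁ * A₂ := mul_nonneg h.nonneg h'.nonneg
  refine ⟨(norm_mul_le_of_le h.l h'.l).trans (by linarith),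
    (norm_mul_le_of_le h.r h'.r).trans (by linarith), ?_⟩
  rw [show x' * y' - x * y = (x' - x) * y' + x * (y' - y) by ring]
  exact (norm_add_le_of_le (norm_mul_le_of_le h.d h'.r) (norm_mul_le_of_le h.l h'.d)).trans_eq
    (by ring)

theorem RG.const (hρ : 0 ≤ ρ) (x : B) : RG ρ x x ‖x‖ :=
  ⟨le_rfl, le_rfl, by simpa using mul_nonneg (norm_nonneg _) hρ⟩

theorem RG.sq (h : RG ρ x x' A₁) : RG ρ (x ^ 2) (x' ^ 2) (2 * (A₁ * A₁)) := by
  simpa only [pow_two] using h.mul h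

theorem RG.cube (h : RG ρ x x' A₁) : RG ρ (x ^ 3) (x' ^ 3) (2 * (2 * (A₁ * A₁) * A₁)) := by
  simpa only [pow_succ _ 2] using h.sq.mul h

theorem RG.mono {ρ' : ℝ} (h : RG ρ x x' A₁) (hρ0 : 0 ≤ ρ) (hρ : ρ ≤ ρ') (hA : A₁ ≤ A₂) :
    RG ρ' x x' A₂ :=
  ⟨h.l.trans hA, h.r.trans hA, h.d.trans (mul_le_mul hA hρ hρ0 (h.nonneg.trans hA))⟩

theorem RG.of_le (hA : 1 ≤ A₁) (h1 : ‖x‖ ≤ A₁) (h2 : ‖x'‖ ≤ A₁) (h3 : ‖x' - x‖ ≤ ρ) :
    RG ρ x x' A₁ :=
  ⟨h1, h2, h3.trans (le_mul_of_one_le_left ((norm_nonneg _).trans h3) hA)⟩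

theorem RG.inv {x x' : ℂ} {S : ℝ} (h : RG ρ x x' A₁) (hA : 1 ≤ A₁) (hS : 1 ≤ S)
    (h1 : 1 ≤ S * ‖x‖) (h2 : 1 ≤ S * ‖x'‖) : RG ρ x⁻¹ x'⁻¹ (A₁ * S ^ 2) := by
  have p1 : 0 < ‖x‖ := by by_contra h0; nlinarith [norm_nonneg x]
  have p2 : 0 < ‖x'‖ := by by_contra h0; nlinarith [norm_nonneg x']
  have e1 : ‖x⁻¹‖ ≤ S := by rw [norm_inv, inv_le_iff_one_le_mul₀ p1]; exact h1
  have e2 : ‖x'⁻¹‖ ≤ S := by rw [norm_inv, inv_le_iff_one_le_mul₀ p2]; exact h2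
  have e3 : S ≤ A₁ * S ^ 2 := by nlinarith
  refine ⟨e1.trans e3, e2.trans e3, ?_⟩
  have e : x'⁻¹ - x⁻¹ = -((x' - x) * (x⁻¹ * x'⁻¹)) := by
    field_simp [norm_pos_iff.1 p1, norm_pos_iff.1 p2]; ring
  rw [e, norm_neg]
  exact (norm_mul_le_of_le h.d (norm_mul_le_of_le e1 e2)).trans_eq (by ring)

theorem RG.half {x x' : ℂ} {S : ℝ} (h : RG ρ x x' A₁) (hA : 1 ≤ A₁) (hS : 1 ≤ S)
    (h1 : 1 ≤ S * ‖x‖) (r1 : 0 ≤ x.re) (r2 : 0 ≤ x'.re) :
    RG ρ (x ^ (1 / 2 : ℂ)) (x' ^ (1 / 2 : ℂ)) (2 * S * A₁) := by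
  have k : ∀ y : ℂ, ‖y‖ ≤ A₁ → ‖y ^ (1 / 2 : ℂ)‖ ≤ 2 * S * A₁ := fun y hy => by
    rw [O2.norm_half]
    exact Real.sqrt_le_iff.2 ⟨by positivity, by nlinarith [mul_le_mul hS hA zero_le_one (by linarith)]⟩
  refine ⟨k _ h.l, k _ h.r, ?_⟩
  have e : x' - x = (x' ^ (1 / 2 : ℂ) - x ^ (1 / 2 : ℂ)) * (x' ^ (1 / 2 : ℂ) + x ^ (1 / 2 : ℂ)) := by
    linear_combination O2.sq_half x - O2.sq_half x'
  have h3 := Complex.re_le_norm (x' ^ (1 / 2 : ℂ) + x ^ (1 / 2 : ℂ))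
  rw [Complex.add_re] at h3
  have h4 := O2.re_half r1
  have h5 := O2.re_half r2
  have h6 : 1 ≤ S * ‖x ^ (1 / 2 : ℂ)‖ := by
    have : ‖x ^ (1 / 2 : ℂ)‖ ^ 2 = ‖x‖ := by rw [← norm_pow, O2.sq_half]
    refine le_of_sq_le_sq ?_ (by positivity)
    rw [mul_pow, this]; nlinarith [norm_nonneg x]
  have h7 : 1 ≤ 2 * S * ‖x' ^ (1 / 2 : ℂ) + x ^ (1 / 2 : ℂ)‖ := by
    nlinarith [norm_nonneg (x' ^ (1 / 2 : ℂ))]
  have h8 := h.d
  rw [e, norm_mul] at h8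
  nlinarith [norm_nonneg (x' ^ (1 / 2 : ℂ) - x ^ (1 / 2 : ℂ))]

/-- the full operator -/
def Fp (hf wi w P z : B) (J : J6 B) : B :=
  J.2.2.2.1 - hf * z * J.2.1 + wi * (J.2.2.2.2.2 + 2 * J.1) + Nl hf wi w P z J

theorem rg_Fp (hf : B) (A₀ : ℝ) : ∃ A, ∀ (ρ : ℝ) (wi w P z wi' w' P' z' : B) (J J' : J6 B), 0 ≤ ρ →
    RG ρ wi wi' A₀ → RG ρ w w' A₀ → RG ρ P P' A₀ → RG ρ z z' A₀ → RG ρ J.1 J'.1 A₀ →
    RG ρ J.2.1 J'.2.1 A₀ → RG ρ J.2.2.1 J'.2.2.1 A₀ → RG ρ J.2.2.2.1 J'.2.2.2.1 A₀ →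
    RG ρ J.2.2.2.2.1 J'.2.2.2.2.1 A₀ → RG ρ J.2.2.2.2.2 J'.2.2.2.2.2 A₀ →
    RG ρ (Fp hf wi w P z J) (Fp hf wi' w' P' z' J') A := by
  apply Exists.intro
  intro ρ wi w P z wi' w' P' z' J J' hρ h1 h2 h3 h4 h5 h6 h7 h8 h9 h10
  simp only [Fp, Nl]
  repeat' with_reducible first
    | assumption | exact RG.const hρ _ | apply RG.add | apply RG.sub | apply RG.mul
    | apply RG.sq | apply RG.cube

theorem rg_Fv (A₀ : ℝ) : ∃ A, ∀ (ρ : ℝ) (l l' z v vi p z' v' vi' p' : ℂ), 0 ≤ ρ → RG ρ l l' A₀ →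
    RG ρ z z' A₀ → RG ρ v v' A₀ → RG ρ vi vi' A₀ → RG ρ p p' A₀ →
    RG ρ (l * (p ^ 2 * vi * 2⁻¹ + (1 + p ^ 2 * vi * 4⁻¹) * (2 - v + z * p * 2⁻¹)))
      (l' * (p' ^ 2 * vi' * 2⁻¹ + (1 + p' ^ 2 * vi' * 4⁻¹) * (2 - v' + z' * p' * 2⁻¹))) A := by
  apply Exists.intro
  intro ρ l l' z v vi p z' v' vi' p' hρ h1 h2 h3 h4 h5
  repeat' with_reducible first
    | assumption | exact RG.const hρ _ | apply RG.add | apply RG.sub | apply RG.mul | apply RG.sq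

end rel

theorem Fv_eq (z : ℝ) (v p : ℂ) : Sym.Fv z v p =
    p ^ 2 * v⁻¹ * 2⁻¹ + (1 + p ^ 2 * v⁻¹ * 4⁻¹) * (2 - v + z * p * 2⁻¹) := by
  unfold Sym.Fv; ring

/-! ### the affine change of variable -/

/-- the dilation factor -/
def lam (a R R' : ℝ) : ℝ := (R' - a) / (R - a)

/-- the affine map from `[a, R]` onto `[a, R']` -/
def gl (a R R' : ℝ) : C(ℝ, ℝ) := ⟨fun z => a + lam a R R' * (z - a), by fun_prop⟩

/-- the two intervals -/
structure Iv (a R R' : ℝ) : Prop where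
  a0 : 0 < a
  h1 : a + 1 ≤ R
  h2 : R ≤ R'
  h3 : R' ≤ R + 1

namespace Iv

variable {a R R' z : ℝ} (h : Iv a R R')
include h

theorem lam_mul : lam a R R' * (R - a) = R' - a :=
  div_mul_cancel₀ _ (by linarith [h.h1] : 0 < R - a).ne'

theorem one_le : 1 ≤ lam a R R' := by
  rw [lam, le_div_iff₀ (by linarith [h.h1])]; linarith [h.h2]

theorem lam_le : lam a R R' - 1 ≤ R' - R := by nlinarith [h.lam_mul, h.one_le, h.h1]

theorem lam_two : lam a R R' ≤ 2 := by linarith [h.lam_le, h.h3]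

omit h in
theorem gl_a : gl a R R' a = a := by simp [gl]

theorem gl_R : gl a R R' R = R' := by
  change a + lam a R R' * (R - a) = R'
  rw [h.lam_mul]; ring

theorem mono : Monotone (gl a R R') := fun x y hxy => by
  change a + lam a R R' * (x - a) ≤ a + lam a R R' * (y - a)
  nlinarith [h.one_le]

theorem mem (hz : z ∈ Icc a R) : gl a R R' z ∈ Icc a R' :=
  ⟨gl_a.ge.trans (h.mono hz.1), (h.mono hz.2).trans h.gl_R.le⟩

theorem le_gl (hz : z ∈ Icc a R) : z ≤ gl a R R' z := by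
  change z ≤ a + lam a R R' * (z - a)
  nlinarith [h.one_le, hz.1]

theorem gl_sub (hz : z ∈ Icc a R) : gl a R R' z - z ≤ R' - R := by
  change a + lam a R R' * (z - a) - z ≤ _
  nlinarith [h.one_le, hz.2, h.lam_mul]

theorem gl_div (hz : z ∈ Icc a R) : gl a R R' z / R' ≤ z / R := by
  have hR : 0 < R := by linarith [h.a0, h.h1]
  rw [div_le_div_iff₀ (by linarith [h.h2]) hR]
  change (a + lam a R R' * (z - a)) * R ≤ _
  have e : R' = a + lam a R R' * (R - a) := by linarith [h.lam_mul]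
  have := mul_nonneg (mul_nonneg h.a0.le (sub_nonneg.2 h.one_le)) (sub_nonneg.2 hz.2)
  nth_rewrite 2 [e]
  nlinarith

theorem cl_gl (z : ℝ) : Mode.cl a R' (gl a R R' z) = gl a R R' (Mode.cl a R z) := by
  rw [Mode.cl, Mode.cl, h.mono.map_max, h.mono.map_min, gl_a, h.gl_R]

theorem der {E : Type*} [NormedAddCommGroup E] [NormedSpace ℝ E] {f : ℝ → E} {f' : E}
    (hf : HasDerivWithinAt f f' (Icc a R') (gl a R R' z)) :
    HasDerivWithinAt (fun s => f (gl a R R' s)) (lam a R R' • f') (Icc a R) z := by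
  have hg : HasDerivWithinAt (gl a R R') (lam a R R') (Icc a R) z := by
    have := (((hasDerivAt_id z).sub_const a).const_mul (lam a R R')).const_add a
    rw [mul_one] at this
    exact this.hasDerivWithinAt
  exact hf.scomp z hg fun s hs => h.mem hs

theorem rg_lam : RG (R' - R) (1 : ℂ) (lam a R R' : ℝ) 2 := by
  refine RG.of_le one_le_two (by simp) ?_ ?_
  · rw [Complex.norm_real, Real.norm_of_nonneg (by linarith [h.one_le])]; exact h.lam_two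
  · rw [← Complex.ofReal_one, ← Complex.ofReal_sub, Complex.norm_real,
      Real.norm_of_nonneg (by linarith [h.one_le])]
    exact h.lam_le

theorem rg_z {T : ℝ} (hT : R' ≤ T) (hz : z ∈ Icc a R) :
    RG (R' - R) (z : ℂ) (gl a R R' z : ℝ) T := by
  have h1 := h.mem hz
  have := h.a0
  refine RG.of_le (by linarith [h.h1, h.h2]) ?_ ?_ ?_
  · rw [Complex.norm_real, Real.norm_of_nonneg (by linarith [hz.1])]; linarith [hz.2, h.h2]
  · rw [Complex.norm_real, Real.norm_of_nonneg (by linarith [h1.1])]; linarith [h1.2]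
  · rw [← Complex.ofReal_sub, Complex.norm_real, Real.norm_of_nonneg (by linarith [h.le_gl hz])]
    exact h.gl_sub hz

end Iv

/-- Gronwall's inequality from the right end point -/
theorem gron {E : Type*} [NormedAddCommGroup E] [NormedSpace ℝ E] {a b K ε : ℝ} {f f' : ℝ → E}
    (hK : 1 ≤ K) (hε : 0 ≤ ε) (hf : Der a b f f') (h0 : f b = 0)
    (hb : ∀ z ∈ Icc a b, ‖f' z‖ ≤ K * ‖f z‖ + ε) {z : ℝ} (hz : z ∈ Icc a b) :
    ‖f z‖ ≤ Real.exp (K * (b - a)) * ε := by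
  have hm : ∀ t ∈ Icc (-b) (-a), -t ∈ Icc a b := fun t ht => ⟨by linarith [ht.2], by linarith [ht.1]⟩
  have h1 := norm_le_gronwallBound_of_norm_deriv_right_le (f := fun t => f (-t))
    (f' := fun t => (-1 : ℝ) • f' (-t)) (δ := 0) (K := K) (ε := ε) (a := -b) (b := -a)
    (hf.cont.comp continuous_neg.continuousOn hm) (fun t ht => by
      have h2 := (hf _ (hm t (Ico_subset_Icc_self ht))).scomp t
        (hasDerivAt_neg t).hasDerivWithinAt hm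
      exact h2.mono_of_mem_nhdsWithin (Icc_mem_nhdsGE_of_mem ht)) (by simp [h0])
    (fun t ht => by simpa using hb _ (hm t (Ico_subset_Icc_self ht))) (-z)
    ⟨by linarith [hz.2], by linarith [hz.1]⟩
  rw [gronwallBound_of_K_ne_0 (by linarith)] at h1
  simp only [neg_neg, zero_mul, zero_add] at h1
  have h2 : Real.exp (K * (-z - -b)) ≤ Real.exp (K * (b - a)) :=
    Real.exp_le_exp.2 (mul_le_mul_of_nonneg_left (by linarith [hz.1]) (by linarith))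
  have h3 : ε / K ≤ ε := div_le_self hε hK
  have h4 : 0 ≤ ε / K := by positivity
  nlinarith [Real.exp_pos (K * (b - a))]

variable {C Λ Z₀ a R R' T z : ℝ} {y c c' : ℂ} {V P V' P' : BC}

theorem low (d : Dat C Λ Z₀ a R y c V P) (hT : R ≤ T) (hz : z ∈ Icc a R) : 1 ≤ T ^ 2 * ‖V z‖ := by
  have h1 := d.prof.z2n hz
  have h2 : z ^ 2 ≤ T ^ 2 := pow_le_pow_left₀ (d.prof.z0 hz).le (hz.2.trans hT) 2
  nlinarith [d.prof.lam1, norm_nonneg (V z)]

theorem P_le (d : Dat C Λ Z₀ a R y c V P) (hz : z ∈ Icc a R) : ‖P z‖ ≤ 7 * C := by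
  have h1 := d.sol.b1 z ⟨d.za.trans hz.1, hz.2⟩
  have h2 := d.sol.c_le
  have h3 : 1 ≤ R := by linarith [d.prof.z100 hz, hz.2]
  rw [le_div_iff₀ (by positivity)] at h2
  have h4 : ‖c‖ * z ≤ ‖c‖ * R ^ 2 := mul_le_mul_of_nonneg_left (by nlinarith [hz.2]) (norm_nonneg _)
  nlinarith [d.c1]

theorem sym_pull (C T : ℝ) : ∃ L, 1 ≤ L ∧ ∀ (Λ Z₀ a R R' : ℝ) (y c c' : ℂ) (V P V' P' : BC),
    Dat C Λ Z₀ a R y c V P → Dat C Λ Z₀ a R' y c' V' P' → Iv a R R' → R' ≤ T → ∀ z ∈ Icc a R,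
      ‖V' (gl a R R' z) - V z‖ ≤ L * (R' - R) ∧ ‖P' (gl a R R' z) - P z‖ ≤ L * (R' - R) := by
  obtain ⟨A, hA⟩ := rg_Fv (16 * T ^ 4 + 7 * |C|)
  obtain ⟨K, hK⟩ : ∃ K, K = 1 + |A| + 28 * |C| := ⟨_, rfl⟩
  have hK1 : 1 ≤ K := by rw [hK]; linarith [abs_nonneg A, abs_nonneg C]
  refine ⟨Real.exp (K * |T|) * K,
    one_le_mul_of_one_le_of_one_le (Real.one_le_exp (by positivity)) hK1,
    fun Λ Z₀ a R R' y c c' V P V' P' d d' I hT z hz => ?_⟩
  have hs : Icc a R ⊆ Icc Z₀ R := Icc_subset_Icc d.za le_rfl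
  have hs' : Icc a R' ⊆ Icc Z₀ R' := Icc_subset_Icc d.za le_rfl
  have hρ : 0 ≤ R' - R := sub_nonneg.2 I.h2
  have hT1 : 1 ≤ T := by linarith [I.a0, I.h1, I.h2]
  have hC : |C| = C := abs_of_nonneg (by linarith [d.c1])
  have hT4 : T ≤ T ^ 4 := by simpa using pow_le_pow_right₀ hT1 (show 1 ≤ 4 by norm_num)
  have h1 := gron (f := fun s => (V' (gl a R R' s) - V s, P' (gl a R R' s) - P s))
    (f' := fun s => (lam a R R' • P' (gl a R R' s) - P s,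
      lam a R R' • Sym.Fv (gl a R R' s) (V' (gl a R R' s)) (P' (gl a R R' s)) -
        Sym.Fv s (V s) (P s))) (a := a) (b := R) (ε := K * (R' - R)) hK1 (by positivity)
    (fun s hs0 => ((I.der ((d'.sol.d0 _ (hs' (I.mem hs0))).mono hs')).sub
      ((d.sol.d0 s (hs hs0)).mono hs)).prodMk
      ((I.der ((d'.sol.d1 _ (hs' (I.mem hs0))).mono hs')).sub ((d.sol.d1 s (hs hs0)).mono hs)))
    (by simp [I.gl_R, d.sol.tip, d'.sol.tip, d.sol.neu, d'.sol.neu]) (fun s hs0 => ?_) hz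
  · have h2 : Real.exp (K * (R - a)) ≤ Real.exp (K * |T|) := Real.exp_le_exp.2
      (mul_le_mul_of_nonneg_left (by linarith [I.a0, I.h2, le_abs_self T]) (by linarith))
    have h3 := h1.trans (mul_le_mul_of_nonneg_right h2 (by positivity))
    rw [← mul_assoc] at h3
    exact ⟨(norm_fst_le (_, P' (gl a R R' z) - P z)).trans h3,
      (norm_snd_le (V' (gl a R R' z) - V z, _)).trans h3⟩
  · obtain ⟨ρ, e⟩ : ∃ ρ, ρ = ‖(V' (gl a R R' s) - V s, P' (gl a R R' s) - P s)‖ := ⟨_, rfl⟩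
    have hρ0 : 0 ≤ ρ := e ▸ norm_nonneg _
    have hs1 := I.mem hs0
    have rv : RG (ρ + (R' - R)) (V s) (V' (gl a R R' s)) 16 :=
      RG.of_le (by norm_num) (d.prof.n16 hs0) (d'.prof.n16 hs1)
        ((norm_fst_le (_, P' (gl a R R' s) - P s)).trans (by linarith))
    have rp : RG (ρ + (R' - R)) (P s) (P' (gl a R R' s)) (7 * C) :=
      RG.of_le (by linarith [d.c1]) (P_le d hs0) (P_le d' hs1)
        ((norm_snd_le (V' (gl a R R' s) - V s, _)).trans (by linarith))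
    have ri := rv.inv (by norm_num) (one_le_pow₀ hT1) (low d (I.h2.trans hT) hs0) (low d' hT hs1)
    have rl := I.rg_lam.mono hρ (le_add_of_nonneg_left hρ0) le_rfl
    have hρ1 : 0 ≤ ρ + (R' - R) := by linarith
    have h2 := (hA _ _ _ _ _ _ _ _ _ _ _ hρ1 (rl.mono hρ1 le_rfl (by linarith [d.c1]))
      ((I.rg_z hT hs0).mono hρ (le_add_of_nonneg_left hρ0) (by linarith [d.c1]))
      (rv.mono hρ1 le_rfl (by linarith [d.c1])) (ri.mono hρ1 le_rfl (by nlinarith [d.c1]))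
      (rp.mono hρ1 le_rfl (by linarith))).d
    have h3 := (rl.mul rp).d
    rw [← Fv_eq, ← Fv_eq, one_mul] at h2
    rw [one_mul] at h3
    rw [← e, ← mul_add, Prod.norm_def, Complex.real_smul, Complex.real_smul]
    refine max_le (h3.trans ?_) (h2.trans ?_) <;>
      refine mul_le_mul_of_nonneg_right ?_ hρ1
    · linarith [abs_nonneg A]
    · linarith [le_abs_self A, d.c1]

/-! ### the pull-back of a triple -/

/-- change of variable as a ring homomorphism -/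
def pR (g : C(ℝ, ℝ)) : W 0 →+* W 0 where
  toFun := pull ℤ 0 ℂ g
  map_one' := pull_one g
  map_mul' := pull_mul g
  map_zero' := map_zero _
  map_add' := map_add _

theorem cf_pR (g : C(ℝ, ℝ)) (u : W 0) (k : ℤ) (z : ℝ) : cf (pR g u) k z = cf u k (g z) :=
  cf_pull g u k z

theorem norm_pR (g : C(ℝ, ℝ)) (u : W 0) : ‖pR g u‖ ≤ ‖u‖ := norm_pull_apply_le g u

theorem val_pR (g : C(ℝ, ℝ)) (u : W 0) (z θ : ℝ) : Cone.val (pR g u) z θ = Cone.val u (g z) θ :=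
  val_pull g u z θ

theorem pR_cz (g : C(ℝ, ℝ)) (f : BC) : pR g (cz f) = cz (f.compContinuous g) := by
  ext k z
  by_cases hk : k = 0
  · subst hk; simp [cf_pR, cz, const_apply]
  · simp [cf_pR, cz, const_apply, cf_single_ne hk]

theorem pR_half (g : C(ℝ, ℝ)) : pR g half = half := by
  rw [← cz_hb, pR_cz]; congr 1

/-- the pulled back triple -/
def pt (a R R' : ℝ) (p : T3 0) : T3 0 :=
  (pull ℤ 2 ℂ (gl a R R') p.1, (lam a R R' : ℂ) • pull ℤ 1 ℂ (gl a R R') p.2.1,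
    (lam a R R' : ℂ) ^ 2 • pull ℤ 0 ℂ (gl a R R') p.2.2)

theorem jets_pt (a R R' : ℝ) (p : T3 0) : jets 0 (pt a R R' p) =
    (pR (gl a R R') (jets 0 p).1, (lam a R R' : ℂ) • pR (gl a R R') (jets 0 p).2.1,
      pR (gl a R R') (jets 0 p).2.2.1, (lam a R R' : ℂ) ^ 2 • pR (gl a R R') (jets 0 p).2.2.2.1,
      (lam a R R' : ℂ) • pR (gl a R R') (jets 0 p).2.2.2.2.1,
      pR (gl a R R') (jets 0 p).2.2.2.2.2) := by
  simp only [Cone.jets_apply, pt, Prod.mk.injEq]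
  refine ⟨?_, ?_, ?_, ?_, ?_, ?_⟩ <;> ext k z <;> simp [cf_pR, -Complex.coe_smul]

theorem zder_pull {s t : ℕ} {u : W s} {u' : W t} (I : Iv a R R') (h : ZDer (Icc a R') u u') :
    ZDer (Icc a R) (pull ℤ s ℂ (gl a R R') u) ((lam a R R' : ℂ) • pull ℤ t ℂ (gl a R R') u') :=
  fun k z hz => by
    simpa only [cf_pull, cf_smul, BoundedContinuousFunction.smul_apply, smul_eq_mul,
      Complex.real_smul] using I.der (h k _ (I.mem hz))

/-- the full operator in the Wiener algebra -/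
def FW (κ : Co) (J : J6 (W 0)) : W 0 := Fp half (cz κ.1) (cz κ.2.1) (cz κ.2.2.1) (cz κ.2.2.2) J

theorem cf_FW {κ : Co} (hκ : κ.2.2.2 z = z) (p : T3 0) (k : ℤ) : cf (FW κ (jets 0 p)) k z =
    cf p.2.2 k z - (z : ℂ) / 2 * cf p.2.1 k z - ((k : ℂ) ^ 2 - 2) * κ.1 z * cf p.1 k z +
      cf (NlW κ (jets 0 p)) k z := by
  have e : FW κ (jets 0 p) = (jets 0 p).2.2.2.1 - cz (hb * κ.2.2.2) * (jets 0 p).2.1 +
      cz κ.1 * ((jets 0 p).2.2.2.2.2 + ((jets 0 p).1 + (jets 0 p).1)) + NlW κ (jets 0 p) := by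
    rw [cz_mul, cz_hb, ← two_mul]; rfl
  rw [e]
  simp only [cz, cf_add, cf_sub, cf_const_mul, BoundedContinuousFunction.add_apply,
    BoundedContinuousFunction.sub_apply, BoundedContinuousFunction.mul_apply, hb_apply, hκ]
  simp only [Cone.jets_apply, cf_incl, cf_dth, BoundedContinuousFunction.smul_apply, smul_eq_mul]
  linear_combination (k : ℂ) ^ 2 * κ.1 z * cf p.1 k z * Complex.I_sq

theorem pR_FW (g : C(ℝ, ℝ)) (κ : Co) (J : J6 (W 0)) : pR g (FW κ J) =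
    Fp half (cz (κ.1.compContinuous g)) (cz (κ.2.1.compContinuous g))
      (cz (κ.2.2.1.compContinuous g)) (cz (κ.2.2.2.compContinuous g))
      (pR g J.1, pR g J.2.1, pR g J.2.2.1, pR g J.2.2.2.1, pR g J.2.2.2.2.1, pR g J.2.2.2.2.2) := by
  simp only [FW, Fp, map_add, map_sub, map_mul, map_ofNat, map_Nl, pR_half, pR_cz]

theorem rg_smul {ρ A₁ A₂ : ℝ} {μ : ℂ} {u : W 0} (h : RG ρ 1 μ A₁) (hu : ‖u‖ ≤ A₂) :
    RG ρ (μ • u) u (A₁ * A₂) := by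
  have h1 : 1 ≤ A₁ := by simpa using h.l
  refine ⟨?_, hu.trans (le_mul_of_one_le_left ((norm_nonneg _).trans hu) h1), ?_⟩
  · rw [norm_smul]; exact mul_le_mul h.r hu (norm_nonneg _) h.nonneg
  · rw [show u - μ • u = -((μ - 1) • u) by simp [sub_smul], norm_neg, norm_smul, mul_right_comm]
    exact mul_le_mul h.d hu (norm_nonneg _) ((norm_nonneg _).trans h.d)

theorem rg_cz {ρ A₁ : ℝ} {f f' : BC} (I : Iv a R R') (hf : Mode.Clamped a R f)
    (hf' : Mode.Clamped a R' f') (h : ∀ z ∈ Icc a R, RG ρ (f z) (f' (gl a R R' z)) A₁) :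
    RG ρ (cz f) (cz (f'.compContinuous (gl a R R'))) A₁ := by
  have hl : a ≤ R := by linarith [I.h1]
  have hc : Mode.Clamped a R (f'.compContinuous (gl a R R')) := fun z => by
    change f' (gl a R R' _) = f' (gl a R R' z)
    rw [← I.cl_gl, hf']
  have hd : Mode.Clamped a R (f'.compContinuous (gl a R R') - f) := fun z => by
    rw [BoundedContinuousFunction.sub_apply, hc, hf]; rfl
  refine ⟨?_, ?_, ?_⟩
  · rw [cz, norm_const]; exact hf.norm_le hl fun z hz => (h z hz).l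
  · rw [cz, norm_const]; exact hc.norm_le hl fun z hz => (h z hz).r
  · rw [← cz_sub, cz, norm_const]; exact hd.norm_le hl fun z hz => (h z hz).d

theorem wb_pull {m : ℝ → ℝ} {u : W 0} {D : ℝ} (I : Iv a R R') (h : WB a R' m u D) :
    WB a R (fun z => m (gl a R R' z)) (pR (gl a R R') u) D := by
  obtain ⟨c, h0, h2, h3, h1⟩ := h
  exact ⟨c, h0, h2, h3, fun k z hz => by rw [cf_pR]; exact h1 k _ (I.mem hz)⟩

theorem norm_jets {p : T3 0} {D : ℝ} (d : Dat C Λ Z₀ a R y c V P) (hT : R ≤ T) (hp : Tri a R p)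
    (h : NJ a R V (om a R V) (jets 0 p) D) (hD : D ≤ 1) :
    ‖(jets 0 p).1‖ ≤ 128 * T ^ 2 ∧ ‖(jets 0 p).2.1‖ ≤ 128 * T ^ 2 ∧
      ‖(jets 0 p).2.2.1‖ ≤ 128 * T ^ 2 ∧ ‖(jets 0 p).2.2.2.1‖ ≤ 128 * T ^ 2 ∧
      ‖(jets 0 p).2.2.2.2.1‖ ≤ 128 * T ^ 2 ∧ ‖(jets 0 p).2.2.2.2.2‖ ≤ 128 * T ^ 2 := by
  have hT1 : 1 ≤ T ^ 2 := one_le_pow₀ (by linarith [d.prof.z100 d.prof.memR])
  have e0 : ∀ k z, cf p.1 k (Mode.cl a R z) = cf p.1 k z := fun k z => by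
    rw [← cf_res, show res a R 2 p.1 = p.1 from congrArg Prod.fst hp.cl]
  have e1 : ∀ k z, cf p.2.1 k (Mode.cl a R z) = cf p.2.1 k z := fun k z => by
    rw [← cf_res, show res a R 1 p.2.1 = p.2.1 from congrArg (·.2.1) hp.cl]
  have e2 : ∀ k z, cf p.2.2 k (Mode.cl a R z) = cf p.2.2 k z := fun k z => by
    rw [← cf_res, show res a R 0 p.2.2 = p.2.2 from congrArg (·.2.2) hp.cl]
  have key : ∀ (u : W 0) (m : ℝ → ℝ), WB a R m u D → (∀ z ∈ Icc a R, m z ≤ 128 * T ^ 2) →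
      (∀ k z, cf u k (Mode.cl a R z) = cf u k z) → ‖u‖ ≤ 128 * T ^ 2 := fun u m hu hm hc => by
    have := hu.norm_res d.lt.le (by positivity) hm
    rw [show res a R 0 u = u by ext k z; rw [cf_res, hc]] at this
    exact this.trans (mul_le_of_le_one_left (by positivity) hD)
  have k0 : ∀ z ∈ Icc a R, om a R V z ≤ 128 * T ^ 2 := fun z hz => by linarith [d.prof.om_le hz]
  have k1 : ∀ z ∈ Icc a R, om a R V z / (z * ‖V z‖) ≤ 128 * T ^ 2 := fun z hz => by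
    have := mul_pos (d.prof.z0 hz) (d.prof.n0 hz)
    rw [div_le_iff₀ this]; nlinarith [d.prof.om_zn hz]
  have k2 : ∀ z ∈ Icc a R, om a R V z / ‖V z‖ ≤ 128 * T ^ 2 := fun z hz => by
    rw [div_le_iff₀ (d.prof.n0 hz)]; linarith [d.prof.om_le hz, low d hT hz]
  exact ⟨key _ _ h.v k0 (by simp [Cone.jets_apply, e0]),
    key _ _ h.a' k1 (by simp [Cone.jets_apply, e1]), key _ _ h.q k0 (by simp [Cone.jets_apply, e0]),
    key _ _ h.b' k2 e2, key _ _ h.m k2 (by simp [Cone.jets_apply, e1]),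
    key _ _ h.t k0 (by simp [Cone.jets_apply, e0])⟩

theorem nj_pt {p : T3 0} {D : ℝ} (d : Dat C Λ Z₀ a R y c V P) (d' : Dat C Λ Z₀ a R' y c' V' P')
    (I : Iv a R R') (hV : ∀ z ∈ Icc a R, ‖V' (gl a R R' z)‖ ≤ 2 * ‖V z‖ ∧
      ‖V z‖ ≤ 2 * ‖V' (gl a R R' z)‖) (h : NJ a R' V' (om a R' V') (jets 0 p) D) :
    NJ a R V (om a R V) (jets 0 (pt a R R' p)) (16 * D) := by
  have hD := h.nonneg
  have k0 : ∀ z ∈ Icc a R, om a R' V' (gl a R R' z) ≤ 2 * om a R V z := fun z hz => by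
    have h1 := Real.log_le_log (d'.prof.n0 (I.mem hz)) (hV z hz).1
    rw [Real.log_mul two_ne_zero (d.prof.n0 hz).ne'] at h1
    have h2 := Real.log_le_log (d.prof.z0 hz) (I.le_gl hz)
    have h3 := I.gl_div hz
    have h4 := Real.log_nonneg one_le_two
    rw [om, om, ← Real.exp_log two_pos, ← Real.exp_add, Real.exp_log two_pos, ell, ell,
      mul_div_assoc, mul_div_assoc]
    exact Real.exp_le_exp.2 (by linarith)
  have k2 : ∀ z ∈ Icc a R, om a R' V' (gl a R R' z) / ‖V' (gl a R R' z)‖ ≤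
      4 * (om a R V z / ‖V z‖) := fun z hz => by
    rw [← mul_div_assoc, div_le_div_iff₀ (d'.prof.n0 (I.mem hz)) (d.prof.n0 hz)]
    have := mul_le_mul (k0 z hz) (hV z hz).2 (norm_nonneg _) (by have := om_pos a R V z; positivity)
    linarith
  have k1 : ∀ z ∈ Icc a R, om a R' V' (gl a R R' z) / (gl a R R' z * ‖V' (gl a R R' z)‖) ≤
      4 * (om a R V z / (z * ‖V z‖)) := fun z hz => by
    rw [mul_comm (gl a R R' z), mul_comm z, ← div_div, ← div_div, ← mul_div_assoc]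
    have := om_pos a R V z
    exact div_le_div₀ (by positivity) (k2 z hz) (d.prof.z0 hz) (I.le_gl hz)
  have l1 := I.rg_lam.r
  have l2 : ‖(lam a R R' : ℂ) ^ 2‖ ≤ 4 := by
    rw [norm_pow]; nlinarith [norm_nonneg (lam a R R' : ℂ)]
  rw [jets_pt]
  exact ⟨((wb_pull I h.v).mono_mul zero_le_two k0).mono_const (by linarith),
    (((wb_pull I h.a').mono_mul zero_le_four k1).smul _).mono_const (by nlinarith),
    ((wb_pull I h.q).mono_mul zero_le_two k0).mono_const (by linarith),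
    (((wb_pull I h.b').mono_mul zero_le_four k2).smul _).mono_const (by nlinarith),
    (((wb_pull I h.m).mono_mul zero_le_four k2).smul _).mono_const (by nlinarith),
    ((wb_pull I h.t).mono_mul zero_le_two k0).mono_const (by linarith)⟩

theorem om_low (d : Dat C Λ Z₀ a R y c V P) (hT : R ≤ T) (hz : z ∈ Icc a R) :
    1 ≤ T ^ 4 * om a R V z := by
  have hz0 := d.prof.z0 hz
  have hT1 : 1 ≤ T := by linarith [d.prof.z100 hz, hz.2]
  have h1 := Real.log_le_log one_pos (low d hT hz)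
  rw [Real.log_mul (by positivity) (d.prof.n0 hz).ne', Real.log_pow, Real.log_one] at h1
  have h2 := Real.log_le_log hz0 (hz.2.trans hT)
  have h3 := Real.log_nonneg hT1
  have h4 := Real.log_nonneg (show 1 ≤ a by linarith [d.prof.a100])
  have h5 : 0 ≤ 19 / 10 * z / R := by have := d.prof.R0; positivity
  rw [om, ← Real.exp_log (show 0 < T ^ 4 by positivity), ← Real.exp_add, Real.log_pow, ell]
  push_cast at h1 ⊢
  exact Real.one_le_exp (by linarith)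

theorem rg_kap (C T : ℝ) : ∃ L, 1 ≤ L ∧ ∀ (Λ Z₀ a R R' : ℝ) (y c c' : ℂ) (V P V' P' : BC),
    Dat C Λ Z₀ a R y c V P → Dat C Λ Z₀ a R' y c' V' P' → Iv a R R' → R' ≤ T → ∀ z ∈ Icc a R,
      RG (R' - R) (V z) (V' (gl a R R' z)) L ∧
      RG (R' - R) ((kap a R V P).1 z) ((kap a R' V' P').1 (gl a R R' z)) L ∧
      RG (R' - R) ((kap a R V P).2.1 z) ((kap a R' V' P').2.1 (gl a R R' z)) L ∧
      RG (R' - R) ((kap a R V P).2.2.1 z) ((kap a R' V' P').2.2.1 (gl a R R' z)) L ∧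
      RG (R' - R) ((kap a R V P).2.2.2 z) ((kap a R' V' P').2.2.2 (gl a R R' z)) L ∧
      RG (R' - R) (rho a R V z) (rho a R' V' (gl a R R' z)) L ∧
      RG (R' - R) (rho a R V z)⁻¹ (rho a R' V' (gl a R R' z))⁻¹ L := by
  obtain ⟨L, hL, H⟩ := sym_pull C T
  obtain ⟨A, hA⟩ : ∃ A, A = 16 + L + 7 * |C| := ⟨_, rfl⟩
  have hA1 : 1 ≤ A := by linarith [abs_nonneg C]
  refine ⟨1 + 8 * (A ^ 2 * T ^ 4), le_add_of_nonneg_right (by positivity),
    fun Λ Z₀ a R R' y c c' V P V' P' d d' I hT z hz => ?_⟩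
  have hρ : 0 ≤ R' - R := sub_nonneg.2 I.h2
  have hT1 : 1 ≤ T := by linarith [I.a0, I.h1, I.h2]
  have hC : |C| = C := abs_of_nonneg (by linarith [d.c1])
  have hz' := I.mem hz
  obtain ⟨h1, h2⟩ := H Λ Z₀ a R R' y c c' V P V' P' d d' I hT z hz
  have hLA : L * (R' - R) ≤ A * (R' - R) :=
    mul_le_mul_of_nonneg_right (by linarith [abs_nonneg C]) hρ
  have rv : RG (R' - R) (V z) (V' (gl a R R' z)) A :=
    ⟨by linarith [d.prof.n16 hz, d.c1], by linarith [d'.prof.n16 hz', d.c1], h1.trans hLA⟩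
  have rp : RG (R' - R) (P z) (P' (gl a R R' z)) A :=
    ⟨by linarith [P_le d hz], by linarith [P_le d' hz'], h2.trans hLA⟩
  have hT2 : 1 ≤ T ^ 2 := one_le_pow₀ hT1
  have ri := rv.inv hA1 hT2 (low d (I.h2.trans hT) hz) (low d' hT hz')
  have rh := rv.half hA1 hT2 (low d (I.h2.trans hT) hz) (d.prof.re_pos hz).le
    (d'.prof.re_pos hz').le
  rw [← d.rho_eq hz, ← d'.rho_eq hz'] at rh
  have rhi := rh.inv (by nlinarith) hT1
    ((O2.z_rho d hz).trans (mul_le_mul_of_nonneg_right (hz.2.trans (I.h2.trans hT)) (norm_nonneg _)))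
    ((O2.z_rho d' hz').trans (mul_le_mul_of_nonneg_right (hz'.2.trans hT) (norm_nonneg _)))
  have r3 := (rp.mul ri).mul (RG.const hρ (2⁻¹ : ℂ))
  have t1 : T ≤ T ^ 4 := by simpa using pow_le_pow_right₀ hT1 (show 1 ≤ 4 by norm_num)
  have t2 : T ^ 2 ≤ T ^ 4 := pow_le_pow_right₀ hT1 (by norm_num)
  have a1 : A ≤ A ^ 2 := by nlinarith
  have b0 : A ≤ A * T ^ 2 := by nlinarith
  have b1 : A * T ^ 2 ≤ A * T ^ 4 := by nlinarith
  have b2 : A * T ^ 4 ≤ A ^ 2 * T ^ 4 := by nlinarith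
  have b3 : T ^ 4 ≤ A * T ^ 4 := by nlinarith
  rw [d.k1 hz, d'.k1 hz', Dat.k2 hz, Dat.k2 hz', d.k3 hz, d'.k3 hz', Dat.k4 hz, Dat.k4 hz']
  refine ⟨rv.mono hρ le_rfl (by linarith), ri.mono hρ le_rfl (by linarith),
    rv.mono hρ le_rfl (by linarith), ?_, (I.rg_z hT hz).mono hρ le_rfl (by linarith),
    rh.mono hρ le_rfl (by linarith), rhi.mono hρ le_rfl (by linarith)⟩
  have e : ∀ p v : ℂ, p / (2 * v) = p * v⁻¹ * 2⁻¹ := fun p v => by ring
  rw [e, e]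
  refine r3.mono hρ le_rfl ?_
  rw [norm_inv, Complex.norm_two]
  linarith

theorem v_pull (hs : StabStmt) {C : ℝ} (hC : 1 ≤ C) : ∃ ε₀ : ℝ, 0 < ε₀ ∧ ε₀ ≤ 1 ∧ ∀ T : ℝ,
    ∃ L η : ℝ, 0 < η ∧ ∀ (Λ Z₀ a R R' : ℝ) (y c c' : ℂ) (V P V' P' : BC) (h : A 2)
      (v v' : T3 0) (D : ℝ), 1 ≤ ε₀ * Λ → Dat C Λ Z₀ a R y c V P → Dat C Λ Z₀ a R' y c' V' P' →
      Iv a R R' → R' ≤ T → R' - R ≤ η → ‖h‖ ≤ 1 → 16 * D ≤ ε₀ → VSol a R V P h v D →
      VSol a R' V' P' h v' D → ∀ z ∈ Icc a R, ∀ θ,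
        RG (R' - R) (Cone.val (jets 0 v).1 z θ) (Cone.val (jets 0 v').1 (gl a R R' z) θ) L ∧
        RG (R' - R) (Cone.val (jets 0 v).2.1 z θ) (Cone.val (jets 0 v').2.1 (gl a R R' z) θ) L ∧
        RG (R' - R) (Cone.val (jets 0 v).2.2.1 z θ) (Cone.val (jets 0 v').2.2.1 (gl a R R' z) θ)
          L := by
  obtain ⟨ε₀, h0, h1, H⟩ := hs (4 * C) 3002 (9054 + 200 * 16) (by linarith) (by norm_num)
    (by norm_num)
  refine ⟨ε₀, h0, h1, fun T => ?_⟩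
  obtain ⟨L, hL, HL⟩ := rg_kap C T
  obtain ⟨A, HA⟩ := rg_Fp half (L + 8 * (128 * T ^ 2))
  obtain ⟨N, hN⟩ : ∃ N, N = 2 * (9054 + 200 * 16) * (2 * L + 16 * T ^ 4 * |A|) := ⟨_, rfl⟩
  have hN0 : 0 ≤ N := by rw [hN]; positivity
  refine ⟨128 * N + 128 * T ^ 2, 1 / (L * (T ^ 2 + 1)), by positivity,
    fun Λ Z₀ a R R' y c c' V P V' P' h v v' D hΛ d d' I hT hη hh hD s s' => ?_⟩
  replace HL := HL Λ Z₀ a R R' y c c' V P V' P' d d' I hT
  have hρ : 0 ≤ R' - R := sub_nonneg.2 I.h2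
  have hT' : R ≤ T := I.h2.trans hT
  have hD0 := s.bd.nonneg
  have hB : 0 ≤ 128 * T ^ 2 := by positivity
  obtain ⟨n1, n2, n3, n4, n5, n6⟩ := norm_jets d' hT s'.tri s'.bd (by linarith)
  obtain ⟨m1, m2, m3, -⟩ := norm_jets d hT' s.tri s.bd (by linarith)
  have hV : ∀ z ∈ Icc a R, ‖V' (gl a R R' z)‖ ≤ 2 * ‖V z‖ ∧ ‖V z‖ ≤ 2 * ‖V' (gl a R R' z)‖ :=
    fun z hz => by
      have e1 := (HL z hz).1.d
      rw [le_div_iff₀ (by positivity)] at hη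
      have e2 := mul_le_mul_of_nonneg_right e1 (show 0 ≤ T ^ 2 + 1 by positivity)
      have e3 := low d hT' hz
      have e4 := low d' hT (I.mem hz)
      have e5 := abs_le.1 (abs_norm_sub_norm_le (V' (gl a R R' z)) (V z))
      have e6 : 0 < T ^ 2 + 1 := by positivity
      constructor <;> refine le_of_mul_le_mul_right ?_ e6 <;>
        nlinarith [norm_nonneg (V z), norm_nonneg (V' (gl a R R' z)), e5.1, e5.2]
  have cl : ∀ (b : ℝ) (V P : BC), a ≤ b → Mode.Clamped a b (kap a b V P).1 ∧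
      Mode.Clamped a b (kap a b V P).2.1 ∧ Mode.Clamped a b (kap a b V P).2.2.1 ∧
      Mode.Clamped a b (kap a b V P).2.2.2 := fun b V P hb =>
    ⟨Mode.clamped_ext hb _, Mode.clamped_clamp hb _, Mode.clamped_ext hb _, Mode.clamped_ext hb _⟩
  obtain ⟨c1, c2, c3, c4⟩ := cl R V P d.lt.le
  obtain ⟨c1', c2', c3', c4'⟩ := cl R' V' P' d'.lt.le
  have l2 : RG (R' - R) 1 ((lam a R R' : ℂ) ^ 2) 8 := by
    have := I.rg_lam.sq
    rw [one_pow] at this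
    exact this.mono hρ le_rfl (by norm_num)
  have r0 : ∀ u : W 0, ‖u‖ ≤ 128 * T ^ 2 → RG (R' - R) (pR (gl a R R') u) (pR (gl a R R') u)
      (L + 8 * (128 * T ^ 2)) := fun u hu =>
    (RG.const hρ _).mono hρ le_rfl (by linarith [norm_pR (gl a R R') u])
  have r1 : ∀ u : W 0, ‖u‖ ≤ 128 * T ^ 2 → RG (R' - R) ((lam a R R' : ℂ) • pR (gl a R R') u)
      (pR (gl a R R') u) (L + 8 * (128 * T ^ 2)) := fun u hu =>
    (rg_smul I.rg_lam ((norm_pR _ u).trans hu)).mono hρ le_rfl (by linarith)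
  have hG := (HA (R' - R) _ _ _ _ _ _ _ _ (jets 0 (pt a R R' v'))
    (pR (gl a R R') (jets 0 v').1, pR (gl a R R') (jets 0 v').2.1,
      pR (gl a R R') (jets 0 v').2.2.1, pR (gl a R R') (jets 0 v').2.2.2.1,
      pR (gl a R R') (jets 0 v').2.2.2.2.1, pR (gl a R R') (jets 0 v').2.2.2.2.2) hρ
    ((rg_cz I c1 c1' fun z hz => (HL z hz).2.1).mono hρ le_rfl (by linarith))
    ((rg_cz I c2 c2' fun z hz => (HL z hz).2.2.1).mono hρ le_rfl (by linarith))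
    ((rg_cz I c3 c3' fun z hz => (HL z hz).2.2.2.1).mono hρ le_rfl (by linarith))
    ((rg_cz I c4 c4' fun z hz => (HL z hz).2.2.2.2.1).mono hρ le_rfl (by linarith))
    (by rw [jets_pt]; exact r0 _ n1) (by rw [jets_pt]; exact r1 _ n2)
    (by rw [jets_pt]; exact r0 _ n3)
    (by rw [jets_pt]; exact (rg_smul l2 ((norm_pR _ _).trans n4)).mono hρ le_rfl (by linarith))
    (by rw [jets_pt]; exact r1 _ n5) (by rw [jets_pt]; exact r0 _ n6)).d
  rw [← pR_FW, norm_sub_rev] at hG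
  have hG2 := ((WB.of_norm (a := a) (b := R) _).mono_const hG).mono_mul (K := 16 * T ^ 4)
    (m' := fun z => mu V z * om a R V z) (by positivity) fun z hz => by
      have e1 := om_low d hT' hz
      have e2 := mul_le_mul_of_nonneg_left (d.prof.mu_ge hz) (zero_le_one.trans e1)
      nlinarith
  have z1 := zder_pull I s'.tri.d1
  have key := H a R V (kap a R V P) (om a R V) (om a R V) (fun z => mu V z * om a R V z) d.lt d.coOK
    (fun z hz => d.k1 hz) (fun z hz => d.omOK hz) d.om_lb d.prof.est (fun z hz => d.wtOK hΛ hz)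
    (pt a R R' v') v (((rho a R' V' a)⁻¹ - (rho a R V a)⁻¹) • h) _ _
    ((zder_pull I s'.tri.d0).sub s.tri.d0)
    (by
      have := (z1.smul (lam a R R' : ℂ)).sub s.tri.d1
      rwa [smul_smul, ← sq] at this)
    ((nj_pt d d' I hV s'.bd).mono_const hD) (s.bd.mono_const (by linarith))
    (fun k z hz => by
      have e1 := s.eq k z hz
      have e2 := s'.eq k _ (I.mem hz)
      have e3 := cf_FW (κ := kap a R V P) (Dat.k4 hz) (pt a R R' v') k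
      have e4 := cf_FW (κ := kap a R' V' P') (Dat.k4 (I.mem hz)) v' k
      simp only [cf_neg, BoundedContinuousFunction.neg_apply] at e1 e2
      simp only [Prod.fst_sub, Prod.snd_sub, cf_sub, BoundedContinuousFunction.sub_apply, cf_pR]
      change _ = cf (FW _ _) k z - _ - _
      linear_combination -e3 + e4 + e2 - e1)
    ⟨fun k hk => by
      have e1 := s.bcs.1 k hk
      have e2 := s'.bcs.1 k hk
      simp only [pt, Prod.fst_sub, cf_sub, BoundedContinuousFunction.sub_apply, cf_pull, Iv.gl_a,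
        e1, e2, cf_smul, sub_smul],
    fun k => by simp [pt, I.gl_R, s.bcs.2.1 k, s'.bcs.2.1 k, -Complex.coe_smul],
    fun k hk => by simp [pt, I.gl_R, s.bcs.2.2 k hk, s'.bcs.2.2 k hk]⟩ hG2
  replace key := key.mono_const (D' := N * (R' - R)) (by
    have e1 := (HL a d.prof.mema).2.2.2.2.2.2.d
    rw [Iv.gl_a] at e1
    have e2 : ‖((rho a R' V' a)⁻¹ - (rho a R V a)⁻¹) • h‖ / om a R V a ≤ 2 * L * (R' - R) := by
      have e3 := d.prof.om_a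
      rw [div_le_iff₀ (om_pos ..), norm_smul]
      have e4 := mul_le_mul e1 hh (norm_nonneg _) (by positivity)
      nlinarith [mul_nonneg (zero_le_one.trans hL) hρ]
    have e5 : 16 * T ^ 4 * (A * (R' - R)) ≤ 16 * T ^ 4 * (|A| * (R' - R)) := by
      gcongr; exact le_abs_self A
    rw [hN]
    linarith)
  rw [jets_sub, jets_pt] at key
  intro z hz θ
  have hNρ : 0 ≤ N * (R' - R) := by positivity
  have o1 := d.prof.om_le hz
  have o2 : om a R V z / (z * ‖V z‖) ≤ 128 := by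
    have := mul_pos (d.prof.z0 hz) (d.prof.n0 hz)
    rw [div_le_iff₀ this]; linarith [d.prof.om_zn hz]
  have v1 := (key.v.norm_val hz (om_pos ..).le θ).trans (mul_le_mul_of_nonneg_left o1 hNρ)
  have v2 := (key.a'.norm_val hz (div_pos (om_pos ..)
    (mul_pos (d.prof.z0 hz) (d.prof.n0 hz))).le θ).trans (mul_le_mul_of_nonneg_left o2 hNρ)
  have v3 := (key.q.norm_val hz (om_pos ..).le θ).trans (mul_le_mul_of_nonneg_left o1 hNρ)
  have vs : ∀ u u' : W 0, Cone.val (u - u') z θ = Cone.val u z θ - Cone.val u' z θ :=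
    fun u u' => val_sub u u' z θ
  have vm : ∀ (μ : ℂ) (u : W 0), Cone.val (μ • u) z θ = μ * Cone.val u z θ :=
    fun μ u => val_smul μ u z θ
  simp only [Prod.fst_sub, Prod.snd_sub, vs, vm, val_pR] at v1 v2 v3
  have b : ∀ (u : W 0) (x : ℝ), ‖u‖ ≤ 128 * T ^ 2 → ‖Cone.val u x θ‖ ≤ 128 * N + 128 * T ^ 2 :=
    fun u x hu => by linarith [Cone.norm_val_le u x θ]
  have hBρ := mul_nonneg hB hρ
  refine ⟨⟨b _ _ m1, b _ _ n1, by linarith⟩, ⟨b _ _ m2, b _ _ n2, ?_⟩,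
    ⟨b _ _ m3, b _ _ n3, by linarith⟩⟩
  have e1 : ‖(lam a R R' : ℂ) - 1‖ ≤ R' - R := by
    rw [← Complex.ofReal_one, ← Complex.ofReal_sub, Complex.norm_real,
      Real.norm_of_nonneg (by linarith [I.one_le])]
    exact I.lam_le
  have e2 := norm_mul_le_of_le e1 ((Cone.norm_val_le _ (gl a R R' z) θ).trans n2)
  have e3 := norm_sub_le_of_le v2 e2
  rw [show ∀ l x y : ℂ, l * x - y - (l - 1) * x = x - y from fun l x y => by ring] at e3
  linarith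

theorem fn_sub (p q : T3 0) (z : ℝ × ℝ) : fn p z - fn q z = fn (p - q) z :=
  (val_sub p.1 q.1 z.1 z.2).symm

theorem val1_sub (p q : T3 0) (z θ : ℝ) :
    Cone.val (p - q).2.1 z θ = Cone.val p.2.1 z θ - Cone.val q.2.1 z θ := val_sub p.2.1 q.2.1 z θ

theorem vT_sub (p q : T3 0) (z θ : ℝ) : vT (p - q) z θ = vT p z θ - vT q z θ := by
  rw [vT, Prod.fst_sub, map_sub]; exact val_sub _ _ z θ

theorem fn1_sub (p q : T3 0) (z : ℝ × ℝ) : fn1 p z - fn1 q z = fn1 (p - q) z := by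
  simp only [fn1, val1_sub, vT_sub]
  ext <;> simp

theorem norm_vT_le (p : T3 0) (z θ : ℝ) : ‖vT p z θ‖ ≤ ‖p‖ :=
  (Cone.norm_val_le _ z θ).trans ((norm_dth_apply_le _).trans (norm_fst_le p))

theorem mv {s t : ℕ} {u : W s} {u' : W t} {B : ℝ} (I : Iv a R R') (h : ZDer (Icc a R') u u')
    (hB : ‖u'‖ ≤ B) (hz : z ∈ Icc a R) (θ : ℝ) :
    ‖Cone.val u z θ - Cone.val u (gl a R R' z) θ‖ ≤ B * (R' - R) := by
  have h1 := (convex_Icc a R').norm_image_sub_le_of_norm_hasDerivWithin_le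
    (fun x hx => h.hasDerivWithinAt_val (convex_Icc a R') hx θ)
    (fun x _ => (norm_val_le u' x θ).trans hB) (I.mem hz) ⟨hz.1, hz.2.trans I.h2⟩
  rw [norm_sub_rev z, Real.norm_of_nonneg (sub_nonneg.2 (I.le_gl hz))] at h1
  exact h1.trans (mul_le_mul_of_nonneg_left (I.gl_sub hz) ((norm_nonneg _).trans hB))

theorem e_pull (L B : ℝ) : ∃ M, 0 ≤ M ∧ ∀ (a R R' z θ : ℝ) (κ κ' : Co) (ρ ρ' : BC) (v v' : T3 0),
    Iv a R R' → z ∈ Icc a R → Tri a R' (eOf κ' ρ' v') → ‖eOf κ' ρ' v'‖ ≤ B →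
    RG (R' - R) (κ.2.2.1 z) (κ'.2.2.1 (gl a R R' z)) L → RG (R' - R) (ρ z) (ρ' (gl a R R' z)) L →
    RG (R' - R) (Cone.val (jets 0 v).1 z θ) (Cone.val (jets 0 v').1 (gl a R R' z) θ) L →
    RG (R' - R) (Cone.val (jets 0 v).2.1 z θ) (Cone.val (jets 0 v').2.1 (gl a R R' z) θ) L →
    RG (R' - R) (Cone.val (jets 0 v).2.2.1 z θ) (Cone.val (jets 0 v').2.2.1 (gl a R R' z) θ) L →
    ‖fn (eOf κ' ρ' v') (z, θ) - fn (eOf κ ρ v) (z, θ)‖ ≤ M * (R' - R) ∧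
      ‖fn1 (eOf κ' ρ' v') (z, θ) - fn1 (eOf κ ρ v) (z, θ)‖ ≤ M * (R' - R) := by
  refine ⟨2 * |B| + |2 * (L * (‖(1 : ℂ)‖ + L))| + |2 * (L * (2 * (L * (‖(1 : ℂ)‖ + L)) + L))| +
    |2 * (L * L)|, by positivity,
    fun a R R' z θ κ κ' ρ ρ' v v' I hz ht hB h1 h2 h3 h4 h5 => ?_⟩
  have hρ : 0 ≤ R' - R := sub_nonneg.2 I.h2
  have u := (RG.const hρ 1).add h3
  have e0 := (h2.mul u).d
  have e1 := (h2.mul ((h1.mul u).add h4)).d
  have e2 := (h2.mul h5).d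
  rw [← O2.fn_e κ', ← O2.fn_e κ] at e0
  rw [← O2.val_e1, ← O2.val_e1] at e1
  rw [← O2.vT_e κ', ← O2.vT_e κ] at e2
  have s0 := mv I ht.d0 ((norm_fst_le _).trans ((norm_snd_le _).trans hB)) hz θ
  have s1 := mv I ht.d1 ((norm_snd_le _).trans ((norm_snd_le _).trans hB)) hz θ
  have s2 := mv I ht.d0.dth ((norm_dth_apply_le _).trans
    ((norm_fst_le _).trans ((norm_snd_le _).trans hB))) hz θ
  have t0 : ‖fn (eOf κ' ρ' v') (z, θ) - fn (eOf κ ρ v) (z, θ)‖ ≤ _ :=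
    (norm_sub_le_norm_sub_add_norm_sub _ _ _).trans (add_le_add s0 e0)
  have t1 := (norm_sub_le_norm_sub_add_norm_sub _ _ _).trans (add_le_add s1 e1)
  have t2 : ‖vT (eOf κ' ρ' v') z θ - vT (eOf κ ρ v) z θ‖ ≤ _ :=
    (norm_sub_le_norm_sub_add_norm_sub _ _ _).trans (add_le_add s2 e2)
  have k : ∀ x : ℝ, x * (R' - R) ≤ |x| * (R' - R) ∧ 0 ≤ |x| * (R' - R) := fun x =>
    ⟨mul_le_mul_of_nonneg_right (le_abs_self x) hρ, by positivity⟩
  obtain ⟨k0, k0'⟩ := k B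
  obtain ⟨k1, k1'⟩ := k (2 * (L * (‖(1 : ℂ)‖ + L)))
  obtain ⟨k2, k2'⟩ := k (2 * (L * (2 * (L * (‖(1 : ℂ)‖ + L)) + L)))
  obtain ⟨k3, k3'⟩ := k (2 * (L * L))
  refine ⟨by linarith, ?_⟩
  rw [fn1_sub]
  refine (O2.norm_fn1_le _ z θ).trans ?_
  rw [val1_sub, vT_sub]
  linarith

theorem diff_eOf' {U : Set (A 2 × ℂ)} {κ : A 2 × ℂ → Co} {ρ : A 2 × ℂ → BC} {v : A 2 × ℂ → T3 0}
    (h1 : DifferentiableOn ℂ κ U) (h2 : DifferentiableOn ℂ ρ U) (h3 : DifferentiableOn ℂ v U) :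
    DifferentiableOn ℂ (fun x => eOf (κ x) (ρ x) (v x)) U :=
  Differentiable.comp_differentiableOn (f := fun x => (κ x, ρ x, v x)) differentiable_eOf
    (h1.prodMk (h2.prodMk h3))

theorem exists_ball {δ Λ R₂ : ℝ} {x₂ : A 2 × ℂ} (hR : 0 < R₂) (hx : x₂ ∈ Dm δ Λ R₂) :
    ∃ r, 0 < r ∧ ∀ R, |R - R₂| < r → ball x₂ (2 * r) ⊆ Dm δ Λ R := by
  have h1 : ∀ᶠ p : ℝ × A 2 × ℂ in 𝓝 (R₂, x₂), dist p.2.1 0 < δ :=
    ContinuousAt.eventually_lt (by fun_prop) continuousAt_const hx.1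
  have h2 : ∀ᶠ p : ℝ × A 2 × ℂ in 𝓝 (R₂, x₂), dist p.2.2 4 < 4 - 4 * Λ / p.1 ^ 2 :=
    ContinuousAt.eventually_lt (by fun_prop)
      (by fun_prop (disch := exact pow_ne_zero 2 hR.ne')) hx.2
  obtain ⟨r, hr, h⟩ := Metric.eventually_nhds_iff.1 (h1.and h2)
  refine ⟨r / 2, by positivity, fun R hR x hx => h (y := (R, x)) ?_⟩
  rw [Prod.dist_eq, max_lt_iff, Real.dist_eq]
  exact ⟨by linarith, by linarith [mem_ball.1 hx]⟩

end

end X4

open X4 in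
theorem x4_of (hs : StabStmt) : X4Stmt := by
  intro C K hC hK
  obtain ⟨ε₀, h0, h01, HV⟩ := v_pull hs hC
  obtain ⟨K₂, D₀, hK₂, hD₀, H2⟩ := out2_proof C hC
  refine ⟨max (640000 * C ^ 3) (1 / ε₀), min (ε₀ / (16 * K)) (D₀ / K), by positivity,
    fun Λ Z₀ R₀ V P cc Y hΛ hZ hZ2 fam _ _ δ a v hδ ha hv => ⟨max R₀ (a ^ 3), fun R₂ hR₂ x₂ hx₂ => ?_⟩⟩
  have dat : ∀ R, max R₀ (a ^ 3) ≤ R → ∀ y ∈ Sym.D Λ R,
      Dat C Λ Z₀ a R y (cc R y) (V R y) (P R y) := fun R hR y hy =>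
    ⟨fam.sol R ((le_max_left _ _).trans hR) y hy, hC, (le_max_left _ _).trans hΛ, hZ, hZ2, ha,
      (le_max_right _ _).trans hR⟩
  have hK0 : 0 < K := by linarith
  have hd1 : δ * (16 * K) ≤ ε₀ := (le_div_iff₀ (by positivity)).1 (hδ.trans (min_le_left _ _))
  have hd2 : δ * K ≤ D₀ := (le_div_iff₀ hK0).1 (hδ.trans (min_le_right _ _))
  have hΛ1 : 1 ≤ ε₀ * Λ := by
    have := (div_le_iff₀ h0).1 ((le_max_right _ _).trans hΛ)
    linarith
  have hh : ∀ R, ∀ x ∈ Dm δ Λ R, ‖x.1‖ ≤ 1 ∧ 16 * (K * ‖x.1‖) ≤ ε₀ ∧ K * ‖x.1‖ ≤ D₀ :=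
    fun R x hx => by
      have h2 : ‖x.1‖ < δ := mem_ball_zero_iff.1 hx.1
      have h3 := norm_nonneg x.1
      exact ⟨by nlinarith, by nlinarith, by nlinarith⟩
  have hR2 := (dat R₂ hR₂ _ hx₂.2).prof.R0
  obtain ⟨r, hr, hball⟩ := exists_ball hR2 hx₂
  obtain ⟨L₁, η, hη, H1⟩ := HV (R₂ + 1)
  obtain ⟨L₂, hL₂, HK⟩ := rg_kap C (R₂ + 1)
  obtain ⟨M, hM, HM⟩ := e_pull (|L₁| + L₂) (K₂ * (R₂ + 1))
  have hB : 0 ≤ 2 * (K₂ * (R₂ + 1)) / r := by positivity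
  refine ⟨M + 2 * (2 * (K₂ * (R₂ + 1)) / r), min r (min (η / 2) (1 / 2)), by positivity,
    fun R R' x x' hR hRR e1 e2 hx hx' e3 e4 z hz θ => ?_⟩
  simp only [lt_min_iff] at e1 e2 e3 e4
  have hR' := hR.trans hRR
  have f1 := abs_lt.1 e1.2.1
  have f2 := abs_lt.1 e1.2.2
  have f3 := abs_lt.1 e2.2.1
  have f4 := abs_lt.1 e2.2.2
  have hT : R' ≤ R₂ + 1 := by linarith
  have hb' := hball R' e2.1
  have hxb : x ∈ ball x₂ r := mem_ball_iff_norm.2 e3.1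
  have hx2 : x ∈ Dm δ Λ R' := hb' (ball_subset_ball (by linarith) hxb)
  have bd : ∀ q ∈ Dm δ Λ R', ‖eV a V P v R' q‖ ≤ K₂ * (R₂ + 1) := fun q hq =>
    (H2 Λ Z₀ a R' _ _ _ _ _ _ _ (dat R' hR' _ hq.2) (hv.sol R' hR' q hq) (hh R' q hq).2.2).2.2.1.trans
      (mul_le_mul_of_nonneg_left hT (by linarith))
  have hol : DifferentiableOn ℂ (eV a V P v R') (Dm δ Λ R') := by
    have hR0 : R₀ ≤ R' := (le_max_left _ _).trans hR'
    have m : MapsTo Prod.snd (Dm δ Λ R') (Sym.D Λ R') := fun q hq => hq.2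
    have g1 := (differentiableOn_kap isOpen_ball (dat R' hR') (fam.holV R' hR0)
      (fam.holP R' hR0)).comp differentiableOn_snd m
    have g2 := (differentiableOn_rho isOpen_ball (dat R' hR') (fam.holV R' hR0)).comp
      differentiableOn_snd m
    exact diff_eOf' g1 g2 (hv.hol R' hR')
  have l1 := Core.lip_half (hol.mono hb') (fun q hq => bd q (hb' hq))
    (mem_ball_iff_norm.2 e4.1) hxb
  have d := dat R hR _ hx.2
  have d' := dat R' hR' _ hx2.2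
  have I : Iv a R R' := ⟨d.a0, by linarith [d.prof.aR', d.prof.a100], hRR, by linarith⟩
  have hρ : 0 ≤ R' - R := sub_nonneg.2 hRR
  obtain ⟨p1, p2, p3⟩ := H1 Λ Z₀ a R R' _ _ _ _ _ _ _ x.1 _ _ _ hΛ1 d d' I hT (by linarith)
    (hh R x hx).1 (hh R x hx).2.1 (hv.sol R hR x hx) (hv.sol R' hR' x hx2) z hz θ
  obtain ⟨-, -, -, q1, -, q2, -⟩ := HK Λ Z₀ a R R' _ _ _ _ _ _ _ d d' I hT z hz
  have a1 : L₁ ≤ |L₁| + L₂ := by linarith [le_abs_self L₁]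
  have a2 : L₂ ≤ |L₁| + L₂ := by linarith [abs_nonneg L₁]
  obtain ⟨w1, w2⟩ := HM a R R' z θ _ _ _ _ _ _ I hz
    (out1_proof C Λ Z₀ a R' _ _ _ _ _ _ _ d' (hv.sol R' hR' x hx2)).1 (bd x hx2) (q1.mono hρ le_rfl a2)
    (q2.mono hρ le_rfl a2) (p1.mono hρ le_rfl a1) (p2.mono hρ le_rfl a1) (p3.mono hρ le_rfl a1)
  have u1 : ‖fn (eV a V P v R' x') (z, θ) - fn (eV a V P v R' x) (z, θ)‖ ≤
      ‖eV a V P v R' x' - eV a V P v R' x‖ := by
    rw [fn_sub]; exact (Cone.norm_val_le _ z θ).trans (norm_fst_le _)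
  have u2 : ‖fn1 (eV a V P v R' x') (z, θ) - fn1 (eV a V P v R' x) (z, θ)‖ ≤
      2 * ‖eV a V P v R' x' - eV a V P v R' x‖ := by
    rw [fn1_sub, two_mul]
    exact (O2.norm_fn1_le _ z θ).trans (add_le_add ((Cone.norm_val_le _ z θ).trans
      ((norm_fst_le _).trans (norm_snd_le _))) (norm_vT_le _ z θ))
  have n1 := mul_nonneg hB hρ
  have n2 := mul_nonneg hM (norm_nonneg (x' - x))
  have n3 := mul_nonneg hB (norm_nonneg (x' - x))
  constructor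
  · exact ((norm_sub_le_norm_sub_add_norm_sub _ _ _).trans (add_le_add u1 w1)).trans (by linarith)
  · exact ((norm_sub_le_norm_sub_add_norm_sub _ _ _).trans (add_le_add u2 w2)).trans (by linarith)

end Vale.Agent.P218F.End
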