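import Vale.Agent.P218F.EndFin
import Vale.Agent.P218F.EndStep
import Vale.Agent.P218F.EndX3C
import Vale.Agent.P218F.EndX3E
import Vale.Agent.P218F.EndX3W
import Vale.Agent.P218F.EndX4

/-! Cylindrical ends: the block from its last leaf. -/

namespace Vale.Agent.P218F.End

theorem end_of_cmp (hc : CmpStmt) : EndStmt :=
  end_of (x3_of (step_of hc wt3_proof)) (x4_of stab_proof)

theorem end_proof : EndStmt := end_of_cmp cmp_proof

end Vale.Agent.P218F.End
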