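import Vale.Agent.P218F.EndInfSpec

/-! Cylindrical ends, `R = ∞`: a solution which tends to the cylinder belongs to the family. -/

set_option maxSynthPendingDepth 3

namespace Vale.Agent.P218F.EndI

open Set Metric Filter Topology Wien Core
open Cone (W A T3 BC fn vT IsTri)
open End (cyl PtEq epol)
open scoped ContDiff Real

noncomputable section

theorem val_cyl (z θ : ℝ) : Cone.val cyl.1 z θ = ((√2 : ℝ) : ℂ) := by
  rw [Cone.val_eq]
  exact val_algebraMap (A := ℂ) _ z θ

theorem cf_cyl_ne {k : ℤ} (hk : k ≠ 0) : cf cyl.1 k = 0 := by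
  change cf (algebraMap ℂ (W 2) (√2 : ℝ)) k = 0
  rw [Algebra.algebraMap_eq_smul_one, cf_smul]
  change _ • cf (single 2 (0 : ℤ) (1 : BC)) k = 0
  rw [cf_single_ne hk, smul_zero]

theorem isTri_cyl (a : ℝ) : IsTri a cyl := by
  have h0 : ZDer (Ici a) cyl.1 cyl.2.1 := zder_of_val (convex_Ici a) fun θ y _ => by
    have e : (fun z => Wien.val cyl.1 z θ) = fun _ => ((√2 : ℝ) : ℂ) :=
      funext fun z => val_cyl z θ
    rw [e]
    simpa [cyl] using hasDerivWithinAt_const y (Ici a) ((√2 : ℝ) : ℂ)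
  refine ⟨Cone.clamp_of_val (F := fun _ _ => ((√2 : ℝ) : ℂ)) val_cyl, fun k y => ?_,
    fun k y => ?_, h0, fun k y _ => ?_⟩
  · simp [cyl]
  · simp [cyl]
  · simpa [cyl] using hasDerivWithinAt_const y (Ici a) (0 : ℂ)

theorem isTri_add {a : ℝ} {s : ℕ} {p q : T3 s} (hp : IsTri a p) (hq : IsTri a q) :
    IsTri a (p + q) := by
  refine ⟨fun k y => ?_, fun k y => ?_, fun k y => ?_, fun k y hy => ?_, fun k y hy => ?_⟩
  · simp only [Prod.fst_add, cf_add, BoundedContinuousFunction.add_apply]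
    rw [← hp.c0 k y, ← hq.c0 k y]
  · simp only [Prod.fst_add, Prod.snd_add, cf_add, BoundedContinuousFunction.add_apply]
    rw [← hp.c1 k y, ← hq.c1 k y]
  · simp only [Prod.snd_add, cf_add, BoundedContinuousFunction.add_apply]
    rw [← hp.c2 k y, ← hq.c2 k y]
  · simpa only [Prod.fst_add, Prod.snd_add, cf_add, BoundedContinuousFunction.add_apply] using
      (hp.d0 k y hy).fun_add (hq.d0 k y hy)
  · simpa only [Prod.fst_add, Prod.snd_add, cf_add, BoundedContinuousFunction.add_apply] using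
      (hp.d1 k y hy).fun_add (hq.d1 k y hy)

theorem continuous_epol {r p q a m t : ℝ → ℂ} (h0 : Continuous r) (h1 : Continuous p)
    (h2 : Continuous q) (h3 : Continuous a) (h4 : Continuous m) (h5 : Continuous t) :
    Continuous fun z : ℝ => epol (z : ℂ) (r z) (p z) (q z) (a z) (m z) (t z) := by
  unfold epol
  fun_prop

theorem continuous_val_z {s : ℕ} (u : W s) (θ : ℝ) : Continuous fun z : ℝ => Cone.val u z θ :=
  (ev s BC θ u).continuous

/-- the pointwise equation on the open half plane gives the equation up to the boundary -/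
theorem ptEq_of_open {a : ℝ} {p : T3 0}
    (h : ∀ z θ : ℝ, a < z → epol (z : ℂ) (Cone.val p.1 z θ) (Cone.val p.2.1 z θ) (vT p z θ)
      (Cone.val p.2.2 z θ) (Cone.vYT p z θ) (Cone.vTT p z θ) = 0) (b : ℝ) : PtEq a b p := by
  intro z hz θ
  have hc : Continuous fun z : ℝ => epol (z : ℂ) (Cone.val p.1 z θ) (Cone.val p.2.1 z θ)
      (vT p z θ) (Cone.val p.2.2 z θ) (Cone.vYT p z θ) (Cone.vTT p z θ) :=
    continuous_epol (continuous_val_z _ θ) (continuous_val_z _ θ) (continuous_val_z _ θ)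
      (continuous_val_z _ θ) (continuous_val_z _ θ) (continuous_val_z _ θ)
  have hcl : closure (Ioi a) ⊆ _ :=
    closure_minimal (fun y hy => h y θ hy) (isClosed_eq hc (continuous_const (y := (0 : ℂ))))
  rw [closure_Ioi] at hcl
  exact hcl hz.1

theorem base_proof : BaseStmt := by
  intro δ η C r z₀ hδ hη hr hper hdec heq ε hε
  have hD : Cone.Dec z₀ fun p : P2 => r p - √2 :=
    ⟨(hr.sub contDiff_const).contDiffOn, fun y θ => by rw [hper], fun k e he => by
      obtain ⟨Z, hZ⟩ := hdec k e he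
      exact ⟨Z, fun z hz => hZ z.1 z.2 hz⟩⟩
  obtain ⟨a0, h0⟩ := hD.exists_tri 0 (ε := min (min (δ / 2) ε) η) (by positivity)
  refine ⟨max a0 z₀, fun a ha E hE => ?_⟩
  obtain ⟨q, tq, nq, sq, fq⟩ := h0 a ((le_max_left _ _).trans ha)
  have hz₀ : z₀ ≤ a := (le_max_right _ _).trans ha
  have nh : ‖Cone.tr 2 a q.1‖ ≤ min (min (δ / 2) ε) η :=
    ((Cone.tr 2 a).le_of_opNorm_le (Cone.norm_tr_le 2 a) q.1).trans
      (by rw [one_mul]; exact (norm_fst_le q).trans nq)
  have nδ : ‖Cone.tr 2 a q.1‖ < δ := by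
    linarith [min_le_left (min (δ / 2) ε) η, min_le_left (δ / 2) ε]
  have tp : IsTri a (cyl + q) := isTri_add (isTri_cyl a) tq
  have fp : ∀ z : P2, a ≤ z.1 → fn (cyl + q) z = r z := fun z hz => by
    have e := fq z hz
    simp only [fn, Cone.val_eq] at e ⊢
    rw [Prod.fst_add, val_add, e, ← Cone.val_eq, val_cyl]
    push_cast
    ring
  have pe : ∀ b, PtEq a b (cyl + q) := ptEq_of_open fun z θ hz => by
    have e : fn (cyl + q) =ᶠ[𝓝 (z, θ)] fun y => (r y : ℂ) := by
      filter_upwards [(isOpen_lt continuous_const continuous_fst).mem_nhds (show a < (z, θ).1 from hz)]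
        with w hw using fp w (le_of_lt hw)
    have ej : jet2 (fun y => (r y : ℂ)) (z, θ) = jet2 (fn (cyl + q)) (z, θ) := by
      unfold jet2
      rw [e.self_of_nhds, e.fderiv_eq, e.fderiv.fderiv_eq]
    have k := heq (z, θ) (hz₀.trans_lt hz)
    simp only [ej, tp.jet2_eq (z := (z, θ)) hz, Cone.fn1_y, Cone.fn1_t, Cone.fn2_yy, Cone.fn2_yt,
      Cone.fn2_tt] at k
    exact k
  have hu := hE.uniq _ (mem_ball_zero_iff.2 nδ) (cyl + q) tp pe
    (by rw [add_sub_cancel_left]; exact nq.trans (min_le_right _ _)) fun k hk => by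
      have hk0 : k ≠ 0 := by rintro rfl; simp at hk
      rw [Prod.fst_add, cf_add, cf_cyl_ne hk0, zero_add, Cone.cf_tr]
  refine ⟨Cone.tr 2 a q.1, nδ, nh.trans ((min_le_left _ _).trans (min_le_right _ _)), ?_,
    fun θ => ?_, fun z hz => ?_⟩
  · rw [Cone.star_tr, show star q.1 = q.1 from congrArg Prod.fst sq]
  · rw [← Cone.val_eq_tr]
    exact fq (a, θ) le_rfl
  · rw [← hu]
    exact fp z hz

end

end Vale.Agent.P218F.EndI
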