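import Mathlib.Topology.ContinuousMap.Bounded.Normed
import Mathlib.Analysis.SpecialFunctions.Complex.Log
import Mathlib.Analysis.Calculus.Deriv.Basic
import Mathlib.Analysis.Complex.Basic

/-! Block SYM: rotationally symmetric complex solutions of the shrinker equation on `[Z₀, R]` with
the Neumann condition at `z = R`. The unknown is `v = r²`, the parameter is the tip value
`y = v(R)`, and `c = (v(Z₀) - 2) / (Z₀² - 2)` is the parameter which does not depend on `R`. -/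

open Set Filter Topology Metric
open scoped BoundedContinuousFunction

namespace Vale.Agent.P218F.Sym

/-- bounded continuous complex functions on the line -/
abbrev BC : Type := ℝ →ᵇ ℂ

/-- the projection of the line on `[a, b]` -/
def cl (a b z : ℝ) : ℝ := max a (min z b)

/-- the disc of tip values -/
def D (Λ R : ℝ) : Set ℂ := ball 4 (4 - 4 * Λ / R ^ 2)

/-- the disc of parameters `c` -/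
def Om (Λ R : ℝ) : Set ℂ :=
  ball ((2 / R ^ 2 : ℝ) : ℂ) ((4 - (16 * Real.log R + 4 * Λ) / R ^ 2) / R ^ 2)

/-- the equation is `v'' = Fv z v v'` (for `v = r²`, `r'' = (1 + r'²) (1/r - r/2 + z r'/2)`) -/
noncomputable def Fv (z : ℝ) (v p : ℂ) : ℂ :=
  p ^ 2 / (2 * v) + (1 + p ^ 2 / (4 * v)) * (2 - v + z * p / 2)

/-- the decay factor of the boundary layer at `z = R` -/
noncomputable def ex (R z : ℝ) : ℝ := Real.exp (-(R ^ 2 - z ^ 2) / 8)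

/-- the explicit approximate solution with tip value `y` -/
noncomputable def v0 (R : ℝ) (y : ℂ) (z : ℝ) : ℂ :=
  2 + (y - 2) * (((z ^ 2 - 2) / (R ^ 2 - 2) : ℝ) : ℂ)

/-- a solution `v`, `p = v'` on `[Z₀, R]` with tip value `y` and parameter `c`, with its bounds -/
structure Sol (C Λ Z₀ R : ℝ) (y c : ℂ) (v p : ℝ → ℂ) : Prop where
  d0 : ∀ z ∈ Icc Z₀ R, HasDerivWithinAt v (p z) (Icc Z₀ R) z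
  d1 : ∀ z ∈ Icc Z₀ R, HasDerivWithinAt p (Fv z (v z) (p z)) (Icc Z₀ R) z
  tip : v R = y
  neu : p R = 0
  par : v Z₀ = 2 + c * ((Z₀ : ℂ) ^ 2 - 2)
  c_le : ‖c‖ ≤ 7 / R ^ 2
  /-- comparison with the explicit approximate solution -/
  near : ∀ z ∈ Icc Z₀ R, ‖v z - v0 R y z‖ ≤ C / Λ * (v0 R y z).re
  re_inv : ∀ z ∈ Icc Z₀ R, 1 / 16 ≤ (v z)⁻¹.re
  re_ge : ∀ z ∈ Icc Z₀ R, Λ ≤ z ^ 2 * (v z).re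
  re_ge' : ∀ z ∈ Icc Z₀ R, (R ^ 2 - z ^ 2) / R ^ 2 ≤ (v z).re
  norm_ge : ∀ z ∈ Icc Z₀ R, ‖y‖ + (R ^ 2 - z ^ 2) / R ^ 2 ≤ 16 * ‖v z‖
  /-- `(v - 2) / (z² - 2)` is comparable to `c` -/
  cmp : ∀ z ∈ Icc Z₀ R, ‖v z - 2 - c * ((z : ℂ) ^ 2 - 2)‖ ≤ ‖c‖ * (z ^ 2 - 2) / 2
  b1 : ∀ z ∈ Icc Z₀ R, ‖p z‖ ≤ C * ‖c‖ * z
  /-- distance to the slow manifold -/
  bq : ∀ z ∈ Icc Z₀ R, ‖((z : ℂ) ^ 2 - 2) * p z - 2 * z * (v z - 2)‖ ≤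
    C * ‖c‖ * z ^ 3 * (1 / (R ^ 2 * ‖v z‖) + ex R z)
  b2 : ∀ z ∈ Icc Z₀ R, ‖Fv z (v z) (p z)‖ ≤
    C * ‖c‖ * (1 + z ^ 2 * (1 / (R ^ 2 * ‖v z‖) + ex R z))

/-- the tip equation `s' = 2 u`, `u' = 1 - u + u² (2 - u) / s` on `[0, ∞)` with `s(0) = σ`,
`u(0) = 0`, and the asymptotic constant `η` of the trajectory -/
def Traj (σ η : ℂ) : Prop :=
  ∃ sg u : ℝ → ℂ, sg 0 = σ ∧ u 0 = 0 ∧
    (∀ z, 0 ≤ z → sg z ≠ 0 ∧ HasDerivWithinAt sg (2 * u z) (Ici 0) z ∧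
      HasDerivWithinAt u (1 - u z + u z ^ 2 * (2 - u z) / sg z) (Ici 0) z) ∧
    Tendsto (fun z : ℝ => sg z - Complex.log (sg z) - 2 * z) atTop (𝓝 η)

/-- the parameter `c` with `-1/c = R²/2 + 4 log R + 2 s` -/
noncomputable def cs (R : ℝ) (s : ℂ) : ℂ := -1 / ((R ^ 2 / 2 + 4 * Real.log R : ℝ) + 2 * s)

/-- the family of symmetric solutions `V R y` (with derivative `P R y`) and the map
`cc R : y ↦ c` -/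
structure Fam (C Λ Z₀ R₀ : ℝ) (V P : ℝ → ℂ → BC) (cc : ℝ → ℂ → ℂ) : Prop where
  big : Z₀ + 10 ≤ R₀ ∧ 100 * Λ ≤ R₀ ^ 2
  sol : ∀ R, R₀ ≤ R → ∀ y ∈ D Λ R, Sol C Λ Z₀ R y (cc R y) (V R y) (P R y)
  clV : ∀ R y z, V R y z = V R y (cl Z₀ R z)
  clP : ∀ R y z, P R y z = P R y (cl Z₀ R z)
  holV : ∀ R, R₀ ≤ R → DifferentiableOn ℂ (V R) (D Λ R)
  holP : ∀ R, R₀ ≤ R → DifferentiableOn ℂ (P R) (D Λ R)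
  holc : ∀ R, R₀ ≤ R → DifferentiableOn ℂ (cc R) (D Λ R)
  real : ∀ R, R₀ ≤ R → ∀ y ∈ D Λ R, y.im = 0 →
    (cc R y).im = 0 ∧ ∀ z, (V R y z).im = 0 ∧ (P R y z).im = 0

/-- dependence on `R` at fixed `c` -/
def LipR (C Λ Z₀ R₀ : ℝ) (V P : ℝ → ℂ → BC) (cc : ℝ → ℂ → ℂ) : Prop :=
  ∀ R R', R₀ ≤ R → R ≤ R' → R' ≤ R + 1 → ∀ y ∈ D Λ R, ∀ y' ∈ D Λ R', cc R y = cc R' y' →
    ∀ z ∈ Icc Z₀ R, ‖V R' y' z - V R y z‖ ≤ C * ‖cc R y‖ * (R' - R) * R * ex R z ∧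
      ‖P R' y' z - P R y z‖ ≤ C * ‖cc R y‖ * (R' - R) * R ^ 2 * ex R z

/-- the inverse `Y R` of `cc R` on the disc `Om (2 Λ) R` -/
structure Inv (C Λ R₀ : ℝ) (cc Y : ℝ → ℂ → ℂ) : Prop where
  /-- `R² cc R` is the identity up to a map with Lipschitz constant `1/4` -/
  approx : ∀ R, R₀ ≤ R → ∀ y ∈ D Λ R, ∀ y' ∈ D Λ R,
    ‖(R : ℂ) ^ 2 * (cc R y - cc R y') - (y - y')‖ ≤ ‖y - y'‖ / 4
  mem : ∀ R, R₀ ≤ R → ∀ L, 2 * Λ ≤ L → ∀ c ∈ Om L R, Y R c ∈ D (L - C) R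
  room : C ≤ Λ
  right : ∀ R, R₀ ≤ R → ∀ c ∈ Om (2 * Λ) R, cc R (Y R c) = c
  hol : ∀ R, R₀ ≤ R → DifferentiableOn ℂ (Y R) (Om (2 * Λ) R)
  real : ∀ R, R₀ ≤ R → ∀ c ∈ Om (2 * Λ) R, c.im = 0 → (Y R c).im = 0
  zero : ∀ R, R₀ ≤ R → Y R 0 = 2
  close : ∀ R, R₀ ≤ R → ∀ c ∈ Om (2 * Λ) R,
    ‖Y R c - (2 + c * (R : ℂ) ^ 2)‖ ≤ C * Real.log R / R ^ 2
  lip : ∀ R, R₀ ≤ R → ∀ c ∈ Om (2 * Λ) R, ∀ c' ∈ Om (2 * Λ) R,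
    ‖Y R c - Y R c'‖ ≤ 2 * R ^ 2 * ‖c - c'‖
  lipR : ∀ R R', R₀ ≤ R → R ≤ R' → R' ≤ R + 1 → ∀ c ∈ Om (2 * Λ) R',
    ‖Y R' c - Y R c‖ ≤ C * (R' - R) / R
  nest : ∀ R R', R₀ ≤ R → R ≤ R' → ∀ L, 0 ≤ L → L ≤ 8 * Λ → Om L R' ⊆ Om L R
  small : ∀ R, R₀ ≤ R → ball 0 (1 / R ^ 2) ⊆ Om (8 * Λ) R

/-- the tip relation, uniform form: `σ = R² y / 4` -/
def Tip1 (C Λ R₀ κ : ℝ) (cc : ℝ → ℂ → ℂ) : Prop :=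
  ∀ R, R₀ ≤ R → ∀ y ∈ D Λ R, ‖y‖ ≤ 1 →
    ‖-1 / cc R y - ((((R : ℂ) ^ 2 - 6) / (2 - y) + 4 * Real.log R -
      Complex.log ((R : ℂ) ^ 2 * y / 4)) + κ)‖ ≤ C / (R ^ 2 * ‖y‖) + C / R

/-- the tip relation, inner limit -/
def Tip2 (Λ κ : ℝ) (Y : ℝ → ℂ → ℂ) : Prop :=
  ∀ s : ℂ, Λ < s.re → (∀ᶠ R in atTop, cs R s ∈ Om (2 * Λ) R) ∧ ∃ σ : ℂ,
    Tendsto (fun R : ℝ => (R : ℂ) ^ 2 * Y R (cs R s) / 4) atTop (𝓝 σ) ∧ Traj σ (2 * s + (1 - κ))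

/-- **Block SYM** -/
def SymStmt : Prop :=
  ∃ C Λ₀ : ℝ, 1 ≤ C ∧ 1 ≤ Λ₀ ∧ ∀ Λ Z₀ : ℝ, Λ₀ ≤ Λ → 0 < Z₀ → 2 * Λ ≤ Z₀ ^ 2 →
    ∃ (R₀ κ : ℝ) (V P : ℝ → ℂ → BC) (cc Y : ℝ → ℂ → ℂ), Fam C Λ Z₀ R₀ V P cc ∧
      LipR C Λ Z₀ R₀ V P cc ∧ Inv C Λ R₀ cc Y ∧ Tip1 C Λ R₀ κ cc ∧ Tip2 Λ κ Y

end Vale.Agent.P218F.Sym
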