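import Vale.Agent.P218F.EndWt
import Vale.Agent.P218F.SymSpec
import Mathlib.Analysis.Complex.ExponentialBounds

/-! Cylindrical ends: the facts on the symmetric profile, the weights, and the a priori estimates
for the mode equations `v'' - (z/2) v' - (k² - 2) v / w = F`. -/

namespace Vale.Agent.P218F.End

open Set Filter Topology

/-- the facts on a symmetric solution which are used: `w = r²`, `P = r'/r`, `P₁ = P'` -/
structure Prof (C₀ Λ a R : ℝ) (w P P₁ : ℝ → ℂ) : Prop where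
  c1 : 1 ≤ C₀
  lam : 10000 * C₀ ^ 3 ≤ Λ
  a0 : 0 < a
  la : Λ ≤ a ^ 2
  aR : a ^ 3 ≤ R
  dw : Der a R w fun z => 2 * P z * w z
  dP : Der a R P P₁
  ode : ∀ z ∈ Icc a R, P₁ z = z / 2 * P z + (w z)⁻¹ - 1 / 2 - (1 - z * P z) * w z * P z ^ 2 / 2
  neu : P R = 0
  s1 : ∀ z ∈ Icc a R, 1 / 16 ≤ (w z)⁻¹.re
  s2 : ∀ z ∈ Icc a R, R ^ 2 * ‖w z * P z‖ ≤ C₀ * z
  s3 : ∀ z ∈ Icc a R, Λ ≤ z ^ 2 * (w z).re
  s5 : ∀ z ∈ Icc a R, (R ^ 2 - z ^ 2) / R ^ 2 ≤ (w z).re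

/-- `μ = Re (1 / w)` -/
noncomputable def mu (w : ℝ → ℂ) (z : ℝ) : ℝ := (w z)⁻¹.re

/-- `log (|w| / z²)` -/
noncomputable def ell (w : ℝ → ℂ) (z : ℝ) : ℝ := Real.log ‖w z‖ - 2 * Real.log z

/-- first derivative of `ell` -/
noncomputable def e1 (P : ℝ → ℂ) (z : ℝ) : ℝ := 2 * (P z).re - 2 / z

/-- second derivative of `ell` -/
noncomputable def e2 (P₁ : ℝ → ℂ) (z : ℝ) : ℝ := 2 * (P₁ z).re + 2 / z ^ 2

/-- a bound for `|e1|` -/
noncomputable def lm (P : ℝ → ℂ) (z : ℝ) : ℝ := 2 * ‖P z‖ + 2 / z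

/-- the small term of the profile equation -/
noncomputable def EE (w P : ℝ → ℂ) (z : ℝ) : ℂ := (1 - z * P z) * w z * P z ^ 2

/-- the main weight `(|w| a² / z²)^g e^(2 g z / R)`, `g = 19/20` -/
noncomputable def om (a R : ℝ) (w : ℝ → ℂ) (z : ℝ) : ℝ :=
  Real.exp (19 / 20 * (ell w z + 2 * Real.log a) + 19 / 10 * z / R)

/-- the weight of the quadratic terms -/
noncomputable def kw (w : ℝ → ℂ) (z : ℝ) : ℝ := (1 + 1 / (z * ‖w z‖)) / ‖w z‖

theorem om_pos (a R : ℝ) (w : ℝ → ℂ) (z : ℝ) : 0 < om a R w z := Real.exp_pos _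

/-- the profile data of a solution of block SYM -/
theorem prof_of_sol {C Λ Z₀ R a : ℝ} {y c : ℂ} {v p : ℝ → ℂ} (h : Sym.Sol C Λ Z₀ R y c v p)
    (hC : 1 ≤ C) (hΛ : 640000 * C ^ 3 ≤ Λ) (ha : 0 < a) (hZ : Z₀ ≤ a) (hl : Λ ≤ a ^ 2)
    (hR : a ^ 3 ≤ R) :
    Prof (4 * C) Λ a R v (fun z => p z / (2 * v z)) fun z =>
      z / 2 * (p z / (2 * v z)) + (v z)⁻¹ - 1 / 2 -
        (1 - z * (p z / (2 * v z))) * v z * (p z / (2 * v z)) ^ 2 / 2 := by
  have hs : Icc a R ⊆ Icc Z₀ R := Icc_subset_Icc hZ le_rfl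
  have h0 : ∀ z ∈ Icc a R, v z ≠ 0 := fun z hz h1 => by
    have := h.re_inv z (hs hz)
    rw [h1] at this
    norm_num at this
  refine ⟨by linarith, by linarith, ha, hl, hR, fun z hz => ?_, fun z hz => ?_, fun _ _ => rfl,
    by simp [h.neu], fun z hz => h.re_inv z (hs hz), fun z hz => ?_, fun z hz => h.re_ge z (hs hz),
    fun z hz => h.re_ge' z (hs hz)⟩
  · refine ((h.d0 z (hs hz)).mono hs).congr_deriv ?_
    field_simp [h0 z hz]
  · have := ((h.d1 z (hs hz)).mono hs).div (((h.d0 z (hs hz)).mono hs).const_mul 2)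
      (mul_ne_zero two_ne_zero (h0 z hz))
    refine this.congr_deriv ?_
    have := h0 z hz
    unfold Sym.Fv
    field_simp
    ring
  · have e1 : v z * (p z / (2 * v z)) = p z / 2 := by field_simp [h0 z hz]
    have hR0 : 0 < R := lt_of_lt_of_le (by positivity) hR
    have hz0 : 0 < z := ha.trans_le hz.1
    have e2 : R ^ 2 * ‖c‖ ≤ 7 := by
      have := h.c_le
      rwa [le_div_iff₀ (by positivity), mul_comm] at this
    have e3 := h.b1 z (hs hz)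
    rw [e1, norm_div, Complex.norm_two]
    have e4 : R ^ 2 * ‖p z‖ ≤ R ^ 2 * (C * ‖c‖ * z) := by gcongr
    have e5 : C * z * (R ^ 2 * ‖c‖) ≤ C * z * 7 := by gcongr
    have : 0 ≤ C * z := by positivity
    nlinarith

namespace Prof

variable {C₀ Λ a R : ℝ} {w P P₁ : ℝ → ℂ} (h : Prof C₀ Λ a R w P P₁) {z : ℝ}
include h

theorem c3 : C₀ ≤ C₀ ^ 3 ∧ C₀ ^ 2 ≤ C₀ ^ 3 ∧ 1 ≤ C₀ ^ 3 := by
  have h1 := h.c1
  have h2 : 1 ≤ C₀ ^ 2 := one_le_pow₀ h1
  exact ⟨by nlinarith, by nlinarith, one_le_pow₀ h1⟩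

theorem lam1 : 10000 ≤ Λ := by linarith [h.lam, h.c3.2.2]

theorem a100 : 100 ≤ a := by
  by_contra h1
  nlinarith [h.lam1, h.la, h.a0]

theorem aR' : 10000 * a ≤ R := by nlinarith [h.lam1, h.la, h.a0, h.aR]

theorem R0 : 0 < R := by linarith [h.aR', h.a0]

theorem le : a ≤ R := by linarith [h.aR', h.a0]

theorem memR : R ∈ Icc a R := ⟨h.le, le_rfl⟩

theorem mema : a ∈ Icc a R := ⟨le_rfl, h.le⟩

theorem z100 (hz : z ∈ Icc a R) : 100 ≤ z := h.a100.trans hz.1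

theorem z0 (hz : z ∈ Icc a R) : 0 < z := h.a0.trans_le hz.1

theorem lz (hz : z ∈ Icc a R) : Λ ≤ z ^ 2 := h.la.trans (pow_le_pow_left₀ h.a0.le hz.1 2)

theorem re_pos (hz : z ∈ Icc a R) : 0 < (w z).re := by
  by_contra h1
  nlinarith [h.s3 z hz, h.lam1, sq_nonneg z]

theorem ne (hz : z ∈ Icc a R) : w z ≠ 0 := fun h1 => by simpa [h1] using h.re_pos hz

theorem n0 (hz : z ∈ Icc a R) : 0 < ‖w z‖ := norm_pos_iff.2 (h.ne hz)

theorem mu_ge (hz : z ∈ Icc a R) : 1 / 16 ≤ mu w z := h.s1 z hz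

theorem mu0 (hz : z ∈ Icc a R) : 0 < mu w z := by linarith [h.mu_ge hz]

theorem mu_eq (hz : z ∈ Icc a R) : mu w z * ‖w z‖ ^ 2 = (w z).re := by
  rw [mu, Complex.inv_re, Complex.normSq_eq_norm_sq, div_mul_cancel₀ _ (pow_pos (h.n0 hz) 2).ne']

theorem mu_le (hz : z ∈ Icc a R) : mu w z * ‖w z‖ ≤ 1 := by
  have h1 := h.mu_eq hz
  have h2 := Complex.re_le_norm (w z)
  have h3 := h.n0 hz
  by_contra h4
  nlinarith

theorem n16 (hz : z ∈ Icc a R) : ‖w z‖ ≤ 16 := by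
  nlinarith [h.mu_le hz, h.mu_ge hz, h.n0 hz]

/-- `1 / (z |w|)² ≤ μ / Λ` -/
theorem zn2 (hz : z ∈ Icc a R) : Λ ≤ (z * ‖w z‖) ^ 2 * mu w z := by
  have := h.s3 z hz
  rw [← h.mu_eq hz] at this
  linarith

theorem z2n (hz : z ∈ Icc a R) : Λ ≤ z ^ 2 * ‖w z‖ :=
  (h.s3 z hz).trans (by gcongr; exact Complex.re_le_norm _)

theorem P_le (hz : z ∈ Icc a R) : z * ‖w z‖ * ‖P z‖ ≤ C₀ := by
  have h1 := h.s2 z hz
  rw [norm_mul] at h1
  have h2 : 0 < R ^ 2 := pow_pos h.R0 2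
  have h3 : z ^ 2 ≤ R ^ 2 := pow_le_pow_left₀ (h.z0 hz).le hz.2 2
  have h4 := mul_le_mul_of_nonneg_left h1 (h.z0 hz).le
  have h5 : C₀ * z ^ 2 ≤ C₀ * R ^ 2 := mul_le_mul_of_nonneg_left h3 (by linarith [h.c1])
  refine le_of_mul_le_mul_left ?_ h2
  nlinarith

theorem P_sq (hz : z ∈ Icc a R) : Λ * ‖P z‖ ^ 2 ≤ C₀ ^ 2 * mu w z := by
  have h1 : (z * ‖w z‖ * ‖P z‖) ^ 2 ≤ C₀ ^ 2 :=
    pow_le_pow_left₀ (by have := h.z0 hz; positivity) (h.P_le hz) 2
  have h2 := mul_le_mul_of_nonneg_right (h.zn2 hz) (sq_nonneg ‖P z‖)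
  have h3 := mul_le_mul_of_nonneg_right h1 (h.mu0 hz).le
  nlinarith

theorem E_le' (hz : z ∈ Icc a R) : ‖EE w P z‖ ≤ 17 * C₀ * ‖P z‖ ^ 2 := by
  have h1 : ‖(1 - z * P z) * w z‖ ≤ 17 * C₀ := by
    have e : (1 - z * P z) * w z = w z - z * w z * P z := by ring
    rw [e]
    refine (norm_sub_le _ _).trans ?_
    rw [norm_mul, norm_mul, Complex.norm_real, Real.norm_of_nonneg (h.z0 hz).le]
    linarith [h.P_le hz, h.n16 hz, h.c1]
  rw [EE, norm_mul, norm_pow]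
  gcongr

theorem E_le (hz : z ∈ Icc a R) : Λ * ‖EE w P z‖ ≤ 17 * C₀ ^ 3 * mu w z := by
  have h1 := mul_le_mul_of_nonneg_left (h.E_le' hz) (by linarith [h.lam1] : 0 ≤ Λ)
  have h2 := mul_le_mul_of_nonneg_left (h.P_sq hz) (by linarith [h.c1] : 0 ≤ 17 * C₀)
  nlinarith

theorem E_le2 (hz : z ∈ Icc a R) : (z * ‖w z‖) ^ 2 * ‖EE w P z‖ ≤ 17 * C₀ ^ 3 := by
  have h1 : (z * ‖w z‖ * ‖P z‖) ^ 2 ≤ C₀ ^ 2 :=
    pow_le_pow_left₀ (by have := h.z0 hz; positivity) (h.P_le hz) 2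
  have h2 := mul_le_mul_of_nonneg_left (h.E_le' hz) (sq_nonneg (z * ‖w z‖))
  have h3 := mul_le_mul_of_nonneg_left h1 (by linarith [h.c1] : 0 ≤ 17 * C₀)
  nlinarith

theorem small {x K : ℝ} (hz : z ∈ Icc a R) (hK : 0 ≤ K) (hx : Λ * x ≤ K * C₀ ^ 3 * mu w z) :
    x ≤ K / 10000 * mu w z := by
  have h1 := mul_le_mul_of_nonneg_right h.lam (mul_nonneg hK (h.mu0 hz).le)
  have h2 : 0 < Λ := by linarith [h.lam1]
  refine le_of_mul_le_mul_left ?_ h2
  nlinarith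

theorem E_small (hz : z ∈ Icc a R) : ‖EE w P z‖ ≤ 17 / 10000 * mu w z :=
  h.small hz (by norm_num) (h.E_le hz)

theorem P_small (hz : z ∈ Icc a R) : ‖P z‖ ^ 2 ≤ 1 / 10000 * mu w z :=
  h.small hz (by norm_num) ((h.P_sq hz).trans (by have := h.mu0 hz; have := h.c3.2.1; nlinarith))

theorem z_small (hz : z ∈ Icc a R) : 1 / z ^ 2 ≤ 16 / 10000 * mu w z := by
  have h1 := h.z100 hz
  have h2 : 1 / z ^ 2 ≤ 1 / 10000 := one_div_le_one_div_of_le (by norm_num) (by nlinarith)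
  linarith [h.mu_ge hz]

theorem lm0 (hz : z ∈ Icc a R) : 0 ≤ lm P z := by have := h.z0 hz; unfold lm; positivity

theorem lm_sq (hz : z ∈ Icc a R) : lm P z ^ 2 ≤ mu w z / 70 := by
  have h1 := h.P_small hz
  have h2 := h.z_small hz
  have h3 : (2 / z) ^ 2 = 4 * (1 / z ^ 2) := by ring
  have h4 := h.mu0 hz
  unfold lm
  nlinarith [sq_nonneg (2 * ‖P z‖ - 2 / z)]

theorem lm_le (hz : z ∈ Icc a R) : z * ‖w z‖ * lm P z ≤ 34 * C₀ := by
  have h1 : z * ‖w z‖ * lm P z = 2 * (z * ‖w z‖ * ‖P z‖) + 2 * ‖w z‖ := by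
    have := (h.z0 hz).ne'
    unfold lm; field_simp
  linarith [h.P_le hz, h.n16 hz, h.c1]

theorem lm_z (hz : z ∈ Icc a R) : lm P z ≤ z / 250 := by
  have h1 := mul_le_mul_of_nonneg_left (h.lm_le hz) (h.z0 hz).le
  have h2 := mul_le_mul_of_nonneg_right (h.z2n hz) (h.lm0 hz)
  have h3 := mul_le_mul_of_nonneg_right (h.lam.trans' (by linarith [h.c3.1] :
    10000 * C₀ ≤ 10000 * C₀ ^ 3)) (h.lm0 hz)
  have h4 : 0 < C₀ := by linarith [h.c1]
  have h5 : C₀ * (10000 * lm P z) ≤ C₀ * (34 * z) := by nlinarith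
  have := le_of_mul_le_mul_left h5 h4
  linarith [h.z0 hz]

theorem e1_le (hz : z ∈ Icc a R) : |e1 P z| ≤ lm P z := by
  have h1 := Complex.abs_re_le_norm (P z)
  have h2 : 0 < 2 / z := by have := h.z0 hz; positivity
  rw [abs_le] at h1 ⊢
  unfold e1 lm
  constructor <;> linarith [h1.1, h1.2]

theorem reP_le (hz : z ∈ Icc a R) : 2 * |(P z).re| ≤ lm P z := by
  have h1 := Complex.abs_re_le_norm (P z)
  have h2 : 0 < 2 / z := by have := h.z0 hz; positivity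
  unfold lm
  linarith

theorem e1_R : e1 P R = -2 / R := by simp [e1, h.neu, neg_div]

theorem P1_le (hz : z ∈ Icc a R) : ‖w z‖ * ‖P₁ z‖ ≤ 10 * C₀ := by
  have e : w z * P₁ z = z * w z * P z / 2 + 1 - w z / 2 - w z * EE w P z / 2 := by
    rw [h.ode z hz, EE]; field_simp [h.ne hz]
  have h1 : ‖w z * P₁ z‖ ≤ z * ‖w z‖ * ‖P z‖ / 2 + 1 + ‖w z‖ / 2 + ‖w z‖ * ‖EE w P z‖ / 2 := by
    rw [e]
    refine (norm_sub_le _ _).trans (add_le_add ((norm_sub_le _ _).trans (add_le_add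
      ((norm_add_le _ _).trans (add_le_add ?_ ?_)) ?_)) ?_) <;>
    simp [abs_of_pos (h.z0 hz)]
  have h2 := mul_le_mul_of_nonneg_left (h.E_small hz) (h.n0 hz).le
  rw [norm_mul] at h1
  nlinarith [h.P_le hz, h.n16 hz, h.c1, h.mu_le hz]

/-- the master formula -/
theorem master (hz : z ∈ Icc a R) : |e2 P₁ z - z / 2 * e1 P z - 2 * mu w z| ≤ mu w z / 200 := by
  have e : e2 P₁ z - z / 2 * e1 P z - 2 * mu w z = 2 * (1 / z ^ 2) - (EE w P z).re := by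
    have e0 : P₁ z = ((z / 2 : ℝ) : ℂ) * P z + (w z)⁻¹ - ((1 / 2 : ℝ) : ℂ) -
        ((1 / 2 : ℝ) : ℂ) * EE w P z := by
      rw [h.ode z hz, EE]; push_cast; ring
    have := (h.z0 hz).ne'
    rw [e2, e1, mu, e0]
    simp only [Complex.sub_re, Complex.add_re, Complex.re_ofReal_mul, Complex.ofReal_re]
    field_simp
    ring
  have h1 := Complex.abs_re_le_norm (EE w P z)
  have h2 := h.E_small hz
  have h3 := h.z_small hz
  have h4 : 0 ≤ 1 / z ^ 2 := by positivity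
  have h5 := h.mu0 hz
  rw [e]
  rw [abs_le] at h1 ⊢
  constructor <;> linarith [h1.1, h1.2]

theorem d_clog : Der a R (fun z => Complex.log (w z)) fun z => 2 * P z := fun z hz => by
  refine ((h.dw z hz).clog_real (Or.inl (h.re_pos hz))).congr_deriv ?_
  field_simp [h.ne hz]

theorem d_logn : Der a R (fun z => Real.log ‖w z‖) fun z => 2 * (P z).re := fun z hz => by
  have := Complex.reCLM.hasFDerivAt.comp_hasDerivWithinAt z (h.d_clog z hz)
  simpa [Function.comp_def, Complex.log_re] using this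

theorem d_log : Der a R Real.log fun z => 1 / z := fun z hz => by
  simpa using (Real.hasDerivAt_log (h.z0 hz).ne').hasDerivWithinAt

theorem d_inv : Der a R (fun z => 1 / z) fun z => -1 / z ^ 2 := fun z hz => by
  simpa [neg_div] using (hasDerivAt_inv (h.z0 hz).ne').hasDerivWithinAt

theorem d_ell : Der a R (ell w) (e1 P) := fun z hz => by
  refine ((h.d_logn z hz).sub ((h.d_log z hz).const_mul 2)).congr_deriv ?_
  unfold e1; ring

theorem d_e1 : Der a R (e1 P) (e2 P₁) := fun z hz => by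
  have h1 := (Complex.reCLM.hasFDerivAt.comp_hasDerivWithinAt z (h.dP z hz)).const_mul 2
  have h2 := (h1.sub ((h.d_inv z hz).const_mul 2)).congr (f₁ := e1 P)
    (fun s _ => by simp [e1, div_eq_mul_inv]) (by simp [e1, div_eq_mul_inv])
  refine h2.congr_deriv ?_
  simp [e2]; ring

theorem d_ninv : Der a R (fun z => ‖w z‖⁻¹) fun z => -(2 * (P z).re) * ‖w z‖⁻¹ := by
  refine Der.congr (f := fun z => Real.exp (-Real.log ‖w z‖))
    (f' := fun z => Real.exp (-Real.log ‖w z‖) * -(2 * (P z).re))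
    (fun z hz => (h.d_logn z hz).neg.exp) (fun z hz => ?_) fun z hz => ?_
  · rw [Real.exp_neg, Real.exp_log (h.n0 hz)]
  · rw [Real.exp_neg, Real.exp_log (h.n0 hz), mul_comm]

theorem exp_ell (hz : z ∈ Icc a R) : Real.exp (ell w z) = ‖w z‖ / z ^ 2 := by
  rw [ell, Real.exp_sub, Real.exp_log (h.n0 hz), two_mul, Real.exp_add, Real.exp_log (h.z0 hz), sq]

theorem logn_le (hz : z ∈ Icc a R) : Real.log ‖w z‖ ≤ Real.log 16 :=
  Real.log_le_log (h.n0 hz) (h.n16 hz)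

theorem om_aux (hz : z ∈ Icc a R) {x : ℝ} (hx : 19 / 10 * (Real.log a - Real.log z) ≤ x) :
    om a R w z ≤ 128 * Real.exp x := by
  have h1 : 19 / 10 * z / R ≤ 2 := by
    rw [div_le_iff₀ h.R0]; linarith [hz.2, h.R0]
  have h2 := h.logn_le hz
  have h3 : 0 ≤ Real.log 16 := Real.log_nonneg (by norm_num)
  have h4 : Real.exp 2 ≤ 8 := by
    have := Real.exp_one_lt_d9
    have e : Real.exp 2 = Real.exp 1 * Real.exp 1 := by rw [← Real.exp_add]; norm_num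
    nlinarith [Real.exp_pos 1]
  calc om a R w z ≤ Real.exp (Real.log 16 + 2 + x) := Real.exp_le_exp.2 (by unfold ell; linarith)
    _ = 16 * Real.exp 2 * Real.exp x := by
      rw [Real.exp_add, Real.exp_add, Real.exp_log (by norm_num)]
    _ ≤ 128 * Real.exp x := by nlinarith [Real.exp_pos x]

theorem om_le (hz : z ∈ Icc a R) : om a R w z ≤ 128 := by
  simpa using h.om_aux hz (x := 0) (by linarith [Real.log_le_log h.a0 hz.1])

theorem om_le' (hz : z ∈ Icc a R) (hz' : R / 2 ≤ z) : z * om a R w z ≤ 256 := by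
  have h1 : Real.log (a ^ 3) ≤ Real.log (2 * z) :=
    Real.log_le_log (pow_pos h.a0 3) (by linarith [h.aR])
  rw [Real.log_pow, Real.log_mul two_ne_zero (h.z0 hz).ne'] at h1
  have h2 := Real.log_le_log h.a0 hz.1
  have h3 : 0 ≤ Real.log 2 := Real.log_nonneg (by norm_num)
  have h4 := h.om_aux hz (x := Real.log 2 - Real.log z) (by push_cast at h1; linarith)
  rw [Real.exp_sub, Real.exp_log two_pos, Real.exp_log (h.z0 hz)] at h4
  have := h.z0 hz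
  calc z * om a R w z ≤ z * (128 * (2 / z)) := by gcongr
    _ = 256 := by field_simp; norm_num

theorem re_ge (hz : z ∈ Icc a R) (hz' : z ≤ R / 2) : 3 / 4 ≤ (w z).re := by
  refine le_trans ?_ (h.s5 z hz)
  rw [le_div_iff₀ (pow_pos h.R0 2)]
  nlinarith [h.z0 hz, h.R0]

theorem margin (hz : z ∈ Icc a R) : 25 ≤ z * (mu w z * ‖w z‖) := by
  have h1 := mul_le_mul (h.lam1.trans (h.zn2 hz)) (h.mu_ge hz) (by norm_num)
    (by have := h.mu0 hz; positivity)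
  have h2 : 0 ≤ z * (mu w z * ‖w z‖) := by have := h.mu0 hz; have := h.z0 hz; positivity
  by_contra h3
  nlinarith

/-- (M1) -/
theorem M1 (hz : z ∈ Icc a R) : om a R w z ≤ 3000 * (mu w z * ‖w z‖) := by
  rcases le_total z (R / 2) with h1 | h1
  · have h2 := h.re_ge hz h1
    rw [← h.mu_eq hz] at h2
    have h3 := mul_le_mul_of_nonneg_left (h.n16 hz) (mul_pos (h.mu0 hz) (h.n0 hz)).le
    nlinarith [h.om_le hz]
  · refine le_of_mul_le_mul_left ?_ (h.z0 hz)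
    nlinarith [h.om_le' hz h1, h.margin hz]

/-- (M2) -/
theorem M2 (hz : z ∈ Icc a R) : om a R w z ≤ 2 * (z * (mu w z * ‖w z‖ ^ 2)) := by
  rw [h.mu_eq hz]
  rcases le_total z (R / 2) with h1 | h1
  · nlinarith [h.om_le hz, h.re_ge hz h1, h.z100 hz]
  · refine le_of_mul_le_mul_left ?_ (h.z0 hz)
    nlinarith [h.om_le' hz h1, h.s3 z hz, h.lam1]

theorem om_zn (hz : z ∈ Icc a R) : om a R w z ≤ 2 * (z * ‖w z‖) := by
  have h1 := mul_le_mul_of_nonneg_left (h.mu_le hz) (mul_pos (h.z0 hz) (h.n0 hz)).le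
  nlinarith [h.M2 hz]

theorem kw0 (hz : z ∈ Icc a R) : 0 < kw w z := by
  have := h.z0 hz; have := h.n0 hz; unfold kw; positivity

/-- (M1) and (M2) together -/
theorem om_kw (hz : z ∈ Icc a R) : kw w z * om a R w z ≤ 3002 * mu w z := by
  have h1 := h.z0 hz
  have h2 := h.n0 hz
  have e : kw w z * om a R w z = om a R w z / ‖w z‖ + om a R w z / (z * ‖w z‖ ^ 2) := by
    unfold kw; field_simp
  have h3 : om a R w z / ‖w z‖ ≤ 3000 * mu w z := by
    rw [div_le_iff₀ h2]; linarith [h.M1 hz]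
  have h4 : om a R w z / (z * ‖w z‖ ^ 2) ≤ 2 * mu w z := by
    rw [div_le_iff₀ (by positivity)]; linarith [h.M2 hz]
  linarith

end Prof

end Vale.Agent.P218F.End
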