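import Vale.Agent.P218F.EndSpec
import Vale.Agent.P218F.EndMode
import Vale.Agent.P218F.EndWt2

/-!
# Cylindrical ends: internal definitions

`r = ρ (1 + v)`, `ρ² = w` the symmetric solution, `P = ρ' / ρ = w' / (2 w)`, `wi = 1 / w`.
Jets `J = (v, a, q, b, m, t) = (v, v_z, v_θ, v_zz, v_zθ, v_θθ)` (`Cone.jets 0`).  The equation is
`b - (z/2) a + (t + 2 v) / w + Nl = 0`.
-/

set_option maxSynthPendingDepth 3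

namespace Vale.Agent.P218F.End

open Set Metric Wien
open Cone (W A T3 BC J6 jets)

noncomputable section

/-- weighted Wiener bound on `[a, b]`: `∑ₖ ⟨k⟩^s sup |u_k| / f ≤ C` -/
def WB (a b : ℝ) (f : ℝ → ℝ) {s : ℕ} (u : W s) (C : ℝ) : Prop :=
  ∃ c : ℤ → ℝ, (∀ k, 0 ≤ c k) ∧ Summable (fun k => wt s k * c k) ∧ ∑' k, wt s k * c k ≤ C ∧
    ∀ k, ∀ z ∈ Icc a b, ‖cf u k z‖ ≤ c k * f z

/-- normalised jets for the weight `sg` -/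
structure NJ (a b : ℝ) (w : ℝ → ℂ) (sg : ℝ → ℝ) (J : J6 (W 0)) (D : ℝ) : Prop where
  v : WB a b sg J.1 D
  a' : WB a b (fun z => sg z / (z * ‖w z‖)) J.2.1 D
  q : WB a b sg J.2.2.1 D
  b' : WB a b (fun z => sg z / ‖w z‖) J.2.2.2.1 D
  m : WB a b (fun z => sg z / ‖w z‖) J.2.2.2.2.1 D
  t : WB a b sg J.2.2.2.2.2 D

section ring
variable {B : Type*} [CommRing B]

/-- everything except the model operator; `hf = 1 / 2` -/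
def Nl (hf wi w P z : B) (J : J6 B) : B :=
  let v := J.1; let a := J.2.1; let q := J.2.2.1; let b := J.2.2.2.1; let m := J.2.2.2.2.1
  let t := J.2.2.2.2.2; let u := 1 + v; let s := P * u + a; let E := (1 - z * P) * w * P ^ 2
  wi * (v ^ 2 * (4 + 2 * v + u ^ 2) + q ^ 2 * (u ^ 2 - 2) + v * t) +
    (v * (u ^ 2 + u + 1) + u * q ^ 2) * (b - hf * z * a) - 2 * u * s * q * m +
    u * (u ^ 2 + q ^ 2) * ((P ^ 2 - hf * E) * u + 2 * P * a) - 2 * u * P * s * q ^ 2 +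
    u * s ^ 2 * (t - u) + hf * (u ^ 3 * w * (u - z * s) * s ^ 2)

/-- the linear part of `Nl` -/
def Lin (hf w P z : B) (J : J6 B) : B :=
  P ^ 2 * J.2.2.2.2.2 + (1 - z * P) * w * P ^ 2 * J.1 + (w * P - 3 * hf * z * w * P ^ 2) * J.2.1

/-- the part of `Nl` which vanishes to second order -/
def Q (hf wi w P z : B) (J : J6 B) : B := Nl hf wi w P z J - Lin hf w P z J

end ring

/-- the equation for `r = ρ (1 + v)` -/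
theorem epol_eq {z ρ P v a q b m t : ℂ} (hρ : ρ ≠ 0) :
    epol z (ρ * (1 + v)) (ρ * (P * (1 + v) + a)) (ρ * q)
      (ρ * ((z / 2 * P + (ρ ^ 2)⁻¹ - 1 / 2 - (1 - z * P) * ρ ^ 2 * P ^ 2 / 2 + P ^ 2) * (1 + v) +
        2 * P * a + b)) (ρ * (P * q + m)) (ρ * t) =
      ρ ^ 4 * (b - z / 2 * a + (t + 2 * v) * (ρ ^ 2)⁻¹ +
        Nl (1 / 2) (ρ ^ 2)⁻¹ (ρ ^ 2) P z (v, a, q, b, m, t)) := by
  simp only [epol, Nl]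
  field_simp
  ring

/-- coefficients `(1 / w, w, P, z)` -/
abbrev Co : Type := BC × BC × BC × BC

/-- functions of `z` as elements of `W 0` -/
def cz (f : BC) : W 0 := const ℤ 0 BC f

/-- one half -/
def half : W 0 := algebraMap ℂ (W 0) (1 / 2)

/-- `Nl`, `Lin`, `Q` in the Wiener algebra -/
def NlW (κ : Co) (J : J6 (W 0)) : W 0 := Nl half (cz κ.1) (cz κ.2.1) (cz κ.2.2.1) (cz κ.2.2.2) J
def LinW (κ : Co) (J : J6 (W 0)) : W 0 := Lin half (cz κ.2.1) (cz κ.2.2.1) (cz κ.2.2.2) J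
def QW (κ : Co) (J : J6 (W 0)) : W 0 := Q half (cz κ.1) (cz κ.2.1) (cz κ.2.2.1) (cz κ.2.2.2) J

/-- the sizes of the coefficients on `[a, b]` -/
structure CoOK (C₀ a b : ℝ) (w : ℝ → ℂ) (κ : Co) : Prop where
  one : 1 ≤ a
  ne : ∀ z ∈ Icc a b, w z ≠ 0
  le : ∀ z ∈ Icc a b, ‖w z‖ ≤ 16
  zw : ∀ z ∈ Icc a b, 1 ≤ z ^ 2 * ‖w z‖
  k1 : ∀ z ∈ Icc a b, ‖κ.1 z‖ ≤ C₀ / ‖w z‖
  k2 : ∀ z ∈ Icc a b, ‖κ.2.1 z‖ ≤ C₀ * ‖w z‖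
  k3 : ∀ z ∈ Icc a b, ‖κ.2.2.1 z‖ ≤ C₀ / (z * ‖w z‖)
  k4 : ∀ z ∈ Icc a b, ‖κ.2.2.2 z‖ ≤ C₀ * z

/-- NL (1): size and Lipschitz bound of the quadratic part, size of the linear part -/
def QStmt : Prop := ∀ C₀ M : ℝ, 1 ≤ C₀ → 1 ≤ M → ∃ C : ℝ, 1 ≤ C ∧
  ∀ (a b : ℝ) (w : ℝ → ℂ) (κ : Co) (om sg : ℝ → ℝ), CoOK C₀ a b w κ →
    (∀ z ∈ Icc a b, 0 ≤ om z ∧ om z ≤ M ∧ om z ≤ M * (z * ‖w z‖)) → (∀ z ∈ Icc a b, 0 ≤ sg z) →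
    (∀ J D, NJ a b w sg J D → WB a b (fun z => sg z / (z * ‖w z‖) ^ 2) (LinW κ J) (C * D)) ∧
    ∀ J J' t D, 0 ≤ t → t ≤ 1 → NJ a b w om J t → NJ a b w om J' t → NJ a b w sg (J - J') D →
      WB a b (fun z => kw w z * om z * sg z) (QW κ J - QW κ J') (C * t * D)

/-- NL (2): change of the coefficients -/
def QdStmt : Prop := ∀ C₀ M : ℝ, 1 ≤ C₀ → 1 ≤ M → ∃ C : ℝ, 1 ≤ C ∧
  ∀ (a b : ℝ) (w : ℝ → ℂ) (κ κ' : Co) (om s : ℝ → ℝ), CoOK C₀ a b w κ → CoOK C₀ a b w κ' →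
    (∀ z ∈ Icc a b, 0 ≤ om z ∧ om z ≤ M ∧ om z ≤ M * (z * ‖w z‖)) →
    (∀ z ∈ Icc a b, 0 ≤ s z ∧ ‖κ'.1 z - κ.1 z‖ ≤ s z / (z * ‖w z‖ ^ 2) ∧
      ‖κ'.2.1 z - κ.2.1 z‖ ≤ s z / z ∧ ‖κ'.2.2.1 z - κ.2.2.1 z‖ ≤ s z / ‖w z‖ ∧
      ‖κ'.2.2.2 z - κ.2.2.2 z‖ ≤ s z) →
    ∀ J t, 0 ≤ t → t ≤ 1 → NJ a b w om J t →
      WB a b (fun z => s z * om z ^ 2 / ‖w z‖ ^ 2) (QW κ' J - QW κ J) (C * t ^ 2)

/-- the model equation `v_zz - (z/2) v_z + (v_θθ + 2 v) / w = F` mode by mode -/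
def LinEq (a b : ℝ) (wi : BC) (p : T3 0) (F : W 0) : Prop := ∀ k : ℤ, ∀ z ∈ Icc a b,
  cf p.2.2 k z - (z : ℂ) / 2 * cf p.2.1 k z - ((k : ℂ) ^ 2 - 2) * wi z * cf p.1 k z = cf F k z

/-- boundary conditions: high modes at `a`, Neumann at `b`, low modes vanish at `b` -/
def BCs (a b : ℝ) (h : A 2) (p : T3 0) : Prop :=
  (∀ k : ℤ, 2 ≤ |k| → cf p.1 k a = cf h k) ∧ (∀ k : ℤ, cf p.2.1 k b = 0) ∧
    ∀ k : ℤ, |k| ≤ 1 → cf p.1 k b = 0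

/-- the scalar a priori estimate (H), (L), (D) for the solution weight `sg` and the source weight
`ys`: what MODE-EST proves -/
def ModeEst (a b : ℝ) (w : ℝ → ℂ) (sg ys : ℝ → ℝ) (C : ℝ) : Prop :=
  ∀ (k : ℤ) (F u u₁ u₂ : ℝ → ℂ) (t : ℝ), 0 ≤ t →
    MSol a b (fun z => ((k : ℂ) ^ 2 - 2) * (w z)⁻¹) F u u₁ u₂ →
    (∀ z ∈ Icc a b, ‖F z‖ ≤ t * ys z) → u₁ b = 0 →
    (2 ≤ |k| → (1 + |(k : ℝ)|) ^ 2 * ‖u a‖ ≤ t * sg a) → (|k| ≤ 1 → u b = 0) →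
    ∀ z ∈ Icc a b, (1 + |(k : ℝ)|) ^ 2 * ‖u z‖ ≤ C * t * sg z ∧
      ‖u₁ z‖ ≤ C * t * (sg z / (z * ‖w z‖)) ∧
      (1 + |(k : ℝ)|) * ‖u₁ z‖ ≤ C * t * (sg z / ‖w z‖) ∧ ‖u₂ z‖ ≤ C * t * (sg z / ‖w z‖)

/-- LIN (a priori): from the scalar estimate to the Wiener estimate -/
def LinEstStmt : Prop := ∀ (a b : ℝ) (w : ℝ → ℂ) (wi : BC) (sg ys : ℝ → ℝ) (C : ℝ), a < b →
  0 ≤ C → (∀ z ∈ Icc a b, wi z = (w z)⁻¹) → 0 < sg a → ModeEst a b w sg ys C →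
  ∀ (h : A 2) (p : T3 0) (F : W 0) (t : ℝ), ZDer (Icc a b) p.1 p.2.1 →
    ZDer (Icc a b) p.2.1 p.2.2 → LinEq a b wi p F → BCs a b h p → WB a b ys F t →
      NJ a b w sg (jets 0 p) (C * (‖h‖ / sg a + t))

/-- LIN (existence): the solution operator, holomorphic in the potential -/
def LinStmt : Prop := ∀ a b : ℝ, 1 ≤ a → a < b → ∃ G : BC → A 2 × W 0 →L[ℂ] T3 0,
  (∀ (w : ℝ → ℂ) (wi : BC) (sg ys : ℝ → ℝ) (C : ℝ), (∀ z ∈ Icc a b, w z ≠ 0 ∧ wi z = (w z)⁻¹) →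
    ContinuousOn sg (Icc a b) → ContinuousOn ys (Icc a b) → (∀ z ∈ Icc a b, 0 < sg z ∧ 0 < ys z) →
    ModeEst a b w sg ys C →
    (∀ h F, Tri a b (G wi (h, F)) ∧ LinEq a b wi (G wi (h, F)) F ∧ BCs a b h (G wi (h, F))) ∧
    (∀ h F p, Tri a b p → LinEq a b wi p F → BCs a b h p → p = G wi (h, F)) ∧
    (star wi = wi → ∀ h F, star (G wi (h, F)) = G wi (star h, star F))) ∧
  ∀ (U : Set ℂ) (w : ℂ → ℝ → ℂ) (wi : ℂ → BC) (sg ys : ℂ → ℝ → ℝ) (C : ℝ), IsOpen U →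
    DifferentiableOn ℂ wi U → (∀ y ∈ U, ∀ z ∈ Icc a b, w y z ≠ 0 ∧ wi y z = (w y z)⁻¹) →
    ContinuousOn (fun x : ℂ × ℝ => sg x.1 x.2) (U ×ˢ Icc a b) →
    ContinuousOn (fun x : ℂ × ℝ => ys x.1 x.2) (U ×ˢ Icc a b) →
    (∀ y ∈ U, ∀ z ∈ Icc a b, 0 < sg y z ∧ 0 < ys y z) →
    (∀ y ∈ U, ModeEst a b (w y) (sg y) (ys y) C) → DifferentiableOn ℂ (fun y => G (wi y)) U

end

end Vale.Agent.P218F.End
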