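import Vale.Agent.P218F.EndFix
import Vale.Agent.P218F.EndOut2

/-! Cylindrical ends: assembly. -/

set_option maxSynthPendingDepth 3

namespace Vale.Agent.P218F.End

open Set Metric Wien Filter Topology
open Cone (W A T3 BC J6 jets)

theorem om_mono {Λ Λ' R : ℝ} (h : Λ ≤ Λ') : Sym.Om Λ' R ⊆ Sym.Om Λ R :=
  ball_subset_ball (by gcongr)

theorem differentiableOn_eV {C Λ Z₀ a R δ : ℝ} {c : ℂ → ℂ} {V P : ℝ → ℂ → BC}
    {v : ℝ → A 2 × ℂ → T3 0} (h : ∀ y ∈ Sym.D Λ R, Dat C Λ Z₀ a R y (c y) (V R y) (P R y))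
    (hV : DifferentiableOn ℂ (V R) (Sym.D Λ R)) (hP : DifferentiableOn ℂ (P R) (Sym.D Λ R))
    (hv : DifferentiableOn ℂ (v R) (Dm δ Λ R)) :
    DifferentiableOn ℂ (eV a V P v R) (Dm δ Λ R) := by
  have hm : MapsTo Prod.snd (Dm δ Λ R) (Sym.D Λ R) := fun x hx => hx.2
  have h1 := (differentiableOn_kap isOpen_ball h hV hP).comp differentiableOn_snd hm
  have h2 := (differentiableOn_rho isOpen_ball h hV).comp differentiableOn_snd hm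
  have h3 := differentiable_eOf.comp_differentiableOn (h1.prodMk (h2.prodMk hv))
  exact h3.congr fun _ _ => rfl

theorem end_of (h3 : X3Stmt) (h4 : X4Stmt) : EndStmt := by
  intro C hC
  obtain ⟨Λa, K, δ₀, hK, hδ₀, hv⟩ := v_proof C hC
  obtain ⟨K₂, D₀, hK₂, hD₀, ho⟩ := out2_proof C hC
  obtain ⟨Λb, δb, hδb, h3⟩ := h3 C K hC hK
  obtain ⟨Λc, δc, hδc, h4⟩ := h4 C K hC hK
  refine ⟨max (max Λa (640000 * C ^ 3)) (max Λb Λc), ?_⟩
  intro Λ Z₀ R₀ V P cc Y hΛ hZ hl hF hL hI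
  simp only [max_le_iff] at hΛ
  obtain ⟨⟨hΛa, hΛ0⟩, hΛb, hΛc⟩ := hΛ
  obtain ⟨δ, hδ, d0, d1, d2, d3⟩ : ∃ δ : ℝ, 0 < δ ∧ δ ≤ δ₀ ∧ δ ≤ δb ∧ δ ≤ δc ∧ K * δ ≤ D₀ :=
    ⟨min (min δ₀ δb) (min δc (D₀ / K)), by positivity, (min_le_left _ _).trans (min_le_left _ _),
      (min_le_left _ _).trans (min_le_right _ _), (min_le_right _ _).trans (min_le_left _ _), by
        rw [mul_comm, ← le_div_iff₀ (by linarith)]
        exact (min_le_right _ _).trans (min_le_right _ _)⟩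
  refine ⟨δ, K₂ * K, hδ, fun a ha => ?_⟩
  obtain ⟨v, hv0⟩ := hv Λ Z₀ R₀ V P cc hΛa hZ hl hF a ha
  have hs : ∀ R, Dm δ Λ R ⊆ Dm δ₀ Λ R := fun R => prod_mono (ball_subset_ball d0) le_rfl
  have hv : IsV Λ δ K a (max R₀ (a ^ 3)) V P v :=
    ⟨fun R hR => (hv0.hol R hR).mono (hs R), fun R hR x hx => hv0.sol R hR x (hs R hx),
      fun R hR x hx => hv0.real R hR x (hs R hx)⟩
  obtain ⟨Rb, Cb, h3⟩ := h3 Λ Z₀ R₀ V P cc Y hΛb hZ hl hF hL hI δ a v d1 ha hv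
  obtain ⟨Rc, h4⟩ := h4 Λ Z₀ R₀ V P cc Y hΛc hZ hl hF hL hI δ a v d2 ha hv
  obtain ⟨R₁, r0, r1, r2, r3⟩ : ∃ R₁ : ℝ, max R₀ (a ^ 3) ≤ R₁ ∧ 2 * a + 20 ≤ R₁ ∧ Rb ≤ R₁ ∧
      Rc ≤ R₁ := ⟨max (max (max R₀ (a ^ 3)) (2 * a + 20)) (max Rb Rc), by simp, by simp, by simp,
        by simp⟩
  have ha0 : 0 < a := hZ.trans_le ha
  obtain ⟨C₂, c0, c1, c2⟩ : ∃ C₂ : ℝ, K₂ * D₀ * a ^ (19 / 10 : ℝ) ≤ C₂ ∧ K₂ ≤ C₂ ∧ Cb ≤ C₂ :=
    ⟨max (K₂ * D₀ * a ^ (19 / 10 : ℝ)) (max K₂ Cb), by simp, by simp, by simp⟩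
  have hD := fun R (hR : R₁ ≤ R) y (hy : y ∈ Sym.D Λ R) =>
    fam_dat hC hΛ0 hZ hl hF ha (r0.trans hR) hy
  have hR0 : ∀ R, R₁ ≤ R → R₀ ≤ R := fun R hR => (le_max_left _ _).trans (r0.trans hR)
  have hn : ∀ R, ∀ x ∈ Dm δ Λ R, K * ‖x.1‖ ≤ D₀ := fun R x hx =>
    (mul_le_mul_of_nonneg_left (mem_ball_zero_iff.1 hx.1).le (by linarith)).trans d3
  have o1 := fun R (hR : R₁ ≤ R) x (hx : x ∈ Dm δ Λ R) => out1_proof _ _ _ _ _ _ _ _ _ _ _ _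
    (hD R hR x.2 hx.2) (hv.sol R (r0.trans hR) x hx)
  have o2 := fun R (hR : R₁ ≤ R) x (hx : x ∈ Dm δ Λ R) => ho _ _ _ _ _ _ _ _ _ _ _
    (hD R hR x.2 hx.2) (hv.sol R (r0.trans hR) x hx) (hn R x hx)
  have hKK : ∀ s t : ℝ, 0 ≤ t → K₂ * (K * s + t) ≤ K₂ * K * (s + t) := fun s t ht => by
    have := mul_le_mul_of_nonneg_right hK ht
    nlinarith
  refine ⟨R₁, C₂, eV a V P v, hR0 _ le_rfl, r1, fun R hR => ?_, fun R hR x hx => (o1 R hR x hx).1,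
    fun R hR x hx => (o1 R hR x hx).2.1, fun R hR x hx => (o1 R hR x hx).2.2.1,
    fun R hR x hx => (o1 R hR x hx).2.2.2.1, fun R hR x hx => (o1 R hR x hx).2.2.2.2.1,
    fun R hR x hx => (o1 R hR x hx).2.2.2.2.2, fun R hR x hx => (o2 R hR x hx).1.trans ?_,
    fun R hR x hx h1 h2 => ?_, fun R hR x hx => (o2 R hR x hx).2.1,
    fun R hR x hx => (o2 R hR x hx).2.2.1.trans ?_, fun R hR x hx z hz θ => ?_,
    fun R hR x hx Z hZ h1 => ?_, fun R hR h hh Z hZ => ?_,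
    fun R R' hR h1 h2 h hh c hc Z hZ => (h3 R R' (r2.trans hR) h1 h2 h hh c hc Z hZ).trans ?_,
    fun R₂ hR x₂ hx₂ => ?_⟩
  · exact differentiableOn_eV (hD R hR) (hF.holV R (hR0 R hR)) (hF.holP R (hR0 R hR))
      (hv.hol R (r0.trans hR))
  · have hR' : 0 < R := by linarith
    rw [Real.div_rpow ha0.le hR'.le, Real.rpow_neg hR'.le, div_eq_mul_inv]
    have h1 : K₂ * (K * ‖x.1‖) * a ^ (19 / 10 : ℝ) ≤ C₂ :=
      le_trans (by have := hn R x hx; gcongr) c0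
    have h2 : 0 ≤ √‖x.2‖ * (R ^ (19 / 10 : ℝ))⁻¹ := by positivity
    nlinarith [mul_le_mul_of_nonneg_right h1 h2]
  · have h5 := (hF.real R (hR0 R hR) x.2 hx.2 h2).2
    exact star_eOf ((hD R hR x.2 hx.2).star_kap h5)
      ((hD R hR x.2 hx.2).star_rho fun z => (h5 z).1) (hv.real R (r0.trans hR) x hx h1 h2)
  · exact mul_le_mul_of_nonneg_right c1 (by linarith)
  · have := (o2 R hR x hx).2.2.2.1 z hz θ
    exact ⟨this.1, this.2.trans (le_mul_of_one_le_right (by linarith) hK)⟩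
  · have := (o2 R hR x hx).2.2.2.2.1 Z hZ h1
    have h2 := hKK ‖x.1‖ (‖cc R x.2‖ * Z ^ 2) (by positivity)
    exact ⟨this.1.trans h2, fun z hz θ => (this.2 z hz θ).trans h2⟩
  · have hΛ1 : 0 ≤ Λ := by have : 0 ≤ C ^ 3 := by positivity
                           linarith
    have hR' : 0 < R := by linarith
    have h0 : (0 : ℂ) ∈ Sym.Om (2 * Λ) R :=
      om_mono (by linarith) (hI.small R (hR0 R hR) (mem_ball_self (by positivity)))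
    have h1 : (2 : ℂ) ∈ Sym.D Λ R := by
      have := hI.mem R (hR0 R hR) _ le_rfl 0 h0
      rw [hI.zero R (hR0 R hR)] at this
      refine ball_subset_ball ?_ this
      gcongr
      linarith [hI.room]
    have h2 : cc R 2 = 0 := by
      have := hI.right R (hR0 R hR) 0 h0
      rwa [hI.zero R (hR0 R hR)] at this
    exact ((o2 R hR (h, 2) ⟨hh, h1⟩).2.2.2.2.2 h2 Z hZ).trans (le_of_eq (by ring))
  · have : 0 ≤ (R' - R) * Z ^ 2 * R ^ (-(28 / 5) : ℝ) := by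
      have : 0 ≤ R' - R := by linarith
      have : 0 ≤ R := by linarith
      positivity
    nlinarith [mul_le_mul_of_nonneg_right c2 this]
  · obtain ⟨L, ε, hε, h5⟩ := h4 R₂ (r3.trans hR) x₂ hx₂
    exact ⟨L, ε, hε, fun R R' x x' h6 => h5 R R' x x' (r3.trans h6)⟩

end Vale.Agent.P218F.End
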