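import Vale.Agent.P218F.EndFix0
import Vale.Agent.P218F.EndFix1

/-! Cylindrical ends: existence of the holomorphic family `v`. -/

set_option maxSynthPendingDepth 3

namespace Vale.Agent.P218F.End

open Set Metric Wien Filter Topology
open Cone (W A T3 BC J6 jets jets_apply)

noncomputable section

theorem star_jets (p : T3 0) : star (jets 0 p) = jets 0 (star p) := by
  simp only [jets_apply, Prod.star_def, star_incl, star_dth]

theorem star_res (a b : ℝ) (s : ℕ) (u : W s) : star (res a b s u) = res a b s (star u) :=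
  star_mapL _ (fun _ => rfl) u

theorem res_res {a b : ℝ} (h : a ≤ b) (s : ℕ) (u : W s) : res a b s (res a b s u) = res a b s u := by
  ext k z
  simp only [cf_res, Mode.cl_cl h]

theorem isOpen_Dm (δ Λ R : ℝ) : IsOpen (Dm δ Λ R) := isOpen_ball.prod isOpen_ball

/-- the source weight -/
def ys (a R : ℝ) (w : ℝ → ℂ) (z : ℝ) : ℝ := mu w z * om a R w z

theorem Dat.wt {C Λ Z₀ a R : ℝ} {y c : ℂ} {V P : BC} (h : Dat C Λ Z₀ a R y c V P) :
    Wt a R (ys a R V) :=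
  ⟨h.lt.le, h.cont_mu.mul h.cont_om, fun _ hz => mul_pos (h.prof.mu0 hz) (om_pos ..)⟩

theorem Dat.data_le {C Λ Z₀ a R : ℝ} {y c : ℂ} {V P : BC} (h : Dat C Λ Z₀ a R y c V P) (g : A 2) :
    ‖(rho a R V a)⁻¹ • g‖ / om a R V a ≤ 3 * ‖g‖ := by
  rw [div_le_iff₀ (om_pos ..), norm_smul]
  nlinarith [h.norm_rho_inv, h.prof.om_a, norm_nonneg g]

theorem exists_v {C : ℝ} (hC : 1 ≤ C) :
    ∃ Λ₁ K δ : ℝ, 1 ≤ K ∧ 0 < δ ∧ ∀ (Λ Z₀ a R : ℝ) (V P : ℂ → BC) (c : ℂ → ℂ), Λ₁ ≤ Λ →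
      (∀ y ∈ Sym.D Λ R, Dat C Λ Z₀ a R y (c y) (V y) (P y)) → DifferentiableOn ℂ V (Sym.D Λ R) →
      DifferentiableOn ℂ P (Sym.D Λ R) →
      (∀ y ∈ Sym.D Λ R, y.im = 0 → ∀ z, (V y z).im = 0 ∧ (P y z).im = 0) →
      ∃ v : A 2 × ℂ → T3 0, DifferentiableOn ℂ v (Dm δ Λ R) ∧ ∀ x ∈ Dm δ Λ R,
        VSol a R (V x.2) (P x.2) x.1 (v x) (K * ‖x.1‖) ∧
          (star x.1 = x.1 → x.2.im = 0 → star (v x) = v x) := by
  obtain ⟨Cm, hCm, hE⟩ := mainEst_proof (4 * C) (by linarith)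
  obtain ⟨Cq, hCq, hQ⟩ := q_proof (4 * C) 3002 (by linarith) (by norm_num)
  obtain ⟨ε, hε, hε1, hS⟩ := stab_proof (4 * C) 3002 Cm (by linarith) (by norm_num) hCm
  obtain ⟨η, hη, hη1, hη2⟩ : ∃ η : ℝ, 0 < η ∧ η ≤ ε ∧ η * (Cq * (6 * Cm)) * 3003 ≤ 1 / 5 :=
    ⟨min ε (1 / 5 / (Cq * (6 * Cm) * 3003)), lt_min hε (by positivity), min_le_left _ _, by
      rw [mul_assoc, ← le_div_iff₀ (by positivity)]; exact min_le_right _ _⟩
  obtain ⟨r, hr, hr1⟩ : ∃ r : ℝ, 0 < r ∧ 6 * Cm * r = η :=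
    ⟨η / (6 * Cm), by positivity, by field_simp⟩
  refine ⟨1 / η, 6 * Cm, r, by linarith, hr, ?_⟩
  intro Λ Z₀ a R V P c hΛ hD hV hP hre
  rcases (Sym.D Λ R).eq_empty_or_nonempty with h0 | ⟨y₀, hy₀⟩
  · refine ⟨0, differentiableOn_const _, fun x hx => ?_⟩
    have := hx.2
    rw [h0] at this
    exact this.elim
  have hΛ1 : 1 ≤ η * Λ := by rwa [div_le_iff₀ hη, mul_comm] at hΛ
  have hΛ2 : 1 ≤ ε * Λ := hΛ1.trans (mul_le_mul_of_nonneg_right hη1 (hD y₀ hy₀).lam_pos.le)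
  have hab := (hD y₀ hy₀).lt
  have hU : IsOpen (Sym.D Λ R) := isOpen_ball
  obtain ⟨G, hG, hG'⟩ := lin_proof a R (by linarith [(hD y₀ hy₀).prof.a100]) hab
  have hκ := differentiableOn_kap hU hD hV hP
  have hρ := differentiableOn_rho hU hD hV
  have hc : ContinuousOn (fun x : ℂ × ℝ => ys a R (V x.1) x.2) (Sym.D Λ R ×ˢ Icc a R) :=
    (continuousOn_mu hD hV).mul (continuousOn_om hD hV)
  have hGd : DifferentiableOn ℂ (fun y => G (kap a R (V y) (P y)).1) (Sym.D Λ R) :=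
    hG' _ (fun y => V y) (fun y => (kap a R (V y) (P y)).1) (fun y => om a R (V y))
      (fun y => ys a R (V y)) Cm hU hκ.fst (fun y hy z hz => ⟨(hD y hy).ne hz, (hD y hy).kap1 hz⟩)
      (continuousOn_om hD hV) hc (fun y hy z hz => ⟨om_pos .., (hD y hy).wt.pos z hz⟩)
      fun y hy => hE _ _ _ _ _ _ (hD y hy).prof
  have hG1 := fun y hy => hG (V y) (kap a R (V y) (P y)).1 (om a R (V y)) (ys a R (V y)) Cm
    (fun z hz => ⟨(hD y hy).ne hz, (hD y hy).kap1 hz⟩) (hD y hy).cont_om (hD y hy).wt.cont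
    (fun z hz => ⟨om_pos .., (hD y hy).wt.pos z hz⟩) (hE _ _ _ _ _ _ (hD y hy).prof)
  obtain ⟨S, hS0⟩ : ∃ S : W 0 × A 2 × ℂ → T3 0, S = fun q => G (kap a R (V q.2.2) (P q.2.2)).1
    ((rho a R (V q.2.2) a)⁻¹ • q.2.1, q.1) := ⟨_, rfl⟩
  have hm : MapsTo (fun q : W 0 × A 2 × ℂ => q.2.2) (univ ×ˢ Dm r Λ R) (Sym.D Λ R) :=
    fun q hq => hq.2.2
  have hSd : DifferentiableOn ℂ S (univ ×ˢ Dm r Λ R) := by
    rw [hS0]
    have h1 := ((diffOn_eval hρ a).inv fun y hy => (hD y hy).rho_ne (hD y hy).prof.mema).comp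
      (differentiable_snd.snd).differentiableOn hm
    exact (hGd.comp (differentiable_snd.snd).differentiableOn hm).clm_apply
      ((h1.smul (differentiable_snd.fst).differentiableOn).prodMk differentiableOn_fst)
  have hS1 : ∀ x ∈ Dm r Λ R, ∀ F, Tri a R (S (F, x)) ∧ LinEq a R (kap a R (V x.2) (P x.2)).1
      (S (F, x)) F ∧ BCs a R ((rho a R (V x.2) a)⁻¹ • x.1) (S (F, x)) := fun x hx F => by
    rw [hS0]
    exact (hG1 x.2 hx.2).1 _ _
  have hS2 : ∀ x ∈ Dm r Λ R, ∀ F, ‖Jw a R (ys a R (V x.2)) F‖ ≤ 3 * r →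
      NJ a R (V x.2) (om a R (V x.2)) (jets 0 (S (F, x))) η := fun x hx F hF => by
    have d := hD x.2 hx.2
    obtain ⟨a1, a2, a3⟩ := hS1 x hx F
    refine (linEst (by linarith) (fun z hz => d.kap1 hz) (om_pos ..)
      (fun z hz => (d.wt.pos z hz).le) (hE _ _ _ _ _ _ d.prof) a1.d0 a1.d1 a2 a3
      ((d.wt.wb F).mono_const hF)).mono_const ?_
    have h1 := d.data_le x.1
    have h2 := mem_ball_zero_iff.1 hx.1
    nlinarith
  obtain ⟨ζ, hζ, hζ1⟩ := exists_fix_wt (U := Dm r Λ R)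
    (T := fun q => res a R 0 (-NlW (kap a R (V q.2.2) (P q.2.2)) (jets 0 (S q))))
    (J := fun x => Jw a R (ys a R (V x.2))) (isOpen_Dm _ _ _) hr
    ((res a R 0).differentiable.comp_differentiableOn
      (differentiable_NlW.comp_differentiableOn
        ((hκ.comp (differentiable_snd.snd).differentiableOn hm).prodMk
          ((jets 0).differentiable.comp_differentiableOn hSd))).neg)
    (fun x₀ hx₀ => by
      filter_upwards [continuous_snd.continuousAt.eventually (eventually_cmp hU hc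
        (fun y hy => (hD y hy).wt.pos) hx₀.2), (isOpen_Dm r Λ R).mem_nhds hx₀] with x h1 hx F
      exact ⟨(hD _ hx₀.2).wt.cmp (hD _ hx.2).wt (by norm_num) (fun z hz => (h1 z hz).1) F,
        (hD _ hx.2).wt.cmp (hD _ hx₀.2).wt (by norm_num) (fun z hz => (h1 z hz).2) F⟩)
    (fun x hx F hF => by
      have d := hD x.2 hx.2
      have n := hS2 x hx F hF
      obtain ⟨q1, q2⟩ := hQ a R (V x.2) _ (om a R (V x.2)) (om a R (V x.2)) d.coOK
        (fun z hz => d.omOK hz) fun z _ => (om_pos ..).le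
      have a1 := (q1 _ _ n).mono_mul hη.le fun z hz => (d.wtOK hΛ1 hz).1
      have a2 := (q2 _ 0 η η hη.le (hη1.trans hε1) n (nj_zero _ _ hη.le)
        (by rwa [sub_zero])).mono_mul (by norm_num) fun z hz => (d.wtOK hΛ1 hz).2
      rw [QW_zero, sub_zero] at a2
      have a3 := (a1.add a2).neg
      rw [← NlW_eq] at a3
      refine (d.wt.norm_res a3).trans ?_
      have e : η * (Cq * η) + 3002 * (Cq * η * η) = η * (Cq * (6 * Cm)) * 3003 * r := by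
        linear_combination (-3003 * η * Cq) * hr1
      rw [e]
      nlinarith)
  refine ⟨fun x => S (ζ x, x), hSd.comp (hζ.prodMk differentiableOn_id)
    fun x hx => ⟨mem_univ _, hx⟩, fun x hx => ?_⟩
  obtain ⟨b1, b2, b3⟩ := hζ1 x hx
  obtain ⟨a1, a2, a3⟩ := hS1 x hx (ζ x)
  have d := hD x.2 hx.2
  have a4 : LinEq a R (kap a R (V x.2) (P x.2)).1 (S (ζ x, x))
      (-NlW (kap a R (V x.2) (P x.2)) (jets 0 (S (ζ x, x)))) := fun k z hz => by
    rw [a2 k z hz]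
    conv_lhs => rw [← b2, cf_res, Mode.cl_of_mem hz]
  refine ⟨⟨a1, a3, a4, ?_⟩, fun h1 h2 => ?_⟩
  · have := hS a R (V x.2) _ _ _ _ hab d.coOK (fun z hz => d.kap1 hz) (fun z hz => d.omOK hz)
      d.om_lb (hE _ _ _ _ _ _ d.prof) (fun z hz => d.wtOK hΛ2 hz) (S (ζ x, x)) 0
      ((rho a R (V x.2) a)⁻¹ • x.1) 0 0
    rw [sub_zero, jets_zero, NlW_zero, sub_zero, zero_sub] at this
    refine (this a1.d0 a1.d1 ((hS2 x hx _ (by linarith)).mono_const hη1) (nj_zero _ _ hε.le) a4 a3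
      (WB.zero _ le_rfl)).mono_const ?_
    nlinarith [d.data_le x.1]
  · have s1 := d.star_kap (hre _ hx.2 h2)
    have s2 := d.star_rho fun z => (hre _ hx.2 h2 z).1
    have s3 : ∀ F, star (S (F, x)) = S (star F, x) := fun F => by
      have s4 : star (rho a R (V x.2) a) = rho a R (V x.2) a := by
        conv_rhs => rw [← s2]
        rfl
      rw [hS0]
      dsimp only
      rw [(hG1 x.2 hx.2).2.2 (congrArg Prod.fst s1), star_smul, star_inv₀, s4, h1]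
    have s5 : res a R 0 (-NlW (kap a R (V x.2) (P x.2)) (jets 0 (S (star (ζ x), x)))) =
        star (ζ x) := by
      conv_rhs => rw [← b2]
      rw [star_res, star_neg, star_NlW, s1, star_jets, s3]
    have s6 : ‖Jw a R (ys a R (V x.2)) (star (ζ x))‖ < r := by
      have := d.wt.norm_res ((d.wt.wb (ζ x)).mono_const b1).star
      rw [← s5, res_res hab.le, s5] at this
      linarith
    have s7 := b3 _ s6
    rw [s5, sub_self, map_zero, norm_zero, mul_zero] at s7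
    have s8 : star (ζ x) = ζ x := sub_eq_zero.1 ((Jw a R (ys a R (V x.2))).injective
      (by rw [norm_le_zero_iff.1 s7, map_zero]))
    rw [s3, s8]

theorem fam_dat {C Λ Z₀ R₀ : ℝ} {V P : ℝ → ℂ → BC} {cc : ℝ → ℂ → ℂ} (hC : 1 ≤ C)
    (hΛ : 640000 * C ^ 3 ≤ Λ) (hZ : 0 < Z₀) (hl : 2 * Λ ≤ Z₀ ^ 2) (h : Sym.Fam C Λ Z₀ R₀ V P cc)
    {a R : ℝ} (ha : Z₀ ≤ a) (hR : max R₀ (a ^ 3) ≤ R) {y : ℂ} (hy : y ∈ Sym.D Λ R) :
    Dat C Λ Z₀ a R y (cc R y) (V R y) (P R y) :=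
  ⟨h.sol R ((le_max_left _ _).trans hR) y hy, hC, hΛ, hZ, hl, ha, (le_max_right _ _).trans hR⟩

theorem v_proof : VStmt := by
  intro C hC
  obtain ⟨Λ₁, K, δ, hK, hδ, h⟩ := exists_v hC
  refine ⟨max Λ₁ (640000 * C ^ 3), K, δ, hK, hδ, ?_⟩
  intro Λ Z₀ R₀ V P cc hΛ hZ hl hF a ha
  have h1 := fun R (hR : max R₀ (a ^ 3) ≤ R) => h Λ Z₀ a R (V R) (P R) (cc R)
    ((le_max_left _ _).trans hΛ) (fun y => fam_dat hC ((le_max_right _ _).trans hΛ) hZ hl hF ha hR)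
    (hF.holV R ((le_max_left _ _).trans hR)) (hF.holP R ((le_max_left _ _).trans hR))
    fun y hy h2 => (hF.real R ((le_max_left _ _).trans hR) y hy h2).2
  choose! v h2 h3 using h1
  exact ⟨v, h2, fun R hR x hx => (h3 R hR x hx).1, fun R hR x hx => (h3 R hR x hx).2⟩

end

end Vale.Agent.P218F.End
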