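import Vale.Agent.P218F.CoreHol

/-! Cylindrical ends: a holomorphic fixed point theorem for norms which depend continuously (not
holomorphically) on the parameter. -/

namespace Vale.Agent.P218F.End

open Set Metric Filter Topology

variable {Z P : Type*} [NormedAddCommGroup Z] [NormedSpace ℂ Z] [CompleteSpace Z]
  [NormedAddCommGroup P] [NormedSpace ℂ P]

/-- fixed point of `T (·, p)` in the norm `‖J p ·‖` -/
theorem exists_fix_wt {T : Z × P → Z} {J : P → Z ≃L[ℂ] Z} {U : Set P} (hU : IsOpen U) {r : ℝ}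
    (hr : 0 < r) (hd : DifferentiableOn ℂ T (univ ×ˢ U))
    (hJ : ∀ p₀ ∈ U, ∀ᶠ p in 𝓝 p₀, ∀ F, ‖J p₀ F‖ ≤ 5 / 4 * ‖J p F‖ ∧ ‖J p F‖ ≤ 5 / 4 * ‖J p₀ F‖)
    (hb : ∀ p ∈ U, ∀ F, ‖J p F‖ ≤ 3 * r → ‖J p (T (F, p))‖ ≤ r / 5) :
    ∃ ζ : P → Z, DifferentiableOn ℂ ζ U ∧ ∀ p ∈ U, ‖J p (ζ p)‖ ≤ r / 5 ∧ T (ζ p, p) = ζ p ∧
      (∀ F, ‖J p F‖ < r → ‖J p (F - ζ p)‖ ≤ 2 * ‖J p (F - T (F, p))‖) := by
  have key : ∀ p₀ ∈ U, ∀ V : Set P, IsOpen V → V ⊆ U →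
      (∀ p ∈ V, ∀ F, ‖J p₀ F‖ ≤ 5 / 4 * ‖J p F‖ ∧ ‖J p F‖ ≤ 5 / 4 * ‖J p₀ F‖) →
      ∃ ξ : P → Z, DifferentiableOn ℂ ξ V ∧ ∀ p ∈ V, ‖J p₀ (ξ p)‖ ≤ r / 4 ∧ T (ξ p, p) = ξ p ∧
        (∀ F, ‖J p₀ F‖ < r → ‖J p₀ (F - ξ p)‖ ≤ 2 * ‖J p₀ (F - T (F, p))‖) := by
    intro p₀ _ V hV hVU hc
    obtain ⟨η, h1, h2⟩ := Core.exists_fix_param
      (R := fun x : Z × P => J p₀ (T ((J p₀).symm x.1, x.2))) hr hV
      ((J p₀).differentiable.comp_differentiableOn (hd.comp (by fun_prop)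
        fun x hx => ⟨mem_univ _, hVU hx.2⟩)) (fun z hz p hp => by
        have e1 := (hc p hp ((J p₀).symm z)).2
        rw [ContinuousLinearEquiv.apply_symm_apply] at e1
        have e2 := mem_ball_zero_iff.1 hz
        have e3 := hb p (hVU hp) ((J p₀).symm z) (by linarith)
        have e4 := (hc p hp (T ((J p₀).symm z, p))).1
        dsimp only
        linarith)
    refine ⟨fun p => (J p₀).symm (η p), (J p₀).symm.differentiable.comp_differentiableOn h1,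
      fun p hp => ?_⟩
    obtain ⟨a1, a2, a3, -⟩ := h2 p hp
    refine ⟨by simpa using a1, ?_, fun F hF => ?_⟩
    · apply (J p₀).injective
      simpa using a2
    · simpa [map_sub] using a3 (J p₀ F) (mem_ball_zero_iff.2 hF)
  have h0 : ∀ p ∈ U, ∃ ξ : Z, ‖J p ξ‖ ≤ r / 5 ∧ T (ξ, p) = ξ ∧
      (∀ F, ‖J p F‖ < r → ‖J p (F - ξ)‖ ≤ 2 * ‖J p (F - T (F, p))‖) := by
    intro p hp
    obtain ⟨η, a1, a2, -, a3, -⟩ := Core.exists_fix
      (R := fun x : Z => J p (T ((J p).symm x, p))) hr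
      ((J p).differentiable.comp_differentiableOn (hd.comp (by fun_prop)
        fun x _ => ⟨mem_univ _, hp⟩)) (fun z hz => by
        have e2 := mem_ball_zero_iff.1 hz
        have e3 := hb p hp ((J p).symm z) (by
          rw [ContinuousLinearEquiv.apply_symm_apply]; linarith)
        linarith)
    have b2 : T ((J p).symm η, p) = (J p).symm η := by
      apply (J p).injective
      simpa using a2
    refine ⟨(J p).symm η, ?_, b2, fun F hF => ?_⟩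
    · rw [← b2]
      exact hb p hp _ (by rw [ContinuousLinearEquiv.apply_symm_apply]; linarith)
    · simpa [map_sub] using a3 (J p F) (mem_ball_zero_iff.2 hF)
  choose! ζ h1 h2 h3 using h0
  refine ⟨ζ, fun p₀ hp₀ => ?_, fun p hp => ⟨h1 p hp, h2 p hp, h3 p hp⟩⟩
  obtain ⟨V, hV1, hV2, hV3⟩ := _root_.mem_nhds_iff.1 (inter_mem (hU.mem_nhds hp₀) (hJ p₀ hp₀))
  obtain ⟨ξ, a1, a2⟩ := key p₀ hp₀ V hV2 (fun p hp => (hV1 hp).1) fun p hp => (hV1 hp).2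
  refine ((a1.differentiableAt (hV2.mem_nhds hV3)).congr_of_eventuallyEq ?_).differentiableWithinAt
  filter_upwards [hV2.mem_nhds hV3] with p hp
  have hpU := (hV1 hp).1
  have e1 := ((hV1 hp).2 (ζ p)).1
  have e2 := (a2 p hp).2.2 (ζ p) (by linarith [h1 p hpU])
  rw [h2 p hpU, sub_self, map_zero, norm_zero, mul_zero] at e2
  have e3 : J p₀ (ζ p - ξ p) = 0 := norm_le_zero_iff.1 e2
  exact sub_eq_zero.1 ((J p₀).injective (by rw [e3, map_zero]))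

end Vale.Agent.P218F.End
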