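import Vale.Agent.P218F.CoreJet

/-!
# The linearisation of the shrinker operator, on jets
-/

open Filter Topology Matrix
open scoped ContDiff

set_option linter.unusedSectionVars false
set_option maxSynthPendingDepth 3

noncomputable section

namespace Vale.Agent.P218F.Inj

open Vale.Agent.P218F.Core

/-- the numerator of the shrinker operator -/
def num (q : J2 P2 C3) : ℂ :=
  gtr q.2.1 (fun u v => q.2.2 u v ⬝ᵥ nor q.2.1) + q.1 ⬝ᵥ nor q.2.1 / 2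

theorem shr_eq (q : J2 P2 C3) (W : C3) : shr q W = num q / (W ⬝ᵥ nor q.2.1) := rfl

/-- the derivative of the normal -/
def dnor (D E : P2 →L[ℝ] C3) : C3 := t1 E ⨯₃ t2 D + t1 D ⨯₃ t2 E

/-- the derivative of the determinant of the metric -/
def dgdet (D E : P2 →L[ℝ] C3) : ℂ :=
  2 * (t1 E ⬝ᵥ t1 D) * (t2 D ⬝ᵥ t2 D) + (t1 D ⬝ᵥ t1 D) * (2 * (t2 E ⬝ᵥ t2 D)) -
    2 * (t1 D ⬝ᵥ t2 D) * (t1 E ⬝ᵥ t2 D + t2 E ⬝ᵥ t1 D)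

/-- the derivative of the inverse metric, applied to a bilinear form -/
def dgtr (D E : P2 →L[ℝ] C3) (h : P2 → P2 → ℂ) : ℂ :=
  (2 * (t2 E ⬝ᵥ t2 D) * h (1, 0) (1, 0) -
    (t1 E ⬝ᵥ t2 D + t2 E ⬝ᵥ t1 D) * (h (1, 0) (0, 1) + h (0, 1) (1, 0)) +
    2 * (t1 E ⬝ᵥ t1 D) * h (0, 1) (0, 1)) / gdet D - gtr D h * dgdet D E / gdet D

/-- the derivative of `num` at `q` in the direction `p` -/
def dnum (q p : J2 P2 C3) : ℂ :=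
  dgtr q.2.1 p.2.1 (fun u v => q.2.2 u v ⬝ᵥ nor q.2.1) +
    gtr q.2.1 (fun u v => p.2.2 u v ⬝ᵥ nor q.2.1 + q.2.2 u v ⬝ᵥ dnor q.2.1 p.2.1) +
    (p.1 ⬝ᵥ nor q.2.1 + q.1 ⬝ᵥ dnor q.2.1 p.2.1) / 2

section deriv

variable {𝕜 : Type} [NontriviallyNormedField 𝕜] [NormedAlgebra 𝕜 ℂ]

theorem HasDerivAt.dot {a b : 𝕜 → C3} {a' b' : C3} {t : 𝕜} (ha : HasDerivAt a a' t)
    (hb : HasDerivAt b b' t) :
    HasDerivAt (fun s => a s ⬝ᵥ b s) (a' ⬝ᵥ b t + a t ⬝ᵥ b') t := by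
  have h := HasDerivAt.fun_sum (u := Finset.univ) fun i _ =>
    (hasDerivAt_pi.1 ha i).mul (hasDerivAt_pi.1 hb i)
  simpa [dotProduct, Finset.sum_add_distrib] using h

theorem HasDerivAt.cross {a b : 𝕜 → C3} {a' b' : C3} {t : 𝕜} (ha : HasDerivAt a a' t)
    (hb : HasDerivAt b b' t) :
    HasDerivAt (fun s => a s ⨯₃ b s) (a' ⨯₃ b t + a t ⨯₃ b') t := by
  have A := hasDerivAt_pi.1 ha
  have B := hasDerivAt_pi.1 hb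
  refine hasDerivAt_pi.2 fun i => ?_
  fin_cases i
  · convert ((A 1).mul (B 2)).sub ((A 2).mul (B 1)) using 1
    · funext s; simp [cross_apply]
    · simp [cross_apply]; ring
  · convert ((A 2).mul (B 0)).sub ((A 0).mul (B 2)) using 1
    · funext s; simp [cross_apply]
    · simp [cross_apply]; ring
  · convert ((A 0).mul (B 1)).sub ((A 1).mul (B 0)) using 1
    · funext s; simp [cross_apply]
    · simp [cross_apply]; ring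

/-- a curve of two-jets, differentiable componentwise -/
structure HasJetDeriv (q : 𝕜 → J2 P2 C3) (p : J2 P2 C3) (t : 𝕜) : Prop where
  d0 : HasDerivAt (fun s => (q s).1) p.1 t
  d1 : ∀ u, HasDerivAt (fun s => (q s).2.1 u) (p.2.1 u) t
  d2 : ∀ u v, HasDerivAt (fun s => (q s).2.2 u v) (p.2.2 u v) t

variable {q : 𝕜 → J2 P2 C3} {p : J2 P2 C3} {t : 𝕜}

theorem HasJetDeriv.nor (h : HasJetDeriv q p t) :
    HasDerivAt (fun s => nor (q s).2.1) (dnor (q t).2.1 p.2.1) t :=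
  HasDerivAt.cross (h.d1 _) (h.d1 _)

theorem HasJetDeriv.gdet (h : HasJetDeriv q p t) :
    HasDerivAt (fun s => gdet (q s).2.1) (dgdet (q t).2.1 p.2.1) t := by
  have a := h.d1 (1, 0)
  have b := h.d1 (0, 1)
  refine HasDerivAt.congr_deriv
    (((HasDerivAt.dot a a).mul (HasDerivAt.dot b b)).sub ((HasDerivAt.dot a b).pow 2)) ?_
  simp only [dgdet, t1, t2, dotProduct_comm ((q t).2.1 (1, 0)) (p.2.1 (1, 0)),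
    dotProduct_comm ((q t).2.1 (0, 1)) (p.2.1 (0, 1)),
    dotProduct_comm ((q t).2.1 (1, 0)) (p.2.1 (0, 1))]
  push_cast
  ring

theorem HasJetDeriv.num (h : HasJetDeriv q p t) (hg : Core.gdet (q t).2.1 ≠ 0) :
    HasDerivAt (fun s => num (q s)) (dnum (q t) p) t := by
  have a := h.d1 (1, 0)
  have b := h.d1 (0, 1)
  have c := fun u v => HasDerivAt.dot (h.d2 u v) h.nor
  have h1 := (((((HasDerivAt.dot b b).mul (c (1, 0) (1, 0))).sub ((HasDerivAt.dot a b).mul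
    ((c (1, 0) (0, 1)).add (c (0, 1) (1, 0))))).add
    ((HasDerivAt.dot a a).mul (c (0, 1) (0, 1)))).div h.gdet hg).add
    ((HasDerivAt.dot h.d0 h.nor).div_const 2)
  refine HasDerivAt.congr_deriv h1 ?_
  simp only [dnum, dgtr, gtr, t1, t2, dotProduct_comm ((q t).2.1 (1, 0)) (p.2.1 (1, 0)),
    dotProduct_comm ((q t).2.1 (0, 1)) (p.2.1 (0, 1)),
    dotProduct_comm ((q t).2.1 (1, 0)) (p.2.1 (0, 1)), Pi.add_apply, Pi.sub_apply, Pi.mul_apply]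
  field_simp
  ring

/-- **derivative of the shrinker operator** at a jet which solves the equation -/
theorem HasJetDeriv.shr (h : HasJetDeriv q p t) (hg : Core.gdet (q t).2.1 ≠ 0)
    (h0 : Inj.num (q t) = 0) {W : 𝕜 → C3} {W' : C3} (hW : HasDerivAt W W' t)
    (hn : W t ⬝ᵥ Core.nor (q t).2.1 ≠ 0) :
    HasDerivAt (fun s => shr (q s) (W s)) (dnum (q t) p / (W t ⬝ᵥ Core.nor (q t).2.1)) t := by
  refine HasDerivAt.congr_deriv ((h.num hg).div (HasDerivAt.dot hW h.nor) hn) ?_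
  rw [h0]
  field_simp
  ring

end deriv

theorem hasJetDeriv_of_real {q : ℝ → J2 P2 C3} {p : J2 P2 C3} {t : ℝ} (h : HasDerivAt q p t) :
    HasJetDeriv q p t := by
  have h0 := (ContinuousLinearMap.fst ℝ _ _).hasFDerivAt.comp_hasDerivAt t h
  have h' := (ContinuousLinearMap.snd ℝ _ _).hasFDerivAt.comp_hasDerivAt t h
  have h1 := (ContinuousLinearMap.fst ℝ _ _).hasFDerivAt.comp_hasDerivAt t h'
  have h2 := (ContinuousLinearMap.snd ℝ _ _).hasFDerivAt.comp_hasDerivAt t h'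
  refine ⟨h0, fun u => ?_, fun u v => ?_⟩
  · simpa using h1.clm_apply (hasDerivAt_const t u)
  · simpa using (h2.clm_apply (hasDerivAt_const t u)).clm_apply (hasDerivAt_const t v)

theorem hasJetDeriv_line (q p : J2 P2 C3) (t : ℂ) : HasJetDeriv (fun s : ℂ => q + s • p) p t := by
  refine ⟨?_, fun u => ?_, fun u v => ?_⟩
  · simpa using ((hasDerivAt_id t).smul_const p.1).const_add q.1
  · simpa using ((hasDerivAt_id t).smul_const (p.2.1 u)).const_add (q.2.1 u)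
  · simpa using ((hasDerivAt_id t).smul_const (p.2.2 u v)).const_add (q.2.2 u v)

theorem dnum_add (q p p' : J2 P2 C3) : dnum q (p + p') = dnum q p + dnum q p' := by
  simp only [dnum, dgtr, dgdet, dnor, gtr, t1, t2, Prod.fst_add, Prod.snd_add, _root_.add_apply,
    add_dotProduct, dotProduct_add, map_add, LinearMap.add_apply]
  ring

theorem dnum_smul (q p : J2 P2 C3) (c : ℂ) : dnum q (c • p) = c * dnum q p := by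
  simp only [dnum, dgtr, dgdet, dnor, gtr, t1, t2, Prod.smul_fst, Prod.smul_snd, _root_.smul_apply,
    smul_dotProduct, dotProduct_smul, dotProduct_add, map_smul, LinearMap.smul_apply, smul_eq_mul]
  ring

/-! ### Vector identities -/

theorem expand_dot (a b s t : C3) :
    ((s ⬝ᵥ s) * (t ⬝ᵥ t) - (s ⬝ᵥ t) ^ 2) * (a ⬝ᵥ b) =
      (t ⬝ᵥ t) * (a ⬝ᵥ s) * (b ⬝ᵥ s) - (s ⬝ᵥ t) * ((a ⬝ᵥ s) * (b ⬝ᵥ t) + (a ⬝ᵥ t) * (b ⬝ᵥ s)) +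
        (s ⬝ᵥ s) * (a ⬝ᵥ t) * (b ⬝ᵥ t) + (a ⬝ᵥ (s ⨯₃ t)) * (b ⬝ᵥ (s ⨯₃ t)) := by
  simp [dotProduct, Fin.sum_univ_three, cross_apply]
  ring

theorem expand_cross1 (a v s t : C3) :
    ((s ⬝ᵥ s) * (t ⬝ᵥ t) - (s ⬝ᵥ t) ^ 2) * (v ⬝ᵥ (a ⨯₃ t)) =
      ((t ⬝ᵥ t) * (a ⬝ᵥ s) - (s ⬝ᵥ t) * (a ⬝ᵥ t)) * (v ⬝ᵥ (s ⨯₃ t)) -
        (a ⬝ᵥ (s ⨯₃ t)) * ((t ⬝ᵥ t) * (v ⬝ᵥ s) - (s ⬝ᵥ t) * (v ⬝ᵥ t)) := by
  simp [dotProduct, Fin.sum_univ_three, cross_apply]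
  ring

theorem expand_cross2 (a v s t : C3) :
    ((s ⬝ᵥ s) * (t ⬝ᵥ t) - (s ⬝ᵥ t) ^ 2) * (v ⬝ᵥ (s ⨯₃ a)) =
      ((s ⬝ᵥ s) * (a ⬝ᵥ t) - (s ⬝ᵥ t) * (a ⬝ᵥ s)) * (v ⬝ᵥ (s ⨯₃ t)) -
        (a ⬝ᵥ (s ⨯₃ t)) * ((s ⬝ᵥ s) * (v ⬝ᵥ t) - (s ⬝ᵥ t) * (v ⬝ᵥ s)) := by
  simp [dotProduct, Fin.sum_univ_three, cross_apply]
  ring

/-- the pairing `g^{kl} a_k b_l` of two covectors -/
def gco (D : P2 →L[ℝ] C3) (a b : P2 → ℂ) : ℂ := gtr D fun u v => a u * b v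

/-- the covector `g^{ij} ⟨X_{ij}, X_l⟩ + ⟨X, X_l⟩ / 2` -/
def dr (q : J2 P2 C3) (l : P2) : ℂ :=
  gtr q.2.1 (fun u v => q.2.2 u v ⬝ᵥ q.2.1 l) + q.1 ⬝ᵥ q.2.1 l / 2

/-- the drift Laplacian `Δ - ⟨X, ∇ ·⟩ / 2` applied to the jet of a function -/
def drift (q : J2 P2 C3) (a : J2 P2 ℂ) : ℂ :=
  gtr q.2.1 (fun u v => a.2.2 u v) - gco q.2.1 (fun u => a.2.1 u) (dr q)

/-- a unit normal is proportional to `nor` -/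
theorem nor_eq {D : P2 →L[ℝ] C3} {n : C3} (hg : gdet D ≠ 0) (hn : n ⬝ᵥ n = 1)
    (h1 : ∀ u, n ⬝ᵥ D u = 0) :
    (n ⬝ᵥ nor D) ^ 2 = gdet D ∧ ∀ v, v ⬝ᵥ nor D = (n ⬝ᵥ nor D) * (v ⬝ᵥ n) := by
  have e : ∀ v, gdet D * (v ⬝ᵥ n) = (v ⬝ᵥ nor D) * (n ⬝ᵥ nor D) := fun v => by
    have := expand_dot v n (t1 D) (t2 D)
    rw [show n ⬝ᵥ t1 D = 0 from h1 _, show n ⬝ᵥ t2 D = 0 from h1 _] at this
    unfold gdet nor
    linear_combination this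
  have e1 : (n ⬝ᵥ nor D) ^ 2 = gdet D := by
    have := e n
    rw [hn] at this
    linear_combination -this
  refine ⟨e1, fun v => ?_⟩
  have hs : n ⬝ᵥ nor D ≠ 0 := fun h => hg (by rw [← e1, h]; ring)
  apply mul_right_cancel₀ hs
  linear_combination -(e v) - (v ⬝ᵥ n) * e1

/-- the linearised operator in terms of a unit normal `n` with derivative `n'` -/
theorem dnum_eq {q : J2 P2 C3} {n : C3} {n' : P2 → C3} (hg : gdet q.2.1 ≠ 0) (hn : n ⬝ᵥ n = 1)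
    (h1 : ∀ u, n ⬝ᵥ q.2.1 u = 0) (h2 : ∀ u, n' u ⬝ᵥ n = 0)
    (h3 : ∀ u v, n' u ⬝ᵥ q.2.1 v = -(q.2.2 u v ⬝ᵥ n)) (hs : ∀ u v, q.2.2 u v = q.2.2 v u)
    (h0 : num q = 0) (p : J2 P2 C3) :
    dnum q p = (n ⬝ᵥ nor q.2.1) *
      (gtr q.2.1 (fun u v => p.2.2 u v ⬝ᵥ n + p.2.1 u ⬝ᵥ n' v + p.2.1 v ⬝ᵥ n' u) -
        gco q.2.1 (fun u => p.2.1 u ⬝ᵥ n) (dr q) + p.1 ⬝ᵥ n / 2) := by
  obtain ⟨X, D, B⟩ := q
  obtain ⟨Z, E, C⟩ := p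
  simp only at hg h1 h3 hs
  obtain ⟨e1, e2⟩ := nor_eq hg hn h1
  have hG : gdet D = (t1 D ⬝ᵥ t1 D) * (t2 D ⬝ᵥ t2 D) - (t1 D ⬝ᵥ t2 D) ^ 2 := rfl
  have c : ∀ v, v ⬝ᵥ dnor D E = (((t2 D ⬝ᵥ t2 D) * (t1 E ⬝ᵥ t1 D) - (t1 D ⬝ᵥ t2 D) * (t1 E ⬝ᵥ t2 D) +
      ((t1 D ⬝ᵥ t1 D) * (t2 E ⬝ᵥ t2 D) - (t1 D ⬝ᵥ t2 D) * (t2 E ⬝ᵥ t1 D))) *
        ((n ⬝ᵥ nor D) * (v ⬝ᵥ n)) -
      (n ⬝ᵥ nor D) * (t1 E ⬝ᵥ n) * ((t2 D ⬝ᵥ t2 D) * (v ⬝ᵥ t1 D) - (t1 D ⬝ᵥ t2 D) * (v ⬝ᵥ t2 D)) -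
      (n ⬝ᵥ nor D) * (t2 E ⬝ᵥ n) * ((t1 D ⬝ᵥ t1 D) * (v ⬝ᵥ t2 D) - (t1 D ⬝ᵥ t2 D) * (v ⬝ᵥ t1 D))) /
        gdet D := fun v => by
    have a1 := expand_cross1 (t1 E) v (t1 D) (t2 D)
    have a2 := expand_cross2 (t2 E) v (t1 D) (t2 D)
    rw [← hG, show t1 D ⨯₃ t2 D = nor D from rfl, e2 v] at a1 a2
    rw [e2 (t1 E)] at a1
    rw [e2 (t2 E)] at a2
    rw [eq_div_iff hg, dnor, dotProduct_add]
    linear_combination a1 + a2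
  have d : ∀ a u, a ⬝ᵥ n' u = -((t2 D ⬝ᵥ t2 D) * (a ⬝ᵥ t1 D) * (B u (1, 0) ⬝ᵥ n) -
      (t1 D ⬝ᵥ t2 D) * ((a ⬝ᵥ t1 D) * (B u (0, 1) ⬝ᵥ n) + (a ⬝ᵥ t2 D) * (B u (1, 0) ⬝ᵥ n)) +
      (t1 D ⬝ᵥ t1 D) * (a ⬝ᵥ t2 D) * (B u (0, 1) ⬝ᵥ n)) / gdet D := fun a u => by
    have a1 := expand_dot a (n' u) (t1 D) (t2 D)
    rw [← hG, show t1 D ⨯₃ t2 D = nor D from rfl, e2 (n' u), h2, show n' u ⬝ᵥ t1 D = _ from h3 u _,
      show n' u ⬝ᵥ t2 D = _ from h3 u _] at a1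
    rw [eq_div_iff hg]
    linear_combination a1
  have hs0 : n ⬝ᵥ nor D ≠ 0 := fun h => hg (by rw [← e1, h]; ring)
  have k0 : X ⬝ᵥ n = -2 * (((t2 D ⬝ᵥ t2 D) * (B (1, 0) (1, 0) ⬝ᵥ n) -
      (t1 D ⬝ᵥ t2 D) * (B (1, 0) (0, 1) ⬝ᵥ n + B (1, 0) (0, 1) ⬝ᵥ n) +
      (t1 D ⬝ᵥ t1 D) * (B (0, 1) (0, 1) ⬝ᵥ n)) / gdet D) := by
    simp only [num, gtr, e2 X, e2 (B _ _), hs (0, 1) (1, 0)] at h0
    apply mul_left_cancel₀ hs0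
    linear_combination 2 * h0
  simp only [dnum, dgtr, dgdet, gtr, gco, dr, c, d, e2 Z, e2 (B _ _), e2 (C _ _), hs (0, 1) (1, 0),
    k0]
  simp only [t1, t2] at hG ⊢
  generalize n ⬝ᵥ nor D = s
  generalize gdet D = G at hg hG
  field_simp
  linear_combination (4 * s * ((E (0, 1) ⬝ᵥ D (0, 1)) * (B (1, 0) (1, 0) ⬝ᵥ n) -
    (E (1, 0) ⬝ᵥ D (0, 1) + E (0, 1) ⬝ᵥ D (1, 0)) * (B (1, 0) (0, 1) ⬝ᵥ n) +
    (E (1, 0) ⬝ᵥ D (1, 0)) * (B (0, 1) (0, 1) ⬝ᵥ n))) * hG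

end Vale.Agent.P218F.Inj
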