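import Vale.Agent.P218F.EndSpec
import Vale.Agent.P218F.ConeGeom
import Vale.Agent.P218F.InjAlg

/-! Cylindrical ends: triples are `C²` functions, the shrinker operator in the cylinder chart,
derivatives of holomorphic families of triples. -/

set_option maxSynthPendingDepth 3

namespace Vale.Agent.P218F.End

open Set Filter Topology Wien Core Matrix
open Cone (W A T3 BC fn fn1 fn2 vT vYT vTT lin2)
open scoped ContDiff Real RealInnerProductSpace

noncomputable section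

variable {a b : ℝ} {p : T3 0}

lemma Tri.hasFDerivWithinAt (h : Tri a b p) {z : P2} (hz : z.1 ∈ Icc a b) :
    HasFDerivWithinAt (fn p) (fn1 p z) (Icc a b ×ˢ univ) z :=
  h.d0.hasFDerivWithinAt_val (convex_Icc a b) hz

lemma Tri.hasFDerivWithinAt1 (h : Tri a b p) {z : P2} (hz : z.1 ∈ Icc a b) :
    HasFDerivWithinAt (fn1 p) (fn2 p z) (Icc a b ×ˢ univ) z := by
  have h1 := h.d1.hasFDerivWithinAt_val (convex_Icc a b) hz
  have h2 := h.d0.dth.hasFDerivWithinAt_val (convex_Icc a b) hz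
  refine ((lin2 (V := ℂ)).hasFDerivAt.comp_hasFDerivWithinAt z (h1.prodMk h2)).congr_fderiv ?_
  refine ContinuousLinearMap.ext fun v => ContinuousLinearMap.ext fun w => ?_
  simp [lin2, fn2, vYT, vTT, Cone.val_eq]
  ring

lemma mem_nhds_strip {z : P2} (hz : z.1 ∈ Ioo a b) : Icc a b ×ˢ (univ : Set ℝ) ∈ 𝓝 z :=
  prod_mem_nhds (Icc_mem_nhds hz.1 hz.2) univ_mem

lemma Tri.contDiffOn (h : Tri a b p) : ContDiffOn ℝ 2 (fn p) (Icc a b ×ˢ univ) :=
  contDiffOn_two_val (convex_Icc a b) h.d0 h.d1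

lemma Tri.contDiffAt (h : Tri a b p) {z : P2} (hz : z.1 ∈ Ioo a b) : ContDiffAt ℝ 2 (fn p) z :=
  h.contDiffOn.contDiffAt (mem_nhds_strip hz)

lemma Tri.hasFDerivAt (h : Tri a b p) {z : P2} (hz : z.1 ∈ Ioo a b) :
    HasFDerivAt (fn p) (fn1 p z) z :=
  (h.hasFDerivWithinAt (Ioo_subset_Icc_self hz)).hasFDerivAt (mem_nhds_strip hz)

lemma Tri.jet2_eq (h : Tri a b p) {z : P2} (hz : z.1 ∈ Ioo a b) :
    jet2 (fn p) z = (fn p z, fn1 p z, fn2 p z) := by
  have e : fderiv ℝ (fn p) =ᶠ[𝓝 z] fn1 p := by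
    filter_upwards [(isOpen_Ioo.preimage continuous_fst).mem_nhds hz] with w hw
    exact (h.hasFDerivAt hw).fderiv
  unfold jet2
  rw [e.self_of_nhds, e.fderiv_eq,
    ((h.hasFDerivWithinAt1 (Ioo_subset_Icc_self hz)).hasFDerivAt (mem_nhds_strip hz)).fderiv]

theorem tri_proof : TriStmt := fun _ _ p _ h =>
  ⟨h.contDiffOn, Cone.continuous_fn p, Cone.continuous_fn1 p, Cone.continuous_fn2 p,
    fun _ hz => ⟨h.hasFDerivWithinAt hz, h.hasFDerivWithinAt1 hz⟩,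
    fun _ hz => ⟨h.contDiffAt hz, h.jet2_eq hz⟩⟩

/-! ### The cylinder chart -/

/-- the angular direction -/
def eT (a b : P218FT.E3) : P2 → C3 := fun z => cE ((-Real.sin z.2) • a + Real.cos z.2 • b)

section chart

variable {a b c : P218FT.E3}

lemma hd_r (a b : P218FT.E3) (t : ℝ) : HasDerivAt (fun t => cE (Real.cos t • a + Real.sin t • b))
    (cE ((-Real.sin t) • a + Real.cos t • b)) t :=
  cE.hasFDerivAt.comp_hasDerivAt t
    (((Real.hasDerivAt_cos t).smul_const a).add ((Real.hasDerivAt_sin t).smul_const b))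

lemma hd_t (a b : P218FT.E3) (t : ℝ) :
    HasDerivAt (fun t => cE ((-Real.sin t) • a + Real.cos t • b))
      (-cE (Real.cos t • a + Real.sin t • b)) t := by
  have h := cE.hasFDerivAt.comp_hasDerivAt t
    (((Real.hasDerivAt_sin t).neg.smul_const a).add ((Real.hasDerivAt_cos t).smul_const b))
  rwa [neg_smul, neg_smul, ← neg_add, map_neg] at h

lemma contDiff_eR (a b : P218FT.E3) : ContDiff ℝ ∞ (eR a b) :=
  cE.contDiff.comp (((Real.contDiff_cos.comp contDiff_snd).smul contDiff_const).add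
    ((Real.contDiff_sin.comp contDiff_snd).smul contDiff_const))

lemma contDiff_eT (a b : P218FT.E3) : ContDiff ℝ ∞ (eT a b) :=
  cE.contDiff.comp (((Real.contDiff_sin.comp contDiff_snd).neg.smul contDiff_const).add
    ((Real.contDiff_cos.comp contDiff_snd).smul contDiff_const))

lemma contDiff_axis (c : P218FT.E3) : ContDiff ℝ ∞ fun z : P2 => (z.1 : ℂ) • cE c :=
  (Complex.ofRealCLM.contDiff.comp contDiff_fst).smul contDiff_const

lemma contDiffAt_cylY {u : P2 → ℂ} {z : P2} {n : ℕ∞} (hu : ContDiffAt ℝ n u z) :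
    ContDiffAt ℝ n (cylY a b c u) z :=
  (hu.smul ((contDiff_eR a b).contDiffAt.of_le (by exact_mod_cast le_top))).add
    ((contDiff_axis c).contDiffAt.of_le (by exact_mod_cast le_top))

lemma jet2_eR (a b : P218FT.E3) (z : P2) : (jet2 (eR a b) z).1 = eR a b z ∧
    (∀ u, (jet2 (eR a b) z).2.1 u = u.2 • eT a b z) ∧
    ∀ u v, (jet2 (eR a b) z).2.2 u v = (u.2 * v.2) • -eR a b z :=
  Cone.jet2_clm_comp (ContinuousLinearMap.snd ℝ ℝ ℝ) (hd_r a b) (hd_t a b) z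

lemma jet2_axis (c : P218FT.E3) (z : P2) :
    (jet2 (fun z : P2 => (z.1 : ℂ) • cE c) z).1 = (z.1 : ℂ) • cE c ∧
    (∀ u, (jet2 (fun z : P2 => (z.1 : ℂ) • cE c) z).2.1 u = u.1 • cE c) ∧
    ∀ u v, (jet2 (fun z : P2 => (z.1 : ℂ) • cE c) z).2.2 u v = (u.1 * v.1) • (0 : C3) :=
  Cone.jet2_clm_comp (ContinuousLinearMap.fst ℝ ℝ ℝ) (f := fun t : ℝ => (t : ℂ) • cE c)
    (fun t => by simpa using (Complex.ofRealCLM.hasDerivAt (x := t)).smul_const (cE c))
    (fun t => hasDerivAt_const t _) z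

/-- the two-jet of `u e_r` in the frame `(e_r, e_θ, c)` -/
lemma jet2_rad (a b c : P218FT.E3) {u : P2 → ℂ} {z : P2} (hu : ContDiffAt ℝ 2 u z) :
    let J := jet2 u z
    let w := Cone.vec (eR a b z) (eT a b z) (cE c)
    let q := jet2 (fun z => u z • eR a b z) z
    q.1 = w J.1 0 0 ∧ q.2.1 (1, 0) = w (J.2.1 (1, 0)) 0 0 ∧
    q.2.1 (0, 1) = w (J.2.1 (0, 1)) J.1 0 ∧
    q.2.2 (1, 0) (1, 0) = w (J.2.2 (1, 0) (1, 0)) 0 0 ∧
    q.2.2 (1, 0) (0, 1) = w (J.2.2 (1, 0) (0, 1)) (J.2.1 (1, 0)) 0 ∧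
    q.2.2 (0, 1) (1, 0) = w (J.2.2 (1, 0) (0, 1)) (J.2.1 (1, 0)) 0 ∧
    q.2.2 (0, 1) (0, 1) = w (J.2.2 (0, 1) (0, 1) - J.1) (2 * J.2.1 (0, 1)) 0 := by
  intro J w q
  have e1 : q = J.smul (jet2 (eR a b) z) :=
    jet2_smul hu ((contDiff_eR a b).contDiffAt.of_le P218FT.two_le_inf)
  obtain ⟨b0, b1, b2⟩ := jet2_eR a b z
  have hs : J.2.2 (0, 1) (1, 0) = J.2.2 (1, 0) (0, 1) := jet2_symm hu _ _
  rw [e1]
  simp only [J2.smul_fst, J2.smul_one, J2.smul_two, b0, b1, b2, hs]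
  refine ⟨?_, ?_, ?_, ?_, ?_, ?_, ?_⟩ <;> (ext i; simp [w, Cone.vec]; try ring)

/-- the two-jet of the polar graph in the frame `(e_r, e_θ, c)` -/
lemma jet2_cylY (a b c : P218FT.E3) {u : P2 → ℂ} {z : P2} (hu : ContDiffAt ℝ 2 u z) :
    let J := jet2 u z
    let w := Cone.vec (eR a b z) (eT a b z) (cE c)
    let q := jet2 (cylY a b c u) z
    q.1 = w J.1 0 z.1 ∧ q.2.1 (1, 0) = w (J.2.1 (1, 0)) 0 1 ∧
    q.2.1 (0, 1) = w (J.2.1 (0, 1)) J.1 0 ∧
    q.2.2 (1, 0) (1, 0) = w (J.2.2 (1, 0) (1, 0)) 0 0 ∧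
    q.2.2 (1, 0) (0, 1) = w (J.2.2 (1, 0) (0, 1)) (J.2.1 (1, 0)) 0 ∧
    q.2.2 (0, 1) (1, 0) = w (J.2.2 (1, 0) (0, 1)) (J.2.1 (1, 0)) 0 ∧
    q.2.2 (0, 1) (0, 1) = w (J.2.2 (0, 1) (0, 1) - J.1) (2 * J.2.1 (0, 1)) 0 := by
  intro J w q
  have e1 : q = jet2 (fun z => u z • eR a b z) z + jet2 (fun z : P2 => (z.1 : ℂ) • cE c) z :=
    jet2_add (hu.smul ((contDiff_eR a b).contDiffAt.of_le P218FT.two_le_inf))
      ((contDiff_axis c).contDiffAt.of_le P218FT.two_le_inf)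
  obtain ⟨a0, a1, a2, a11, a12, a21, a22⟩ := jet2_rad a b c hu
  obtain ⟨b0, b1, b2⟩ := jet2_axis c z
  rw [e1]
  simp only [Prod.fst_add, Prod.snd_add, _root_.add_apply, a0, a1, a2, a11, a12, a21, a22,
    b0, b1, b2]
  refine ⟨?_, ?_, ?_, ?_, ?_, ?_, ?_⟩ <;> (ext i; simp [w, J, Cone.vec])

/-- the moving frame is orthonormal -/
lemma triple_rot (T : P218FT.Triple a b c) (t : ℝ) :
    P218FT.Triple (Real.cos t • a + Real.sin t • b) ((-Real.sin t) • a + Real.cos t • b) c := by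
  have aa : ⟪a, a⟫ = 1 := by rw [real_inner_self_eq_norm_sq, T.na]; norm_num
  have bb : ⟪b, b⟫ = 1 := by rw [real_inner_self_eq_norm_sq, T.nb]; norm_num
  have ba : ⟪b, a⟫ = 0 := by rw [real_inner_comm]; exact T.ab
  have n1 : ∀ v : P218FT.E3, ⟪v, v⟫ = 1 → ‖v‖ = 1 := fun v hv => by
    rw [real_inner_self_eq_norm_sq] at hv
    exact (pow_eq_one_iff_of_nonneg (norm_nonneg v) two_ne_zero).1 hv
  have hs := Real.sin_sq_add_cos_sq t
  refine ⟨n1 _ ?_, n1 _ ?_, T.nc, ?_, ?_, ?_⟩ <;>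
    simp only [inner_add_left, inner_add_right, real_inner_smul_left, real_inner_smul_right, aa,
      bb, ba, T.ab, T.ac, T.bc] <;> nlinarith

lemma frame_dot (T : P218FT.Triple a b c) (z : P2) (x1 x2 x3 y1 y2 y3 : ℂ) :
    Cone.vec (eR a b z) (eT a b z) (cE c) x1 x2 x3 ⬝ᵥ Cone.vec (eR a b z) (eT a b z) (cE c) y1 y2 y3 =
      x1 * y1 + x2 * y2 + x3 * y3 := by
  have T' := triple_rot T z.2
  have n : ∀ {v : P218FT.E3}, ‖v‖ = 1 → cE v ⬝ᵥ cE v = 1 := fun hv => by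
    rw [Cone.cE_dot, real_inner_self_eq_norm_sq, hv]; simp
  have o : ∀ {v w : P218FT.E3}, ⟪v, w⟫ = 0 → cE v ⬝ᵥ cE w = 0 := fun hv => by
    rw [Cone.cE_dot, hv]; simp
  rw [eR, eT, Cone.vec_dot (n T'.na) (n T'.nb) (n T'.nc) (o T'.ab) (o T'.ac) (o T'.bc), one_mul]

/-- the orientation of the frame -/
lemma frame_sq (T : P218FT.Triple a b c) (z : P2) :
    (eR a b z ⬝ᵥ (eT a b z ⨯₃ cE c)) ^ 2 = 1 := by
  have d := frame_dot T z
  have h := Cone.triple_sq (eR a b z) (eT a b z) (cE c)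
  have e1 := d 1 0 0 1 0 0
  have e2 := d 0 1 0 0 1 0
  have e3 := d 0 0 1 0 0 1
  have e4 := d 1 0 0 0 1 0
  have e5 := d 1 0 0 0 0 1
  have e6 := d 0 1 0 0 0 1
  simp only [Cone.vec, one_smul, zero_smul, add_zero, zero_add, mul_one, mul_zero] at e1 e2 e3 e4 e5 e6
  rw [h, e1, e2, e3, e4, e5, e6]
  ring

theorem geom_proof : GeomStmt := by
  intro a b c T u z hu J G
  obtain ⟨q0, q1, q2, q11, q12, q21, q22⟩ := jet2_cylY a b c hu
  have hdot := frame_dot T z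
  have hσ2 := frame_sq T z
  set σ := eR a b z ⬝ᵥ (eT a b z ⨯₃ cE c) with hσd
  have hσ0 : σ ≠ 0 := fun e => by rw [e] at hσ2; norm_num at hσ2
  have hV : eR a b z = Cone.vec (eR a b z) (eT a b z) (cE c) 1 0 0 := by simp [Cone.vec]
  have ht1 : t1 (fderiv ℝ (cylY a b c u) z) = _ := q1
  have ht2 : t2 (fderiv ℝ (cylY a b c u) z) = _ := q2
  have hg : gdet (fderiv ℝ (cylY a b c u) z) = G := by
    rw [gdet, ht1, ht2, hdot, hdot, hdot]; simp only [G, J, jet2]; ring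
  have hn : eR a b z ⬝ᵥ nor (fderiv ℝ (cylY a b c u) z) = -u z * σ := by
    conv_lhs => rw [nor, ht1, ht2]; arg 1; rw [hV]
    rw [Cone.vec_triple]; simp only [jet2]; ring
  refine ⟨hg, ?_, by rw [hn, mul_pow, hσ2]; ring, fun h1 h2 => ?_⟩
  · have : cylY a b c u z = _ := q0
    rw [this, hdot]; simp only [jet2]; ring
  · have hg' : gdet (jet2 (cylY a b c u) z).2.1 = G := hg
    have hn' : eR a b z ⬝ᵥ nor (jet2 (cylY a b c u) z).2.1 = -u z * σ := hn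
    have ht1' : t1 (jet2 (cylY a b c u) z).2.1 = _ := q1
    have ht2' : t2 (jet2 (cylY a b c u) z).2.1 = _ := q2
    have e0 : (jet2 u z).1 = u z := rfl
    rw [Shr, shr, hn', gtr, hg', nor, ht1', ht2', q0, q11, q12, q21, q22]
    simp only [Cone.vec_triple, hdot, ← hσd, epol, e0]
    field_simp
    simp only [G, J]
    ring

/-- the orientation `± 1` of the frame -/
def sg (a b c : P218FT.E3) (z : P2) : ℂ := eR a b z ⬝ᵥ (eT a b z ⨯₃ cE c)

lemma sg_sq (T : P218FT.Triple a b c) (z : P2) : sg a b c z ^ 2 = 1 := frame_sq T z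

lemma sg_ne (T : P218FT.Triple a b c) (z : P2) : sg a b c z ≠ 0 := fun e => by
  have := sg_sq T z
  rw [e] at this
  norm_num at this

/-- the derivative of `epol` at `(r, p, q, a, m, t)` in the direction `(r', p', q', a', m', t')` -/
def depol {B : Type*} [Field B] (z r p q a m t r' p' q' a' m' t' : B) : B :=
  ((3 * r ^ 2 + q ^ 2) * a - 2 * p * q * m + (1 + p ^ 2) * t - 2 * r * (1 + p ^ 2) +
      (3 * r ^ 2 * (1 + p ^ 2) + q ^ 2) * (r - z * p) / 2 +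
      r * (r ^ 2 * (1 + p ^ 2) + q ^ 2) / 2) * r' +
    (-2 * r * q * m + 2 * r * p * t - 2 * r ^ 2 * p + r ^ 3 * p * (r - z * p) -
      r * (r ^ 2 * (1 + p ^ 2) + q ^ 2) * z / 2) * p' +
    (2 * r * q * a - 2 * r * p * m - 4 * q + r * q * (r - z * p)) * q' +
    r * (r ^ 2 + q ^ 2) * a' - 2 * r * p * q * m' + r * (1 + p ^ 2) * t'

/-- the numerator of the operator in the cylinder chart -/
theorem num_cylY (T : P218FT.Triple a b c) {u : P2 → ℂ} {z : P2} (hu : ContDiffAt ℝ 2 u z) :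
    let J := jet2 u z
    let G := u z ^ 2 * (1 + J.2.1 (1, 0) ^ 2) + J.2.1 (0, 1) ^ 2
    G ≠ 0 → G * Inj.num (jet2 (cylY a b c u) z) = -sg a b c z *
      epol (z.1 : ℂ) (u z) (J.2.1 (1, 0)) (J.2.1 (0, 1)) (J.2.2 (1, 0) (1, 0))
        (J.2.2 (1, 0) (0, 1)) (J.2.2 (0, 1) (0, 1)) := by
  intro J G h2
  obtain ⟨q0, q1, q2, q11, q12, q21, q22⟩ := jet2_cylY a b c hu
  have hdot := frame_dot T z
  have hg : gdet (jet2 (cylY a b c u) z).2.1 = G := (geom_proof a b c T u z hu).1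
  have ht1 : t1 (jet2 (cylY a b c u) z).2.1 = _ := q1
  have ht2 : t2 (jet2 (cylY a b c u) z).2.1 = _ := q2
  have e0 : (jet2 u z).1 = u z := rfl
  rw [Inj.num, gtr, hg, nor, ht1, ht2, q0, q11, q12, q21, q22]
  simp only [Cone.vec_triple, hdot, epol, e0, sg]
  field_simp
  simp only [G, J]
  ring

/-- the linearised operator in the cylinder chart, for radial variations -/
theorem dnum_cylY (T : P218FT.Triple a b c) {u w : P2 → ℂ} {z : P2} (hu : ContDiffAt ℝ 2 u z)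
    (hw : ContDiffAt ℝ 2 w z) :
    let J := jet2 u z
    let K := jet2 w z
    let G := u z ^ 2 * (1 + J.2.1 (1, 0) ^ 2) + J.2.1 (0, 1) ^ 2
    G ≠ 0 → epol (z.1 : ℂ) (u z) (J.2.1 (1, 0)) (J.2.1 (0, 1)) (J.2.2 (1, 0) (1, 0))
        (J.2.2 (1, 0) (0, 1)) (J.2.2 (0, 1) (0, 1)) = 0 →
      G * Inj.dnum (jet2 (cylY a b c u) z) (jet2 (fun z => w z • eR a b z) z) = -sg a b c z *
        depol (z.1 : ℂ) (u z) (J.2.1 (1, 0)) (J.2.1 (0, 1)) (J.2.2 (1, 0) (1, 0))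
          (J.2.2 (1, 0) (0, 1)) (J.2.2 (0, 1) (0, 1)) (w z) (K.2.1 (1, 0)) (K.2.1 (0, 1))
          (K.2.2 (1, 0) (1, 0)) (K.2.2 (1, 0) (0, 1)) (K.2.2 (0, 1) (0, 1)) := by
  intro J K G h2 h0
  obtain ⟨q0, q1, q2, q11, q12, q21, q22⟩ := jet2_cylY a b c hu
  obtain ⟨p0, p1, p2, p11, p12, p21, p22⟩ := jet2_rad a b c hw
  have hdot := frame_dot T z
  have hg : gdet (jet2 (cylY a b c u) z).2.1 = G := (geom_proof a b c T u z hu).1
  have e0 : (jet2 u z).1 = u z := rfl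
  have e1 : (jet2 w z).1 = w z := rfl
  simp only [Inj.dnum, Inj.dgtr, Inj.dgdet, Inj.dnor, gtr, hg, nor, t1, t2, q0, q1, q2, q11, q12,
    q21, q22, p0, p1, p2, p11, p12, p21, p22, dotProduct_add, Cone.vec_triple, hdot, e0, e1]
  simp only [epol] at h0
  change _ = -(eR a b z ⬝ᵥ (eT a b z ⨯₃ cE c)) * _
  generalize eR a b z ⬝ᵥ (eT a b z ⨯₃ cE c) = σ
  simp only [depol]
  field_simp
  simp only [G, J, K] at h0 ⊢
  linear_combination (4 * σ * (u z * w z * (1 + (jet2 u z).2.1 (1, 0) ^ 2) +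
    u z ^ 2 * (jet2 u z).2.1 (1, 0) * (jet2 w z).2.1 (1, 0) +
    (jet2 u z).2.1 (0, 1) * (jet2 w z).2.1 (0, 1))) * h0

end chart

/-! ### Derivatives of families -/

/-- the linearised equation at `p`, for `q`, on `[a, b] × S¹` -/
def DEq (a b : ℝ) (p q : T3 0) : Prop := ∀ z ∈ Icc a b, ∀ θ,
  depol (z : ℂ) (Cone.val p.1 z θ) (Cone.val p.2.1 z θ) (vT p z θ) (Cone.val p.2.2 z θ) (vYT p z θ)
    (vTT p z θ) (Cone.val q.1 z θ) (Cone.val q.2.1 z θ) (vT q z θ) (Cone.val q.2.2 z θ)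
    (vYT q z θ) (vTT q z θ) = 0

lemma hasDerivAt_epol (z : ℂ) {r p q a m t : ℂ → ℂ} {r' p' q' a' m' t' s : ℂ}
    (hr : HasDerivAt r r' s) (hp : HasDerivAt p p' s) (hq : HasDerivAt q q' s)
    (ha : HasDerivAt a a' s) (hm : HasDerivAt m m' s) (ht : HasDerivAt t t' s) :
    HasDerivAt (fun s => epol z (r s) (p s) (q s) (a s) (m s) (t s))
      (depol z (r s) (p s) (q s) (a s) (m s) (t s) r' p' q' a' m' t') s := by
  have h1 := (hp.pow 2).const_add 1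
  have h := ((((((hr.mul ((hr.pow 2).add (hq.pow 2))).mul ha).sub
    ((((hr.const_mul 2).mul hp).mul hq).mul hm)).add ((hr.mul h1).mul ht)).sub
    ((hr.pow 2).mul h1)).sub ((hq.pow 2).const_mul 2)).add
    (((hr.mul (((hr.pow 2).mul h1).add (hq.pow 2))).mul (hr.sub (hp.const_mul z))).div_const 2)
  refine HasDerivAt.congr_deriv h ?_
  simp only [depol, Pi.mul_apply, Pi.add_apply, Pi.sub_apply, Pi.pow_apply]
  push_cast
  ring

/-- solutions in the cylinder chart -/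
theorem Tri.shr_eq_zero {a b c : P218FT.E3} (T : P218FT.Triple a b c) {α β : ℝ} (h : Tri α β p)
    (he : PtEq α β p) {z : P2} (hz : z.1 ∈ Ioo α β) (h1 : fn p z ≠ 0)
    (h2 : fn p z ^ 2 * (1 + Cone.val p.2.1 z.1 z.2 ^ 2) + vT p z.1 z.2 ^ 2 ≠ 0) :
    Shr (cylY a b c (fn p)) (eR a b) z = 0 := by
  have k := (geom_proof a b c T (fn p) z (h.contDiffAt hz)).2.2.2
  simp only [h.jet2_eq hz, Cone.fn1_y, Cone.fn1_t, Cone.fn2_yy, Cone.fn2_yt, Cone.fn2_tt] at k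
  exact (mul_eq_zero.1 ((k h1 h2).trans (he z.1 (Ioo_subset_Icc_self hz) z.2))).resolve_left
    (mul_ne_zero h1 h2)

theorem Tri.num_eq_zero {a b c : P218FT.E3} (T : P218FT.Triple a b c) {α β : ℝ} (h : Tri α β p)
    (he : PtEq α β p) {z : P2} (hz : z.1 ∈ Ioo α β)
    (h2 : fn p z ^ 2 * (1 + Cone.val p.2.1 z.1 z.2 ^ 2) + vT p z.1 z.2 ^ 2 ≠ 0) :
    Inj.num (jet2 (cylY a b c (fn p)) z) = 0 := by
  have k := num_cylY T (h.contDiffAt hz)
  simp only [h.jet2_eq hz, Cone.fn1_y, Cone.fn1_t, Cone.fn2_yy, Cone.fn2_yt, Cone.fn2_tt] at k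
  have k2 := k h2
  rw [show epol _ (fn p z) _ _ _ _ _ = 0 from he z.1 (Ioo_subset_Icc_self hz) z.2, mul_zero] at k2
  exact (mul_eq_zero.1 k2).resolve_left h2

/-- solutions of the linearised equation in the cylinder chart -/
theorem Tri.dnum_eq_zero {a b c : P218FT.E3} (T : P218FT.Triple a b c) {α β : ℝ} {q : T3 0}
    (h : Tri α β p) (h' : Tri α β q) (he : PtEq α β p) (hl : DEq α β p q) {z : P2}
    (hz : z.1 ∈ Ioo α β)
    (h2 : fn p z ^ 2 * (1 + Cone.val p.2.1 z.1 z.2 ^ 2) + vT p z.1 z.2 ^ 2 ≠ 0) :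
    Inj.dnum (jet2 (cylY a b c (fn p)) z) (jet2 (fun z => fn q z • eR a b z) z) = 0 := by
  have k := dnum_cylY T (h.contDiffAt hz) (h'.contDiffAt hz)
  simp only [h.jet2_eq hz, h'.jet2_eq hz, Cone.fn1_y, Cone.fn1_t, Cone.fn2_yy, Cone.fn2_yt,
    Cone.fn2_tt] at k
  have k2 := k h2 (he z.1 (Ioo_subset_Icc_self hz) z.2)
  rw [show depol _ (fn p z) _ _ _ _ _ (fn q z) _ _ _ _ _ = 0 from
    hl z.1 (Ioo_subset_Icc_self hz) z.2, mul_zero] at k2
  exact (mul_eq_zero.1 k2).resolve_left h2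

section deriv

variable {P : Type} [NormedAddCommGroup P] [NormedSpace ℂ P] {e : P → T3 0} {x : P}

/-- linear identities pass to the derivative -/
lemma clm_fderiv_eq_zero {F G : Type*} [NormedAddCommGroup F] [NormedSpace ℂ F]
    [NormedAddCommGroup G] [NormedSpace ℂ G] {e : P → F} (L : F →L[ℂ] G)
    (he : DifferentiableAt ℂ e x) {g : G} (h : ∀ᶠ x' in 𝓝 x, L (e x') = g) (v : P) :
    L (fderiv ℂ e x v) = 0 := by
  have h1 := (L.hasFDerivAt.comp x he.hasFDerivAt).unique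
    ((hasFDerivAt_const g x).congr_of_eventuallyEq h)
  exact congrArg (fun T : P →L[ℂ] G => T v) h1

lemma zder_iff {s t : ℕ} (hab : a ≤ b) (u : W s) (u' : W t) : ZDer (Icc a b) u u' ↔
    ∀ k, ∀ z ∈ Icc a b, Mode.J a b (cf u' k) z - cf u k z + cf u k b = 0 := by
  refine ⟨fun h k z hz => ?_, fun h k z hz => ?_⟩
  · rw [Mode.J_eq_of_deriv hab (h k), Mode.cl_of_mem hz]; ring
  · have e : ∀ y ∈ Icc a b, cf u k y = Mode.J a b (cf u' k) y + cf u k b := fun y hy => by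
      linear_combination -h k y hy
    exact ((Mode.hasDerivWithinAt_J (cf u' k) hz).add_const _).congr e (e z hz)

lemma zder_fderiv {s t : ℕ} (hab : a ≤ b) (L : T3 0 →L[ℂ] W s) (L' : T3 0 →L[ℂ] W t)
    (he : DifferentiableAt ℂ e x) (h : ∀ᶠ x' in 𝓝 x, ZDer (Icc a b) (L (e x')) (L' (e x')))
    (v : P) : ZDer (Icc a b) (L (fderiv ℂ e x v)) (L' (fderiv ℂ e x v)) := by
  rw [zder_iff hab]
  intro k z hz
  exact clm_fderiv_eq_zero ((Mode.evz z).comp ((Mode.J a b).comp ((cfL t BC k).comp L')) -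
    (Mode.evz z).comp ((cfL s BC k).comp L) + (Mode.evz b).comp ((cfL s BC k).comp L)) he
    (h.mono fun x' hx' => (zder_iff hab _ _).1 hx' k z hz) v

/-- the restriction of triples as a linear map -/
def res3L (a b : ℝ) : T3 0 →L[ℂ] T3 0 := (res a b 2).prodMap ((res a b 1).prodMap (res a b 0))

lemma res3L_apply (a b : ℝ) (p : T3 0) : res3L a b p = res3 a b p := rfl

theorem dtri_proof : DTriStmt := by
  intro a b P _ _ e x hab he h v
  refine ⟨sub_eq_zero.1 (clm_fderiv_eq_zero (res3L a b - ContinuousLinearMap.id ℂ _) he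
    (h.mono fun x' hx' => sub_eq_zero.2 hx'.cl) v), ?_, ?_⟩
  · exact zder_fderiv hab.le (.fst ℂ _ _) ((ContinuousLinearMap.fst ℂ _ _).comp (.snd ℂ _ _)) he
      (h.mono fun x' hx' => hx'.d0) v
  · exact zder_fderiv hab.le ((ContinuousLinearMap.fst ℂ _ _).comp (.snd ℂ _ _))
      ((ContinuousLinearMap.snd ℂ _ _).comp (.snd ℂ _ _)) he (h.mono fun x' hx' => hx'.d1) v

/-- the derivative of a family of solutions solves the linearised equation -/
theorem dEq_fderiv (he : DifferentiableAt ℂ e x) (h : ∀ᶠ x' in 𝓝 x, PtEq a b (e x')) (v : P) :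
    DEq a b (e x) (fderiv ℂ e x v) := by
  intro z hz θ
  have hl : HasDerivAt (fun s : ℂ => x + s • v) v 0 := by
    simpa using ((hasDerivAt_id (0 : ℂ)).smul_const v).const_add x
  have h1 : HasDerivAt (fun s : ℂ => e (x + s • v)) (fderiv ℂ e x v) 0 :=
    HasFDerivAt.comp_hasDerivAt_of_eq 0 he.hasFDerivAt hl (by simp)
  have d : ∀ {s : ℕ} (L : T3 0 →L[ℂ] W s), HasDerivAt (fun s : ℂ => Cone.val (L (e (x + s • v))) z θ)
      (Cone.val (L (fderiv ℂ e x v)) z θ) 0 := fun {s} L =>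
    ((valL s ℂ z θ).comp L).hasFDerivAt.comp_hasDerivAt 0 h1
  have h2 := hasDerivAt_epol (z : ℂ) (d (.fst ℂ _ _))
    (d ((ContinuousLinearMap.fst ℂ _ _).comp (.snd ℂ _ _))) (d ((dth 1 BC).comp (.fst ℂ _ _)))
    (d ((ContinuousLinearMap.snd ℂ _ _).comp (.snd ℂ _ _)))
    (d ((dth 0 BC).comp ((ContinuousLinearMap.fst ℂ _ _).comp (.snd ℂ _ _))))
    (d ((dth 0 BC).comp ((dth 1 BC).comp (.fst ℂ _ _))))
  have ht : Tendsto (fun s : ℂ => x + s • v) (𝓝 0) (𝓝 x) := by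
    simpa using hl.continuousAt.tendsto
  have h3 := h2.unique ((hasDerivAt_const (0 : ℂ) (0 : ℂ)).congr_of_eventuallyEq
    ((ht.eventually h).mono fun s hs => hs z hz θ))
  simp only [zero_smul, add_zero] at h3
  exact h3

/-- a mode of the value, of the first or of the second derivative which is constant in the family
vanishes for the derivative of the family -/
lemma cf_fderiv_eq_zero {s : ℕ} (L : T3 0 →L[ℂ] W s) (he : DifferentiableAt ℂ e x) {k : ℤ} {z : ℝ}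
    {g : ℂ} (h : ∀ᶠ x' in 𝓝 x, cf (L (e x')) k z = g) (v : P) :
    cf (L (fderiv ℂ e x v)) k z = 0 :=
  clm_fderiv_eq_zero ((Mode.evz z).comp ((cfL s BC k).comp L)) he h v

end deriv

end

end Vale.Agent.P218F.End
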