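import Mathlib.Analysis.Calculus.Deriv.MeanValue
import Mathlib.Analysis.Calculus.MeanValue
import Mathlib.Analysis.Calculus.LocalExtr.Basic
import Mathlib.Analysis.Complex.RealDeriv
import Mathlib.Analysis.SpecialFunctions.ExpDeriv
import Mathlib.Analysis.SpecialFunctions.Pow.Deriv
import Mathlib.Analysis.SpecialFunctions.Pow.Asymptotics
import Mathlib.Analysis.SpecialFunctions.Gaussian.GaussianIntegral
import Mathlib.Analysis.SpecialFunctions.ImproperIntegrals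
import Mathlib.Topology.ContinuousMap.Bounded.Normed
import Mathlib.Topology.MetricSpace.Contracting

/-!
Exactly cylindrical ends, scalar mode equation `u'' - (z/2) u' + (1 - k²/2) u = f`:
a priori estimates on `[a, b]` and on `[a, ∞)` for admissible weights, existence on `[a, ∞)`.
-/

namespace Vale.Agent.P218F.EndI

open Set Filter Topology MeasureTheory

noncomputable section

theorem exists_rot (w : ℂ) : ∃ e : ℂ, ‖e‖ = 1 ∧ (e * w).re = ‖w‖ := by
  by_cases h0 : w = 0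
  · exact ⟨1, by simp, by simp [h0]⟩
  · refine ⟨(starRingEnd ℂ) w / (‖w‖ : ℂ), by simp [h0], ?_⟩
    have hn : (‖w‖ : ℂ) ≠ 0 := by simpa using h0
    rw [div_mul_eq_mul_div, Complex.conj_mul', sq, mul_div_assoc, div_self hn]; simp

theorem abs_re_rot {e : ℂ} (he : ‖e‖ = 1) (w : ℂ) : |(e * w).re| ≤ ‖w‖ := by
  simpa [norm_mul, he] using Complex.abs_re_le_norm (e * w)

theorem hasDeriv_re {S : Set ℝ} {y : ℝ → ℂ} {y' : ℂ} {z : ℝ} (e : ℂ)
    (h : HasDerivWithinAt y y' S z) : HasDerivWithinAt (fun s => (e * y s).re) (e * y').re S z :=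
  Complex.reCLM.hasFDerivAt.comp_hasDerivWithinAt z (h.const_mul e)

/-- comparison for a first order equation, from the right end point -/
theorem fence {a b : ℝ} {y S : ℝ → ℂ} {A E Y Y' : ℝ → ℝ}
    (hy : ∀ z ∈ Icc a b, HasDerivWithinAt y (A z * y z + S z) (Icc a b) z)
    (hE : ∀ z ∈ Icc a b, 0 < E z ∧ HasDerivAt E (-(A z * E z)) z)
    (hY : ∀ z ∈ Icc a b, HasDerivAt Y (Y' z) z)
    (hS : ∀ z ∈ Icc a b, Y' z + ‖S z‖ ≤ A z * Y z) {z : ℝ} (hz : z ∈ Icc a b) :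
    E z * (‖y z‖ - Y z) ≤ E b * (‖y b‖ - Y b) := by
  obtain ⟨e, he, hez⟩ := exists_rot (y z)
  have hb : b ∈ Icc a b := ⟨hz.1.trans hz.2, le_rfl⟩
  have hd : ∀ s ∈ Icc a b, HasDerivWithinAt (fun s => E s * ((e * y s).re - Y s))
      (E s * ((e * S s).re + A s * Y s - Y' s)) (Icc a b) s := fun s hs => by
    refine ((hE s hs).2.hasDerivWithinAt.fun_mul
      ((hasDeriv_re e (hy s hs)).fun_sub (hY s hs).hasDerivWithinAt)).congr_deriv ?_
    have : e * (A s * y s + S s) = A s * (e * y s) + e * S s := by ring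
    rw [this, Complex.add_re, Complex.re_ofReal_mul]; ring
  have hm : MonotoneOn (fun s => E s * ((e * y s).re - Y s)) (Icc a b) :=
    monotoneOn_of_hasDerivWithinAt_nonneg (convex_Icc a b)
      (fun s hs => (hd s hs).continuousWithinAt)
      (fun s hs => (hd s (interior_subset hs)).mono interior_subset) fun s hs => by
        have hs' := interior_subset hs
        have h1 := abs_le.1 (abs_re_rot he (S s))
        exact mul_nonneg (hE s hs').1.le (by linarith [hS s hs'])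
  have h1 := hm hz hb hz.2
  simp only [hez] at h1
  refine h1.trans (mul_le_mul_of_nonneg_left ?_ (hE b hb).1.le)
  linarith [(abs_le.1 (abs_re_rot he (y b))).2]

theorem fence_fin {a b : ℝ} {y S : ℝ → ℂ} {A E Y Y' : ℝ → ℝ}
    (hy : ∀ z ∈ Icc a b, HasDerivWithinAt y (A z * y z + S z) (Icc a b) z)
    (hE : ∀ z ∈ Icc a b, 0 < E z ∧ HasDerivAt E (-(A z * E z)) z)
    (hY : ∀ z ∈ Icc a b, HasDerivAt Y (Y' z) z)
    (hS : ∀ z ∈ Icc a b, Y' z + ‖S z‖ ≤ A z * Y z) (hb : ‖y b‖ ≤ Y b) {z : ℝ}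
    (hz : z ∈ Icc a b) : ‖y z‖ ≤ Y z := by
  have h1 := fence hy hE hY hS hz
  have h2 : E b * (‖y b‖ - Y b) ≤ 0 :=
    mul_nonpos_of_nonneg_of_nonpos (hE b ⟨hz.1.trans hz.2, le_rfl⟩).1.le (by linarith)
  have h3 := (hE z hz).1
  by_contra h
  have := mul_pos h3 (sub_pos.2 (not_le.1 h))
  linarith

theorem fence_inf {a : ℝ} {y S : ℝ → ℂ} {A E Y Y' : ℝ → ℝ}
    (hy : ∀ z, a ≤ z → HasDerivWithinAt y (A z * y z + S z) (Ici a) z)
    (hE : ∀ z, a ≤ z → 0 < E z ∧ HasDerivAt E (-(A z * E z)) z)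
    (hY : ∀ z, a ≤ z → 0 ≤ Y z ∧ HasDerivAt Y (Y' z) z)
    (hS : ∀ z, a ≤ z → Y' z + ‖S z‖ ≤ A z * Y z)
    (hb : Tendsto (fun b => E b * ‖y b‖) atTop (𝓝 0)) {z : ℝ} (hz : a ≤ z) : ‖y z‖ ≤ Y z := by
  have h1 : E z * (‖y z‖ - Y z) ≤ 0 := by
    refine ge_of_tendsto hb ((eventually_ge_atTop z).mono fun b hzb => ?_)
    have h2 := fence (a := a) (b := b) (fun s hs => (hy s hs.1).mono Icc_subset_Ici_self)
      (fun s hs => hE s hs.1) (fun s hs => (hY s hs.1).2) (fun s hs => hS s hs.1) ⟨hz, hzb⟩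
    have h3 := mul_nonneg (hE b (hz.trans hzb)).1.le (hY b (hz.trans hzb)).1
    linarith
  have h3 := (hE z hz).1
  by_contra h
  have := mul_pos h3 (sub_pos.2 (not_le.1 h))
  linarith

/-- the integrating factor -/
def gE (n z : ℝ) : ℝ := Real.exp (-(z ^ 2 / 4 + n * z))

theorem gE_pos (n z : ℝ) : 0 < gE n z := Real.exp_pos _

theorem hasDerivAt_gE (n z : ℝ) : HasDerivAt (gE n) (-((z / 2 + n) * gE n z)) z := by
  have h : HasDerivAt (fun z : ℝ => z ^ 2 / 4 + n * z) (z / 2 + n) z := by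
    refine (((hasDerivAt_pow 2 z).div_const 4).fun_add
      ((hasDerivAt_id' z).const_mul n)).congr_deriv ?_
    push_cast; ring
  refine h.fun_neg.exp.congr_deriv ?_
  unfold gE; ring

/-- maximum principle, Dirichlet or Neumann condition at the right end point -/
theorem maxp {a b : ℝ} {u u' f : ℝ → ℂ} {c B B' B'' : ℝ → ℝ}
    (h0 : ∀ z ∈ Icc a b, HasDerivWithinAt u (u' z) (Icc a b) z)
    (h1 : ∀ z ∈ Icc a b,
      HasDerivWithinAt u' ((z / 2 : ℝ) * u' z + c z * u z + f z) (Icc a b) z)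
    (hB : ∀ z ∈ Icc a b, HasDerivAt B (B' z) z ∧ HasDerivAt B' (B'' z) z)
    (hc : ∀ z ∈ Icc a b, 0 < c z)
    (hs : ∀ z ∈ Icc a b, B'' z + ‖f z‖ ≤ z / 2 * B' z + c z * B z)
    (ha : ‖u a‖ ≤ B a) (hb : ‖u b‖ ≤ B b ∨ ‖u' b‖ ≤ B' b) {z : ℝ} (hz : z ∈ Icc a b) :
    ‖u z‖ ≤ B z := by
  obtain ⟨e, he, hez⟩ := exists_rot (u z)
  set g : ℝ → ℝ := fun s => (e * u s).re - B s with hg
  set g' : ℝ → ℝ := fun s => (e * u' s).re - B' s with hg'
  have hd : ∀ s ∈ Icc a b, HasDerivWithinAt g (g' s) (Icc a b) s := fun s hs =>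
    (hasDeriv_re e (h0 s hs)).fun_sub (hB s hs).1.hasDerivWithinAt
  have hd2 : ∀ s ∈ Icc a b, HasDerivWithinAt (fun s => gE 0 s * g' s)
      (gE 0 s * (c s * (e * u s).re + (e * f s).re - B'' s + s / 2 * B' s)) (Icc a b) s :=
    fun s hs => by
    refine ((hasDerivAt_gE 0 s).hasDerivWithinAt.fun_mul
      ((hasDeriv_re e (h1 s hs)).fun_sub (hB s hs).2.hasDerivWithinAt)).congr_deriv ?_
    have : e * ((s / 2 : ℝ) * u' s + c s * u s + f s) =
      (s / 2 : ℝ) * (e * u' s) + c s * (e * u s) + e * f s := by ring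
    rw [this, Complex.add_re, Complex.add_re, Complex.re_ofReal_mul, Complex.re_ofReal_mul]
    ring
  have hcont : ContinuousOn g (Icc a b) := fun s hs => (hd s hs).continuousWithinAt
  obtain ⟨y, hy, hmax⟩ := isCompact_Icc.exists_isMaxOn ⟨z, hz⟩ hcont
  by_contra hneg
  have hgz : 0 < g z := by simp only [hg, hez]; linarith [not_le.1 hneg]
  have hgy : 0 < g y := hgz.trans_le (hmax hz)
  have hay : a < y := lt_of_le_of_ne hy.1 fun h => by
    have := (abs_le.1 (abs_re_rot he (u a))).2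
    rw [← h] at hgy; simp only [hg] at hgy; linarith
  have hy' : g' y ≤ 0 := by
    rcases eq_or_lt_of_le hy.2 with h | h
    · rw [h] at hgy ⊢
      have h2 := (abs_le.1 (abs_re_rot he (u b))).2
      have h3 := (abs_le.1 (abs_re_rot he (u' b))).2
      simp only [hg] at hgy
      rcases hb with hb | hb
      · linarith
      · simp only [hg']; linarith
    · exact ((hmax.isLocalMax (Icc_mem_nhds hay h)).hasDerivAt_eq_zero
        ((hd y hy).hasDerivAt (Icc_mem_nhds hay h))).le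
  obtain ⟨δ, hδ, hpos⟩ := Metric.continuousWithinAt_iff.1 (hcont y hy) (g y) hgy
  set x := max a (y - δ / 2) with hx
  have hxy : x < y := max_lt hay (by linarith)
  have hsub : Icc x y ⊆ Icc a b := Icc_subset_Icc (le_max_left _ _) hy.2
  have hgp : ∀ s ∈ Icc x y, 0 < g s := fun s hs => by
    have h2 : dist s y < δ := by
      rw [Real.dist_eq, abs_lt]
      have := (le_max_right a (y - δ / 2)).trans hs.1
      constructor <;> linarith [hs.2]
    have := hpos (hsub hs) h2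
    rw [Real.dist_eq, abs_lt] at this
    linarith [this.1]
  have hmono : StrictMonoOn (fun s => gE 0 s * g' s) (Icc x y) :=
    strictMonoOn_of_hasDerivWithinAt_pos (convex_Icc x y)
      (fun s hs => ((hd2 s (hsub hs)).mono hsub).continuousWithinAt)
      (fun s hs => (hd2 s (hsub (interior_subset hs))).mono (interior_subset.trans hsub))
      fun s hs => by
        have hs' := interior_subset hs
        have h2 := mul_pos (hc s (hsub hs')) (hgp s hs')
        have h3 := (abs_le.1 (abs_re_rot he (f s))).1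
        have h4 := ‹∀ z ∈ Icc a b, B'' z + ‖f z‖ ≤ z / 2 * B' z + c z * B z› s (hsub hs')
        simp only [hg] at h2
        exact mul_pos (gE_pos 0 s) (by nlinarith)
  have hanti : StrictAntiOn g (Icc x y) :=
    strictAntiOn_of_hasDerivWithinAt_neg (convex_Icc x y) (hcont.mono hsub)
      (fun s hs => (hd s (hsub (interior_subset hs))).mono (interior_subset.trans hsub))
      fun s hs => by
        have hs' := interior_subset hs
        rw [interior_Icc] at hs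
        have h2 := hmono hs' ⟨hxy.le, le_rfl⟩ hs.2
        have h3 : gE 0 y * g' y ≤ 0 := mul_nonpos_of_nonneg_of_nonpos (gE_pos 0 y).le hy'
        by_contra h4
        have := mul_nonneg (gE_pos 0 s).le (not_lt.1 h4)
        simp only at h2
        linarith
  have h5 := hanti ⟨le_rfl, hxy.le⟩ ⟨hxy.le, le_rfl⟩ hxy
  have h6 : g x ≤ g y := hmax (hsub ⟨le_rfl, hxy.le⟩)
  linarith

/-- admissible weights -/
structure AdmD (a : ℝ) (ω ω' ω'' : ℝ → ℝ) : Prop where
  pos : ∀ z, a ≤ z → 0 < ω z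
  d1 : ∀ z, a ≤ z → HasDerivAt ω (ω' z) z
  d2 : ∀ z, a ≤ z → HasDerivAt ω' (ω'' z) z
  up : ∀ z, a ≤ z → z * ω' z ≤ 3 / 4 * ω z
  lo : ∀ z, a ≤ z → -(2 * ω z) ≤ z * ω' z
  sup : ∀ z, a ≤ z → ω'' z ≤ z / 2 * ω' z + 39 / 40 * ω z

/-- admissible weights -/
def Adm (a : ℝ) (ω : ℝ → ℝ) : Prop := ∃ ω' ω'', AdmD a ω ω' ω''

theorem Adm.pos {a : ℝ} {ω : ℝ → ℝ} (h : Adm a ω) {z : ℝ} (hz : a ≤ z) : 0 < ω z :=
  let ⟨_, _, h⟩ := h; h.pos z hz

theorem Adm.continuousOn {a : ℝ} {ω : ℝ → ℝ} (h : Adm a ω) : ContinuousOn ω (Ici a) :=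
  let ⟨_, _, h⟩ := h; fun z hz => (h.d1 z hz).continuousAt.continuousWithinAt

theorem Adm.add_mul {a ε : ℝ} {ω η : ℝ → ℝ} (h : Adm a ω) (h' : Adm a η) (hε : 0 ≤ ε) :
    Adm a fun z => ω z + ε * η z := by
  obtain ⟨ω', ω'', h⟩ := h
  obtain ⟨η', η'', h'⟩ := h'
  refine ⟨fun z => ω' z + ε * η' z, fun z => ω'' z + ε * η'' z, fun z hz => ?_,
    fun z hz => (h.d1 z hz).fun_add ((h'.d1 z hz).const_mul ε),
    fun z hz => (h.d2 z hz).fun_add ((h'.d2 z hz).const_mul ε), fun z hz => ?_, fun z hz => ?_,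
    fun z hz => ?_⟩
  · exact add_pos_of_pos_of_nonneg (h.pos z hz) (mul_nonneg hε (h'.pos z hz).le)
  · nlinarith [h.up z hz, mul_le_mul_of_nonneg_left (h'.up z hz) hε]
  · nlinarith [h.lo z hz, mul_le_mul_of_nonneg_left (h'.lo z hz) hε]
  · nlinarith [h.sup z hz, mul_le_mul_of_nonneg_left (h'.sup z hz) hε]

theorem rpow_pred {z : ℝ} (hz : 0 < z) (q : ℝ) : z * z ^ (q - 1) = z ^ q := by
  rw [Real.rpow_sub_one hz.ne']; field_simp

theorem adm_rpow {a q : ℝ} (ha : 16 ≤ a) (h1 : -(19 / 10) ≤ q) (h2 : q ≤ 3 / 4) :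
    Adm a fun z => z ^ q := by
  refine ⟨fun z => q * z ^ (q - 1), fun z => q * ((q - 1) * z ^ (q - 1 - 1)), fun z hz => ?_,
    fun z hz => Real.hasDerivAt_rpow_const (Or.inl (by linarith)),
    fun z hz => (Real.hasDerivAt_rpow_const (Or.inl (by linarith))).const_mul q, fun z hz => ?_,
    fun z hz => ?_, fun z hz => ?_⟩
  all_goals have hz0 : 0 < z := by linarith
  all_goals have hp : 0 < z ^ q := Real.rpow_pos_of_pos hz0 q
  all_goals have e1 := rpow_pred hz0 q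
  · exact hp
  · nlinarith
  · nlinarith
  · have e2 := rpow_pred hz0 (q - 1)
    have hp2 : 0 < z ^ (q - 1 - 1) := Real.rpow_pos_of_pos hz0 _
    have e3 : z ^ q = z ^ 2 * z ^ (q - 1 - 1) := by rw [← e1, ← e2]; ring
    have h3 : 256 ≤ z ^ 2 := by nlinarith
    have h4 : q * (q - 1) ≤ 6 := by nlinarith
    have h5 : 256 * z ^ (q - 1 - 1) ≤ z ^ q := by rw [e3]; gcongr
    have e4 : z / 2 * (q * z ^ (q - 1)) = q / 2 * z ^ q := by rw [← e1]; ring
    rw [e4]
    nlinarith [mul_le_mul_of_nonneg_right h4 hp2.le]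

theorem adm_one {a : ℝ} (ha : 16 ≤ a) : Adm a fun _ => 1 := by
  simpa using adm_rpow (q := 0) ha (by norm_num) (by norm_num)

theorem Adm.mono {a a' : ℝ} {ω : ℝ → ℝ} (h : Adm a ω) (ha : a ≤ a') : Adm a' ω :=
  let ⟨ω', ω'', h⟩ := h
  ⟨ω', ω'', fun z hz => h.pos z (ha.trans hz), fun z hz => h.d1 z (ha.trans hz),
    fun z hz => h.d2 z (ha.trans hz), fun z hz => h.up z (ha.trans hz),
    fun z hz => h.lo z (ha.trans hz), fun z hz => h.sup z (ha.trans hz)⟩

section apriori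

variable {a b M : ℝ} {ω ω' ω'' : ℝ → ℝ}

/-- the barrier `2 M ω / z` for the first derivative -/
theorem AdmD.barD (h : AdmD a ω ω' ω'') (ha : 16 ≤ a) (hM : 0 ≤ M) {z : ℝ} (hz : a ≤ z) :
    HasDerivAt (fun z => 2 * M * ω z / z) (2 * M * (z * ω' z - ω z) / z ^ 2) z ∧
    2 * M * (z * ω' z - ω z) / z ^ 2 + M * ω z ≤ (z / 2 + 0) * (2 * M * ω z / z) := by
  have hz0 : 0 < z := by linarith
  constructor
  · refine (((h.d1 z hz).const_mul (2 * M)).fun_div (hasDerivAt_id' z) hz0.ne').congr_deriv ?_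
    ring
  · have e : (z / 2 + 0) * (2 * M * ω z / z) = M * ω z := by field_simp; ring
    have : 2 * M * (z * ω' z - ω z) / z ^ 2 ≤ 0 :=
      div_nonpos_of_nonpos_of_nonneg (mul_nonpos_of_nonneg_of_nonpos (by positivity)
        (by linarith [h.up z hz, h.pos z hz])) (by positivity)
    linarith

/-- the two homogeneous solutions -/
structure Hom (α : ℝ) (φ φ' φ'' : ℝ → ℝ) : Prop where
  d1 : ∀ z, HasDerivAt φ (φ' z) z
  d2 : ∀ z, HasDerivAt φ' (φ'' z) z
  eqn : ∀ z, φ'' z = z / 2 * φ' z - α * φ z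
  ge : ∀ z, 16 ≤ z → z ≤ φ z
  le : ∀ z, 16 ≤ z → φ z ≤ z ^ 2
  lo : ∀ z, 16 ≤ z → φ z ≤ z * φ' z
  up : ∀ z, 16 ≤ z → z * φ' z ≤ 4 * φ z

theorem hom_zero : Hom 1 (fun z => z ^ 2 - 2) (fun z => 2 * z) fun _ => 2 where
  d1 z := by simpa using (hasDerivAt_pow 2 z).sub_const 2
  d2 z := by simpa using (hasDerivAt_id' z).const_mul 2
  eqn z := by ring
  ge z hz := by nlinarith
  le z hz := by nlinarith
  lo z hz := by nlinarith
  up z hz := by nlinarith

theorem hom_one : Hom (1 / 2) (fun z => z) (fun _ => 1) fun _ => 0 where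
  d1 z := hasDerivAt_id' z
  d2 z := hasDerivAt_const z 1
  eqn z := by ring
  ge z hz := le_rfl
  le z hz := by nlinarith
  lo z hz := by linarith
  up z hz := by linarith

theorem exists_hom {k : ℤ} (hk : ¬ 2 ≤ |k|) : ∃ φ φ' φ'', Hom (1 - (k : ℝ) ^ 2 / 2) φ φ' φ'' := by
  have : k = 0 ∨ k = 1 ∨ k = -1 := by
    rcases abs_cases k with h | h <;> omega
  rcases this with rfl | rfl | rfl
  · exact ⟨_, _, _, by simpa using hom_zero⟩
  · exact ⟨_, _, _, by convert hom_one using 1; norm_num⟩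
  · exact ⟨_, _, _, by convert hom_one using 1; norm_num⟩

variable {α : ℝ} {φ φ' φ'' : ℝ → ℝ}

/-- the barrier for the Wronskian -/
theorem AdmD.barW (h : AdmD a ω ω' ω'') (hφ : Hom α φ φ' φ'') (ha : 16 ≤ a) (hM : 0 ≤ M) {z : ℝ}
    (hz : a ≤ z) : HasDerivAt (fun z => 5 * M * (ω z * φ z) / z)
      (5 * M * (z * ω' z * φ z + ω z * (z * φ' z) - ω z * φ z) / z ^ 2) z ∧
    5 * M * (z * ω' z * φ z + ω z * (z * φ' z) - ω z * φ z) / z ^ 2 + M * ω z * φ z ≤
      (z / 2 + 0) * (5 * M * (ω z * φ z) / z) := by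
  have hz0 : 0 < z := by linarith
  have hz1 : 16 ≤ z := ha.trans hz
  constructor
  · refine ((((h.d1 z hz).fun_mul (hφ.d1 z)).const_mul (5 * M)).fun_div (hasDerivAt_id' z)
      hz0.ne').congr_deriv ?_
    ring
  · have e : (z / 2 + 0) * (5 * M * (ω z * φ z) / z) = 5 / 2 * (M * ω z * φ z) := by
      field_simp; ring
    have hp : 0 < φ z := hz0.trans_le (hφ.ge z hz1)
    have hw := h.pos z hz
    have h1 : z * ω' z * φ z + ω z * (z * φ' z) - ω z * φ z ≤ 4 * (ω z * φ z) := by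
      nlinarith [mul_le_mul_of_nonneg_right (h.up z hz) hp.le,
        mul_le_mul_of_nonneg_left (hφ.up z hz1) hw.le, mul_pos hw hp]
    have h2 : 5 * M * (z * ω' z * φ z + ω z * (z * φ' z) - ω z * φ z) / z ^ 2 ≤
        M * ω z * φ z := by
      rw [div_le_iff₀ (by positivity)]
      have h3 : 256 ≤ z ^ 2 := by nlinarith
      have h4 : 0 ≤ M * ω z * φ z := by positivity
      nlinarith [mul_le_mul_of_nonneg_left h1 hM]
    have h4 : 0 ≤ M * ω z * φ z := by positivity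
    linarith

theorem Hom.inv (hφ : Hom α φ φ' φ'') {z : ℝ} (hz : 16 ≤ z) :
    0 < (φ z)⁻¹ ∧ HasDerivAt (fun z => (φ z)⁻¹) (-(φ' z / φ z * (φ z)⁻¹)) z := by
  have hp : 0 < φ z := lt_of_lt_of_le (by linarith) (hφ.ge z hz)
  refine ⟨by positivity, ((hφ.d1 z).fun_inv hp.ne').congr_deriv ?_⟩
  field_simp

/-- the barrier `20 M ω` for low modes -/
theorem AdmD.barU (h : AdmD a ω ω' ω'') (hφ : Hom α φ φ' φ'') (ha : 16 ≤ a) (hM : 0 ≤ M) {z : ℝ}
    (hz : a ≤ z) {w : ℂ} (hw : ‖w‖ ≤ 5 * M * (ω z * φ z) / z) :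
    20 * M * ω' z + ‖w / φ z‖ ≤ φ' z / φ z * (20 * M * ω z) := by
  have hz0 : 0 < z := by linarith
  have hz1 : 16 ≤ z := ha.trans hz
  have hp : 0 < φ z := hz0.trans_le (hφ.ge z hz1)
  have hω := h.pos z hz
  have h1 : ‖w / φ z‖ ≤ 5 * M * ω z / z := by
    rw [norm_div, Complex.norm_real, Real.norm_of_nonneg hp.le, div_le_iff₀ hp]
    exact hw.trans (le_of_eq (by ring))
  have h2 : 1 / z ≤ φ' z / φ z := by
    rw [div_le_div_iff₀ hz0 hp]; linarith [hφ.lo z hz1]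
  have h3 : ω' z ≤ 3 / 4 * ω z / z := by
    rw [le_div_iff₀ hz0]; linarith [h.up z hz]
  have h4 : 1 / z * (20 * M * ω z) ≤ φ' z / φ z * (20 * M * ω z) := by gcongr
  have h5 : 20 * M * ω' z ≤ 20 * M * (3 / 4 * ω z / z) := by gcongr
  have e : 1 / z * (20 * M * ω z) = 20 * M * (3 / 4 * ω z / z) + 5 * M * ω z / z := by ring
  linarith

variable {u u' f : ℝ → ℂ}

theorem low_le (h : AdmD a ω ω' ω'') (hφ : Hom α φ φ' φ'') (ha : 16 ≤ a) (hM : 0 ≤ M)
    (h0 : ∀ z ∈ Icc a b, HasDerivWithinAt u (u' z) (Icc a b) z)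
    (h1 : ∀ z ∈ Icc a b, HasDerivWithinAt u' ((z / 2 : ℝ) * u' z - α * u z + f z) (Icc a b) z)
    (hf : ∀ z ∈ Icc a b, ‖f z‖ ≤ M * ω z) (hb : ‖u b‖ ≤ M * ω b) (hb' : b * ‖u' b‖ ≤ M * ω b)
    {z : ℝ} (hz : z ∈ Icc a b) : ‖u z‖ ≤ 20 * M * ω z := by
  have hab : a ≤ b := hz.1.trans hz.2
  have hp : ∀ s, a ≤ s → 0 < φ s := fun s hs => lt_of_lt_of_le (by linarith) (hφ.ge s (ha.trans hs))
  have hW : ∀ s ∈ Icc a b, ‖u' s * φ s - u s * φ' s‖ ≤ 5 * M * (ω s * φ s) / s := fun s hs => by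
    refine fence_fin (y := fun s => u' s * φ s - u s * φ' s) (S := fun s => f s * φ s)
      (A := fun s => s / 2 + 0) (fun s hs => ?_) (fun s _ => ⟨gE_pos 0 s, hasDerivAt_gE 0 s⟩)
      (fun s hs => (h.barW hφ ha hM hs.1).1) (fun s hs => ?_) ?_ hs
    · refine (((h1 s hs).fun_mul (hφ.d1 s).ofReal_comp.hasDerivWithinAt).fun_sub
        ((h0 s hs).fun_mul (hφ.d2 s).ofReal_comp.hasDerivWithinAt)).congr_deriv ?_
      rw [hφ.eqn]; push_cast; ring
    · refine le_trans (add_le_add le_rfl ?_) (h.barW hφ ha hM hs.1).2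
      rw [norm_mul, Complex.norm_real, Real.norm_of_nonneg (hp s hs.1).le]
      exact mul_le_mul_of_nonneg_right (hf s hs) (hp s hs.1).le
    · have hb0 : 0 < b := by linarith
      have h2 := hφ.lo b (ha.trans hab)
      have h3 := hφ.up b (ha.trans hab)
      have h4 := hp b hab
      have h5 : 0 ≤ φ' b := by nlinarith
      rw [le_div_iff₀ hb0]
      refine (mul_le_mul_of_nonneg_right (norm_sub_le _ _) hb0.le).trans ?_
      rw [norm_mul, norm_mul, Complex.norm_real, Complex.norm_real, Real.norm_of_nonneg h4.le,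
        Real.norm_of_nonneg h5]
      have h6 := mul_le_mul_of_nonneg_right hb' h4.le
      have h7 := mul_le_mul hb h3 (by positivity) ((norm_nonneg _).trans hb)
      nlinarith
  refine fence_fin (S := fun s => (u' s * φ s - u s * φ' s) / φ s) (A := fun s => φ' s / φ s)
    (Y := fun s => 20 * M * ω s) (fun s hs => ?_) (fun s hs => hφ.inv (ha.trans hs.1))
    (fun s hs => (h.d1 s hs.1).const_mul _) (fun s hs => h.barU hφ ha hM hs.1 (hW s hs)) ?_ hz
  · refine (h0 s hs).congr_deriv ?_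
    have : (φ s : ℂ) ≠ 0 := by exact_mod_cast (hp s hs.1).ne'
    push_cast; field_simp; ring
  · have := mul_nonneg hM (h.pos b hab).le
    linarith

theorem AdmD.layer (h : AdmD a ω ω' ω'') (ha : 16 ≤ a) {l z : ℝ} (hl : 1 ≤ l) (hz : z ∈ Icc a b) :
    ω b * Real.exp (l * (z - b)) ≤ ω z := by
  have hd : ∀ s ∈ Icc a b, HasDerivAt (fun s => ω s * Real.exp (l * (z - s)))
      ((ω' s - l * ω s) * Real.exp (l * (z - s))) s := fun s hs => by
    refine ((h.d1 s hs.1).fun_mul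
      (((hasDerivAt_id' s).const_sub z).const_mul l).exp).congr_deriv ?_
    ring
  have hm := antitoneOn_of_hasDerivWithinAt_nonpos (convex_Icc a b)
    (fun s hs => (hd s hs).continuousAt.continuousWithinAt)
    (fun s hs => (hd s (interior_subset hs)).hasDerivWithinAt) fun s hs => by
      have hs' := interior_subset hs
      have h1 := h.up s hs'.1
      have h2 := h.pos s hs'.1
      have h3 : 16 ≤ s := ha.trans hs'.1
      refine mul_nonpos_of_nonpos_of_nonneg ?_ (Real.exp_pos _).le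
      by_contra h4
      have h5 : ω s < ω' s := by nlinarith
      nlinarith [mul_lt_mul_of_pos_left h5 (show 0 < s by linarith)]
  simpa using hm hz ⟨hz.1.trans hz.2, le_rfl⟩ hz.2

theorem high_le (h : AdmD a ω ω' ω'') (ha : 16 ≤ a) (hM : 0 ≤ M) {n t : ℝ} (hn : 2 ≤ n)
    (ht : n ^ 2 / 4 ≤ t)
    (h0 : ∀ z ∈ Icc a b, HasDerivWithinAt u (u' z) (Icc a b) z)
    (h1 : ∀ z ∈ Icc a b, HasDerivWithinAt u' ((z / 2 : ℝ) * u' z + t * u z + f z) (Icc a b) z)
    (hf : ∀ z ∈ Icc a b, ‖f z‖ ≤ M * ω z) (hu : n ^ 2 * ‖u a‖ ≤ M * ω a)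
    (hb : n * ‖u' b‖ ≤ M * ω b) {z : ℝ} (hz : z ∈ Icc a b) : n ^ 2 * ‖u z‖ ≤ 200 * M * ω z := by
  have hab : a ≤ b := hz.1.trans hz.2
  have hn0 : 0 < n := by linarith
  have ht1 : 1 ≤ t := by nlinarith
  have hωb := h.pos b hab
  set A := 160 * M / n ^ 2 with hA
  set c := 40 * M * ω b / n ^ 2 with hc
  have hA0 : 0 ≤ A := by positivity
  have hc0 : 0 ≤ c := by positivity
  have hl : ∀ s, HasDerivAt (fun s => Real.exp (n / 2 * (s - b)))
      (n / 2 * Real.exp (n / 2 * (s - b))) s := fun s => by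
    refine (((hasDerivAt_id' s).sub_const b).const_mul (n / 2)).exp.congr_deriv ?_
    ring
  have key := maxp (c := fun _ => t) (B := fun s => A * ω s + c * Real.exp (n / 2 * (s - b)))
    (B' := fun s => A * ω' s + c * (n / 2 * Real.exp (n / 2 * (s - b))))
    (B'' := fun s => A * ω'' s + c * (n / 2 * (n / 2 * Real.exp (n / 2 * (s - b))))) h0 h1
    (fun s hs => ⟨((h.d1 s hs.1).const_mul A).fun_add ((hl s).const_mul c),
      ((h.d2 s hs.1).const_mul A).fun_add (((hl s).const_mul _).const_mul c)⟩)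
    (fun _ _ => by linarith) (fun s hs => ?_) ?_ (Or.inr ?_) hz
  · have h2 := h.layer ha (l := n / 2) (by linarith) hz
    have h3 : n ^ 2 * (A * ω z + c * Real.exp (n / 2 * (z - b))) =
        160 * M * ω z + 40 * M * (ω b * Real.exp (n / 2 * (z - b))) := by
      simp only [hA, hc]; field_simp
    have h4 := mul_le_mul_of_nonneg_left key (sq_nonneg n)
    have h5 := mul_le_mul_of_nonneg_left h2 hM
    linarith
  · have h2 := mul_le_mul_of_nonneg_left (h.sup s hs.1) hA0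
    have h3 := h.pos s hs.1
    have h4 : 40 * M ≤ A * t := by
      rw [hA, div_mul_eq_mul_div, le_div_iff₀ (by positivity)]; nlinarith
    have h5 : M * ω s ≤ A * t / 40 * ω s := by gcongr; linarith
    have h6 : 0 ≤ A * ω s * (t - 1) := mul_nonneg (by positivity) (by linarith)
    have h7 : 0 ≤ c * Real.exp (n / 2 * (s - b)) := by positivity
    have h8 := mul_le_mul_of_nonneg_left ht h7
    have h9 : 0 ≤ s / 2 * (c * (n / 2 * Real.exp (n / 2 * (s - b)))) := by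
      have : 0 ≤ s := by linarith [hs.1]
      positivity
    have := hf s hs
    nlinarith
  · have h2 : ‖u a‖ ≤ A * ω a := by
      rw [hA, div_mul_eq_mul_div, le_div_iff₀ (by positivity)]
      nlinarith [mul_nonneg hM (h.pos a le_rfl).le]
    have : 0 ≤ c * Real.exp (n / 2 * (a - b)) := by positivity
    linarith
  · simp only [sub_self, mul_zero, Real.exp_zero, mul_one]
    have h2 := h.lo b hab
    have hb16 : 16 ≤ b := ha.trans hab
    have h3 : -(ω b / 8) ≤ ω' b := by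
      by_contra h4
      nlinarith [not_le.1 h4]
    have h4 : 0 ≤ M * ω b := by positivity
    rw [← mul_le_mul_iff_right₀ (show 0 < n ^ 2 by positivity)]
    have h5 : n ^ 2 * (A * ω' b + c * (n / 2)) = 160 * M * ω' b + 20 * n * (M * ω b) := by
      simp only [hA, hc]; field_simp; ring
    rw [h5]
    nlinarith [mul_le_mul_of_nonneg_left h3 hM, mul_le_mul_of_nonneg_left hb hn0.le]

theorem mixed_le (h : AdmD a ω ω' ω'') (ha : 16 ≤ a) {n M₂ : ℝ} (hn : 1 ≤ n) {G : ℝ → ℂ}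
    (h0 : ∀ z ∈ Icc a b, HasDerivWithinAt u (u' z) (Icc a b) z)
    (h1 : ∀ z ∈ Icc a b, HasDerivWithinAt u' ((z / 2 : ℝ) * u' z + G z) (Icc a b) z)
    (hG : ∀ z ∈ Icc a b, ‖G z‖ ≤ M * ω z) (hu : ∀ z ∈ Icc a b, n ^ 2 * ‖u z‖ ≤ M₂ * ω z)
    (hb : n * ‖u' b‖ ≤ M * ω b) {z : ℝ} (hz : z ∈ Icc a b) :
    n * ‖u' z‖ ≤ (M + 3 * M₂) * ω z := by
  have hab : a ≤ b := hz.1.trans hz.2
  have hn0 : 0 < n := by linarith
  have hM : 0 ≤ M := nonneg_of_mul_nonneg_left ((norm_nonneg _).trans (hG z hz)) (h.pos z hz.1)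
  have hM₂ : 0 ≤ M₂ := nonneg_of_mul_nonneg_left (le_trans (by positivity) (hu z hz)) (h.pos z hz.1)
  have hnn : ∀ w : ℂ, ‖(n : ℂ) * w‖ = n * ‖w‖ := fun w => by
    rw [norm_mul, Complex.norm_real, Real.norm_of_nonneg hn0.le]
  have key := fence_fin (y := fun s => u' s + n * u s)
    (S := fun s => G s - ((s / 2 + n : ℝ) : ℂ) * (n * u s)) (A := fun s => s / 2 + n)
    (Y := fun s => (M + 2 * M₂) / n * ω s) (Y' := fun s => (M + 2 * M₂) / n * ω' s)
    (fun s hs => ?_) (fun s _ => ⟨gE_pos n s, hasDerivAt_gE n s⟩)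
    (fun s hs => (h.d1 s hs.1).const_mul _) (fun s hs => ?_) ?_ hz
  · have h2 : ‖u' z‖ ≤ ‖u' z + n * u z‖ + n * ‖u z‖ := by
      rw [← hnn]; simpa using norm_sub_le (u' z + n * u z) (n * u z)
    have h3 := mul_le_mul_of_nonneg_left (h2.trans (add_le_add key le_rfl)) hn0.le
    have h4 : n * ((M + 2 * M₂) / n * ω z + n * ‖u z‖) = (M + 2 * M₂) * ω z + n ^ 2 * ‖u z‖ := by
      field_simp
    linarith [hu z hz]
  · refine ((h1 s hs).fun_add ((h0 s hs).const_mul (n : ℂ))).congr_deriv ?_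
    push_cast; ring
  · have hs16 : 16 ≤ s := ha.trans hs.1
    have hw := h.pos s hs.1
    have h2 : ω' s ≤ s / 4 * ω s := by
      by_contra h3
      nlinarith [h.up s hs.1, mul_lt_mul_of_pos_left (not_le.1 h3) (show 0 < s by linarith),
        mul_le_mul_of_nonneg_right (show 256 ≤ s * s by nlinarith) hw.le]
    have h3 : ‖G s - ((s / 2 + n : ℝ) : ℂ) * (n * u s)‖ ≤ M * ω s + (s / 2 + n) * (n * ‖u s‖) := by
      refine (norm_sub_le _ _).trans (add_le_add (hG s hs) (le_of_eq ?_))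
      rw [norm_mul, hnn, Complex.norm_real, Real.norm_of_nonneg (by linarith)]
    rw [← mul_le_mul_iff_right₀ hn0]
    have e1 : n * ((s / 2 + n) * ((M + 2 * M₂) / n * ω s)) = (s / 2 + n) * ((M + 2 * M₂) * ω s) := by
      field_simp
    have e2 : n * ((M + 2 * M₂) / n * ω' s) = (M + 2 * M₂) * ω' s := by field_simp
    rw [e1, mul_add, e2]
    have h4 := mul_le_mul_of_nonneg_left h3 hn0.le
    have h5 := mul_le_mul_of_nonneg_left (hu s hs) (show 0 ≤ s / 2 + n by linarith)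
    have h6 := mul_le_mul_of_nonneg_left h2 (show 0 ≤ M + 2 * M₂ by positivity)
    have h7 : 0 ≤ M * ω s := by positivity
    have h8 : 0 ≤ M₂ * ω s := by positivity
    nlinarith [mul_nonneg h7 (show 0 ≤ s by linarith), mul_nonneg h8 hn0.le]
  · rw [← mul_le_mul_iff_right₀ hn0]
    have e2 : n * ((M + 2 * M₂) / n * ω b) = (M + 2 * M₂) * ω b := by field_simp
    have h2 := mul_le_mul_of_nonneg_left (norm_add_le (u' b) (n * u b)) hn0.le
    rw [hnn] at h2
    have h3 := hu b ⟨hab, le_rfl⟩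
    have h8 : 0 ≤ M₂ * ω b := mul_nonneg hM₂ (h.pos b hab).le
    rw [e2]
    nlinarith

/-- the coefficient of the mode `k` -/
def al (k : ℤ) : ℝ := 1 - (k : ℝ) ^ 2 / 2

/-- the weight of the mode `k` -/
def nk (k : ℤ) : ℝ := 1 + |(k : ℝ)|

theorem one_le_nk (k : ℤ) : 1 ≤ nk k := le_add_of_nonneg_right (abs_nonneg _)

theorem abs_al_le (k : ℤ) : |al k| ≤ nk k ^ 2 := by
  have h1 := abs_nonneg (k : ℝ)
  have h2 := sq_abs (k : ℝ)
  unfold al nk
  rw [abs_le]; constructor <;> nlinarith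

/-- the estimates of one mode -/
structure Est (k : ℤ) (B : ℝ) (z : ℝ) (u u' u'' : ℂ) : Prop where
  e0 : nk k ^ 2 * ‖u‖ ≤ B
  e1 : nk k * ‖u'‖ ≤ B
  e2 : ‖u''‖ ≤ B
  ez : z * ‖u'‖ ≤ B

theorem apr_fin (h : Adm a ω) (ha : 16 ≤ a) (hM : 0 ≤ M) (k : ℤ)
    (h0 : ∀ z ∈ Icc a b, HasDerivWithinAt u (u' z) (Icc a b) z)
    (h1 : ∀ z ∈ Icc a b, HasDerivWithinAt u' ((z / 2 : ℝ) * u' z - al k * u z + f z) (Icc a b) z)
    (hf : ∀ z ∈ Icc a b, ‖f z‖ ≤ M * ω z) (hu : 2 ≤ |k| → nk k ^ 2 * ‖u a‖ ≤ M * ω a)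
    (hb : ¬ 2 ≤ |k| → ‖u b‖ ≤ M * ω b) (hb1 : nk k * ‖u' b‖ ≤ M * ω b)
    (hb2 : b * ‖u' b‖ ≤ M * ω b) {z : ℝ} (hz : z ∈ Icc a b) :
    Est k (2000 * M * ω z) z (u z) (u' z) ((z / 2 : ℝ) * u' z - al k * u z + f z) := by
  obtain ⟨ω', ω'', h⟩ := h
  have hab : a ≤ b := hz.1.trans hz.2
  have e0 : ∀ s ∈ Icc a b, nk k ^ 2 * ‖u s‖ ≤ 450 * M * ω s := fun s hs => by
    have hw : 0 ≤ M * ω s := mul_nonneg hM (h.pos s hs.1).le
    by_cases hk : 2 ≤ |k|
    · have hn : 2 ≤ |(k : ℝ)| := by exact_mod_cast hk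
      have h2 := high_le (n := |(k : ℝ)|) (t := -al k) h ha hM hn
        (by unfold al; nlinarith [sq_abs (k : ℝ)]) h0
        (fun s hs => (h1 s hs).congr_deriv (by push_cast; ring)) hf
        (le_trans (by unfold nk; gcongr; linarith) (hu hk))
        (le_trans (by unfold nk; gcongr; linarith) hb1) hs
      have h3 : nk k ^ 2 ≤ 9 / 4 * |(k : ℝ)| ^ 2 := by unfold nk; nlinarith
      nlinarith [mul_le_mul_of_nonneg_right h3 (norm_nonneg (u s))]
    · obtain ⟨φ, φ', φ'', hφ⟩ := exists_hom hk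
      have h2 := low_le h hφ ha hM h0 h1 hf (hb hk) hb2 hs
      have hn : |(k : ℝ)| ≤ 1 := by
        have : |k| ≤ 1 := by omega
        exact_mod_cast this
      have h3 : nk k ^ 2 ≤ 4 := by unfold nk; nlinarith [abs_nonneg (k : ℝ)]
      nlinarith [mul_le_mul_of_nonneg_right h3 (norm_nonneg (u s))]
  have hG : ∀ s ∈ Icc a b, ‖f s - al k * u s‖ ≤ 451 * M * ω s := fun s hs => by
    refine (norm_sub_le _ _).trans ?_
    rw [norm_mul, Complex.norm_real, Real.norm_eq_abs]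
    nlinarith [mul_le_mul_of_nonneg_right (abs_al_le k) (norm_nonneg (u s)), e0 s hs, hf s hs]
  have h1' : ∀ s ∈ Icc a b,
      HasDerivWithinAt u' ((s / 2 : ℝ) * u' s + (f s - al k * u s)) (Icc a b) s :=
    fun s hs => (h1 s hs).congr_deriv (by ring)
  have hwb : 0 ≤ M * ω b := mul_nonneg hM (h.pos b hab).le
  have hw : 0 ≤ M * ω z := mul_nonneg hM (h.pos z hz.1).le
  have hz0 : 0 < z := by linarith [hz.1]
  have ez : z * ‖u' z‖ ≤ 902 * M * ω z := by
    have := fence_fin (A := fun s => s / 2 + 0) (S := fun s => f s - al k * u s)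
      (fun s hs => (h1' s hs).congr_deriv (by push_cast; ring))
      (fun s _ => ⟨gE_pos 0 s, hasDerivAt_gE 0 s⟩)
      (fun s hs => (h.barD (M := 451 * M) ha (by positivity) hs.1).1)
      (fun s hs => le_trans (add_le_add le_rfl (hG s hs))
        (h.barD (M := 451 * M) ha (by positivity) hs.1).2)
      (by rw [le_div_iff₀ (by linarith)]; linarith) hz
    rw [le_div_iff₀ hz0] at this
    linarith
  refine ⟨by linarith [e0 z hz], ?_, ?_, by linarith⟩
  · have := mixed_le (M := 451 * M) (M₂ := 450 * M) h ha (one_le_nk k) h0 h1' hG e0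
      (by linarith) hz
    linarith
  · have e : (z / 2 : ℝ) * u' z - al k * u z + f z = (z / 2 : ℝ) * u' z + (f z - al k * u z) := by
      ring
    rw [e]
    refine (norm_add_le _ _).trans ?_
    rw [norm_mul, Complex.norm_real, Real.norm_of_nonneg (by linarith)]
    linarith [hG z hz]

theorem eventually_rpow_le (K : ℝ) {p q ε : ℝ} (hpq : p < q) (hε : 0 < ε) :
    ∀ᶠ z : ℝ in atTop, K * z ^ p ≤ ε * z ^ q := by
  have h1 := (tendsto_rpow_atTop (show 0 < q - p by linarith)).eventually_ge_atTop (K / ε)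
  filter_upwards [h1, eventually_gt_atTop 0] with z hz hz0
  have e : z ^ q = z ^ (q - p) * z ^ p := by rw [← Real.rpow_add hz0]; ring_nf
  rw [div_le_iff₀ hε] at hz
  have := Real.rpow_pos_of_pos hz0 p
  rw [e]; nlinarith

theorem tendsto_gE_mul {x : ℝ → ℝ} {K : ℝ} (h0 : ∀ z, 0 ≤ x z) (hx : ∀ z, a ≤ z → x z ≤ K * z ^ 2) :
    Tendsto (fun b => gE 0 b * x b) atTop (𝓝 0) := by
  have h2 : Tendsto (fun s : ℝ => s ^ 2 / 4) atTop atTop :=
    (tendsto_pow_atTop two_ne_zero).atTop_div_const (by norm_num)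
  have h3 := ((Real.tendsto_pow_mul_exp_neg_atTop_nhds_zero 1).comp h2).const_mul (4 * K)
  rw [mul_zero] at h3
  refine squeeze_zero' (Eventually.of_forall fun z => mul_nonneg (gE_pos 0 z).le (h0 z)) ?_ h3
  filter_upwards [eventually_ge_atTop a] with z hz
  refine (mul_le_mul_of_nonneg_left (hx z hz) (gE_pos 0 z).le).trans (le_of_eq ?_)
  simp only [gE, Function.comp, zero_mul, add_zero]; ring

theorem rpow_half_le {z : ℝ} (hz : 1 ≤ z) : z ^ (1 / 2 : ℝ) ≤ z := by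
  simpa using Real.rpow_le_rpow_of_exponent_le hz (show (1 / 2 : ℝ) ≤ 1 by norm_num)

theorem apr_inf (h : Adm a ω) (ha : 16 ≤ a) (hM : 0 ≤ M) (k : ℤ) {K : ℝ}
    (h0 : ∀ z, a ≤ z → HasDerivWithinAt u (u' z) (Ici a) z)
    (h1 : ∀ z, a ≤ z → HasDerivWithinAt u' ((z / 2 : ℝ) * u' z - al k * u z + f z) (Ici a) z)
    (hf : ∀ z, a ≤ z → ‖f z‖ ≤ M * ω z) (hu : 2 ≤ |k| → nk k ^ 2 * ‖u a‖ ≤ M * ω a)
    (hK : ∀ z, a ≤ z → ‖u z‖ ≤ K * z ^ (1 / 2 : ℝ) ∧ ‖u' z‖ ≤ K * z ^ (1 / 2 : ℝ) ∧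
      ‖f z‖ ≤ K * z ^ (1 / 2 : ℝ)) {z : ℝ} (hz : a ≤ z) :
    Est k (2000 * M * ω z) z (u z) (u' z) ((z / 2 : ℝ) * u' z - al k * u z + f z) := by
  obtain ⟨η', η'', hη⟩ := adm_rpow (q := 1 / 2) ha (by norm_num) (by norm_num)
  have hK0 : 0 ≤ K := nonneg_of_mul_nonneg_left ((norm_nonneg _).trans (hK a le_rfl).1)
    (hη.pos a le_rfl)
  set K₁ := K + |al k| * K with hK₁
  have hK₁0 : 0 ≤ K₁ := by positivity
  have ez : ∀ s, a ≤ s → ‖u' s‖ ≤ 2 * K₁ * s ^ (1 / 2 : ℝ) / s := fun s hs => by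
    refine fence_inf (A := fun s => s / 2 + 0) (S := fun s => f s - al k * u s)
      (fun s hs => (h1 s hs).congr_deriv (by push_cast; ring))
      (fun s _ => ⟨gE_pos 0 s, hasDerivAt_gE 0 s⟩)
      (fun s hs => ⟨?_, (hη.barD ha hK₁0 hs).1⟩)
      (fun s hs => le_trans (add_le_add le_rfl ?_) (hη.barD ha hK₁0 hs).2)
      (tendsto_gE_mul (a := a) (K := K) (fun _ => norm_nonneg _) fun s hs => ?_) hs
    · have : 0 < s := by linarith
      positivity
    · refine (norm_sub_le _ _).trans ?_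
      rw [norm_mul, Complex.norm_real, Real.norm_eq_abs, hK₁]
      nlinarith [mul_le_mul_of_nonneg_left (hK s hs).1 (abs_nonneg (al k)), (hK s hs).2.2]
    · have := rpow_half_le (show 1 ≤ s by linarith)
      exact (hK s hs).2.1.trans (by gcongr; nlinarith)
  have key : ∀ ε : ℝ, 0 < ε → Est k (2000 * M * ω z + ε) z (u z) (u' z)
      ((z / 2 : ℝ) * u' z - al k * u z + f z) := fun ε hε => by
    have hq := adm_rpow (q := 3 / 4) ha (by norm_num) le_rfl
    have hωz := h.pos hz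
    have hqz := hq.pos hz
    obtain ⟨δ, hδ, hδε⟩ : ∃ δ : ℝ, 0 < δ ∧
        2000 * (M + δ) * (ω z + δ * z ^ (3 / 4 : ℝ)) ≤ 2000 * M * ω z + ε := by
      have hc : ContinuousAt (fun δ : ℝ => 2000 * (M + δ) * (ω z + δ * z ^ (3 / 4 : ℝ))) 0 := by
        fun_prop
      have := hc.tendsto.eventually (ge_mem_nhds (a := 2000 * M * ω z + ε) (by simpa using hε))
      exact ((eventually_nhdsWithin_of_eventually_nhds (s := Ioi 0) this).and
        self_mem_nhdsWithin).exists.imp fun δ h => ⟨h.2, h.1⟩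
    obtain ⟨b, ⟨⟨hb1, hb2⟩, hb3⟩, hb4⟩ := ((((eventually_rpow_le K (p := 1 / 2) (q := 3 / 4)
      (by norm_num) (mul_pos hδ hδ)).and (eventually_rpow_le (nk k * K) (p := 1 / 2) (q := 3 / 4)
      (by norm_num) (mul_pos hδ hδ))).and (eventually_rpow_le (2 * K₁) (p := 1 / 2) (q := 3 / 4)
      (by norm_num) (mul_pos hδ hδ))).and (eventually_ge_atTop z)).exists
    have hab := hz.trans hb4
    have hle : ∀ s, a ≤ s → M * ω s ≤ (M + δ) * (ω s + δ * s ^ (3 / 4 : ℝ)) ∧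
        δ * δ * s ^ (3 / 4 : ℝ) ≤ (M + δ) * (ω s + δ * s ^ (3 / 4 : ℝ)) := fun s hs => by
      have h2 := h.pos hs
      have h3 : 0 < s ^ (3 / 4 : ℝ) := hq.pos hs
      have h4 := mul_pos hδ h3
      constructor <;> nlinarith [mul_nonneg hM h2.le, mul_nonneg hM h4.le, mul_pos hδ h2,
        mul_pos hδ h4]
    have hb5 := ez b hab
    rw [le_div_iff₀ (by linarith)] at hb5
    have hE := apr_fin (b := b) (M := M + δ) (h.add_mul hq hδ.le) ha (by positivity) k
      (fun s hs => (h0 s hs.1).mono Icc_subset_Ici_self)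
      (fun s hs => (h1 s hs.1).mono Icc_subset_Ici_self)
      (fun s hs => (hf s hs.1).trans (hle s hs.1).1) (fun hk => (hu hk).trans (hle a le_rfl).1)
      (fun _ => ((hK b hab).1.trans hb1).trans (hle b hab).2)
      (le_trans (by
        have := mul_le_mul_of_nonneg_left (hK b hab).2.1 (zero_le_one.trans (one_le_nk k))
        linarith) (hle b hab).2)
      (le_trans (by linarith) (hle b hab).2) ⟨hz, hb4⟩
    exact ⟨hE.e0.trans hδε, hE.e1.trans hδε, hE.e2.trans hδε, hE.ez.trans hδε⟩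
  exact ⟨le_of_forall_pos_le_add fun ε hε => (key ε hε).e0,
    le_of_forall_pos_le_add fun ε hε => (key ε hε).e1,
    le_of_forall_pos_le_add fun ε hε => (key ε hε).e2,
    le_of_forall_pos_le_add fun ε hε => (key ε hε).ez⟩

end apriori

end

end Vale.Agent.P218F.EndI
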