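import Vale.Agent.P218F.EndInf1
import Mathlib.MeasureTheory.Integral.IntervalIntegral.FundThmCalculus

/-!
Exactly cylindrical ends: existence for the scalar mode equation on `[a, ∞)`.
-/

namespace Vale.Agent.P218F.EndI

open Set Filter Topology MeasureTheory BoundedContinuousFunction

noncomputable section

variable {a : ℝ}

theorem cont_clamp {E : Type*} [TopologicalSpace E] {g : ℝ → E} (hg : ContinuousOn g (Ici a)) :
    Continuous fun z => g (max z a) :=
  hg.comp_continuous (continuous_id.max continuous_const) fun z => le_max_right z a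

theorem exists_prim {g : ℝ → ℂ} (hg : ContinuousOn g (Ici a)) :
    ∃ T : ℝ → ℂ, T a = 0 ∧ (∀ z, a ≤ z → HasDerivWithinAt T (g z) (Ici a) z) ∧
      (IntegrableOn g (Ioi a) → ∃ c, Tendsto T atTop (𝓝 c)) := by
  refine ⟨fun z => ∫ s in a..z, g (max s a), by simp, fun z hz => ?_, fun hi => ?_⟩
  · have := ((cont_clamp hg).integral_hasStrictDerivAt a z).hasDerivAt
    rw [max_eq_left hz] at this
    exact this.hasDerivWithinAt
  · exact ⟨_, intervalIntegral_tendsto_integral_Ioi a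
      (hi.congr_fun (fun s hs => by rw [max_eq_left (le_of_lt hs)]) measurableSet_Ioi) tendsto_id⟩

theorem exists_tail {g : ℝ → ℂ} (hg : ContinuousOn g (Ici a)) {b : ℝ → ℝ}
    (hb : IntegrableOn b (Ioi a)) (h : ∀ z, a ≤ z → ‖g z‖ ≤ b z) :
    ∃ T : ℝ → ℂ, (∀ z, a ≤ z → HasDerivWithinAt T (g z) (Ici a) z) ∧ Tendsto T atTop (𝓝 0) := by
  obtain ⟨T, -, h1, h2⟩ := exists_prim hg
  obtain ⟨c, hc⟩ := h2 (Integrable.mono' hb
    ((hg.mono Ioi_subset_Ici_self).aestronglyMeasurable measurableSet_Ioi)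
    ((ae_restrict_iff' measurableSet_Ioi).2 (Eventually.of_forall fun z hz => h z (le_of_lt hz))))
  exact ⟨fun z => T z - c, fun z hz => (h1 z hz).sub_const c, by simpa using hc.sub_const c⟩

theorem continuous_gE (n : ℝ) : Continuous (gE n) :=
  continuous_iff_continuousAt.2 fun z => (hasDerivAt_gE n z).continuousAt

/-- the tempered solution of `x' = (z/2) x + G` -/
theorem exists_x (ha : 0 < a) {G : ℝ → ℂ} (hG : ContinuousOn G (Ici a)) {K : ℝ}
    (hK : ∀ z, a ≤ z → ‖G z‖ ≤ K * z ^ 3) :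
    ∃ x : ℝ → ℂ, (∀ z, a ≤ z → HasDerivWithinAt x ((z / 2 + 0 : ℝ) * x z + G z) (Ici a) z) ∧
      Tendsto (fun b => gE 0 b * ‖x b‖) atTop (𝓝 0) := by
  have hi := ((integrableOn_rpow_mul_exp_neg_mul_sq (b := 1 / 4) (s := 3) (by norm_num)
    (by norm_num)).mono_set (Ioi_subset_Ioi ha.le)).const_mul K
  obtain ⟨T, h1, h2⟩ := exists_tail (g := fun s => (gE 0 s : ℂ) * G s)
    ((Complex.continuous_ofReal.comp (continuous_gE 0)).continuousOn.mul hG) hi fun z hz => by
      rw [norm_mul, Complex.norm_real, Real.norm_of_nonneg (gE_pos 0 z).le]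
      refine (mul_le_mul_of_nonneg_left (hK z hz) (gE_pos 0 z).le).trans (le_of_eq ?_)
      have e : gE 0 z = Real.exp (-(1 / 4) * z ^ 2) := by unfold gE; congr 1; ring
      rw [e, show (3 : ℝ) = (3 : ℕ) by norm_num, Real.rpow_natCast]; ring
  have hne : ∀ z, (gE 0 z : ℂ) ≠ 0 := fun z => by exact_mod_cast (gE_pos 0 z).ne'
  refine ⟨fun z => T z / gE 0 z, fun z hz => ?_, ?_⟩
  · refine ((h1 z hz).fun_div (hasDerivAt_gE 0 z).ofReal_comp.hasDerivWithinAt
      (hne z)).congr_deriv ?_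
    have := hne z
    push_cast; field_simp; ring
  · refine (by simpa using h2.norm : Tendsto (fun b => ‖T b‖) atTop (𝓝 0)).congr fun b => ?_
    rw [norm_div, Complex.norm_real, Real.norm_of_nonneg (gE_pos 0 b).le]
    have := (gE_pos 0 b).ne'
    field_simp

/-- tempered solutions of `u'' = (z/2) u' + c u + f` on `[a, ∞)` -/
structure HS (a : ℝ) (c : ℝ → ℝ) (f u u' : ℝ → ℂ) : Prop where
  d0 : ∀ z, a ≤ z → HasDerivWithinAt u (u' z) (Ici a) z
  d1 : ∀ z, a ≤ z → HasDerivWithinAt u' ((z / 2 : ℝ) * u' z + c z * u z + f z) (Ici a) z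
  bd : ∃ K : ℝ, ∀ z, a ≤ z → ‖u z‖ ≤ K * z ^ (1 / 2 : ℝ) ∧ ‖u' z‖ ≤ K * z ^ (1 / 2 : ℝ)

/-- tempered right sides -/
def Src (a : ℝ) (f : ℝ → ℂ) : Prop :=
  ContinuousOn f (Ici a) ∧ ∃ K : ℝ, 0 ≤ K ∧ ∀ z, a ≤ z → ‖f z‖ ≤ K * z ^ (1 / 2 : ℝ)

theorem HS.sub {c : ℝ → ℝ} {f u u' g v v' : ℝ → ℂ} (h : HS a c f u u') (h' : HS a c g v v') :
    HS a c (fun z => f z - g z) (fun z => u z - v z) fun z => u' z - v' z where
  d0 z hz := (h.d0 z hz).fun_sub (h'.d0 z hz)
  d1 z hz := ((h.d1 z hz).fun_sub (h'.d1 z hz)).congr_deriv (by ring)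
  bd := by
    obtain ⟨K, hK⟩ := h.bd
    obtain ⟨K', hK'⟩ := h'.bd
    refine ⟨K + K', fun z hz => ⟨(norm_sub_le _ _).trans ?_, (norm_sub_le _ _).trans ?_⟩⟩
    · linarith [(hK z hz).1, (hK' z hz).1]
    · linarith [(hK z hz).2, (hK' z hz).2]

theorem HS.le (ha : 16 ≤ a) {c : ℝ → ℝ} {f u u' : ℝ → ℂ} (h : HS a c f u u') (h0 : u a = 0)
    (hc : ∀ z, a ≤ z → 1 / 2 ≤ c z) {M : ℝ} (hM : 0 ≤ M)
    (hf : ∀ z, a ≤ z → ‖f z‖ ≤ M * z ^ (1 / 2 : ℝ)) {z : ℝ} (hz : a ≤ z) :
    ‖u z‖ ≤ 2 * M * z ^ (1 / 2 : ℝ) := by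
  obtain ⟨K, hK⟩ := h.bd
  have hz0 : 0 < z := by linarith
  refine le_of_forall_pos_le_add fun δ hδ => ?_
  set ε := δ / z with hε
  have hε0 : 0 < ε := by positivity
  obtain ⟨b, hb1, hb2⟩ := ((eventually_rpow_le K (p := 1 / 2) (q := 1) (by norm_num) hε0).and
    (eventually_ge_atTop z)).exists
  rw [Real.rpow_one] at hb1
  have key := maxp (a := a) (b := b) (c := c) (B := fun s => 2 * M * s ^ (1 / 2 : ℝ) + ε * s)
    (B' := fun s => 2 * M * (1 / 2 * s ^ (1 / 2 - 1 : ℝ)) + ε * 1)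
    (B'' := fun s => 2 * M * (1 / 2 * ((1 / 2 - 1) * s ^ (1 / 2 - 1 - 1 : ℝ))))
    (fun s hs => (h.d0 s hs.1).mono Icc_subset_Ici_self)
    (fun s hs => (h.d1 s hs.1).mono Icc_subset_Ici_self)
    (fun s hs => ⟨((Real.hasDerivAt_rpow_const (Or.inl (by linarith [hs.1]))).const_mul _).fun_add
        ((hasDerivAt_id' s).const_mul ε),
      (((Real.hasDerivAt_rpow_const (Or.inl (by linarith [hs.1]))).const_mul _).const_mul
        _).add_const _⟩)
    (fun s hs => by linarith [hc s hs.1]) (fun s hs => ?_) ?_ (Or.inl ?_) ⟨hz, hb2⟩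
  · have : ε * z = δ := by rw [hε]; field_simp
    linarith
  · have hs0 : 0 < s := by linarith [hs.1]
    have h1 : 0 ≤ M * s ^ (1 / 2 - 1 - 1 : ℝ) := by positivity
    have h2 : 0 ≤ s / 2 * (2 * M * (1 / 2 * s ^ (1 / 2 - 1 : ℝ)) + ε * 1) := by positivity
    have h3 : 1 / 2 * (2 * M * s ^ (1 / 2 : ℝ) + ε * s) ≤ c s * (2 * M * s ^ (1 / 2 : ℝ) + ε * s) :=
      mul_le_mul_of_nonneg_right (hc s hs.1) (by positivity)
    have h4 : 0 ≤ ε * s := by positivity
    linarith [hf s hs.1]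
  · have : 0 < a := by linarith
    rw [h0, norm_zero]; positivity
  · have hb0 : 0 < b := by linarith
    have : 0 ≤ 2 * M * b ^ (1 / 2 : ℝ) := by positivity
    linarith [(hK b (hz.trans hb2)).1]

theorem exists_low (ha : 16 ≤ a) {α : ℝ} {φ φ' φ'' : ℝ → ℝ} (hφ : Hom α φ φ' φ'') {f : ℝ → ℂ}
    (hf : Src a f) : ∃ u u', HS a (fun _ => -α) f u u' := by
  obtain ⟨hfc, K, hK0, hK⟩ := hf
  obtain ⟨η', η'', hη⟩ := adm_rpow (q := 1 / 2) ha (by norm_num) (by norm_num)
  have hp : ∀ s, a ≤ s → 0 < φ s := fun s hs => lt_of_lt_of_le (by linarith) (hφ.ge s (ha.trans hs))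
  have hne : ∀ s, a ≤ s → (φ s : ℂ) ≠ 0 := fun s hs => by exact_mod_cast (hp s hs).ne'
  have hφc : Continuous fun s => (φ s : ℂ) := Complex.continuous_ofReal.comp
    (continuous_iff_continuousAt.2 fun s => (hφ.d1 s).continuousAt)
  have hfφ : ∀ s, a ≤ s → ‖f s * φ s‖ ≤ K * s ^ (1 / 2 : ℝ) * φ s := fun s hs => by
    rw [norm_mul, Complex.norm_real, Real.norm_of_nonneg (hp s hs).le]
    exact mul_le_mul_of_nonneg_right (hK s hs) (hp s hs).le
  obtain ⟨W, hW, hW0⟩ := exists_x (a := a) (by linarith) (G := fun s => f s * φ s)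
    (hfc.mul hφc.continuousOn) (K := K) fun s hs => (hfφ s hs).trans (by
      have h1 := rpow_half_le (show 1 ≤ s by linarith)
      have h2 := hφ.le s (ha.trans hs)
      have h3 := hp s hs
      have h4 : 0 < s := by linarith
      calc K * s ^ (1 / 2 : ℝ) * φ s ≤ K * s * s ^ 2 := by gcongr
        _ = _ := by ring)
  have hWb : ∀ s, a ≤ s → ‖W s‖ ≤ 5 * K * (s ^ (1 / 2 : ℝ) * φ s) / s := fun s hs =>
    fence_inf (A := fun s => s / 2 + 0) hW (fun s _ => ⟨gE_pos 0 s, hasDerivAt_gE 0 s⟩)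
      (fun s hs => ⟨by have := hp s hs
                       have : 0 < s := by linarith
                       positivity, (hη.barW hφ ha hK0 hs).1⟩)
      (fun s hs => le_trans (add_le_add le_rfl (hfφ s hs)) (hη.barW hφ ha hK0 hs).2) hW0 hs
  have hWφ : ∀ s, a ≤ s → ‖W s / φ s‖ ≤ 5 * K * s ^ (1 / 2 : ℝ) / s := fun s hs => by
    rw [norm_div, Complex.norm_real, Real.norm_of_nonneg (hp s hs).le, div_le_iff₀ (hp s hs)]
    exact (hWb s hs).trans (le_of_eq (by ring))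
  obtain ⟨T, hT, hT0⟩ := exists_tail (a := a) (g := fun s => W s / φ s / φ s)
    ((ContinuousOn.div (fun s hs => (hW s hs).continuousWithinAt) hφc.continuousOn
      hne).div hφc.continuousOn hne)
    ((integrableOn_Ioi_rpow_of_lt (a := -(3 / 2)) (c := a) (by norm_num)
      (by linarith)).const_mul (5 * K)) fun s hs => by
      have hs0 : 0 < s := by linarith
      rw [norm_div, Complex.norm_real, Real.norm_of_nonneg (hp s hs).le, div_le_iff₀ (hp s hs)]
      refine (hWφ s hs).trans ?_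
      have e : s ^ (1 / 2 : ℝ) / s = s ^ (-(3 / 2) : ℝ) * s := by
        rw [← Real.rpow_sub_one hs0.ne', ← Real.rpow_add_one hs0.ne']; norm_num
      rw [mul_div_assoc, e, ← mul_assoc]
      exact mul_le_mul_of_nonneg_left (hφ.ge s (ha.trans hs)) (by positivity)
  have hd0 : ∀ z, a ≤ z → HasDerivWithinAt (fun z => (φ z : ℂ) * T z)
      ((φ' z / φ z : ℝ) * (φ z * T z) + W z / φ z) (Ici a) z := fun z hz => by
    refine ((hφ.d1 z).ofReal_comp.hasDerivWithinAt.fun_mul (hT z hz)).congr_deriv ?_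
    have := hne z hz
    push_cast; field_simp
  have hu : ∀ z, a ≤ z → ‖(φ z : ℂ) * T z‖ ≤ 20 * K * z ^ (1 / 2 : ℝ) := fun z hz =>
    fence_inf (A := fun s => φ' s / φ s) (Y := fun s => 20 * K * s ^ (1 / 2 : ℝ)) hd0
      (fun s hs => hφ.inv (ha.trans hs))
      (fun s hs => ⟨by have := hη.pos s hs; positivity, (hη.d1 s hs).const_mul _⟩)
      (fun s hs => hη.barU hφ ha hK0 hs (hWb s hs))
      ((by simpa using hT0.norm : Tendsto (fun b => ‖T b‖) atTop (𝓝 0)).congr'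
        ((eventually_ge_atTop a).mono fun b hb => by
          have := hp b hb
          simp only [norm_mul, Complex.norm_real, Real.norm_of_nonneg this.le]
          field_simp)) hz
  refine ⟨fun z => φ z * T z, fun z => φ' z * T z + W z / φ z, fun z hz => ?_, fun z hz => ?_,
    85 * K, fun z hz => ⟨(hu z hz).trans ?_, ?_⟩⟩
  · refine (hd0 z hz).congr_deriv ?_
    have := hne z hz
    push_cast; field_simp
  · refine (((hφ.d2 z).ofReal_comp.hasDerivWithinAt.fun_mul (hT z hz)).fun_add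
      ((hW z hz).fun_div (hφ.d1 z).ofReal_comp.hasDerivWithinAt (hne z hz))).congr_deriv ?_
    have := hne z hz
    rw [hφ.eqn]
    push_cast; field_simp; ring
  · have := hη.pos z hz
    nlinarith [mul_nonneg hK0 this.le]
  · have hz0 : 0 < z := by linarith
    have hz1 : 16 ≤ z := ha.trans hz
    have h1 := hp z hz
    have h2 : 0 ≤ φ' z := by nlinarith [hφ.lo z hz1]
    have h3 : φ' z ≤ 4 * φ z := by nlinarith [hφ.up z hz1]
    have h4 := hu z hz
    have h5 : 5 * K * z ^ (1 / 2 : ℝ) / z ≤ 5 * K * z ^ (1 / 2 : ℝ) :=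
      div_le_self (by positivity) (by linarith)
    rw [norm_mul, Complex.norm_real, Real.norm_of_nonneg h1.le] at h4
    refine (norm_add_le _ _).trans ?_
    rw [norm_mul, Complex.norm_real, Real.norm_of_nonneg h2]
    nlinarith [mul_le_mul_of_nonneg_right h3 (norm_nonneg (T z)), hWφ z hz]

/-- solvability of the Dirichlet problem -/
def Solv (a : ℝ) (c : ℝ → ℝ) : Prop := ∀ f, Src a f → ∃ u u', u a = 0 ∧ HS a c f u u'

theorem solv_base (ha : 16 ≤ a) : Solv a fun z => 1 / 2 + 2 / z ^ 2 := by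
  rintro f ⟨hfc, K, hK0, hK⟩
  obtain ⟨η', η'', hη⟩ := adm_rpow (q := -(1 / 2)) ha (by norm_num) (by norm_num)
  have hne : ∀ s, a ≤ s → (s : ℂ) ≠ 0 := fun s hs => by
    exact_mod_cast (show s ≠ 0 by linarith)
  have e1 : ∀ s, a ≤ s → s ^ (1 / 2 : ℝ) = s ^ (-(1 / 2) : ℝ) * s := fun s hs => by
    rw [← Real.rpow_add_one (by linarith)]; norm_num
  have hG : ∀ s, a ≤ s → ‖f s / s‖ ≤ K * s ^ (-(1 / 2) : ℝ) := fun s hs => by
    have hs0 : 0 < s := by linarith
    rw [norm_div, Complex.norm_real, Real.norm_of_nonneg hs0.le, div_le_iff₀ hs0, mul_assoc,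
      ← e1 s hs]
    exact hK s hs
  have hle : ∀ s, a ≤ s → s ^ (-(1 / 2) : ℝ) ≤ 1 := fun s hs =>
    Real.rpow_le_one_of_one_le_of_nonpos (by linarith) (by norm_num)
  obtain ⟨W, hW, hW0⟩ := exists_x (a := a) (by linarith) (G := fun s => f s / s)
    (hfc.div Complex.continuous_ofReal.continuousOn hne) (K := K) fun s hs =>
      (hG s hs).trans (mul_le_mul_of_nonneg_left ((hle s hs).trans
        (one_le_pow₀ (by linarith))) hK0)
  have hWb : ∀ s, a ≤ s → ‖W s‖ ≤ 2 * K * s ^ (-(1 / 2) : ℝ) / s := fun s hs =>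
    fence_inf (A := fun s => s / 2 + 0) hW (fun s _ => ⟨gE_pos 0 s, hasDerivAt_gE 0 s⟩)
      (fun s hs => ⟨by have : 0 < s := by linarith
                       positivity, (hη.barD ha hK0 hs).1⟩)
      (fun s hs => le_trans (add_le_add le_rfl (hG s hs)) (hη.barD ha hK0 hs).2) hW0 hs
  have hzW : ∀ s, a ≤ s → ‖(s : ℂ) * W s‖ ≤ 2 * K * s ^ (-(1 / 2) : ℝ) := fun s hs => by
    have hs0 : 0 < s := by linarith
    have := hWb s hs
    rw [le_div_iff₀ hs0] at this
    rw [norm_mul, Complex.norm_real, Real.norm_of_nonneg hs0.le]; linarith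
  obtain ⟨T, hT0, hT, -⟩ := exists_prim (a := a) (g := fun s => (s : ℂ) * (s * W s))
    (Complex.continuous_ofReal.continuousOn.mul (Complex.continuous_ofReal.continuousOn.mul
      fun s hs => (hW s hs).continuousWithinAt))
  have hu : ∀ z, a ≤ z → ‖T z / z‖ ≤ 2 * K * z ^ (1 / 2 : ℝ) := fun z hz => by
    have hz0 : 0 < z := by linarith
    have := norm_image_sub_le_of_norm_deriv_le_segment' (f := T)
      (f' := fun s => (s : ℂ) * (s * W s)) (C := 2 * K * z ^ (1 / 2 : ℝ)) (a := a) (b := z)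
      (fun s hs => (hT s hs.1).mono Icc_subset_Ici_self) (fun s hs => by
        have hs0 : 0 < s := by linarith [hs.1]
        have h1 : s ^ (1 / 2 : ℝ) ≤ z ^ (1 / 2 : ℝ) :=
          Real.rpow_le_rpow hs0.le hs.2.le (by norm_num)
        rw [norm_mul, Complex.norm_real, Real.norm_of_nonneg hs0.le]
        rw [e1 s hs.1] at h1
        nlinarith [mul_le_mul_of_nonneg_left (hzW s hs.1) hs0.le,
          mul_le_mul_of_nonneg_left h1 hK0]) z ⟨hz, le_rfl⟩
    rw [hT0, sub_zero] at this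
    rw [norm_div, Complex.norm_real, Real.norm_of_nonneg hz0.le, div_le_iff₀ hz0]
    exact this.trans (mul_le_mul_of_nonneg_left (by linarith) (by positivity))
  have hid : ∀ z, HasDerivWithinAt (fun z : ℝ => (z : ℂ)) 1 (Ici a) z := fun z => by
    simpa using (hasDerivAt_id' z).ofReal_comp.hasDerivWithinAt
  have hd0 : ∀ z, a ≤ z → HasDerivWithinAt (fun z : ℝ => T z / z) (z * W z - T z / z / z)
      (Ici a) z := fun z hz => by
    refine ((hT z hz).fun_div (hid z) (hne z hz)).congr_deriv ?_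
    have := hne z hz
    field_simp
  refine ⟨fun z => T z / z, fun z => z * W z - T z / z / z, by simp [hT0], hd0, fun z hz => ?_,
    4 * K, fun z hz => ⟨(hu z hz).trans ?_, ?_⟩⟩
  · refine (((hid z).fun_mul (hW z hz)).fun_sub
      ((hd0 z hz).fun_div (hid z) (hne z hz))).congr_deriv ?_
    have := hne z hz
    push_cast; field_simp; ring
  · have : 0 < z := by linarith
    gcongr; norm_num
  · have hz0 : 0 < z := by linarith
    have h1 : ‖T z / z / z‖ ≤ ‖T z / z‖ := by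
      rw [norm_div _ (z : ℂ), Complex.norm_real, Real.norm_of_nonneg hz0.le]
      exact div_le_self (norm_nonneg _) (by linarith)
    have h2 : z ^ (-(1 / 2) : ℝ) ≤ z ^ (1 / 2 : ℝ) :=
      Real.rpow_le_rpow_of_exponent_le (by linarith) (by norm_num)
    refine (norm_sub_le _ _).trans ?_
    nlinarith [hzW z hz, hu z hz, mul_le_mul_of_nonneg_left h2 hK0]

theorem contOn_rpow (ha : 0 < a) (q : ℝ) : ContinuousOn (fun z : ℝ => z ^ q) (Ici a) :=
  continuousOn_id.rpow_const fun _ hz => Or.inl (ha.trans_le hz).ne'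

theorem Solv.step (ha : 16 ≤ a) {c e : ℝ → ℝ} (h : Solv a c) (hc : ∀ z, a ≤ z → 1 / 2 ≤ c z)
    (he : ContinuousOn e (Ici a)) (he' : ∀ z, a ≤ z → |e z| ≤ 1 / 4) :
    Solv a fun z => c z + e z := by
  rintro f ⟨hfc, K, hK0, hK⟩
  have hr : ContinuousOn (fun z : ℝ => ((z ^ (1 / 2 : ℝ) : ℝ) : ℂ)) (Ici a) :=
    Complex.continuous_ofReal.comp_continuousOn (contOn_rpow (by linarith) _)
  have hp : ∀ z, a ≤ z → 0 < z ^ (1 / 2 : ℝ) := fun z hz => Real.rpow_pos_of_pos (by linarith) _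
  have hev : ∀ (v : ℝ →ᵇ ℂ) z, a ≤ z → ‖(e z : ℂ) * (((z ^ (1 / 2 : ℝ) : ℝ) : ℂ) * v z)‖ ≤
      ‖v‖ / 4 * z ^ (1 / 2 : ℝ) := fun v z hz => by
    rw [norm_mul, norm_mul, Complex.norm_real, Complex.norm_real, Real.norm_eq_abs,
      Real.norm_of_nonneg (hp z hz).le]
    have := hp z hz
    calc _ ≤ 1 / 4 * (z ^ (1 / 2 : ℝ) * ‖v‖) := by
          gcongr
          · exact he' z hz
          · exact v.norm_coe_le_norm z
      _ = _ := by ring
  let F : (ℝ →ᵇ ℂ) → ℝ → ℂ := fun v z => f z + e z * (((z ^ (1 / 2 : ℝ) : ℝ) : ℂ) * v z)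
  have hF : ∀ v z, a ≤ z → ‖F v z‖ ≤ (K + ‖v‖ / 4) * z ^ (1 / 2 : ℝ) := fun v z hz =>
    (norm_add_le _ _).trans (by linarith [hK z hz, hev v z hz])
  have hS : ∀ v, Src a (F v) := fun v => ⟨hfc.add ((Complex.continuous_ofReal.comp_continuousOn
    he).mul (hr.mul v.continuous.continuousOn)), _, by positivity, hF v⟩
  choose u u' h0 hs using fun v => h (F v) (hS v)
  have hdiv : ∀ (w : ℂ) (M z : ℝ), a ≤ z → ‖w‖ ≤ M * z ^ (1 / 2 : ℝ) →
      ‖w / ((z ^ (1 / 2 : ℝ) : ℝ) : ℂ)‖ ≤ M := fun w M z hz hw => by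
    rwa [norm_div, Complex.norm_real, Real.norm_of_nonneg (hp z hz).le, div_le_iff₀ (hp z hz)]
  have hne : ∀ z, a ≤ z → ((z ^ (1 / 2 : ℝ) : ℝ) : ℂ) ≠ 0 := fun z hz => by
    exact_mod_cast (hp z hz).ne'
  let T : (ℝ →ᵇ ℂ) → ℝ →ᵇ ℂ := fun v => ofNormedAddCommGroup
    (fun z => u v (max z a) / (((max z a) ^ (1 / 2 : ℝ) : ℝ) : ℂ))
    (cont_clamp (g := fun z => u v z / ((z ^ (1 / 2 : ℝ) : ℝ) : ℂ))
      (ContinuousOn.div (fun z hz => ((hs v).d0 z hz).continuousWithinAt) hr hne))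
    (2 * (K + ‖v‖ / 4)) fun z => hdiv _ _ _ (le_max_right _ _)
      ((hs v).le ha (h0 v) hc (by positivity) (hF v) (le_max_right _ _))
  have hT : ContractingWith (1 / 2) T := by
    refine ⟨by norm_num, LipschitzWith.of_dist_le_mul fun v w => ?_⟩
    rw [dist_eq_norm, dist_eq_norm]
    refine (norm_le (by positivity)).2 fun z => ?_
    have h1 := ((hs v).sub (hs w)).le ha (by simp [h0]) hc (M := ‖v - w‖ / 4) (by positivity)
      (fun z hz => by
        refine le_trans (le_of_eq ?_) (hev (v - w) z hz)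
        congr 1
        simp only [F, BoundedContinuousFunction.coe_sub, Pi.sub_apply]; ring) (le_max_right z a)
    refine le_trans (le_of_eq ?_) ((hdiv _ _ _ (le_max_right _ _) h1).trans (le_of_eq ?_))
    · congr 1
      simp only [T, BoundedContinuousFunction.coe_sub, Pi.sub_apply, coe_ofNormedAddCommGroup]
      ring
    · push_cast; ring
  set v := hT.fixedPoint T with hv
  have hfix : T v = v := hT.fixedPoint_isFixedPt
  refine ⟨u v, u' v, h0 v, (hs v).d0, fun z hz => ((hs v).d1 z hz).congr_deriv ?_, (hs v).bd⟩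
  have h1 : v z = u v z / ((z ^ (1 / 2 : ℝ) : ℝ) : ℂ) := by
    conv_lhs => rw [← hfix]
    simp only [T, coe_ofNormedAddCommGroup, max_eq_left hz]
  have := hne z hz
  simp only [F, h1]
  push_cast; field_simp; ring

theorem solv_const (ha : 16 ≤ a) {t : ℝ} (ht : 1 ≤ t) : Solv a fun _ => t := by
  obtain ⟨N, hN⟩ := exists_nat_ge (4 * t)
  have hN0 : (0 : ℝ) < N := by linarith
  have hb : ∀ z, a ≤ z → 0 ≤ 2 / z ^ 2 ∧ 2 / z ^ 2 ≤ 1 / 2 := fun z hz => by
    refine ⟨by positivity, ?_⟩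
    rw [div_le_iff₀ (by nlinarith)]; nlinarith
  have key : ∀ j : ℕ,
      Solv a fun z => 1 / 2 + 2 / z ^ 2 + j * ((t - (1 / 2 + 2 / z ^ 2)) / N) := fun j => by
    induction j with
    | zero => simpa using solv_base ha
    | succ j ih =>
      have := ih.step ha (e := fun z => (t - (1 / 2 + 2 / z ^ 2)) / N) (fun z hz => by
        have h1 := hb z hz
        have h2 : 0 ≤ t - (1 / 2 + 2 / z ^ 2) := by linarith
        have : 0 ≤ j * ((t - (1 / 2 + 2 / z ^ 2)) / N) := by positivity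
        linarith)
        ((continuousOn_const.sub (continuousOn_const.add (continuousOn_const.div
          (continuousOn_id.pow 2) fun z hz => pow_ne_zero 2
            (show z ≠ 0 by linarith [mem_Ici.1 hz])))).div_const _) fun z hz => by
          have h1 := hb z hz
          rw [abs_of_nonneg (div_nonneg (by linarith) hN0.le), div_le_iff₀ hN0]
          linarith
      convert this using 2
      push_cast; ring
  convert key N using 2
  field_simp; ring

/-- existence for the mode `k` -/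
theorem exists_mode (ha : 16 ≤ a) (k : ℤ) (g : ℂ) {f : ℝ → ℂ} (hf : Src a f) :
    ∃ u u', HS a (fun _ => -al k) f u u' ∧ (2 ≤ |k| → u a = g) := by
  by_cases hk : 2 ≤ |k|
  · have hn : 2 ≤ |(k : ℝ)| := by exact_mod_cast hk
    have h1 : ∀ z, a ≤ z → 1 ≤ z ^ (1 / 2 : ℝ) := fun z hz =>
      Real.one_le_rpow (by linarith) (by norm_num)
    obtain ⟨hfc, K, hK0, hK⟩ := hf
    obtain ⟨u, u', h0, hs⟩ := solv_const ha (t := -al k) (by unfold al; nlinarith [sq_abs (k : ℝ)])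
      (fun z => f z - al k * g) ⟨hfc.sub continuousOn_const, K + ‖(al k : ℂ) * g‖, by positivity,
        fun z hz => (norm_sub_le _ _).trans (by
          nlinarith [hK z hz, mul_le_mul_of_nonneg_left (h1 z hz) (norm_nonneg ((al k : ℂ) * g))])⟩
    obtain ⟨K', hK'⟩ := hs.bd
    refine ⟨fun z => u z + g, u', ⟨fun z hz => (hs.d0 z hz).add_const g,
      fun z hz => (hs.d1 z hz).congr_deriv (by push_cast; ring), K' + ‖g‖, fun z hz => ⟨?_, ?_⟩⟩,
      fun _ => by simp [h0]⟩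
    · refine (norm_add_le _ _).trans ?_
      nlinarith [(hK' z hz).1, mul_le_mul_of_nonneg_left (h1 z hz) (norm_nonneg g)]
    · nlinarith [(hK' z hz).2, mul_le_mul_of_nonneg_left (h1 z hz) (norm_nonneg g), norm_nonneg g]
  · obtain ⟨φ, φ', φ'', hφ⟩ := exists_hom hk
    obtain ⟨u, u', h⟩ := exists_low ha hφ hf
    exact ⟨u, u', h, fun h => absurd h hk⟩

end

end Vale.Agent.P218F.EndI
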