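import Vale.Agent.P218F.EndInf2
import Vale.Agent.P218F.ConeLin
import Vale.Agent.P218F.Wien3

/-!
Exactly cylindrical ends: the linear problem `v_zz - (z/2) v_z + v + v_θθ / 2 = f` in Wiener
spaces, for triples which are normalised by a weight.
-/

set_option maxSynthPendingDepth 3

namespace Vale.Agent.P218F.EndI

open Set Filter Topology Wien
open Cone (W A T3 J6 BC jets jets_apply norm_jets_apply_le Clamp)

noncomputable section

variable {s : ℕ} {a b : ℝ} {S : Set ℝ} {ω η : ℝ → ℝ}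

/-- `(ω p₀, ω p₁, ω p₂)` is a function with its first two `z`-derivatives on `S` -/
structure Tri (S : Set ℝ) (ω : ℝ → ℝ) (p : T3 s) : Prop where
  d0 : ∀ k, ∀ z ∈ S,
    HasDerivWithinAt (fun y => (ω y : ℂ) * cf p.1 k y) (ω z * cf p.2.1 k z) S z
  d1 : ∀ k, ∀ z ∈ S,
    HasDerivWithinAt (fun y => (ω y : ℂ) * cf p.2.1 k y) (ω z * cf p.2.2 k z) S z

/-- the linear equation, mode by mode -/
def Lin (S : Set ℝ) (p : T3 s) (f : W s) : Prop := ∀ k, ∀ z ∈ S,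
  cf p.2.2 k z = (z / 2 : ℝ) * cf p.2.1 k z - al k * cf p.1 k z + cf f k z

/-- the values of six jets -/
def vals (J : J6 (W s)) (z θ : ℝ) : J6 ℂ :=
  (val J.1 z θ, val J.2.1 z θ, val J.2.2.1 z θ, val J.2.2.2.1 z θ, val J.2.2.2.2.1 z θ,
    val J.2.2.2.2.2 z θ)

/-- the linear operator on jets -/
def lop (z : ℝ) (J : J6 ℂ) : ℂ := J.2.2.2.1 - z / 2 * J.2.1 + J.1 + J.2.2.2.2.2 / 2

/-- a linear form on jets -/
def dot {B : Type*} [CommRing B] (c J : J6 B) : B :=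
  c.1 * J.1 + c.2.1 * J.2.1 + c.2.2.1 * J.2.2.1 + c.2.2.2.1 * J.2.2.2.1 +
    c.2.2.2.2.1 * J.2.2.2.2.1 + c.2.2.2.2.2 * J.2.2.2.2.2

theorem norm_J6_le {B : Type*} [NormedAddCommGroup B] (J : J6 B) :
    ‖J.1‖ ≤ ‖J‖ ∧ ‖J.2.1‖ ≤ ‖J‖ ∧ ‖J.2.2.1‖ ≤ ‖J‖ ∧ ‖J.2.2.2.1‖ ≤ ‖J‖ ∧ ‖J.2.2.2.2.1‖ ≤ ‖J‖ ∧
      ‖J.2.2.2.2.2‖ ≤ ‖J‖ := by
  have h := le_refl ‖J‖
  simp only [Prod.norm_def, max_le_iff] at h ⊢
  exact h

theorem norm_dot_le {B : Type*} [NormedCommRing B] (c J : J6 B) : ‖dot c J‖ ≤ 6 * ‖c‖ * ‖J‖ := by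
  obtain ⟨c1, c2, c3, c4, c5, c6⟩ := norm_J6_le c
  obtain ⟨j1, j2, j3, j4, j5, j6⟩ := norm_J6_le J
  have key : ∀ x y : B, ‖x‖ ≤ ‖c‖ → ‖y‖ ≤ ‖J‖ → ‖x * y‖ ≤ ‖c‖ * ‖J‖ := fun x y hx hy =>
    (norm_mul_le x y).trans (by gcongr)
  unfold dot
  refine (norm_add_le_of_le (norm_add_le_of_le (norm_add_le_of_le (norm_add_le_of_le
    (norm_add_le_of_le (key _ _ c1 j1) (key _ _ c2 j2)) (key _ _ c3 j3)) (key _ _ c4 j4))
    (key _ _ c5 j5)) (key _ _ c6 j6)).trans (le_of_eq (by ring))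

theorem dot_add {B : Type*} [CommRing B] (c J K : J6 B) : dot c (J + K) = dot c J + dot c K := by
  simp only [dot, Prod.fst_add, Prod.snd_add]; ring

theorem dot_sub {B : Type*} [CommRing B] (c J K : J6 B) : dot c (J - K) = dot c J - dot c K := by
  simp only [dot, Prod.fst_sub, Prod.snd_sub]; ring

theorem sub_dot {B : Type*} [CommRing B] (c d J : J6 B) : dot (c - d) J = dot c J - dot d J := by
  simp only [dot, Prod.fst_sub, Prod.snd_sub]; ring

theorem dot_smul (c J : J6 ℂ) (m : ℂ) : dot c (m • J) = m * dot c J := by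
  simp only [dot, Prod.smul_fst, Prod.smul_snd, smul_eq_mul]; ring

theorem dot_comm {B : Type*} [CommRing B] (c J : J6 B) : dot c J = dot J c := by
  simp only [dot]; ring

@[simp] theorem val_dot (c J : J6 (W s)) (z θ : ℝ) :
    val (dot c J) z θ = dot (vals c z θ) (vals J z θ) := by
  simp [dot, vals]

@[simp] theorem vals_add (J K : J6 (W s)) (z θ : ℝ) :
    vals (J + K) z θ = vals J z θ + vals K z θ := by simp [vals]

@[simp] theorem vals_sub (J K : J6 (W s)) (z θ : ℝ) :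
    vals (J - K) z θ = vals J z θ - vals K z θ := by simp [vals]

@[simp] theorem vals_smul (m : ℂ) (J : J6 (W s)) (z θ : ℝ) :
    vals (m • J) z θ = m • vals J z θ := by simp [vals]

@[simp] theorem vals_zero (z θ : ℝ) : vals (0 : J6 (W s)) z θ = 0 := by simp [vals]

theorem norm_vals_le (J : J6 (W s)) (z θ : ℝ) : ‖vals J z θ‖ ≤ ‖J‖ := by
  obtain ⟨j1, j2, j3, j4, j5, j6⟩ := norm_J6_le J
  simp only [vals, Prod.norm_def, max_le_iff]
  exact ⟨(norm_val_le _ _ _).trans j1, (norm_val_le _ _ _).trans j2, (norm_val_le _ _ _).trans j3,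
    (norm_val_le _ _ _).trans j4, (norm_val_le _ _ _).trans j5, (norm_val_le _ _ _).trans j6⟩

theorem lop_add (z : ℝ) (J K : J6 ℂ) : lop z (J + K) = lop z J + lop z K := by
  simp only [lop, Prod.fst_add, Prod.snd_add]; ring

theorem lop_sub (z : ℝ) (J K : J6 ℂ) : lop z (J - K) = lop z J - lop z K := by
  simp only [lop, Prod.fst_sub, Prod.snd_sub]; ring

theorem lop_smul (z : ℝ) (m : ℂ) (J : J6 ℂ) : lop z (m • J) = m * lop z J := by
  simp only [lop, Prod.smul_fst, Prod.smul_snd, smul_eq_mul]; ring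

theorem jets_add (p q : T3 s) : jets s (p + q) = jets s p + jets s q := by
  simp [jets_apply]

theorem jets_sub (p q : T3 s) : jets s (p - q) = jets s p - jets s q := by
  simp [jets_apply]

theorem jets_smul (m : ℂ) (p : T3 s) : jets s (m • p) = m • jets s p := by
  simp [jets_apply]

theorem jets_zero : jets s 0 = 0 := by simp [jets_apply]

/-- `p₂ + p₀ + (p₀)_θθ / 2` -/
def sec (p : T3 s) : W s := (jets s p).2.2.2.1 + (jets s p).1 + (1 / 2 : ℂ) • (jets s p).2.2.2.2.2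

theorem cf_sec (p : T3 s) (k : ℤ) (z : ℝ) : cf (sec p) k z = cf p.2.2 k z + al k * cf p.1 k z := by
  simp only [sec, jets_apply, cf_add, cf_smul, cf_incl, cf_dth, al,
    BoundedContinuousFunction.coe_add, BoundedContinuousFunction.coe_smul, Pi.add_apply,
    smul_eq_mul]
  push_cast
  linear_combination ((k : ℂ) ^ 2 / 2 * cf p.1 k z) * Complex.I_mul_I

theorem norm_sec_le (p : T3 s) : ‖sec p‖ ≤ 3 * ‖p‖ := by
  obtain ⟨j1, -, -, j4, -, j6⟩ := norm_J6_le (jets s p)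
  have h := norm_jets_apply_le p
  have h2 : ‖(1 / 2 : ℂ) • (jets s p).2.2.2.2.2‖ ≤ ‖p‖ := by
    rw [norm_smul]
    have : ‖(1 / 2 : ℂ)‖ = 1 / 2 := by simp
    rw [this]; linarith [norm_nonneg p]
  exact (norm_add_le_of_le (norm_add_le_of_le (j4.trans h) (j1.trans h)) h2).trans
    (le_of_eq (by ring))

theorem lin_iff (p : T3 s) (f : W s) :
    Lin S p f ↔ ∀ z ∈ S, ∀ θ, lop z (vals (jets s p) z θ) = val f z θ := by
  have h1 : ∀ (z : ℝ) k, cf (sec p - ((z : ℂ) / 2) • (jets s p).2.1) k z =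
      cf p.2.2 k z + al k * cf p.1 k z - (z / 2 : ℝ) * cf p.2.1 k z := fun z k => by
    rw [cf_sub, BoundedContinuousFunction.coe_sub, Pi.sub_apply, cf_sec]
    simp [jets_apply]
  have h2 : ∀ (z : ℝ) θ, val (sec p - ((z : ℂ) / 2) • (jets s p).2.1) z θ =
      lop z (vals (jets s p) z θ) := fun z θ => by
    simp only [sec, val_sub, val_add, val_smul, smul_eq_mul, lop, vals]; ring
  constructor
  · intro h z hz θ
    rw [← h2]
    exact val_congr (fun k => by rw [h1, h k z hz]; ring) θ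
  · intro h k z hz
    have := cf_eq_of_val (fun θ => (h2 z θ).trans (h z hz θ)) k
    rw [h1] at this
    linear_combination this

theorem Lin.congr {p : T3 s} {f g : W s} (h : Lin S p f) (hg : ∀ z ∈ S, ∀ θ, val f z θ = val g z θ) :
    Lin S p g := fun k z hz => by rw [h k z hz, cf_eq_of_val (hg z hz) k]

theorem Lin.mono {p : T3 s} {f : W s} (h : Lin S p f) {T : Set ℝ} (hT : T ⊆ S) : Lin T p f :=
  fun k z hz => h k z (hT hz)

theorem Tri.mono {p : T3 s} (h : Tri S ω p) {T : Set ℝ} (hT : T ⊆ S) : Tri T ω p :=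
  ⟨fun k z hz => (h.d0 k z (hT hz)).mono hT, fun k z hz => (h.d1 k z (hT hz)).mono hT⟩

theorem Tri.add {p q : T3 s} (h : Tri S ω p) (h' : Tri S ω q) : Tri S ω (p + q) := by
  constructor <;> intro k z hz <;>
    simp only [Prod.fst_add, Prod.snd_add, cf_add, BoundedContinuousFunction.coe_add, Pi.add_apply,
      mul_add]
  exacts [(h.d0 k z hz).fun_add (h'.d0 k z hz), (h.d1 k z hz).fun_add (h'.d1 k z hz)]

theorem Tri.smul {p : T3 s} (h : Tri S ω p) (m : ℂ) : Tri S ω (m • p) := by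
  constructor <;> intro k z hz <;>
    simp only [Prod.smul_fst, Prod.smul_snd, cf_smul, BoundedContinuousFunction.coe_smul,
      smul_eq_mul, mul_left_comm _ m]
  exacts [(h.d0 k z hz).const_mul m, (h.d1 k z hz).const_mul m]

theorem Tri.sub {p q : T3 s} (h : Tri S ω p) (h' : Tri S ω q) : Tri S ω (p - q) := by
  simpa [sub_eq_add_neg] using h.add (h'.smul (-1))

theorem Lin.add {p q : T3 s} {f g : W s} (h : Lin S p f) (h' : Lin S q g) :
    Lin S (p + q) (f + g) := fun k z hz => by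
  simp only [Prod.fst_add, Prod.snd_add, cf_add, BoundedContinuousFunction.coe_add, Pi.add_apply,
    h k z hz, h' k z hz]
  ring

theorem Lin.smul {p : T3 s} {f : W s} (h : Lin S p f) (m : ℂ) : Lin S (m • p) (m • f) :=
  fun k z hz => by
  simp only [Prod.smul_fst, Prod.smul_snd, cf_smul, BoundedContinuousFunction.coe_smul,
    smul_eq_mul, h k z hz]
  ring

theorem Lin.sub {p q : T3 s} {f g : W s} (h : Lin S p f) (h' : Lin S q g) :
    Lin S (p - q) (f - g) := by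
  simpa [sub_eq_add_neg] using h.add (h'.smul (-1))

theorem tri_one_iff {p : T3 s} :
    Tri S (fun _ => 1) p ↔ ZDer S p.1 p.2.1 ∧ ZDer S p.2.1 p.2.2 :=
  ⟨fun h => ⟨fun k z hz => by simpa using h.d0 k z hz, fun k z hz => by simpa using h.d1 k z hz⟩,
    fun h => ⟨fun k z hz => by simpa using h.1 k z hz, fun k z hz => by simpa using h.2 k z hz⟩⟩

/-! ### Change of weight and of domain -/

/-- `u ↦ μ(z) u(π z, θ)` -/
def cut (s : ℕ) (π : C(ℝ, ℝ)) (μ : BC) : W s →L[ℂ] W s :=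
  (mapL ℤ s (ContinuousLinearMap.mul ℂ BC μ)).comp (pull ℤ s ℂ π)

@[simp] theorem cf_cut (π : C(ℝ, ℝ)) (μ : BC) (u : W s) (k : ℤ) (z : ℝ) :
    cf (cut s π μ u) k z = μ z * cf u k (π z) := by simp [cut]

@[simp] theorem val_cut (π : C(ℝ, ℝ)) (μ : BC) (u : W s) (z θ : ℝ) :
    val (cut s π μ u) z θ = μ z * val u (π z) θ := by
  rw [← smul_eq_mul, ← val_smul]
  exact val_congr (fun k => by simp) θ

theorem norm_cut_le (π : C(ℝ, ℝ)) (μ : BC) (u : W s) : ‖cut s π μ u‖ ≤ ‖μ‖ * ‖u‖ :=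
  norm_le_of_cf fun k => by
    rw [mul_left_comm]
    refine mul_le_mul_of_nonneg_left ((BoundedContinuousFunction.norm_le (by positivity)).2
      fun z => ?_) (wt_pos s k).le
    rw [cf_cut, norm_mul]
    exact mul_le_mul (μ.norm_coe_le_norm z) ((cf u k).norm_coe_le_norm _) (norm_nonneg _)
      (norm_nonneg _)

/-- the same for triples -/
def cutT (s : ℕ) (π : C(ℝ, ℝ)) (μ : BC) : T3 s →L[ℂ] T3 s :=
  (cut (s + 2) π μ).prodMap ((cut (s + 1) π μ).prodMap (cut s π μ))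

theorem cutT_apply (π : C(ℝ, ℝ)) (μ : BC) (p : T3 s) :
    cutT s π μ p = (cut (s + 2) π μ p.1, cut (s + 1) π μ p.2.1, cut s π μ p.2.2) := rfl

theorem norm_cutT_le (π : C(ℝ, ℝ)) (μ : BC) (p : T3 s) : ‖cutT s π μ p‖ ≤ ‖μ‖ * ‖p‖ := by
  have h1 : ‖p.2.1‖ ≤ ‖p‖ := (norm_fst_le p.2).trans (norm_snd_le p)
  have h2 : ‖p.2.2‖ ≤ ‖p‖ := (norm_snd_le p.2).trans (norm_snd_le p)
  have h0 := norm_fst_le p
  simp only [cutT_apply, norm_prod_le_iff]
  refine ⟨(norm_cut_le _ _ _).trans ?_, (norm_cut_le _ _ _).trans ?_,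
    (norm_cut_le _ _ _).trans ?_⟩ <;> gcongr

/-- the same for jets -/
def cutJ (π : C(ℝ, ℝ)) (μ : BC) (J : J6 (W s)) : J6 (W s) :=
  (cut s π μ J.1, cut s π μ J.2.1, cut s π μ J.2.2.1, cut s π μ J.2.2.2.1, cut s π μ J.2.2.2.2.1,
    cut s π μ J.2.2.2.2.2)

@[simp] theorem vals_cutJ (π : C(ℝ, ℝ)) (μ : BC) (J : J6 (W s)) (z θ : ℝ) :
    vals (cutJ π μ J) z θ = μ z • vals J (π z) θ := by simp [vals, cutJ]

theorem norm_cutJ_le (π : C(ℝ, ℝ)) (μ : BC) (J : J6 (W s)) : ‖cutJ π μ J‖ ≤ ‖μ‖ * ‖J‖ := by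
  obtain ⟨j1, j2, j3, j4, j5, j6⟩ := norm_J6_le J
  simp only [cutJ, norm_prod_le_iff]
  refine ⟨(norm_cut_le _ _ _).trans ?_, (norm_cut_le _ _ _).trans ?_, (norm_cut_le _ _ _).trans ?_,
    (norm_cut_le _ _ _).trans ?_, (norm_cut_le _ _ _).trans ?_, (norm_cut_le _ _ _).trans ?_⟩ <;>
    gcongr

theorem jets_cutT (π : C(ℝ, ℝ)) (μ : BC) (p : T3 s) :
    jets s (cutT s π μ p) = cutJ π μ (jets s p) := by
  simp only [jets_apply, cutT_apply, cutJ, Prod.mk.injEq]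
  refine ⟨?_, ?_, ?_, trivial, ?_, ?_⟩ <;> ext k z <;> simp <;> ring

theorem cut_dot (π : C(ℝ, ℝ)) (μ : BC) (c J : J6 (W s)) :
    cut s π μ (dot c J) = dot (cutJ π 1 c) (cutJ π μ J) :=
  ext_val fun z θ => by simp [dot_smul]

theorem Tri.cut {p : T3 s} (h : Tri S η p) {π : C(ℝ, ℝ)} {μ : BC} (hπ : ∀ z ∈ S, π z = z)
    (hμ : ∀ z ∈ S, ω z * μ z = η z) : Tri S ω (cutT s π μ p) := by
  have key : ∀ {t : ℕ} (u : W t) k, ∀ z ∈ S,
      (ω z : ℂ) * cf (EndI.cut t π μ u) k z = η z * cf u k z := fun u k z hz => by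
    rw [cf_cut, hπ z hz, ← mul_assoc, hμ z hz]
  constructor <;> intro k z hz <;> simp only [cutT_apply] <;> rw [key _ k z hz]
  exacts [(h.d0 k z hz).congr (key _ k) (key _ k z hz), (h.d1 k z hz).congr (key _ k) (key _ k z hz)]

theorem Lin.cut {p : T3 s} {f : W s} (h : Lin S p f) {π : C(ℝ, ℝ)} (μ : BC)
    (hπ : ∀ z ∈ S, π z = z) : Lin S (cutT s π μ p) (cut s π μ f) := fun k z hz => by
  simp only [cutT_apply, cf_cut, hπ z hz, h k z hz]; ring

/-! ### A priori estimates -/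

theorem wt_nk (s : ℕ) (k : ℤ) : wt (s + 1) k = nk k * wt s k := by rw [wt_succ, norm_int]; rfl

theorem wt_nk2 (s : ℕ) (k : ℤ) : wt (s + 2) k = nk k ^ 2 * wt s k := by
  rw [wt_nk, wt_nk]; ring

theorem nk_pos (k : ℤ) : 0 < nk k := zero_lt_one.trans_le (one_le_nk k)

theorem bc_le {u : BC} {c x : ℝ} (hc : 0 < c) (h : ∀ z, c * ‖u z‖ ≤ x) : c * ‖u‖ ≤ x := by
  have hx : 0 ≤ x := le_trans (by positivity) (h 0)
  rw [← le_div_iff₀' hc]
  exact (BoundedContinuousFunction.norm_le (by positivity)).2 fun z => (le_div_iff₀' hc).2 (h z)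

theorem norm_T3_le {p : T3 s} {x : ℤ → ℝ} {X : ℝ} (hx : HasSum (fun k => wt s k * x k) X)
    (h : ∀ k z, nk k ^ 2 * ‖cf p.1 k z‖ ≤ x k ∧ nk k * ‖cf p.2.1 k z‖ ≤ x k ∧
      ‖cf p.2.2 k z‖ ≤ x k) : ‖p‖ ≤ X := by
  simp only [Prod.norm_def, max_le_iff]
  refine ⟨hasSum_le (fun k => ?_) (hasSum_norm _) hx, hasSum_le (fun k => ?_) (hasSum_norm _) hx,
    hasSum_le (fun k => ?_) (hasSum_norm _) hx⟩
  · rw [wt_nk2, mul_comm (nk k ^ 2), mul_assoc]
    exact mul_le_mul_of_nonneg_left (bc_le (pow_pos (nk_pos k) 2) fun z => (h k z).1) (wt_pos s k).le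
  · rw [wt_nk, mul_comm (nk k), mul_assoc]
    exact mul_le_mul_of_nonneg_left (bc_le (nk_pos k) fun z => (h k z).2.1) (wt_pos s k).le
  · have := bc_le one_pos fun z => (one_mul _).le.trans (h k z).2.2
    rw [one_mul] at this
    exact mul_le_mul_of_nonneg_left this (wt_pos s k).le

theorem exists_T3 {u₀ u₁ u₂ : ℤ → BC} {x : ℤ → ℝ} (hx : Summable fun k => wt s k * x k)
    (h : ∀ k z, nk k ^ 2 * ‖u₀ k z‖ ≤ x k ∧ nk k * ‖u₁ k z‖ ≤ x k ∧ ‖u₂ k z‖ ≤ x k) :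
    ∃ p : T3 s, ∀ k, cf p.1 k = u₀ k ∧ cf p.2.1 k = u₁ k ∧ cf p.2.2 k = u₂ k := by
  refine ⟨(mk u₀ (hx.of_nonneg_of_le (fun k => ?_) fun k => ?_),
    mk u₁ (hx.of_nonneg_of_le (fun k => ?_) fun k => ?_),
    mk u₂ (hx.of_nonneg_of_le (fun k => ?_) fun k => ?_)), fun k => by simp⟩
  · exact mul_nonneg (wt_pos _ k).le (norm_nonneg _)
  · rw [wt_nk2, mul_comm (nk k ^ 2), mul_assoc]
    exact mul_le_mul_of_nonneg_left (bc_le (pow_pos (nk_pos k) 2) fun z => (h k z).1) (wt_pos s k).le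
  · exact mul_nonneg (wt_pos _ k).le (norm_nonneg _)
  · rw [wt_nk, mul_comm (nk k), mul_assoc]
    exact mul_le_mul_of_nonneg_left (bc_le (nk_pos k) fun z => (h k z).2.1) (wt_pos s k).le
  · exact mul_nonneg (wt_pos _ k).le (norm_nonneg _)
  · have := bc_le one_pos fun z => (one_mul _).le.trans (h k z).2.2
    rw [one_mul] at this
    exact mul_le_mul_of_nonneg_left this (wt_pos s k).le

theorem Est.div {k : ℤ} {B w z : ℝ} {u u' u'' v v' v'' : ℂ} (hw : 0 < w)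
    (h : Est k (B * w) z u u' u'') (h0 : u = w * v) (h1 : u' = w * v') (h2 : u'' = w * v'') :
    nk k ^ 2 * ‖v‖ ≤ B ∧ nk k * ‖v'‖ ≤ B ∧ ‖v''‖ ≤ B := by
  have key : ∀ x : ℂ, ‖(w : ℂ) * x‖ = ‖x‖ * w := fun x => by
    rw [norm_mul, Complex.norm_real, Real.norm_of_nonneg hw.le, mul_comm]
  obtain ⟨e0, e1, e2, -⟩ := h
  rw [h0, key, ← mul_assoc] at e0
  rw [h1, key, ← mul_assoc] at e1
  rw [h2, key] at e2
  exact ⟨le_of_mul_le_mul_right e0 hw, le_of_mul_le_mul_right e1 hw, le_of_mul_le_mul_right e2 hw⟩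

theorem norm_wmul {w : ℝ} (hw : 0 < w) {c x : ℝ} {v : ℂ} (h : c * ‖v‖ ≤ x) :
    c * ‖(w : ℂ) * v‖ ≤ x * w := by
  rw [norm_mul, Complex.norm_real, Real.norm_of_nonneg hw.le]
  nlinarith [mul_le_mul_of_nonneg_right h hw.le]

/-- the modes `|k| ≥ 2` of the trace at `a` are those of `g` -/
def HiTr (a : ℝ) (p : T3 s) (g : A (s + 2)) : Prop := ∀ k, 2 ≤ |k| → cf p.1 k a = cf g k

/-- the values are taken on `S` -/
def Onto (S : Set ℝ) (p : T3 s) : Prop := ∀ z, ∃ y ∈ S, ∀ k,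
  cf p.1 k z = cf p.1 k y ∧ cf p.2.1 k z = cf p.2.1 k y ∧ cf p.2.2 k z = cf p.2.2 k y

theorem hasSum_congr {x y : ℤ → ℝ} {X : ℝ} (h : HasSum x X) (e : ∀ k, y k = x k) : HasSum y X :=
  (funext e : y = x) ▸ h

theorem hasSum_A2 (g : A (s + 2)) : HasSum (fun k => wt s k * (nk k ^ 2 * ‖cf g k‖)) ‖g‖ := by
  convert hasSum_norm g using 2
  rw [wt_nk2]; ring

theorem hasSum_A1 (g : A (s + 1)) : HasSum (fun k => wt s k * (nk k * ‖cf g k‖)) ‖g‖ := by
  convert hasSum_norm g using 2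
  rw [wt_nk]; ring

theorem aprW_fin (h : Adm a ω) (ha : 16 ≤ a) {p : T3 s} {f : W s} {g : A (s + 2)} {g₀ g₂ : A s}
    {g₁ : A (s + 1)} (ht : Tri (Icc a b) ω p) (hl : Lin (Icc a b) p f) (hc : Onto (Icc a b) p)
    (hg : HiTr a p g) (h0 : ∀ k, ¬ 2 ≤ |k| → cf p.1 k b = cf g₀ k)
    (h1 : ∀ k, cf p.2.1 k b = cf g₁ k) (h2 : ∀ k, b * cf p.2.1 k b = cf g₂ k) :
    ‖p‖ ≤ 2000 * (‖f‖ + ‖g‖ + ‖g₀‖ + ‖g₁‖ + ‖g₂‖) := by
  have hs := (((((hasSum_norm f).add (hasSum_A2 g)).add (hasSum_norm g₀)).add (hasSum_A1 g₁)).add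
    (hasSum_norm g₂)).mul_left 2000
  refine norm_T3_le (x := fun k => 2000 * (‖cf f k‖ + nk k ^ 2 * ‖cf g k‖ + ‖cf g₀ k‖ +
    nk k * ‖cf g₁ k‖ + ‖cf g₂ k‖)) (hasSum_congr hs fun k => by ring) fun k z => ?_
  obtain ⟨y, hy, hk⟩ := hc z
  have hab : a ≤ b := hy.1.trans hy.2
  have p1 := norm_nonneg (cf f k)
  have p2 : 0 ≤ nk k ^ 2 * ‖cf g k‖ := by positivity
  have p3 := norm_nonneg (cf g₀ k)
  have p4 : 0 ≤ nk k * ‖cf g₁ k‖ := mul_nonneg (nk_pos k).le (norm_nonneg _)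
  have p5 := norm_nonneg (cf g₂ k)
  rw [(hk k).1, (hk k).2.1, (hk k).2.2]
  refine (apr_fin (f := fun z => ω z * cf f k z) h ha (by positivity) k (ht.d0 k)
    (fun z hz => (ht.d1 k z hz).congr_deriv (by rw [hl k z hz]; ring)) (fun z hz => ?_)
    (fun hk => norm_wmul (h.pos le_rfl) ?_) (fun hk => ?_) (norm_wmul (h.pos hab) ?_)
    (norm_wmul (h.pos hab) ?_) hy).div (h.pos hy.1) rfl rfl (by rw [hl k y hy]; ring)
  · have := norm_wmul (h.pos hz.1) (c := 1) (v := cf f k z) (x := ‖cf f k‖ + nk k ^ 2 * ‖cf g k‖ +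
      ‖cf g₀ k‖ + nk k * ‖cf g₁ k‖ + ‖cf g₂ k‖) (by linarith [(cf f k).norm_coe_le_norm z])
    rwa [one_mul] at this
  · rw [hg k hk]; linarith
  · have := norm_wmul (h.pos hab) (c := 1) (v := cf p.1 k b) (x := ‖cf f k‖ + nk k ^ 2 * ‖cf g k‖ +
      ‖cf g₀ k‖ + nk k * ‖cf g₁ k‖ + ‖cf g₂ k‖) (by rw [h0 k hk]; linarith)
    rwa [one_mul] at this
  · rw [h1 k]; linarith
  · have : b * ‖cf p.2.1 k b‖ = ‖cf g₂ k‖ := by
      rw [← h2 k, norm_mul, Complex.norm_real, Real.norm_of_nonneg (by linarith)]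
    linarith

/-- weights for the half line -/
def AdmI (a : ℝ) (ω : ℝ → ℝ) : Prop := Adm a ω ∧ ∃ K, ∀ z, a ≤ z → ω z ≤ K * z ^ (1 / 2 : ℝ)

theorem admI_rpow {q : ℝ} (ha : 16 ≤ a) (h1 : -(19 / 10) ≤ q) (h2 : q ≤ 1 / 2) :
    AdmI a fun z => z ^ q :=
  ⟨adm_rpow ha h1 (by linarith), 1, fun z hz => by
    rw [one_mul]; exact Real.rpow_le_rpow_of_exponent_le (by linarith) h2⟩

theorem admI_one (ha : 16 ≤ a) : AdmI a fun _ => 1 := by
  simpa using admI_rpow (q := 0) ha (by norm_num) (by norm_num)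

theorem AdmI.le (h : AdmI a ω) (ha : 16 ≤ a) (u : BC) :
    ∃ K, 0 ≤ K ∧ ∀ K', K ≤ K' → ∀ z, a ≤ z → ‖(ω z : ℂ) * u z‖ ≤ K' * z ^ (1 / 2 : ℝ) := by
  obtain ⟨h, K, hK⟩ := h
  have hp : ∀ z, a ≤ z → 0 < z ^ (1 / 2 : ℝ) := fun z hz => Real.rpow_pos_of_pos (by linarith) _
  have hK0 : 0 ≤ K :=
    nonneg_of_mul_nonneg_left ((h.pos le_rfl).le.trans (hK a le_rfl)) (hp a le_rfl)
  refine ⟨‖u‖ * K, by positivity, fun K' hK' z hz => ?_⟩
  rw [norm_mul, Complex.norm_real, Real.norm_of_nonneg (h.pos hz).le]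
  have h1 := mul_le_mul (hK z hz) (u.norm_coe_le_norm z) (norm_nonneg _)
    ((h.pos hz).le.trans (hK z hz))
  nlinarith [mul_le_mul_of_nonneg_right hK' (hp z hz).le]

/-- the problem on the half line -/
structure Rel (a : ℝ) (ω : ℝ → ℝ) (g : A (s + 2)) (f : W s) (p : T3 s) : Prop where
  c0 : Clamp a p.1
  c1 : Clamp a p.2.1
  c2 : Clamp a p.2.2
  tri : Tri (Ici a) ω p
  lin : Lin (Ici a) p f
  hi : HiTr a p g

theorem est_inf (h : AdmI a ω) (ha : 16 ≤ a) (k : ℤ) {u u' : ℝ → ℂ} {f : BC} {g : ℂ}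
    (hs : HS a (fun _ => -al k) (fun z => ω z * f z) u u') (hg : 2 ≤ |k| → u a = ω a * g) {z : ℝ}
    (hz : a ≤ z) : Est k (2000 * (‖f‖ + nk k ^ 2 * ‖g‖) * ω z) z (u z) (u' z)
      ((z / 2 : ℝ) * u' z - al k * u z + ω z * f z) := by
  obtain ⟨K, hK⟩ := hs.bd
  obtain ⟨K', -, hK'⟩ := h.le ha f
  have p2 : 0 ≤ nk k ^ 2 * ‖g‖ := by positivity
  have hp : ∀ z, a ≤ z → 0 < z ^ (1 / 2 : ℝ) := fun z hz => Real.rpow_pos_of_pos (by linarith) _
  refine apr_inf (f := fun z => ω z * f z) (K := max K K') h.1 ha (by positivity) k hs.d0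
    (fun z hz => (hs.d1 z hz).congr_deriv (by push_cast; ring)) (fun z hz => ?_) (fun hk => ?_)
    (fun z hz => ⟨(hK z hz).1.trans ?_, (hK z hz).2.trans ?_, hK' _ (le_max_right _ _) z hz⟩) hz
  · have := norm_wmul (h.1.pos hz) (c := 1) (v := f z) (x := ‖f‖ + nk k ^ 2 * ‖g‖)
      (by linarith [f.norm_coe_le_norm z])
    rwa [one_mul] at this
  · rw [hg hk]
    exact norm_wmul (h.1.pos le_rfl) (by linarith [norm_nonneg f])
  · exact mul_le_mul_of_nonneg_right (le_max_left _ _) (hp z hz).le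
  · exact mul_le_mul_of_nonneg_right (le_max_left _ _) (hp z hz).le

theorem Rel.le (h : AdmI a ω) (ha : 16 ≤ a) {g : A (s + 2)} {f : W s} {p : T3 s}
    (hp : Rel a ω g f p) : ‖p‖ ≤ 2000 * (‖f‖ + ‖g‖) := by
  have hs := ((hasSum_norm f).add (hasSum_A2 g)).mul_left 2000
  refine norm_T3_le (x := fun k => 2000 * (‖cf f k‖ + nk k ^ 2 * ‖cf g k‖))
    (hasSum_congr hs fun k => by ring) fun k z => ?_
  rw [hp.c0 k z, hp.c1 k z, hp.c2 k z]
  obtain ⟨K, -, hK⟩ := h.le ha (cf p.1 k)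
  obtain ⟨K', -, hK'⟩ := h.le ha (cf p.2.1 k)
  have hy := le_max_right z a
  exact (est_inf h ha k (u := fun y => ω y * cf p.1 k y) (u' := fun y => ω y * cf p.2.1 k y)
    (f := cf f k) (g := cf g k) ⟨hp.tri.d0 k, fun z hz => (hp.tri.d1 k z hz).congr_deriv
      (by rw [hp.lin k z hz]; push_cast; ring), max K K',
      fun z hz => ⟨hK _ (le_max_left _ _) z hz, hK' _ (le_max_right _ _) z hz⟩⟩
    (fun hk => by rw [hp.hi k hk]) hy).div (h.1.pos hy) rfl rfl (by rw [hp.lin k _ hy]; ring)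

/-- a bounded continuous function on `[a, ∞)`, extended by a constant -/
def bcI (a : ℝ) (F : ℝ → ℂ) (hF : ContinuousOn F (Ici a)) (C : ℝ) (hC : ∀ z, a ≤ z → ‖F z‖ ≤ C) :
    BC := BoundedContinuousFunction.ofNormedAddCommGroup (fun z => F (max z a)) (cont_clamp hF) C
      fun z => hC _ (le_max_right z a)

@[simp] theorem bcI_apply {F : ℝ → ℂ} {hF C hC} (z : ℝ) : bcI a F hF C hC z = F (max z a) := rfl

theorem norm_bcI_le {F : ℝ → ℂ} {hF C hC} : ‖bcI a F hF C hC‖ ≤ C :=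
  (BoundedContinuousFunction.norm_le ((norm_nonneg _).trans (hC a le_rfl))).2
    fun z => hC _ (le_max_right z a)

theorem exists_rel (h : AdmI a ω) (ha : 16 ≤ a) (g : A (s + 2)) (f : W s) :
    ∃ p, Rel a ω g f p := by
  have hω : ContinuousOn (fun z => (ω z : ℂ)) (Ici a) :=
    Complex.continuous_ofReal.comp_continuousOn h.1.continuousOn
  have hne : ∀ z, a ≤ z → (ω z : ℂ) ≠ 0 := fun z hz => by exact_mod_cast (h.1.pos hz).ne'
  have hsrc : ∀ k, Src a fun z => ω z * cf f k z := fun k => by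
    obtain ⟨K, hK0, hK⟩ := h.le ha (cf f k)
    exact ⟨hω.mul (cf f k).continuous.continuousOn, K, hK0, hK K le_rfl⟩
  choose u u' hs hg using fun k => exists_mode ha k (ω a * cf g k) (hsrc k)
  have hu : ∀ k, ContinuousOn (u k) (Ici a) := fun k z hz => ((hs k).d0 z hz).continuousWithinAt
  have hu' : ∀ k, ContinuousOn (u' k) (Ici a) := fun k z hz => ((hs k).d1 z hz).continuousWithinAt
  have hE : ∀ k z, a ≤ z → _ := fun k z hz => (est_inf h ha k (hs k) (hg k) hz).div (h.1.pos hz)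
    (mul_div_cancel₀ _ (hne z hz)).symm (mul_div_cancel₀ _ (hne z hz)).symm
    (mul_div_cancel₀ _ (hne z hz)).symm
  have hb : ∀ {c x y : ℝ}, 1 ≤ c → 0 ≤ x → c * x ≤ y → x ≤ y := fun hc hx h =>
    (le_mul_of_one_le_left hx hc).trans h
  obtain ⟨p, hp⟩ := exists_T3 (s := s) (x := fun k => 2000 * (‖cf f k‖ + nk k ^ 2 * ‖cf g k‖))
    (u₀ := fun k => bcI a (fun z => u k z / ω z) ((hu k).div hω hne) _
      fun z hz => hb (one_le_pow₀ (one_le_nk k)) (norm_nonneg _) (hE k z hz).1)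
    (u₁ := fun k => bcI a (fun z => u' k z / ω z) ((hu' k).div hω hne) _
      fun z hz => hb (one_le_nk k) (norm_nonneg _) (hE k z hz).2.1)
    (u₂ := fun k => bcI a (fun z => ((z / 2 : ℝ) * u' k z - al k * u k z + ω z * cf f k z) / ω z)
      ((((ContinuousOn.mul (by fun_prop) (hu' k)).sub (continuousOn_const.mul (hu k))).add
        (hsrc k).1).div hω hne) _ fun z hz => (hE k z hz).2.2)
    (hasSum_congr (((hasSum_norm f).add (hasSum_A2 g)).mul_left 2000) fun k => by ring).summable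
    fun k z => hE k _ (le_max_right z a)
  have e0 : ∀ k, ∀ z ∈ Ici a, (ω z : ℂ) * cf p.1 k z = u k z := fun k z hz => by
    rw [(hp k).1, bcI_apply, max_eq_left hz, mul_div_cancel₀ _ (hne z hz)]
  have e1 : ∀ k, ∀ z ∈ Ici a, (ω z : ℂ) * cf p.2.1 k z = u' k z := fun k z hz => by
    rw [(hp k).2.1, bcI_apply, max_eq_left hz, mul_div_cancel₀ _ (hne z hz)]
  have e2 : ∀ k, ∀ z ∈ Ici a, (ω z : ℂ) * cf p.2.2 k z =
      (z / 2 : ℝ) * u' k z - al k * u k z + ω z * cf f k z := fun k z hz => by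
    rw [(hp k).2.2, bcI_apply, max_eq_left hz, mul_div_cancel₀ _ (hne z hz)]
  refine ⟨p, fun k z => by simp [(hp k).1], fun k z => by simp [(hp k).2.1],
    fun k z => by simp [(hp k).2.2], ⟨fun k z hz => ?_, fun k z hz => ?_⟩, fun k z hz => ?_,
    fun k hk => ?_⟩
  · rw [e1 k z hz]; exact ((hs k).d0 z hz).congr (e0 k) (e0 k z hz)
  · rw [e2 k z hz]
    exact (((hs k).d1 z hz).congr (e1 k) (e1 k z hz)).congr_deriv (by push_cast; ring)
  · refine mul_left_cancel₀ (hne z hz) ?_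
    rw [e2 k z hz, ← e0 k z hz, ← e1 k z hz]; ring
  · refine mul_left_cancel₀ (hne a le_rfl) ?_
    rw [e0 k a (mem_Ici.2 le_rfl), hg k hk]

theorem Rel.add {g g' : A (s + 2)} {f f' : W s} {p p' : T3 s} (h : Rel a ω g f p)
    (h' : Rel a ω g' f' p') : Rel a ω (g + g') (f + f') (p + p') where
  c0 k z := by simp [h.c0 k z, h'.c0 k z]
  c1 k z := by simp [h.c1 k z, h'.c1 k z]
  c2 k z := by simp [h.c2 k z, h'.c2 k z]
  tri := h.tri.add h'.tri
  lin := h.lin.add h'.lin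
  hi k hk := by simp [h.hi k hk, h'.hi k hk]

theorem Rel.smul {g : A (s + 2)} {f : W s} {p : T3 s} (h : Rel a ω g f p) (m : ℂ) :
    Rel a ω (m • g) (m • f) (m • p) where
  c0 k z := by simp [h.c0 k z]
  c1 k z := by simp [h.c1 k z]
  c2 k z := by simp [h.c2 k z]
  tri := h.tri.smul m
  lin := h.lin.smul m
  hi k hk := by simp [h.hi k hk]

theorem Rel.sub {g g' : A (s + 2)} {f f' : W s} {p p' : T3 s} (h : Rel a ω g f p)
    (h' : Rel a ω g' f' p') : Rel a ω (g - g') (f - f') (p - p') := by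
  simpa [sub_eq_add_neg] using h.add (h'.smul (-1))

theorem Rel.unique (h : AdmI a ω) (ha : 16 ≤ a) {g : A (s + 2)} {f : W s} {p p' : T3 s}
    (hp : Rel a ω g f p) (hp' : Rel a ω g f p') : p = p' := by
  have := (hp.sub hp').le h ha
  rw [sub_self, sub_self, norm_zero, norm_zero] at this
  exact sub_eq_zero.1 (norm_le_zero_iff.1 (by linarith))

theorem Rel.congr {g g' : A (s + 2)} {f f' : W s} {p : T3 s} (h : Rel a ω g f p)
    (hg : ∀ k, 2 ≤ |k| → cf g k = cf g' k) (hf : ∀ z, a ≤ z → ∀ θ, val f z θ = val f' z θ) :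
    Rel a ω g' f' p :=
  ⟨h.c0, h.c1, h.c2, h.tri, h.lin.congr hf, fun k hk => (h.hi k hk).trans (hg k hk)⟩

theorem exists_sol (h : AdmI a ω) (ha : 16 ≤ a) (s : ℕ) :
    ∃ T : A (s + 2) × W s →L[ℂ] T3 s, ∀ g f, Rel a ω g f (T (g, f)) := by
  choose T hT using fun x : A (s + 2) × W s => exists_rel h ha x.1 x.2
  refine ⟨LinearMap.mkContinuous
    { toFun := T
      map_add' := fun x y => (hT (x + y)).unique h ha ((hT x).add (hT y))
      map_smul' := fun m x => (hT (m • x)).unique h ha ((hT x).smul m) } 4000 fun x => ?_,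
    fun g f => hT (g, f)⟩
  refine ((hT x).le h ha).trans ?_
  linarith [norm_fst_le x, norm_snd_le x]

/-! ### Small variable coefficients -/

theorem norm_dot_jets_le {c : J6 (W s)} (hc : ‖c‖ ≤ 1 / 24000) (p : T3 s) :
    ‖dot c (jets s p)‖ ≤ ‖p‖ / 4000 := by
  refine (norm_dot_le _ _).trans ?_
  calc 6 * ‖c‖ * ‖jets s p‖ ≤ 6 * (1 / 24000) * ‖p‖ := by
        gcongr; exact norm_jets_apply_le p
    _ = _ := by ring

theorem Rel.le_var (h : AdmI a ω) (ha : 16 ≤ a) {c : J6 (W s)} (hc : ‖c‖ ≤ 1 / 24000)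
    {g : A (s + 2)} {F : W s} {p : T3 s} (hp : Rel a ω g (dot c (jets s p) + F) p) :
    ‖p‖ ≤ 4000 * (‖F‖ + ‖g‖) := by
  have h1 := hp.le h ha
  have h2 := norm_add_le_of_le (norm_dot_jets_le hc p) (le_refl ‖F‖)
  linarith

theorem exists_rel_var (h : AdmI a ω) (ha : 16 ≤ a) {c : J6 (W s)} (hc : ‖c‖ ≤ 1 / 24000)
    (g : A (s + 2)) (F : W s) : ∃ p, Rel a ω g (dot c (jets s p) + F) p := by
  obtain ⟨T, hT⟩ := exists_sol h ha s
  have hK : ContractingWith (1 / 2) fun p : T3 s => T (g, dot c (jets s p) + F) := by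
    refine ⟨by norm_num, LipschitzWith.of_dist_le_mul fun p q => ?_⟩
    rw [dist_eq_norm, dist_eq_norm]
    refine (((hT _ _).sub (hT _ _)).le h ha).trans ?_
    rw [add_sub_add_right_eq_sub, ← dot_sub, ← jets_sub, sub_self, norm_zero]
    have := norm_dot_jets_le hc (p - q)
    push_cast
    linarith
  refine ⟨hK.fixedPoint _, ?_⟩
  have := hT g (dot c (jets s (hK.fixedPoint _)) + F)
  rwa [show T (g, dot c (jets s (hK.fixedPoint _)) + F) = hK.fixedPoint _ from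
    hK.fixedPoint_isFixedPt] at this

/-- the projection on `[a, b]` -/
def clF (a b : ℝ) : C(ℝ, ℝ) := ⟨fun z => max a (min b z), by fun_prop⟩

theorem clF_mem (h : a ≤ b) (z : ℝ) : clF a b z ∈ Icc a b :=
  ⟨le_max_left _ _, max_le h (min_le_left _ _)⟩

theorem clF_of_mem {z : ℝ} (hz : z ∈ Icc a b) : clF a b z = z := by
  change max a (min b z) = z
  rw [min_eq_right hz.2, max_eq_right hz.1]

/-- the projection on `[a, ∞)` -/
def clI (a : ℝ) : C(ℝ, ℝ) := ⟨fun z => max z a, by fun_prop⟩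

theorem clI_of_mem {z : ℝ} (hz : z ∈ Ici a) : clI a z = z := max_eq_left hz

/-- a continuous function on `[a, b]`, extended by constants -/
theorem exists_bcF (hab : a ≤ b) {m : ℝ → ℝ} (hm : ContinuousOn m (Icc a b)) :
    ∃ μ : BC, ∀ z, μ z = m (clF a b z) := by
  obtain ⟨C, hC⟩ := isCompact_Icc.exists_bound_of_continuousOn hm
  exact ⟨BoundedContinuousFunction.ofNormedAddCommGroup (fun z => (m (clF a b z) : ℂ))
    (Complex.continuous_ofReal.comp (hm.comp_continuous (clF a b).continuous (clF_mem hab))) C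
    fun z => by rw [Complex.norm_real]; exact hC _ (clF_mem hab z), fun _ => rfl⟩

theorem norm_bc_le {μ : BC} {m : ℝ → ℝ} (hab : a ≤ b) (hμ : ∀ z, μ z = m (clF a b z)) {C : ℝ}
    (hC : ∀ z ∈ Icc a b, |m z| ≤ C) : ‖μ‖ ≤ C :=
  (BoundedContinuousFunction.norm_le ((abs_nonneg _).trans (hC a ⟨le_rfl, hab⟩))).2 fun z => by
    rw [hμ, Complex.norm_real]; exact hC _ (clF_mem hab z)

/-- the estimate on a finite interval for the weight `ω`; `μ = 1 / ω` -/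
theorem apr_var (h : Adm a ω) (ha : 16 ≤ a) (hab : a ≤ b) {c : J6 (W s)} (hc : ‖c‖ ≤ 1 / 24000)
    {p : T3 s} {F : W s} {g : A (s + 2)} {g₀ g₂ : A s} {g₁ : A (s + 1)} {μ : BC}
    (hμ : ∀ z, μ z = (ω (clF a b z))⁻¹) (ht : Tri (Icc a b) (fun _ => 1) p)
    (hl : Lin (Icc a b) p (dot c (jets s p) + F)) (hg : HiTr a p g)
    (h0 : ∀ k, ¬ 2 ≤ |k| → cf p.1 k b = cf g₀ k) (h1 : ∀ k, cf p.2.1 k b = cf g₁ k)
    (h2 : ∀ k, b * cf p.2.1 k b = cf g₂ k) :
    ‖cutT s (clF a b) μ p‖ ≤ 4000 * (‖cut s (clF a b) μ F‖ + ‖g‖ / ω a +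
      (‖g₀‖ + ‖g₁‖ + ‖g₂‖) / ω b) := by
  have ha' : clF a b a = a := clF_of_mem ⟨le_rfl, hab⟩
  have hb' : clF a b b = b := clF_of_mem ⟨hab, le_rfl⟩
  have key := aprW_fin h ha (g := μ a • g) (g₀ := μ b • g₀) (g₁ := μ b • g₁) (g₂ := μ b • g₂)
    (ht.cut (π := clF a b) (μ := μ) (fun z => clF_of_mem) fun z hz => by
      have : (ω z : ℂ) ≠ 0 := by exact_mod_cast (h.pos hz.1).ne'
      rw [hμ, clF_of_mem hz]; push_cast; field_simp)
    (hl.cut μ fun z => clF_of_mem)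
    (fun z => ⟨clF a b z, clF_mem hab z, fun k => by
      simp only [cutT_apply, cf_cut, hμ, clF_of_mem (clF_mem hab z), and_self]⟩)
    (fun k hk => by simp [cutT_apply, ha', hg k hk]) (fun k hk => by simp [cutT_apply, hb', h0 k hk])
    (fun k => by simp [cutT_apply, hb', h1 k])
    (fun k => by simp only [cutT_apply, cf_cut, hb', cf_smul, ← h2 k, smul_eq_mul]; ring)
  have n1 : ∀ z, z ∈ Icc a b → ‖μ z‖ = (ω z)⁻¹ := fun z hz => by
    rw [hμ, clF_of_mem hz, Complex.norm_real, Real.norm_of_nonneg (inv_pos.2 (h.pos hz.1)).le]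
  rw [map_add, cut_dot, ← jets_cutT, norm_smul, norm_smul, norm_smul, norm_smul,
    n1 a ⟨le_rfl, hab⟩, n1 b ⟨hab, le_rfl⟩] at key
  have h3 := norm_add_le_of_le (norm_dot_jets_le (c := cutJ (clF a b) 1 c)
    ((norm_cutJ_le _ _ _).trans (by rw [norm_one, one_mul]; exact hc)) (cutT s (clF a b) μ p))
    (le_refl ‖cut s (clF a b) μ F‖)
  simp only [div_eq_inv_mul]
  linarith

end

end Vale.Agent.P218F.EndI
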