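import Mathlib.Analysis.Analytic.Constructions
import Mathlib.Analysis.Analytic.Linear
import Mathlib.Analysis.SpecificLimits.Normed
import Mathlib.Analysis.SpecialFunctions.ExpDeriv
import Mathlib.Analysis.Complex.RealDeriv
import Mathlib.Analysis.Calculus.Deriv.Star
import Mathlib.Analysis.Calculus.FDeriv.Analytic
import Mathlib.MeasureTheory.Integral.IntervalIntegral.FundThmCalculus
import Mathlib.Topology.ContinuousMap.Bounded.Star

/-!
# Linear second order equations on a compact interval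

`v'' = a v' + b v + F` on `[z₁, R]` with continuous complex coefficients.  Solution operators for
the initial value problem at `R` and for the boundary value problem `v z₁ = g`, `v' R = q`, as
bounded operators on bounded continuous functions, analytic in the coefficients.
-/

noncomputable section

namespace Vale.Agent.P218F.Mode

open Set MeasureTheory Filter Topology BoundedContinuousFunction

set_option maxSynthPendingDepth 3

/-- Bounded continuous functions on the line. -/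
abbrev BC := ℝ →ᵇ ℂ

/-- The nearest point of `[z₁, R]`. -/
def cl (z₁ R z : ℝ) : ℝ := max z₁ (min R z)

variable {z₁ R : ℝ}

@[fun_prop] theorem continuous_cl (z₁ R : ℝ) : Continuous (cl z₁ R) := by unfold cl; fun_prop

theorem cl_mem (h : z₁ ≤ R) (z : ℝ) : cl z₁ R z ∈ Icc z₁ R :=
  ⟨le_max_left _ _, max_le h (min_le_left _ _)⟩

theorem cl_of_mem {z : ℝ} (hz : z ∈ Icc z₁ R) : cl z₁ R z = z := by
  rw [cl, min_eq_right hz.2, max_eq_right hz.1]

theorem cl_cl (h : z₁ ≤ R) (z : ℝ) : cl z₁ R (cl z₁ R z) = cl z₁ R z := cl_of_mem (cl_mem h z)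

theorem cl_mem_uIcc (z₁ R z : ℝ) : cl z₁ R z ∈ uIcc z₁ R := by
  rcases le_total z₁ R with h | h
  · rw [uIcc_of_le h]; exact cl_mem h z
  · rw [cl, max_eq_left ((min_le_left _ _).trans h)]; exact left_mem_uIcc

theorem abs_cl_sub_le (z₁ R z : ℝ) : |cl z₁ R z - R| ≤ |z₁ - R| := by
  rw [abs_sub_comm, abs_sub_comm z₁]
  exact abs_sub_right_of_mem_uIcc (cl_mem_uIcc z₁ R z)

/-- The bounded function which agrees with `f` on `[z₁, R]` and is constant outside (zero if `f` is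
not continuous there). -/
def ext (z₁ R : ℝ) (f : ℝ → ℂ) : BC := by
  classical
  haveI : CompactSpace (uIcc z₁ R) := isCompact_iff_compactSpace.1 isCompact_uIcc
  exact if h : ContinuousOn f (uIcc z₁ R) then
    (BoundedContinuousFunction.mkOfCompact (⟨_, h.domRestrict⟩ : C(uIcc z₁ R, ℂ))).compContinuous
      ⟨fun z => ⟨cl z₁ R z, cl_mem_uIcc z₁ R z⟩, (continuous_cl z₁ R).subtype_mk _⟩
  else 0

theorem ext_apply (h : z₁ ≤ R) {f : ℝ → ℂ} (hf : ContinuousOn f (Icc z₁ R)) (z : ℝ) :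
    ext z₁ R f z = f (cl z₁ R z) := by
  have hf' : ContinuousOn f (uIcc z₁ R) := by rwa [uIcc_of_le h]
  rw [ext, dif_pos hf']
  rfl

theorem ext_of_mem {f : ℝ → ℂ} (hf : ContinuousOn f (Icc z₁ R)) {z : ℝ} (hz : z ∈ Icc z₁ R) :
    ext z₁ R f z = f z := by
  rw [ext_apply (hz.1.trans hz.2) hf, cl_of_mem hz]

theorem norm_ext_le (h : z₁ ≤ R) {f : ℝ → ℂ} (hf : ContinuousOn f (Icc z₁ R)) {C : ℝ}
    (hC : ∀ z ∈ Icc z₁ R, ‖f z‖ ≤ C) : ‖ext z₁ R f‖ ≤ C :=
  (BoundedContinuousFunction.norm_le ((norm_nonneg _).trans (hC z₁ (left_mem_Icc.2 h)))).2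
    fun z => by rw [ext_apply h hf]; exact hC _ (cl_mem h z)

/-- Composition with the nearest point map. -/
def clamp (z₁ R : ℝ) : BC →L[ℂ] BC :=
  LinearMap.mkContinuous
    { toFun := fun f => f.compContinuous ⟨cl z₁ R, continuous_cl z₁ R⟩
      map_add' := fun _ _ => by ext; simp
      map_smul' := fun _ _ => by ext; simp } 1 fun f => by
        simpa using BoundedContinuousFunction.norm_compContinuous_le f _

@[simp] theorem clamp_apply (f : BC) (z : ℝ) : clamp z₁ R f z = f (cl z₁ R z) := rfl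

theorem norm_clamp_le (h : z₁ ≤ R) {f : BC} {C : ℝ} (hC : ∀ z ∈ Icc z₁ R, ‖f z‖ ≤ C) :
    ‖clamp z₁ R f‖ ≤ C :=
  (BoundedContinuousFunction.norm_le ((norm_nonneg _).trans (hC z₁ (left_mem_Icc.2 h)))).2
    fun z => hC _ (cl_mem h z)

/-- A function is clamped if it is constant outside `[z₁, R]`. -/
def Clamped (z₁ R : ℝ) (f : BC) : Prop := ∀ z, f (cl z₁ R z) = f z

theorem Clamped.norm_le (h : z₁ ≤ R) {f : BC} (hf : Clamped z₁ R f) {C : ℝ}
    (hC : ∀ z ∈ Icc z₁ R, ‖f z‖ ≤ C) : ‖f‖ ≤ C :=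
  (BoundedContinuousFunction.norm_le ((norm_nonneg _).trans (hC z₁ (left_mem_Icc.2 h)))).2
    fun z => by rw [← hf z]; exact hC _ (cl_mem h z)

theorem Clamped.eq_of_eqOn (h : z₁ ≤ R) {f g : BC} (hf : Clamped z₁ R f) (hg : Clamped z₁ R g)
    (hfg : ∀ z ∈ Icc z₁ R, f z = g z) : f = g := by
  ext z
  rw [← hf z, ← hg z, hfg _ (cl_mem h z)]

theorem Clamped.mul {f g : BC} (hf : Clamped z₁ R f) (hg : Clamped z₁ R g) :
    Clamped z₁ R (f * g) := fun z => by simp [hf z, hg z]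

theorem Clamped.add {f g : BC} (hf : Clamped z₁ R f) (hg : Clamped z₁ R g) :
    Clamped z₁ R (f + g) := fun z => by simp [hf z, hg z]

theorem Clamped.sub {f g : BC} (hf : Clamped z₁ R f) (hg : Clamped z₁ R g) :
    Clamped z₁ R (f - g) := fun z => by simp [hf z, hg z]

theorem Clamped.smul {f : BC} (hf : Clamped z₁ R f) (c : ℂ) : Clamped z₁ R (c • f) :=
  fun z => by simp [hf z]

theorem clamped_clamp (h : z₁ ≤ R) (f : BC) : Clamped z₁ R (clamp z₁ R f) := fun z => by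
  simp [cl_cl h]

theorem clamped_ext (h : z₁ ≤ R) (f : ℝ → ℂ) : Clamped z₁ R (ext z₁ R f) := fun z => by
  by_cases hf : ContinuousOn f (Icc z₁ R)
  · rw [ext_apply h hf, ext_apply h hf, cl_cl h]
  · have hf' : ¬ ContinuousOn f (uIcc z₁ R) := by rwa [uIcc_of_le h]
    rw [ext, dif_neg hf']
    rfl

theorem hasDerivAt_prim (G : BC) (R z : ℝ) : HasDerivAt (fun y => ∫ t in R..y, G t) (G z) z :=
  (G.continuous.integral_hasStrictDerivAt R z).hasDerivAt

theorem continuous_prim (G : BC) (R : ℝ) : Continuous fun y => ∫ t in R..y, G t :=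
  continuous_iff_continuousAt.2 fun z => (hasDerivAt_prim G R z).continuousAt

theorem norm_prim_le (G : BC) (z₁ R z : ℝ) : ‖∫ t in R..cl z₁ R z, G t‖ ≤ |z₁ - R| * ‖G‖ := by
  refine (intervalIntegral.norm_integral_le_of_norm_le_const
    fun t _ => G.norm_coe_le_norm t).trans ?_
  rw [mul_comm]
  exact mul_le_mul_of_nonneg_right (abs_cl_sub_le z₁ R z) (norm_nonneg _)

/-- The primitive which vanishes at `R`. -/
def J (z₁ R : ℝ) : BC →L[ℂ] BC :=
  LinearMap.mkContinuous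
    { toFun := fun G => BoundedContinuousFunction.ofNormedAddCommGroup
        (fun z => ∫ t in R..cl z₁ R z, G t) ((continuous_prim G R).comp (continuous_cl z₁ R))
        (|z₁ - R| * ‖G‖) (norm_prim_le G z₁ R)
      map_add' := fun G H => by
        ext z
        exact intervalIntegral.integral_add (G.continuous.intervalIntegrable _ _)
          (H.continuous.intervalIntegrable _ _)
      map_smul' := fun c G => by
        ext z
        exact intervalIntegral.integral_smul c _ } |z₁ - R| fun G =>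
      (BoundedContinuousFunction.norm_le (by positivity)).2 (norm_prim_le G z₁ R)

theorem J_apply (G : BC) (z : ℝ) : J z₁ R G z = ∫ t in R..cl z₁ R z, G t := rfl

theorem clamped_J (h : z₁ ≤ R) (G : BC) : Clamped z₁ R (J z₁ R G) := fun z => by
  rw [J_apply, J_apply, cl_cl h]

theorem J_right (h : z₁ ≤ R) (G : BC) : J z₁ R G R = 0 := by
  rw [J_apply, cl_of_mem (right_mem_Icc.2 h), intervalIntegral.integral_same]

theorem hasDerivWithinAt_J (G : BC) {z : ℝ} (hz : z ∈ Icc z₁ R) :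
    HasDerivWithinAt (J z₁ R G) (G z) (Icc z₁ R) z :=
  (hasDerivAt_prim G R z).hasDerivWithinAt.congr
    (fun y hy => by rw [J_apply, cl_of_mem hy]) (by rw [J_apply, cl_of_mem hz])

theorem J_eq_of_deriv (h : z₁ ≤ R) {G : BC} {v : ℝ → ℂ}
    (hv : ∀ z ∈ Icc z₁ R, HasDerivWithinAt v (G z) (Icc z₁ R) z) (z : ℝ) :
    J z₁ R G z = v (cl z₁ R z) - v R := by
  have hz := cl_mem h z
  have hsub : uIcc R (cl z₁ R z) ⊆ Icc z₁ R := uIcc_subset_Icc (right_mem_Icc.2 h) hz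
  rw [J_apply]
  refine intervalIntegral.integral_eq_sub_of_hasDeriv_right
    (fun x hx => ((hv x (hsub hx)).continuousWithinAt).mono hsub) (fun x hx => ?_)
    (G.continuous.intervalIntegrable _ _)
  have hx' : x ∈ uIcc R (cl z₁ R z) := Ioo_subset_Icc_self hx
  refine ((hv x (hsub hx')).hasDerivAt ?_).hasDerivWithinAt
  exact mem_of_superset (Ioo_mem_nhds hx.1 hx.2) (Ioo_subset_Icc_self.trans hsub)

/-- Multiplication operators. -/
abbrev M : BC →L[ℂ] BC →L[ℂ] BC := ContinuousLinearMap.mul ℂ BC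

/-- The Volterra operator of the equation. -/
def K (z₁ R : ℝ) (a b : BC) : BC →L[ℂ] BC := M a * J z₁ R + M b * (J z₁ R * J z₁ R)

theorem K_apply (a b G : BC) : K z₁ R a b G = a * J z₁ R G + b * J z₁ R (J z₁ R G) := rfl

/-- The weight `exp (l (R - z))`. -/
def ew (z₁ R l : ℝ) : BC := ext z₁ R fun z => (Real.exp (l * (R - z)) : ℂ)

theorem ew_apply (h : z₁ ≤ R) (l z : ℝ) :
    ew z₁ R l z = (Real.exp (l * (R - cl z₁ R z)) : ℂ) :=
  ext_apply h (by fun_prop) z

theorem ew_mul (h : z₁ ≤ R) (l : ℝ) : ew z₁ R l * ew z₁ R (-l) = 1 := by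
  ext z
  simp only [BoundedContinuousFunction.coe_mul, Pi.mul_apply, ew_apply h]
  rw [← Complex.ofReal_mul, ← Real.exp_add]
  simp

theorem norm_conj_le (h : z₁ ≤ R) {l : ℝ} (hl : 0 < l) :
    ‖M (ew z₁ R (-l)) * J z₁ R * M (ew z₁ R l)‖ ≤ l⁻¹ := by
  refine ContinuousLinearMap.opNorm_le_bound _ (by positivity) fun G => ?_
  refine (BoundedContinuousFunction.norm_le (by positivity)).2 fun z => ?_
  change ‖ew z₁ R (-l) z * J z₁ R (ew z₁ R l * G) z‖ ≤ _
  set y := cl z₁ R z with hy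
  have hm := cl_mem h z
  have h1 : ∀ t, HasDerivAt (fun t => -(l⁻¹ * ‖G‖) * Real.exp (l * (R - t)))
      (Real.exp (l * (R - t)) * ‖G‖) t := fun t => by
    refine ((((hasDerivAt_id t).const_sub R).const_mul l).exp.const_mul _).congr_deriv ?_
    simp only [id]
    field_simp
  have h2 : ‖∫ t in y..R, (ew z₁ R l * G) t‖ ≤ ∫ t in y..R, Real.exp (l * (R - t)) * ‖G‖ := by
    refine intervalIntegral.norm_integral_le_of_norm_le hm.2 (Eventually.of_forall fun t ht => ?_)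
      ((by fun_prop : Continuous fun t => Real.exp (l * (R - t)) * ‖G‖).intervalIntegrable _ _)
    rw [BoundedContinuousFunction.coe_mul, Pi.mul_apply, ew_apply h,
      cl_of_mem ⟨hm.1.trans ht.1.le, ht.2⟩, norm_mul, Complex.norm_real,
      Real.norm_of_nonneg (Real.exp_pos _).le]
    exact mul_le_mul_of_nonneg_left (G.norm_coe_le_norm t) (Real.exp_pos _).le
  rw [intervalIntegral.integral_eq_sub_of_hasDerivAt (fun t _ => h1 t)
    ((by fun_prop : Continuous fun t => Real.exp (l * (R - t)) * ‖G‖).intervalIntegrable _ _)] at h2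
  rw [norm_mul, ew_apply h, J_apply, ← hy, intervalIntegral.integral_symm, norm_neg,
    Complex.norm_real, Real.norm_of_nonneg (Real.exp_pos _).le]
  have h3 : Real.exp (-l * (R - y)) * Real.exp (l * (R - y)) = 1 := by
    rw [← Real.exp_add]; simp
  have h4 := Real.exp_pos (-l * (R - y))
  have h5 : 0 ≤ l⁻¹ * ‖G‖ := by positivity
  calc _ ≤ Real.exp (-l * (R - y)) * (l⁻¹ * ‖G‖ * Real.exp (l * (R - y))) := by
        refine mul_le_mul_of_nonneg_left (h2.trans ?_) h4.le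
        have := Real.exp_pos (l * (R - R))
        nlinarith
    _ = l⁻¹ * ‖G‖ * (Real.exp (-l * (R - y)) * Real.exp (l * (R - y))) := by ring
    _ = _ := by rw [h3, mul_one]

theorem M_mul (f g : BC) : M f * M g = M (f * g) := by
  ext G z
  simp [mul_assoc]

theorem M_one : M 1 = 1 := by
  ext G z
  simp

theorem isUnit_one_sub_K (h : z₁ ≤ R) (a b : BC) : IsUnit (1 - K z₁ R a b) := by
  set l : ℝ := 2 * (‖a‖ + ‖b‖ + 1) with hl
  have hl0 : 0 < l := by positivity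
  set E := M (ew z₁ R l) with hE
  set E' := M (ew z₁ R (-l)) with hE'
  have e1 : E * E' = 1 := by rw [hE, hE', M_mul, ew_mul h, M_one]
  have e2 : E' * E = 1 := by rw [hE, hE', M_mul, mul_comm, ew_mul h, M_one]
  set T := E' * J z₁ R * E with hT
  have hTn : ‖T‖ ≤ l⁻¹ := norm_conj_le h hl0
  have c : ∀ f : BC, E * M f = M f * E := fun f => by rw [hE, M_mul, M_mul, mul_comm]
  have key : 1 - K z₁ R a b = E * (1 - (M a * T + M b * (T * T))) * E' := by
    have t1 : E * T * E' = J z₁ R := by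
      rw [hT]
      calc E * (E' * J z₁ R * E) * E' = (E * E') * J z₁ R * (E * E') := by noncomm_ring
        _ = _ := by rw [e1, one_mul, mul_one]
    have t2 : E * (T * T) * E' = J z₁ R * J z₁ R := by
      rw [← t1]
      calc E * (T * T) * E' = E * T * (E' * E) * T * E' := by rw [e2]; noncomm_ring
        _ = _ := by noncomm_ring
    calc 1 - K z₁ R a b = E * E' - (M a * (E * T * E') + M b * (E * (T * T) * E')) := by
          rw [e1, t1, t2, K]
      _ = E * E' - ((M a * E) * T * E' + (M b * E) * (T * T) * E') := by noncomm_ring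
      _ = _ := by rw [← c a, ← c b]; noncomm_ring
  have hn : ‖M a * T + M b * (T * T)‖ < 1 := by
    have n1 : ‖M a‖ ≤ ‖a‖ := ContinuousLinearMap.opNorm_mul_apply_le ℂ BC a
    have n2 : ‖M b‖ ≤ ‖b‖ := ContinuousLinearMap.opNorm_mul_apply_le ℂ BC b
    have n3 : ‖T * T‖ ≤ l⁻¹ := by
      refine (norm_mul_le _ _).trans ?_
      have : l⁻¹ ≤ 1 := inv_le_one_of_one_le₀ (by have := norm_nonneg a; have := norm_nonneg b; linarith)
      calc ‖T‖ * ‖T‖ ≤ l⁻¹ * 1 := mul_le_mul hTn (hTn.trans this) (norm_nonneg _) (by positivity)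
        _ = _ := mul_one _
    calc _ ≤ ‖M a‖ * ‖T‖ + ‖M b‖ * ‖T * T‖ :=
          (norm_add_le _ _).trans (add_le_add (norm_mul_le _ _) (norm_mul_le _ _))
      _ ≤ ‖a‖ * l⁻¹ + ‖b‖ * l⁻¹ := by gcongr
      _ < 1 := by
          rw [← add_mul, ← div_eq_mul_inv, div_lt_one hl0]
          have := norm_nonneg a
          have := norm_nonneg b
          linarith
  rw [key]
  exact ((Units.mk E E' e1 e2).isUnit.mul (Units.oneSub _ hn).isUnit).mul
    (Units.mk E' E e2 e1).isUnit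

/-- The data: right side and two numbers. -/
abbrev D := BC × ℂ × ℂ

/-- The right side. -/
def dF : D →L[ℂ] BC := .fst ℂ _ _
/-- The first number. -/
def dp : D →L[ℂ] ℂ := (ContinuousLinearMap.fst ℂ _ _).comp (.snd ℂ _ _)
/-- The second number. -/
def dq : D →L[ℂ] ℂ := (ContinuousLinearMap.snd ℂ _ _).comp (.snd ℂ _ _)

@[simp] theorem dF_apply (d : D) : dF d = d.1 := rfl
@[simp] theorem dp_apply (d : D) : dp d = d.2.1 := rfl
@[simp] theorem dq_apply (d : D) : dq d = d.2.2 := rfl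

/-- The right side of the Volterra equation. -/
def rhs (z₁ R : ℝ) (a b : BC) : D →L[ℂ] BC :=
  dF + dq.smulRight a + dp.smulRight b + dq.smulRight (b * J z₁ R 1)

/-- The solution of the Volterra equation. -/
def ivG (z₁ R : ℝ) (a b : BC) : D →L[ℂ] BC :=
  (Ring.inverse (1 - K z₁ R a b)).comp (rhs z₁ R a b)

/-- Initial value problem at `R` with data `d = (F, v R, v' R)`: the second derivative. -/
def iv2 (z₁ R : ℝ) (a b : BC) : D →L[ℂ] BC := (clamp z₁ R).comp (ivG z₁ R a b)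

/-- Initial value problem at `R`: the first derivative. -/
def iv1 (z₁ R : ℝ) (a b : BC) : D →L[ℂ] BC := dq.smulRight 1 + (J z₁ R).comp (ivG z₁ R a b)

/-- Initial value problem at `R`: the solution. -/
def iv0 (z₁ R : ℝ) (a b : BC) : D →L[ℂ] BC := dp.smulRight 1 + (J z₁ R).comp (iv1 z₁ R a b)

theorem iv1_apply (a b : BC) (d : D) :
    iv1 z₁ R a b d = d.2.2 • (1 : BC) + J z₁ R (ivG z₁ R a b d) := rfl

theorem iv0_apply (a b : BC) (d : D) :
    iv0 z₁ R a b d = d.2.1 • (1 : BC) + J z₁ R (iv1 z₁ R a b d) := rfl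

theorem rhs_apply (a b : BC) (d : D) :
    rhs z₁ R a b d = d.1 + d.2.2 • a + d.2.1 • b + d.2.2 • (b * J z₁ R 1) := rfl

theorem volterra_iff (a b : BC) (d : D) (G : BC) : (1 - K z₁ R a b) G = rhs z₁ R a b d ↔
    G = a * (d.2.2 • (1 : BC) + J z₁ R G) +
      b * (d.2.1 • (1 : BC) + J z₁ R (d.2.2 • (1 : BC) + J z₁ R G)) + d.1 := by
  have e : (1 - K z₁ R a b) G = G - (a * J z₁ R G + b * J z₁ R (J z₁ R G)) := rfl
  rw [e, rhs_apply, map_add, map_smul, sub_eq_iff_eq_add]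
  simp only [mul_add, mul_smul_comm, mul_one]
  constructor <;> intro h <;> refine h.trans ?_ <;> abel

theorem ivG_eq (h : z₁ ≤ R) (a b : BC) (d : D) :
    ivG z₁ R a b d = a * iv1 z₁ R a b d + b * iv0 z₁ R a b d + d.1 := by
  rw [iv0_apply, iv1_apply, ← volterra_iff]
  have := Ring.mul_inverse_cancel _ (isUnit_one_sub_K h a b)
  exact congrArg (fun T : BC →L[ℂ] BC => T (rhs z₁ R a b d)) this

theorem eq_ivG (h : z₁ ≤ R) {a b : BC} {d : D} {G : BC}
    (hG : (1 - K z₁ R a b) G = rhs z₁ R a b d) : G = ivG z₁ R a b d := by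
  have := Ring.inverse_mul_cancel _ (isUnit_one_sub_K h a b)
  have h2 := congrArg (fun T : BC →L[ℂ] BC => T G) this
  change Ring.inverse (1 - K z₁ R a b) ((1 - K z₁ R a b) G) = G at h2
  rw [hG] at h2
  exact h2.symm

theorem clamped_iv2 (h : z₁ ≤ R) (a b : BC) (d : D) : Clamped z₁ R (iv2 z₁ R a b d) :=
  clamped_clamp h _

theorem clamped_iv1 (h : z₁ ≤ R) (a b : BC) (d : D) : Clamped z₁ R (iv1 z₁ R a b d) := fun z => by
  simp [iv1_apply, clamped_J h _ z]

theorem clamped_iv0 (h : z₁ ≤ R) (a b : BC) (d : D) : Clamped z₁ R (iv0 z₁ R a b d) := fun z => by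
  simp [iv0_apply, clamped_J h _ z]

theorem iv0_right (h : z₁ ≤ R) (a b : BC) (d : D) : iv0 z₁ R a b d R = d.2.1 := by
  simp [iv0_apply, J_right h]

theorem iv1_right (h : z₁ ≤ R) (a b : BC) (d : D) : iv1 z₁ R a b d R = d.2.2 := by
  simp [iv1_apply, J_right h]

/-- `v, v₁, v₂` is a solution with its derivatives on `[z₁, R]`. -/
structure Sol (z₁ R : ℝ) (a b F v v₁ v₂ : ℝ → ℂ) : Prop where
  d0 : ∀ z ∈ Icc z₁ R, HasDerivWithinAt v (v₁ z) (Icc z₁ R) z
  d1 : ∀ z ∈ Icc z₁ R, HasDerivWithinAt v₁ (v₂ z) (Icc z₁ R) z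
  eq : ∀ z ∈ Icc z₁ R, v₂ z = a z * v₁ z + b z * v z + F z

theorem sol_iv (a b : BC) (d : D) :
    Sol z₁ R a b d.1 (iv0 z₁ R a b d) (iv1 z₁ R a b d) (iv2 z₁ R a b d) where
  d0 z hz := (hasDerivWithinAt_J (iv1 z₁ R a b d) hz).const_add (d.2.1 • (1 : ℂ))
  d1 z hz := by
    have := (hasDerivWithinAt_J (ivG z₁ R a b d) hz).const_add (d.2.2 • (1 : ℂ))
    have e : iv2 z₁ R a b d z = ivG z₁ R a b d z := by
      change ivG z₁ R a b d (cl z₁ R z) = _
      rw [cl_of_mem hz]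
    rw [e]
    exact this
  eq z hz := by
    change ivG z₁ R a b d (cl z₁ R z) = _
    rw [cl_of_mem hz, ivG_eq (hz.1.trans hz.2)]
    rfl

theorem Sol.congr {a b F v v₁ v₂ a' b' F' w w₁ w₂ : ℝ → ℂ} (hs : Sol z₁ R a b F v v₁ v₂)
    (ha : EqOn a' a (Icc z₁ R)) (hb : EqOn b' b (Icc z₁ R)) (hF : EqOn F' F (Icc z₁ R))
    (h0 : EqOn w v (Icc z₁ R)) (h1 : EqOn w₁ v₁ (Icc z₁ R)) (h2 : EqOn w₂ v₂ (Icc z₁ R)) :
    Sol z₁ R a' b' F' w w₁ w₂ where
  d0 z hz := by rw [h1 hz]; exact (hs.d0 z hz).congr h0 (h0 hz)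
  d1 z hz := by rw [h2 hz]; exact (hs.d1 z hz).congr h1 (h1 hz)
  eq z hz := by rw [ha hz, hb hz, hF hz, h0 hz, h1 hz, h2 hz]; exact hs.eq z hz

theorem Sol.sub {a b F v v₁ v₂ F' w w₁ w₂ : ℝ → ℂ} (hs : Sol z₁ R a b F v v₁ v₂)
    (ht : Sol z₁ R a b F' w w₁ w₂) :
    Sol z₁ R a b (fun z => F z - F' z) (fun z => v z - w z) (fun z => v₁ z - w₁ z)
      fun z => v₂ z - w₂ z where
  d0 z hz := (hs.d0 z hz).sub (ht.d0 z hz)
  d1 z hz := (hs.d1 z hz).sub (ht.d1 z hz)
  eq z hz := by rw [hs.eq z hz, ht.eq z hz]; ring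

theorem Sol.star {a b F v v₁ v₂ : ℝ → ℂ} (hs : Sol z₁ R a b F v v₁ v₂) :
    Sol z₁ R (star a) (star b) (star F) (star v) (star v₁) (star v₂) where
  d0 z hz := (hs.d0 z hz).star
  d1 z hz := (hs.d1 z hz).star
  eq z hz := by simp [hs.eq z hz]

theorem Sol.mono {a b F v v₁ v₂ : ℝ → ℂ} (hs : Sol z₁ R a b F v v₁ v₂) {z₂ R' : ℝ} (h1 : z₁ ≤ z₂)
    (h2 : R' ≤ R) : Sol z₂ R' a b F v v₁ v₂ where
  d0 z hz := (hs.d0 z (Icc_subset_Icc h1 h2 hz)).mono (Icc_subset_Icc h1 h2)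
  d1 z hz := (hs.d1 z (Icc_subset_Icc h1 h2 hz)).mono (Icc_subset_Icc h1 h2)
  eq z hz := hs.eq z (Icc_subset_Icc h1 h2 hz)

theorem Sol.cont0 {a b F v v₁ v₂ : ℝ → ℂ} (hs : Sol z₁ R a b F v v₁ v₂) :
    ContinuousOn v (Icc z₁ R) := fun z hz => (hs.d0 z hz).continuousWithinAt

theorem Sol.cont1 {a b F v v₁ v₂ : ℝ → ℂ} (hs : Sol z₁ R a b F v v₁ v₂) :
    ContinuousOn v₁ (Icc z₁ R) := fun z hz => (hs.d1 z hz).continuousWithinAt

/-- Uniqueness for the initial value problem. -/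
theorem Sol.eq_iv {a b F : BC} {v v₁ v₂ : ℝ → ℂ} (hs : Sol z₁ R a b F v v₁ v₂) {z : ℝ}
    (hz : z ∈ Icc z₁ R) : v z = iv0 z₁ R a b (F, v R, v₁ R) z ∧
      v₁ z = iv1 z₁ R a b (F, v R, v₁ R) z ∧ v₂ z = iv2 z₁ R a b (F, v R, v₁ R) z := by
  have h := hz.1.trans hz.2
  set G : BC := a * ext z₁ R v₁ + b * ext z₁ R v + F with hG
  have g2 : ∀ y ∈ Icc z₁ R, G y = v₂ y := fun y hy => by
    simp [hG, ext_of_mem hs.cont0 hy, ext_of_mem hs.cont1 hy, hs.eq y hy]
  have j1 : v₁ R • (1 : BC) + J z₁ R G = ext z₁ R v₁ := by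
    ext y
    have := J_eq_of_deriv h (G := G) (v := v₁) (fun y hy => by rw [g2 y hy]; exact hs.d1 y hy) y
    simp [this, ext_apply h hs.cont1]
  have j0 : v R • (1 : BC) + J z₁ R (ext z₁ R v₁) = ext z₁ R v := by
    ext y
    have := J_eq_of_deriv h (G := ext z₁ R v₁) (v := v)
      (fun y hy => by rw [ext_of_mem hs.cont1 hy]; exact hs.d0 y hy) y
    simp [this, ext_apply h hs.cont0]
  have e : G = ivG z₁ R a b (F, v R, v₁ R) :=
    eq_ivG h ((volterra_iff a b _ G).2 (by simp only [j1, j0]; exact hG))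
  have e1 : iv1 z₁ R a b (F, v R, v₁ R) = ext z₁ R v₁ := by rw [iv1_apply, ← e]; exact j1
  have e0 : iv0 z₁ R a b (F, v R, v₁ R) = ext z₁ R v := by rw [iv0_apply, e1]; exact j0
  refine ⟨by rw [e0, ext_of_mem hs.cont0 hz], by rw [e1, ext_of_mem hs.cont1 hz], ?_⟩
  change _ = ivG z₁ R a b (F, v R, v₁ R) (cl z₁ R z)
  rw [cl_of_mem hz, ← e, g2 z hz]

theorem star_iv (h : z₁ ≤ R) (a b : BC) (d : D) :
    star (iv0 z₁ R a b d) = iv0 z₁ R (star a) (star b) (star d) ∧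
    star (iv1 z₁ R a b d) = iv1 z₁ R (star a) (star b) (star d) ∧
    star (iv2 z₁ R a b d) = iv2 z₁ R (star a) (star b) (star d) := by
  have hs : Sol z₁ R (star a : BC) (star b : BC) (star d.1 : BC) _ _ _ := (sol_iv a b d).star
  have e : (star d.1, star (⇑(iv0 z₁ R a b d)) R, star (⇑(iv1 z₁ R a b d)) R) = star d := by
    simp only [Pi.star_apply, iv0_right h, iv1_right h]
    rfl
  have c : ∀ f : BC, Clamped z₁ R f → Clamped z₁ R (star f) := fun f hf z => by simp [hf z]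
  refine ⟨(c _ (clamped_iv0 h a b d)).eq_of_eqOn h (clamped_iv0 h _ _ _) fun z hz => ?_,
    (c _ (clamped_iv1 h a b d)).eq_of_eqOn h (clamped_iv1 h _ _ _) fun z hz => ?_,
    (c _ (clamped_iv2 h a b d)).eq_of_eqOn h (clamped_iv2 h _ _ _) fun z hz => ?_⟩
  · rw [← e]; exact (hs.eq_iv hz).1
  · rw [← e]; exact (hs.eq_iv hz).2.1
  · rw [← e]; exact (hs.eq_iv hz).2.2

section Analytic

variable {P X Y Z : Type*} [NormedAddCommGroup P] [NormedSpace ℂ P] [NormedAddCommGroup X]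
  [NormedSpace ℂ X] [NormedAddCommGroup Y] [NormedSpace ℂ Y] [NormedAddCommGroup Z]
  [NormedSpace ℂ Z] {p : P}

theorem analyticAt_clm_comp {S : P → Y →L[ℂ] Z} {T : P → X →L[ℂ] Y} (hS : AnalyticAt ℂ S p)
    (hT : AnalyticAt ℂ T p) : AnalyticAt ℂ (fun q => (S q).comp (T q)) p :=
  ((ContinuousLinearMap.compL ℂ X Y Z).analyticAt_bilinear (S p, T p)).comp₂ hS hT

theorem analyticAt_clm_apply {S : P → Y →L[ℂ] Z} {y : P → Y} (hS : AnalyticAt ℂ S p)
    (hy : AnalyticAt ℂ y p) : AnalyticAt ℂ (fun q => S q (y q)) p :=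
  ((ContinuousLinearMap.id ℂ (Y →L[ℂ] Z)).analyticAt_bilinear (S p, y p)).comp₂ hS hy

theorem analyticAt_smulRight (l : X →L[ℂ] ℂ) {y : P → Y} (hy : AnalyticAt ℂ y p) :
    AnalyticAt ℂ (fun q => l.smulRight (y q)) p :=
  ((ContinuousLinearMap.smulRightL ℂ X Y l).analyticAt _).comp hy

variable {a b : P → BC}

theorem analyticAt_ivG (h : z₁ ≤ R) (ha : AnalyticAt ℂ a p) (hb : AnalyticAt ℂ b p) :
    AnalyticAt ℂ (fun q => ivG z₁ R (a q) (b q)) p := by
  have hK : AnalyticAt ℂ (fun q => 1 - K z₁ R (a q) (b q)) p :=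
    analyticAt_const.sub ((((M.analyticAt _).comp ha).mul analyticAt_const).add
      (((M.analyticAt _).comp hb).mul analyticAt_const))
  have hI : AnalyticAt ℂ (fun q => Ring.inverse (1 - K z₁ R (a q) (b q))) p :=
    AnalyticAt.comp (g := Ring.inverse) (f := fun q => 1 - K z₁ R (a q) (b q))
      (analyticAt_inverse (isUnit_one_sub_K h (a p) (b p)).unit) hK
  exact analyticAt_clm_comp hI (((analyticAt_const.add (analyticAt_smulRight _ ha)).add
    (analyticAt_smulRight _ hb)).add (analyticAt_smulRight _ (hb.mul analyticAt_const)))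

theorem analyticAt_iv2 (h : z₁ ≤ R) (ha : AnalyticAt ℂ a p) (hb : AnalyticAt ℂ b p) :
    AnalyticAt ℂ (fun q => iv2 z₁ R (a q) (b q)) p :=
  analyticAt_clm_comp analyticAt_const (analyticAt_ivG h ha hb)

theorem analyticAt_iv1 (h : z₁ ≤ R) (ha : AnalyticAt ℂ a p) (hb : AnalyticAt ℂ b p) :
    AnalyticAt ℂ (fun q => iv1 z₁ R (a q) (b q)) p :=
  analyticAt_const.add (analyticAt_clm_comp analyticAt_const (analyticAt_ivG h ha hb))

theorem analyticAt_iv0 (h : z₁ ≤ R) (ha : AnalyticAt ℂ a p) (hb : AnalyticAt ℂ b p) :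
    AnalyticAt ℂ (fun q => iv0 z₁ R (a q) (b q)) p :=
  analyticAt_const.add (analyticAt_clm_comp analyticAt_const (analyticAt_iv1 h ha hb))

end Analytic

/-- The value at `z₁` of the solution of the homogeneous equation with `v R = 1`, `v' R = 0`. -/
def phi (z₁ R : ℝ) (a b : BC) : ℂ := iv0 z₁ R a b (0, 1, 0) z₁

/-- The boundary value problem is nondegenerate if the homogeneous problem has only solutions which
vanish at `R`. -/
theorem phi_ne_zero (h : z₁ ≤ R) {a b : BC}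
    (hu : ∀ v v₁ v₂ : ℝ → ℂ, Sol z₁ R a b 0 v v₁ v₂ → v z₁ = 0 → v₁ R = 0 → v R = 0) :
    phi z₁ R a b ≠ 0 := fun h0 => by
  have := hu _ _ _ (sol_iv a b (0, 1, 0)) h0 (iv1_right h a b _)
  rw [iv0_right h] at this
  exact one_ne_zero this

/-- Evaluation. -/
def evz (z : ℝ) : BC →L[ℂ] ℂ := BoundedContinuousFunction.evalCLM ℂ z

@[simp] theorem evz_apply (z : ℝ) (f : BC) : evz z f = f z := rfl

/-- Forget the first number. -/
def dz : D →L[ℂ] D := dF.prod ((0 : D →L[ℂ] ℂ).prod dq)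

/-- The initial data of the solution of the boundary value problem with data
`(F, v z₁, v' R)`. -/
def bvD (z₁ R : ℝ) (a b : BC) : D →L[ℂ] D :=
  dz + (phi z₁ R a b)⁻¹ •
    (dp - (evz z₁).comp ((iv0 z₁ R a b).comp dz)).smulRight ((0, 1, 0) : D)

theorem bvD_apply (a b : BC) (d : D) : bvD z₁ R a b d =
    (d.1, (phi z₁ R a b)⁻¹ * (d.2.1 - iv0 z₁ R a b (d.1, 0, d.2.2) z₁), d.2.2) := by
  simp [bvD, dz]

/-- Boundary value problem with data `d = (F, v z₁, v' R)`: the solution. -/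
def bv0 (z₁ R : ℝ) (a b : BC) : D →L[ℂ] BC := (iv0 z₁ R a b).comp (bvD z₁ R a b)
/-- Boundary value problem: the first derivative. -/
def bv1 (z₁ R : ℝ) (a b : BC) : D →L[ℂ] BC := (iv1 z₁ R a b).comp (bvD z₁ R a b)
/-- Boundary value problem: the second derivative. -/
def bv2 (z₁ R : ℝ) (a b : BC) : D →L[ℂ] BC := (iv2 z₁ R a b).comp (bvD z₁ R a b)

theorem sol_bv (a b : BC) (d : D) :
    Sol z₁ R a b d.1 (bv0 z₁ R a b d) (bv1 z₁ R a b d) (bv2 z₁ R a b d) := by
  have := sol_iv (z₁ := z₁) (R := R) a b (bvD z₁ R a b d)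
  rw [show (bvD z₁ R a b d).1 = d.1 by rw [bvD_apply]] at this
  exact this

theorem clamped_bv0 (h : z₁ ≤ R) (a b : BC) (d : D) : Clamped z₁ R (bv0 z₁ R a b d) :=
  clamped_iv0 h _ _ _

theorem clamped_bv1 (h : z₁ ≤ R) (a b : BC) (d : D) : Clamped z₁ R (bv1 z₁ R a b d) :=
  clamped_iv1 h _ _ _

theorem clamped_bv2 (h : z₁ ≤ R) (a b : BC) (d : D) : Clamped z₁ R (bv2 z₁ R a b d) :=
  clamped_iv2 h _ _ _

theorem bv1_right (h : z₁ ≤ R) (a b : BC) (d : D) : bv1 z₁ R a b d R = d.2.2 := by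
  change iv1 z₁ R a b (bvD z₁ R a b d) R = _
  rw [iv1_right h, bvD_apply]

theorem iv0_split (a b : BC) (F : BC) (p q z : ℂ) (y : ℝ) :
    iv0 z₁ R a b (F, z * p, q) y =
      iv0 z₁ R a b (F, 0, q) y + z * p * iv0 z₁ R a b (0, 1, 0) y := by
  have : ((F, z * p, q) : D) = (F, 0, q) + (z * p) • ((0, 1, 0) : D) := by simp
  rw [this, map_add, map_smul]
  rfl

theorem bv0_left {a b : BC} (hp : phi z₁ R a b ≠ 0) (d : D) : bv0 z₁ R a b d z₁ = d.2.1 := by
  change iv0 z₁ R a b (bvD z₁ R a b d) z₁ = _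
  rw [bvD_apply, iv0_split]
  change _ + _ * phi z₁ R a b = _
  field_simp
  ring

/-- Uniqueness for the boundary value problem. -/
theorem Sol.eq_bv {a b F : BC} {v v₁ v₂ : ℝ → ℂ} (hs : Sol z₁ R a b F v v₁ v₂)
    (hp : phi z₁ R a b ≠ 0) {z : ℝ} (hz : z ∈ Icc z₁ R) :
    v z = bv0 z₁ R a b (F, v z₁, v₁ R) z ∧ v₁ z = bv1 z₁ R a b (F, v z₁, v₁ R) z ∧
      v₂ z = bv2 z₁ R a b (F, v z₁, v₁ R) z := by
  have h := hz.1.trans hz.2
  have e : bvD z₁ R a b (F, v z₁, v₁ R) = (F, v R, v₁ R) := by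
    rw [bvD_apply]
    have h1 := (hs.eq_iv (left_mem_Icc.2 h)).1
    have h2 := iv0_split (z₁ := z₁) (R := R) a b F (v R) (v₁ R) 1 z₁
    rw [one_mul, ← h1] at h2
    change v z₁ = _ + _ * phi z₁ R a b at h2
    simp only [h2]
    congr 2
    field_simp
    ring
  change v z = iv0 z₁ R a b (bvD z₁ R a b _) z ∧ v₁ z = iv1 z₁ R a b (bvD z₁ R a b _) z ∧
    v₂ z = iv2 z₁ R a b (bvD z₁ R a b _) z
  rw [e]
  exact hs.eq_iv hz

theorem star_phi (h : z₁ ≤ R) (a b : BC) : star (phi z₁ R a b) = phi z₁ R (star a) (star b) := by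
  have := congrArg (fun f : BC => f z₁) (star_iv h a b (0, 1, 0)).1
  simpa [phi, Prod.star_def] using this

theorem star_bvD (h : z₁ ≤ R) (a b : BC) (d : D) :
    star (bvD z₁ R a b d) = bvD z₁ R (star a) (star b) (star d) := by
  have := congrArg (fun f : BC => f z₁) (star_iv h a b (d.1, 0, d.2.2)).1
  simp only [Prod.star_def, star_zero, BoundedContinuousFunction.star_apply] at this
  simp only [bvD_apply, Prod.star_def, star_mul', star_sub, star_inv₀, star_phi h, this]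

theorem star_bv (h : z₁ ≤ R) (a b : BC) (d : D) :
    star (bv0 z₁ R a b d) = bv0 z₁ R (star a) (star b) (star d) ∧
    star (bv1 z₁ R a b d) = bv1 z₁ R (star a) (star b) (star d) ∧
    star (bv2 z₁ R a b d) = bv2 z₁ R (star a) (star b) (star d) := by
  have := star_iv h a b (bvD z₁ R a b d)
  rw [star_bvD h] at this
  exact this

section Analytic

variable {P : Type*} [NormedAddCommGroup P] [NormedSpace ℂ P] {p : P} {a b : P → BC}

theorem analyticAt_phi (h : z₁ ≤ R) (ha : AnalyticAt ℂ a p) (hb : AnalyticAt ℂ b p) :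
    AnalyticAt ℂ (fun q => phi z₁ R (a q) (b q)) p :=
  ((evz z₁).analyticAt _).comp (analyticAt_clm_apply (analyticAt_iv0 h ha hb) analyticAt_const)

theorem analyticAt_bvD (h : z₁ ≤ R) (ha : AnalyticAt ℂ a p) (hb : AnalyticAt ℂ b p)
    (hp : phi z₁ R (a p) (b p) ≠ 0) : AnalyticAt ℂ (fun q => bvD z₁ R (a q) (b q)) p := by
  refine analyticAt_const.add (((analyticAt_phi h ha hb).inv hp).smul ?_)
  exact (((ContinuousLinearMap.smulRightL ℂ D D).flip (0, 1, 0)).analyticAt _).comp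
    (analyticAt_const.sub (analyticAt_clm_comp analyticAt_const
      (analyticAt_clm_comp (analyticAt_iv0 h ha hb) analyticAt_const)))

theorem analyticAt_bv0 (h : z₁ ≤ R) (ha : AnalyticAt ℂ a p) (hb : AnalyticAt ℂ b p)
    (hp : phi z₁ R (a p) (b p) ≠ 0) : AnalyticAt ℂ (fun q => bv0 z₁ R (a q) (b q)) p :=
  analyticAt_clm_comp (analyticAt_iv0 h ha hb) (analyticAt_bvD h ha hb hp)

theorem analyticAt_bv1 (h : z₁ ≤ R) (ha : AnalyticAt ℂ a p) (hb : AnalyticAt ℂ b p)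
    (hp : phi z₁ R (a p) (b p) ≠ 0) : AnalyticAt ℂ (fun q => bv1 z₁ R (a q) (b q)) p :=
  analyticAt_clm_comp (analyticAt_iv1 h ha hb) (analyticAt_bvD h ha hb hp)

theorem analyticAt_bv2 (h : z₁ ≤ R) (ha : AnalyticAt ℂ a p) (hb : AnalyticAt ℂ b p)
    (hp : phi z₁ R (a p) (b p) ≠ 0) : AnalyticAt ℂ (fun q => bv2 z₁ R (a q) (b q)) p :=
  analyticAt_clm_comp (analyticAt_iv2 h ha hb) (analyticAt_bvD h ha hb hp)

end Analytic

end Vale.Agent.P218F.Mode
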