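import Vale.Agent.P218F.ConeSpec
import Vale.Agent.P218F.Wien3
import Vale.Agent.P218F.Mode1
import Vale.Agent.P218F.SymSpec
import Vale.Agent.P218F.EndsSpec

/-!
# Cylindrical ends: the interface

A cylindrical end is the polar graph `X(z, θ) = r(z, θ) (cos θ a + sin θ b) + z c` on
`[z₁, R] × S¹`.  `T3 0 = W 2 × W 1 × W 0` holds `(r, r_z, r_zz)`, `fn`, `fn1`, `fn2`, `val`, `vT`,
`vYT`, `vTT` are those of `Cone`.  The solver `e R (h, y)` has the modes `|k| ≥ 2` of `h` at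
`z = z₁`, the Neumann condition at `z = R`, mean `√y` and vanishing modes `± 1` at `z = R`.
-/

set_option maxSynthPendingDepth 3

namespace Vale.Agent.P218F.End

open Set Metric Wien Core
open Cone (W A T3 BC fn fn1 fn2 vT vYT vTT)
open scoped ContDiff Real

noncomputable section

/-- restriction to `[a, b]`, extended by constants -/
def res (a b : ℝ) (s : ℕ) : W s →L[ℂ] W s := mapL ℤ s (Mode.clamp a b)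

/-- restriction of a triple -/
def res3 (a b : ℝ) (p : T3 0) : T3 0 := (res a b 2 p.1, res a b 1 p.2.1, res a b 0 p.2.2)

/-- `(r, r_z, r_zz)` mode by mode on `[a, b]`, constant outside -/
structure Tri (a b : ℝ) (p : T3 0) : Prop where
  cl : res3 a b p = p
  d0 : ZDer (Icc a b) p.1 p.2.1
  d1 : ZDer (Icc a b) p.2.1 p.2.2

/-- the shrinker operator of the polar graph `r` times `r (r² (1 + r_z²) + r_θ²)`;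
`p = r_z`, `q = r_θ`, `a = r_zz`, `m = r_zθ`, `t = r_θθ` -/
def epol {B : Type*} [Field B] (z r p q a m t : B) : B :=
  r * (r ^ 2 + q ^ 2) * a - 2 * r * p * q * m + r * (1 + p ^ 2) * t - r ^ 2 * (1 + p ^ 2) -
    2 * q ^ 2 + r * (r ^ 2 * (1 + p ^ 2) + q ^ 2) * (r - z * p) / 2

/-- the equation on `[a, b] × S¹` -/
def PtEq (a b : ℝ) (p : T3 0) : Prop := ∀ z ∈ Icc a b, ∀ θ,
  epol (z : ℂ) (Cone.val p.1 z θ) (Cone.val p.2.1 z θ) (vT p z θ) (Cone.val p.2.2 z θ) (vYT p z θ)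
    (vTT p z θ) = 0

/-- the round cylinder -/
def cyl : T3 0 := (algebraMap ℂ (W 2) (√2 : ℝ), 0, 0)

/-- the parameter domain -/
def Dm (δ Λ R : ℝ) : Set (A 2 × ℂ) := ball 0 δ ×ˢ Sym.D Λ R

/-- The end solver.  `δ`, `C₁` do not depend on `z₁`. -/
structure IsEnd (Λ δ C₁ z₁ R₁ C₂ : ℝ) (cc Y : ℝ → ℂ → ℂ) (e : ℝ → A 2 × ℂ → T3 0) : Prop where
  big : 2 * z₁ + 20 ≤ R₁
  hol : ∀ R, R₁ ≤ R → DifferentiableOn ℂ (e R) (Dm δ Λ R)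
  tri : ∀ R, R₁ ≤ R → ∀ x ∈ Dm δ Λ R, Tri z₁ R (e R x)
  eqn : ∀ R, R₁ ≤ R → ∀ x ∈ Dm δ Λ R, PtEq z₁ R (e R x)
  trace : ∀ R, R₁ ≤ R → ∀ x ∈ Dm δ Λ R, ∀ k : ℤ, 2 ≤ |k| → cf (e R x).1 k z₁ = cf x.1 k
  neu : ∀ R, R₁ ≤ R → ∀ x ∈ Dm δ Λ R, ∀ k : ℤ, cf (e R x).2.1 k R = 0
  tip0 : ∀ R, R₁ ≤ R → ∀ x ∈ Dm δ Λ R, cf (e R x).1 0 R = x.2 ^ (1 / 2 : ℂ)
  tip1 : ∀ R, R₁ ≤ R → ∀ x ∈ Dm δ Λ R, cf (e R x).1 1 R = 0 ∧ cf (e R x).1 (-1) R = 0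
  /-- (X5) -/
  tip : ∀ R, R₁ ≤ R → ∀ x ∈ Dm δ Λ R,
    ‖Cone.tr 2 R (e R x).1 - algebraMap ℂ (A 2) (x.2 ^ (1 / 2 : ℂ))‖ ≤
      C₂ * √‖x.2‖ * R ^ (-(19 / 10) : ℝ)
  real : ∀ R, R₁ ≤ R → ∀ x ∈ Dm δ Λ R, star x.1 = x.1 → x.2.im = 0 → star (e R x) = e R x
  good : ∀ R, R₁ ≤ R → ∀ x ∈ Dm δ Λ R, ∀ z ∈ Icc z₁ R, ∀ θ, 0 < (fn (e R x) (z, θ)).re ∧
    0 < (fn (e R x) (z, θ) ^ 2 * (1 + Cone.val (e R x).2.1 z θ ^ 2) + vT (e R x) z θ ^ 2).re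
  bdd : ∀ R, R₁ ≤ R → ∀ x ∈ Dm δ Λ R, ‖e R x‖ ≤ C₂ * R
  bd1 : ∀ R, R₁ ≤ R → ∀ x ∈ Dm δ Λ R, ∀ z ∈ Icc z₁ R, ∀ θ,
    ‖fn (e R x) (z, θ)‖ ≤ 8 ∧ ‖fn1 (e R x) (z, θ)‖ ≤ C₁
  /-- (X6), also on initial intervals -/
  small : ∀ R, R₁ ≤ R → ∀ x ∈ Dm δ Λ R, ∀ Z ∈ Icc z₁ R, ‖cc R x.2‖ * Z ^ 2 ≤ 1 / 2 →
    ‖res3 z₁ Z (e R x) - cyl‖ ≤ C₁ * (‖x.1‖ + ‖cc R x.2‖ * Z ^ 2) ∧
    ∀ z ∈ Icc z₁ Z, ∀ θ, z * ‖Cone.val (e R x).2.1 z θ‖ ≤ C₁ * (‖x.1‖ + ‖cc R x.2‖ * Z ^ 2)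
  /-- decay of the solutions with `y = 2` -/
  decay : ∀ R, R₁ ≤ R → ∀ h ∈ ball (0 : A 2) δ, ∀ Z ∈ Icc z₁ R,
    ‖res3 Z R (e R (h, 2)) - cyl‖ ≤ C₁ * ‖h‖ * (z₁ / Z) ^ (19 / 10 : ℝ)
  /-- (X3) -/
  lipR : ∀ R R', R₁ ≤ R → R ≤ R' → R' ≤ R + 1 → ∀ h ∈ ball (0 : A 2) δ, ∀ c ∈ Sym.Om (2 * Λ) R',
    ∀ Z ∈ Icc z₁ (R / 2), ‖res3 z₁ Z (e R' (h, Y R' c)) - res3 z₁ Z (e R (h, Y R c))‖ ≤
      C₂ * (R' - R) * Z ^ 2 * R ^ (-(28 / 5) : ℝ)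
  /-- (X4), no uniformity -/
  lip : ∀ R₂, R₁ ≤ R₂ → ∀ x₂ ∈ Dm δ Λ R₂, ∃ K ε : ℝ, 0 < ε ∧ ∀ R R' x x', R₁ ≤ R → R ≤ R' →
    |R - R₂| < ε → |R' - R₂| < ε → x ∈ Dm δ Λ R → x' ∈ Dm δ Λ R' → ‖x - x₂‖ < ε → ‖x' - x₂‖ < ε →
      ∀ z ∈ Icc z₁ R, ∀ θ, ‖fn (e R' x') (z, θ) - fn (e R x) (z, θ)‖ ≤ K * (R' - R + ‖x' - x‖) ∧
        ‖fn1 (e R' x') (z, θ) - fn1 (e R x) (z, θ)‖ ≤ K * (R' - R + ‖x' - x‖)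

/-- **Block END-CYL** -/
def EndStmt : Prop :=
  ∀ C : ℝ, 1 ≤ C → ∃ Λ₁ : ℝ, ∀ (Λ Z₀ R₀ : ℝ) (V P : ℝ → ℂ → Sym.BC) (cc Y : ℝ → ℂ → ℂ), Λ₁ ≤ Λ →
    0 < Z₀ → 2 * Λ ≤ Z₀ ^ 2 → Sym.Fam C Λ Z₀ R₀ V P cc → Sym.LipR C Λ Z₀ R₀ V P cc →
    Sym.Inv C Λ R₀ cc Y → ∃ δ C₁ : ℝ, 0 < δ ∧ ∀ z₁, Z₀ ≤ z₁ →
      ∃ (R₁ C₂ : ℝ) (e : ℝ → A 2 × ℂ → T3 0), R₀ ≤ R₁ ∧ IsEnd Λ δ C₁ z₁ R₁ C₂ cc Y e

/-- a triple is a `C²` function on the closed strip -/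
def TriStmt : Prop := ∀ (a b : ℝ) (p : T3 0), a < b → Tri a b p →
  ContDiffOn ℝ 2 (fn p) (Icc a b ×ˢ univ) ∧ Continuous (fn p) ∧ Continuous (fn1 p) ∧
  Continuous (fn2 p) ∧
  (∀ z : P2, z.1 ∈ Icc a b → HasFDerivWithinAt (fn p) (fn1 p z) (Icc a b ×ˢ univ) z ∧
    HasFDerivWithinAt (fn1 p) (fn2 p z) (Icc a b ×ˢ univ) z) ∧
  ∀ z : P2, z.1 ∈ Ioo a b → ContDiffAt ℝ 2 (fn p) z ∧ jet2 (fn p) z = (fn p z, fn1 p z, fn2 p z)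

/-- the radial direction -/
def eR (a b : P218FT.E3) : P2 → C3 := fun z => cE (Real.cos z.2 • a + Real.sin z.2 • b)

/-- the complex polar graph -/
def cylY (a b c : P218FT.E3) (u : P2 → ℂ) : P2 → C3 :=
  fun z => u z • eR a b z + (z.1 : ℂ) • cE c

/-- the operator, the metric and the Lagrangian in the cylinder chart -/
def GeomStmt : Prop := ∀ a b c : P218FT.E3, P218FT.Triple a b c → ∀ (u : P2 → ℂ) (z : P2),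
  ContDiffAt ℝ 2 u z →
  let J := jet2 u z
  let G := u z ^ 2 * (1 + J.2.1 (1, 0) ^ 2) + J.2.1 (0, 1) ^ 2
  gdet (fderiv ℝ (cylY a b c u) z) = G ∧
  cylY a b c u z ⬝ᵥ cylY a b c u z = u z ^ 2 + (z.1 : ℂ) ^ 2 ∧
  (eR a b z ⬝ᵥ nor (fderiv ℝ (cylY a b c u) z)) ^ 2 = u z ^ 2 ∧
  (u z ≠ 0 → G ≠ 0 → u z * G * Shr (cylY a b c u) (eR a b) z =
    epol (z.1 : ℂ) (u z) (J.2.1 (1, 0)) (J.2.1 (0, 1)) (J.2.2 (1, 0) (1, 0)) (J.2.2 (1, 0) (0, 1))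
      (J.2.2 (0, 1) (0, 1)))

/-- derivatives of holomorphic families of triples are triples with the differentiated boundary
conditions -/
def DTriStmt : Prop := ∀ (a b : ℝ) (P : Type) [NormedAddCommGroup P] [NormedSpace ℂ P]
  (e : P → T3 0) (x : P), a < b → DifferentiableAt ℂ e x → (∀ᶠ x' in nhds x, Tri a b (e x')) →
    ∀ v, Tri a b (fderiv ℂ e x v)

end

end Vale.Agent.P218F.End
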