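import Vale.Agent.P218F.EndInf3
import Vale.Agent.P218F.EndSpec
import Vale.Agent.P218F.CoreHol

/-!
Exactly cylindrical ends: the nonlinear remainder of the shrinker equation for `v = r - √2`, as an
analytic map of Wiener spaces which acts pointwise.
-/

set_option maxSynthPendingDepth 3

namespace Vale.Agent.P218F.EndI

open Set Filter Topology Metric Wien
open Cone (W A T3 J6 BC jets jets_apply norm_jets_apply_le Clamp)
open scoped ContDiff

noncomputable section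

/-! ### Maps which act pointwise -/

section nat

variable {s : ℕ} {η : ℝ}

/-- the values of the jets, as a linear map -/
def valsL (s : ℕ) (z θ : ℝ) : J6 (W s) →L[ℂ] J6 ℂ :=
  (valL s ℂ z θ).prodMap ((valL s ℂ z θ).prodMap ((valL s ℂ z θ).prodMap ((valL s ℂ z θ).prodMap
    ((valL s ℂ z θ).prodMap (valL s ℂ z θ)))))

theorem valsL_apply (J : J6 (W s)) (z θ : ℝ) : valsL s z θ J = vals J z θ := rfl

/-- the coefficients of a linear form on jets -/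
def grad (T : J6 (W s) →L[ℂ] W s) : J6 (W s) :=
  (T (1, 0, 0, 0, 0, 0), T (0, 1, 0, 0, 0, 0), T (0, 0, 1, 0, 0, 0), T (0, 0, 0, 1, 0, 0),
    T (0, 0, 0, 0, 1, 0), T (0, 0, 0, 0, 0, 1))

theorem norm_grad_le (T : J6 (W s) →L[ℂ] W s) : ‖grad T‖ ≤ ‖T‖ := by
  simp only [grad, norm_prod_le_iff]
  refine ⟨?_, ?_, ?_, ?_, ?_, ?_⟩ <;> refine (T.le_opNorm _).trans (le_of_eq ?_) <;>
    simp [Prod.norm_def]

theorem eq_dot_grad {T : J6 (W s) →L[ℂ] W s}
    (h : ∀ H z θ, vals H z θ = 0 → val (T H) z θ = 0) (H : J6 (W s)) : T H = dot (grad T) H := by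
  refine ext_val fun z θ => ?_
  have := h (H - (val H.1 z θ • ((1, 0, 0, 0, 0, 0) : J6 (W s)) +
    val H.2.1 z θ • ((0, 1, 0, 0, 0, 0) : J6 (W s)) +
    val H.2.2.1 z θ • ((0, 0, 1, 0, 0, 0) : J6 (W s)) +
    val H.2.2.2.1 z θ • ((0, 0, 0, 1, 0, 0) : J6 (W s)) +
    val H.2.2.2.2.1 z θ • ((0, 0, 0, 0, 1, 0) : J6 (W s)) +
    val H.2.2.2.2.2 z θ • ((0, 0, 0, 0, 0, 1) : J6 (W s)))) z θ (by simp [vals])
  simp only [map_sub, map_add, map_smul, val_sub, val_add, val_smul, smul_eq_mul] at this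
  simp only [dot, grad, val_add, val_mul]
  linear_combination this

/-- `F` is analytic on a ball and acts pointwise as `f` -/
structure Nat (η : ℝ) (F : J6 (W s) → W s) (f : ℝ → ℝ → J6 ℂ → ℂ) : Prop where
  an : AnalyticOnNhd ℂ F (ball 0 η)
  anc : ∀ J : J6 (W s), ‖J‖ < η → ∀ z θ, AnalyticAt ℂ (f z θ) (vals J z θ)
  val : ∀ J, ‖J‖ < η → ∀ z θ, val (F J) z θ = f z θ (vals J z θ)

variable {F : J6 (W s) → W s} {f : ℝ → ℝ → J6 ℂ → ℂ}

theorem Nat.val_fderiv (h : Nat η F f) {J : J6 (W s)} (hJ : ‖J‖ < η) (K : J6 (W s)) (z θ : ℝ) :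
    Wien.val (fderiv ℂ F J K) z θ = fderiv ℂ (f z θ) (vals J z θ) (vals K z θ) := by
  have hm := mem_ball_zero_iff.2 hJ
  have h1 := (valL s ℂ z θ).hasFDerivAt.comp J (h.an J hm).differentiableAt.hasFDerivAt
  have h2 := HasFDerivAt.comp (f := valsL s z θ) J (h.anc J hJ z θ).differentiableAt.hasFDerivAt
    (valsL s z θ).hasFDerivAt
  have h3 := h1.unique (h2.congr_of_eventuallyEq (by
    filter_upwards [isOpen_ball.mem_nhds hm] with y hy
    exact h.val y (mem_ball_zero_iff.1 hy) z θ))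
  exact congrArg (fun T : J6 (W s) →L[ℂ] ℂ => T K) h3

theorem Nat.deriv (h : Nat η F f) (K : J6 (W s)) :
    Nat η (fun J => fderiv ℂ F J K) fun z θ j => fderiv ℂ (f z θ) j (vals K z θ) where
  an J hJ := AnalyticAt.comp (g := ContinuousLinearMap.apply ℂ (W s) K)
    (ContinuousLinearMap.analyticAt _ _) (h.an J hJ).fderiv
  anc J hJ z θ := AnalyticAt.comp (g := ContinuousLinearMap.apply ℂ ℂ (vals K z θ))
    (ContinuousLinearMap.analyticAt _ _) (h.anc J hJ z θ).fderiv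
  val _ hJ z θ := h.val_fderiv hJ K z θ

theorem Nat.fderiv_eq (h : Nat η F f) {J : J6 (W s)} (hJ : ‖J‖ < η) (K : J6 (W s)) :
    fderiv ℂ F J K = dot (grad (fderiv ℂ F J)) K :=
  eq_dot_grad (fun H z θ hH => by rw [h.val_fderiv hJ, hH, map_zero]) K

/-- Hadamard's lemma -/
theorem Nat.had (h : Nat η F f) {L : ℝ} (hL : ∀ J, ‖J‖ < η → ‖fderiv ℂ F J‖ ≤ L) {J J' : J6 (W s)}
    (hJ : ‖J‖ < η) (hJ' : ‖J'‖ < η) : ∃ c : J6 (W s), ‖c‖ ≤ L ∧ F J - F J' = dot c (J - J') := by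
  let γ : ℝ → J6 (W s) := fun t => J' + t • (J - J')
  have hγ : ∀ t ∈ uIcc (0 : ℝ) 1, γ t ∈ ball (0 : J6 (W s)) η := fun t ht =>
    (convex_ball 0 η).add_smul_sub_mem (mem_ball_zero_iff.2 hJ') (mem_ball_zero_iff.2 hJ)
      (by rwa [uIcc_of_le zero_le_one] at ht)
  have hc : ContinuousOn (fun t => fderiv ℂ F (γ t)) (uIcc 0 1) :=
    h.an.fderiv.continuousOn.comp (by fun_prop) hγ
  have hi := hc.intervalIntegrable (μ := MeasureTheory.volume)
  refine ⟨grad (∫ t in (0 : ℝ)..1, fderiv ℂ F (γ t)), (norm_grad_le _).trans ?_, ?_⟩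
  · have := intervalIntegral.norm_integral_le_of_norm_le_const (a := 0) (b := 1) (C := L)
      (f := fun t => fderiv ℂ F (γ t)) fun t ht =>
        hL _ (mem_ball_zero_iff.1 (hγ t (uIoc_subset_uIcc ht)))
    simpa using this
  · rw [← eq_dot_grad fun H z θ hH => ?_]
    · rw [ContinuousLinearMap.intervalIntegral_apply hi]
      have hd : ∀ t ∈ uIcc (0 : ℝ) 1, HasDerivAt (fun t => F (γ t))
          (fderiv ℂ F (γ t) (J - J')) t := fun t ht => by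
        have h1 : HasDerivAt γ (J - J') t :=
          (((hasDerivAt_id t).smul_const (J - J')).const_add J').congr_deriv (one_smul _ _)
        exact ((h.an _ (hγ t ht)).differentiableAt.hasFDerivAt.restrictScalars ℝ).comp_hasDerivAt
          t h1
      rw [intervalIntegral.integral_eq_sub_of_hasDerivAt hd
        ((hc.clm_apply continuousOn_const).intervalIntegrable)]
      simp [γ]
    · rw [ContinuousLinearMap.intervalIntegral_apply hi, ← valL_apply,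
        ← (valL s ℂ z θ).intervalIntegral_comp_comm
          ((hc.clm_apply continuousOn_const).intervalIntegrable),
        intervalIntegral.integral_congr (g := fun _ => 0) fun t ht => ?_]
      · simp
      · rw [valL_apply, h.val_fderiv (mem_ball_zero_iff.1 (hγ t ht)), hH, map_zero]

end nat

/-! ### The remainder -/

section ring

variable {B : Type*} [CommRing B]

/-- the determinant of the metric, for `r = ρ + v` -/
def detN (ρ : B) (J : J6 B) : B := (ρ + J.1) ^ 2 * (1 + J.2.1 ^ 2) + J.2.2.1 ^ 2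

/-- the remainder; `hf = 1 / 2`, `ri = 1 / r`, `di = 1 / det` -/
def remP (ρ hf ri di : B) (J : J6 B) : B :=
  J.1 * (J.1 * hf * ri + J.2.2.2.2.2 * (2 * ρ + J.1) * hf * ri ^ 2) +
    J.2.1 * (((ρ + J.1) ^ 2 * J.2.1 * J.2.2.2.1 + 2 * J.2.2.1 * J.2.2.2.2.1) * di) +
    J.2.2.1 * (J.2.2.1 * (2 * ri + (J.2.2.2.2.2 - (ρ + J.1)) * ri ^ 2) * di)

/-- the remainder -/
def remN (ρ hf : B) (J : J6 B) : B :=
  remP ρ hf (Ring.inverse (ρ + J.1)) (Ring.inverse (detN ρ J)) J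

end ring

section banach

variable {B : Type*} [NormedCommRing B] [NormedAlgebra ℂ B] [CompleteSpace B]

theorem contDiffAt_remN (ρ hf : B) {J : J6 B} (h1 : IsUnit (ρ + J.1)) (h2 : IsUnit (detN ρ J)) :
    ContDiffAt ℂ ω (remN ρ hf) J := by
  have a1 : ContDiffAt ℂ ω (fun J : J6 B => Ring.inverse (ρ + J.1)) J :=
    Cone.contDiffAt_inv_comp (f := fun J : J6 B => ρ + J.1) (by fun_prop) h1
  have a2 : ContDiffAt ℂ ω (fun J : J6 B => Ring.inverse (detN ρ J)) J :=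
    Cone.contDiffAt_inv_comp (f := fun J : J6 B => detN ρ J) (by unfold detN; fun_prop) h2
  unfold remN remP
  fun_prop

theorem hasFDerivAt_remN {ρ : B} (hρ : IsUnit ρ) (hf : B) :
    HasFDerivAt (remN ρ hf) (0 : J6 B →L[ℂ] B) 0 := by
  have h1 : IsUnit (ρ + (0 : J6 B).1) := by simpa
  have h2 : IsUnit (detN ρ (0 : J6 B)) := by simpa [detN]
  have a1 : DifferentiableAt ℂ (fun J : J6 B => Ring.inverse (ρ + J.1)) 0 :=
    (Cone.contDiffAt_inv_comp (f := fun J : J6 B => ρ + J.1) (by fun_prop) h1).differentiableAt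
      (by simp)
  have a2 : DifferentiableAt ℂ (fun J : J6 B => Ring.inverse (detN ρ J)) 0 :=
    (Cone.contDiffAt_inv_comp (f := fun J : J6 B => detN ρ J)
      (by unfold detN; fun_prop) h2).differentiableAt (by simp)
  unfold remN remP
  rw [show (0 : J6 B →L[ℂ] B) = 0 + 0 + 0 by simp]
  refine ((?_ : HasFDerivAt _ _ _).fun_add ?_).fun_add ?_ <;>
    refine Cone.hasFDerivAt_mul_zero ?_ ?_ ?_ ?_
  all_goals first
    | rfl
    | fun_prop
    | simp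

theorem exists_small {ρ : B} (hρ : IsUnit ρ) (hf : B) {ε : ℝ} (hε : 0 < ε) :
    ∃ η > 0, ∃ C ≥ 1, ∀ J : J6 B, ‖J‖ < η → (IsUnit (ρ + J.1) ∧ IsUnit (detN ρ J)) ∧
      ‖fderiv ℂ (remN ρ hf) J‖ ≤ ε ∧ ‖fderiv ℂ (fderiv ℂ (remN ρ hf)) J‖ ≤ C := by
  have h1 : IsUnit (ρ + (0 : J6 B).1) := by simpa
  have h2 : IsUnit (detN ρ (0 : J6 B)) := by simpa [detN]
  have e1 : ∀ᶠ J : J6 B in 𝓝 0, IsUnit (ρ + J.1) :=
    (by fun_prop : Continuous fun J : J6 B => ρ + J.1).continuousAt.eventually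
      (Units.isOpen.mem_nhds h1)
  have e2 : ∀ᶠ J : J6 B in 𝓝 0, IsUnit (detN ρ J) :=
    (by unfold detN; fun_prop : Continuous fun J : J6 B => detN ρ J).continuousAt.eventually
      (Units.isOpen.mem_nhds h2)
  have ha : AnalyticAt ℂ (remN ρ hf) 0 := (contDiffAt_remN _ _ h1 h2).analyticAt
  have e3 : ∀ᶠ J : J6 B in 𝓝 0, ‖fderiv ℂ (remN ρ hf) J‖ ≤ ε := by
    have := ha.fderiv.continuousAt.norm.tendsto
    rw [(hasFDerivAt_remN hρ hf).fderiv, norm_zero] at this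
    exact this.eventually (ge_mem_nhds hε)
  have e4 : ∀ᶠ J : J6 B in 𝓝 0, ‖fderiv ℂ (fderiv ℂ (remN ρ hf)) J‖ ≤
      ‖fderiv ℂ (fderiv ℂ (remN ρ hf)) 0‖ + 1 :=
    ha.fderiv.fderiv.continuousAt.norm.tendsto.eventually (ge_mem_nhds (lt_add_one _))
  obtain ⟨η, hη, h⟩ := Metric.eventually_nhds_iff.1 ((e1.and e2).and (e3.and e4))
  exact ⟨η, hη, _, le_add_of_nonneg_left (norm_nonneg _),
    fun J hJ => h (by rwa [dist_zero_right])⟩

end banach

/-- the remainder as a complex function of the jets of `v = r - √2` -/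
def Nc : J6 ℂ → ℂ := remN (√2 : ℝ) (1 / 2)

/-- the remainder in the Wiener algebra -/
def NW (s : ℕ) : J6 (W s) → W s := remN (algebraMap ℂ (W s) (√2 : ℝ)) (algebraMap ℂ (W s) (1 / 2))

theorem sqrt_two_ne : ((√2 : ℝ) : ℂ) ≠ 0 := by exact_mod_cast (by positivity : (√2 : ℝ) ≠ 0)

theorem epol_eq (z : ℝ) {j : J6 ℂ} (h1 : (√2 : ℝ) + j.1 ≠ 0) (h2 : detN ((√2 : ℝ) : ℂ) j ≠ 0) :
    End.epol (z : ℂ) ((√2 : ℝ) + j.1) j.2.1 j.2.2.1 j.2.2.2.1 j.2.2.2.2.1 j.2.2.2.2.2 =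
      ((√2 : ℝ) + j.1) * detN ((√2 : ℝ) : ℂ) j * (lop z j - Nc j) := by
  have h0 : ((√2 : ℝ) : ℂ) ^ 2 = 2 := by exact_mod_cast Real.sq_sqrt zero_le_two
  obtain ⟨v, p, q, a, m, t⟩ := j
  simp only [Nc, remN, remP, lop, Ring.inverse_eq_inv'] at h1 h2 ⊢
  generalize ((√2 : ℝ) : ℂ) = ρ at h0 h1 h2
  have e1 : v * (v * (1 / 2) * (ρ + v)⁻¹ + t * (2 * ρ + v) * (1 / 2) * (ρ + v)⁻¹ ^ 2) =
      v + t / 2 - (ρ + v) / 2 + (ρ + v)⁻¹ - t * (ρ + v)⁻¹ ^ 2 := by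
    field_simp
    linear_combination (ρ + v - t) * h0
  rw [e1]
  field_simp
  simp only [detN, End.epol]
  ring

theorem star_Nc (j : J6 ℂ) : Nc (star j) = star (Nc j) := by
  simp [Nc, remN, remP, detN]

/-- the properties of the remainder on the ball of radius `η` -/
structure NOK (s : ℕ) (η C : ℝ) : Prop where
  pos : 0 < η
  le : η ≤ 1 / 10
  one_le : 1 ≤ C
  nat : Nat η (NW s) fun _ _ => Nc
  d1 : ∀ J, ‖J‖ < η → ‖fderiv ℂ (NW s) J‖ ≤ 1 / 200000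
  d2 : ∀ J, ‖J‖ < η → ‖fderiv ℂ (fderiv ℂ (NW s)) J‖ ≤ C
  ne : ∀ J : J6 (W s), ‖J‖ < η → ∀ z θ,
    (√2 : ℝ) + (vals J z θ).1 ≠ 0 ∧ detN ((√2 : ℝ) : ℂ) (vals J z θ) ≠ 0

theorem NW_zero (s : ℕ) : NW s 0 = 0 := by simp [NW, remN, remP]

theorem isUnit_rho (s : ℕ) : IsUnit (algebraMap ℂ (W s) (√2 : ℝ)) :=
  (IsUnit.mk0 _ sqrt_two_ne).map _

theorem fderiv_NW_zero (s : ℕ) : fderiv ℂ (NW s) 0 = 0 := (hasFDerivAt_remN (isUnit_rho s) _).fderiv

theorem exists_nok (s : ℕ) : ∃ η C, NOK s η C := by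
  obtain ⟨η, hη, C, hC, h⟩ := exists_small (isUnit_rho s) (algebraMap ℂ (W s) (1 / 2))
    (ε := 1 / 200000) (by norm_num)
  have hv : ∀ J : J6 (W s), ‖J‖ < min η (1 / 10) → ∀ z θ,
      (√2 : ℝ) + (vals J z θ).1 ≠ 0 ∧ detN ((√2 : ℝ) : ℂ) (vals J z θ) ≠ 0 := fun J hJ z θ => by
    obtain ⟨⟨u1, u2⟩, -⟩ := h J (hJ.trans_le (min_le_left _ _))
    exact ⟨by simpa [vals] using val_ne_zero u1 z θ,
      by simpa [vals, detN] using val_ne_zero u2 z θ⟩
  refine ⟨min η (1 / 10), C, by positivity, min_le_right _ _, hC,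
    ⟨fun J hJ => ?_, fun J hJ z θ => ?_, fun J hJ z θ => ?_⟩,
    fun J hJ => (h J (hJ.trans_le (min_le_left _ _))).2.1,
    fun J hJ => (h J (hJ.trans_le (min_le_left _ _))).2.2, hv⟩
  · obtain ⟨⟨u1, u2⟩, -⟩ := h J ((mem_ball_zero_iff.1 hJ).trans_le (min_le_left _ _))
    exact (contDiffAt_remN _ _ u1 u2).analyticAt
  · exact (contDiffAt_remN _ _ (IsUnit.mk0 _ (hv J hJ z θ).1)
      (IsUnit.mk0 _ (hv J hJ z θ).2)).analyticAt
  · obtain ⟨⟨u1, u2⟩, -⟩ := h J (hJ.trans_le (min_le_left _ _))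
    simp only [NW, Nc, remN, remP, val_add, val_mul, val_sub, val_pow, val_ofNat,
      val_inverse u1, val_inverse u2]
    simp [vals, detN]

variable {s : ℕ} {η C : ℝ}

theorem NOK.had (h : NOK s η C) {J J' : J6 (W s)} (hJ : ‖J‖ < η) (hJ' : ‖J'‖ < η) :
    ∃ c : J6 (W s), ‖c‖ ≤ 1 / 200000 ∧ NW s J - NW s J' = dot c (J - J') :=
  h.nat.had h.d1 hJ hJ'

theorem NOK.norm_le (h : NOK s η C) {J : J6 (W s)} (hJ : ‖J‖ < η) : ‖NW s J‖ ≤ ‖J‖ / 32000 := by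
  obtain ⟨c, hc, e⟩ := h.had hJ (J' := 0) (by simpa using h.pos)
  rw [NW_zero, sub_zero, sub_zero] at e
  rw [e]
  refine (norm_dot_le _ _).trans ?_
  nlinarith [norm_nonneg J]

theorem NOK.had2 (h : NOK s η C) {J J' : J6 (W s)} (hJ : ‖J‖ < η) (hJ' : ‖J'‖ < η)
    (K : J6 (W s)) : ∃ c : J6 (W s), ‖c‖ ≤ C * ‖K‖ ∧
      fderiv ℂ (NW s) J K - fderiv ℂ (NW s) J' K = dot c (J - J') := by
  refine (h.nat.deriv K).had (fun J hJ => ?_) hJ hJ'
  have := ((ContinuousLinearMap.apply ℂ (W s) K).hasFDerivAt.comp J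
    (h.nat.an J (mem_ball_zero_iff.2 hJ)).fderiv.differentiableAt.hasFDerivAt).fderiv
  rw [show (fun J => fderiv ℂ (NW s) J K) = ContinuousLinearMap.apply ℂ (W s) K ∘ fderiv ℂ (NW s)
    from rfl, this]
  refine ContinuousLinearMap.opNorm_le_bound _ (mul_nonneg (zero_le_one.trans h.one_le)
    (norm_nonneg _)) fun H => ?_
  have h1 := (fderiv ℂ (fderiv ℂ (NW s)) J).le_opNorm₂ H K
  have h2 := h.d2 J hJ
  calc _ ≤ _ := h1
    _ ≤ C * ‖H‖ * ‖K‖ := by gcongr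
    _ = _ := by ring

end

end Vale.Agent.P218F.EndI
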