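import Vale.Agent.P218F.EndInf4

/-!
Exactly cylindrical ends: the nonlinear problem on the half line, decay, comparison with solutions
on finite intervals.
-/

set_option maxSynthPendingDepth 3

namespace Vale.Agent.P218F.EndI

open Set Filter Topology Metric Wien
open Cone (W A T3 J6 BC jets jets_apply norm_jets_apply_le Clamp)

noncomputable section

variable {s : ℕ} {a b η C : ℝ} {S : Set ℝ} {ω : ℝ → ℝ}

/-! ### Weighted triples -/

/-- `p = ω q` on `S` -/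
def Sc (S : Set ℝ) (ω : ℝ → ℝ) (p q : T3 s) : Prop := ∀ k, ∀ z ∈ S,
  cf p.1 k z = ω z * cf q.1 k z ∧ cf p.2.1 k z = ω z * cf q.2.1 k z ∧
    cf p.2.2 k z = ω z * cf q.2.2 k z

theorem Sc.vals {p q : T3 s} (h : Sc S ω p q) {z : ℝ} (hz : z ∈ S) (θ : ℝ) :
    vals (jets s p) z θ = (ω z : ℂ) • vals (jets s q) z θ := by
  rw [← vals_smul, ← jets_smul]
  simp only [EndI.vals, jets_apply, Prod.mk.injEq]
  refine ⟨?_, ?_, ?_, ?_, ?_, ?_⟩ <;> refine val_congr (fun k => ?_) θ <;>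
    simp [(h k z hz).1, (h k z hz).2.1, (h k z hz).2.2, mul_left_comm, -Complex.coe_smul]

theorem Sc.mono {p q : T3 s} (h : Sc S ω p q) {T : Set ℝ} (hT : T ⊆ S) : Sc T ω p q :=
  fun k z hz => h k z (hT hz)

theorem sc_one (p : T3 s) : Sc S (fun _ => 1) p p := fun k z _ => by simp

theorem sc_cutT {π : C(ℝ, ℝ)} {μ : BC} (hπ : ∀ z ∈ S, π z = z) (hμ : ∀ z ∈ S, μ z = ω z)
    (q : T3 s) : Sc S ω (cutT s π μ q) q := fun k z hz => by
  simp [cutT_apply, hπ z hz, hμ z hz]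

theorem norm_le_of_pt {u v : W s} {M : ℝ} (hM : 0 ≤ M)
    (h : ∀ k z, ∃ y, ‖cf u k z‖ ≤ M * ‖cf v k y‖) : ‖u‖ ≤ M * ‖v‖ :=
  norm_le_of_cf fun k => by
    rw [mul_left_comm]
    refine mul_le_mul_of_nonneg_left ((BoundedContinuousFunction.norm_le (by positivity)).2
      fun z => ?_) (wt_pos s k).le
    obtain ⟨y, hy⟩ := h k z
    exact hy.trans (mul_le_mul_of_nonneg_left ((cf v k).norm_coe_le_norm y) hM)

theorem Sc.norm_cut {p q : T3 s} (h : Sc S ω p q) {π : C(ℝ, ℝ)} (hπ : ∀ z, π z ∈ S) {M : ℝ}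
    (hM : ∀ z, |ω (π z)| ≤ M) : ‖cutT s π 1 p‖ ≤ M * ‖q‖ := by
  have h0 : 0 ≤ M := (abs_nonneg _).trans (hM 0)
  have key : ∀ {t : ℕ} {u v : W t}, (∀ k, ∀ z ∈ S, cf u k z = ω z * cf v k z) → ‖v‖ ≤ ‖q‖ →
      ‖cut t π 1 u‖ ≤ M * ‖q‖ := fun huv hv =>
    (norm_le_of_pt h0 fun k z => ⟨π z, by
      rw [cf_cut, huv k _ (hπ z), BoundedContinuousFunction.coe_one, Pi.one_apply, one_mul,
        norm_mul, Complex.norm_real]
      exact mul_le_mul_of_nonneg_right (hM z) (norm_nonneg _)⟩).trans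
      (mul_le_mul_of_nonneg_left hv h0)
  simp only [cutT_apply, norm_prod_le_iff]
  exact ⟨key (fun k z hz => (h k z hz).1) (norm_fst_le q),
    key (fun k z hz => (h k z hz).2.1) ((norm_fst_le q.2).trans (norm_snd_le q)),
    key (fun k z hz => (h k z hz).2.2) ((norm_snd_le q.2).trans (norm_snd_le q))⟩

theorem Lin.zd {p : T3 s} {f : W s} (h : Lin S p f) (k : ℤ) {z : ℝ} (hz : z ∈ S) :
    z * cf p.2.1 k z = cf ((2 : ℂ) • (sec p - f)) k z := by
  simp only [cf_smul, cf_sub, BoundedContinuousFunction.coe_smul, BoundedContinuousFunction.coe_sub,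
    Pi.sub_apply, smul_eq_mul, cf_sec, h k z hz]
  push_cast; ring

theorem norm_zd_le (p : T3 s) (f : W s) : ‖(2 : ℂ) • (sec p - f)‖ ≤ 6 * ‖p‖ + 2 * ‖f‖ := by
  rw [norm_smul, Complex.norm_two]
  linarith [norm_sub_le (sec p) f, norm_sec_le p]

/-- the size of the boundary data at the right end point -/
def Bd (b : ℝ) (p : T3 s) (B : ℝ) : Prop := ∃ (g₀ g₂ : A s) (g₁ : A (s + 1)),
  (∀ k, ¬ 2 ≤ |k| → cf p.1 k b = cf g₀ k) ∧ (∀ k, cf p.2.1 k b = cf g₁ k) ∧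
    (∀ k, b * cf p.2.1 k b = cf g₂ k) ∧ ‖g₀‖ + ‖g₁‖ + ‖g₂‖ ≤ B

theorem Bd.sub {p q : T3 s} {B B' : ℝ} (h : Bd b p B) (h' : Bd b q B') : Bd b (p - q) (B + B') := by
  obtain ⟨g₀, g₂, g₁, h0, h1, h2, h3⟩ := h
  obtain ⟨f₀, f₂, f₁, e0, e1, e2, e3⟩ := h'
  refine ⟨g₀ - f₀, g₂ - f₂, g₁ - f₁, fun k hk => by simp [h0 k hk, e0 k hk],
    fun k => by simp [h1 k, e1 k], fun k => by simp [← h2 k, ← e2 k, mul_sub], ?_⟩
  linarith [norm_sub_le g₀ f₀, norm_sub_le g₁ f₁, norm_sub_le g₂ f₂]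

theorem Bd.smul {p : T3 s} {B : ℝ} (h : Bd b p B) (m : ℂ) : Bd b (m • p) (‖m‖ * B) := by
  obtain ⟨g₀, g₂, g₁, h0, h1, h2, h3⟩ := h
  refine ⟨m • g₀, m • g₂, m • g₁, fun k hk => by simp [h0 k hk], fun k => by simp [h1 k],
    fun k => by simp [← h2 k, mul_left_comm], ?_⟩
  rw [norm_smul, norm_smul, norm_smul, ← mul_add, ← mul_add]
  gcongr

theorem Sc.bd {p q : T3 s} {f : W s} (h : Sc S ω p q) (hl : Lin S q f) (hb : b ∈ S)
    (h0 : 0 ≤ ω b) : Bd b p (ω b * (8 * ‖q‖ + 2 * ‖f‖)) := by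
  refine ⟨(ω b : ℂ) • incl ℤ ℂ (Nat.le_add_right s 2) (tr ℤ (s + 2) ℂ b q.1),
    (ω b : ℂ) • tr ℤ s ℂ b ((2 : ℂ) • (sec q - f)), (ω b : ℂ) • tr ℤ (s + 1) ℂ b q.2.1,
    fun k _ => by simp [(h k b hb).1, -Complex.coe_smul],
    fun k => by simp [(h k b hb).2.1, -Complex.coe_smul], fun k => ?_, ?_⟩
  · rw [cf_smul, cf_tr, ← hl.zd k hb, (h k b hb).2.1, smul_eq_mul]; ring
  · rw [norm_smul, norm_smul, norm_smul, ← mul_add, ← mul_add, Complex.norm_real,
      Real.norm_of_nonneg h0]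
    refine mul_le_mul_of_nonneg_left ?_ h0
    have h1 := ((norm_incl_apply_le (Nat.le_add_right s 2) _).trans
      (norm_tr_apply_le b q.1)).trans (norm_fst_le q)
    have h2 := (norm_tr_apply_le b q.2.1).trans ((norm_fst_le q.2).trans (norm_snd_le q))
    have h3 := (norm_tr_apply_le b _).trans (norm_zd_le q f)
    linarith

theorem bd_neu {p : T3 s} {m : ℂ} (h0 : cf p.1 0 b = m) (h1 : cf p.1 1 b = 0)
    (h2 : cf p.1 (-1) b = 0) (h : ∀ k, cf p.2.1 k b = 0) : Bd b p ‖m‖ := by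
  refine ⟨single s 0 m, 0, 0, fun k hk => ?_, fun k => by simp [h k], fun k => by simp [h k],
    by simp [norm_single]⟩
  have : k = 0 ∨ k = 1 ∨ k = -1 := by
    rw [not_le, abs_lt] at hk; omega
  rcases this with rfl | rfl | rfl <;> simp [cf_single, *]

theorem exists_bc {π : C(ℝ, ℝ)} (hπ : ∀ z, π z ∈ S) {m : ℝ → ℝ} (hm : ContinuousOn m S) {M : ℝ}
    (hM : ∀ z ∈ S, |m z| ≤ M) : ∃ μ : BC, (∀ z, μ z = m (π z)) ∧ ‖μ‖ ≤ M := by
  have h : ∀ z, ‖((m (π z) : ℝ) : ℂ)‖ ≤ M := fun z => by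
    rw [Complex.norm_real]; exact hM _ (hπ z)
  exact ⟨BoundedContinuousFunction.ofNormedAddCommGroup (fun z => (m (π z) : ℂ))
    (Complex.continuous_ofReal.comp (hm.comp_continuous π.continuous hπ)) M h, fun _ => rfl,
    (BoundedContinuousFunction.norm_le ((norm_nonneg _).trans (h 0))).2 h⟩

theorem clI_mem (a z : ℝ) : clI a z ∈ Ici a := le_max_right z a

theorem apr_sc (h : Adm a ω) (ha : 16 ≤ a) (hab : a ≤ b) {c : J6 (W s)} (hc : ‖c‖ ≤ 1 / 24000)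
    {p : T3 s} {F : W s} {g : A (s + 2)} {B : ℝ} (ht : Tri (Icc a b) (fun _ => 1) p)
    (hl : ∀ z ∈ Icc a b, ∀ θ, lop z (vals (jets s p) z θ) =
      dot (vals c z θ) (vals (jets s p) z θ) + ω z * val F z θ)
    (hg : HiTr a p g) (hB : Bd b p B) :
    ∃ q, Sc (Icc a b) ω p q ∧ ‖q‖ ≤ 4000 * (‖F‖ + ‖g‖ / ω a + B / ω b) := by
  obtain ⟨g₀, g₂, g₁, h0, h1, h2, h3⟩ := hB
  have hω : ContinuousOn ω (Icc a b) := h.continuousOn.mono Icc_subset_Ici_self
  have hne : ∀ z ∈ Icc a b, (ω z : ℂ) ≠ 0 := fun z hz => by exact_mod_cast (h.pos hz.1).ne'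
  obtain ⟨μ, hμ⟩ := exists_bcF hab (hω.inv₀ fun z hz => (h.pos hz.1).ne')
  obtain ⟨ν, hν⟩ := exists_bcF hab hω
  have key := apr_var h ha hab hc (F := cut s (clF a b) ν F) (μ := μ)
    (fun z => by rw [hμ]; simp) ht ((lin_iff _ _).2 fun z hz θ => by
      rw [hl z hz, val_add, val_dot, val_cut, hν, clF_of_mem hz]) hg h0 h1 h2
  have h4 : ‖cut s (clF a b) μ (cut s (clF a b) ν F)‖ ≤ 1 * ‖F‖ :=
    norm_le_of_pt zero_le_one fun k z => ⟨clF a b z, le_of_eq (by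
      have := hne _ (clF_mem hab z)
      rw [cf_cut, cf_cut, hμ, hν, clF_of_mem (clF_mem hab z), one_mul, ← mul_assoc]
      simp [inv_mul_cancel₀ this])⟩
  refine ⟨cutT s (clF a b) μ p, fun k z hz => ?_, key.trans ?_⟩
  · have := hne z hz
    simp [cutT_apply, hμ, clF_of_mem hz, mul_inv_cancel_left₀ this]
  · have := div_le_div_of_nonneg_right h3 (h.pos hab).le
    linarith

theorem rpow_anti (ha : 0 < a) {q z : ℝ} (hq : q ≤ 0) (hz : a ≤ z) : |z ^ q| ≤ a ^ q := by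
  rw [abs_of_pos (Real.rpow_pos_of_pos (ha.trans_le hz) q)]
  exact Real.rpow_le_rpow_of_nonpos ha hz hq

theorem Rel.decay (ha : 16 ≤ a) {c : J6 (W s)} (hc : ‖c‖ ≤ 1 / 24000) {q : ℝ}
    (h1 : -(19 / 10) ≤ q) (h2 : q ≤ 0) {g : A (s + 2)} {p : T3 s}
    (hp : Rel a (fun _ => 1) g (dot c (jets s p) + 0) p) :
    ∃ p', Sc (Ici a) (fun z => z ^ q) p p' ∧ Lin (Ici a) p' (dot c (jets s p')) ∧
      ‖p'‖ ≤ 4000 * (‖g‖ / a ^ q) := by
  have ha0 : 0 < a := by linarith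
  have hA := admI_rpow ha h1 (h2.trans (by norm_num))
  have hq : 0 < a ^ q := Real.rpow_pos_of_pos ha0 q
  have hq' : ((a ^ q : ℝ) : ℂ) ≠ 0 := by exact_mod_cast hq.ne'
  obtain ⟨p', h⟩ := exists_rel_var hA ha hc (((a ^ q : ℝ) : ℂ)⁻¹ • g) 0
  obtain ⟨μ, hμ, -⟩ := exists_bc (clI_mem a) (contOn_rpow ha0 q) fun z hz => rpow_anti ha0 h2 hz
  have hμ' : ∀ z ∈ Ici a, μ z = (z ^ q : ℝ) := fun z hz => by rw [hμ, clI_of_mem hz]
  have hs : Sc (Ici a) (fun z => z ^ q) (cutT s (clI a) μ p') p' :=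
    sc_cutT (fun z => clI_of_mem) hμ' p'
  have hcl : ∀ {t : ℕ} (u : W t), Clamp a (cut t (clI a) μ u) := fun u k z => by
    rw [cf_cut, cf_cut, hμ, hμ, clI_of_mem (le_max_right z a)]; rfl
  have h3 : Rel a (fun _ => 1) g (dot c (jets s (cutT s (clI a) μ p')) + 0)
      (cutT s (clI a) μ p') := ⟨hcl _, hcl _, hcl _,
    h.tri.cut (fun z => clI_of_mem) fun z hz => by rw [hμ' z hz]; simp,
    (h.lin.cut μ fun z => clI_of_mem).congr fun z hz θ => by
      simp [hs.vals hz, dot_smul, hμ' z hz, clI_of_mem hz, -Complex.coe_smul],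
    fun k hk => by rw [(hs k a (mem_Ici.2 le_rfl)).1, h.hi k hk]; simp [hq']⟩
  have h4 := hp.sub h3
  rw [add_sub_add_comm, ← dot_sub, ← jets_sub] at h4
  have h5 := h4.le_var (admI_one ha) ha hc
  rw [sub_self, sub_self, norm_zero, norm_zero] at h5
  obtain rfl : p = cutT s (clI a) μ p' := sub_eq_zero.1 (norm_le_zero_iff.1 (by linarith))
  refine ⟨p', hs, by simpa using h.lin, (h.le_var hA ha hc).trans (le_of_eq ?_)⟩
  rw [norm_zero, zero_add, norm_smul, norm_inv, Complex.norm_real, Real.norm_of_nonneg hq.le,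
    div_eq_inv_mul]

/-! ### Reality -/

theorem vals_star (p : T3 s) (z θ : ℝ) :
    vals (jets s (star p)) z θ = star (vals (jets s p) z θ) := by
  simp only [vals, jets_apply, Prod.star_def, ← val_star, star_incl, star_dth]

theorem norm_star_T3 (p : T3 s) : ‖star p‖ = ‖p‖ := by simp [Prod.norm_def]

theorem Rel.star {g : A (s + 2)} {f : W s} {p : T3 s} (h : Rel a ω g f p) :
    Rel a ω (star g) (star f) (star p) where
  c0 := h.c0.star
  c1 := h.c1.star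
  c2 := h.c2.star
  tri := ⟨fun k z hz => by simpa using (h.tri.d0 (-k) z hz).star,
    fun k z hz => by simpa using (h.tri.d1 (-k) z hz).star⟩
  lin k z hz := by simpa [al] using congrArg Star.star (h.lin (-k) z hz)
  hi k hk := by simpa using congrArg Star.star (h.hi (-k) (by rwa [abs_neg]))

theorem star_fderiv_Nc {j : J6 ℂ} (h : DifferentiableAt ℂ Nc j) (h' : DifferentiableAt ℂ Nc (star j))
    (K : J6 ℂ) : fderiv ℂ Nc (star j) (star K) = star (fderiv ℂ Nc j K) := by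
  have key : ∀ {j : J6 ℂ}, DifferentiableAt ℂ Nc j → ∀ K : J6 ℂ,
      HasDerivAt (fun t : ℝ => Nc (j + t • K)) (fderiv ℂ Nc j K) 0 := fun {j} h K =>
    (h.hasFDerivAt.restrictScalars ℝ).comp_hasDerivAt_of_eq (0 : ℝ)
      ((((hasDerivAt_id (0 : ℝ)).smul_const K).const_add j).congr_deriv (one_smul _ _)) (by simp)
  refine (key h' (star K)).unique ((key h K).star.congr_of_eventuallyEq
    (Eventually.of_forall fun t => ?_))
  simp only [← star_Nc, star_add, star_smul, star_trivial]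

/-! ### The nonlinear problem -/

theorem jets_lt {p : T3 s} (h : ‖p‖ < η) : ‖jets s p‖ < η := (norm_jets_apply_le p).trans_lt h

theorem NOK.coef (hN : NOK s η C) {J : J6 (W s)} (hJ : ‖J‖ < η) : ∃ c : J6 (W s),
    ‖c‖ ≤ 1 / 24000 ∧ ∀ z θ H, dot (vals c z θ) H = fderiv ℂ Nc (vals J z θ) H := by
  refine ⟨grad (fderiv ℂ (NW s) J), (norm_grad_le _).trans ((hN.d1 J hJ).trans (by norm_num)),
    fun z θ H => ?_⟩
  let K : J6 (W s) := (H.1 • 1, H.2.1 • 1, H.2.2.1 • 1, H.2.2.2.1 • 1, H.2.2.2.2.1 • 1,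
    H.2.2.2.2.2 • 1)
  have e : vals K z θ = H := by simp [K, vals]
  rw [← e, ← val_dot, ← hN.nat.fderiv_eq hJ, hN.nat.val_fderiv hJ]

/-- small solutions on the half line -/
structure Sol (η a : ℝ) (g : A (s + 2)) (p : T3 s) : Prop where
  rel : Rel a (fun _ => 1) g (NW s (jets s p)) p
  small : ‖p‖ < η

/-- small solutions on a finite interval -/
structure SolF (η a b : ℝ) (g : A (s + 2)) (p : T3 s) : Prop where
  tri : Tri (Icc a b) (fun _ => 1) p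
  lin : Lin (Icc a b) p (NW s (jets s p))
  hi : HiTr a p g
  small : ‖p‖ < η

variable {g g' : A (s + 2)} {p p' : T3 s}

theorem Sol.fin (h : Sol η a g p) (b : ℝ) : SolF η a b g p :=
  ⟨h.rel.tri.mono Icc_subset_Ici_self, h.rel.lin.mono Icc_subset_Ici_self, h.rel.hi, h.small⟩

theorem sol_zero (hN : NOK s η C) (ha : 16 ≤ a) : Sol η a (0 : A (s + 2)) 0 := by
  obtain ⟨p, hp⟩ := exists_rel (admI_one ha) ha (0 : A (s + 2)) 0
  refine ⟨?_, by simpa using hN.pos⟩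
  rw [jets_zero, NW_zero]
  simpa using hp.smul 0

theorem Sol.sub (hN : NOK s η C) (h : Sol η a g p) (h' : Sol η a g' p') :
    ∃ c : J6 (W s), ‖c‖ ≤ 1 / 24000 ∧
      Rel a (fun _ => 1) (g - g') (dot c (jets s (p - p')) + 0) (p - p') := by
  obtain ⟨c, hc, e⟩ := hN.had (jets_lt h.small) (jets_lt h'.small)
  refine ⟨c, hc.trans (by norm_num), ?_⟩
  rw [add_zero, jets_sub, ← e]
  exact h.rel.sub h'.rel

theorem Sol.lip (hN : NOK s η C) (ha : 16 ≤ a) (h : Sol η a g p) (h' : Sol η a g' p') :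
    ‖p - p'‖ ≤ 4000 * ‖g - g'‖ := by
  obtain ⟨c, hc, e⟩ := h.sub hN h'
  simpa using e.le_var (admI_one ha) ha hc

theorem Sol.norm_le (hN : NOK s η C) (ha : 16 ≤ a) (h : Sol η a g p) : ‖p‖ ≤ 4000 * ‖g‖ := by
  simpa using h.lip hN ha (sol_zero hN ha)

theorem Sol.unique (hN : NOK s η C) (ha : 16 ≤ a) (h : Sol η a g p) (h' : Sol η a g p') :
    p = p' := by
  have := h.lip hN ha h'
  rw [sub_self, norm_zero, mul_zero] at this
  exact sub_eq_zero.1 (norm_le_zero_iff.1 this)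

theorem Sol.star (hN : NOK s η C) (h : Sol η a g p) : Sol η a (star g) (star p) := by
  have hs : ‖Star.star p‖ < η := by rw [norm_star_T3]; exact h.small
  refine ⟨h.rel.star.congr (fun _ _ => rfl) fun z _ θ => ?_, hs⟩
  rw [val_star, hN.nat.val _ (jets_lt h.small), hN.nat.val _ (jets_lt hs), vals_star, star_Nc]

theorem Sol.decay (hN : NOK s η C) (ha : 16 ≤ a) (h : Sol η a g p) :
    ∃ (p' : T3 s) (f : W s), Sc (Ici a) (fun z => z ^ (-(3 / 2) : ℝ)) p p' ∧ Lin (Ici a) p' f ∧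
      ‖f‖ ≤ ‖p'‖ ∧ ‖p'‖ ≤ 4000 * (‖g‖ / a ^ (-(3 / 2) : ℝ)) := by
  obtain ⟨c, hc, e⟩ := h.sub hN (sol_zero hN ha)
  rw [sub_zero, sub_zero] at e
  obtain ⟨p', h1, h2, h3⟩ := e.decay ha hc (q := -(3 / 2)) (by norm_num) (by norm_num)
  exact ⟨p', _, h1, h2, (norm_dot_jets_le hc p').trans (by linarith [norm_nonneg p']), h3⟩

theorem exists_E (hN : NOK s η C) (ha : 16 ≤ a) :
    ∃ E : A (s + 2) → T3 s, DifferentiableOn ℂ E (ball 0 (η / 32000)) ∧
      ∀ h ∈ ball (0 : A (s + 2)) (η / 32000), Sol η a h (E h) ∧ ∀ v, Rel a (fun _ => 1) v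
        (fderiv ℂ (NW s) (jets s (E h)) (jets s (fderiv ℂ E h v))) (fderiv ℂ E h v) := by
  obtain ⟨T, hT⟩ := exists_sol (admI_one ha) ha s
  have hη := hN.pos
  have hD : ∀ p : T3 s, ‖p‖ < η → DifferentiableAt ℂ (NW s) (jets s p) := fun p hp =>
    (hN.nat.an _ (mem_ball_zero_iff.2 (jets_lt hp))).differentiableAt
  obtain ⟨E, hE, h⟩ := Core.exists_fix_param
    (R := fun x : T3 s × A (s + 2) => T (x.2, NW s (jets s x.1))) (r := η / 2) (by positivity)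
    (U := ball 0 (η / 32000)) isOpen_ball (fun x hx => by
      have h1 : ‖x.1‖ < η := by simpa [mul_div_cancel₀] using hx.1
      exact (T.differentiableAt.comp x (differentiableAt_snd.prodMk ((hD _ h1).comp x
        ((jets s).differentiableAt.comp x differentiableAt_fst)))).differentiableWithinAt)
    (fun p hp h hh => by
      have h1 : ‖p‖ < η := by simpa [mul_div_cancel₀] using hp
      have h2 := mem_ball_zero_iff.1 hh
      have h3 := hN.norm_le (jets_lt h1)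
      have h4 := jets_lt h1
      exact ((hT _ _).le (admI_one ha) ha).trans (by linarith))
  have hs : ∀ x ∈ ball (0 : A (s + 2)) (η / 32000), ‖E x‖ < η := fun x hx =>
    (h x hx).1.trans_lt (by linarith)
  refine ⟨E, hE, fun x hx => ⟨⟨?_, hs x hx⟩, fun v => ?_⟩⟩
  · have := hT x (NW s (jets s (E x)))
    rwa [show T (x, NW s (jets s (E x))) = E x from (h x hx).2.1] at this
  · have h1 := (hE.differentiableAt (isOpen_ball.mem_nhds hx)).hasFDerivAt
    have h2 := T.hasFDerivAt.comp x ((hasFDerivAt_id x).prodMk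
      ((hD _ (hs x hx)).hasFDerivAt.comp x ((jets s).hasFDerivAt.comp x h1)))
    have h3 := h1.unique (h2.congr_of_eventuallyEq (by
      filter_upwards [isOpen_ball.mem_nhds hx] with y hy
      exact (h y hy).2.1.symm))
    have h4 : fderiv ℂ E x v = T (v, fderiv ℂ (NW s) (jets s (E x)) (jets s (fderiv ℂ E x v))) :=
      congrArg (fun L : A (s + 2) →L[ℂ] T3 s => L v) h3
    have := hT v (fderiv ℂ (NW s) (jets s (E x)) (jets s (fderiv ℂ E x v)))
    rwa [← h4] at this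

theorem SolF.cmp (hN : NOK s η C) (ha : 16 ≤ a) (hab : a ≤ b) (hω : Adm a ω) (h : SolF η a b g p)
    (h' : SolF η a b g' p') {B : ℝ} (hB : Bd b (p - p') B) :
    ∃ d, Sc (Icc a b) ω (p - p') d ∧ ‖d‖ ≤ 4000 * (‖g - g'‖ / ω a + B / ω b) := by
  obtain ⟨c, hc, e⟩ := hN.had (jets_lt h.small) (jets_lt h'.small)
  have hl := (lin_iff _ _).1 (h.lin.sub h'.lin)
  obtain ⟨d, h1, h2⟩ := apr_sc hω ha hab (hc.trans (by norm_num)) (F := 0) (h.tri.sub h'.tri)
    (fun z hz θ => by rw [hl z hz, e, ← jets_sub]; simp) (g := g - g')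
    (fun k hk => by simp [h.hi k hk, h'.hi k hk]) hB
  exact ⟨d, h1, by simpa using h2⟩

theorem SolF.bd (hN : NOK s η C) (hab : a ≤ b) (h : SolF η a b g p) : Bd b p (9 * η) := by
  obtain ⟨g₀, g₂, g₁, h0, h1, h2, h3⟩ := (sc_one p).bd h.lin ⟨hab, le_rfl⟩ zero_le_one
  have h4 := hN.norm_le (jets_lt h.small)
  exact ⟨g₀, g₂, g₁, h0, h1, h2, by linarith [jets_lt h.small, h.small, hN.pos]⟩

/-- two small solutions with the same data are close far from the right end point -/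
theorem SolF.close (hN : NOK s η C) (ha : 16 ≤ a) (h : SolF η a b g p) (h' : SolF η a b g p')
    {Z : ℝ} (hZ : Z ∈ Icc a b) :
    ‖cutT s (clF a Z) 1 (p - p')‖ ≤ 72000 * η * (Z / b) ^ (3 / 4 : ℝ) := by
  have hab := hZ.1.trans hZ.2
  obtain ⟨d, h1, h2⟩ := h.cmp hN ha hab (adm_rpow (q := 3 / 4) ha (by norm_num) le_rfl) h'
    ((h.bd hN hab).sub (h'.bd hN hab))
  rw [sub_self, norm_zero, zero_div, zero_add] at h2
  have hZ0 : 0 ≤ Z := by linarith [hZ.1]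
  refine ((h1.mono (Icc_subset_Icc_right hZ.2)).norm_cut (clF_mem hZ.1) (M := Z ^ (3 / 4 : ℝ))
    fun z => ?_).trans ?_
  · have hz := clF_mem hZ.1 z
    have h0 : 0 ≤ clF a Z z := by linarith [hz.1]
    rw [abs_of_nonneg (Real.rpow_nonneg h0 _)]
    exact Real.rpow_le_rpow h0 hz.2 (by norm_num)
  · rw [Real.div_rpow hZ0 (by linarith)]
    calc _ ≤ Z ^ (3 / 4 : ℝ) * (4000 * ((9 * η + 9 * η) / b ^ (3 / 4 : ℝ))) := by gcongr
      _ = _ := by ring

end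

end Vale.Agent.P218F.EndI
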