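import Vale.Agent.P218F.EndInf5

/-!
Exactly cylindrical ends: the Jacobi field `z² - 2 + √z w` and the comparison of solutions of the
linearised problem on finite intervals with it.
-/

set_option maxSynthPendingDepth 3

namespace Vale.Agent.P218F.EndI

open Set Filter Topology Metric Wien
open Cone (W A T3 J6 BC jets jets_apply norm_jets_apply_le Clamp)

noncomputable section

variable {s : ℕ} {a b η C : ℝ} {S : Set ℝ}

/-- jets of a function of `z` -/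
def j3 (x y w : ℝ) : J6 ℂ := (x, y, 0, w, 0, 0)

theorem lop_j3 (z x y w : ℝ) : lop z (j3 x y w) = (w - z / 2 * y + x : ℝ) := by simp [lop, j3]

theorem j3_smul (m x y w : ℝ) : j3 (m * x) (m * y) (m * w) = (m : ℂ) • j3 x y w := by
  simp [j3, -Complex.coe_smul]

theorem star_j3 (x y w : ℝ) : star (j3 x y w) = j3 x y w := by
  simp [j3, Prod.star_def]

theorem j3_sub (x y w x' y' w' : ℝ) :
    j3 (x - x') (y - y') (w - w') = j3 x y w - j3 x' y' w' := by simp [j3]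

theorem exists_sym {π : C(ℝ, ℝ)} (hπ : ∀ z, π z ∈ S) (hπ' : ∀ z ∈ S, π z = z) {f₀ f₁ f₂ : ℝ → ℝ}
    (h0 : ContinuousOn f₀ S) (h1 : ContinuousOn f₁ S) (h2 : ContinuousOn f₂ S) {M : ℝ}
    (hM : ∀ z ∈ S, |f₀ z| ≤ M ∧ |f₁ z| ≤ M ∧ |f₂ z| ≤ M) :
    ∃ P : T3 s, ‖P‖ ≤ M ∧ cutT s π 1 P = P ∧
      (∀ z ∈ S, ∀ θ, vals (jets s P) z θ = j3 (f₀ z) (f₁ z) (f₂ z)) ∧
      (∀ z ∈ S, ∀ k, cf P.1 k z = (if k = 0 then (f₀ z : ℂ) else 0) ∧
        cf P.2.1 k z = if k = 0 then (f₁ z : ℂ) else 0) ∧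
      ((∀ z ∈ S, HasDerivAt f₀ (f₁ z) z) → (∀ z ∈ S, HasDerivAt f₁ (f₂ z) z) →
        Tri S (fun _ => 1) P) := by
  obtain ⟨u₀, e0, n0⟩ := exists_bc hπ h0 fun z hz => (hM z hz).1
  obtain ⟨u₁, e1, n1⟩ := exists_bc hπ h1 fun z hz => (hM z hz).2.1
  obtain ⟨u₂, e2, n2⟩ := exists_bc hπ h2 fun z hz => (hM z hz).2.2
  have hd : ∀ (t : ℕ) (u : BC), dth t BC (single (t + 1) 0 u) = 0 := fun t u => by
    ext k z
    by_cases hk : k = 0 <;> simp [cf_single, hk]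
  have hc : ∀ (t : ℕ) {u : BC} {f : ℝ → ℝ}, (∀ z, u z = f (π z)) →
      cut t π 1 (single t 0 u) = single t 0 u := fun t u f hu => by
    ext k z
    by_cases hk : k = 0 <;> simp [cf_single, hk, hu, hπ' _ (hπ z)]
  have key : ∀ {u v : BC} {f f' : ℝ → ℝ}, (∀ z, u z = f (π z)) → (∀ z, v z = f' (π z)) →
      (∀ z ∈ S, HasDerivAt f (f' z) z) → ∀ z ∈ S, HasDerivWithinAt u (v z) S z :=
    fun hu hv h z hz => by
      rw [hv, hπ' z hz]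
      exact (h z hz).ofReal_comp.hasDerivWithinAt.congr (fun y hy => by rw [hu, hπ' y hy])
        (by rw [hu, hπ' z hz])
  refine ⟨(single _ 0 u₀, single _ 0 u₁, single _ 0 u₂), ?_, ?_, fun z hz θ => ?_,
    fun z hz k => ?_, fun d0 d1 => tri_one_iff.2
      ⟨zder_single (key e0 e1 d0) 0, zder_single (key e1 e2 d1) 0⟩⟩
  · simp only [norm_prod_le_iff, norm_single, wt_zero, one_mul]
    exact ⟨n0, n1, n2⟩
  · rw [cutT_apply, hc _ e0, hc _ e1, hc _ e2]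
  · simp [vals, jets_apply, j3, hd, e0, e1, e2, hπ' z hz]
  · by_cases hk : k = 0 <;> simp [cf_single, hk, e0, e1, hπ' z hz]

theorem rp_mul {z : ℝ} (hz : 0 < z) {p q r : ℝ} (h : p + q = r) :
    ((z ^ p : ℝ) : ℂ) * (z ^ q : ℝ) = (z ^ r : ℝ) := by
  rw [← h, Real.rpow_add hz, Complex.ofReal_mul]

theorem rp_ne {z : ℝ} (hz : 0 < z) (p : ℝ) : ((z ^ p : ℝ) : ℂ) ≠ 0 := by
  exact_mod_cast (Real.rpow_pos_of_pos hz p).ne'

theorem rp_neg_two {z : ℝ} (hz : 0 < z) : z ^ (-2 : ℝ) = (z ^ 2)⁻¹ := by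
  rw [Real.rpow_neg hz.le, Real.rpow_two]

theorem abs_inv_sq_mul_le {z x M : ℝ} (hz : 0 < z) (h : |x| ≤ M * z ^ 2) :
    |z ^ (-2 : ℝ) * x| ≤ M := by
  rw [rp_neg_two hz, abs_mul, abs_of_pos (by positivity), inv_mul_le_iff₀ (by positivity)]
  linarith

theorem NOK.val_had2 (hN : NOK s η C) {J J' : J6 (W s)} (hJ : ‖J‖ < η) (hJ' : ‖J'‖ < η)
    (K : J6 (W s)) : ∃ c : J6 (W s), ‖c‖ ≤ C * ‖K‖ ∧ ∀ z θ,
      fderiv ℂ Nc (vals J z θ) (vals K z θ) - fderiv ℂ Nc (vals J' z θ) (vals K z θ) =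
        dot (vals c z θ) (vals (J - J') z θ) := by
  obtain ⟨c, hc, e⟩ := hN.had2 hJ hJ' K
  exact ⟨c, hc, fun z θ => by
    rw [← val_dot, ← e, val_sub, hN.nat.val_fderiv hJ, hN.nat.val_fderiv hJ']⟩

theorem NOK.val_had0 (hN : NOK s η C) {J : J6 (W s)} (hJ : ‖J‖ < η) (K : J6 (W s)) :
    ∃ c : J6 (W s), ‖c‖ ≤ C * ‖K‖ ∧ ∀ z θ,
      fderiv ℂ Nc (vals J z θ) (vals K z θ) = dot (vals c z θ) (vals J z θ) := by
  obtain ⟨c, hc, e⟩ := hN.had2 hJ (J' := 0) (by simpa using hN.pos) K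
  exact ⟨c, hc, fun z θ => by
    rw [fderiv_NW_zero, zero_apply, sub_zero, sub_zero] at e
    rw [← val_dot, ← e, hN.nat.val_fderiv hJ]⟩

theorem norm_dot_jets {c : J6 (W s)} {L : ℝ} (hc : ‖c‖ ≤ L) (p : T3 s) :
    ‖dot c (jets s p)‖ ≤ 6 * L * ‖p‖ := by
  have := norm_jets_apply_le p
  have h0 := (norm_nonneg c).trans hc
  exact (norm_dot_le _ _).trans (by gcongr)

/-- `z² - 2 + √z w` solves the linearised equation at `p` -/
structure JacW (a : ℝ) (p w : T3 s) (f : W s) : Prop where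
  rel : Rel a (fun z => z ^ (1 / 2 : ℝ)) 0 f w
  eq : ∀ z, a ≤ z → ∀ θ, (z ^ (1 / 2 : ℝ) : ℝ) * val f z θ = fderiv ℂ Nc (vals (jets s p) z θ)
    (j3 (z ^ 2 - 2) (2 * z) 2 + ((z ^ (1 / 2 : ℝ) : ℝ) : ℂ) • vals (jets s w) z θ)

variable {g g₀ : A (s + 2)} {p q u w w' : T3 s} {f f' : W s}

theorem Sol.exists_W (hN : NOK s η C) (ha : 16 ≤ a) (h : Sol η a g p) :
    ∃ (w : T3 s) (f : W s), JacW a p w f ∧ ‖w‖ ≤ 10 ^ 8 * C * (‖g‖ / a ^ (-(3 / 2) : ℝ)) := by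
  have ha0 : 0 < a := by linarith
  have hC := hN.one_le
  obtain ⟨p', -, h1, -, -, h2⟩ := h.decay hN ha
  obtain ⟨P, n, -, hP, -⟩ := exists_sym (s := s) (clI_mem a) (fun z => clI_of_mem)
    (f₀ := fun z => z ^ (-2 : ℝ) * (z ^ 2 - 2)) (f₁ := fun z => z ^ (-2 : ℝ) * (2 * z))
    (f₂ := fun z => z ^ (-2 : ℝ) * 2) ((contOn_rpow ha0 _).mul (by fun_prop))
    ((contOn_rpow ha0 _).mul (by fun_prop)) ((contOn_rpow ha0 _).mul (by fun_prop)) (M := 1)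
    fun z hz => by
      have : 16 ≤ z := ha.trans hz
      refine ⟨?_, ?_, ?_⟩ <;> refine abs_inv_sq_mul_le (by linarith) (abs_le.2 ⟨?_, ?_⟩) <;>
        nlinarith
  obtain ⟨c, hc, ec⟩ := hN.coef (jets_lt h.small)
  obtain ⟨c', hc', ec'⟩ := hN.val_had0 (jets_lt h.small) (jets s P)
  have hA := admI_rpow (q := 1 / 2) ha (by norm_num) le_rfl
  obtain ⟨w, hw⟩ := exists_rel_var hA ha hc 0 (dot c' (jets s p'))
  refine ⟨w, _, ⟨hw, fun z hz θ => ?_⟩, (hw.le_var hA ha hc).trans ?_⟩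
  · have hz0 : 0 < z := by linarith
    have e := (ec' z θ).trans (by rw [h1.vals hz, dot_smul])
    rw [hP z hz, j3_smul, map_smul, smul_eq_mul,
      ← rp_mul hz0 (show (-2 : ℝ) + 1 / 2 = -(3 / 2) by norm_num), mul_assoc] at e
    rw [map_add, map_smul, mul_left_cancel₀ (rp_ne hz0 _) e, ← ec, val_add, val_dot, val_dot,
      smul_eq_mul]
    ring
  · have h3 := norm_dot_jets (hc'.trans (mul_le_of_le_one_right (by linarith)
      ((norm_jets_apply_le P).trans n))) p'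
    have h4 := mul_le_mul_of_nonneg_left h2 (show 0 ≤ C by linarith)
    have h5 : 0 ≤ C * (‖g‖ / a ^ (-(3 / 2) : ℝ)) := by positivity
    rw [norm_zero]
    linarith

theorem JacW.unique (hN : NOK s η C) (ha : 16 ≤ a) (hp : ‖p‖ < η) (h : JacW a p w f)
    (h' : JacW a p w' f') : w = w' := by
  obtain ⟨c, hc, ec⟩ := hN.coef (jets_lt hp)
  have h1 : Rel a (fun z => z ^ (1 / 2 : ℝ)) 0 (dot c (jets s (w - w')) + 0) (w - w') :=
    (h.rel.sub h'.rel).congr (fun _ _ => by simp) fun z hz θ => by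
      refine mul_left_cancel₀ (rp_ne (z := z) (by linarith) (1 / 2)) ?_
      rw [val_sub, mul_sub, h.eq z hz, h'.eq z hz, ← map_sub, add_sub_add_left_eq_sub, ← smul_sub,
        map_smul, add_zero, val_dot, ec, jets_sub, vals_sub, smul_eq_mul]
  have h2 := h1.le_var (admI_rpow ha (by norm_num) le_rfl) ha hc
  rw [norm_zero, norm_zero] at h2
  exact sub_eq_zero.1 (norm_le_zero_iff.1 (by linarith))

theorem JacW.real (hN : NOK s η C) (ha : 16 ≤ a) (hp : ‖p‖ < η) (hs : star p = p)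
    (h : JacW a p w f) : star w = w := by
  refine JacW.unique hN ha hp (f := star f) ⟨by simpa using h.rel.star, fun z hz θ => ?_⟩ h
  have hd := (hN.nat.anc _ (jets_lt hp) z θ).differentiableAt
  have e : star (vals (jets s p) z θ) = vals (jets s p) z θ := by rw [← vals_star, hs]
  have := congrArg star (h.eq z hz θ)
  rw [← star_fderiv_Nc hd (e.symm ▸ hd), e, star_add, star_smul, ← vals_star, star_mul',
    ← val_star] at this
  simpa [star_j3, -Complex.coe_smul] using this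

theorem exp_layer {z R : ℝ} (hz : 16 ≤ z) (h : z ≤ R) :
    0 < Real.exp ((z ^ 2 - R ^ 2) / 4) ∧ Real.exp ((z ^ 2 - R ^ 2) / 4) ≤ 1 ∧
      z ^ (-(1 / 4) : ℝ) * Real.exp ((z ^ 2 - R ^ 2) / 4) ≤ R ^ (-(1 / 4) : ℝ) := by
  have hz0 : 0 < z := by linarith
  have hR : 0 < R := by linarith
  have h1 : Real.exp ((z ^ 2 - R ^ 2) / 4) ≤ z / R := by
    have h2 := Real.add_one_le_exp ((R ^ 2 - z ^ 2) / 4)
    have h3 : R ≤ z * ((R ^ 2 - z ^ 2) / 4 + 1) := by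
      nlinarith [mul_nonneg (sub_nonneg.2 h) (show 0 ≤ z * (R + z) - 4 by nlinarith)]
    rw [show (z ^ 2 - R ^ 2) / 4 = -((R ^ 2 - z ^ 2) / 4) by ring, Real.exp_neg,
      inv_eq_one_div, div_le_div_iff₀ (Real.exp_pos _) hR]
    nlinarith
  refine ⟨Real.exp_pos _, h1.trans ((div_le_one hR).2 h), ?_⟩
  calc _ ≤ z ^ (-(1 / 4) : ℝ) * (z / R) := by gcongr
    _ = z ^ (3 / 4 : ℝ) / R := by
      rw [← rpow_pred hz0 (3 / 4), show (3 / 4 - 1 : ℝ) = -(1 / 4) by norm_num]; ring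
    _ ≤ R ^ (3 / 4 : ℝ) / R := by gcongr
    _ = _ := by
      rw [← rpow_pred hR (3 / 4), show (3 / 4 - 1 : ℝ) = -(1 / 4) by norm_num]; field_simp

theorem val_fst (p : T3 s) (z θ : ℝ) : (vals (jets s p) z θ).1 = val p.1 z θ := by
  simp [vals, jets_apply]

/-- the boundary layer `4 exp ((z² - R²) / 4)` -/
theorem exists_layer (s : ℕ) (ha : 16 ≤ a) {R : ℝ} (hR : a ≤ R) :
    ∃ (e : ℝ → ℝ) (Φ P₁ P₄ : T3 s) (μ : BC), e R = 1 ∧
      (∀ z ∈ Icc a R, 0 < e z ∧ e z ≤ z * R ^ (-(1 / 4) : ℝ)) ∧ Tri (Icc a R) (fun _ => 1) Φ ∧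
      (∀ z ∈ Icc a R, ∀ θ, vals (jets s Φ) z θ =
        j3 (z ^ 2 - 2 - 4 * e z) (2 * z - 2 * z * e z) (2 - (2 + z ^ 2) * e z)) ∧
      (∀ z ∈ Icc a R, ∀ k, cf Φ.1 k z = (if k = 0 then ((z ^ 2 - 2 - 4 * e z : ℝ) : ℂ) else 0) ∧
        cf Φ.2.1 k z = if k = 0 then ((2 * z - 2 * z * e z : ℝ) : ℂ) else 0) ∧ ‖P₁‖ ≤ 2 ∧
      (∀ z ∈ Icc a R, ∀ θ, vals (jets s P₁) z θ = j3 (z ^ (-2 : ℝ) * (z ^ 2 - 2 - 4 * e z))
        (z ^ (-2 : ℝ) * (2 * z - 2 * z * e z)) (z ^ (-2 : ℝ) * (2 - (2 + z ^ 2) * e z))) ∧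
      ‖P₄‖ ≤ 2 * R ^ (-(1 / 4) : ℝ) ∧
      (∀ z ∈ Icc a R, ∀ θ, vals (jets s P₄) z θ = j3 (z ^ (-(9 / 4) : ℝ) * (4 * e z))
        (z ^ (-(9 / 4) : ℝ) * (2 * z * e z)) (z ^ (-(9 / 4) : ℝ) * ((2 + z ^ 2) * e z))) ∧
      ‖μ‖ ≤ 6 * R ^ (-(1 / 4) : ℝ) ∧
      ∀ z ∈ Icc a R, μ z = (z ^ (-(3 / 4) : ℝ) * (6 * e z) : ℝ) := by
  have ha0 : 0 < a := by linarith
  set ρ := R ^ (-(1 / 4) : ℝ) with hρ
  have hz0 : ∀ z ∈ Icc a R, 0 < z := fun z hz => ha0.trans_le hz.1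
  have cr : ∀ t : ℝ, ContinuousOn (fun z : ℝ => z ^ t) (Icc a R) := fun t =>
    (contOn_rpow ha0 t).mono Icc_subset_Ici_self
  have hcl : ∀ z ∈ Icc a R, clF a R z = z := fun z => clF_of_mem
  set e : ℝ → ℝ := fun z => Real.exp ((z ^ 2 - R ^ 2) / 4) with hE
  have ce : Continuous e := by fun_prop
  have de : ∀ z, HasDerivAt e (z / 2 * e z) z := fun z =>
    ((((hasDerivAt_pow 2 z).sub_const (R ^ 2)).div_const 4).exp).congr_deriv (by simp [hE]; ring)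
  have be := fun z (hz : z ∈ Icc a R) => exp_layer (ha.trans hz.1) hz.2
  have b2 : ∀ z ∈ Icc a R, |z ^ 2 - 2 - 4 * e z| ≤ 2 * z ^ 2 ∧ |2 * z - 2 * z * e z| ≤ 2 * z ^ 2 ∧
      |2 - (2 + z ^ 2) * e z| ≤ 2 * z ^ 2 := fun z hz => by
    obtain ⟨h1, h2, -⟩ := be z hz
    have : 16 ≤ z := ha.trans hz.1
    refine ⟨?_, ?_, ?_⟩ <;> refine abs_le.2 ⟨?_, ?_⟩ <;> nlinarith [mul_pos (hz0 z hz) h1]
  obtain ⟨Φ, -, -, vΦ, cΦ, tΦ⟩ := exists_sym (s := s) (clF_mem hR) hcl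
    (f₀ := fun z => z ^ 2 - 2 - 4 * e z) (f₁ := fun z => 2 * z - 2 * z * e z)
    (f₂ := fun z => 2 - (2 + z ^ 2) * e z) (by fun_prop) (by fun_prop) (by fun_prop)
    (M := 2 * R ^ 2) fun z hz => by
      have h1 : z ^ 2 ≤ R ^ 2 := by gcongr; exacts [(hz0 z hz).le, hz.2]
      obtain ⟨h2, h3, h4⟩ := b2 z hz
      exact ⟨by linarith, by linarith, by linarith⟩
  replace tΦ := tΦ (fun z _ => (((hasDerivAt_pow 2 z).sub_const 2).fun_sub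
      ((de z).const_mul 4)).congr_deriv (by simp; ring))
    fun z _ => (((hasDerivAt_id' z).const_mul 2).fun_sub
      (((hasDerivAt_id' z).const_mul 2).fun_mul (de z))).congr_deriv (by ring)
  obtain ⟨P₁, n1, -, v1, -⟩ := exists_sym (s := s) (clF_mem hR) hcl
    (f₀ := fun z => z ^ (-2 : ℝ) * (z ^ 2 - 2 - 4 * e z))
    (f₁ := fun z => z ^ (-2 : ℝ) * (2 * z - 2 * z * e z))
    (f₂ := fun z => z ^ (-2 : ℝ) * (2 - (2 + z ^ 2) * e z)) ((cr _).mul (by fun_prop))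
    ((cr _).mul (by fun_prop)) ((cr _).mul (by fun_prop)) (M := 2) fun z hz =>
      ⟨abs_inv_sq_mul_le (hz0 z hz) (b2 z hz).1, abs_inv_sq_mul_le (hz0 z hz) (b2 z hz).2.1,
        abs_inv_sq_mul_le (hz0 z hz) (b2 z hz).2.2⟩
  obtain ⟨P₄, n4, -, v4, -⟩ := exists_sym (s := s) (clF_mem hR) hcl
    (f₀ := fun z => z ^ (-(9 / 4) : ℝ) * (4 * e z))
    (f₁ := fun z => z ^ (-(9 / 4) : ℝ) * (2 * z * e z))
    (f₂ := fun z => z ^ (-(9 / 4) : ℝ) * ((2 + z ^ 2) * e z)) ((cr _).mul (by fun_prop))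
    ((cr _).mul (by fun_prop)) ((cr _).mul (by fun_prop)) (M := 2 * ρ) fun z hz => by
      obtain ⟨h1, -, h3⟩ := be z hz
      have h4 : 16 ≤ z := ha.trans hz.1
      have key : ∀ x, 0 ≤ x → x ≤ 2 * z ^ 2 → |z ^ (-(9 / 4) : ℝ) * (x * e z)| ≤ 2 * ρ :=
        fun x h5 h6 => by
        rw [show (-(9 / 4) : ℝ) = -2 + -(1 / 4) by norm_num, Real.rpow_add (hz0 z hz), mul_assoc]
        refine abs_inv_sq_mul_le (hz0 z hz) ?_
        have h7 := Real.rpow_pos_of_pos (hz0 z hz) (-(1 / 4))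
        rw [abs_of_nonneg (by positivity), mul_left_comm]
        calc _ ≤ 2 * z ^ 2 * ρ := by gcongr
          _ = _ := by ring
      exact ⟨key _ (by norm_num) (by nlinarith), key _ (by linarith) (by nlinarith),
        key _ (by positivity) (by nlinarith)⟩
  obtain ⟨μ₅, e5, n5⟩ := exists_bc (clF_mem hR) (m := fun z => z ^ (-(3 / 4) : ℝ) * (6 * e z))
    ((cr _).mul (by fun_prop)) (M := 6 * ρ) fun z hz => by
      obtain ⟨h1, -, h3⟩ := be z hz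
      have h7 := Real.rpow_pos_of_pos (hz0 z hz) (-(3 / 4))
      have h8 : z ^ (-(3 / 4) : ℝ) ≤ z ^ (-(1 / 4) : ℝ) :=
        Real.rpow_le_rpow_of_exponent_le (by linarith [hz.1]) (by norm_num)
      rw [abs_of_nonneg (by positivity)]
      nlinarith [mul_le_mul_of_nonneg_right h8 h1.le]
  refine ⟨e, Φ, P₁, P₄, μ₅, by simp [hE], fun z hz => ?_, tΦ, vΦ, cΦ, n1, v1, n4, v4, n5,
    fun z hz => by rw [e5, hcl z hz]⟩
  obtain ⟨h1, -, h3⟩ := be z hz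
  have h4 : 1 ≤ z * z ^ (-(1 / 4) : ℝ) := by
    rw [show (-(1 / 4) : ℝ) = 3 / 4 - 1 by norm_num, rpow_pred (hz0 z hz)]
    exact Real.one_le_rpow (by linarith [hz.1]) (by norm_num)
  exact ⟨h1, by nlinarith [mul_le_mul_of_nonneg_left h3 (hz0 z hz).le,
    mul_le_mul_of_nonneg_right h4 h1.le]⟩

theorem SolF.cmp_neu (hN : NOK s η C) (ha : 16 ≤ a) {R : ℝ} (hR : a ≤ R) (hq : SolF η a R g q)
    (hB : Bd R q 0) (hp : Sol η a g₀ p) {p' : T3 s}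
    (hs : Sc (Ici a) (fun z => z ^ (-(3 / 2) : ℝ)) p p') (hl : Lin (Ici a) p' f')
    (hf' : ‖f'‖ ≤ ‖p'‖) : ∃ d, Sc (Icc a R) (fun z => z ^ (-(5 / 4) : ℝ)) (q - p) d ∧ ‖d‖ ≤
      4000 * (1 / a ^ (-(5 / 4) : ℝ) + 10 * ‖p'‖) * (R ^ (-(1 / 4) : ℝ) + ‖g - g₀‖) := by
  have ha0 : 0 < a := by linarith
  have hR0 : 0 < R := by linarith
  set ρ := R ^ (-(1 / 4) : ℝ) with hρ
  have hρ0 : 0 < ρ := Real.rpow_pos_of_pos hR0 _
  obtain ⟨d, hd, nd⟩ := hq.cmp hN ha hR (adm_rpow (q := -(5 / 4)) ha (by norm_num) (by norm_num))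
    (hp.fin R) (hB.sub (hs.bd hl hR (Real.rpow_nonneg hR0.le _)))
  refine ⟨d, hd, ?_⟩
  have e : R ^ (-(3 / 2) : ℝ) = ρ * R ^ (-(5 / 4) : ℝ) := by
    rw [hρ, ← Real.rpow_add hR0]; norm_num
  have h1 : 0 < R ^ (-(5 / 4) : ℝ) := Real.rpow_pos_of_pos hR0 _
  have h2 : 0 < 1 / a ^ (-(5 / 4) : ℝ) := by positivity
  rw [e, zero_add, mul_right_comm, mul_div_cancel_right₀ _ h1.ne', div_eq_mul_one_div] at nd
  nlinarith [mul_le_mul_of_nonneg_left hf' hρ0.le, mul_pos h2 hρ0,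
    mul_nonneg (norm_nonneg p') (norm_nonneg (g - g₀))]

theorem JacW.cmp (hN : NOK s η C) (ha : 16 ≤ a) (hp : Sol η a g₀ p) (hw : JacW a p w f) :
    ∃ K : ℝ, ∀ (R : ℝ) (g : A (s + 2)) (q u : T3 s) (m : ℂ), a ≤ R → SolF η a R g q → Bd R q 0 →
      Tri (Icc a R) (fun _ => 1) u → (∀ z ∈ Icc a R, ∀ θ, lop z (vals (jets s u) z θ) =
        fderiv ℂ Nc (vals (jets s q) z θ) (vals (jets s u) z θ)) → HiTr a u 0 →
      cf u.1 0 R = m → cf u.1 1 R = 0 → cf u.1 (-1) R = 0 → (∀ k, cf u.2.1 k R = 0) →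
      ∀ z ∈ Icc a R, ∀ θ, ‖(R : ℂ) ^ 2 * val u.1 z θ -
        m * ((z ^ 2 - 2 : ℝ) + (z ^ (1 / 2 : ℝ) : ℝ) * val w.1 z θ)‖ ≤
          K * ‖m‖ * z * (R ^ (-(1 / 4) : ℝ) + ‖g - g₀‖) := by
  have ha0 : 0 < a := by linarith
  have hC : 0 ≤ C := zero_le_one.trans hN.one_le
  obtain ⟨p', f', hs, hl, hf', -⟩ := hp.decay hN ha
  set K₁ := 4000 * (1 / a ^ (-(5 / 4) : ℝ) + 10 * ‖p'‖) with hK₁
  refine ⟨4000 * (6 * (C * (2 + ‖w‖)) * K₁ + 12 * C * ‖p'‖ + 12 + (8 * ‖w‖ + 2 * ‖f‖)) + 4,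
    fun R g q u m hR hq hB hu he hu0 m0 m1 m2 m3 => ?_⟩
  have hR0 : 0 < R := by linarith
  have hR1 : R ∈ Icc a R := ⟨hR, le_rfl⟩
  set ρ := R ^ (-(1 / 4) : ℝ) with hρ
  have hρ0 : 0 < ρ := Real.rpow_pos_of_pos hR0 _
  have hz0 : ∀ z ∈ Icc a R, 0 < z := fun z hz => ha0.trans_le hz.1
  have cr : ∀ t : ℝ, ContinuousOn (fun z : ℝ => z ^ t) (Icc a R) := fun t =>
    (contOn_rpow ha0 t).mono Icc_subset_Ici_self
  have hcl : ∀ z ∈ Icc a R, clF a R z = z := fun z => clF_of_mem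
  obtain ⟨d, hd, nd'⟩ := hq.cmp_neu hN ha hR hB hp hs hl hf'
  rw [← hK₁, ← hρ] at nd'
  obtain ⟨e, Φ, P₁, P₄, μ₅, eR, be, tΦ, vΦ, cΦ, n1, v1, n4, v4, n5, e5⟩ := exists_layer s ha hR
  obtain ⟨ν, hν⟩ := exists_bcF hR (cr (1 / 2))
  obtain ⟨ν₁, hν₁, nν⟩ := exists_bc (clF_mem hR) (cr (-(3 / 2))) (M := 1) fun z hz => by
    simpa using rpow_anti one_pos (q := -(3 / 2)) (by norm_num) (show 1 ≤ z by linarith [hz.1])
  have sW : Sc (Icc a R) (fun z => z ^ (1 / 2 : ℝ)) (cutT s (clF a R) ν w) w :=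
    sc_cutT hcl (fun z hz => by rw [hν, hcl z hz]) w
  have s1 : Sc (Icc a R) (fun z => z ^ (-(3 / 2) : ℝ)) (cutT s (clF a R) ν₁ w) w :=
    sc_cutT hcl (fun z hz => by rw [hν₁, hcl z hz]) w
  have tW : Tri (Icc a R) (fun _ => 1) (cutT s (clF a R) ν w) :=
    (hw.rel.tri.mono Icc_subset_Ici_self).cut hcl fun z hz => by rw [hν, hcl z hz]; simp
  obtain ⟨c, hc, ec⟩ := hN.coef (jets_lt hq.small)
  obtain ⟨c₁, hc₁, ec₁⟩ := hN.val_had2 (jets_lt hq.small) (jets_lt hp.small)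
    (jets s (P₁ + cutT s (clF a R) ν₁ w))
  obtain ⟨c₄, hc₄, ec₄⟩ := hN.val_had0 (jets_lt hp.small) (jets s P₄)
  have vD : ∀ z ∈ Icc a R, ∀ θ, vals (jets s ((R : ℂ) ^ 2 • u - m • Φ - m • cutT s (clF a R) ν w))
      z θ = (R : ℂ) ^ 2 • vals (jets s u) z θ - m • (j3 (z ^ 2 - 2) (2 * z) 2 -
        j3 (4 * e z) (2 * z * e z) ((2 + z ^ 2) * e z) +
        ((z ^ (1 / 2 : ℝ) : ℝ) : ℂ) • vals (jets s w) z θ) := fun z hz θ => by
    simp only [jets_sub, jets_smul, vals_sub, vals_smul, vΦ z hz, sW.vals hz, j3_sub, smul_add]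
    rw [sub_sub]
  obtain ⟨D, sD, nD⟩ := apr_sc (adm_rpow (q := 3 / 4) ha (by norm_num) le_rfl) ha hR hc
    (F := m • (dot c₁ (jets s d) - dot c₄ (jets s p') + const ℤ s BC μ₅)) (g := 0)
    (((hu.smul ((R : ℂ) ^ 2)).sub (tΦ.smul m)).sub (tW.smul m))
    (fun z hz θ => by
      have z0 := hz0 z hz
      have e1 := (ec₁ z θ).trans (by rw [← jets_sub, hd.vals hz, dot_smul])
      have e4 := (ec₄ z θ).trans (by rw [hs.vals hz.1, dot_smul])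
      rw [jets_add, vals_add, v1 z hz, s1.vals hz, j3_smul, j3_sub,
        ← rp_mul z0 (show (-2 : ℝ) + 1 / 2 = -(3 / 2) by norm_num), mul_smul, ← smul_add, map_smul,
        map_smul, smul_eq_mul, smul_eq_mul, ← mul_sub,
        ← rp_mul z0 (show (-2 : ℝ) + 3 / 4 = -(5 / 4) by norm_num)] at e1
      rw [v4 z hz, j3_smul, map_smul, smul_eq_mul,
        ← rp_mul z0 (show (-(9 / 4) : ℝ) + 3 / 4 = -(3 / 2) by norm_num)] at e4
      replace e1 := mul_left_cancel₀ (rp_ne z0 _) (e1.trans (mul_assoc _ _ _))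
      replace e4 := mul_left_cancel₀ (rp_ne z0 _) (e4.trans (mul_assoc _ _ _))
      have e2 := hw.eq z hz.1 θ
      have e3 := (lin_iff _ _).1 hw.rel.lin z hz.1 θ
      have e6 := rp_mul z0 (show (3 / 4 : ℝ) + -(3 / 4) = 0 by norm_num)
      rw [vD z hz, ec]
      simp only [lop_sub, lop_add, lop_smul, lop_j3, he z hz, e3, map_sub, map_add, map_smul,
        smul_eq_mul, val_smul, val_add, val_sub, val_dot, val_const, e5 z hz,
        Real.rpow_zero] at e1 e2 e6 ⊢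
      push_cast at e6 ⊢
      linear_combination -m * e2 + m * e1 - m * e4 - 6 * m * e z * e6)
    (fun k hk => by
      have : k ≠ 0 := by rintro rfl; simp at hk
      simp [hu0 k hk, (cΦ a ⟨le_rfl, hR⟩ k).1, this, (sW k a ⟨le_rfl, hR⟩).1, hw.rel.hi k hk])
    ((bd_neu (m := 6 * m) (by simp [m0, (cΦ R hR1 0).1, eR]; ring)
      (by simp [m1, (cΦ R hR1 1).1]) (by simp [m2, (cΦ R hR1 (-1)).1])
      fun k => by simp [m3, (cΦ R hR1 k).2, eR]).sub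
      ((sW.bd (hw.rel.lin.mono Icc_subset_Ici_self) hR1 (Real.rpow_nonneg hR0.le _)).smul m))
  intro z hz θ
  have z0 := hz0 z hz
  have z1 : 1 ≤ z := by linarith [hz.1]
  have hm := norm_nonneg m
  have hg := norm_nonneg (g - g₀)
  have hK0 : 0 ≤ K₁ := by positivity
  have f1 : ‖dot c₁ (jets s d)‖ ≤ 6 * (C * (2 + ‖w‖)) * (K₁ * (ρ + ‖g - g₀‖)) := by
    have h1 : ‖jets s (P₁ + cutT s (clF a R) ν₁ w)‖ ≤ 2 + ‖w‖ :=
      (norm_jets_apply_le _).trans (norm_add_le_of_le n1 ((norm_cutT_le _ _ _).trans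
        (mul_le_of_le_one_left (norm_nonneg _) nν)))
    exact (norm_dot_jets (hc₁.trans (mul_le_mul_of_nonneg_left h1 hC)) d).trans (by gcongr)
  have f4 := norm_dot_jets (hc₄.trans (mul_le_mul_of_nonneg_left
    ((norm_jets_apply_le _).trans n4) hC)) p'
  have f5 := norm_add_le_of_le ((norm_sub_le _ _).trans (add_le_add f1 f4))
    ((norm_const (G := ℤ) (s := s) μ₅).le.trans n5)
  have f6 : 1 / R ^ (3 / 4 : ℝ) ≤ ρ := by
    rw [one_div, ← Real.rpow_neg hR0.le]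
    exact Real.rpow_le_rpow_of_exponent_le (by linarith) (by norm_num)
  have f7 : R ^ (1 / 2 : ℝ) / R ^ (3 / 4 : ℝ) = ρ := by
    rw [← Real.rpow_sub hR0, hρ]; norm_num
  have f8 : (‖6 * m‖ + ‖m‖ * (R ^ (1 / 2 : ℝ) * (8 * ‖w‖ + 2 * ‖f‖))) / R ^ (3 / 4 : ℝ) ≤
      ‖m‖ * ((6 + (8 * ‖w‖ + 2 * ‖f‖)) * ρ) := by
    rw [norm_mul, Complex.norm_ofNat]
    calc _ = ‖m‖ * (6 * (1 / R ^ (3 / 4 : ℝ)) + R ^ (1 / 2 : ℝ) / R ^ (3 / 4 : ℝ) *
          (8 * ‖w‖ + 2 * ‖f‖)) := by ring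
      _ ≤ _ := by rw [f7]; gcongr; linarith
  set K₂ := 6 * (C * (2 + ‖w‖)) * K₁ + 12 * C * ‖p'‖ + 12 + (8 * ‖w‖ + 2 * ‖f‖) with hK₂
  have f9 : ‖D‖ ≤ 4000 * K₂ * ‖m‖ * (ρ + ‖g - g₀‖) := by
    rw [norm_smul, norm_zero, zero_div, add_zero] at nD
    have h1 := mul_le_mul_of_nonneg_left f5 hm
    have h2 : 0 ≤ ‖m‖ * ((12 * C * ‖p'‖ + 12 + (8 * ‖w‖ + 2 * ‖f‖)) * ‖g - g₀‖) := by positivity
    rw [hK₂]
    linarith
  have g1 := congrArg Prod.fst ((vD z hz θ).symm.trans (sD.vals hz θ))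
  simp only [Prod.fst_sub, Prod.fst_add, Prod.smul_fst, val_fst, j3, smul_eq_mul] at g1
  obtain ⟨h1, g2⟩ := be z hz
  have g3 : z ^ (3 / 4 : ℝ) ≤ z := by
    simpa using Real.rpow_le_rpow_of_exponent_le z1 (show (3 / 4 : ℝ) ≤ 1 by norm_num)
  calc _ = ‖(z ^ (3 / 4 : ℝ) : ℝ) * val D.1 z θ - m * (4 * e z : ℝ)‖ := by
        rw [← g1]; congr 1; ring
    _ ≤ z * (4000 * K₂ * ‖m‖ * (ρ + ‖g - g₀‖)) + ‖m‖ * (4 * (z * (ρ + ‖g - g₀‖))) := by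
        refine (norm_sub_le _ _).trans ?_
        rw [norm_mul, norm_mul, Complex.norm_real, Complex.norm_real,
          Real.norm_of_nonneg (by positivity), Real.norm_of_nonneg (by positivity)]
        have h5 := ((norm_val_le D.1 z θ).trans (norm_fst_le D)).trans f9
        have h6 : e z ≤ z * (ρ + ‖g - g₀‖) :=
          g2.trans (mul_le_mul_of_nonneg_left (le_add_of_nonneg_right hg) z0.le)
        gcongr
    _ = _ := by ring

end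

end Vale.Agent.P218F.EndI
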