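import Vale.Agent.P218F.EndInf6
import Vale.Agent.P218F.EndBase
import Vale.Agent.P218F.ConeTri

/-!
Exactly cylindrical ends: the statements of the interface.
-/

set_option maxSynthPendingDepth 3

namespace Vale.Agent.P218F.EndI

open Set Filter Topology Metric Wien Core
open Cone (W A T3 J6 BC jets jets_apply norm_jets_apply_le Clamp fn vT vYT vTT IsTri)
open End (cyl res3 PtEq DEq Dm IsEnd epol depol)
open scoped ContDiff Real

noncomputable section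

variable {a b η C : ℝ} {S : Set ℝ}

/-! ### Dictionary -/

theorem vals_jets (p : T3 0) (z θ : ℝ) : vals (jets 0 p) z θ = (Cone.val p.1 z θ,
    Cone.val p.2.1 z θ, vT p z θ, Cone.val p.2.2 z θ, vYT p z θ, vTT p z θ) := by
  simp [vals, jets_apply, vT, vYT, vTT, Cone.val_eq]

theorem cf_cyl (k : ℤ) (z : ℝ) : cf cyl.1 k z = if k = 0 then ((√2 : ℝ) : ℂ) else 0 := by
  by_cases hk : k = 0 <;>
    simp [cyl, Algebra.algebraMap_eq_smul_one, one_def, cf_single, hk, -Complex.coe_smul]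

theorem cf_cyl_hi {k : ℤ} (hk : 2 ≤ |k|) (z : ℝ) : cf cyl.1 k z = 0 := by
  rw [cf_cyl, if_neg]
  rintro rfl
  simp at hk

theorem vals_cyl (z θ : ℝ) : vals (jets 0 cyl) z θ = (((√2 : ℝ) : ℂ), 0, 0, 0, 0, 0) := by
  have h : dth 1 BC cyl.1 = 0 := by
    ext k y
    by_cases hk : k = 0 <;> simp [cf_cyl, hk]
  simp only [vals, jets_apply, h, val_incl, map_zero, val_zero]
  simp [cyl]

theorem tri_cyl : Tri S (fun _ => 1) cyl := by
  constructor <;> intro k z _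
  · simp only [cf_cyl]
    simpa [cyl] using hasDerivWithinAt_const z S (if k = 0 then ((√2 : ℝ) : ℂ) else 0)
  · simpa [cyl] using hasDerivWithinAt_const z S (0 : ℂ)

theorem cutT_cyl (σ : C(ℝ, ℝ)) : cutT 0 σ 1 cyl = cyl := by
  refine Prod.ext ?_ (Prod.ext ?_ ?_) <;> ext k z
  · simp [cutT_apply, cf_cyl]
  · simp [cutT_apply, cyl]
  · simp [cutT_apply, cyl]

theorem star_cyl : star cyl = cyl := by
  refine Prod.ext ?_ (Prod.ext ?_ ?_) <;> ext k z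
  · by_cases hk : k = 0 <;> simp [cf_cyl, hk]
  · simp [cyl]
  · simp [cyl]

theorem res3_eq (a b : ℝ) (p : T3 0) : res3 a b p = cutT 0 (clF a b) 1 p := by
  refine Prod.ext ?_ (Prod.ext ?_ ?_) <;> ext k z <;> simp [res3, End.res, cutT_apply] <;> rfl

theorem cutT_cutT (σ σ' : C(ℝ, ℝ)) (h : ∀ z, σ' (σ z) = σ z) (p : T3 0) :
    cutT 0 σ 1 (cutT 0 σ' 1 p) = cutT 0 σ 1 p := by
  refine Prod.ext ?_ (Prod.ext ?_ ?_) <;> ext k z <;> simp [cutT_apply, h]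

theorem val_cyl_add (v : T3 0) (z θ : ℝ) :
    Cone.val (cyl + v).1 z θ = (√2 : ℝ) + (vals (jets 0 v) z θ).1 ∧
    Cone.val (cyl + v).2.1 z θ = (vals (jets 0 v) z θ).2.1 ∧
    vT (cyl + v) z θ = (vals (jets 0 v) z θ).2.2.1 ∧
    Cone.val (cyl + v).2.2 z θ = (vals (jets 0 v) z θ).2.2.2.1 ∧
    vYT (cyl + v) z θ = (vals (jets 0 v) z θ).2.2.2.2.1 ∧
    vTT (cyl + v) z θ = (vals (jets 0 v) z θ).2.2.2.2.2 := by
  have e2 : vals (jets 0 (cyl + v)) z θ =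
      (((√2 : ℝ) : ℂ), 0, 0, 0, 0, 0) + vals (jets 0 v) z θ := by rw [jets_add, vals_add, vals_cyl]
  rw [vals_jets] at e2
  simp only [Prod.ext_iff, Prod.fst_add, Prod.snd_add, zero_add] at e2
  exact e2

theorem isTri_iff {p : T3 0} : IsTri a p ↔
    (Clamp a p.1 ∧ Clamp a p.2.1 ∧ Clamp a p.2.2) ∧ Tri (Ici a) (fun _ => 1) p :=
  ⟨fun h => ⟨⟨h.c0, h.c1, h.c2⟩, tri_one_iff.2 ⟨h.z0, h.z1⟩⟩,
    fun h => ⟨h.1.1, h.1.2.1, h.1.2.2, (tri_one_iff.1 h.2).1, (tri_one_iff.1 h.2).2⟩⟩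

theorem Rel.isTri {g : A 2} {f : W 0} {p : T3 0} (h : Rel a (fun _ => 1) g f p) : IsTri a p :=
  isTri_iff.2 ⟨⟨h.c0, h.c1, h.c2⟩, h.tri⟩

theorem isTri_cyl_add {p : T3 0} (h : IsTri a p) : IsTri a (cyl + p) :=
  isTri_iff.2 ⟨⟨fun k z => by simp [cf_cyl, h.c0 k z], fun k z => by simp [cyl, h.c1 k z],
    fun k z => by simp [cyl, h.c2 k z]⟩, tri_cyl.add (isTri_iff.1 h).2⟩

theorem ptEq_iff (p : T3 0) : PtEq a b p ↔ ∀ z ∈ Icc a b, ∀ θ,
    epol (z : ℂ) (vals (jets 0 p) z θ).1 (vals (jets 0 p) z θ).2.1 (vals (jets 0 p) z θ).2.2.1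
      (vals (jets 0 p) z θ).2.2.2.1 (vals (jets 0 p) z θ).2.2.2.2.1
      (vals (jets 0 p) z θ).2.2.2.2.2 = 0 := by
  simp only [vals_jets]; rfl

theorem NOK.ptEq_iff (hN : NOK 0 η C) {v : T3 0} (hv : ‖v‖ < η) :
    PtEq a b (cyl + v) ↔ Lin (Icc a b) v (NW 0 (jets 0 v)) := by
  rw [EndI.ptEq_iff, lin_iff]
  refine forall₃_congr fun z _ θ => ?_
  obtain ⟨h1, h2⟩ := hN.ne _ (jets_lt hv) z θ
  simp only [jets_add, vals_add, vals_cyl, Prod.fst_add, Prod.snd_add, zero_add]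
  rw [epol_eq z h1 h2, hN.nat.val _ (jets_lt hv), mul_eq_zero, sub_eq_zero, or_iff_right
    (mul_ne_zero h1 h2)]

theorem depol_eq (z : ℝ) {j : J6 ℂ} (K : J6 ℂ) (h1 : (√2 : ℝ) + j.1 ≠ 0)
    (h2 : detN ((√2 : ℝ) : ℂ) j ≠ 0) (hd : DifferentiableAt ℂ Nc j) (he : lop z j = Nc j) :
    depol (z : ℂ) ((√2 : ℝ) + j.1) j.2.1 j.2.2.1 j.2.2.2.1 j.2.2.2.2.1 j.2.2.2.2.2
      K.1 K.2.1 K.2.2.1 K.2.2.2.1 K.2.2.2.2.1 K.2.2.2.2.2 =
      ((√2 : ℝ) + j.1) * detN ((√2 : ℝ) : ℂ) j * (lop z K - fderiv ℂ Nc j K) := by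
  have l : ∀ x y : ℂ, HasDerivAt (fun t : ℂ => x + t * y) y 0 := fun x y =>
    (((hasDerivAt_id (0 : ℂ)).mul_const y).const_add x).congr_deriv (one_mul _)
  have k1 := End.hasDerivAt_epol (z : ℂ) ((l j.1 K.1).const_add ((√2 : ℝ) : ℂ)) (l j.2.1 K.2.1)
    (l j.2.2.1 K.2.2.1) (l j.2.2.2.1 K.2.2.2.1) (l j.2.2.2.2.1 K.2.2.2.2.1)
    (l j.2.2.2.2.2 K.2.2.2.2.2)
  have c1 : DifferentiableAt ℂ (fun t : ℂ => ((√2 : ℝ) + (j + t • K).1) *
      detN ((√2 : ℝ) : ℂ) (j + t • K)) 0 := by unfold detN; fun_prop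
  have k2 : HasDerivAt (fun t : ℂ => lop z (j + t • K) - Nc (j + t • K))
      (lop z K - fderiv ℂ Nc j K) 0 := by
    simp only [lop_add, lop_smul]
    exact (l _ _).fun_sub (hd.hasFDerivAt.comp_hasDerivAt_of_eq (0 : ℂ)
      ((((hasDerivAt_id (0 : ℂ)).smul_const K).const_add j).congr_deriv (one_smul _ _)) (by simp))
  have k3 := k1.unique ((c1.hasDerivAt.fun_mul k2).congr_of_eventuallyEq (by
    filter_upwards [c1.continuousAt.eventually_ne (y := 0) (by simpa using mul_ne_zero h1 h2)]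
      with t ht
    exact epol_eq z (j := j + t • K) (left_ne_zero_of_mul ht) (right_ne_zero_of_mul ht)))
  simpa [he] using k3

theorem NOK.dEq_iff (hN : NOK 0 η C) {v : T3 0} (hv : ‖v‖ < η)
    (hl : Lin (Icc a b) v (NW 0 (jets 0 v))) (u : T3 0) :
    DEq a b (cyl + v) u ↔ ∀ z ∈ Icc a b, ∀ θ, lop z (vals (jets 0 u) z θ) =
      fderiv ℂ Nc (vals (jets 0 v) z θ) (vals (jets 0 u) z θ) := by
  refine forall₃_congr fun z hz θ => ?_
  obtain ⟨h1, h2⟩ := hN.ne _ (jets_lt hv) z θ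
  have e := depol_eq z (vals (jets 0 u) z θ) h1 h2 (hN.nat.anc _ (jets_lt hv) z θ).differentiableAt
    (((lin_iff _ _).1 hl z hz θ).trans (hN.nat.val _ (jets_lt hv) z θ))
  obtain ⟨r1, r2, r3, r4, r5, r6⟩ := val_cyl_add v z θ
  rw [← sub_eq_zero (a := lop _ _), ← mul_eq_zero_iff_left (b := lop _ _ - _) (mul_ne_zero h1 h2),
    ← e, r1, r2, r3, r4, r5, r6, vals_jets u]

theorem NOK.solF (hN : NOK 0 η C) {h : A 2} {p : T3 0} (hab : a ≤ b) {R : ℝ} (hR : b ≤ R)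
    (ht : End.Tri a R p) (he : PtEq a R p) (hh : ∀ k : ℤ, 2 ≤ |k| → cf p.1 k a = cf h k)
    (hs : ‖res3 a b p - cyl‖ < η) : SolF η a b h (res3 a b p - cyl) := by
  have hc : Sc (Icc a b) (fun _ => 1) (res3 a b p) p := by
    rw [res3_eq]; exact sc_cutT (fun z => clF_of_mem) (fun _ _ => by simp) p
  refine ⟨Tri.sub ?_ tri_cyl, (hN.ptEq_iff hs).1 ?_, fun k hk => ?_, hs⟩
  · rw [res3_eq]
    exact ((tri_one_iff.2 ⟨ht.d0, ht.d1⟩).mono (Icc_subset_Icc_right hR)).cut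
      (fun z => clF_of_mem) fun _ _ => by simp
  · rw [add_sub_cancel, EndI.ptEq_iff]
    intro z hz θ
    simpa [hc.vals hz] using (EndI.ptEq_iff p).1 he z (Icc_subset_Icc_right hR hz) θ
  · simp [cf_cyl_hi hk, (hc k a ⟨le_rfl, hab⟩).1, hh k hk]

theorem Rel.unique_var {s : ℕ} {m : ℝ → ℝ} (h : AdmI a m) (ha : 16 ≤ a) {c : J6 (W s)}
    (hc : ‖c‖ ≤ 1 / 24000) {g : A (s + 2)} {F : W s} {p p' : T3 s}
    (hp : Rel a m g (dot c (jets s p) + F) p) (hp' : Rel a m g (dot c (jets s p') + F) p') :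
    p = p' := by
  have h4 := hp.sub hp'
  rw [add_sub_add_comm, ← dot_sub, ← jets_sub] at h4
  have h5 := h4.le_var h ha hc
  rw [sub_self, sub_self, norm_zero, norm_zero] at h5
  exact sub_eq_zero.1 (norm_le_zero_iff.1 (by linarith))

theorem good_of_small {v : T3 0} (hv : ‖v‖ ≤ 1 / 10) (z θ : ℝ) : 1 ≤ (fn (cyl + v) (z, θ)).re ∧
    1 ≤ (fn (cyl + v) (z, θ) ^ 2 * (1 + Cone.val (cyl + v).2.1 z θ ^ 2) +
      vT (cyl + v) z θ ^ 2).re := by
  have e2 := val_cyl_add v z θ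
  have hn := ((norm_vals_le _ z θ).trans (norm_jets_apply_le v)).trans hv
  obtain ⟨n1, n2, n3, -⟩ := norm_J6_le (vals (jets 0 v) z θ)
  simp only [fn]
  rw [e2.1, e2.2.1, e2.2.2.1]
  clear e2
  generalize vals (jets 0 v) z θ = j at *
  have h0 : ((√2 : ℝ) : ℂ) ^ 2 = 2 := by exact_mod_cast Real.sq_sqrt zero_le_two
  have h1 : √2 ≤ 3 / 2 := Real.sqrt_le_iff.2 ⟨by norm_num, by norm_num⟩
  have h2 : 7 / 5 ≤ √2 := Real.le_sqrt_of_sq_le (by norm_num)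
  have h3 : ‖((√2 : ℝ) : ℂ)‖ ≤ 3 / 2 := by rwa [Complex.norm_real, Real.norm_of_nonneg (by positivity)]
  have m1 := n1.trans hn
  have m2 := n2.trans hn
  have m3 := n3.trans hn
  constructor
  · have := (abs_le.1 ((Complex.abs_re_le_norm j.1).trans m1)).1
    simp only [Complex.add_re, Complex.ofReal_re]
    linarith
  · have e : ((√2 : ℝ) + j.1) ^ 2 * (1 + j.2.1 ^ 2) + j.2.2.1 ^ 2 = 2 + (j.1 * (2 * (√2 : ℝ) + j.1) +
        ((√2 : ℝ) + j.1) ^ 2 * j.2.1 ^ 2 + j.2.2.1 ^ 2) := by linear_combination h0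
    have h4 : ‖j.1 * (2 * (√2 : ℝ) + j.1) + ((√2 : ℝ) + j.1) ^ 2 * j.2.1 ^ 2 + j.2.2.1 ^ 2‖ ≤
        1 / 10 * (2 * (3 / 2) + 1 / 10) + (3 / 2 + 1 / 10) ^ 2 * (1 / 10) ^ 2 + (1 / 10) ^ 2 := by
      refine norm_add_le_of_le (norm_add_le_of_le ?_ ?_) ?_
      · rw [norm_mul]
        gcongr
        exact norm_add_le_of_le (by rw [norm_mul, Complex.norm_two]; gcongr) m1
      · rw [norm_mul, norm_pow, norm_pow]
        gcongr
        exact norm_add_le_of_le h3 m1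
      · rw [norm_pow]; gcongr
    have := (abs_le.1 ((Complex.abs_re_le_norm _).trans h4)).1
    rw [e, Complex.add_re, Complex.re_ofNat]
    linarith

/-! ### The limit `R → ∞` -/

variable {Λ δ₁ C₁ R₁ C₂ C₀ R₀ : ℝ} {cc Y : ℝ → ℂ → ℂ} {e : ℝ → A 2 × ℂ → T3 0}

theorem x7_of (hN : NOK 0 η C) (ha : 16 ≤ a) {δ : ℝ} {E : A 2 → T3 0}
    (hE : ∀ h ∈ ball (0 : A 2) δ, Sol η a h (E h)) (he : IsEnd Λ δ₁ C₁ a R₁ C₂ cc Y e)
    (hc : ∀ R, R₁ ≤ R → ∀ y ∈ Sym.D Λ R, ‖cc R y‖ ≤ 7 / R ^ 2) (Z ε : ℝ) (hZ : a ≤ Z)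
    (hε : 0 < ε) : ∃ R₂, ∀ R, R₂ ≤ R → ∀ x ∈ Dm δ₁ Λ R, ‖x.1‖ < δ → C₁ * ‖x.1‖ ≤ η / 2 / 2 →
      ‖res3 a Z (e R x) - res3 a Z (cyl + E x.1)‖ ≤ ε := by
  have hη := hN.pos
  have t1 : Tendsto (fun b : ℝ => 72000 * η * (Z / b) ^ (3 / 4 : ℝ)) atTop (𝓝 0) := by
    have := (((tendsto_const_nhds (x := Z)).div_atTop tendsto_id).rpow_const
      (p := 3 / 4) (Or.inr (by norm_num))).const_mul (72000 * η)
    rwa [Real.zero_rpow (by norm_num), mul_zero] at this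
  obtain ⟨b, hb, hb'⟩ := ((eventually_ge_atTop Z).and (t1.eventually (ge_mem_nhds hε))).exists
  have t2 : Tendsto (fun R : ℝ => 7 / R ^ 2 * b ^ 2) atTop (𝓝 0) := by
    simpa using ((tendsto_const_nhds (x := (7 : ℝ))).div_atTop
      (tendsto_pow_atTop two_ne_zero)).mul_const (b ^ 2)
  have t3 := t2.const_mul |C₁|
  rw [mul_zero] at t3
  obtain ⟨R₂, h⟩ := eventually_atTop.1 (((eventually_ge_atTop R₁).and (eventually_ge_atTop b)).and
    ((t2.eventually (ge_mem_nhds one_half_pos)).and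
      (t3.eventually (ge_mem_nhds (half_pos (half_pos hη))))))
  refine ⟨R₂, fun R hR x hx h1 h2 => ?_⟩
  obtain ⟨⟨r1, r2⟩, r3, r4⟩ := h R hR
  have h3 : ‖cc R x.2‖ * b ^ 2 ≤ 7 / R ^ 2 * b ^ 2 := by gcongr; exact hc R r1 _ hx.2
  have h4 := (he.small R r1 x hx b ⟨hZ.trans hb, r2⟩ (h3.trans r3)).1
  have h5 : C₁ * (‖cc R x.2‖ * b ^ 2) ≤ |C₁| * (7 / R ^ 2 * b ^ 2) :=
    mul_le_mul (le_abs_self _) h3 (by positivity) (abs_nonneg _)
  have h6 := (hN.solF (hZ.trans hb) r2 (he.tri R r1 x hx) (he.eqn R r1 x hx) (he.trace R r1 x hx)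
    (by linarith)).close hN ha ((hE x.1 (mem_ball_zero_iff.2 h1)).fin b) ⟨hZ, hb⟩
  rw [sub_sub, map_sub, res3_eq, cutT_cutT _ _ fun z =>
    clF_of_mem (Icc_subset_Icc_right hb (clF_mem hZ z))] at h6
  rw [res3_eq, res3_eq]
  exact h6.trans hb'

/-- the Jacobi field -/
def Wf (w : T3 0) (z : P2) : ℝ :=
  (2 * √2)⁻¹ * (z.1 ^ 2 - 2 + z.1 ^ (1 / 2 : ℝ) * (val w.1 z.1 z.2).re)

theorem Wf_eq {w : T3 0} (hw : star w = w) (z : P2) : (Wf w z : ℂ) =
    ((2 * √2)⁻¹ : ℝ) * ((z.1 ^ 2 - 2 : ℝ) + (z.1 ^ (1 / 2 : ℝ) : ℝ) * val w.1 z.1 z.2) := by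
  have h : star w.1 = w.1 := congrArg Prod.fst hw
  have := Complex.conj_eq_iff_re.1 ((star_eq_iff_val _).1 h z.1 z.2)
  rw [Wf, Complex.ofReal_mul, Complex.ofReal_add, Complex.ofReal_mul, this]

theorem isW_of (hN : NOK 0 η C) (ha : 16 ≤ a) {g : A 2} {p w : T3 0} {f : W 0} (hp : Sol η a g p)
    (hw : JacW a p w f) (hs : star w = w) (hn : ‖w‖ ≤ 1 / 4 / a ^ (-(3 / 2) : ℝ)) :
    IsW a (cyl + p) (Wf w) := by
  have ha0 : 0 < a := by linarith
  have h1 : √2 ≤ 3 / 2 := Real.sqrt_le_iff.2 ⟨by norm_num, by norm_num⟩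
  have h2 : 1 ≤ √2 := Real.le_sqrt_of_sq_le (by norm_num)
  refine ⟨⟨1 + ‖w‖, fun b hb => ?_⟩, fun z => by simp only [Wf, val_periodic _ _ z.2],
    fun z hz => ?_⟩
  · have hcl : ∀ z ∈ Icc a b, clF a b z = z := fun z => clF_of_mem
    obtain ⟨Φ, nΦ, cΦ, vΦ, -, tΦ⟩ := exists_sym (s := 0) (clF_mem hb) hcl
      (f₀ := fun z => z ^ 2 - 2) (f₁ := fun z => 2 * z) (f₂ := fun _ => 2) (by fun_prop)
      (by fun_prop) (by fun_prop) (M := b ^ 2) fun z hz => by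
        have : 16 ≤ z := ha.trans hz.1
        refine ⟨?_, ?_, ?_⟩ <;> refine abs_le.2 ⟨?_, ?_⟩ <;> nlinarith [hz.2]
    replace tΦ := tΦ (fun z _ => ((hasDerivAt_pow 2 z).sub_const 2).congr_deriv (by simp))
      fun z _ => ((hasDerivAt_id' z).const_mul 2).congr_deriv (by ring)
    obtain ⟨ν, hν, nν⟩ := exists_bc (clF_mem hb)
      ((contOn_rpow ha0 (1 / 2)).mono Icc_subset_Ici_self) (M := b ^ 2) fun z hz => by
        have : 16 ≤ z := ha.trans hz.1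
        rw [abs_of_nonneg (by positivity)]
        nlinarith [rpow_half_le (z := z) (by linarith), hz.2]
    have sW : Sc (Icc a b) (fun z => z ^ (1 / 2 : ℝ)) (cutT 0 (clF a b) ν w) w :=
      sc_cutT hcl (fun z hz => by rw [hν, hcl z hz]) w
    have tW : Tri (Icc a b) (fun _ => 1) (cutT 0 (clF a b) ν w) :=
      (hw.rel.tri.mono Icc_subset_Ici_self).cut hcl fun z hz => by rw [hν, hcl z hz]; simp
    have vD : ∀ z ∈ Icc a b, ∀ θ,
        vals (jets 0 ((((2 * √2)⁻¹ : ℝ) : ℂ) • (Φ + cutT 0 (clF a b) ν w))) z θ =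
          (((2 * √2)⁻¹ : ℝ) : ℂ) • (j3 (z ^ 2 - 2) (2 * z) 2 +
            ((z ^ (1 / 2 : ℝ) : ℝ) : ℂ) • vals (jets 0 w) z θ) := fun z hz θ => by
      rw [jets_smul, vals_smul, jets_add, vals_add, vΦ z hz, sW.vals hz]
    have tD := tri_one_iff.1 ((tΦ.add tW).smul (((2 * √2)⁻¹ : ℝ) : ℂ))
    refine ⟨_, ⟨?_, tD.1, tD.2⟩, (hN.dEq_iff hp.small (hp.fin b).lin _).2 fun z hz θ => ?_, ?_,
      fun z hz => ?_⟩
    · rw [res3_eq, map_smul, map_add, cΦ]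
      congr 2
      refine Prod.ext ?_ (Prod.ext ?_ ?_) <;> ext k z <;>
        simp [cutT_apply, hν, hcl _ (clF_mem hb z)]
    · rw [vD z hz, lop_smul, map_smul, ← hw.eq z hz.1 θ, lop_add, lop_smul, lop_j3,
        (lin_iff _ _).1 hw.rel.lin z hz.1 θ, smul_eq_mul]
      push_cast; ring
    · rw [norm_smul, Complex.norm_real, Real.norm_of_nonneg (by positivity)]
      have h3 := norm_add_le_of_le nΦ ((norm_cutT_le (clF a b) _ w).trans
        (mul_le_mul_of_nonneg_right nν (norm_nonneg _)))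
      exact (mul_le_of_le_one_left (norm_nonneg _) (inv_le_one_of_one_le₀ (by linarith))).trans
        (h3.trans (le_of_eq (by ring)))
    · have := congrArg Prod.fst (vD z.1 hz z.2)
      rw [val_fst] at this
      rw [Wf_eq hs]
      refine this.trans ?_
      simp only [j3, val_fst, Prod.smul_fst, Prod.fst_add, smul_eq_mul]
  · have hz0 : 0 < z.1 := by linarith
    have h3 := (abs_le.1 ((Complex.abs_re_le_norm _).trans
      (((norm_val_le w.1 z.1 z.2).trans (norm_fst_le w)).trans hn))).1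
    have h4 : z.1 ^ (1 / 2 : ℝ) * (1 / 4 / a ^ (-(3 / 2) : ℝ)) ≤ z.1 ^ 2 / 4 := by
      rw [Real.rpow_neg ha0.le, div_inv_eq_mul, ← Real.rpow_two,
        show (2 : ℝ) = 1 / 2 + 3 / 2 by norm_num, Real.rpow_add hz0]
      have : a ^ (3 / 2 : ℝ) ≤ z.1 ^ (3 / 2 : ℝ) := by gcongr
      nlinarith [Real.rpow_pos_of_pos hz0 (1 / 2)]
    have h5 := mul_le_mul_of_nonneg_left h3 (Real.rpow_pos_of_pos hz0 (1 / 2)).le
    rw [Wf, le_inv_mul_iff₀ (by positivity)]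
    nlinarith

theorem deriv_Y (hΛ : 0 ≤ Λ) (hi : Sym.Inv C₀ Λ R₀ cc Y) :
    (∀ᶠ R in atTop, DifferentiableAt ℂ (Y R) 0 ∧ Y R 0 = 2 ∧ (2 : ℂ) ∈ Sym.D Λ R) ∧
      Tendsto (fun R : ℝ => deriv (Y R) 0 / (R : ℂ) ^ 2) atTop (𝓝 1) := by
  have key : ∀ᶠ R in atTop, (DifferentiableAt ℂ (Y R) 0 ∧ Y R 0 = 2 ∧ (2 : ℂ) ∈ Sym.D Λ R) ∧
      ‖deriv (Y R) 0 / (R : ℂ) ^ 2 - 1‖ ≤ 2 * C₀ * (Real.log R / R ^ 2) := by
    filter_upwards [eventually_ge_atTop R₀, eventually_gt_atTop 0] with R hR h0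
    have hr : 0 < 1 / R ^ 2 := by positivity
    have hs : ball (0 : ℂ) (1 / R ^ 2) ⊆ Sym.Om (2 * Λ) R := (hi.small R hR).trans
      (ball_subset_ball (by gcongr; linarith))
    have hd := (hi.hol R hR).mono hs
    have h1 := hd.differentiableAt (ball_mem_nhds _ hr)
    have h2 := hi.mem R hR _ le_rfl 0 (hs (mem_ball_self hr))
    rw [hi.zero R hR] at h2
    refine ⟨⟨h1, hi.zero R hR, ball_subset_ball (by gcongr; linarith [hi.room]) h2⟩, ?_⟩
    have h3 := Core.fderiv_le (f := fun c => Y R c - (2 + c * (R : ℂ) ^ 2)) hr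
      (hd.sub (by fun_prop)) fun c hc => hi.close R hR c (hs hc)
    have h4 : HasDerivAt (fun c => Y R c - (2 + c * (R : ℂ) ^ 2)) (deriv (Y R) 0 - (R : ℂ) ^ 2) 0 :=
      h1.hasDerivAt.fun_sub
        ((((hasDerivAt_id' (0 : ℂ)).mul_const _).const_add 2).congr_deriv (one_mul _))
    rw [← norm_deriv_eq_norm_fderiv, h4.deriv] at h3
    have h5 : (R : ℂ) ^ 2 ≠ 0 := pow_ne_zero 2 (by exact_mod_cast h0.ne')
    rw [div_sub_one h5, norm_div, norm_pow, Complex.norm_real, Real.norm_of_nonneg h0.le,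
      div_le_iff₀ (by positivity)]
    refine h3.trans (le_of_eq ?_)
    field_simp
  refine ⟨key.mono fun _ h => h.1, tendsto_iff_norm_sub_tendsto_zero.2
    (squeeze_zero' (Eventually.of_forall fun _ => norm_nonneg _) (key.mono fun _ h => h.2) ?_)⟩
  simpa using (Real.isLittleO_log_id_atTop.trans_isBigO (Asymptotics.isLittleO_pow_pow_atTop_of_lt
    (show 1 < 2 by norm_num) |>.congr_left (fun x => pow_one x)).isBigO).tendsto_div_nhds_zero
    |>.const_mul (2 * C₀)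

theorem jac_lim (hN : NOK 0 η C) (ha : 16 ≤ a) {h₀ : A 2} {p w : T3 0} {f : W 0}
    (hp : Sol η a h₀ p) (hw : JacW a p w f) (hs : star w = w) (hΛ : 0 ≤ Λ)
    (he : IsEnd Λ δ₁ C₁ a R₁ C₂ cc Y e) (hi : Sym.Inv C₀ Λ R₀ cc Y) (h1 : ‖h₀‖ < δ₁)
    (h2 : C₁ * ‖h₀‖ < η) {z : P2} (hz : a ≤ z.1) :
    Tendsto (fun q : ℝ × A 2 => deriv (fun t : ℂ => fn (e q.1 (q.2, Y q.1 t)) z) 0)
      (atTop ×ˢ 𝓝 h₀) (𝓝 (Wf w z)) := by
  obtain ⟨K, hK⟩ := hw.cmp hN ha hp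
  obtain ⟨hY, tY⟩ := deriv_Y hΛ hi
  have ha0 : 0 < a := by linarith
  have s2 : (2 : ℂ) ^ (1 / 2 : ℂ) = (√2 : ℝ) := by
    rw [Real.sqrt_eq_rpow, Complex.ofReal_cpow zero_le_two]; norm_num
  set m : ℂ := (((2 * √2)⁻¹ : ℝ) : ℂ) with hm
  have hm' : 1 / 2 * (2 : ℂ) ^ (1 / 2 - 1 : ℂ) = m := by
    have h0 : ((√2 : ℝ) : ℂ) ^ 2 = 2 := by exact_mod_cast Real.sq_sqrt zero_le_two
    have := sqrt_two_ne
    rw [Complex.cpow_sub _ _ two_ne_zero, s2, Complex.cpow_one, hm]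
    push_cast
    field_simp
    linear_combination h0
  let u : ℝ × A 2 → T3 0 := fun q => fderiv ℂ (fun y => e q.1 (q.2, y)) 2 1
  have key : ∀ᶠ q in atTop ×ˢ 𝓝 h₀, deriv (Y q.1) 0 / (q.1 : ℂ) ^ 2 *
      ((q.1 : ℂ) ^ 2 * val (u q).1 z.1 z.2) =
        deriv (fun t : ℂ => fn (e q.1 (q.2, Y q.1 t)) z) 0 ∧
      ‖(q.1 : ℂ) ^ 2 * val (u q).1 z.1 z.2 - Wf w z‖ ≤
        K * ‖m‖ * z.1 * (q.1 ^ (-(1 / 4) : ℝ) + ‖q.2 - h₀‖) := by
    have e1 : ∀ᶠ h in 𝓝 h₀, ‖h‖ < δ₁ ∧ C₁ * ‖h‖ < η :=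
      (continuous_norm.continuousAt.eventually_lt continuousAt_const h1).and
        ((continuous_const.mul continuous_norm).continuousAt.eventually_lt continuousAt_const h2)
    filter_upwards [((hY.and (eventually_ge_atTop R₁)).and (eventually_gt_atTop z.1)).prod_mk e1]
    rintro ⟨R, h⟩ ⟨⟨⟨⟨y1, y2, y3⟩, hR⟩, hzR⟩, g1, g2⟩
    have haR : a < R := hz.trans_lt hzR
    have hh := mem_ball_zero_iff.2 g1
    have hx : (h, (2 : ℂ)) ∈ Dm δ₁ Λ R := ⟨hh, y3⟩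
    have ev : ∀ᶠ y in 𝓝 (2 : ℂ), (h, y) ∈ Dm δ₁ Λ R :=
      mem_of_superset (isOpen_ball.mem_nhds y3) fun y hy => ⟨hh, hy⟩
    have hd : DifferentiableAt ℂ (fun y => e R (h, y)) 2 :=
      ((he.hol R hR).differentiableAt ((isOpen_ball.prod isOpen_ball).mem_nhds hx)).comp 2
        (by fun_prop)
    have ht := he.tri R hR _ hx
    have hsm : ‖res3 a R (e R (h, 2)) - cyl‖ < η := by
      have := he.decay R hR h hh a ⟨le_rfl, haR.le⟩
      rw [div_self ha0.ne', Real.one_rpow, mul_one] at this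
      exact this.trans_lt g2
    have hq := hN.solF haR.le le_rfl ht (he.eqn R hR _ hx) (he.trace R hR _ hx) hsm
    rw [ht.cl] at hq
    have hu := End.dtri_proof a R ℂ _ 2 haR hd (ev.mono fun y hy => he.tri R hR _ hy) 1
    have hl := End.dEq_fderiv hd (ev.mono fun y hy => he.eqn R hR _ hy) 1
    rw [← add_sub_cancel cyl (e R (h, 2)), hN.dEq_iff hq.small hq.lin] at hl
    have d0 : ∀ L : T3 0 →L[ℂ] ℂ, HasDerivAt (fun y => L (e R (h, y))) (L (u (R, h))) 2 :=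
      fun L => L.hasFDerivAt.comp_hasDerivAt 2 hd.hasDerivAt
    constructor
    · have h3 := (d0 ((valL 2 ℂ z.1 z.2).comp (.fst ℂ _ _))).comp_of_eq 0 y1.hasDerivAt y2.symm
      have h5 : (R : ℂ) ≠ 0 := by exact_mod_cast (ha0.trans haR).ne'
      refine Eq.trans ?_ h3.deriv.symm
      change _ = val (u (R, h)).1 z.1 z.2 * _
      field_simp
    · rw [Wf_eq hs]
      refine hK R h _ (u (R, h)) m haR.le hq ?_ (tri_one_iff.2 ⟨hu.d0, hu.d1⟩) hl
        (fun k hk => (End.cf_fderiv_eq_zero (g := cf h k) (.fst ℂ _ _) hd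
          (ev.mono fun y hy => he.trace R hR _ hy k hk) 1).trans (cf_zero k).symm) ?_
        (End.cf_fderiv_eq_zero (.fst ℂ _ _) hd (ev.mono fun y hy => (he.tip1 R hR _ hy).1) 1)
        (End.cf_fderiv_eq_zero (.fst ℂ _ _) hd (ev.mono fun y hy => (he.tip1 R hR _ hy).2) 1)
        (fun k => End.cf_fderiv_eq_zero ((ContinuousLinearMap.fst ℂ _ _).comp (.snd ℂ _ _)) hd
          (ev.mono fun y hy => he.neu R hR _ hy k) 1) z.1 ⟨hz, hzR.le⟩ z.2
      · simpa using bd_neu (p := e R (h, 2) - cyl) (m := 0)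
          (by simp [he.tip0 R hR _ hx, cf_cyl, ← s2]) (by simp [(he.tip1 R hR _ hx).1, cf_cyl])
          (by simp [(he.tip1 R hR _ hx).2, cf_cyl]) fun k => by simp [he.neu R hR _ hx k, cyl]
      · rw [← hm']
        exact (d0 ((Mode.evz R).comp ((cfL 2 BC 0).comp (.fst ℂ _ _)))).unique
          ((Complex.hasStrictDerivAt_cpow_const (by simp)).hasDerivAt.congr_of_eventuallyEq
            (ev.mono fun y hy => he.tip0 R hR _ hy))
  have t1 : Tendsto (fun q : ℝ × A 2 => (q.1 : ℂ) ^ 2 * val (u q).1 z.1 z.2) (atTop ×ˢ 𝓝 h₀)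
      (𝓝 (Wf w z)) := by
    refine tendsto_iff_norm_sub_tendsto_zero.2
      (squeeze_zero' (Eventually.of_forall fun _ => norm_nonneg _) (key.mono fun _ h => h.2) ?_)
    simpa using (((tendsto_rpow_neg_atTop (show (0 : ℝ) < 1 / 4 by norm_num)).comp
      tendsto_fst).add (tendsto_iff_norm_sub_tendsto_zero.1 tendsto_snd)).const_mul
      (K * ‖m‖ * z.1)
  simpa using ((tY.comp tendsto_fst).mul t1).congr' (key.mono fun _ h => h.1)

/-! ### The main statements -/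

theorem inf_proof : InfStmt := by
  obtain ⟨η, C, hN⟩ := exists_nok 0
  have hη := hN.pos
  have hC := hN.one_le
  refine ⟨min (η / 32000) (1 / (4 * 10 ^ 8 * C)), η / 2, 32000, by positivity, by positivity,
    by norm_num, fun a ha => ?_⟩
  obtain ⟨E, hol, hE⟩ := exists_E hN ha
  set δ := min (η / 32000) (1 / (4 * 10 ^ 8 * C)) with hδ
  have hb : ball (0 : A 2) δ ⊆ ball 0 (η / 32000) := ball_subset_ball (min_le_left _ _)
  have hS : ∀ h ∈ ball (0 : A 2) δ, Sol η a h (E h) := fun h hh => (hE h (hb hh)).1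
  have hol' : DifferentiableOn ℂ (fun h => cyl + E h) (ball 0 δ) := (hol.mono hb).const_add _
  have eqn : ∀ h ∈ ball (0 : A 2) δ, ∀ b, PtEq a b (cyl + E h) := fun h hh b =>
    (hN.ptEq_iff (hS h hh).small).2 ((hS h hh).fin b).lin
  have hD : ∀ h ∈ ball (0 : A 2) δ, ∃ c : J6 (W 0), ‖c‖ ≤ 1 / 24000 ∧
      (∀ z θ H, dot (vals c z θ) H = fderiv ℂ Nc (vals (jets 0 (E h)) z θ) H) ∧ ∀ v,
      Rel a (fun _ => 1) v (dot c (jets 0 (fderiv ℂ E h v)) + 0) (fderiv ℂ E h v) := fun h hh => by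
    obtain ⟨c, hc, ec⟩ := hN.coef (jets_lt (hS h hh).small)
    exact ⟨c, hc, ec, fun v => ((hE h (hb hh)).2 v).congr (fun _ _ => rfl) fun z _ θ => by
      rw [hN.nat.val_fderiv (jets_lt (hS h hh).small), add_zero, val_dot, ec]⟩
  have real : ∀ h ∈ ball (0 : A 2) δ, star h = h → star (E h) = E h := fun h hh hs =>
    Sol.unique hN ha (by simpa [hs] using (hS h hh).star hN) (hS h hh)
  refine ⟨fun h => cyl + E h, hol', fun h hh => isTri_cyl_add (hS h hh).rel.isTri, eqn,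
    fun h hh k hk => by simp [cf_cyl_hi hk, (hS h hh).rel.hi k hk],
    fun h hh hs => by rw [star_add, star_cyl, real h hh hs], fun h hh => ⟨?_, fun z θ hz => ?_⟩,
    fun h hh h' hh' => ?_, fun h hh => good_of_small ((hS h hh).small.le.trans hN.le),
    fun h hh v => ?_, fun h hh v b => End.dEq_fderiv
      (hol'.differentiableAt (isOpen_ball.mem_nhds hh))
      (mem_of_superset (isOpen_ball.mem_nhds hh) fun x hx => eqn x hx b) v,
    fun h hh v => ?_, fun h hh v => ?_, fun h hh hs v hv => ?_, fun h hh p ht he hn hk => ?_,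
    fun Λ δ₁ C₁ R₁ C₂ cc Y e => x7_of hN ha hS, fun h hh hs => ?_⟩
  · rw [add_sub_cancel_left]
    linarith [(hS h hh).norm_le hN ha, norm_nonneg h]
  · have h1 : val ((z : ℂ) • (cyl + E h).2.1) z θ =
        val ((2 : ℂ) • (sec (E h) - NW 0 (jets 0 (E h)))) z θ :=
      val_congr (fun k => by rw [← (hS h hh).rel.lin.zd k hz]; simp [cyl, -Complex.coe_smul]) θ
    have h2 := (norm_val_le _ z θ).trans (norm_zd_le (E h) (NW 0 (jets 0 (E h))))
    rw [← h1, val_smul, norm_smul, Complex.norm_real, Real.norm_of_nonneg (by linarith)] at h2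
    have h3 := hN.norm_le (jets_lt (hS h hh).small)
    refine h2.trans ?_
    linarith [(hS h hh).norm_le hN ha, norm_jets_apply_le (E h), norm_nonneg h]
  · rw [add_sub_add_left_eq_sub]
    linarith [(hS h hh).lip hN ha (hS h' hh'), norm_nonneg (h - h')]
  · obtain ⟨c, -, -, hr⟩ := hD h hh
    rw [fderiv_const_add]
    exact (hr v).isTri
  · obtain ⟨c, -, -, hr⟩ := hD h hh
    rw [fderiv_const_add]
    exact (hr v).hi
  · obtain ⟨c, hc, -, hr⟩ := hD h hh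
    have := (hr v).le_var (admI_one ha) ha hc
    rw [norm_zero] at this
    rw [fderiv_const_add]
    linarith [norm_nonneg v]
  · obtain ⟨c, hc, ec, hr⟩ := hD h hh
    rw [fderiv_const_add]
    refine Rel.unique_var (admI_one ha) ha hc ((hr v).star.congr (fun _ _ => by rw [hv])
      fun z _ θ => ?_) (hr v)
    have hd := (hN.nat.anc _ (jets_lt (hS h hh).small) z θ).differentiableAt
    have e : star (vals (jets 0 (E h)) z θ) = vals (jets 0 (E h)) z θ := by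
      rw [← vals_star, real h hh hs]
    rw [val_star, add_zero, add_zero, val_dot, val_dot, ec, ec, ← star_fderiv_Nc hd (e.symm ▸ hd),
      e, vals_star]
  · have h1 : ‖p - cyl‖ < η := by linarith
    have h2 := isTri_iff.1 ht
    rw [← sub_eq_iff_eq_add']
    refine Sol.unique hN ha ⟨⟨fun k z => by simp [cf_cyl, ht.c0 k z],
      fun k z => by simp [cyl, ht.c1 k z], fun k z => by simp [cyl, ht.c2 k z], h2.2.sub tri_cyl,
      fun k z hz => (hN.ptEq_iff h1).1 (by rw [add_sub_cancel]; exact he z) k z ⟨hz, le_rfl⟩,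
      fun k h3 => by simp [cf_cyl_hi h3, hk k h3]⟩, h1⟩ (hS h hh)
  · obtain ⟨w, f, hw, nw⟩ := (hS h hh).exists_W hN ha
    have hr := hw.real hN ha (hS h hh).small (real h hh hs)
    refine ⟨Wf w, isW_of hN ha (hS h hh) hw hr (nw.trans ?_),
      fun Λ δ₁ C₁ R₁ C₂ C₀ R₀ cc Y e hΛ he hi h1 h2 z hz =>
        jac_lim hN ha (hS h hh) hw hr hΛ he hi h1 (by linarith) hz⟩
    have h1 := ((mem_ball_zero_iff.1 hh).trans_le (min_le_right _ _)).le
    rw [le_div_iff₀ (by positivity)] at h1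
    rw [← mul_div_assoc]
    exact div_le_div_of_nonneg_right (by linarith) (Real.rpow_nonneg (by linarith) _)

end

end Vale.Agent.P218F.EndI
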