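import Vale.Agent.P218F.EndGeom

/-!
# Cylindrical ends, `R = ∞`: the interface

`E h` is the solution on `[a, ∞) × S¹` near the round cylinder which has the modes `|k| ≥ 2` of `h`
at `z = a`.  It is the limit of the solutions `e R (h, y)` of `End.IsEnd`, and the derivative of
`e R (h, Y R c)` with respect to `c` tends to a Jacobi field of quadratic growth.
-/

set_option maxSynthPendingDepth 3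

namespace Vale.Agent.P218F.EndI

open Set Metric Filter Topology Wien Core
open Cone (W A T3 BC fn vT IsTri)
open End (cyl res3 PtEq DEq Dm IsEnd epol)
open scoped ContDiff Real

noncomputable section

/-- a real solution of the linearised equation at `p` which grows like `z²` -/
structure IsW (a : ℝ) (p : T3 0) (Wf : P2 → ℝ) : Prop where
  loc : ∃ K : ℝ, ∀ b, a ≤ b → ∃ w : T3 0, End.Tri a b w ∧ DEq a b p w ∧ ‖w‖ ≤ K * b ^ 2 ∧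
    ∀ z : P2, z.1 ∈ Icc a b → fn w z = Wf z
  per : ∀ z : P2, Wf (z.1, z.2 + 2 * π) = Wf z
  low : ∀ z : P2, a ≤ z.1 → z.1 ^ 2 / 20 ≤ Wf z

/-- the solver on the half line -/
structure IsInf (δ η C a : ℝ) (E : A 2 → T3 0) : Prop where
  hol : DifferentiableOn ℂ E (ball 0 δ)
  tri : ∀ h ∈ ball (0 : A 2) δ, IsTri a (E h)
  eqn : ∀ h ∈ ball (0 : A 2) δ, ∀ b, PtEq a b (E h)
  trace : ∀ h ∈ ball (0 : A 2) δ, ∀ k : ℤ, 2 ≤ |k| → cf (E h).1 k a = cf h k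
  real : ∀ h ∈ ball (0 : A 2) δ, star h = h → star (E h) = E h
  small : ∀ h ∈ ball (0 : A 2) δ, ‖E h - cyl‖ ≤ C * ‖h‖ ∧
    ∀ z θ, a ≤ z → z * ‖Cone.val (E h).2.1 z θ‖ ≤ C * ‖h‖
  lip : ∀ h ∈ ball (0 : A 2) δ, ∀ h' ∈ ball (0 : A 2) δ, ‖E h - E h'‖ ≤ C * ‖h - h'‖
  good : ∀ h ∈ ball (0 : A 2) δ, ∀ z θ, 1 ≤ (fn (E h) (z, θ)).re ∧
    1 ≤ (fn (E h) (z, θ) ^ 2 * (1 + Cone.val (E h).2.1 z θ ^ 2) + vT (E h) z θ ^ 2).re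
  dtri : ∀ h ∈ ball (0 : A 2) δ, ∀ v, IsTri a (fderiv ℂ E h v)
  deqn : ∀ h ∈ ball (0 : A 2) δ, ∀ v b, DEq a b (E h) (fderiv ℂ E h v)
  dtrace : ∀ h ∈ ball (0 : A 2) δ, ∀ v (k : ℤ), 2 ≤ |k| → cf (fderiv ℂ E h v).1 k a = cf v k
  dle : ∀ h ∈ ball (0 : A 2) δ, ∀ v, ‖fderiv ℂ E h v‖ ≤ C * ‖v‖
  dreal : ∀ h ∈ ball (0 : A 2) δ, star h = h → ∀ v, star v = v →
    star (fderiv ℂ E h v) = fderiv ℂ E h v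
  uniq : ∀ h ∈ ball (0 : A 2) δ, ∀ p : T3 0, IsTri a p → (∀ b, PtEq a b p) → ‖p - cyl‖ ≤ η →
    (∀ k : ℤ, 2 ≤ |k| → cf p.1 k a = cf h k) → p = E h
  /-- (X7), (X8): the limit `R → ∞`, uniformly in `(h, y)` -/
  x7 : ∀ (Λ δ₁ C₁ R₁ C₂ : ℝ) (cc Y : ℝ → ℂ → ℂ) (e : ℝ → A 2 × ℂ → T3 0),
    IsEnd Λ δ₁ C₁ a R₁ C₂ cc Y e → (∀ R, R₁ ≤ R → ∀ y ∈ Sym.D Λ R, ‖cc R y‖ ≤ 7 / R ^ 2) →
    ∀ Z ε : ℝ, a ≤ Z → 0 < ε → ∃ R₂, ∀ R, R₂ ≤ R → ∀ x ∈ Dm δ₁ Λ R, ‖x.1‖ < δ →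
      C₁ * ‖x.1‖ ≤ η / 2 → ‖res3 a Z (e R x) - res3 a Z (E x.1)‖ ≤ ε
  /-- the Jacobi field -/
  jac : ∀ h₀ ∈ ball (0 : A 2) δ, star h₀ = h₀ → ∃ Wf : P2 → ℝ, IsW a (E h₀) Wf ∧
    ∀ (Λ δ₁ C₁ R₁ C₂ C₀ R₀ : ℝ) (cc Y : ℝ → ℂ → ℂ) (e : ℝ → A 2 × ℂ → T3 0), 0 ≤ Λ →
      IsEnd Λ δ₁ C₁ a R₁ C₂ cc Y e → Sym.Inv C₀ Λ R₀ cc Y → ‖h₀‖ < δ₁ → C₁ * ‖h₀‖ < η →
      ∀ z : P2, a ≤ z.1 → Tendsto
        (fun q : ℝ × A 2 => deriv (fun t : ℂ => fn (e q.1 (q.2, Y q.1 t)) z) 0)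
        (atTop ×ˢ 𝓝 h₀) (𝓝 (Wf z))

/-- **Block END-INF**: the constants do not depend on `a` -/
def InfStmt : Prop := ∃ δ η C : ℝ, 0 < δ ∧ 0 < η ∧ 1 ≤ C ∧
  ∀ a, 16 ≤ a → ∃ E : A 2 → T3 0, IsInf δ η C a E

/-- a polar graph which solves the equation and tends to the cylinder belongs to the family -/
def BaseStmt : Prop := ∀ (δ η C : ℝ) (r : P2 → ℝ) (z₀ : ℝ), 0 < δ → 0 < η → ContDiff ℝ ∞ r →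
  (∀ z θ, r (z, θ + 2 * π) = r (z, θ)) → Ends.Decay (fun p => r p - √2) →
  (∀ z : P2, z₀ < z.1 →
    let J := jet2 (fun y => (r y : ℂ)) z
    epol (z.1 : ℂ) J.1 (J.2.1 (1, 0)) (J.2.1 (0, 1)) (J.2.2 (1, 0) (1, 0)) (J.2.2 (1, 0) (0, 1))
      (J.2.2 (0, 1) (0, 1)) = 0) →
  ∀ ε : ℝ, 0 < ε → ∃ Z : ℝ, ∀ a, Z ≤ a → ∀ E : A 2 → T3 0, IsInf δ η C a E →
    ∃ h₀ : A 2, ‖h₀‖ < δ ∧ ‖h₀‖ ≤ ε ∧ star h₀ = h₀ ∧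
      (∀ θ, ev 2 ℂ θ h₀ = ((r (a, θ) - √2 : ℝ) : ℂ)) ∧ ∀ z : P2, a ≤ z.1 → fn (E h₀) z = r z

end

end Vale.Agent.P218F.EndI
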