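import Vale.Agent.P218F.EndDef
import Vale.Agent.P218F.WienHol

/-!
# Cylindrical ends: the linear problem `v_zz - (z/2) v_z + wi (v_θθ + 2 v) = F` in Wiener spaces

Modes `|k| ≥ 2`: value at `a`, derivative at `b`.  Modes `|k| ≤ 1`: value and derivative at `b`.
-/

set_option maxSynthPendingDepth 3

noncomputable section

namespace Vale.Agent.P218F.End

open Set Metric Filter Topology Wien
open Cone (W A T3 BC vT vYT vTT jets)
open Mode (Clamped)

variable {a b : ℝ}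

/-- The potential of the mode `k`. -/
def pot (wi : BC) (k : ℤ) : BC := ((k : ℂ) ^ 2 - 2) • wi

theorem pot_apply (wi : BC) (k : ℤ) (z : ℝ) : pot wi k z = ((k : ℂ) ^ 2 - 2) * wi z := rfl

theorem pot_neg (wi : BC) (k : ℤ) : pot wi (-k) = pot wi k := by simp [pot]

theorem star_pot (wi : BC) (k : ℤ) : star (pot wi k) = pot (star wi) k := by
  ext z
  simp [pot_apply]

/-- The potentials with positive real part. -/
def Pos (a b : ℝ) : Set BC := {wi | ∃ ν : ℝ, 0 < ν ∧ ∀ z ∈ Icc a b, 2 * ν ^ 2 ≤ (wi z).re}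

theorem eventually_pos {wi : BC} {ν : ℝ} (hν : 0 < ν) (h : ∀ z ∈ Icc a b, 2 * ν ^ 2 ≤ (wi z).re) :
    ∀ᶠ w : BC in 𝓝 wi, (∀ z ∈ Icc a b, 2 * (ν / 2) ^ 2 ≤ (w z).re) ∧ ‖w‖ ≤ ‖wi‖ + ν ^ 2 := by
  filter_upwards [ball_mem_nhds wi (show 0 < ν ^ 2 by positivity)] with w hw
  rw [mem_ball_iff_norm] at hw
  refine ⟨fun z hz => ?_, ?_⟩
  · have h1 : ‖w z - wi z‖ ≤ ‖w - wi‖ := (w - wi).norm_coe_le_norm z
    have h2 := (abs_le.1 ((Complex.abs_re_le_norm (w z - wi z)).trans h1)).1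
    rw [Complex.sub_re] at h2
    have h3 := h z hz
    nlinarith
  · linarith [norm_sub_norm_le w wi]

theorem isOpen_pos (a b : ℝ) : IsOpen (Pos a b) :=
  isOpen_iff_mem_nhds.2 fun _ ⟨ν, hν, h⟩ =>
    (eventually_pos hν h).mono fun _ hw => ⟨ν / 2, by positivity, hw.1⟩

theorem mem_pos_of_le {wi : BC} {μ : ℝ} (hμ : 0 < μ) (h : ∀ z ∈ Icc a b, μ ≤ (wi z).re) :
    wi ∈ Pos a b :=
  ⟨√(μ / 2), by positivity, fun z hz => by
    rw [Real.sq_sqrt (by positivity)]; linarith [h z hz]⟩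

theorem star_mem_pos {wi : BC} (h : wi ∈ Pos a b) : star wi ∈ Pos a b := by
  obtain ⟨ν, hν, h⟩ := h
  exact ⟨ν, hν, fun z hz => by simpa using h z hz⟩

theorem two_le_abs {k : ℤ} (hk : 2 ≤ |k|) : (2 : ℝ) ≤ |(k : ℝ)| := by exact_mod_cast hk

theorem re_pot_ge {wi : BC} {ν : ℝ} {k : ℤ} (hk : 2 ≤ |k|) {z : ℝ} (h : 2 * ν ^ 2 ≤ (wi z).re) :
    (ν * |(k : ℝ)|) ^ 2 ≤ (pot wi k z).re := by
  have h1 := two_le_abs hk
  have e : ((k : ℂ) ^ 2 - 2) = (((k : ℝ) ^ 2 - 2 : ℝ) : ℂ) := by push_cast; ring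
  rw [pot_apply, e, Complex.re_ofReal_mul, mul_pow, sq_abs]
  have h2 : (4 : ℝ) ≤ (k : ℝ) ^ 2 := by nlinarith [sq_abs (k : ℝ)]
  nlinarith [mul_le_mul_of_nonneg_left h (show (0 : ℝ) ≤ (k : ℝ) ^ 2 - 2 by linarith),
    mul_nonneg (sq_nonneg ν) (show (0 : ℝ) ≤ (k : ℝ) ^ 2 - 4 by linarith)]

theorem norm_pot_le (wi : BC) {k : ℤ} (hk : 2 ≤ |k|) (z : ℝ) :
    ‖pot wi k z‖ ≤ |(k : ℝ)| ^ 2 * ‖wi‖ := by
  have h1 := two_le_abs hk
  have e : ((k : ℂ) ^ 2 - 2) = (((k : ℝ) ^ 2 - 2 : ℝ) : ℂ) := by push_cast; ring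
  have h2 : (4 : ℝ) ≤ (k : ℝ) ^ 2 := by nlinarith [sq_abs (k : ℝ)]
  rw [pot_apply, e, norm_mul, Complex.norm_real, Real.norm_of_nonneg (by linarith), sq_abs]
  exact mul_le_mul (by linarith) (wi.norm_coe_le_norm z) (norm_nonneg _) (by positivity)

theorem nondeg_pot (hab : a ≤ b) {wi : BC} (h : wi ∈ Pos a b) {k : ℤ}
    (hk : 2 ≤ |k|) : Nondeg a b (pot wi k) := by
  obtain ⟨ν, hν, h⟩ := h
  have h1 := two_le_abs hk
  refine nondeg_of_barrier hab (m := fun _ => 1) (m' := fun _ => 0) (m'' := fun _ => 0)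
    (fun z _ => hasDerivWithinAt_const _ _ _) (fun z _ => hasDerivWithinAt_const _ _ _)
    (fun _ _ => one_pos) (fun z hz => ?_) le_rfl
  have := re_pot_ge hk (h z hz)
  have h2 : 0 < (ν * |(k : ℝ)|) ^ 2 := by positivity
  linarith

/-- Unweighted bound for a mode with positive potential. -/
theorem MSol.bound0 (ha : 0 ≤ a) {β F u u₁ u₂ : ℝ → ℂ} (hs : MSol a b β F u u₁ u₂) {κ M : ℝ}
    (hκ : 0 < κ) (hβ : ∀ z ∈ Icc a b, κ ^ 2 ≤ (β z).re) (hF : ∀ z ∈ Icc a b, ‖F z‖ ≤ M) {z : ℝ}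
    (hz : z ∈ Icc a b) : ‖u z‖ ≤ ‖u a‖ + ‖u₁ b‖ / κ + M / κ ^ 2 := by
  have hM : 0 ≤ M := (norm_nonneg _).trans (hF z hz)
  refine le_of_forall_pos_le_add fun ε hε => ?_
  set G := ‖u₁ b‖ with hG
  have hG0 : 0 ≤ G := norm_nonneg _
  set M₀ := ‖u a‖ + M / κ ^ 2 + ε with hM₀
  have hM0 : 0 < M₀ := by positivity
  have de : ∀ z, HasDerivAt (fun z => Real.exp (κ * (z - b))) (Real.exp (κ * (z - b)) * κ) z :=
    fun z => by simpa using (((hasDerivAt_id z).sub_const b).const_mul κ).exp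
  have key : ∀ z ∈ Icc a b, κ ^ 2 * M₀ ≤ (β z).re * (M₀ + G / κ * Real.exp (κ * (z - b))) -
      G * (Real.exp (κ * (z - b)) * κ) + z / 2 * (G * Real.exp (κ * (z - b))) := fun z hz => by
    have h1 := hβ z hz
    have h2 := Real.exp_pos (κ * (z - b))
    have h3 : 0 ≤ z / 2 * (G * Real.exp (κ * (z - b))) := by
      have := ha.trans hz.1
      positivity
    have h4 : κ ^ 2 * (M₀ + G / κ * Real.exp (κ * (z - b))) ≤
        (β z).re * (M₀ + G / κ * Real.exp (κ * (z - b))) :=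
      mul_le_mul_of_nonneg_right h1 (by positivity)
    have h5 : κ ^ 2 * (M₀ + G / κ * Real.exp (κ * (z - b))) =
        κ ^ 2 * M₀ + G * (Real.exp (κ * (z - b)) * κ) := by field_simp
    linarith
  have h := maxP (β := β) (A := fun z => z / 2)
    (m := fun z => M₀ + G / κ * Real.exp (κ * (z - b)))
    (m' := fun z => G * Real.exp (κ * (z - b))) (m'' := fun z => G * (Real.exp (κ * (z - b)) * κ))
    hs.d0 hs.d1
    (fun z _ => ((((de z).const_mul (G / κ)).const_add M₀).congr_deriv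
      (by field_simp)).hasDerivWithinAt)
    (fun z _ => ((de z).const_mul G).hasDerivWithinAt) (fun z _ => by positivity)
    (fun z hz => lt_of_lt_of_le (by positivity) (key z hz))
    (fun z hz => by
      have e := hs.eq z hz
      push_cast
      rw [e]
      refine le_trans ((hF z hz).trans ?_) (key z hz)
      have : κ ^ 2 * M₀ = κ ^ 2 * ‖u a‖ + M + κ ^ 2 * ε := by rw [hM₀]; field_simp
      rw [this]
      have : 0 ≤ κ ^ 2 * ‖u a‖ := by positivity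
      have : 0 ≤ κ ^ 2 * ε := by positivity
      linarith)
    (by
      have : 0 ≤ G / κ * Real.exp (κ * (a - b)) := by positivity
      have : 0 ≤ M / κ ^ 2 := by positivity
      simp only [hM₀]
      linarith)
    (by simp [hG]) hz
  have h1 : Real.exp (κ * (z - b)) ≤ 1 :=
    Real.exp_le_one_iff.2 (mul_nonpos_of_nonneg_of_nonpos hκ.le (by linarith [hz.2]))
  have h2 : G / κ * Real.exp (κ * (z - b)) ≤ G / κ := mul_le_of_le_one_right (by positivity) h1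
  simp only [hM₀] at h
  linarith

/-- Unweighted bound for the derivative. -/
theorem MSol.bound1 (ha : 0 ≤ a) {β F u u₁ u₂ : ℝ → ℂ} (hs : MSol a b β F u u₁ u₂)
    {n M B L : ℝ} (hn : 0 < n) (hβ : ∀ z ∈ Icc a b, ‖β z‖ ≤ L) (hF : ∀ z ∈ Icc a b, ‖F z‖ ≤ M)
    (hu : ∀ z ∈ Icc a b, ‖u z‖ ≤ B) {z : ℝ} (hz : z ∈ Icc a b) :
    ‖u₁ z‖ ≤ ‖u₁ b‖ + (3 * n + b / 2 + L / n) * B + M / n := by
  have hb : b ∈ Icc a b := right_mem_Icc.2 (hz.1.trans hz.2)
  have hM : 0 ≤ M := (norm_nonneg _).trans (hF z hz)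
  have hB : 0 ≤ B := (norm_nonneg _).trans (hu z hz)
  have hL : 0 ≤ L := (norm_nonneg _).trans (hβ z hz)
  have hb0 : 0 ≤ b := ha.trans (hz.1.trans hz.2)
  set Y := ‖u₁ b‖ + (2 * n + b / 2 + L / n) * B + M / n with hY
  have nn : ∀ z ∈ Icc a b, ‖(n : ℂ) * u z‖ ≤ n * B := fun z hz => by
    rw [norm_mul, Complex.norm_real, Real.norm_of_nonneg hn.le]
    exact mul_le_mul_of_nonneg_left (hu z hz) hn.le
  have h := fence1 (y := fun z => u₁ z + n * u z) (y' := fun z => u₂ z + n * u₁ z)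
    (Y := fun _ => Y) (Y' := fun _ => 0) (A := fun z => z / 2 + n) (B := fun z => z ^ 2 / 4 + n * z)
    (fun z hz => (hs.d1 z hz).add ((hs.d0 z hz).const_mul _))
    (fun z _ => hasDerivWithinAt_const _ _ _)
    (fun z _ => by
      have := (((hasDerivAt_pow 2 z).div_const 4).add ((hasDerivAt_id z).const_mul n))
      exact (this.congr_deriv (by simp; ring)).hasDerivWithinAt)
    (fun z hz => by
      have hz0 : 0 ≤ z := ha.trans hz.1
      have e : u₂ z + n * u₁ z - ((z / 2 + n : ℝ) : ℂ) * (u₁ z + n * u z) =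
          F z + β z * u z - ((z / 2 + n : ℝ) : ℂ) * (n * u z) := by
        rw [← hs.eq z hz]; push_cast; ring
      have h1 : ‖β z * u z‖ ≤ L * B := by
        rw [norm_mul]; exact mul_le_mul (hβ z hz) (hu z hz) (norm_nonneg _) hL
      have h2 : ‖((z / 2 + n : ℝ) : ℂ) * (n * u z)‖ ≤ (b / 2 + n) * (n * B) := by
        rw [norm_mul, Complex.norm_real, Real.norm_of_nonneg (by positivity)]
        exact mul_le_mul (by linarith [hz.2]) (nn z hz) (norm_nonneg _) (by positivity)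
      have h3 : ‖F z + β z * u z - ((z / 2 + n : ℝ) : ℂ) * (n * u z)‖ ≤
          M + L * B + (b / 2 + n) * (n * B) :=
        (norm_sub_le _ _).trans (add_le_add ((norm_add_le _ _).trans (add_le_add (hF z hz) h1)) h2)
      have h4 : n * Y = n * ‖u₁ b‖ + n * (n * B) + (M + L * B + (b / 2 + n) * (n * B)) := by
        rw [hY]; field_simp; ring
      have h5 : 0 ≤ z / 2 * Y := by positivity
      have h6 : 0 ≤ n * ‖u₁ b‖ + n * (n * B) := by positivity
      rw [e, zero_add, add_mul]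
      linarith)
    (by
      refine (norm_add_le _ _).trans ?_
      have h1 := nn b hb
      have h2 : 0 ≤ (n + b / 2 + L / n) * B := by positivity
      have h3 : 0 ≤ M / n := by positivity
      rw [hY]
      nlinarith) hz
  have h1 : ‖u₁ z‖ ≤ ‖u₁ z + n * u z‖ + ‖(n : ℂ) * u z‖ := by
    simpa using norm_sub_le (u₁ z + n * u z) (n * u z)
  have h2 := nn z hz
  rw [hY] at h
  nlinarith

/-- The solution operator of the mode `k`. -/
def modeOp (a b : ℝ) (wi : BC) (k : ℤ) : ℂ × ℂ × BC →L[ℂ] BC × BC × BC :=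
  if 2 ≤ |k| then dn a b (pot wi k) else ivp a b (pot wi k)

theorem msol_modeOp (wi : BC) (k : ℤ) (d : ℂ × ℂ × BC) : MSol a b (pot wi k) d.2.2
    (modeOp a b wi k d).1 (modeOp a b wi k d).2.1 (modeOp a b wi k d).2.2 := by
  unfold modeOp
  split_ifs
  · exact msol_dn _ d
  · exact msol_ivp _ d

theorem clamped_modeOp (hab : a ≤ b) (wi : BC) (k : ℤ) (d : ℂ × ℂ × BC) :
    Clamped a b (modeOp a b wi k d).1 ∧ Clamped a b (modeOp a b wi k d).2.1 ∧
      Clamped a b (modeOp a b wi k d).2.2 := by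
  unfold modeOp
  split_ifs
  · exact clamped_dn hab _ d
  · exact clamped_ivp hab _ d

theorem modeOp_right (hab : a ≤ b) (wi : BC) (k : ℤ) (d : ℂ × ℂ × BC) :
    (modeOp a b wi k d).2.1 b = d.2.1 := by
  unfold modeOp
  split_ifs
  · exact dn_right hab _ d
  · exact (ivp_right hab _ d).2

theorem modeOp_high (hab : a ≤ b) {wi : BC} (h : wi ∈ Pos a b) {k : ℤ} (hk : 2 ≤ |k|)
    (d : ℂ × ℂ × BC) : (modeOp a b wi k d).1 a = d.1 := by
  rw [modeOp, if_pos hk]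
  exact dn_left (nondeg_pot hab h hk) d

theorem modeOp_low (hab : a ≤ b) (wi : BC) {k : ℤ} (hk : ¬ 2 ≤ |k|) (d : ℂ × ℂ × BC) :
    (modeOp a b wi k d).1 b = d.1 := by
  rw [modeOp, if_neg hk]
  exact (ivp_right hab _ d).1

theorem star_modeOp (hab : a ≤ b) (wi : BC) (k : ℤ) (d : ℂ × ℂ × BC) :
    star (modeOp a b wi (-k) d) = modeOp a b (star wi) k (star d) := by
  unfold modeOp
  rw [abs_neg, pot_neg, ← star_pot]
  split_ifs
  · exact star_dn hab _ d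
  · exact star_ivp hab _ d

theorem differentiableAt_modeOp (hab : a ≤ b) {wi : BC} (h : wi ∈ Pos a b) (k : ℤ) :
    DifferentiableAt ℂ (fun w => modeOp a b w k) wi := by
  have hp : DifferentiableAt ℂ (fun w : BC => pot w k) wi := by unfold pot; fun_prop
  unfold modeOp
  split_ifs with hk
  · exact differentiableAt_dn hab hp (nondeg_pot hab h hk)
  · exact differentiableAt_ivp hab hp

/-- The size of the data of the mode `k`. -/
def dN (k : ℤ) (d : ℂ × ℂ × BC) : ℝ := wt 2 k * ‖d.1‖ + wt 1 k * ‖d.2.1‖ + ‖d.2.2‖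

/-- The bound for all modes. -/
def Bd (a b : ℝ) (wi : BC) (K : ℝ) : Prop := ∀ k d,
  wt 2 k * ‖(modeOp a b wi k d).1‖ ≤ K * dN k d ∧ wt 1 k * ‖(modeOp a b wi k d).2.1‖ ≤ K * dN k d ∧
    ‖(modeOp a b wi k d).2.2‖ ≤ K * dN k d

/-- The constant for the high modes. -/
def cH (b ν L : ℝ) : ℝ := (3 + b + L) * (2 + (3 + b + L) * (1 + ν⁻¹ + ν⁻¹ ^ 2))

theorem high_bound (ha : 0 ≤ a) (hab : a ≤ b) {wi : BC} {ν L : ℝ} (hν : 0 < ν)
    (h : ∀ z ∈ Icc a b, 2 * ν ^ 2 ≤ (wi z).re) (hL : ‖wi‖ ≤ L) {k : ℤ} (hk : 2 ≤ |k|)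
    (d : ℂ × ℂ × BC) : wt 2 k * ‖(modeOp a b wi k d).1‖ ≤ cH b ν L * dN k d ∧
      wt 1 k * ‖(modeOp a b wi k d).2.1‖ ≤ cH b ν L * dN k d ∧
      ‖(modeOp a b wi k d).2.2‖ ≤ cH b ν L * dN k d := by
  have hs := msol_modeOp (a := a) (b := b) wi k d
  obtain ⟨c0, c1, c2⟩ := clamped_modeOp hab wi k d
  have e0 := modeOp_high hab ⟨ν, hν, h⟩ hk d
  have e1 := modeOp_right hab wi k d
  set n := |(k : ℝ)| with hn
  have h2 : 2 ≤ n := two_le_abs hk
  have hb0 : 0 ≤ b := ha.trans hab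
  have hL0 : 0 ≤ L := (norm_nonneg _).trans hL
  set N := dN k d with hN
  set c := 1 + ν⁻¹ + ν⁻¹ ^ 2 with hc
  have w2 : wt 2 k = (1 + n) ^ 2 := wt_int 2 k
  have w1 : wt 1 k = 1 + n := by rw [wt_int, pow_one]
  have g0 := norm_nonneg d.1
  have g1 := norm_nonneg d.2.1
  have g2 := norm_nonneg d.2.2
  have n0 : n ^ 2 * ‖d.1‖ ≤ N := by rw [hN, dN, w2, w1]; nlinarith
  have n1 : n * ‖d.2.1‖ ≤ N := by rw [hN, dN, w2, w1]; nlinarith
  have n2 : ‖d.2.2‖ ≤ N := by rw [hN, dN, w2, w1]; nlinarith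
  have N0 : 0 ≤ N := g2.trans n2
  have hF : ∀ z ∈ Icc a b, ‖d.2.2 z‖ ≤ ‖d.2.2‖ := fun z _ => d.2.2.norm_coe_le_norm z
  have hβ : ∀ z ∈ Icc a b, ‖pot wi k z‖ ≤ n ^ 2 * L := fun z _ =>
    (norm_pot_le wi hk z).trans (by gcongr)
  have b0 : ∀ z ∈ Icc a b, ‖(modeOp a b wi k d).1 z‖ ≤ c * N / n ^ 2 := fun z hz => by
    refine (hs.bound0 ha (κ := ν * n) (by positivity) (fun z hz => re_pot_ge hk (h z hz)) hF
      hz).trans ?_
    rw [e0, e1, le_div_iff₀ (by positivity)]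
    have : (‖d.1‖ + ‖d.2.1‖ / (ν * n) + ‖d.2.2‖ / (ν * n) ^ 2) * n ^ 2 =
        n ^ 2 * ‖d.1‖ + ν⁻¹ * (n * ‖d.2.1‖) + ν⁻¹ ^ 2 * ‖d.2.2‖ := by field_simp
    rw [this, hc]
    have t1 : ν⁻¹ * (n * ‖d.2.1‖) ≤ ν⁻¹ * N := by gcongr
    have t2 : ν⁻¹ ^ 2 * ‖d.2.2‖ ≤ ν⁻¹ ^ 2 * N := by gcongr
    linarith
  have c0' : 0 ≤ c * N := by positivity
  have b1 : ∀ z ∈ Icc a b, ‖(modeOp a b wi k d).2.1 z‖ ≤ (2 + (3 + b + L) * c) * N / n :=
    fun z hz => by
      refine (hs.bound1 ha (n := n) (by positivity) hβ hF b0 hz).trans ?_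
      rw [e1, le_div_iff₀ (by positivity)]
      have : (‖d.2.1‖ + (3 * n + b / 2 + n ^ 2 * L / n) * (c * N / n ^ 2) + ‖d.2.2‖ / n) * n =
          n * ‖d.2.1‖ + (3 + b / (2 * n) + L) * (c * N) + ‖d.2.2‖ := by field_simp
      rw [this]
      have t1 : b / (2 * n) ≤ b := div_le_self hb0 (by linarith)
      have t2 : (3 + b / (2 * n) + L) * (c * N) ≤ (3 + b + L) * (c * N) := by gcongr
      nlinarith
  set Q := (2 + (3 + b + L) * c) * N with hQ
  have q0 : c * N ≤ Q := by rw [hQ]; nlinarith [mul_nonneg (show 0 ≤ 2 + b + L by positivity) c0']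
  have q1 : N ≤ Q := by rw [hQ]; nlinarith [mul_nonneg (show 0 ≤ 3 + b + L by positivity) c0']
  have Q0 : 0 ≤ Q := N0.trans q1
  have eH : cH b ν L * N = (3 + b + L) * Q := by rw [cH, hQ, hc]; ring
  rw [eH]
  refine ⟨?_, ?_, c2.norm_le hab fun z hz => ?_⟩
  · have := c0.norm_le hab b0
    rw [le_div_iff₀ (by positivity)] at this
    have t : (1 + n) ^ 2 ≤ 3 * n ^ 2 := by nlinarith
    calc _ ≤ 3 * n ^ 2 * ‖(modeOp a b wi k d).1‖ := by rw [w2]; gcongr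
      _ ≤ 3 * Q := by linarith
      _ ≤ _ := by gcongr; linarith
  · have := c1.norm_le hab b1
    rw [le_div_iff₀ (by positivity)] at this
    calc _ ≤ 3 * n * ‖(modeOp a b wi k d).2.1‖ := by rw [w1]; gcongr; linarith
      _ ≤ 3 * Q := by linarith
      _ ≤ _ := by gcongr; linarith
  · have e : (modeOp a b wi k d).2.2 z = (z : ℂ) / 2 * (modeOp a b wi k d).2.1 z +
        pot wi k z * (modeOp a b wi k d).1 z + d.2.2 z := by rw [← hs.eq z hz]; ring
    have hz0 : 0 ≤ z := ha.trans hz.1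
    have t1 : ‖(z : ℂ) / 2 * (modeOp a b wi k d).2.1 z‖ ≤ b * Q := by
      rw [norm_mul, norm_div, Complex.norm_real, Real.norm_of_nonneg hz0, Complex.norm_two]
      exact mul_le_mul (by linarith [hz.2]) ((b1 z hz).trans (div_le_self Q0 (by linarith)))
        (norm_nonneg _) hb0
    have t2 : ‖pot wi k z * (modeOp a b wi k d).1 z‖ ≤ L * Q := by
      rw [norm_mul]
      calc _ ≤ n ^ 2 * L * (c * N / n ^ 2) :=
            mul_le_mul (hβ z hz) (b0 z hz) (norm_nonneg _) (by positivity)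
        _ = L * (c * N) := by field_simp
        _ ≤ _ := by gcongr
    have t3 := (hF z hz).trans (n2.trans q1)
    rw [e]
    refine (norm_add₃_le).trans ((add_le_add (add_le_add t1 t2) t3).trans ?_)
    have : (3 + b + L) * Q = b * Q + L * Q + 3 * Q := by ring
    rw [this]
    linarith

theorem norm_le_dN (k : ℤ) (d : ℂ × ℂ × BC) : ‖d‖ ≤ dN k d := by
  have h1 := le_mul_of_one_le_left (norm_nonneg d.1) (one_le_wt 2 k)
  have h2 := le_mul_of_one_le_left (norm_nonneg d.2.1) (one_le_wt 1 k)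
  have g0 := norm_nonneg d.1
  have g1 := norm_nonneg d.2.1
  have g2 := norm_nonneg d.2.2
  unfold dN
  exact max_le (by linarith) (max_le (by linarith) (by linarith))

theorem low_bound {w : BC} {k : ℤ} (hk : ¬ 2 ≤ |k|) {K₀ : ℝ} (hn : ‖modeOp a b w k‖ ≤ K₀)
    (d : ℂ × ℂ × BC) : wt 2 k * ‖(modeOp a b w k d).1‖ ≤ 4 * K₀ * dN k d ∧
      wt 1 k * ‖(modeOp a b w k d).2.1‖ ≤ 4 * K₀ * dN k d ∧
      ‖(modeOp a b w k d).2.2‖ ≤ 4 * K₀ * dN k d := by
  have hK0 : 0 ≤ K₀ := (norm_nonneg _).trans hn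
  have N0 : 0 ≤ dN k d := (norm_nonneg _).trans (norm_le_dN k d)
  have hk' : k = -1 ∨ k = 0 ∨ k = 1 := by
    have := abs_lt.1 (not_le.1 hk)
    omega
  have hw2 : wt 2 k ≤ 4 := by
    rcases hk' with rfl | rfl | rfl <;> rw [wt_int] <;> norm_num
  have hw1 : wt 1 k ≤ 4 := (wt_mono one_le_two k).trans hw2
  have hm : ‖modeOp a b w k d‖ ≤ K₀ * dN k d :=
    ((modeOp a b w k).le_opNorm d).trans (mul_le_mul hn (norm_le_dN k d) (norm_nonneg _) hK0)
  have m0 := (norm_fst_le _).trans hm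
  have m1 := ((norm_fst_le _).trans (norm_snd_le _)).trans hm
  have m2 := ((norm_snd_le _).trans (norm_snd_le _)).trans hm
  have t0 : 0 ≤ K₀ * dN k d := by positivity
  rw [mul_assoc 4]
  exact ⟨mul_le_mul hw2 m0 (norm_nonneg _) (by norm_num),
    mul_le_mul hw1 m1 (norm_nonneg _) (by norm_num), m2.trans (by linarith)⟩

theorem eventually_bd (ha : 0 ≤ a) (hab : a ≤ b) {wi : BC} (h : wi ∈ Pos a b) :
    ∃ K, 0 ≤ K ∧ ∀ᶠ w in 𝓝 wi, Bd a b w K := by
  obtain ⟨f, hf⟩ : ∃ f : ℤ → ℝ, ∀ k, f k = ‖modeOp a b wi k‖ := ⟨_, fun _ => rfl⟩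
  have hl : ∀ k : ℤ, ∀ᶠ w in 𝓝 wi, ‖modeOp a b w k‖ ≤ f k + 1 := fun k => by
    rw [hf]
    exact ((differentiableAt_modeOp hab h k).continuousAt.norm.eventually
      (Iio_mem_nhds (lt_add_one _))).mono fun _ hw => le_of_lt hw
  have hf0 : ∀ k, 0 ≤ f k := fun k => by rw [hf]; exact norm_nonneg _
  obtain ⟨ν, hν, h⟩ := h
  have hb0 : 0 ≤ b := ha.trans hab
  have hc : 0 ≤ cH b (ν / 2) (‖wi‖ + ν ^ 2) := by unfold cH; positivity
  have g0 := hf0 (-1)
  have g1 := hf0 0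
  have g2 := hf0 1
  refine ⟨cH b (ν / 2) (‖wi‖ + ν ^ 2) + 4 * (f (-1) + f 0 + f 1 + 1), by positivity, ?_⟩
  filter_upwards [eventually_pos hν h, hl (-1), hl 0, hl 1] with w hw h1 h2 h3 k d
  have N0 : 0 ≤ dN k d := (norm_nonneg _).trans (norm_le_dN k d)
  by_cases hk : 2 ≤ |k|
  · obtain ⟨t0, t1, t2⟩ := high_bound ha hab (by positivity) hw.1 hw.2 hk d
    have t : cH b (ν / 2) (‖wi‖ + ν ^ 2) * dN k d ≤
        (cH b (ν / 2) (‖wi‖ + ν ^ 2) + 4 * (f (-1) + f 0 + f 1 + 1)) * dN k d :=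
      mul_le_mul_of_nonneg_right (by linarith) N0
    exact ⟨t0.trans t, t1.trans t, t2.trans t⟩
  · have hk' : k = -1 ∨ k = 0 ∨ k = 1 := by
      have := abs_lt.1 (not_le.1 hk)
      omega
    have hn : ‖modeOp a b w k‖ ≤ f (-1) + f 0 + f 1 + 1 := by
      rcases hk' with rfl | rfl | rfl
      · exact h1.trans (by linarith)
      · exact h2.trans (by linarith)
      · exact h3.trans (by linarith)
    obtain ⟨t0, t1, t2⟩ := low_bound hk hn d
    have t : 4 * (f (-1) + f 0 + f 1 + 1) * dN k d ≤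
        (cH b (ν / 2) (‖wi‖ + ν ^ 2) + 4 * (f (-1) + f 0 + f 1 + 1)) * dN k d :=
      mul_le_mul_of_nonneg_right (by linarith) N0
    exact ⟨t0.trans t, t1.trans t, t2.trans t⟩

theorem exists_bd (ha : 0 ≤ a) (hab : a ≤ b) {wi : BC} (h : wi ∈ Pos a b) :
    ∃ K, 0 ≤ K ∧ Bd a b wi K :=
  (eventually_bd ha hab h).imp fun _ hK => ⟨hK.1, hK.2.self_of_nhds⟩

/-- The data space of one mode. -/
abbrev MD := ℂ × ℂ × BC

/-- The data space. -/
abbrev LD := A 2 × A 1 × W 0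

/-- The data of the mode `k`. -/
def md (d : LD) (k : ℤ) : MD := (cf d.1 k, cf d.2.1 k, cf d.2.2 k)

/-- Inclusions into the data space of one mode. -/
def i0 : ℂ →L[ℂ] MD := .inl ℂ _ _
/-- Inclusions into the data space of one mode. -/
def i1 : ℂ →L[ℂ] MD := (ContinuousLinearMap.inr ℂ _ _).comp (.inl ℂ _ _)
/-- Inclusions into the data space of one mode. -/
def i2 : BC →L[ℂ] MD := (ContinuousLinearMap.inr ℂ _ _).comp (.inr ℂ _ _)

theorem i0_apply (c : ℂ) : i0 c = (c, 0, 0) := rfl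
theorem i1_apply (c : ℂ) : i1 c = (0, c, 0) := rfl
theorem i2_apply (f : BC) : i2 f = (0, 0, f) := rfl

/-- A diagonal operator on the data space. -/
def diagD (t : ℕ) (m : ℤ → MD →L[ℂ] BC) : LD →L[ℂ] W t :=
  (diag' 2 t fun k => (m k).comp i0).comp (.fst ℂ _ _) +
    (diag' 1 t fun k => (m k).comp i1).comp ((ContinuousLinearMap.fst ℂ _ _).comp (.snd ℂ _ _)) +
    (diag' 0 t fun k => (m k).comp i2).comp ((ContinuousLinearMap.snd ℂ _ _).comp (.snd ℂ _ _))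

theorem diagD_bounds {t : ℕ} {m : ℤ → MD →L[ℂ] BC} {K : ℝ} (hK : 0 ≤ K)
    (h : ∀ k d, wt t k * ‖m k d‖ ≤ K * dN k d) :
    (∀ k, wt t k * ‖(m k).comp i0‖ ≤ K * wt 2 k) ∧ (∀ k, wt t k * ‖(m k).comp i1‖ ≤ K * wt 1 k) ∧
      ∀ k, wt t k * ‖(m k).comp i2‖ ≤ K * wt 0 k := by
  refine ⟨fun k => ?_, fun k => ?_, fun k => ?_⟩ <;>
  · have h1 := wt_pos t k
    have h2 := wt_pos 2 k
    have h3 := wt_pos 1 k
    have h4 := wt_pos 0 k
    rw [← le_div_iff₀' h1]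
    refine ContinuousLinearMap.opNorm_le_bound _ (by positivity) fun x => ?_
    rw [div_mul_eq_mul_div, le_div_iff₀' h1]
    refine (h k _).trans (le_of_eq ?_)
    simp [dN, i0_apply, i1_apply, i2_apply, mul_assoc]

theorem cf_diagD {t : ℕ} {m : ℤ → MD →L[ℂ] BC} {K : ℝ} (hK : 0 ≤ K)
    (h : ∀ k d, wt t k * ‖m k d‖ ≤ K * dN k d) (d : LD) (k : ℤ) :
    cf (diagD t m d) k = m k (md d k) := by
  obtain ⟨h0, h1, h2⟩ := diagD_bounds hK h
  have e : md d k = i0 (cf d.1 k) + i1 (cf d.2.1 k) + i2 (cf d.2.2 k) := by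
    simp [md, i0_apply, i1_apply, i2_apply]
  change cf (diag' 2 t (fun k => (m k).comp i0) d.1 + diag' 1 t (fun k => (m k).comp i1) d.2.1 +
    diag' 0 t (fun k => (m k).comp i2) d.2.2) k = _
  rw [cf_add, cf_add, cf_diag' h0, cf_diag' h1, cf_diag' h2, e, map_add, map_add]
  rfl

theorem differentiableOn_diagD {P : Type*} [NormedAddCommGroup P] [NormedSpace ℂ P] {U : Set P}
    (hU : IsOpen U) {t : ℕ} {m : P → ℤ → MD →L[ℂ] BC}
    (hb : ∀ p ∈ U, ∃ K, 0 ≤ K ∧ ∀ᶠ q in 𝓝 p, ∀ k d, wt t k * ‖m q k d‖ ≤ K * dN k d)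
    (hd : ∀ k, DifferentiableOn ℂ (fun q => m q k) U) :
    DifferentiableOn ℂ (fun q => diagD t (m q)) U := by
  refine (((differentiableOn_diag' hU (fun p hp => ?_) fun k => (hd k).clm_comp
    (differentiableOn_const _)).clm_comp (differentiableOn_const _)).add
    ((differentiableOn_diag' hU (fun p hp => ?_) fun k => (hd k).clm_comp
    (differentiableOn_const _)).clm_comp (differentiableOn_const _))).add
    ((differentiableOn_diag' hU (fun p hp => ?_) fun k => (hd k).clm_comp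
    (differentiableOn_const _)).clm_comp (differentiableOn_const _))
  · obtain ⟨K, hK, h⟩ := hb p hp
    exact ⟨K, h.mono fun q hq => (diagD_bounds hK hq).1⟩
  · obtain ⟨K, hK, h⟩ := hb p hp
    exact ⟨K, h.mono fun q hq => (diagD_bounds hK hq).2.1⟩
  · obtain ⟨K, hK, h⟩ := hb p hp
    exact ⟨K, h.mono fun q hq => (diagD_bounds hK hq).2.2⟩

/-- Projections from the triples of one mode. -/
def p0 : BC × BC × BC →L[ℂ] BC := .fst ℂ _ _
/-- Projections from the triples of one mode. -/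
def p1 : BC × BC × BC →L[ℂ] BC := (ContinuousLinearMap.fst ℂ _ _).comp (.snd ℂ _ _)
/-- Projections from the triples of one mode. -/
def p2 : BC × BC × BC →L[ℂ] BC := (ContinuousLinearMap.snd ℂ _ _).comp (.snd ℂ _ _)

/-- The solution operator `(g₀, g₁, F) ↦ (v, v_z, v_zz)`. -/
def lin (a b : ℝ) (wi : BC) : LD →L[ℂ] T3 0 :=
  (diagD 2 fun k => p0.comp (modeOp a b wi k)).prod
    ((diagD 1 fun k => p1.comp (modeOp a b wi k)).prod (diagD 0 fun k => p2.comp (modeOp a b wi k)))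

/-- The operator `v_zz - (z/2) v_z + wi (v_θθ + 2 v)`. -/
def Lop (a b : ℝ) (wi : BC) : T3 0 →L[ℂ] W 0 :=
  (ContinuousLinearMap.snd ℂ _ _).comp (.snd ℂ _ _) -
    (mapL ℤ 0 (Mode.M (drift a b))).comp ((incl ℤ BC (Nat.le_succ 0)).comp
      ((ContinuousLinearMap.fst ℂ _ _).comp (.snd ℂ _ _))) +
    (mapL ℤ 0 (Mode.M wi)).comp (((dth 0 BC).comp (dth 1 BC) +
      (2 : ℂ) • incl ℤ BC (Nat.zero_le 2)).comp (.fst ℂ _ _))

theorem Lop_apply (wi : BC) (p : T3 0) : Lop a b wi p =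
    p.2.2 - mapL ℤ 0 (Mode.M (drift a b)) (incl ℤ BC (Nat.le_succ 0) p.2.1) +
      mapL ℤ 0 (Mode.M wi) (dth 0 BC (dth 1 BC p.1) + (2 : ℂ) • incl ℤ BC (Nat.zero_le 2) p.1) :=
  rfl

theorem mapL_M (s : ℕ) (f : BC) (u : W s) : mapL ℤ s (Mode.M f) u = const ℤ s BC f * u := by
  ext k : 1
  rw [cf_mapL, cf_const_mul]
  rfl

theorem Lop_eq (wi : BC) (p : T3 0) : Lop a b wi p =
    p.2.2 - const ℤ 0 BC (drift a b) * incl ℤ BC (Nat.le_succ 0) p.2.1 +
      const ℤ 0 BC wi * (dth 0 BC (dth 1 BC p.1) + (2 : ℂ) • incl ℤ BC (Nat.zero_le 2) p.1) := by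
  rw [Lop_apply, mapL_M, mapL_M]

theorem cf_Lop (wi : BC) (p : T3 0) (k : ℤ) (z : ℝ) : cf (Lop a b wi p) k z =
    cf p.2.2 k z - drift a b z * cf p.2.1 k z - pot wi k z * cf p.1 k z := by
  simp only [Lop_apply, cf_add, cf_sub, cf_mapL, cf_incl, cf_dth, cf_smul, pot_apply]
  change cf p.2.2 k z - drift a b z * cf p.2.1 k z +
    wi z * (Complex.I * k * (Complex.I * k * cf p.1 k z) + 2 * cf p.1 k z) = _
  linear_combination (wi z * (k : ℂ) ^ 2 * cf p.1 k z) * Complex.I_sq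

theorem val_Lop (wi : BC) (p : T3 0) {z : ℝ} (hz : z ∈ Icc a b) (θ : ℝ) :
    val (Lop a b wi p) z θ =
      val p.2.2 z θ - (z : ℂ) / 2 * val p.2.1 z θ + wi z * (vTT p z θ + 2 * val p.1 z θ) := by
  rw [Lop_eq]
  simp only [val_add, val_sub, val_mul, val_const, val_incl, val_smul, drift_apply hz, smul_eq_mul]
  rfl

theorem differentiable_Lop (a b : ℝ) : Differentiable ℂ (Lop a b) := by
  have h : Differentiable ℂ fun wi : BC => mapL ℤ 0 (Mode.M wi) := by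
    have e : (fun wi : BC => mapL ℤ 0 (Mode.M wi)) = fun wi : BC =>
        ContinuousLinearMap.mul ℂ (W 0) (single 0 (0 : ℤ) wi) := by
      funext wi
      exact ContinuousLinearMap.ext fun u => mapL_M 0 wi u
    rw [e]
    exact ((ContinuousLinearMap.mul ℂ (W 0)).comp (single 0 (0 : ℤ))).differentiable
  exact (differentiable_const _).add (h.clm_comp (differentiable_const _))

@[simp] theorem cf_res' (s : ℕ) (u : W s) (k : ℤ) (z : ℝ) :
    cf (res a b s u) k z = cf u k (Mode.cl a b z) := by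
  rw [res, cf_mapL]; rfl

theorem res_eq_self_iff {s : ℕ} {u : W s} : res a b s u = u ↔ ∀ k, Clamped a b (cf u k) :=
  ⟨fun h k z => by rw [← cf_res', h], fun h => by ext k z; rw [cf_res', h k z]⟩

theorem Tri.clamped {p : T3 0} (h : Tri a b p) (k : ℤ) :
    Clamped a b (cf p.1 k) ∧ Clamped a b (cf p.2.1 k) ∧ Clamped a b (cf p.2.2 k) :=
  ⟨res_eq_self_iff.1 (congrArg Prod.fst h.cl) k,
    res_eq_self_iff.1 (congrArg (fun q => q.2.1) h.cl) k,
    res_eq_self_iff.1 (congrArg (fun q => q.2.2) h.cl) k⟩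

theorem Tri.msol {p : T3 0} (h : Tri a b p) (wi : BC) (k : ℤ) :
    MSol a b (pot wi k) ⇑(cf (Lop a b wi p) k) ⇑(cf p.1 k) ⇑(cf p.2.1 k) ⇑(cf p.2.2 k) :=
  ⟨h.d0 k, h.d1 k, fun z hz => by rw [cf_Lop, drift_apply hz]⟩

/-- The high modes. -/
def Hi : Set ℤ := {k | 2 ≤ |k|}

/-- The zero order boundary data. -/
def bd0 (a b : ℝ) : T3 0 →L[ℂ] A 2 :=
  ((proj ℤ 2 ℂ Hi).comp (tr ℤ 2 ℂ a) + (proj ℤ 2 ℂ Hiᶜ).comp (tr ℤ 2 ℂ b)).comp (.fst ℂ _ _)

/-- The first order boundary data. -/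
def bd1 (b : ℝ) : T3 0 →L[ℂ] A 1 :=
  (tr ℤ 1 ℂ b).comp ((ContinuousLinearMap.fst ℂ _ _).comp (.snd ℂ _ _))

theorem cf_bd0_high (p : T3 0) {k : ℤ} (hk : 2 ≤ |k|) : cf (bd0 a b p) k = cf p.1 k a := by
  change cf (proj ℤ 2 ℂ Hi (tr ℤ 2 ℂ a p.1) + proj ℤ 2 ℂ Hiᶜ (tr ℤ 2 ℂ b p.1)) k = _
  rw [cf_add, cf_proj_of_mem (show k ∈ Hi from hk),
    cf_proj_of_notMem (show k ∉ Hiᶜ from fun h => h hk), add_zero, cf_tr]

theorem cf_bd0_low (p : T3 0) {k : ℤ} (hk : ¬ 2 ≤ |k|) : cf (bd0 a b p) k = cf p.1 k b := by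
  change cf (proj ℤ 2 ℂ Hi (tr ℤ 2 ℂ a p.1) + proj ℤ 2 ℂ Hiᶜ (tr ℤ 2 ℂ b p.1)) k = _
  rw [cf_add, cf_proj_of_notMem (show k ∉ Hi from hk),
    cf_proj_of_mem (show k ∈ Hiᶜ from hk), zero_add, cf_tr]

theorem cf_bd1 (p : T3 0) (k : ℤ) : cf (bd1 b p) k = cf p.2.1 k b := cf_tr _ _ _

/-- The solution operator acts on `d` mode by mode. -/
structure OK (a b : ℝ) (wi : BC) (d : LD) : Prop where
  le : a ≤ b
  nd : ∀ k : ℤ, 2 ≤ |k| → Nondeg a b (pot wi k)
  cf0 : ∀ k, cf (lin a b wi d).1 k = (modeOp a b wi k (md d k)).1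
  cf1 : ∀ k, cf (lin a b wi d).2.1 k = (modeOp a b wi k (md d k)).2.1
  cf2 : ∀ k, cf (lin a b wi d).2.2 k = (modeOp a b wi k (md d k)).2.2

theorem ok_of_pos (ha : 0 ≤ a) (hab : a ≤ b) {wi : BC} (h : wi ∈ Pos a b) (d : LD) :
    OK a b wi d := by
  obtain ⟨K, hK, hB⟩ := exists_bd ha hab h
  exact ⟨hab, fun k hk => nondeg_pot hab h hk,
    cf_diagD (m := fun k => p0.comp (modeOp a b wi k)) hK (fun k d => (hB k d).1) d,
    cf_diagD (m := fun k => p1.comp (modeOp a b wi k)) hK (fun k d => (hB k d).2.1) d,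
    cf_diagD (m := fun k => p2.comp (modeOp a b wi k)) hK
      (fun k d => by rw [wt_zero_left, one_mul]; exact (hB k d).2.2) d⟩

namespace OK

variable {wi : BC} {d : LD} (h : OK a b wi d)
include h

theorem msol (k : ℤ) : MSol a b (pot wi k) ⇑(cf d.2.2 k) ⇑(cf (lin a b wi d).1 k)
    ⇑(cf (lin a b wi d).2.1 k) ⇑(cf (lin a b wi d).2.2 k) := by
  rw [h.cf0, h.cf1, h.cf2]
  exact msol_modeOp wi k (md d k)

theorem tri : Tri a b (lin a b wi d) := by
  refine ⟨Prod.ext (res_eq_self_iff.2 fun k => ?_) (Prod.ext (res_eq_self_iff.2 fun k => ?_)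
    (res_eq_self_iff.2 fun k => ?_)), fun k => (h.msol k).d0, fun k => (h.msol k).d1⟩
  · rw [h.cf0]; exact (clamped_modeOp h.le wi k _).1
  · rw [h.cf1]; exact (clamped_modeOp h.le wi k _).2.1
  · rw [h.cf2]; exact (clamped_modeOp h.le wi k _).2.2

theorem high {k : ℤ} (hk : 2 ≤ |k|) : cf (lin a b wi d).1 k a = cf d.1 k := by
  rw [h.cf0, modeOp, if_pos hk, dn_left (h.nd k hk)]; rfl

theorem low {k : ℤ} (hk : ¬ 2 ≤ |k|) : cf (lin a b wi d).1 k b = cf d.1 k := by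
  rw [h.cf0, modeOp_low h.le wi hk]; rfl

theorem right (k : ℤ) : cf (lin a b wi d).2.1 k b = cf d.2.1 k := by
  rw [h.cf1, modeOp_right h.le]; rfl

theorem bd0_eq : bd0 a b (lin a b wi d) = d.1 := by
  ext k
  by_cases hk : 2 ≤ |k|
  · rw [cf_bd0_high _ hk, h.high hk]
  · rw [cf_bd0_low _ hk, h.low hk]

theorem bd1_eq : bd1 b (lin a b wi d) = d.2.1 := by
  ext k
  rw [cf_bd1, h.right]

theorem cf_Lop_eq (k : ℤ) {z : ℝ} (hz : z ∈ Icc a b) :
    cf (Lop a b wi (lin a b wi d)) k z = cf d.2.2 k z := by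
  rw [cf_Lop, drift_apply hz]
  exact (h.msol k).eq z hz

theorem res_Lop : res a b 0 (Lop a b wi (lin a b wi d)) = res a b 0 d.2.2 := by
  ext k z
  rw [cf_res', cf_res', h.cf_Lop_eq k (Mode.cl_mem h.le z)]

theorem linEq : LinEq a b wi (lin a b wi d) d.2.2 := fun k z hz => (h.msol k).eq z hz

theorem val_eq {z : ℝ} (hz : z ∈ Icc a b) (θ : ℝ) :
    val (lin a b wi d).2.2 z θ - (z : ℂ) / 2 * val (lin a b wi d).2.1 z θ +
      wi z * (vTT (lin a b wi d) z θ + 2 * val (lin a b wi d).1 z θ) = val d.2.2 z θ := by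
  rw [← val_Lop wi _ hz]
  exact val_congr (fun k => h.cf_Lop_eq k hz) θ

/-- Uniqueness. -/
theorem unique {p : T3 0} (hp : Tri a b p) (h0 : bd0 a b p = d.1) (h1 : bd1 b p = d.2.1)
    (hF : LinEq a b wi p d.2.2) : p = lin a b wi d := by
  have key : ∀ k, ∀ z ∈ Icc a b, cf p.1 k z = (modeOp a b wi k (md d k)).1 z ∧
      cf p.2.1 k z = (modeOp a b wi k (md d k)).2.1 z ∧
      cf p.2.2 k z = (modeOp a b wi k (md d k)).2.2 z := by
    intro k z hz
    have hs : MSol a b (pot wi k) ⇑(cf d.2.2 k) ⇑(cf p.1 k) ⇑(cf p.2.1 k) ⇑(cf p.2.2 k) :=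
      ⟨hp.d0 k, hp.d1 k, hF k⟩
    by_cases hk : 2 ≤ |k|
    · have e : md d k = (cf p.1 k a, cf p.2.1 k b, cf d.2.2 k) := by
        simp only [md, ← h0, ← h1, cf_bd0_high _ hk, cf_bd1]
      rw [e, modeOp, if_pos hk]
      exact hs.eq_dn (h.nd k hk) hz
    · have e : md d k = (cf p.1 k b, cf p.2.1 k b, cf d.2.2 k) := by
        simp only [md, ← h0, ← h1, cf_bd0_low _ hk, cf_bd1]
      rw [e, modeOp, if_neg hk]
      exact hs.eq_ivp hz
  refine Prod.ext (Wien.ext fun k => ?_) (Prod.ext (Wien.ext fun k => ?_) (Wien.ext fun k => ?_))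
  · rw [h.cf0]
    exact (hp.clamped k).1.eq_of_eqOn h.le (clamped_modeOp h.le wi k _).1 fun z hz => (key k z hz).1
  · rw [h.cf1]
    exact (hp.clamped k).2.1.eq_of_eqOn h.le (clamped_modeOp h.le wi k _).2.1
      fun z hz => (key k z hz).2.1
  · rw [h.cf2]
    exact (hp.clamped k).2.2.eq_of_eqOn h.le (clamped_modeOp h.le wi k _).2.2
      fun z hz => (key k z hz).2.2

theorem star_eq (h' : OK a b (star wi) (star d)) :
    star (lin a b wi d) = lin a b (star wi) (star d) := by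
  have e : ∀ k, star (md d (-k)) = md (star d) k := fun k => by
    simp only [md, Prod.star_def, cf_star]
  have key := fun k => star_modeOp h.le wi k (md d (-k))
  simp only [e] at key
  refine Prod.ext (Wien.ext fun k => ?_) (Prod.ext (Wien.ext fun k => ?_) (Wien.ext fun k => ?_))
  · rw [h'.cf0, ← key k, Prod.fst_star, Prod.fst_star, cf_star, h.cf0]
  · rw [h'.cf1, ← key k, Prod.snd_star, Prod.fst_star, Prod.snd_star, Prod.fst_star, cf_star, h.cf1]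
  · rw [h'.cf2, ← key k, Prod.snd_star, Prod.snd_star, Prod.snd_star, Prod.snd_star, cf_star, h.cf2]

end OK

theorem linEq_Lop (wi : BC) (p : T3 0) : LinEq a b wi p (Lop a b wi p) := fun k z hz => by
  rw [cf_Lop, drift_apply hz]; rfl

theorem linEq_iff_cf {wi : BC} {p : T3 0} {F : W 0} :
    LinEq a b wi p F ↔ ∀ k, ∀ z ∈ Icc a b, cf (Lop a b wi p) k z = cf F k z :=
  ⟨fun h k z hz => (linEq_Lop wi p k z hz).symm.trans (h k z hz),
    fun h k z hz => (linEq_Lop wi p k z hz).trans (h k z hz)⟩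

/-- The model equation holds mode by mode iff it holds pointwise. -/
theorem linEq_iff_val {wi : BC} {p : T3 0} {F : W 0} : LinEq a b wi p F ↔
    ∀ z ∈ Icc a b, ∀ θ, val p.2.2 z θ - (z : ℂ) / 2 * val p.2.1 z θ +
      wi z * (vTT p z θ + 2 * val p.1 z θ) = val F z θ := by
  rw [linEq_iff_cf]
  exact ⟨fun h z hz θ => by rw [← val_Lop wi p hz]; exact val_congr (fun k => h k z hz) θ,
    fun h k z hz => cf_eq_of_val (fun θ => by rw [val_Lop wi p hz, h z hz θ]) k⟩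

theorem Tri.eq_lin (ha : 0 ≤ a) (hab : a ≤ b) {wi : BC} (h : wi ∈ Pos a b) {p : T3 0}
    (hp : Tri a b p) {F : W 0} (hF : LinEq a b wi p F) : p = lin a b wi (bd0 a b p, bd1 b p, F) :=
  (ok_of_pos ha hab h _).unique hp rfl rfl hF

theorem star_lin (ha : 0 ≤ a) (hab : a ≤ b) {wi : BC} (h : wi ∈ Pos a b) (d : LD) :
    star (lin a b wi d) = lin a b (star wi) (star d) :=
  (ok_of_pos ha hab h d).star_eq (ok_of_pos ha hab (star_mem_pos h) _)

theorem differentiableOn_clm_prod {P X Y Z : Type*} [NormedAddCommGroup P] [NormedSpace ℂ P]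
    [NormedAddCommGroup X] [NormedSpace ℂ X] [NormedAddCommGroup Y] [NormedSpace ℂ Y]
    [NormedAddCommGroup Z] [NormedSpace ℂ Z] {S : P → X →L[ℂ] Y} {T : P → X →L[ℂ] Z} {U : Set P}
    (hS : DifferentiableOn ℂ S U) (hT : DifferentiableOn ℂ T U) :
    DifferentiableOn ℂ (fun q => (S q).prod (T q)) U := by
  have e : (fun q => (S q).prod (T q)) = fun q =>
      (ContinuousLinearMap.inl ℂ Y Z).comp (S q) + (ContinuousLinearMap.inr ℂ Y Z).comp (T q) := by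
    funext q
    ext x <;> simp
  rw [e]
  exact ((differentiableOn_const _).clm_comp hS).add ((differentiableOn_const _).clm_comp hT)

/-- The solution operator depends holomorphically on the potential. -/
theorem differentiableOn_lin (ha : 0 ≤ a) (hab : a ≤ b) :
    DifferentiableOn ℂ (lin a b) (Pos a b) := by
  have hd : ∀ k, DifferentiableOn ℂ (fun w => modeOp a b w k) (Pos a b) :=
    fun k w hw => (differentiableAt_modeOp hab hw k).differentiableWithinAt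
  refine differentiableOn_clm_prod
    (differentiableOn_diagD (m := fun w k => p0.comp (modeOp a b w k)) (isOpen_pos a b)
      (fun w hw => ?_) fun k => (differentiableOn_const _).clm_comp (hd k))
    (differentiableOn_clm_prod
      (differentiableOn_diagD (m := fun w k => p1.comp (modeOp a b w k)) (isOpen_pos a b)
        (fun w hw => ?_) fun k => (differentiableOn_const _).clm_comp (hd k))
      (differentiableOn_diagD (m := fun w k => p2.comp (modeOp a b w k)) (isOpen_pos a b)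
        (fun w hw => ?_) fun k => (differentiableOn_const _).clm_comp (hd k)))
  · obtain ⟨K, hK, h⟩ := eventually_bd ha hab hw
    exact ⟨K, hK, h.mono fun q hq k d => (hq k d).1⟩
  · obtain ⟨K, hK, h⟩ := eventually_bd ha hab hw
    exact ⟨K, hK, h.mono fun q hq k d => (hq k d).2.1⟩
  · obtain ⟨K, hK, h⟩ := eventually_bd ha hab hw
    exact ⟨K, hK, h.mono fun q hq k d => by rw [wt_zero_left, one_mul]; exact (hq k d).2.2⟩

theorem differentiableAt_lin (ha : 0 ≤ a) (hab : a ≤ b) {wi : BC} (h : wi ∈ Pos a b) :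
    DifferentiableAt ℂ (lin a b) wi :=
  (differentiableOn_lin ha hab).differentiableAt ((isOpen_pos a b).mem_nhds h)

/-! ### The statements of `EndDef` -/

theorem MSol.congr_pot {β β' F u u₁ u₂ : ℝ → ℂ} (hs : MSol a b β F u u₁ u₂)
    (h : ∀ z ∈ Icc a b, β' z = β z) : MSol a b β' F u u₁ u₂ :=
  ⟨hs.d0, hs.d1, fun z hz => by rw [h z hz]; exact hs.eq z hz⟩

/-- From the scalar estimate to the Wiener estimate. -/
theorem linEst {w : ℝ → ℂ} {wi : BC} {sg ys : ℝ → ℝ} {C : ℝ} (hC : 0 ≤ C)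
    (hw : ∀ z ∈ Icc a b, wi z = (w z)⁻¹) (hsg : 0 < sg a) (hys : ∀ z ∈ Icc a b, 0 ≤ ys z)
    (hE : ModeEst a b w sg ys C) {h : A 2} {p : T3 0} {F : W 0} {t : ℝ}
    (d0 : ZDer (Icc a b) p.1 p.2.1) (d1 : ZDer (Icc a b) p.2.1 p.2.2) (hF : LinEq a b wi p F)
    (hB : BCs a b h p) (hW : WB a b ys F t) : NJ a b w sg (jets 0 p) (C * (‖h‖ / sg a + t)) := by
  obtain ⟨c, c0, cs, ct, cb⟩ := hW
  simp only [wt_zero_left, one_mul] at cs ct
  set T : ℤ → ℝ := fun k => wt 2 k * ‖cf h k‖ / sg a + c k with hT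
  have g0 : ∀ k, 0 ≤ wt 2 k * ‖cf h k‖ / sg a := fun k => by have := wt_pos 2 k; positivity
  have T0 : ∀ k, 0 ≤ T k := fun k => add_nonneg (g0 k) (c0 k)
  have hs : HasSum (fun k => C * T k) (C * (‖h‖ / sg a + ∑' k, c k)) :=
    (((hasSum_norm h).div_const (sg a)).add cs.hasSum).mul_left C
  have est := fun k : ℤ => hE k ⇑(cf F k) ⇑(cf p.1 k) ⇑(cf p.2.1 k) ⇑(cf p.2.2 k) (T k) (T0 k)
    ⟨d0 k, d1 k, fun z hz => by rw [← hw z hz]; exact hF k z hz⟩
    (fun z hz => (cb k z hz).trans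
      (mul_le_mul_of_nonneg_right (le_add_of_nonneg_left (g0 k)) (hys z hz)))
    (hB.2.1 k)
    (fun hk => by
      rw [hB.1 k hk, ← wt_int, hT, add_mul, div_mul_cancel₀ _ hsg.ne']
      exact le_add_of_nonneg_right (mul_nonneg (c0 k) hsg.le))
    (hB.2.2 k)
  have mk : ∀ (f : ℝ → ℝ) (u : W 0), (∀ k, ∀ z ∈ Icc a b, ‖cf u k z‖ ≤ C * T k * f z) →
      WB a b f u (C * (‖h‖ / sg a + t)) := fun f u hu =>
    ⟨fun k => C * T k, fun k => mul_nonneg hC (T0 k), by simpa using hs.summable, by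
      simp only [wt_zero_left, one_mul]
      rw [hs.tsum_eq]
      gcongr, hu⟩
  have nI : ∀ k : ℤ, ‖(Complex.I * k : ℂ)‖ = |(k : ℝ)| := fun k => by
    rw [norm_mul, Complex.norm_I, one_mul, Complex.norm_intCast]
  rw [Cone.jets_apply]
  refine ⟨mk _ _ fun k z hz => ?_, mk _ _ fun k z hz => ?_, mk _ _ fun k z hz => ?_,
    mk _ _ fun k z hz => (est k z hz).2.2.2, mk _ _ fun k z hz => ?_, mk _ _ fun k z hz => ?_⟩
  · rw [cf_incl]
    exact le_trans (le_mul_of_one_le_left (norm_nonneg _)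
      (one_le_pow₀ (by linarith [abs_nonneg (k : ℝ)]))) (est k z hz).1
  · rw [cf_incl]
    exact (est k z hz).2.1
  · rw [cf_incl, cf_dth, BoundedContinuousFunction.smul_apply, norm_smul, nI]
    refine le_trans (mul_le_mul_of_nonneg_right ?_ (norm_nonneg _)) (est k z hz).1
    nlinarith [abs_nonneg (k : ℝ)]
  · rw [cf_dth, BoundedContinuousFunction.smul_apply, norm_smul, nI]
    refine le_trans (mul_le_mul_of_nonneg_right ?_ (norm_nonneg _)) (est k z hz).2.2.1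
    linarith
  · rw [cf_dth, cf_dth, BoundedContinuousFunction.smul_apply, BoundedContinuousFunction.smul_apply,
      norm_smul, norm_smul, nI, ← mul_assoc]
    refine le_trans (mul_le_mul_of_nonneg_right ?_ (norm_nonneg _)) (est k z hz).1
    nlinarith [abs_nonneg (k : ℝ)]

theorem nondeg_of_est (hab : a ≤ b) {w : ℝ → ℂ} {wi : BC} {sg ys : ℝ → ℝ} {C : ℝ}
    (hw : ∀ z ∈ Icc a b, wi z = (w z)⁻¹) (hE : ModeEst a b w sg ys C) {k : ℤ} (hk : 2 ≤ |k|) :
    Nondeg a b (pot wi k) := by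
  refine nondeg_of_unique hab fun u u₁ u₂ hs h0 h1 => ?_
  have := (hE k 0 u u₁ u₂ 0 le_rfl (hs.congr_pot fun z hz => by rw [pot_apply, hw z hz])
    (fun z _ => by simp) h1 (fun _ => by simp [h0]) (fun h => by omega) b (right_mem_Icc.2 hab)).1
  rw [mul_zero, zero_mul] at this
  have h2 : (0 : ℝ) < (1 + |(k : ℝ)|) ^ 2 := by positivity
  exact norm_le_zero_iff.1 (nonpos_of_mul_nonpos_right this h2)

/-- The bound for data with vanishing derivative at `b`. -/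
def Bd' (a b : ℝ) (wi : BC) (K : ℝ) : Prop := ∀ k (d : MD), d.2.1 = 0 →
  wt 2 k * ‖(modeOp a b wi k d).1‖ ≤ K * dN k d ∧ wt 1 k * ‖(modeOp a b wi k d).2.1‖ ≤ K * dN k d ∧
    ‖(modeOp a b wi k d).2.2‖ ≤ K * dN k d

theorem high_of_est (hab : a ≤ b) {w : ℝ → ℂ} {wi : BC} {sg ys : ℝ → ℝ} {C m M L : ℝ}
    (hw : ∀ z ∈ Icc a b, wi z = (w z)⁻¹) (hE : ModeEst a b w sg ys C) (hm : 0 < m)
    (h1 : ∀ z ∈ Icc a b, m ≤ ys z ∧ m ≤ sg z ∧ sg z ≤ M) (hL : ‖wi‖ ≤ L) {k : ℤ} (hk : 2 ≤ |k|)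
    (d : MD) (hd : d.2.1 = 0) :
    wt 2 k * ‖(modeOp a b wi k d).1‖ ≤ |C| / m * (M * (1 + L)) * dN k d ∧
      wt 1 k * ‖(modeOp a b wi k d).2.1‖ ≤ |C| / m * (M * (1 + L)) * dN k d ∧
      ‖(modeOp a b wi k d).2.2‖ ≤ |C| / m * (M * (1 + L)) * dN k d := by
  obtain ⟨c0, c1, c2⟩ := clamped_modeOp hab wi k d
  have ha : a ∈ Icc a b := left_mem_Icc.2 hab
  have N0 : 0 ≤ dN k d := (norm_nonneg _).trans (norm_le_dN k d)
  have L0 : 0 ≤ L := (norm_nonneg _).trans hL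
  have M0 : 0 ≤ M := hm.le.trans ((h1 a ha).2.1.trans (h1 a ha).2.2)
  have g0 := mul_nonneg (wt_pos 2 k).le (norm_nonneg d.1)
  have g1 := mul_nonneg (wt_pos 1 k).le (norm_nonneg d.2.1)
  have g2 := norm_nonneg d.2.2
  have tm : ∀ x, m ≤ x → dN k d ≤ dN k d / m * x := fun x hx => by
    calc dN k d = dN k d / m * m := by field_simp
      _ ≤ _ := by gcongr
  have est := hE k d.2.2 _ _ _ (dN k d / m) (by positivity)
    ((msol_modeOp wi k d).congr_pot fun z hz => by rw [pot_apply, hw z hz])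
    (fun z hz => (d.2.2.norm_coe_le_norm z).trans
      (le_trans (by unfold dN; linarith) (tm _ (h1 z hz).1)))
    (by rw [modeOp_right hab, hd])
    (fun _ => by
      rw [modeOp, if_pos hk, dn_left (nondeg_of_est hab hw hE hk), ← wt_int]
      exact le_trans (by unfold dN; linarith) (tm _ (h1 a ha).2.1))
    (fun h => by omega)
  have fin : ∀ x, 0 ≤ x → x ≤ M * (1 + L) →
      C * (dN k d / m) * x ≤ |C| / m * (M * (1 + L)) * dN k d := fun x h0 hx => by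
    calc C * (dN k d / m) * x ≤ |C| * (dN k d / m) * x := by gcongr; exact le_abs_self C
      _ ≤ |C| * (dN k d / m) * (M * (1 + L)) := by gcongr
      _ = _ := by ring
  have s0 : ∀ z ∈ Icc a b, 0 ≤ sg z ∧ sg z ≤ M * (1 + L) := fun z hz =>
    ⟨hm.le.trans (h1 z hz).2.1, (h1 z hz).2.2.trans (le_mul_of_one_le_right M0 (by linarith))⟩
  have s1 : ∀ z ∈ Icc a b, 0 ≤ sg z / ‖w z‖ ∧ sg z / ‖w z‖ ≤ M * (1 + L) := fun z hz => by
    refine ⟨div_nonneg (s0 z hz).1 (norm_nonneg _), ?_⟩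
    rw [div_eq_mul_inv, ← norm_inv, ← hw z hz]
    exact mul_le_mul (h1 z hz).2.2 ((wi.norm_coe_le_norm z).trans (by linarith)) (norm_nonneg _) M0
  refine ⟨?_, ?_, c2.norm_le hab fun z hz =>
    (est z hz).2.2.2.trans (fin _ (s1 z hz).1 (s1 z hz).2)⟩
  · rw [← le_div_iff₀' (wt_pos 2 k)]
    refine c0.norm_le hab fun z hz => ?_
    rw [le_div_iff₀' (wt_pos 2 k), wt_int]
    exact (est z hz).1.trans (fin _ (s0 z hz).1 (s0 z hz).2)
  · rw [← le_div_iff₀' (wt_pos 1 k)]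
    refine c1.norm_le hab fun z hz => ?_
    rw [le_div_iff₀' (wt_pos 1 k), wt_int, pow_one]
    exact (est z hz).2.2.1.trans (fin _ (s1 z hz).1 (s1 z hz).2)

theorem bd'_of {wi : BC} {K₁ K₀ : ℝ} (h1 : 0 ≤ K₁) (h0 : 0 ≤ K₀)
    (hh : ∀ k : ℤ, 2 ≤ |k| → ∀ d : MD, d.2.1 = 0 → wt 2 k * ‖(modeOp a b wi k d).1‖ ≤ K₁ * dN k d ∧
      wt 1 k * ‖(modeOp a b wi k d).2.1‖ ≤ K₁ * dN k d ∧ ‖(modeOp a b wi k d).2.2‖ ≤ K₁ * dN k d)
    (hl : ∀ k : ℤ, ¬ 2 ≤ |k| → ‖modeOp a b wi k‖ ≤ K₀) : Bd' a b wi (K₁ + 4 * K₀) := by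
  intro k d hd
  have N0 : 0 ≤ dN k d := (norm_nonneg _).trans (norm_le_dN k d)
  by_cases hk : 2 ≤ |k|
  · obtain ⟨t0, t1, t2⟩ := hh k hk d hd
    have t : K₁ * dN k d ≤ (K₁ + 4 * K₀) * dN k d := mul_le_mul_of_nonneg_right (by linarith) N0
    exact ⟨t0.trans t, t1.trans t, t2.trans t⟩
  · obtain ⟨t0, t1, t2⟩ := low_bound hk (hl k hk) d
    have t : 4 * K₀ * dN k d ≤ (K₁ + 4 * K₀) * dN k d := mul_le_mul_of_nonneg_right (by linarith) N0
    exact ⟨t0.trans t, t1.trans t, t2.trans t⟩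

theorem eventually_low (hab : a ≤ b) (wi : BC) :
    ∃ K₀, 0 ≤ K₀ ∧ ∀ᶠ w in 𝓝 wi, ∀ k : ℤ, ¬ 2 ≤ |k| → ‖modeOp a b w k‖ ≤ K₀ := by
  obtain ⟨f, hf⟩ : ∃ f : ℤ → ℝ, ∀ k, f k = ‖ivp a b (pot wi k)‖ := ⟨_, fun _ => rfl⟩
  have hl : ∀ k : ℤ, ∀ᶠ w in 𝓝 wi, ‖ivp a b (pot w k)‖ ≤ f k + 1 := fun k => by
    rw [hf]
    have hp : DifferentiableAt ℂ (fun w : BC => pot w k) wi := by unfold pot; fun_prop
    exact ((differentiableAt_ivp hab hp).continuousAt.norm.eventually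
      (Iio_mem_nhds (lt_add_one _))).mono fun _ hw => le_of_lt hw
  have hf0 : ∀ k, 0 ≤ f k := fun k => by rw [hf]; exact norm_nonneg _
  have g0 := hf0 (-1)
  have g1 := hf0 0
  have g2 := hf0 1
  refine ⟨f (-1) + f 0 + f 1 + 1, by positivity, ?_⟩
  filter_upwards [hl (-1), hl 0, hl 1] with w h1 h2 h3 k hk
  rw [modeOp, if_neg hk]
  have hk' : k = -1 ∨ k = 0 ∨ k = 1 := by
    have := abs_lt.1 (not_le.1 hk)
    omega
  rcases hk' with rfl | rfl | rfl
  · exact h1.trans (by linarith)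
  · exact h2.trans (by linarith)
  · exact h3.trans (by linarith)

theorem diagD_bounds' {t : ℕ} {m : ℤ → MD →L[ℂ] BC} {K : ℝ} (hK : 0 ≤ K)
    (h : ∀ k (d : MD), d.2.1 = 0 → wt t k * ‖m k d‖ ≤ K * dN k d) :
    (∀ k, wt t k * ‖(m k).comp i0‖ ≤ K * wt 2 k) ∧
      ∀ k, wt t k * ‖(m k).comp i2‖ ≤ K * wt 0 k := by
  refine ⟨fun k => ?_, fun k => ?_⟩ <;>
  · have h1 := wt_pos t k
    have h2 := wt_pos 2 k
    have h4 := wt_pos 0 k
    rw [← le_div_iff₀' h1]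
    refine ContinuousLinearMap.opNorm_le_bound _ (by positivity) fun x => ?_
    rw [div_mul_eq_mul_div, le_div_iff₀' h1]
    refine (h k _ rfl).trans (le_of_eq ?_)
    simp [dN, i0_apply, i2_apply, mul_assoc]

theorem cf_diagD' {t : ℕ} {m : ℤ → MD →L[ℂ] BC} {K : ℝ} (hK : 0 ≤ K)
    (h : ∀ k (d : MD), d.2.1 = 0 → wt t k * ‖m k d‖ ≤ K * dN k d) (d : LD) (hd : d.2.1 = 0)
    (k : ℤ) : cf (diagD t m d) k = m k (md d k) := by
  obtain ⟨h0, h2⟩ := diagD_bounds' hK h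
  have e : md d k = i0 (cf d.1 k) + i2 (cf d.2.2 k) := by
    simp [md, i0_apply, i2_apply, hd]
  change cf (diag' 2 t (fun k => (m k).comp i0) d.1 + diag' 1 t (fun k => (m k).comp i1) d.2.1 +
    diag' 0 t (fun k => (m k).comp i2) d.2.2) k = _
  rw [hd, map_zero, add_zero, cf_add, cf_diag' h0, cf_diag' h2, e, map_add]
  rfl

theorem ok_of_bd' (hab : a ≤ b) {wi : BC} (hn : ∀ k : ℤ, 2 ≤ |k| → Nondeg a b (pot wi k)) {K : ℝ}
    (hK : 0 ≤ K) (hB : Bd' a b wi K) (d : LD) (hd : d.2.1 = 0) : OK a b wi d :=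
  ⟨hab, hn,
    cf_diagD' (m := fun k => p0.comp (modeOp a b wi k)) hK (fun k d hd => (hB k d hd).1) d hd,
    cf_diagD' (m := fun k => p1.comp (modeOp a b wi k)) hK (fun k d hd => (hB k d hd).2.1) d hd,
    cf_diagD' (m := fun k => p2.comp (modeOp a b wi k)) hK
      (fun k d hd => by rw [wt_zero_left, one_mul]; exact (hB k d hd).2.2) d hd⟩

/-- `(h, F) ↦ (high modes of h, 0, F)`. -/
def emb : A 2 × W 0 →L[ℂ] LD :=
  ((proj ℤ 2 ℂ Hi).comp (.fst ℂ _ _)).prod ((0 : A 2 × W 0 →L[ℂ] A 1).prod (.snd ℂ _ _))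

theorem emb_apply (h : A 2) (F : W 0) : emb (h, F) = (proj ℤ 2 ℂ Hi h, 0, F) := rfl

/-- The solution operator for the boundary conditions `BCs`. -/
def G (a b : ℝ) (wi : BC) : A 2 × W 0 →L[ℂ] T3 0 := (lin a b wi).comp emb

theorem G_apply (wi : BC) (h : A 2) (F : W 0) :
    G a b wi (h, F) = lin a b wi (proj ℤ 2 ℂ Hi h, 0, F) := rfl

theorem bcs_iff {h : A 2} {p : T3 0} :
    BCs a b h p ↔ bd0 a b p = proj ℤ 2 ℂ Hi h ∧ bd1 b p = 0 := by
  constructor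
  · rintro ⟨h1, h2, h3⟩
    refine ⟨Wien.ext fun k => ?_, Wien.ext fun k => by rw [cf_bd1, h2, cf_zero]⟩
    by_cases hk : 2 ≤ |k|
    · rw [cf_bd0_high _ hk, cf_proj_of_mem (show k ∈ Hi from hk), h1 k hk]
    · rw [cf_bd0_low _ hk, cf_proj_of_notMem (show k ∉ Hi from hk), h3 k (by omega)]
  · rintro ⟨h1, h2⟩
    refine ⟨fun k hk => ?_, fun k => by rw [← cf_bd1, h2, cf_zero], fun k hk => ?_⟩
    · rw [← cf_bd0_high (b := b) _ hk, h1, cf_proj_of_mem (show k ∈ Hi from hk)]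
    · have hk' : ¬ 2 ≤ |k| := by omega
      rw [← cf_bd0_low (a := a) _ hk', h1, cf_proj_of_notMem (show k ∉ Hi from hk')]

/-- The properties of `G`. -/
theorem G_spec {wi : BC} (hok : ∀ d : LD, d.2.1 = 0 → OK a b wi d) :
    (∀ h F, Tri a b (G a b wi (h, F)) ∧ LinEq a b wi (G a b wi (h, F)) F ∧
      BCs a b h (G a b wi (h, F))) ∧
    (∀ h F p, Tri a b p → LinEq a b wi p F → BCs a b h p → p = G a b wi (h, F)) ∧
    (star wi = wi → ∀ h F, star (G a b wi (h, F)) = G a b wi (star h, star F)) := by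
  refine ⟨fun h F => ?_, fun h F p hp hF hB => ?_, fun hs h F => ?_⟩
  · have := hok (proj ℤ 2 ℂ Hi h, 0, F) rfl
    exact ⟨this.tri, this.linEq, bcs_iff.2 ⟨this.bd0_eq, this.bd1_eq⟩⟩
  · exact (hok (proj ℤ 2 ℂ Hi h, 0, F) rfl).unique hp (bcs_iff.1 hB).1 (bcs_iff.1 hB).2 hF
  · have e : star ((proj ℤ 2 ℂ Hi h, 0, F) : LD) = (proj ℤ 2 ℂ Hi (star h), 0, star F) := by
      simp only [Prod.star_def, star_zero]
      rw [star_proj fun k => by simp [Hi]]
    have := (hok (proj ℤ 2 ℂ Hi h, 0, F) rfl).star_eq (by rw [hs, e]; exact hok _ rfl)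
    rw [G_apply, G_apply, this, hs, e]

theorem differentiableOn_diagD_emb {P : Type*} [NormedAddCommGroup P] [NormedSpace ℂ P] {U : Set P}
    (hU : IsOpen U) {t : ℕ} {m : P → ℤ → MD →L[ℂ] BC}
    (hb : ∀ p ∈ U, ∃ K, 0 ≤ K ∧ ∀ᶠ q in 𝓝 p, ∀ k (d : MD), d.2.1 = 0 →
      wt t k * ‖m q k d‖ ≤ K * dN k d)
    (hd : ∀ k, DifferentiableOn ℂ (fun q => m q k) U) :
    DifferentiableOn ℂ (fun q => (diagD t (m q)).comp emb) U := by
  have e : (fun q => (diagD t (m q)).comp emb) = fun q =>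
      (diag' 2 t fun k => (m q k).comp i0).comp ((proj ℤ 2 ℂ Hi).comp (.fst ℂ _ _)) +
        (diag' 0 t fun k => (m q k).comp i2).comp (.snd ℂ _ _) := by
    funext q
    refine ContinuousLinearMap.ext fun x => ?_
    change diag' 2 t (fun k => (m q k).comp i0) (proj ℤ 2 ℂ Hi x.1) +
      diag' 1 t (fun k => (m q k).comp i1) 0 + diag' 0 t (fun k => (m q k).comp i2) x.2 = _
    rw [map_zero, add_zero]
    rfl
  rw [e]
  refine ((differentiableOn_diag' hU (fun p hp => ?_) fun k => (hd k).clm_comp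
    (differentiableOn_const _)).clm_comp (differentiableOn_const _)).add
    ((differentiableOn_diag' hU (fun p hp => ?_) fun k => (hd k).clm_comp
    (differentiableOn_const _)).clm_comp (differentiableOn_const _))
  · obtain ⟨K, hK, h⟩ := hb p hp
    exact ⟨K, h.mono fun q hq => (diagD_bounds' hK hq).1⟩
  · obtain ⟨K, hK, h⟩ := hb p hp
    exact ⟨K, h.mono fun q hq => (diagD_bounds' hK hq).2⟩

theorem differentiableOn_G {P : Type*} [NormedAddCommGroup P] [NormedSpace ℂ P] {U : Set P}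
    (hU : IsOpen U) (hab : a ≤ b) {wi : P → BC} (hw : DifferentiableOn ℂ wi U)
    (hn : ∀ p ∈ U, ∀ k : ℤ, 2 ≤ |k| → Nondeg a b (pot (wi p) k))
    (hb : ∀ p ∈ U, ∃ K, 0 ≤ K ∧ ∀ᶠ q in 𝓝 p, Bd' a b (wi q) K) :
    DifferentiableOn ℂ (fun q => G a b (wi q)) U := by
  have hd : ∀ k, DifferentiableOn ℂ (fun q => modeOp a b (wi q) k) U := fun k p hp => by
    have h0 := hw.differentiableAt (hU.mem_nhds hp)
    have h1 : DifferentiableAt ℂ (fun q => pot (wi q) k) p := by unfold pot; fun_prop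
    unfold modeOp
    split_ifs with hk
    · exact (differentiableAt_dn hab h1 (hn p hp k hk)).differentiableWithinAt
    · exact (differentiableAt_ivp hab h1).differentiableWithinAt
  have e : (fun q => G a b (wi q)) = fun q =>
      ((diagD 2 fun k => p0.comp (modeOp a b (wi q) k)).comp emb).prod
        (((diagD 1 fun k => p1.comp (modeOp a b (wi q) k)).comp emb).prod
          ((diagD 0 fun k => p2.comp (modeOp a b (wi q) k)).comp emb)) := rfl
  rw [e]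
  refine differentiableOn_clm_prod
    (differentiableOn_diagD_emb (m := fun q k => p0.comp (modeOp a b (wi q) k)) hU
      (fun w hw => ?_) fun k => (differentiableOn_const _).clm_comp (hd k))
    (differentiableOn_clm_prod
      (differentiableOn_diagD_emb (m := fun q k => p1.comp (modeOp a b (wi q) k)) hU
        (fun w hw => ?_) fun k => (differentiableOn_const _).clm_comp (hd k))
      (differentiableOn_diagD_emb (m := fun q k => p2.comp (modeOp a b (wi q) k)) hU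
        (fun w hw => ?_) fun k => (differentiableOn_const _).clm_comp (hd k)))
  · obtain ⟨K, hK, h⟩ := hb w hw
    exact ⟨K, hK, h.mono fun q hq k d hd => (hq k d hd).1⟩
  · obtain ⟨K, hK, h⟩ := hb w hw
    exact ⟨K, hK, h.mono fun q hq k d hd => (hq k d hd).2.1⟩
  · obtain ⟨K, hK, h⟩ := hb w hw
    exact ⟨K, hK, h.mono fun q hq k d hd => by rw [wt_zero_left, one_mul]; exact (hq k d hd).2.2⟩

theorem exists_min_max {X : Type*} [TopologicalSpace X] {S : Set X} (hS : IsCompact S)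
    {f g : X → ℝ} (hf : ContinuousOn f S) (hg : ContinuousOn g S) (h : ∀ x ∈ S, 0 < f x ∧ 0 < g x) :
    ∃ m M : ℝ, 0 < m ∧ 0 ≤ M ∧ ∀ x ∈ S, m ≤ g x ∧ m ≤ f x ∧ f x ≤ M := by
  obtain ⟨m1, h1, h1'⟩ := hS.exists_forall_le' hf fun x hx => (h x hx).1
  obtain ⟨m2, h2, h2'⟩ := hS.exists_forall_le' hg fun x hx => (h x hx).2
  obtain ⟨M, hM⟩ := hS.exists_bound_of_continuousOn hf
  exact ⟨min m1 m2, |M|, lt_min h1 h2, abs_nonneg _, fun x hx => ⟨(min_le_right _ _).trans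
    (h2' x hx), (min_le_left _ _).trans (h1' x hx),
      ((le_abs_self _).trans (hM x hx)).trans (le_abs_self _)⟩⟩

theorem lin_proof : LinStmt := by
  intro a b _ hab
  refine ⟨G a b, fun w wi sg ys C hw hs hy hp hE => G_spec fun d hd => ?_,
    fun U w wi sg ys C hU hd hw hs hy hp hE => differentiableOn_G hU hab.le hd
      (fun y hy k hk => nondeg_of_est hab.le (fun z hz => (hw y hy z hz).2) (hE y hy) hk)
      fun y₀ hy₀ => ?_⟩
  · obtain ⟨m, M, hm, hM, h1⟩ := exists_min_max isCompact_Icc hs hy hp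
    obtain ⟨K₀, hK₀, hl⟩ := eventually_low hab.le wi
    exact ok_of_bd' hab.le (fun k hk => nondeg_of_est hab.le (fun z hz => (hw z hz).2) hE hk)
      (by positivity) (bd'_of (K₁ := |C| / m * (M * (1 + ‖wi‖))) (by positivity) hK₀
        (fun k hk d hd => high_of_est hab.le (fun z hz => (hw z hz).2) hE hm h1 le_rfl hk d hd)
        hl.self_of_nhds) d hd
  · obtain ⟨r, hr, hsub⟩ := nhds_basis_closedBall.mem_iff.1 (hU.mem_nhds hy₀)
    obtain ⟨m, M, hm, hM, h1⟩ := exists_min_max ((isCompact_closedBall y₀ r).prod isCompact_Icc)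
      (hs.mono (prod_mono hsub subset_rfl)) (hy.mono (prod_mono hsub subset_rfl))
      fun x hx => hp x.1 (hsub hx.1) x.2 hx.2
    obtain ⟨K₀, hK₀, hl⟩ := eventually_low hab.le (wi y₀)
    have hc : ContinuousAt wi y₀ := (hd.differentiableAt (hU.mem_nhds hy₀)).continuousAt
    refine ⟨|C| / m * (M * (1 + (‖wi y₀‖ + 1))) + 4 * K₀, by positivity, ?_⟩
    filter_upwards [hc.eventually hl, closedBall_mem_nhds y₀ hr,
      hc.norm.eventually (Iio_mem_nhds (lt_add_one ‖wi y₀‖))] with y h2 h3 h4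
    exact bd'_of (by positivity) hK₀ (fun k hk d hd => high_of_est hab.le
      (fun z hz => (hw y (hsub h3) z hz).2) (hE y (hsub h3)) hm (fun z hz => h1 (y, z) ⟨h3, hz⟩)
      (le_of_lt h4) hk d hd) h2

/-- `G` for potentials with positive real part. -/
theorem G_spec_pos (ha : 0 ≤ a) (hab : a ≤ b) {wi : BC} (h : wi ∈ Pos a b) :
    (∀ h F, Tri a b (G a b wi (h, F)) ∧ LinEq a b wi (G a b wi (h, F)) F ∧
      BCs a b h (G a b wi (h, F))) ∧
    (∀ h F p, Tri a b p → LinEq a b wi p F → BCs a b h p → p = G a b wi (h, F)) ∧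
    (star wi = wi → ∀ h F, star (G a b wi (h, F)) = G a b wi (star h, star F)) :=
  G_spec fun d _ => ok_of_pos ha hab h d

theorem differentiableOn_G_pos (ha : 0 ≤ a) (hab : a ≤ b) :
    DifferentiableOn ℂ (G a b) (Pos a b) :=
  (differentiableOn_lin ha hab).clm_comp (differentiableOn_const _)

end Vale.Agent.P218F.End
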