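import Vale.Agent.P218F.EndWB

/-!
# Cylindrical ends: bounds for the nonlinear terms

`Q` is a sum of nine polynomials in the jets with coefficients which depend on `z` only.
-/

set_option maxSynthPendingDepth 3

namespace Vale.Agent.P218F.End

open Set Metric Wien
open Cone (W A T3 BC J6 jets)

noncomputable section

section ring
variable {B : Type*} [CommRing B]

def ma (v q : B) : B := ((1 + v) * (1 + v) + (1 + v) + 1) * v + (1 + v) * (q * q)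

def m0 (J : J6 B) : B := ma J.1 J.2.2.1 * J.2.2.2.1 +
  (1 + J.1) * (J.2.2.2.2.2 - (1 + J.1)) * (J.2.1 * J.2.1) -
  2 * (1 + J.1) * J.2.2.1 * (J.2.1 * J.2.2.2.2.1)

def m1 (J : J6 B) : B := (2 * 2 + 2 * J.1 + (1 + J.1) * (1 + J.1)) * (J.1 * J.1) +
  ((1 + J.1) * (1 + J.1) - 2) * (J.2.2.1 * J.2.2.1) + J.1 * J.2.2.2.2.2

def m2 (J : J6 B) : B :=
  2 * ((1 + J.1) * (1 + J.1)) * (J.2.2.2.2.2 * J.2.1 - J.2.2.1 * J.2.2.2.2.1)

def m3 (J : J6 B) : B := ((1 + J.1) * (1 + J.1) + (1 + J.1) + 1) * (J.1 * J.2.2.2.2.2) -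
  (1 + J.1) * (1 + J.1) * (J.2.2.1 * J.2.2.1)

def m4 (J : J6 B) : B := (2 * (1 + J.1 + 1) * ((1 + J.1) * (1 + J.1) + 1) +
  (1 + J.1) * (1 + J.1) * ((1 + J.1) * (1 + J.1))) * (J.1 * J.1) -
  (1 + J.1) * (1 + J.1) * (J.2.2.1 * J.2.2.1)

def m5 (J : J6 B) : B := ((1 + J.1) * (1 + J.1) * ((1 + J.1) * (1 + J.1) + (1 + J.1) + 1) +
  (1 + J.1) + 1) * (J.1 * J.2.1)

def m6 (J : J6 B) : B := (1 + J.1) * (1 + J.1) * ((1 + J.1) * (1 + J.1)) * (J.2.1 * J.2.1)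

def m7 (J : J6 B) : B := (1 + J.1) * (1 + J.1) * (1 + J.1) * (J.2.1 * (J.2.1 * J.2.1))

def m8 (J : J6 B) : B := ma J.1 J.2.2.1 * J.2.1

def k4 (hf w P z : B) : B := hf * ((1 - z * P) * w * (P * P))
def k5 (hf w P z : B) : B := w * P - 3 * hf * (z * w * (P * P))
def k6 (hf w P z : B) : B := hf * w - 3 * hf * (z * w * P)
def k7 (hf w z : B) : B := -(hf * (z * w))
def k8 (hf z : B) : B := -(hf * z)

/-- the combination with arbitrary coefficients -/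
def qs (c0 c1 c2 c3 c4 c5 c6 c7 c8 : B) (J : J6 B) : B :=
  c0 * m0 J + c1 * m1 J + c2 * m2 J + c3 * m3 J + c4 * m4 J + c5 * m5 J + c6 * m6 J + c7 * m7 J +
    c8 * m8 J

theorem Q_eq {hf : B} (h : 2 * hf = 1) (wi w P z : B) (J : J6 B) :
    Q hf wi w P z J =
      qs 1 wi P (P * P) (k4 hf w P z) (k5 hf w P z) (k6 hf w P z) (k7 hf w z) (k8 hf z) J := by
  simp only [Q, Nl, Lin, qs, ma, m0, m1, m2, m3, m4, m5, m6, m7, m8, k4, k5, k6, k7, k8]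
  linear_combination (w * P * (1 + J.1) ^ 5 * J.2.1 + (1 - z * P) * w * P ^ 2 * J.1) * h

theorem qs_zero (c0 c1 c2 c3 c4 c5 c6 c7 c8 : B) : qs c0 c1 c2 c3 c4 c5 c6 c7 c8 0 = 0 := by
  simp [qs, ma, m0, m1, m2, m3, m4, m5, m6, m7, m8]

theorem Lin_eq {hf : B} (h : 2 * hf = 1) (w P z : B) (J : J6 B) :
    Lin hf w P z J = P * P * J.2.2.2.2.2 + (k4 hf w P z * J.1 + k4 hf w P z * J.1) +
      k5 hf w P z * J.2.1 := by
  simp only [Lin, k4, k5]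
  linear_combination (-(1 - z * P) * w * P ^ 2 * J.1) * h

variable {B' : Type*} [CommRing B']

theorem map_Nl (φ : B →+* B') (hf wi w P z : B) (J : J6 B) :
    φ (Nl hf wi w P z J) = Nl (φ hf) (φ wi) (φ w) (φ P) (φ z)
      (φ J.1, φ J.2.1, φ J.2.2.1, φ J.2.2.2.1, φ J.2.2.2.2.1, φ J.2.2.2.2.2) := by
  simp only [Nl, map_add, map_mul, map_sub, map_pow, map_one, map_ofNat]

theorem map_Lin (φ : B →+* B') (hf w P z : B) (J : J6 B) :
    φ (Lin hf w P z J) = Lin (φ hf) (φ w) (φ P) (φ z)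
      (φ J.1, φ J.2.1, φ J.2.2.1, φ J.2.2.2.1, φ J.2.2.2.2.1, φ J.2.2.2.2.2) := by
  simp only [Lin, map_add, map_mul, map_sub, map_pow, map_one, map_ofNat]

theorem Nl_zero {hf : B} (h : 2 * hf = 1) (wi w P z : B) : Nl hf wi w P z 0 = 0 := by
  have := Q_eq h wi w P z 0
  rw [qs_zero, Q] at this
  simpa [Lin] using this

end ring

/-- pair bounds for the six jets -/
structure JP (a b : ℝ) (o σ α β : ℝ → ℝ) (J J' : J6 (W 0)) (M : ℝ) : Prop where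
  v : PB a b o σ 1 J.1 J'.1 (fun _ => 1) M
  a' : PB a b o σ 1 J.2.1 J'.2.1 α M
  q : PB a b o σ 1 J.2.2.1 J'.2.2.1 (fun _ => 1) M
  b' : PB a b o σ 1 J.2.2.2.1 J'.2.2.2.1 β M
  m : PB a b o σ 1 J.2.2.2.2.1 J'.2.2.2.2.1 β M
  t : PB a b o σ 1 J.2.2.2.2.2 J'.2.2.2.2.2 (fun _ => 1) M
  le : ∀ z ∈ Icc a b, α z ≤ β z

variable {a b M : ℝ} {o σ α β : ℝ → ℝ} {J J' : J6 (W 0)}

theorem JP.one (h : JP a b o σ α β J J' M) : PB a b o σ 0 (1 : W 0) 1 (fun _ => 1) 1 :=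
  PB.one h.v.hyp

theorem JP.two (h : JP a b o σ α β J J' M) : PB a b o σ 0 (2 : W 0) 2 (fun _ => 1) (1 + 1) := by
  rw [← one_add_one_eq_two]; exact h.one.add h.one

theorem JP.u (h : JP a b o σ α β J J' M) :
    PB a b o σ 0 (1 + J.1) (1 + J'.1) (fun _ => 1) (1 + M) := h.one.add (h.v.low 0 (by omega))

theorem JP.uu (h : JP a b o σ α β J J' M) : PB a b o σ 0 ((1 + J.1) * (1 + J.1))
    ((1 + J'.1) * (1 + J'.1)) (fun _ => 1) (2 * ((1 + M) * (1 + M))) := h.u.mul₀ h.u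

/-- a bound which holds for all pairs of jets -/
def UB (M : ℝ) (n : ℕ) (F : J6 (W 0) → W 0) (m : ℝ → ℝ → ℝ) : Prop :=
  ∃ C : ℝ, ∀ (a b : ℝ) (o σ α β : ℝ → ℝ) (J J' : J6 (W 0)), JP a b o σ α β J J' M →
    PB a b o σ n (F J) (F J') (fun z => m (α z) (β z)) C

theorem ub_ma (M : ℝ) : UB M 1 (fun J => ma J.1 J.2.2.1) fun _ _ => 1 :=
  ⟨_, fun _ _ _ _ _ _ _ _ h => ((((h.uu.add h.u).add h.one).mul₀ h.v).low 1 (by omega)).add
    ((h.u.mul₀ (h.q.mul₀ h.q)).low 1 (by omega))⟩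

theorem ub0 (M : ℝ) : UB M 2 m0 fun x y => y + x * y := by
  obtain ⟨C, hC⟩ := ub_ma M
  refine ⟨_, fun a b o σ α β J J' h => ((((hC a b o σ α β J J' h).mul₀ h.b').mono (by omega)
    (fun z hz => ?_) le_rfl).add
    (((h.u.mul₀ ((h.t.low 0 (by omega)).sub h.u)).mul₀ (h.a'.mul h.a')).mono (by omega)
      (fun z hz => ?_) le_rfl)).sub
    ((((h.two.mul₀ h.u).mul₀ h.q).mul₀ (h.a'.mul h.m)).mono (by omega) (fun z hz => ?_) le_rfl)⟩
  · nlinarith [h.a'.pos z hz, h.b'.pos z hz]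
  · nlinarith [h.a'.pos z hz, h.b'.pos z hz, h.le z hz]
  · nlinarith [h.a'.pos z hz, h.b'.pos z hz]

theorem ub1 (M : ℝ) : UB M 2 m1 fun _ _ => 1 :=
  ⟨_, fun _ _ _ _ _ _ _ _ h =>
    (((((((h.two.mul₀ h.two).low 0 (by omega)).add ((h.two.mul₀ h.v).low 0 (by omega))).add h.uu).mul₀
      (h.v.mul₀ h.v)).low 2 (by omega)).add (((h.uu.sub h.two).mul₀ (h.q.mul₀ h.q)).low 2 (by omega))).add
      ((h.v.mul₀ h.t).low 2 (by omega))⟩

theorem ub2 (M : ℝ) : UB M 2 m2 fun _ y => y :=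
  ⟨_, fun _ _ _ _ _ _ _ _ h => ((h.two.mul₀ h.uu).mul₀
    (((h.t.mul₀ h.a').mono le_rfl h.le le_rfl).sub (h.q.mul₀ h.m))).low 2 (by omega)⟩

theorem ub3 (M : ℝ) : UB M 2 m3 fun _ _ => 1 :=
  ⟨_, fun _ _ _ _ _ _ _ _ h => ((((h.uu.add h.u).add h.one).mul₀ (h.v.mul₀ h.t)).low 2 (by omega)).sub
    ((h.uu.mul₀ (h.q.mul₀ h.q)).low 2 (by omega))⟩

theorem ub4 (M : ℝ) : UB M 2 m4 fun _ _ => 1 :=
  ⟨_, fun _ _ _ _ _ _ _ _ h =>
    ((((((h.two.mul₀ (h.u.add h.one)).mul₀ (h.uu.add h.one)).low 0 (by omega)).add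
      ((h.uu.mul₀ h.uu).low 0 (by omega))).mul₀ (h.v.mul₀ h.v)).low 2 (by omega)).sub
      ((h.uu.mul₀ (h.q.mul₀ h.q)).low 2 (by omega))⟩

theorem ub5 (M : ℝ) : UB M 2 m5 fun x _ => x :=
  ⟨_, fun _ _ _ _ _ _ _ _ h =>
    (((((h.uu.mul₀ ((h.uu.add h.u).add h.one)).low 0 (by omega)).add h.u).add h.one).mul₀
      (h.v.mul₀ h.a')).low 2 (by omega)⟩

theorem ub6 (M : ℝ) : UB M 2 m6 fun x _ => x * x :=
  ⟨_, fun _ _ _ _ _ _ _ _ h => ((h.uu.mul₀ h.uu).mul₀ (h.a'.mul h.a')).low 2 (by omega)⟩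

theorem ub7 (M : ℝ) : UB M 2 m7 fun x _ => x * (x * x) :=
  ⟨_, fun _ _ _ _ _ _ _ _ h => ((h.uu.mul₀ h.u).mul₀ (h.a'.mul (h.a'.mul h.a'))).low 2 (by omega)⟩

theorem ub8 (M : ℝ) : UB M 2 m8 fun x _ => x := by
  obtain ⟨C, hC⟩ := ub_ma M
  exact ⟨_, fun a b o σ α β J J' h => ((hC a b o σ α β J J' h).mul₀ h.a').low 2 (by omega)⟩

theorem PB.coef {f f' : W 0} {m κ : ℝ → ℝ} {C K : ℝ} (h : PB a b o σ 2 f f' m C) {c : BC}
    (hK : 0 ≤ K) (hc : ∀ z ∈ Icc a b, ‖c z‖ * m z ≤ K * κ z) :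
    WB a b (fun z => o z * σ z * κ z) (cz c * f - cz c * f') (K * |C|) := by
  rw [← mul_sub]
  refine (h.d.mono_const (le_abs_self C)).const_mul hK fun z hz => ?_
  obtain ⟨h1, -, h3⟩ := h.hyp z hz
  have := mul_le_mul_of_nonneg_left (hc z hz) (mul_nonneg h1 h3)
  simp only [Nat.add_one_sub_one, pow_one]
  linarith

/-- the main estimate, for arbitrary coefficients -/
theorem qs_bound (M : ℝ) : ∃ C : ℝ, 0 ≤ C ∧ ∀ (a b : ℝ) (o σ α β κ : ℝ → ℝ) (J J' : J6 (W 0))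
    (K : ℝ) (c0 c1 c2 c3 c4 c5 c6 c7 c8 : BC), JP a b o σ α β J J' M → 0 ≤ K →
    (∀ z ∈ Icc a b, ‖c0 z‖ * (β z + α z * β z) ≤ K * κ z ∧ ‖c1 z‖ * 1 ≤ K * κ z ∧
      ‖c2 z‖ * β z ≤ K * κ z ∧ ‖c3 z‖ * 1 ≤ K * κ z ∧ ‖c4 z‖ * 1 ≤ K * κ z ∧
      ‖c5 z‖ * α z ≤ K * κ z ∧ ‖c6 z‖ * (α z * α z) ≤ K * κ z ∧
      ‖c7 z‖ * (α z * (α z * α z)) ≤ K * κ z ∧ ‖c8 z‖ * α z ≤ K * κ z) →
    WB a b (fun z => o z * σ z * κ z)
      (qs (cz c0) (cz c1) (cz c2) (cz c3) (cz c4) (cz c5) (cz c6) (cz c7) (cz c8) J -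
        qs (cz c0) (cz c1) (cz c2) (cz c3) (cz c4) (cz c5) (cz c6) (cz c7) (cz c8) J') (K * C) := by
  obtain ⟨C0, h0⟩ := ub0 M
  obtain ⟨C1, h1⟩ := ub1 M
  obtain ⟨C2, h2⟩ := ub2 M
  obtain ⟨C3, h3⟩ := ub3 M
  obtain ⟨C4, h4⟩ := ub4 M
  obtain ⟨C5, h5⟩ := ub5 M
  obtain ⟨C6, h6⟩ := ub6 M
  obtain ⟨C7, h7⟩ := ub7 M
  obtain ⟨C8, h8⟩ := ub8 M
  refine ⟨|C0| + |C1| + |C2| + |C3| + |C4| + |C5| + |C6| + |C7| + |C8|, by positivity,
    fun a b o σ α β κ J J' K c0 c1 c2 c3 c4 c5 c6 c7 c8 h hK hc => ?_⟩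
  have := (((((((((h0 a b o σ α β J J' h).coef hK fun z hz => (hc z hz).1).add
    ((h1 a b o σ α β J J' h).coef hK fun z hz => (hc z hz).2.1)).add
    ((h2 a b o σ α β J J' h).coef hK fun z hz => (hc z hz).2.2.1)).add
    ((h3 a b o σ α β J J' h).coef hK fun z hz => (hc z hz).2.2.2.1)).add
    ((h4 a b o σ α β J J' h).coef hK fun z hz => (hc z hz).2.2.2.2.1)).add
    ((h5 a b o σ α β J J' h).coef hK fun z hz => (hc z hz).2.2.2.2.2.1)).add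
    ((h6 a b o σ α β J J' h).coef hK fun z hz => (hc z hz).2.2.2.2.2.2.1)).add
    ((h7 a b o σ α β J J' h).coef hK fun z hz => (hc z hz).2.2.2.2.2.2.2.1)).add
    ((h8 a b o σ α β J J' h).coef hK fun z hz => (hc z hz).2.2.2.2.2.2.2.2)
  convert this using 1
  · simp only [qs]; ring
  · ring

/-! ### the coefficients -/

/-- relative bound for a pair of numbers -/
structure RB (ρ : ℝ) (x x' : ℂ) (A : ℝ) : Prop where
  l : ‖x‖ ≤ A
  r : ‖x'‖ ≤ A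
  d : ‖x' - x‖ ≤ A * ρ

variable {ρ A₁ A₂ : ℝ} {x x' y y' : ℂ}

theorem RB.add (h : RB ρ x x' A₁) (h' : RB ρ y y' A₂) : RB ρ (x + y) (x' + y') (A₁ + A₂) :=
  ⟨norm_add_le_of_le h.l h'.l, norm_add_le_of_le h.r h'.r, by
    rw [add_sub_add_comm, add_mul]; exact norm_add_le_of_le h.d h'.d⟩

theorem RB.neg (h : RB ρ x x' A₁) : RB ρ (-x) (-x') A₁ :=
  ⟨by simpa using h.l, by simpa using h.r, by rw [neg_sub_neg, norm_sub_rev]; exact h.d⟩

theorem RB.sub (h : RB ρ x x' A₁) (h' : RB ρ y y' A₂) : RB ρ (x - y) (x' - y') (A₁ + A₂) := by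
  simpa only [sub_eq_add_neg] using h.add h'.neg

theorem RB.mul (h : RB ρ x x' A₁) (h' : RB ρ y y' A₂) :
    RB ρ (x * y) (x' * y') (2 * (A₁ * A₂)) := by
  have h0 : 0 ≤ A₁ * A₂ := mul_nonneg ((norm_nonneg _).trans h.l) ((norm_nonneg _).trans h'.l)
  refine ⟨(norm_mul_le_of_le h.l h'.l).trans (by linarith),
    (norm_mul_le_of_le h.r h'.r).trans (by linarith), ?_⟩
  rw [show x' * y' - x * y = (x' - x) * y' + x * (y' - y) by ring]
  exact (norm_add_le_of_le (norm_mul_le_of_le h.d h'.r) (norm_mul_le_of_le h.l h'.d)).trans_eq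
    (by ring)

theorem RB.const (hρ : 0 ≤ ρ) (hx : ‖x‖ ≤ A₁) : RB ρ x x A₁ :=
  ⟨hx, hx, by simpa using mul_nonneg ((norm_nonneg _).trans hx) hρ⟩

/-- `x` times the weight `m` is of size `K α²` -/
theorem RB.fin (h : RB ρ x x' A₁) {m B : ℝ} (hρ : 0 ≤ ρ) (hm : 0 ≤ m) (hB : A₁ * m ≤ B) :
    ‖x‖ * m ≤ B ∧ ‖x' - x‖ * m ≤ B * ρ :=
  ⟨(mul_le_mul_of_nonneg_right h.l hm).trans hB, (mul_le_mul_of_nonneg_right h.d hm).trans
    (by rw [mul_right_comm]; exact mul_le_mul_of_nonneg_right hB hρ)⟩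

theorem coef_bd {C z n ρ : ℝ} {w w' P P' Z Z' : ℂ} (hC : 1 ≤ C) (hz : 0 < z) (hn : 0 < n)
    (hn' : n ≤ 16) (hρ : 0 ≤ ρ) (hw : RB ρ w w' (C * n)) (hP : RB ρ P P' (C / (z * n)))
    (hZ : RB ρ Z Z' (C * z)) :
    let α := 1 / (z * n)
    let B := 1000 * C ^ 5 * (α * α)
    (‖P * P‖ * 1 ≤ B ∧ ‖P' * P' - P * P‖ * 1 ≤ B * ρ) ∧
    (‖k4 (1 / 2) w P Z‖ * 1 ≤ B ∧ ‖k4 (1 / 2) w' P' Z' - k4 (1 / 2) w P Z‖ * 1 ≤ B * ρ) ∧
    (‖k5 (1 / 2) w P Z‖ * α ≤ B ∧ ‖k5 (1 / 2) w' P' Z' - k5 (1 / 2) w P Z‖ * α ≤ B * ρ) ∧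
    (‖k6 (1 / 2) w P Z‖ * (α * α) ≤ B ∧
      ‖k6 (1 / 2) w' P' Z' - k6 (1 / 2) w P Z‖ * (α * α) ≤ B * ρ) ∧
    (‖k7 (1 / 2) w Z‖ * (α * (α * α)) ≤ B ∧
      ‖k7 (1 / 2) w' Z' - k7 (1 / 2) w Z‖ * (α * (α * α)) ≤ B * ρ) := by
  intro α B
  have hα : 0 < α := by positivity
  have hh : RB ρ (1 / 2) (1 / 2) (1 / 2) := RB.const hρ (by simp)
  have h3 : RB ρ (3 * (1 / 2)) (3 * (1 / 2)) (3 / 2) := RB.const hρ (by norm_num)
  have h1 : RB ρ 1 1 1 := RB.const hρ (by simp)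
  have c1 : C ≤ C ^ 5 := by simpa using pow_le_pow_right₀ hC (show 1 ≤ 5 by norm_num)
  have c2 : C ^ 2 ≤ C ^ 5 := pow_le_pow_right₀ hC (by norm_num)
  have c3 : C ^ 3 ≤ C ^ 5 := pow_le_pow_right₀ hC (by norm_num)
  have c4 : C ^ 4 ≤ C ^ 5 := pow_le_pow_right₀ hC (by norm_num)
  have c0 : 0 < C := by linarith
  have key : ∀ p : ℝ, p ≤ 1000 * C ^ 5 → p * (α * α) ≤ B := fun p hp =>
    mul_le_mul_of_nonneg_right hp (by positivity)
  refine ⟨(hP.mul hP).fin hρ zero_le_one ?_,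
    (hh.mul (((h1.sub (hZ.mul hP)).mul hw).mul (hP.mul hP))).fin hρ zero_le_one ?_,
    ((hw.mul hP).sub (h3.mul ((hZ.mul hw).mul (hP.mul hP)))).fin hρ hα.le ?_,
    ((hh.mul hw).sub (h3.mul ((hZ.mul hw).mul hP))).fin hρ (by positivity) ?_,
    (hh.mul (hZ.mul hw)).neg.fin hρ (by positivity) ?_⟩
  · refine le_of_eq_of_le ?_ (key (2 * C ^ 2) (by nlinarith [pow_pos c0 5]))
    simp only [α]; field_simp
  · refine le_of_eq_of_le ?_ (key (8 * n * C ^ 3 + 16 * C ^ 5)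
      (by nlinarith [pow_pos c0 5, pow_pos c0 3]))
    simp only [α]; field_simp; ring
  · refine le_of_eq_of_le ?_ (key (2 * n * C ^ 2 + 24 * C ^ 4)
      (by nlinarith [pow_pos c0 5, pow_pos c0 2]))
    simp only [α]; field_simp; ring
  · refine le_of_eq_of_le ?_ (key (n * C + 12 * C ^ 3) (by nlinarith [pow_pos c0 5]))
    simp only [α]; field_simp; ring
  · refine le_of_eq_of_le ?_ (key (2 * C ^ 2) (by nlinarith [pow_pos c0 5]))
    simp only [α]; field_simp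

/-- one half as a function -/
def hb : BC := algebraMap ℂ BC (1 / 2)

theorem cz_hb : cz hb = half := (const ℤ 0 BC).commutes _

theorem two_half : 2 * half = 1 := by
  rw [half, ← map_ofNat (algebraMap ℂ (W 0)) 2, ← map_mul]; simp

theorem hb_apply (z : ℝ) : hb z = 1 / 2 := by simp [hb]

theorem cz_k4 (w P Z : BC) : cz (k4 hb w P Z) = k4 half (cz w) (cz P) (cz Z) := by
  simp only [k4, ← cz_hb, cz, map_mul, map_sub, map_one]

theorem cz_k5 (w P Z : BC) : cz (k5 hb w P Z) = k5 half (cz w) (cz P) (cz Z) := by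
  simp only [k5, ← cz_hb, cz, map_mul, map_sub, map_ofNat]

theorem cz_k6 (w P Z : BC) : cz (k6 hb w P Z) = k6 half (cz w) (cz P) (cz Z) := by
  simp only [k6, ← cz_hb, cz, map_mul, map_sub, map_ofNat]

theorem cz_k7 (w Z : BC) : cz (k7 hb w Z) = k7 half (cz w) (cz Z) := by
  simp only [k7, ← cz_hb, cz, map_mul, map_neg]

theorem cz_k8 (Z : BC) : cz (k8 hb Z) = k8 half (cz Z) := by
  simp only [k8, ← cz_hb, cz, map_mul, map_neg]

theorem cz_mul (f g : BC) : cz (f * g) = cz f * cz g := map_mul (const ℤ 0 BC) f g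
theorem cz_sub (f g : BC) : cz (f - g) = cz f - cz g := map_sub (const ℤ 0 BC) f g
theorem cz_add (f g : BC) : cz (f + g) = cz f + cz g := map_add (const ℤ 0 BC) f g
theorem cz_one : cz 1 = 1 := map_one (const ℤ 0 BC)
theorem cz_zero : cz 0 = 0 := map_zero (const ℤ 0 BC)

theorem k4_apply (w P Z : BC) (z : ℝ) : k4 hb w P Z z = k4 (1 / 2) (w z) (P z) (Z z) := by
  simp [k4, hb_apply]

theorem k5_apply (w P Z : BC) (z : ℝ) : k5 hb w P Z z = k5 (1 / 2) (w z) (P z) (Z z) := by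
  simp [k5, hb_apply]

theorem k6_apply (w P Z : BC) (z : ℝ) : k6 hb w P Z z = k6 (1 / 2) (w z) (P z) (Z z) := by
  simp [k6, hb_apply]

theorem k7_apply (w Z : BC) (z : ℝ) : k7 hb w Z z = k7 (1 / 2) (w z) (Z z) := by
  simp [k7, hb_apply]

theorem k8_apply (Z : BC) (z : ℝ) : k8 hb Z z = k8 (1 / 2) (Z z) := by
  simp [k8, hb_apply]

theorem QW_eq (κ : Co) (J : J6 (W 0)) : QW κ J = qs (cz 1) (cz κ.1) (cz κ.2.2.1)
    (cz (κ.2.2.1 * κ.2.2.1)) (cz (k4 hb κ.2.1 κ.2.2.1 κ.2.2.2)) (cz (k5 hb κ.2.1 κ.2.2.1 κ.2.2.2))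
    (cz (k6 hb κ.2.1 κ.2.2.1 κ.2.2.2)) (cz (k7 hb κ.2.1 κ.2.2.2)) (cz (k8 hb κ.2.2.2)) J := by
  rw [QW, Q_eq two_half, cz_one, cz_mul, cz_k4, cz_k5, cz_k6, cz_k7, cz_k8]

theorem LinW_eq (κ : Co) (J : J6 (W 0)) : LinW κ J = cz (κ.2.2.1 * κ.2.2.1) * J.2.2.2.2.2 +
    (cz (k4 hb κ.2.1 κ.2.2.1 κ.2.2.2) * J.1 + cz (k4 hb κ.2.1 κ.2.2.1 κ.2.2.2) * J.1) +
    cz (k5 hb κ.2.1 κ.2.2.1 κ.2.2.2) * J.2.1 := by
  rw [LinW, Lin_eq two_half, cz_mul, cz_k4, cz_k5]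

theorem QW_zero (κ : Co) : QW κ 0 = 0 := by rw [QW_eq, qs_zero]

theorem PB.of_wb {f f' : W 0} {om sg g gs m : ℝ → ℝ} {t D : ℝ} (hM : 1 ≤ M) (ht : 0 ≤ t)
    (ht1 : t ≤ 1) (hom : ∀ z ∈ Icc a b, 0 ≤ om z ∧ om z ≤ M) (hsg : ∀ z ∈ Icc a b, 0 ≤ sg z)
    (h1 : WB a b g f t) (h2 : WB a b g f' t) (h3 : WB a b gs (f - f') D)
    (hg : ∀ z, g z = om z * m z) (hgs : ∀ z, gs z = sg z * m z) (hm : ∀ z ∈ Icc a b, 0 ≤ m z) :
    PB a b (fun z => t / M * om z) (fun z => D / M * sg z) 1 f f' m M := by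
  have hM0 : 0 < M := by linarith
  have hD := h3.nonneg
  have e : ∀ x : ℝ, x ≤ M * (x / M) := fun x => le_of_eq (by field_simp)
  refine ⟨((h1.mono_const (e t)).scale hM0.le (by positivity)).mono (fun z _ => ?_) le_rfl,
    ((h2.mono_const (e t)).scale hM0.le (by positivity)).mono (fun z _ => ?_) le_rfl,
    ((h3.mono_const (e D)).scale hM0.le (by positivity)).mono (fun z _ => ?_) le_rfl, hm,
    fun z hz => ⟨mul_nonneg (by positivity) (hom z hz).1, ?_,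
      mul_nonneg (by positivity) (hsg z hz)⟩⟩
  · rw [hg]; exact le_of_eq (by ring)
  · rw [hg]; exact le_of_eq (by ring)
  · rw [hgs]; exact le_of_eq (by ring)
  · rw [div_mul_eq_mul_div, div_le_one hM0]
    nlinarith [hom z hz]

theorem JP.of_nj {w : ℝ → ℂ} {om sg : ℝ → ℝ} {t D : ℝ} (hM : 1 ≤ M) (ht : 0 ≤ t) (ht1 : t ≤ 1)
    (ha : 1 ≤ a) (hom : ∀ z ∈ Icc a b, 0 ≤ om z ∧ om z ≤ M) (hsg : ∀ z ∈ Icc a b, 0 ≤ sg z)
    (h1 : NJ a b w om J t) (h2 : NJ a b w om J' t) (h3 : NJ a b w sg (J - J') D) :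
    JP a b (fun z => t / M * om z) (fun z => D / M * sg z) (fun z => 1 / (z * ‖w z‖))
      (fun z => 1 / ‖w z‖) J J' M := by
  have hp : ∀ z ∈ Icc a b, 0 ≤ 1 / (z * ‖w z‖) := fun z hz => by
    have : 0 ≤ z := by linarith [hz.1]
    positivity
  refine ⟨PB.of_wb hM ht ht1 hom hsg h1.v h2.v h3.v (by simp) (by simp) (by simp),
    PB.of_wb hM ht ht1 hom hsg h1.a' h2.a' h3.a' (fun z => by ring) (fun z => by ring) hp,
    PB.of_wb hM ht ht1 hom hsg h1.q h2.q h3.q (by simp) (by simp) (by simp),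
    PB.of_wb hM ht ht1 hom hsg h1.b' h2.b' h3.b' (fun z => by ring) (fun z => by ring) (by simp),
    PB.of_wb hM ht ht1 hom hsg h1.m h2.m h3.m (fun z => by ring) (fun z => by ring) (by simp),
    PB.of_wb hM ht ht1 hom hsg h1.t h2.t h3.t (by simp) (by simp) (by simp), fun z hz => ?_⟩
  have h4 : 1 ≤ z := ha.trans hz.1
  rw [← div_div, div_right_comm]
  exact div_le_self (by positivity) h4

theorem nj_zero (w : ℝ → ℂ) (sg : ℝ → ℝ) {D : ℝ} (hD : 0 ≤ D) : NJ a b w sg 0 D :=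
  ⟨WB.zero _ hD, WB.zero _ hD, WB.zero _ hD, WB.zero _ hD, WB.zero _ hD, WB.zero _ hD⟩

theorem q_proof : QStmt := by
  intro C M hC hM
  obtain ⟨C₁, hC₁, H⟩ := qs_bound M
  have c1 : C ≤ C ^ 5 := by simpa using pow_le_pow_right₀ hC (show 1 ≤ 5 by norm_num)
  have hK : (0 : ℝ) ≤ 1000 * C ^ 5 := by positivity
  refine ⟨1000 * C ^ 5 * (C₁ + 4), by nlinarith, fun a b w κ om sg hκ hom hsg => ?_⟩
  have hz0 : ∀ z ∈ Icc a b, 1 ≤ z := fun z hz => hκ.one.trans hz.1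
  have hn : ∀ z ∈ Icc a b, 0 < ‖w z‖ := fun z hz => norm_pos_iff.2 (hκ.ne z hz)
  have hb := fun z (hz : z ∈ Icc a b) => coef_bd hC (one_pos.trans_le (hz0 z hz)) (hn z hz)
    (hκ.le z hz) le_rfl (RB.const le_rfl (hκ.k2 z hz)) (RB.const le_rfl (hκ.k3 z hz))
    (RB.const le_rfl (hκ.k4 z hz))
  refine ⟨fun J D hJ => ?_, fun J J' t D ht ht1 h1 h2 h3 => ?_⟩
  · have hD := hJ.v.nonneg
    rw [LinW_eq]
    refine (((hJ.t.const_mul hK fun z hz => ?_).add ((hJ.v.const_mul hK fun z hz => ?_).add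
      (hJ.v.const_mul hK fun z hz => ?_))).add (hJ.a'.const_mul hK fun z hz => ?_)).mono_const
      (by nlinarith [mul_nonneg (mul_nonneg hK hC₁) hD])
    · have := mul_le_mul_of_nonneg_right (hb z hz).1.1 (hsg z hz)
      rw [BoundedContinuousFunction.mul_apply]
      exact le_of_eq_of_le (by ring) (this.trans_eq (by ring))
    · have := mul_le_mul_of_nonneg_right (hb z hz).2.1.1 (hsg z hz)
      rw [k4_apply]
      exact le_of_eq_of_le (by ring) (this.trans_eq (by ring))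
    · have := mul_le_mul_of_nonneg_right (hb z hz).2.1.1 (hsg z hz)
      rw [k4_apply]
      exact le_of_eq_of_le (by ring) (this.trans_eq (by ring))
    · have := mul_le_mul_of_nonneg_right (hb z hz).2.2.1.1 (hsg z hz)
      rw [k5_apply]
      exact le_of_eq_of_le (by ring) (this.trans_eq (by ring))
  · have hD := h3.v.nonneg
    rw [QW_eq, QW_eq]
    have hkw : ∀ z, kw w z = 1 / ‖w z‖ + 1 / (z * ‖w z‖) * (1 / ‖w z‖) := fun z => by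
      rw [kw]; ring
    have h4 := JP.of_nj hM ht ht1 hκ.one (fun z hz => ⟨(hom z hz).1, (hom z hz).2.1⟩) hsg h1 h2 h3
    refine ((H a b _ _ _ _ (kw w) J J' _ _ _ _ _ _ _ _ _ _ h4 hK fun z hz => ?_).mono_mul
      (K := t * D) (by positivity) fun z hz => ?_).mono_const
      (by nlinarith [mul_nonneg hK (mul_nonneg ht hD)])
    · obtain ⟨⟨b3, -⟩, ⟨b4, -⟩, ⟨b5, -⟩, ⟨b6, -⟩, b7, -⟩ := hb z hz
      have hz1 := hz0 z hz
      have hn1 := hn z hz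
      have hαβ := h4.le z hz
      rw [hkw, k4_apply, k5_apply, k6_apply, k7_apply, k8_apply,
        BoundedContinuousFunction.mul_apply]
      have e1 : ‖κ.1 z‖ ≤ C * (1 / ‖w z‖) := (hκ.k1 z hz).trans_eq (by ring)
      have e2 : ‖κ.2.2.1 z‖ ≤ C * (1 / (z * ‖w z‖)) := (hκ.k3 z hz).trans_eq (by ring)
      have e3 : ‖k8 (1 / 2) (κ.2.2.2 z)‖ * (1 / (z * ‖w z‖)) ≤ C * (1 / ‖w z‖) := by
        have : ‖k8 (1 / 2) (κ.2.2.2 z)‖ ≤ C * z := by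
          simp only [k8, norm_neg, norm_mul]
          have := hκ.k4 z hz
          norm_num
          linarith [norm_nonneg (κ.2.2.2 z)]
        refine (mul_le_mul_of_nonneg_right this (by positivity)).trans_eq ?_
        field_simp
      have hα : 0 < 1 / (z * ‖w z‖) := by positivity
      have hβ : 0 < 1 / ‖w z‖ := by positivity
      generalize 1 / (z * ‖w z‖) = x at *
      generalize 1 / ‖w z‖ = y at *
      have hxy : 0 < x * y := mul_pos hα hβ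
      have e4 : 1000 * C ^ 5 * (x * x) ≤ 1000 * C ^ 5 * (y + x * y) :=
        mul_le_mul_of_nonneg_left (by nlinarith) hK
      have e5 : C * (y + x * y) ≤ 1000 * C ^ 5 * (y + x * y) :=
        mul_le_mul_of_nonneg_right (by linarith) (by positivity)
      refine ⟨?_, by nlinarith, ?_, b3.trans e4, b4.trans e4, b5.trans e4, b6.trans e4,
        b7.trans e4, by nlinarith⟩
      · rw [BoundedContinuousFunction.coe_one, Pi.one_apply, norm_one]; nlinarith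
      · nlinarith [mul_le_mul_of_nonneg_right e2 hβ.le]
    · have hkw0 : 0 ≤ kw w z := by
        have : 0 ≤ z := by linarith [hz0 z hz]
        rw [kw]; positivity
      have e : t / M * om z * (D / M * sg z) * kw w z =
          t * D * (kw w z * om z * sg z) / (M * M) := by ring
      rw [e]
      exact div_le_self (by have := (hom z hz).1; have := hsg z hz; positivity) (by nlinarith)

theorem qd_proof : QdStmt := by
  intro C M hC hM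
  obtain ⟨C₁, hC₁, H⟩ := qs_bound M
  have c1 : C ≤ C ^ 5 := by simpa using pow_le_pow_right₀ hC (show 1 ≤ 5 by norm_num)
  have hK : (0 : ℝ) ≤ 1000 * C ^ 5 := by positivity
  refine ⟨1000 * C ^ 5 * (C₁ + 1), by nlinarith,
    fun a b w κ κ' om s hκ hκ' hom hs J t ht ht1 hJ => ?_⟩
  have hz0 : ∀ z ∈ Icc a b, 1 ≤ z := fun z hz => hκ.one.trans hz.1
  have hn : ∀ z ∈ Icc a b, 0 < ‖w z‖ := fun z hz => norm_pos_iff.2 (hκ.ne z hz)
  have h4 := JP.of_nj hM ht ht1 hκ.one (fun z hz => ⟨(hom z hz).1, (hom z hz).2.1⟩)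
    (fun z hz => (hom z hz).1) hJ (nj_zero w om ht) (by rwa [sub_zero])
  have h5 := H a b _ _ _ _ (fun z => s z / ‖w z‖ ^ 2) J 0 _ 0 (κ'.1 - κ.1) (κ'.2.2.1 - κ.2.2.1)
    (κ'.2.2.1 * κ'.2.2.1 - κ.2.2.1 * κ.2.2.1)
    (k4 hb κ'.2.1 κ'.2.2.1 κ'.2.2.2 - k4 hb κ.2.1 κ.2.2.1 κ.2.2.2)
    (k5 hb κ'.2.1 κ'.2.2.1 κ'.2.2.2 - k5 hb κ.2.1 κ.2.2.1 κ.2.2.2)
    (k6 hb κ'.2.1 κ'.2.2.1 κ'.2.2.2 - k6 hb κ.2.1 κ.2.2.1 κ.2.2.2)
    (k7 hb κ'.2.1 κ'.2.2.2 - k7 hb κ.2.1 κ.2.2.2) (k8 hb κ'.2.2.2 - k8 hb κ.2.2.2) h4 hK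
    fun z hz => ?_
  · rw [qs_zero, sub_zero] at h5
    have e : QW κ' J - QW κ J = qs (cz 0) (cz (κ'.1 - κ.1)) (cz (κ'.2.2.1 - κ.2.2.1))
        (cz (κ'.2.2.1 * κ'.2.2.1 - κ.2.2.1 * κ.2.2.1))
        (cz (k4 hb κ'.2.1 κ'.2.2.1 κ'.2.2.2 - k4 hb κ.2.1 κ.2.2.1 κ.2.2.2))
        (cz (k5 hb κ'.2.1 κ'.2.2.1 κ'.2.2.2 - k5 hb κ.2.1 κ.2.2.1 κ.2.2.2))
        (cz (k6 hb κ'.2.1 κ'.2.2.1 κ'.2.2.2 - k6 hb κ.2.1 κ.2.2.1 κ.2.2.2))
        (cz (k7 hb κ'.2.1 κ'.2.2.2 - k7 hb κ.2.1 κ.2.2.2))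
        (cz (k8 hb κ'.2.2.2 - k8 hb κ.2.2.2)) J := by
      rw [QW_eq, QW_eq]
      simp only [qs, cz_sub, cz_zero]; ring
    rw [e]
    refine (h5.mono_mul (K := t ^ 2) (by positivity) fun z hz => ?_).mono_const
      (by nlinarith [mul_nonneg hK (sq_nonneg t)])
    have e : t / M * om z * (t / M * om z) * (s z / ‖w z‖ ^ 2) =
        t ^ 2 * (s z * om z ^ 2 / ‖w z‖ ^ 2) / (M * M) := by ring
    rw [e]
    exact div_le_self (by have := (hs z hz).1; positivity) (by nlinarith)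
  · obtain ⟨s0, s1, s2, s3, s4⟩ := hs z hz
    have hz1 := hz0 z hz
    have hn1 := hn z hz
    have hn2 := hκ.le z hz
    have hzw := hκ.zw z hz
    have hρ : 0 ≤ s z * z := by positivity
    obtain ⟨⟨-, b3⟩, ⟨-, b4⟩, ⟨-, b5⟩, ⟨-, b6⟩, -, b7⟩ := coef_bd hC (one_pos.trans_le hz1) hn1 hn2 hρ
      ⟨hκ.k2 z hz, hκ'.k2 z hz, s2.trans (by
        rw [div_le_iff₀ (by linarith)]
        nlinarith [mul_le_mul hC hzw zero_le_one (by linarith)])⟩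
      ⟨hκ.k3 z hz, hκ'.k3 z hz, s3.trans (by
        rw [show C / (z * ‖w z‖) * (s z * z) = C * (s z / ‖w z‖) by field_simp]
        exact le_mul_of_one_le_left (by positivity) hC)⟩
      ⟨hκ.k4 z hz, hκ'.k4 z hz, s4.trans (by
        nlinarith [mul_le_mul hC (one_le_mul_of_one_le_of_one_le hz1 hz1) zero_le_one
          (by linarith)])⟩
    have e0 : s z / ‖w z‖ ^ 2 ≤ 1000 * C ^ 5 * (s z / ‖w z‖ ^ 2) :=
      le_mul_of_one_le_left (by positivity) (by linarith)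
    have e1 : s z / (z * ‖w z‖ ^ 2) ≤ s z / ‖w z‖ ^ 2 :=
      div_le_div_of_nonneg_left s0 (by positivity) (by nlinarith [sq_nonneg ‖w z‖])
    have e4 : 1000 * C ^ 5 * (1 / (z * ‖w z‖) * (1 / (z * ‖w z‖))) * (s z * z) ≤
        1000 * C ^ 5 * (s z / ‖w z‖ ^ 2) := by
      rw [mul_assoc]
      refine mul_le_mul_of_nonneg_left (le_of_eq_of_le ?_ e1) hK
      field_simp
    simp only [BoundedContinuousFunction.sub_apply, k4_apply, k5_apply, k6_apply, k7_apply,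
      k8_apply, BoundedContinuousFunction.mul_apply]
    refine ⟨?_, by linarith, ?_, b3.trans e4, b4.trans e4, b5.trans e4, b6.trans e4, b7.trans e4,
      ?_⟩
    · simpa using mul_nonneg hK (by positivity : 0 ≤ s z / ‖w z‖ ^ 2)
    · refine ((mul_le_mul_of_nonneg_right s3 (by positivity)).trans_eq ?_).trans e0
      field_simp
    · have e5 : ‖k8 (1 / 2) (κ'.2.2.2 z) - k8 (1 / 2) (κ.2.2.2 z)‖ ≤ s z := by
        rw [show k8 (1 / 2) (κ'.2.2.2 z) - k8 (1 / 2) (κ.2.2.2 z) =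
          -(1 / 2) * (κ'.2.2.2 z - κ.2.2.2 z) by simp only [k8]; ring, norm_mul]
        norm_num
        linarith
      refine (mul_le_mul_of_nonneg_right e5 (by positivity)).trans ?_
      rw [show s z * (1 / (z * ‖w z‖)) = ‖w z‖ * (s z / (z * ‖w z‖ ^ 2)) by field_simp]
      exact mul_le_mul (by linarith) e1 (by positivity) hK

/-! ### analyticity, reality, values -/

theorem contDiff_NlW : ContDiff ℂ ⊤ fun x : Co × J6 (W 0) => NlW x.1 x.2 := by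
  have h : ContDiff ℂ ⊤ cz := (single 0 (0 : ℤ) : BC →L[ℂ] W 0).contDiff
  unfold NlW Nl
  fun_prop

theorem contDiff_LinW : ContDiff ℂ ⊤ fun x : Co × J6 (W 0) => LinW x.1 x.2 := by
  have h : ContDiff ℂ ⊤ cz := (single 0 (0 : ℤ) : BC →L[ℂ] W 0).contDiff
  unfold LinW Lin
  fun_prop

theorem differentiable_NlW : Differentiable ℂ fun x : Co × J6 (W 0) => NlW x.1 x.2 :=
  contDiff_NlW.differentiable (by simp)

theorem NlW_eq (κ : Co) (J : J6 (W 0)) : NlW κ J = LinW κ J + QW κ J := by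
  simp [NlW, LinW, QW, Q]

theorem NlW_zero (κ : Co) : NlW κ 0 = 0 := Nl_zero two_half _ _ _ _

theorem LinW_sub (κ : Co) (J J' : J6 (W 0)) : LinW κ (J - J') = LinW κ J - LinW κ J' := by
  simp only [LinW, Lin, Prod.fst_sub, Prod.snd_sub]; ring

theorem NlW_sub (κ : Co) (J J' : J6 (W 0)) :
    NlW κ J - NlW κ J' = LinW κ (J - J') + (QW κ J - QW κ J') := by
  rw [NlW_eq, NlW_eq, LinW_sub]; ring

theorem star_cz (f : BC) : star (cz f) = cz (star f) := by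
  simp [cz, const_apply, star_single]

theorem star_half : star half = half := by
  rw [← cz_hb, star_cz]; congr 1; ext z; simp [hb_apply]

theorem star_NlW (κ : Co) (J : J6 (W 0)) : star (NlW κ J) = NlW (star κ) (star J) := by
  have := map_Nl (starRingEnd (W 0)) half (cz κ.1) (cz κ.2.1) (cz κ.2.2.1) (cz κ.2.2.2) J
  simp only [starRingEnd_apply, star_cz, star_half] at this
  exact this

theorem val_cz (f : BC) (z θ : ℝ) : Cone.val (cz f) z θ = f z := Wien.val_const f z θ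

theorem val_half (z θ : ℝ) : Cone.val half z θ = 1 / 2 := by rw [← cz_hb, val_cz, hb_apply]

theorem val_NlW (κ : Co) (J : J6 (W 0)) (z θ : ℝ) : Cone.val (NlW κ J) z θ =
    Nl (1 / 2) (κ.1 z) (κ.2.1 z) (κ.2.2.1 z) (κ.2.2.2 z) (Cone.val J.1 z θ, Cone.val J.2.1 z θ,
      Cone.val J.2.2.1 z θ, Cone.val J.2.2.2.1 z θ, Cone.val J.2.2.2.2.1 z θ,
      Cone.val J.2.2.2.2.2 z θ) := by
  have := map_Nl (valA 0 ℂ z θ).toRingHom half (cz κ.1) (cz κ.2.1) (cz κ.2.2.1) (cz κ.2.2.2) J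
  rw [← val_half z θ, ← val_cz κ.1 z θ, ← val_cz κ.2.1 z θ, ← val_cz κ.2.2.1 z θ,
    ← val_cz κ.2.2.2 z θ]
  exact this

/-- the linear part acts mode by mode -/
theorem cf_LinW (κ : Co) (J : J6 (W 0)) (k : ℤ) (z : ℝ) : cf (LinW κ J) k z =
    Lin (1 / 2) (κ.2.1 z) (κ.2.2.1 z) (κ.2.2.2 z) (cf J.1 k z, cf J.2.1 k z, cf J.2.2.1 k z,
      cf J.2.2.2.1 k z, cf J.2.2.2.2.1 k z, cf J.2.2.2.2.2 k z) := by
  rw [LinW_eq, Lin_eq (by norm_num)]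
  simp only [cz, cf_add, cf_const_mul, BoundedContinuousFunction.add_apply,
    BoundedContinuousFunction.mul_apply, k4_apply, k5_apply]

end

end Vale.Agent.P218F.End
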