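import Vale.Agent.P218F.EndX3S
import Vale.Agent.P218F.EndNL

/-! Cylindrical ends: the pull-back of a triple under the change of variable `pb`. -/

set_option maxSynthPendingDepth 3

namespace Vale.Agent.P218F.End

open Set Metric Wien Filter Topology
open Cone (W A T3 BC J6 jets jets_apply)

noncomputable section

theorem hasDerivAt_pos_pow (n : ℕ) (s : ℝ) :
    HasDerivAt (fun x : ℝ => max x 0 ^ (n + 2)) ((n + 2) * max s 0 ^ (n + 1)) s := by
  have h1 : ∀ x : ℝ, HasDerivAt (fun x : ℝ => x ^ (n + 2)) ((n + 2) * x ^ (n + 1)) x := fun x => by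
    simpa using hasDerivAt_pow (n + 2) x
  rcases lt_trichotomy s 0 with h | rfl | h
  · rw [max_eq_right h.le, zero_pow (by omega), mul_zero]
    refine (hasDerivAt_const s (0 : ℝ)).congr_of_eventuallyEq ?_
    filter_upwards [gt_mem_nhds h] with x hx
    rw [max_eq_right hx.le, zero_pow (by omega)]
  · rw [max_self, ← hasDerivWithinAt_univ, ← Iic_union_Ici (a := (0 : ℝ))]
    refine HasDerivWithinAt.union ?_ ((h1 0).hasDerivWithinAt.congr
      (fun x hx => by rw [max_eq_left hx]) (by rw [max_self]))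
    rw [zero_pow (by omega), mul_zero]
    exact (hasDerivWithinAt_const _ _ (0 : ℝ)).congr
      (fun x hx => by rw [max_eq_right hx, zero_pow (by omega)]) (by simp)
  · rw [max_eq_left h.le]
    refine (h1 s).congr_of_eventuallyEq ?_
    filter_upwards [lt_mem_nhds h] with x hx
    rw [max_eq_left hx.le]

variable {a R R' d z : ℝ}

theorem hasDerivAt_pb (R d s : ℝ) : HasDerivAt (pb R d) (pb1 R d s) s := by
  have := (hasDerivAt_id s).add
    (((hasDerivAt_pos_pow 1 (s - (R - 1))).comp_sub_const s (R - 1)).const_mul d)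
  refine this.congr_deriv ?_
  unfold pb1; push_cast; ring

theorem hasDerivAt_pb1 (R d s : ℝ) : HasDerivAt (pb1 R d) (pb2 R d s) s := by
  have := (((hasDerivAt_pos_pow 0 (s - (R - 1))).comp_sub_const s (R - 1)).const_mul
    (3 * d)).const_add 1
  refine this.congr_deriv ?_
  unfold pb2; push_cast; ring

theorem pb_of_le (h : z ≤ R - 1) (d : ℝ) : pb R d z = z := by
  simp [pb, max_eq_right (sub_nonpos.2 h)]

theorem pb_right (R d : ℝ) : pb R d R = R + d := by simp [pb]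

theorem chi_le (hz : z ≤ R) : 0 ≤ max (z - (R - 1)) 0 ∧ max (z - (R - 1)) 0 ≤ 1 ∧
    max (z - (R - 1)) 0 ≤ 3 * bl R z := by
  refine ⟨le_max_right _ _, max_le (by linarith) zero_le_one, max_le ?_ (by linarith [bl_pos R z])⟩
  have := Real.add_one_le_exp (z - R)
  have := bl_pos R z
  unfold bl at *
  linarith

theorem pb_bd (hd : 0 ≤ d) (hz : z ≤ R) : z ≤ pb R d z ∧ pb R d z ≤ z + d ∧
    pb R d z - z ≤ 3 * d * bl R z := by
  obtain ⟨h0, h1, h2⟩ := chi_le hz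
  have h3 : max (z - (R - 1)) 0 ^ 3 ≤ max (z - (R - 1)) 0 := pow_le_of_le_one h0 h1 (by norm_num)
  have h4 := pow_nonneg h0 3
  unfold pb
  refine ⟨by nlinarith, by nlinarith, by nlinarith⟩

theorem pb_mem (hd : 0 ≤ d) (hz : z ∈ Icc a R) : pb R d z ∈ Icc a (R + d) :=
  ⟨hz.1.trans (pb_bd hd hz.2).1, by linarith [(pb_bd hd hz.2).2.1, hz.2]⟩

theorem pb1_bd (hd : 0 ≤ d) (hd1 : d ≤ 1) (hz : z ≤ R) : |pb1 R d z - 1| ≤ 9 * d * bl R z ∧
    |pb1 R d z ^ 2 - 1| ≤ 45 * d * bl R z ∧ |pb2 R d z| ≤ 18 * d * bl R z := by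
  obtain ⟨h0, h1, h2⟩ := chi_le hz
  have h3 : max (z - (R - 1)) 0 ^ 2 ≤ max (z - (R - 1)) 0 := pow_le_of_le_one h0 h1 (by norm_num)
  have h4 := pow_nonneg h0 2
  have e1 : pb1 R d z - 1 = 3 * (d * max (z - (R - 1)) 0 ^ 2) := by unfold pb1; ring
  have e2 : 0 ≤ d * max (z - (R - 1)) 0 ^ 2 := mul_nonneg hd h4
  have e3 : d * max (z - (R - 1)) 0 ^ 2 ≤ d * (3 * bl R z) :=
    mul_le_mul_of_nonneg_left (h3.trans h2) hd
  have e4 : d * max (z - (R - 1)) 0 ^ 2 ≤ 1 := by nlinarith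
  refine ⟨?_, ?_, ?_⟩
  · rw [e1, abs_of_nonneg (by linarith)]; linarith
  · have : pb1 R d z ^ 2 - 1 = (pb1 R d z - 1) * (pb1 R d z - 1 + 2) := by ring
    rw [this, e1, abs_of_nonneg (by positivity)]; nlinarith
  · unfold pb2; rw [abs_of_nonneg (by positivity)]; nlinarith

/-- `pb1`, `pb2` and the coefficient of the first order residual, as bounded functions -/
def pc1 (a R d : ℝ) : BC := Mode.ext a R fun z => (pb1 R d z : ℂ)
def pc2 (a R d : ℝ) : BC := Mode.ext a R fun z => (pb2 R d z : ℂ)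
def pc3 (a R d : ℝ) : BC :=
  Mode.ext a R fun z => ((pb2 R d z - (z * pb1 R d z - pb R d z) / 2 : ℝ) : ℂ)

theorem pc1_apply (hz : z ∈ Icc a R) : pc1 a R d z = pb1 R d z :=
  Mode.ext_of_mem (by unfold pb1; fun_prop) hz

theorem pc2_apply (hz : z ∈ Icc a R) : pc2 a R d z = pb2 R d z :=
  Mode.ext_of_mem (by unfold pb2; fun_prop) hz

theorem pc3_apply (hz : z ∈ Icc a R) :
    pc3 a R d z = ((pb2 R d z - (z * pb1 R d z - pb R d z) / 2 : ℝ) : ℂ) :=
  Mode.ext_of_mem (by unfold pb pb1 pb2; fun_prop) hz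

theorem pc3_le (hd : 0 ≤ d) (hd1 : d ≤ 1) (hz : z ∈ Icc a R) (h1 : 20 ≤ z) :
    ‖pc3 a R d z‖ ≤ 6 * d * bl R z * z := by
  obtain ⟨e1, -, e3⟩ := pb1_bd hd hd1 hz.2
  obtain ⟨e4, -, e5⟩ := pb_bd hd hz.2
  rw [pc3_apply hz, Complex.norm_real, Real.norm_eq_abs]
  have e6 : 0 ≤ d * bl R z := mul_nonneg hd (bl_pos R z).le
  rw [abs_le] at e1 e3 ⊢
  have e7 := mul_le_mul_of_nonneg_left e1.1 (by linarith : 0 ≤ z)
  have e8 := mul_le_mul_of_nonneg_left e1.2 (by linarith : 0 ≤ z)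
  constructor <;> nlinarith [e3.1, e3.2]

/-- the pulled back triple -/
def pbT (a R d : ℝ) (p : T3 0) : T3 0 :=
  (pull ℤ 2 ℂ (pbC R d) p.1, const ℤ 1 BC (pc1 a R d) * pull ℤ 1 ℂ (pbC R d) p.2.1,
    cz (pc1 a R d * pc1 a R d) * pull ℤ 0 ℂ (pbC R d) p.2.2 +
      cz (pc2 a R d) * pull ℤ 0 ℂ (pbC R d) (jets 0 p).2.1)

@[simp] theorem pbC_apply (R d z : ℝ) : pbC R d z = pb R d z := rfl

theorem cf_jets (p : T3 0) (k : ℤ) (z : ℝ) : cf (jets 0 p).1 k z = cf p.1 k z ∧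
    cf (jets 0 p).2.1 k z = cf p.2.1 k z ∧
    cf (jets 0 p).2.2.1 k z = Complex.I * k * cf p.1 k z ∧
    cf (jets 0 p).2.2.2.1 k z = cf p.2.2 k z ∧
    cf (jets 0 p).2.2.2.2.1 k z = Complex.I * k * cf p.2.1 k z ∧
    cf (jets 0 p).2.2.2.2.2 k z = -(k : ℂ) ^ 2 * cf p.1 k z := by
  simp only [jets_apply, cf_incl, cf_dth, BoundedContinuousFunction.smul_apply, smul_eq_mul,
    true_and]
  linear_combination (k : ℂ) ^ 2 * cf p.1 k z * Complex.I_mul_I

theorem cf_pbT (p : T3 0) (k : ℤ) (hz : z ∈ Icc a R) :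
    cf (pbT a R d p).1 k z = cf p.1 k (pb R d z) ∧
    cf (pbT a R d p).2.1 k z = pb1 R d z * cf p.2.1 k (pb R d z) ∧
    cf (pbT a R d p).2.2 k z =
      pb1 R d z ^ 2 * cf p.2.2 k (pb R d z) + pb2 R d z * cf p.2.1 k (pb R d z) := by
  simp only [pbT, cz, cf_pull, cf_add, cf_const_mul, BoundedContinuousFunction.add_apply,
    BoundedContinuousFunction.mul_apply, pc1_apply hz, pc2_apply hz, pbC_apply,
    (cf_jets p k _).2.1, sq, and_self]

theorem zder_pbT (hd : 0 ≤ d) {p : T3 0} (d0 : ZDer (Icc a (R + d)) p.1 p.2.1)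
    (d1 : ZDer (Icc a (R + d)) p.2.1 p.2.2) :
    ZDer (Icc a R) (pbT a R d p).1 (pbT a R d p).2.1 ∧
      ZDer (Icc a R) (pbT a R d p).2.1 (pbT a R d p).2.2 := by
  have hm : MapsTo (pb R d) (Icc a R) (Icc a (R + d)) := fun z hz => pb_mem hd hz
  refine ⟨fun k z hz => ?_, fun k z hz => ?_⟩
  · have := (d0 k _ (hm hz)).scomp z (hasDerivAt_pb R d z).hasDerivWithinAt hm
    refine (this.congr (fun s hs => (cf_pbT p k hs).1) (cf_pbT p k hz).1).congr_deriv ?_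
    rw [(cf_pbT p k hz).2.1, Complex.real_smul]
  · have := (hasDerivAt_pb1 R d z).hasDerivWithinAt.ofReal_comp.mul
      ((d1 k _ (hm hz)).scomp z (hasDerivAt_pb R d z).hasDerivWithinAt hm)
    refine (this.congr (fun s hs => (cf_pbT p k hs).2.1) (cf_pbT p k hz).2.1).congr_deriv ?_
    rw [(cf_pbT p k hz).2.2, Complex.real_smul]
    simp only [Function.comp_apply]
    ring

/-- the residual of the model operator; `J` are the pulled back jets, `wi'` the pulled back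
potential -/
def resid (a R d : ℝ) (wi wi' : BC) (J : J6 (W 0)) : W 0 :=
  cz (pc1 a R d * pc1 a R d - 1) * J.2.2.2.1 + cz (pc3 a R d) * J.2.1 +
    cz (wi - wi') * (J.2.2.2.2.2 + (J.1 + J.1))

theorem cf_resid (wi wi' : BC) (J : J6 (W 0)) (k : ℤ) (hz : z ∈ Icc a R) :
    cf (resid a R d wi wi' J) k z = ((pb1 R d z ^ 2 - 1 : ℝ) : ℂ) * cf J.2.2.2.1 k z +
      pc3 a R d z * cf J.2.1 k z + (wi z - wi' z) * (cf J.2.2.2.2.2 k z + 2 * cf J.1 k z) := by
  simp only [resid, cz, cf_add, cf_const_mul, BoundedContinuousFunction.add_apply,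
    BoundedContinuousFunction.mul_apply, BoundedContinuousFunction.sub_apply, pc1_apply hz,
    BoundedContinuousFunction.coe_one, Pi.one_apply]
  push_cast
  ring

theorem linEq_pbT (hd : 0 ≤ d) {p : T3 0} {wi' : BC} {F : W 0} (h : LinEq a (R + d) wi' p F)
    (wi : BC) : LinEq a R wi (pbT a R d p) (pull ℤ 0 ℂ (pbC R d) F +
      resid a R d wi (wi'.compContinuous (pbC R d)) (pullJ (pbC R d) (jets 0 p))) := by
  intro k z hz
  obtain ⟨e1, e2, e3⟩ := cf_pbT (d := d) p k hz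
  obtain ⟨j1, j2, -, j4, -, j6⟩ := cf_jets p k (pb R d z)
  rw [cf_add, BoundedContinuousFunction.add_apply, cf_resid _ _ _ _ hz, e1, e2, e3, cf_pull,
    pbC_apply, ← h k _ (pb_mem hd hz), pc3_apply hz]
  simp only [pullJ, cf_pull, pbC_apply, j1, j2, j4, j6,
    BoundedContinuousFunction.compContinuous_apply]
  push_cast
  ring

theorem bcs_pbT (ha : a ≤ R - 1) {p : T3 0} {h : A 2} (hb : BCs a (R + d) h p) :
    BCs a R h (pbT a R d p) := by
  have h1 : a ∈ Icc a R := ⟨le_rfl, by linarith⟩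
  have h2 : R ∈ Icc a R := ⟨by linarith, le_rfl⟩
  refine ⟨fun k hk => ?_, fun k => ?_, fun k hk => ?_⟩
  · rw [(cf_pbT p k h1).1, pb_of_le ha, hb.1 k hk]
  · rw [(cf_pbT p k h2).2.1, pb_right, hb.2.1 k, mul_zero]
  · rw [(cf_pbT p k h2).1, pb_right, hb.2.2 k hk]

theorem LinEq.sub {wi : BC} {p q : T3 0} {F G : W 0} (h : LinEq a R wi p F)
    (h' : LinEq a R wi q G) : LinEq a R wi (p - q) (F - G) := fun k z hz => by
  simp only [Prod.fst_sub, Prod.snd_sub, cf_sub, BoundedContinuousFunction.sub_apply,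
    ← h k z hz, ← h' k z hz]
  ring

theorem BCs.sub {g g' : A 2} {p q : T3 0} (h : BCs a R g p) (h' : BCs a R g' q) :
    BCs a R (g - g') (p - q) :=
  ⟨fun k hk => by simp [h.1 k hk, h'.1 k hk], fun k => by simp [h.2.1 k, h'.2.1 k],
    fun k hk => by simp [h.2.2 k hk, h'.2.2 k hk]⟩

/-- the pull-back as a ring homomorphism -/
def pullH (g : C(ℝ, ℝ)) : W 0 →+* W 0 where
  toFun := pull ℤ 0 ℂ g
  map_one' := pull_one g
  map_mul' := pull_mul g
  map_zero' := map_zero _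
  map_add' := map_add _

theorem pull_cz (g : C(ℝ, ℝ)) (f : BC) : pull ℤ 0 ℂ g (cz f) = cz (f.compContinuous g) := by
  rw [cz, cz, const_apply, const_apply, pull, mapL_single]
  rfl

theorem pull_NlW (g : C(ℝ, ℝ)) (κ : Co) (J : J6 (W 0)) :
    pull ℤ 0 ℂ g (NlW κ J) = NlW (pullCo g κ) (pullJ g J) := by
  have h1 : pull ℤ 0 ℂ g half = half := by
    rw [← cz_hb, pull_cz]; congr 1
  have := map_Nl (pullH g) half (cz κ.1) (cz κ.2.1) (cz κ.2.2.1) (cz κ.2.2.2) J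
  simp only [pullH, RingHom.coe_mk, MonoidHom.coe_mk, OneHom.coe_mk, pull_cz, h1] at this
  exact this

theorem WB.pull {s : ℕ} {u : W s} {m m' : ℝ → ℝ} {B K : ℝ} (h : WB a R' m u B) {g : C(ℝ, ℝ)}
    (hK : 0 ≤ K) (hg : ∀ z ∈ Icc a R, g z ∈ Icc a R' ∧ m (g z) ≤ K * m' z) :
    WB a R m' (pull ℤ s ℂ g u) (K * B) := by
  obtain ⟨c, h0, h2, h3, h1⟩ := h
  refine WB.mono_mul (m := fun z => m (g z)) ⟨c, h0, h2, h3, fun k z hz => ?_⟩ hK
    fun z hz => (hg z hz).2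
  rw [cf_pull]
  exact h1 k _ (hg z hz).1

theorem NJ.pull {w w' : ℝ → ℂ} {sg sg' : ℝ → ℝ} {J : J6 (W 0)} {D K : ℝ}
    (h : NJ a R' w' sg' J D) {g : C(ℝ, ℝ)} (hK : 0 ≤ K) (ha : 0 < a)
    (hg : ∀ z ∈ Icc a R, g z ∈ Icc a R' ∧ z ≤ g z ∧ 0 ≤ sg' (g z) ∧ sg' (g z) ≤ K * sg z ∧
      0 < ‖w z‖ ∧ ‖w z‖ ≤ 2 * ‖w' (g z)‖) : NJ a R w sg (pullJ g J) (2 * K * D) := by
  have h2 : 0 ≤ 2 * K := by linarith
  have k0 : ∀ z ∈ Icc a R, g z ∈ Icc a R' ∧ sg' (g z) ≤ 2 * K * sg z := fun z hz => by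
    obtain ⟨e1, -, e3, e4, -⟩ := hg z hz
    exact ⟨e1, by linarith⟩
  have k1 : ∀ z ∈ Icc a R, g z ∈ Icc a R' ∧ sg' (g z) / ‖w' (g z)‖ ≤ 2 * K * (sg z / ‖w z‖) :=
    fun z hz => by
      obtain ⟨e1, -, e3, e4, e5, e6⟩ := hg z hz
      refine ⟨e1, (div_le_div₀ (e3.trans e4) e4 (half_pos e5) (by linarith)).trans_eq ?_⟩
      field_simp
  have k2 : ∀ z ∈ Icc a R, g z ∈ Icc a R' ∧
      sg' (g z) / (g z * ‖w' (g z)‖) ≤ 2 * K * (sg z / (z * ‖w z‖)) := fun z hz => by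
    obtain ⟨e1, e2, e3, e4, e5, e6⟩ := hg z hz
    have e7 : 0 < z := ha.trans_le hz.1
    refine ⟨e1, (div_le_div₀ (e3.trans e4) e4 (mul_pos e7 (half_pos e5))
      (mul_le_mul e2 (by linarith) (half_pos e5).le (e7.le.trans e2))).trans_eq ?_⟩
    field_simp
  exact ⟨h.v.pull h2 k0, h.a'.pull h2 k2, h.q.pull h2 k0, h.b'.pull h2 k1, h.m.pull h2 k1,
    h.t.pull h2 k0⟩

/-- the pulled back jets differ from the jets of the pulled back triple only in the layer -/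
theorem nj_layer (hd : 0 ≤ d) (hd1 : d ≤ 1) (ha : 1 ≤ a) {w : ℝ → ℂ} {sg : ℝ → ℝ} {p : T3 0}
    {D : ℝ} (hs : ∀ z ∈ Icc a R, 0 ≤ sg z) (h : NJ a R w sg (pullJ (pbC R d) (jets 0 p)) D) :
    NJ a R w (fun z => bl R z * sg z) (pullJ (pbC R d) (jets 0 p) - jets 0 (pbT a R d p))
      (63 * d * D) := by
  have hD := h.v.nonneg
  have h0 : 0 ≤ 63 * d * D := by positivity
  have n1 : ∀ z ∈ Icc a R, ‖(1 - pc1 a R d) z‖ ≤ 9 * d * bl R z := fun z hz => by
    rw [BoundedContinuousFunction.sub_apply, pc1_apply hz, norm_sub_rev,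
      BoundedContinuousFunction.coe_one, Pi.one_apply]
    exact_mod_cast (pb1_bd hd hd1 hz.2).1
  have n2 : ∀ z ∈ Icc a R, ‖(1 - pc1 a R d * pc1 a R d) z‖ ≤ 45 * d * bl R z := fun z hz => by
    rw [BoundedContinuousFunction.sub_apply, BoundedContinuousFunction.mul_apply, pc1_apply hz,
      norm_sub_rev, ← sq, BoundedContinuousFunction.coe_one, Pi.one_apply]
    exact_mod_cast (pb1_bd hd hd1 hz.2).2.1
  have n3 : ∀ z ∈ Icc a R, ‖pc2 a R d z‖ ≤ 18 * d * bl R z := fun z hz => by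
    rw [pc2_apply hz]
    exact_mod_cast (pb1_bd hd hd1 hz.2).2.2
  have p1 : ∀ z ∈ Icc a R, 0 ≤ sg z / ‖w z‖ := fun z hz => div_nonneg (hs z hz) (norm_nonneg _)
  have p2 : ∀ z ∈ Icc a R, 0 ≤ sg z / (z * ‖w z‖) ∧ sg z / (z * ‖w z‖) ≤ sg z / ‖w z‖ :=
    fun z hz => by
      have : 1 ≤ z := ha.trans hz.1
      rw [← div_div, div_right_comm]
      exact ⟨div_nonneg (p1 z hz) (by linarith), div_le_self (p1 z hz) this⟩
  refine ⟨(WB.zero _ h0).congr fun k z hz => ?_,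
    ((h.a'.const_mul (f := 1 - pc1 a R d) (K := 9 * d) (by positivity) fun z hz => ?_).congr
      fun k z hz => ?_).mono_const (by nlinarith [mul_nonneg hd hD]),
    (WB.zero _ h0).congr fun k z hz => ?_,
    (((h.b'.const_mul (f := 1 - pc1 a R d * pc1 a R d) (K := 45 * d) (by positivity)
      fun z hz => ?_).sub (h.a'.const_mul (f := pc2 a R d) (K := 18 * d) (by positivity)
      fun z hz => ?_)).congr fun k z hz => ?_).mono_const (le_of_eq (by ring)),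
    ((h.m.const_mul (f := 1 - pc1 a R d) (K := 9 * d) (by positivity) fun z hz => ?_).congr
      fun k z hz => ?_).mono_const (by nlinarith [mul_nonneg hd hD]),
    (WB.zero _ h0).congr fun k z hz => ?_⟩
  · simp [pullJ, (cf_jets _ k _).1, (cf_pbT p k hz).1]
  · exact (mul_le_mul_of_nonneg_right (n1 z hz) (p2 z hz).1).trans_eq (by ring)
  · simp [pullJ, (cf_jets _ k _).2.1, (cf_pbT p k hz).2.1, pc1_apply hz, sub_mul]
  · simp [pullJ, (cf_jets _ k _).2.2.1, (cf_pbT p k hz).1]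
  · exact (mul_le_mul_of_nonneg_right (n2 z hz) (p1 z hz)).trans_eq (by ring)
  · exact (mul_le_mul (n3 z hz) (p2 z hz).2 (p2 z hz).1
      ((norm_nonneg _).trans (n3 z hz))).trans_eq (by ring)
  · simp [pullJ, (cf_jets _ k _).2.1, (cf_jets _ k _).2.2.2.1, (cf_pbT p k hz).2.2, pc1_apply hz,
      pc2_apply hz, -map_sub, -map_mul]
    ring
  · exact (mul_le_mul_of_nonneg_right (n1 z hz) (p1 z hz)).trans_eq (by ring)
  · simp [pullJ, (cf_jets _ k _).2.2.2.2.1, (cf_pbT p k hz).2.1, pc1_apply hz, -map_sub]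
    ring
  · simp [pullJ, (cf_jets _ k _).2.2.2.2.2, (cf_pbT p k hz).1]

end

end Vale.Agent.P218F.End
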