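import Vale.Agent.P218F.EndV
import Vale.Agent.P218F.EndNL
import Vale.Agent.P218F.EndLin

/-! Cylindrical ends: the a priori estimate for differences of small approximate solutions. -/

set_option maxSynthPendingDepth 3

namespace Vale.Agent.P218F.End

open Set Metric Wien Filter Topology
open Cone (W A T3 BC J6 jets)

variable {a b D D' : ℝ} {w : ℝ → ℂ} {sg : ℝ → ℝ} {J J' : J6 (W 0)}

theorem NJ.nonneg (h : NJ a b w sg J D) : 0 ≤ D := h.v.nonneg

theorem NJ.mono_const (h : NJ a b w sg J D) (hD : D ≤ D') : NJ a b w sg J D' :=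
  ⟨h.v.mono_const hD, h.a'.mono_const hD, h.q.mono_const hD, h.b'.mono_const hD,
    h.m.mono_const hD, h.t.mono_const hD⟩

theorem NJ.add (h : NJ a b w sg J D) (h' : NJ a b w sg J' D') : NJ a b w sg (J + J') (D + D') :=
  ⟨h.v.add h'.v, h.a'.add h'.a', h.q.add h'.q, h.b'.add h'.b', h.m.add h'.m, h.t.add h'.t⟩

theorem NJ.sub (h : NJ a b w sg J D) (h' : NJ a b w sg J' D') : NJ a b w sg (J - J') (D + D') :=
  ⟨h.v.sub h'.v, h.a'.sub h'.a', h.q.sub h'.q, h.b'.sub h'.b', h.m.sub h'.m, h.t.sub h'.t⟩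

theorem NJ.subset {a' b' : ℝ} (h : NJ a b w sg J D) (hs : Icc a' b' ⊆ Icc a b) :
    NJ a' b' w sg J D :=
  ⟨h.v.subset hs, h.a'.subset hs, h.q.subset hs, h.b'.subset hs, h.m.subset hs, h.t.subset hs⟩

theorem NJ.of_forall (h : ∀ ε > 0, NJ a b w sg J (D + ε)) (ha : 0 < a)
    (hw : ∀ z ∈ Icc a b, w z ≠ 0) (hs : ∀ z ∈ Icc a b, 0 < sg z) : NJ a b w sg J D := by
  have h1 : ∀ z ∈ Icc a b, 0 < sg z / ‖w z‖ := fun z hz =>
    div_pos (hs z hz) (norm_pos_iff.2 (hw z hz))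
  exact ⟨WB.of_forall (fun ε e => (h ε e).v) hs, WB.of_forall (fun ε e => (h ε e).a') fun z hz =>
    div_pos (hs z hz) (mul_pos (ha.trans_le hz.1) (norm_pos_iff.2 (hw z hz))),
    WB.of_forall (fun ε e => (h ε e).q) hs, WB.of_forall (fun ε e => (h ε e).b') h1,
    WB.of_forall (fun ε e => (h ε e).m) h1, WB.of_forall (fun ε e => (h ε e).t) hs⟩

/-- every jet has some bound -/
theorem NJ.exists (J : J6 (W 0)) (ha : 1 ≤ a) (hab : a ≤ b) (hw : ∀ z ∈ Icc a b, w z ≠ 0)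
    (hw' : ∀ z ∈ Icc a b, ‖w z‖ ≤ 16) {m : ℝ} (hm : 0 < m) (hs : ∀ z ∈ Icc a b, m ≤ sg z) :
    ∃ D, NJ a b w sg J D := by
  have hb : 1 ≤ b := ha.trans hab
  have key : ∀ (u : W 0) (f : ℝ → ℝ), ‖u‖ ≤ ‖J‖ → (∀ z ∈ Icc a b, m ≤ 16 * b * f z) →
      WB a b f u (16 * b / m * ‖J‖) := fun u f hu hf =>
    ((WB.of_norm u).mono_const hu).mono_mul (by positivity) fun z hz => by
      rw [div_mul_eq_mul_div, le_div_iff₀ hm, one_mul]; exact hf z hz
  have k0 : ∀ z ∈ Icc a b, m ≤ 16 * b * sg z := fun z hz => by nlinarith [hs z hz]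
  have k1 : ∀ z ∈ Icc a b, m ≤ 16 * b * (sg z / (z * ‖w z‖)) := fun z hz => by
    have h1 := norm_pos_iff.2 (hw z hz)
    have h2 : 0 < z := by linarith [hz.1]
    have h3 : z * ‖w z‖ ≤ b * 16 := mul_le_mul hz.2 (hw' z hz) h1.le (by linarith)
    rw [← mul_div_assoc, le_div_iff₀ (by positivity)]
    nlinarith [hs z hz, mul_pos h2 h1]
  have k2 : ∀ z ∈ Icc a b, m ≤ 16 * b * (sg z / ‖w z‖) := fun z hz => by
    have h1 := norm_pos_iff.2 (hw z hz)
    have h3 : ‖w z‖ ≤ 16 * b := by nlinarith [hw' z hz]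
    rw [← mul_div_assoc, le_div_iff₀ h1]
    nlinarith [hs z hz]
  have n2 := norm_snd_le J
  have n3 := (norm_snd_le J.2).trans n2
  have n4 := (norm_snd_le J.2.2).trans n3
  have n5 := (norm_snd_le J.2.2.2).trans n4
  exact ⟨_, key _ _ (norm_fst_le J) k0, key _ _ ((norm_fst_le _).trans n2) k1,
    key _ _ ((norm_fst_le _).trans n3) k0, key _ _ ((norm_fst_le _).trans n4) k2,
    key _ _ ((norm_fst_le _).trans n5) k2, key _ _ ((norm_snd_le _).trans n5) k0⟩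

theorem jets_sub (p p' : T3 0) : jets 0 (p - p') = jets 0 p - jets 0 p' :=
  (jets 0).toLinearMap.map_sub p p'

theorem jets_add (p p' : T3 0) : jets 0 (p + p') = jets 0 p + jets 0 p' :=
  (jets 0).toLinearMap.map_add p p'

theorem jets_zero : jets 0 0 = 0 := (jets 0).toLinearMap.map_zero

theorem stab_of (hq : QStmt) : StabStmt := by
  intro C₀ M Cm h0 hM hC
  obtain ⟨C, hC1, hQ⟩ := hq C₀ M h0 hM
  have hN : 1 ≤ 2 * Cm * C * (1 + M) := by
    have : 1 ≤ Cm * C := one_le_mul_of_one_le_of_one_le hC hC1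
    nlinarith
  obtain ⟨ε, hε, hε1, hε2⟩ : ∃ ε : ℝ, 0 < ε ∧ ε ≤ 1 ∧ Cm * (C * ε * (1 + M)) = 1 / 2 :=
    ⟨1 / (2 * Cm * C * (1 + M)), by positivity, (div_le_one (by linarith)).2 hN, by
      field_simp⟩
  refine ⟨ε, hε, hε1, ?_⟩
  intro a b w κ om sg ys hab hκ hi hom ⟨m, hm, hsg⟩ hE hw p p' h G t d0 d1 n1 n2 he hb hG
  have hs : ∀ z ∈ Icc a b, 0 < sg z := fun z hz => hm.trans_le (hsg z hz)
  have hsa := hs a (left_mem_Icc.2 hab.le)
  obtain ⟨hL, hQ2⟩ := hQ a b w κ om sg hκ hom fun z hz => (hs z hz).le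
  have step : ∀ D, NJ a b w sg (jets 0 (p - p')) D →
      NJ a b w sg (jets 0 (p - p')) (Cm * (‖h‖ / sg a + t) + D / 2) := fun D hD => by
    have a1 := (hL _ D hD).mono_mul hε.le fun z hz => (hw z hz).1
    have a2 := (hQ2 _ _ ε D hε.le hε1 n1 n2 (by rw [← jets_sub]; exact hD)).mono_mul
      (by linarith : 0 ≤ M) fun z hz => (hw z hz).2
    have a3 := hG.sub (a1.add a2)
    rw [jets_sub, ← NlW_sub] at a3
    refine (linEst (by linarith) hi hsa (fun z hz => nonneg_of_mul_nonneg_right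
      ((div_nonneg (hs z hz).le (sq_nonneg _)).trans (hw z hz).1) hε) hE d0 d1 he hb a3).mono_const
      (le_of_eq ?_)
    linear_combination D * hε2
  obtain ⟨D₀, hD₀⟩ := NJ.exists (jets 0 (p - p')) hκ.one hab.le hκ.ne hκ.le hm hsg
  have hX : 0 ≤ Cm * (‖h‖ / sg a + t) := by have := hG.nonneg; positivity
  have it : ∀ n : ℕ, NJ a b w sg (jets 0 (p - p'))
      (2 * Cm * (‖h‖ / sg a + t) + D₀ * (1 / 2) ^ n) := fun n => by
    induction n with
    | zero => exact hD₀.mono_const (by linarith)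
    | succ n ih => exact (step _ ih).mono_const (le_of_eq (by ring))
  refine NJ.of_forall (fun e he => ?_) (by linarith [hκ.one]) hκ.ne hs
  have lim : Tendsto (fun n : ℕ => D₀ * (1 / 2 : ℝ) ^ n) atTop (𝓝 (D₀ * 0)) :=
    (tendsto_pow_atTop_nhds_zero_of_lt_one (by norm_num) (by norm_num)).const_mul D₀
  rw [mul_zero] at lim
  obtain ⟨n, hn⟩ := (lim.eventually (gt_mem_nhds he)).exists
  exact (it n).mono_const (by linarith)

theorem stab_proof : StabStmt := stab_of q_proof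

end Vale.Agent.P218F.End
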