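import Vale.Agent.P218F.EndWB

/-!
# Cylindrical ends: the relative perturbation `v` and the statements of the last pieces
-/

set_option maxSynthPendingDepth 3

namespace Vale.Agent.P218F.End

open Set Metric Wien
open Cone (W A T3 BC J6 jets fn fn1 vT)

noncomputable section

/-- the coefficients `(1 / w, w, w' / (2 w), z)` on `[a, R]`, `V = w`, `P = w'` -/
def kap (a R : ℝ) (V P : BC) : Co :=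
  (Mode.ext a R fun z => (V z)⁻¹, Mode.clamp a R V, Mode.ext a R fun z => P z / (2 * V z),
    Mode.ext a R fun z => (z : ℂ))

/-- the symmetric solution `ρ = √w` -/
def rho (a R : ℝ) (V : BC) : BC := Mode.ext a R fun z => V z ^ (1 / 2 : ℂ)

/-- `ρ'' / ρ` -/
def pp (κ : Co) : BC :=
  (1 / 2 : ℂ) • (κ.2.2.2 * κ.2.2.1) + κ.1 - (1 / 2 : ℂ) • 1 -
    (1 / 2 : ℂ) • ((1 - κ.2.2.2 * κ.2.2.1) * κ.2.1 * κ.2.2.1 ^ 2) + κ.2.2.1 ^ 2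

/-- the triple of `r = ρ (1 + v)` -/
def eOf (κ : Co) (ρ : BC) (v : T3 0) : T3 0 :=
  (const ℤ 2 BC ρ * (1 + v.1),
    const ℤ 1 BC ρ * (const ℤ 1 BC κ.2.2.1 * (1 + incl ℤ BC (Nat.le_succ 1) v.1) + v.2.1),
    cz ρ * (cz (pp κ) * (1 + (jets 0 v).1) + 2 * cz κ.2.2.1 * (jets 0 v).2.1 + v.2.2))

/-- one solution `v` of size `D` -/
structure VSol (a R : ℝ) (V P : BC) (h : A 2) (v : T3 0) (D : ℝ) : Prop where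
  tri : Tri a R v
  bcs : BCs a R ((rho a R V a)⁻¹ • h) v
  eq : LinEq a R (kap a R V P).1 v (-NlW (kap a R V P) (jets 0 v))
  bd : NJ a R V (om a R V) (jets 0 v) D

/-- the standing assumptions for one value of the parameters -/
structure Dat (C Λ Z₀ a R : ℝ) (y c : ℂ) (V P : BC) : Prop where
  sol : Sym.Sol C Λ Z₀ R y c V P
  c1 : 1 ≤ C
  lam : 640000 * C ^ 3 ≤ Λ
  z0 : 0 < Z₀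
  zl : 2 * Λ ≤ Z₀ ^ 2
  za : Z₀ ≤ a
  aR : a ^ 3 ≤ R

/-- the family of solutions -/
structure IsV (Λ δ K a R₁ : ℝ) (V P : ℝ → ℂ → BC) (v : ℝ → A 2 × ℂ → T3 0) : Prop where
  hol : ∀ R, R₁ ≤ R → DifferentiableOn ℂ (v R) (Dm δ Λ R)
  sol : ∀ R, R₁ ≤ R → ∀ x ∈ Dm δ Λ R, VSol a R (V R x.2) (P R x.2) x.1 (v R x) (K * ‖x.1‖)
  real : ∀ R, R₁ ≤ R → ∀ x ∈ Dm δ Λ R, star x.1 = x.1 → x.2.im = 0 → star (v R x) = v R x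

/-- the end solver -/
def eV (a : ℝ) (V P : ℝ → ℂ → BC) (v : ℝ → A 2 × ℂ → T3 0) (R : ℝ) (x : A 2 × ℂ) : T3 0 :=
  eOf (kap a R (V R x.2) (P R x.2)) (rho a R (V R x.2)) (v R x)

/-- MODE-EST for the main weight -/
def MainEstStmt : Prop := ∀ C₀ : ℝ, 1 ≤ C₀ → ∃ C : ℝ, 1 ≤ C ∧ ∀ (Λ a R : ℝ) (w P P₁ : ℝ → ℂ),
  Prof C₀ Λ a R w P P₁ → ModeEst a R w (om a R w) (fun z => mu w z * om a R w z) C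

/-- STAB: a priori estimate for the difference of two small approximate solutions, for any pair
of weights with `ModeEst` -/
def StabStmt : Prop := ∀ C₀ M Cm : ℝ, 1 ≤ C₀ → 1 ≤ M → 1 ≤ Cm → ∃ ε : ℝ, 0 < ε ∧ ε ≤ 1 ∧
  ∀ (a b : ℝ) (w : ℝ → ℂ) (κ : Co) (om sg ys : ℝ → ℝ), a < b → CoOK C₀ a b w κ →
    (∀ z ∈ Icc a b, κ.1 z = (w z)⁻¹) →
    (∀ z ∈ Icc a b, 0 ≤ om z ∧ om z ≤ M ∧ om z ≤ M * (z * ‖w z‖)) →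
    (∃ m, 0 < m ∧ ∀ z ∈ Icc a b, m ≤ sg z) → ModeEst a b w sg ys Cm →
    (∀ z ∈ Icc a b, sg z / (z * ‖w z‖) ^ 2 ≤ ε * ys z ∧ kw w z * om z * sg z ≤ M * ys z) →
    ∀ (p p' : T3 0) (h : A 2) (G : W 0) (t : ℝ), ZDer (Icc a b) (p - p').1 (p - p').2.1 →
      ZDer (Icc a b) (p - p').2.1 (p - p').2.2 → NJ a b w om (jets 0 p) ε →
      NJ a b w om (jets 0 p') ε →
      LinEq a b κ.1 (p - p') (G - (NlW κ (jets 0 p) - NlW κ (jets 0 p'))) → BCs a b h (p - p') →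
      WB a b ys G t → NJ a b w sg (jets 0 (p - p')) (2 * Cm * (‖h‖ / sg a + t))

/-- FIX: existence of the family -/
def VStmt : Prop := ∀ C : ℝ, 1 ≤ C → ∃ Λ₁ K δ₀ : ℝ, 1 ≤ K ∧ 0 < δ₀ ∧
  ∀ (Λ Z₀ R₀ : ℝ) (V P : ℝ → ℂ → BC) (cc : ℝ → ℂ → ℂ), Λ₁ ≤ Λ → 0 < Z₀ → 2 * Λ ≤ Z₀ ^ 2 →
    Sym.Fam C Λ Z₀ R₀ V P cc → ∀ a, Z₀ ≤ a → ∃ v, IsV Λ δ₀ K a (max R₀ (a ^ 3)) V P v

/-- OUT (1): the exact properties of `r = ρ (1 + v)` -/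
def Out1Stmt : Prop := ∀ (C Λ Z₀ a R : ℝ) (y c : ℂ) (V P : BC) (h : A 2) (v : T3 0) (D : ℝ),
  Dat C Λ Z₀ a R y c V P → VSol a R V P h v D →
  let e := eOf (kap a R V P) (rho a R V) v
  Tri a R e ∧ PtEq a R e ∧ (∀ k : ℤ, 2 ≤ |k| → cf e.1 k a = cf h k) ∧ (∀ k, cf e.2.1 k R = 0) ∧
    cf e.1 0 R = y ^ (1 / 2 : ℂ) ∧ cf e.1 1 R = 0 ∧ cf e.1 (-1) R = 0

/-- OUT (2): the estimates -/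
def Out2Stmt : Prop := ∀ C : ℝ, 1 ≤ C → ∃ K D₀ : ℝ, 1 ≤ K ∧ 0 < D₀ ∧
  ∀ (Λ Z₀ a R : ℝ) (y c : ℂ) (V P : BC) (h : A 2) (v : T3 0) (D : ℝ),
  Dat C Λ Z₀ a R y c V P → VSol a R V P h v D → D ≤ D₀ →
  let e := eOf (kap a R V P) (rho a R V) v
  ‖Cone.tr 2 R e.1 - algebraMap ℂ (A 2) (y ^ (1 / 2 : ℂ))‖ ≤
      K * D * √‖y‖ * (a / R) ^ (19 / 10 : ℝ) ∧
    (∀ z ∈ Icc a R, ∀ θ, 0 < (fn e (z, θ)).re ∧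
      0 < (fn e (z, θ) ^ 2 * (1 + Cone.val e.2.1 z θ ^ 2) + vT e z θ ^ 2).re) ∧
    ‖e‖ ≤ K * R ∧ (∀ z ∈ Icc a R, ∀ θ, ‖fn e (z, θ)‖ ≤ 8 ∧ ‖fn1 e (z, θ)‖ ≤ K) ∧
    (∀ Z ∈ Icc a R, ‖c‖ * Z ^ 2 ≤ 1 / 2 → ‖res3 a Z e - cyl‖ ≤ K * (D + ‖c‖ * Z ^ 2) ∧
      ∀ z ∈ Icc a Z, ∀ θ, z * ‖Cone.val e.2.1 z θ‖ ≤ K * (D + ‖c‖ * Z ^ 2)) ∧
    (c = 0 → ∀ Z ∈ Icc a R, ‖res3 Z R e - cyl‖ ≤ K * D * (a / Z) ^ (19 / 10 : ℝ))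

/-- (X3) -/
def X3Stmt : Prop := ∀ C K : ℝ, 1 ≤ C → 1 ≤ K → ∃ Λ₁ δ₁ : ℝ, 0 < δ₁ ∧
  ∀ (Λ Z₀ R₀ : ℝ) (V P : ℝ → ℂ → BC) (cc Y : ℝ → ℂ → ℂ), Λ₁ ≤ Λ → 0 < Z₀ → 2 * Λ ≤ Z₀ ^ 2 →
    Sym.Fam C Λ Z₀ R₀ V P cc → Sym.LipR C Λ Z₀ R₀ V P cc → Sym.Inv C Λ R₀ cc Y →
    ∀ δ a v, δ ≤ δ₁ → Z₀ ≤ a → IsV Λ δ K a (max R₀ (a ^ 3)) V P v → ∃ R₁ C₂ : ℝ,
      ∀ R R', R₁ ≤ R → R ≤ R' → R' ≤ R + 1 → ∀ h ∈ ball (0 : A 2) δ, ∀ c ∈ Sym.Om (2 * Λ) R',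
        ∀ Z ∈ Icc a (R / 2),
          ‖res3 a Z (eV a V P v R' (h, Y R' c)) - res3 a Z (eV a V P v R (h, Y R c))‖ ≤
            C₂ * (R' - R) * Z ^ 2 * R ^ (-(28 / 5) : ℝ)

/-- (X4) -/
def X4Stmt : Prop := ∀ C K : ℝ, 1 ≤ C → 1 ≤ K → ∃ Λ₁ δ₁ : ℝ, 0 < δ₁ ∧
  ∀ (Λ Z₀ R₀ : ℝ) (V P : ℝ → ℂ → BC) (cc Y : ℝ → ℂ → ℂ), Λ₁ ≤ Λ → 0 < Z₀ → 2 * Λ ≤ Z₀ ^ 2 →
    Sym.Fam C Λ Z₀ R₀ V P cc → Sym.LipR C Λ Z₀ R₀ V P cc → Sym.Inv C Λ R₀ cc Y →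
    ∀ δ a v, δ ≤ δ₁ → Z₀ ≤ a → IsV Λ δ K a (max R₀ (a ^ 3)) V P v → ∃ R₁ : ℝ,
      ∀ R₂, R₁ ≤ R₂ → ∀ x₂ ∈ Dm δ Λ R₂, ∃ L ε : ℝ, 0 < ε ∧ ∀ R R' x x', R₁ ≤ R → R ≤ R' →
        |R - R₂| < ε → |R' - R₂| < ε → x ∈ Dm δ Λ R → x' ∈ Dm δ Λ R' → ‖x - x₂‖ < ε →
        ‖x' - x₂‖ < ε → ∀ z ∈ Icc a R, ∀ θ,
          ‖fn (eV a V P v R' x') (z, θ) - fn (eV a V P v R x) (z, θ)‖ ≤
            L * (R' - R + ‖x' - x‖) ∧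
          ‖fn1 (eV a V P v R' x') (z, θ) - fn1 (eV a V P v R x) (z, θ)‖ ≤
            L * (R' - R + ‖x' - x‖)

end

end Vale.Agent.P218F.End
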