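import Vale.Agent.P218F.EndDef

/-!
# Weighted Wiener bounds

`WB a b m u A`: the modes of `u` are bounded on `[a, b]` by `c k * m z` with `∑ wt k * c k ≤ A`.
`PB a b o σ n f f' m A` is the version for pairs: `f`, `f'` have the weight `o ^ n * m`, their
difference has the weight `o ^ (n - 1) * σ * m`.
-/

set_option maxSynthPendingDepth 3

namespace Vale.Agent.P218F.End

open Set Metric Wien
open Cone (W A T3 BC)

noncomputable section

variable {a b : ℝ} {s t : ℕ} {u v : W s} {m m' : ℝ → ℝ} {A B : ℝ}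

theorem WB.intro (c : ℤ → ℝ) (h0 : ∀ k, 0 ≤ c k) (h1 : ∀ k, ∀ z ∈ Icc a b, ‖cf u k z‖ ≤ c k * m z)
    (h2 : Summable fun k => wt s k * c k) (h3 : ∑' k, wt s k * c k ≤ A) : WB a b m u A :=
  ⟨c, h0, h2, h3, h1⟩

theorem WB.nonneg (h : WB a b m u A) : 0 ≤ A := by
  obtain ⟨c, h0, -, h3, -⟩ := h
  exact (tsum_nonneg fun k => mul_nonneg (wt_pos s k).le (h0 k)).trans h3

/-- the general comparison lemma -/
theorem WB.of_cf {w : W t} (h : WB a b m u A) {K : ℝ} {μ : ℤ → ℝ} (hμ : ∀ k, 0 ≤ μ k)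
    (hK : ∀ k, wt t k * μ k ≤ K * wt s k)
    (hw : ∀ k, ∀ x : ℝ, 0 ≤ x → (∀ z ∈ Icc a b, ‖cf u k z‖ ≤ x * m z) →
      ∀ z ∈ Icc a b, ‖cf w k z‖ ≤ μ k * x * m' z) : WB a b m' w (K * A) := by
  obtain ⟨c, h0, h2, h3, h1⟩ := h
  have hK0 : 0 ≤ K := by simpa using (hμ 0).trans (by simpa using hK 0)
  have hle : ∀ k, wt t k * (μ k * c k) ≤ K * (wt s k * c k) := fun k => by
    rw [← mul_assoc, ← mul_assoc]; exact mul_le_mul_of_nonneg_right (hK k) (h0 k)
  have hs : Summable fun k => wt t k * (μ k * c k) :=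
    (h2.mul_left K).of_nonneg_of_le
      (fun k => mul_nonneg (wt_pos t k).le (mul_nonneg (hμ k) (h0 k))) hle
  refine ⟨fun k => μ k * c k, fun k => mul_nonneg (hμ k) (h0 k), hs, ?_,
    fun k => hw k (c k) (h0 k) (h1 k)⟩
  refine (hs.tsum_le_tsum hle (h2.mul_left K)).trans ?_
  rw [tsum_mul_left]
  exact mul_le_mul_of_nonneg_left h3 hK0

theorem WB.mono (h : WB a b m u A) (hm : ∀ z ∈ Icc a b, m z ≤ m' z) (hA : A ≤ B) :
    WB a b m' u B := by
  obtain ⟨c, h0, h2, h3, h1⟩ := h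
  exact ⟨c, h0, h2, h3.trans hA,
    fun k z hz => (h1 k z hz).trans (mul_le_mul_of_nonneg_left (hm z hz) (h0 k))⟩

theorem WB.mono_const (h : WB a b m u A) (hA : A ≤ B) : WB a b m u B :=
  h.mono (fun _ _ => le_rfl) hA

theorem WB.mono_mul (h : WB a b m u A) {K : ℝ} (hK : 0 ≤ K)
    (hm : ∀ z ∈ Icc a b, m z ≤ K * m' z) : WB a b m' u (K * A) :=
  h.of_cf (μ := fun _ => K) (fun _ => hK) (fun k => (mul_comm _ _).le) fun k x hx h1 z hz =>
    (h1 z hz).trans ((mul_le_mul_of_nonneg_left (hm z hz) hx).trans_eq (by ring))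

theorem WB.subset {a' b' : ℝ} (h : WB a b m u A) (hs : Icc a' b' ⊆ Icc a b) : WB a' b' m u A := by
  obtain ⟨c, h0, h2, h3, h1⟩ := h
  exact ⟨c, h0, h2, h3, fun k z hz => h1 k z (hs hz)⟩

theorem WB.of_le {w : W s} (h : WB a b m u A)
    (hw : ∀ k, ∀ z ∈ Icc a b, ‖cf w k z‖ ≤ ‖cf u k z‖) : WB a b m w A := by
  obtain ⟨c, h0, h2, h3, h1⟩ := h
  exact ⟨c, h0, h2, h3, fun k z hz => (hw k z hz).trans (h1 k z hz)⟩

theorem WB.congr {w : W s} (h : WB a b m u A) (hw : ∀ k, ∀ z ∈ Icc a b, cf w k z = cf u k z) :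
    WB a b m w A := h.of_le fun k z hz => by rw [hw k z hz]

theorem WB.zero (m : ℝ → ℝ) (hA : 0 ≤ A) : WB a b m (0 : W s) A :=
  ⟨fun _ => 0, fun _ => le_rfl, by simp, by simpa using hA, fun k z _ => by simp⟩

theorem WB.add (h : WB a b m u A) (h' : WB a b m v B) : WB a b m (u + v) (A + B) := by
  obtain ⟨c, h0, h2, h3, h1⟩ := h
  obtain ⟨d, k0, k2, k3, k1⟩ := h'
  refine WB.intro (fun k => c k + d k) (fun k => add_nonneg (h0 k) (k0 k)) (fun k z hz => ?_) ?_ ?_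
  · rw [cf_add, BoundedContinuousFunction.add_apply, add_mul]
    exact (norm_add_le _ _).trans (add_le_add (h1 k z hz) (k1 k z hz))
  · simpa only [mul_add] using h2.add k2
  · simp only [mul_add]
    rw [h2.tsum_add k2]
    exact add_le_add h3 k3

theorem WB.neg (h : WB a b m u A) : WB a b m (-u) A := h.of_le fun k z _ => by simp

theorem WB.sub (h : WB a b m u A) (h' : WB a b m v B) : WB a b m (u - v) (A + B) := by
  rw [sub_eq_add_neg]; exact h.add h'.neg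

theorem WB.sub_comm (h : WB a b m (u - v) A) : WB a b m (v - u) A := by
  rw [← neg_sub]; exact h.neg

theorem WB.smul (h : WB a b m u A) (c : ℂ) : WB a b m (c • u) (‖c‖ * A) :=
  h.of_cf (μ := fun _ => ‖c‖) (fun _ => norm_nonneg _) (fun k => (mul_comm _ _).le)
    fun k x _ h1 z hz => by
      rw [cf_smul, BoundedContinuousFunction.smul_apply, norm_smul, mul_assoc]
      exact mul_le_mul_of_nonneg_left (h1 z hz) (norm_nonneg _)

theorem WB.sum {ι : Type*} (S : Finset ι) {f : ι → W s} {A : ι → ℝ}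
    (h : ∀ i ∈ S, WB a b m (f i) (A i)) : WB a b m (∑ i ∈ S, f i) (∑ i ∈ S, A i) := by
  classical
  induction S using Finset.induction_on with
  | empty => simpa using WB.zero m le_rfl
  | insert i S hi ih =>
    rw [Finset.sum_insert hi, Finset.sum_insert hi]
    exact (h i (Finset.mem_insert_self _ _)).add (ih fun j hj => h j (Finset.mem_insert_of_mem hj))

theorem WB.of_norm (u : W s) : WB a b (fun _ => 1) u ‖u‖ :=
  ⟨fun k => ‖cf u k‖, fun _ => norm_nonneg _, summable_norm u, (norm_eq u).ge,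
    fun k z _ => by simpa using (cf u k).norm_coe_le_norm z⟩

theorem WB.single (k : ℤ) {f : BC} (hA : 0 ≤ A) (h : ∀ z ∈ Icc a b, ‖f z‖ ≤ A * m z) :
    WB a b m (single s k f : W s) (wt s k * A) := by
  classical
  refine WB.intro (fun j => if j = k then A else 0)
    (fun j => by by_cases hj : j = k <;> simp [hj, hA]) (fun j z hz => ?_)
    (summable_of_ne_finset_zero (s := {k}) fun j hj => ?_) ?_
  · by_cases hj : j = k
    · subst hj; simpa using h z hz
    · simp [hj, cf_single_ne hj]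
  · simp [show j ≠ k by simpa using hj]
  · rw [tsum_eq_single k fun j hj => by simp [hj]]; simp

theorem WB.const {f : BC} (hA : 0 ≤ A) (h : ∀ z ∈ Icc a b, ‖f z‖ ≤ A * m z) :
    WB a b m (const ℤ s BC f) A := by
  simpa [const_apply] using WB.single (s := s) 0 hA h

theorem WB.one : WB a b (fun _ => 1) (1 : W s) 1 := by
  simpa using WB.of_norm (a := a) (b := b) (1 : W s)

theorem WB.mul (h : WB a b m u A) (h' : WB a b m' v B) :
    WB a b (fun z => m z * m' z) (u * v) (A * B) := by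
  obtain ⟨c, h0, h2, h3, h1⟩ := h
  obtain ⟨d, k0, k2, k3, k1⟩ := h'
  have n1 : ∀ k, 0 ≤ wt s k * c k := fun k => mul_nonneg (wt_pos s k).le (h0 k)
  have n2 : ∀ k, 0 ≤ wt s k * d k := fun k => mul_nonneg (wt_pos s k).le (k0 k)
  have hp : Summable fun p : ℤ × ℤ => (wt s p.1 * c p.1) * (wt s p.2 * d p.2) :=
    h2.mul_of_nonneg k2 n1 n2
  let e : ℤ × ℤ ≃ ℤ × ℤ :=
    { toFun := fun p => (p.2, p.1 - p.2), invFun := fun p => (p.1 + p.2, p.1),
      left_inv := fun p => by simp, right_inv := fun p => by simp }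
  have hq : Summable fun p : ℤ × ℤ => (wt s p.2 * c p.2) * (wt s (p.1 - p.2) * d (p.1 - p.2)) :=
    (e.summable_iff (f := fun p : ℤ × ℤ => (wt s p.1 * c p.1) * (wt s p.2 * d p.2))).2 hp
  have hqt : ∑' p : ℤ × ℤ, (wt s p.2 * c p.2) * (wt s (p.1 - p.2) * d (p.1 - p.2)) =
      (∑' k, wt s k * c k) * ∑' k, wt s k * d k := by
    rw [h2.tsum_mul_tsum k2 hp]
    exact e.tsum_eq fun p : ℤ × ℤ => (wt s p.1 * c p.1) * (wt s p.2 * d p.2)
  have hle : ∀ k j : ℤ, wt s k * (c j * d (k - j)) ≤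
      (wt s j * c j) * (wt s (k - j) * d (k - j)) := fun k j => by
    have := wt_add_le s j (k - j)
    rw [add_sub_cancel] at this
    calc _ ≤ (wt s j * wt s (k - j)) * (c j * d (k - j)) :=
          mul_le_mul_of_nonneg_right this (mul_nonneg (h0 _) (k0 _))
      _ = _ := by ring
  have hs1 : ∀ k, Summable fun j => wt s k * (c j * d (k - j)) := fun k =>
    (hq.prod_factor k).of_nonneg_of_le
      (fun j => mul_nonneg (wt_pos s k).le (mul_nonneg (h0 _) (k0 _))) (hle k)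
  have hs2 : ∀ k, Summable fun j => c j * d (k - j) := fun k =>
    (summable_mul_left_iff (wt_pos s k).ne').1 (hs1 k)
  have hle2 : ∀ k, wt s k * ∑' j, c j * d (k - j) ≤
      ∑' j, (wt s j * c j) * (wt s (k - j) * d (k - j)) := fun k => by
    rw [← tsum_mul_left]
    exact (hs1 k).tsum_le_tsum (hle k) (hq.prod_factor k)
  have n3 : ∀ k, 0 ≤ ∑' j, c j * d (k - j) := fun k =>
    tsum_nonneg fun j => mul_nonneg (h0 _) (k0 _)
  have hs3 : Summable fun k => wt s k * ∑' j, c j * d (k - j) :=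
    hq.prod.of_nonneg_of_le (fun k => mul_nonneg (wt_pos s k).le (n3 k)) hle2
  refine WB.intro (fun k => ∑' j, c j * d (k - j)) n3 (fun k z hz => ?_) hs3 ?_
  · have h4 := (hasSum_cf_mul u v k).mapL (BoundedContinuousFunction.evalCLM ℂ z)
    rw [← tsum_mul_right]
    refine h4.norm_le_of_bounded ((hs2 k).mul_right _).hasSum fun j => ?_
    change ‖cf u j z * cf v (k - j) z‖ ≤ _
    rw [norm_mul]
    exact (mul_le_mul (h1 j z hz) (k1 _ z hz) (norm_nonneg _)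
      ((norm_nonneg _).trans (h1 j z hz))).trans_eq (by ring)
  · refine (hs3.tsum_le_tsum hle2 hq.prod).trans ?_
    rw [← hq.tsum_prod, hqt]
    exact mul_le_mul h3 k3 (tsum_nonneg n2) ((tsum_nonneg n1).trans h3)

/-- multiplication by a function of `z` -/
theorem WB.const_mul (h : WB a b m u A) {f : BC} {K : ℝ} (hK : 0 ≤ K)
    (hm : ∀ z ∈ Icc a b, ‖f z‖ * m z ≤ K * m' z) : WB a b m' (Wien.const ℤ s BC f * u) (K * A) :=
  h.of_cf (μ := fun _ => K) (fun _ => hK) (fun k => (mul_comm _ _).le) fun k x hx h1 z hz => by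
    rw [cf_const_mul, BoundedContinuousFunction.mul_apply, norm_mul]
    calc _ ≤ ‖f z‖ * (x * m z) := mul_le_mul_of_nonneg_left (h1 z hz) (norm_nonneg _)
      _ = x * (‖f z‖ * m z) := by ring
      _ ≤ x * (K * m' z) := mul_le_mul_of_nonneg_left (hm z hz) hx
      _ = _ := by ring

theorem WB.incl (h : WB a b m u A) (hts : t ≤ s) : WB a b m (incl ℤ BC hts u) A := by
  rw [← one_mul A]
  exact h.of_cf (μ := fun _ => 1) (fun _ => zero_le_one)
    (fun k => by simpa using wt_mono hts k) fun k x _ h1 z hz => by simpa using h1 z hz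

theorem WB.dth {u : W (s + 1)} (h : WB a b m u A) : WB a b m (dth s BC u) A := by
  rw [← one_mul A]
  exact h.of_cf (μ := fun k => ‖(Complex.I * k : ℂ)‖) (fun _ => norm_nonneg _) (dth_bound s)
    fun k x _ h1 z hz => by
      rw [cf_dth, BoundedContinuousFunction.smul_apply, norm_smul, mul_assoc]
      exact mul_le_mul_of_nonneg_left (h1 z hz) (norm_nonneg _)

theorem WB.proj (h : WB a b m u A) (P : Set ℤ) : WB a b m (proj ℤ s BC P u) A :=
  h.of_le fun k z _ => by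
    by_cases hk : k ∈ P
    · rw [cf_proj_of_mem hk]
    · rw [cf_proj_of_notMem hk]; simp

theorem cf_res (a b : ℝ) (u : W s) (k : ℤ) (z : ℝ) :
    cf (res a b s u) k z = cf u k (Mode.cl a b z) := by
  rw [res, cf_mapL]; rfl

theorem WB.res (h : WB a b m u A) : WB a b m (res a b s u) A :=
  h.congr fun k z hz => by rw [cf_res, Mode.cl_of_mem hz]

theorem WB.of_res (h : WB a b m (End.res a b s u) A) : WB a b m u A :=
  h.congr fun k z hz => by rw [cf_res, Mode.cl_of_mem hz]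

theorem WB.star (h : WB a b m u A) : WB a b m (star u) A := by
  obtain ⟨c, h0, h2, h3, h1⟩ := h
  have e : (fun k => wt s k * c (-k)) = (fun k => wt s k * c k) ∘ Equiv.neg ℤ := by
    funext k; simp [wt_neg]
  refine WB.intro (fun k => c (-k)) (fun k => h0 _) (fun k z hz => ?_) ?_ ?_
  · simpa using h1 (-k) z hz
  · rw [e]; exact (Equiv.neg ℤ).summable_iff.2 h2
  · rw [e]; exact ((Equiv.neg ℤ).tsum_eq _).trans_le h3

theorem WB.norm_tr (h : WB a b m u A) {z : ℝ} (hz : z ∈ Icc a b) (hm : 0 ≤ m z) :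
    ‖Cone.tr s z u‖ ≤ A * m z := by
  obtain ⟨c, h0, h2, h3, h1⟩ := h
  refine (hasSum_le (fun k => ?_) (hasSum_norm _) (h2.mul_right (m z)).hasSum).trans ?_
  · rw [Cone.cf_tr, mul_assoc]
    exact mul_le_mul_of_nonneg_left (h1 k z hz) (wt_pos s k).le
  · rw [tsum_mul_right]; exact mul_le_mul_of_nonneg_right h3 hm

theorem WB.norm_val (h : WB a b m u A) {z : ℝ} (hz : z ∈ Icc a b) (hm : 0 ≤ m z) (θ : ℝ) :
    ‖Cone.val u z θ‖ ≤ A * m z := by
  rw [Cone.val_eq_tr]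
  exact (norm_ev_apply_le _ _).trans (h.norm_tr hz hm)

theorem WB.norm_cf (h : WB a b m u A) {z : ℝ} (hz : z ∈ Icc a b) (hm : 0 ≤ m z) (k : ℤ) :
    wt s k * ‖cf u k z‖ ≤ A * m z := by
  rw [← Cone.cf_tr]
  exact (wt_norm_cf_le _ k).trans (h.norm_tr hz hm)

theorem WB.norm_res (h : WB a b m u A) (hab : a ≤ b) {M : ℝ} (hM0 : 0 ≤ M)
    (hM : ∀ z ∈ Icc a b, m z ≤ M) : ‖End.res a b s u‖ ≤ A * M := by
  obtain ⟨c, h0, h2, h3, h1⟩ := h
  refine (hasSum_le (fun k => ?_) (hasSum_norm _) (h2.mul_right M).hasSum).trans ?_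
  · rw [End.res, cf_mapL, mul_assoc]
    exact mul_le_mul_of_nonneg_left (Mode.norm_clamp_le hab fun z hz =>
      (h1 k z hz).trans (mul_le_mul_of_nonneg_left (hM z hz) (h0 k))) (wt_pos s k).le
  · rw [tsum_mul_right]; exact mul_le_mul_of_nonneg_right h3 hM0

/-- `WB` from the norm after division by the weight -/
theorem WB.of_norm_mul {f : BC} (hf : ∀ z ∈ Icc a b, 1 ≤ ‖f z‖ * m z) (hm : ∀ z ∈ Icc a b, 0 ≤ m z)
    (h : WB a b (fun _ => 1) (Wien.const ℤ s BC f * u) A) : WB a b m u A := by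
  obtain ⟨c, h0, h2, h3, h1⟩ := h
  refine ⟨c, h0, h2, h3, fun k z hz => ?_⟩
  have := h1 k z hz
  rw [cf_const_mul, BoundedContinuousFunction.mul_apply, norm_mul, mul_one] at this
  calc _ ≤ (‖f z‖ * m z) * ‖cf u k z‖ := le_mul_of_one_le_left (norm_nonneg _) (hf z hz)
    _ = (‖f z‖ * ‖cf u k z‖) * m z := by ring
    _ ≤ _ := mul_le_mul_of_nonneg_right this (hm z hz)

/-- move a factor from the constant to the weight -/
theorem WB.scale {τ : ℝ} (h : WB a b m u (A * τ)) (hA : 0 ≤ A) (hτ : 0 ≤ τ) :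
    WB a b (fun z => τ * m z) u A := by
  rcases hτ.eq_or_lt with rfl | hτ
  · obtain ⟨c, h0, h2, h3, h1⟩ := h
    have hc : ∀ k, c k = 0 := fun k => by
      have := (h2.le_tsum k fun j _ => mul_nonneg (wt_pos s j).le (h0 j)).trans h3
      have h5 := wt_pos s k
      nlinarith [h0 k]
    exact (WB.zero _ hA).congr fun k z hz => by simpa [hc] using h1 k z hz
  · have := h.mono_mul (K := τ⁻¹) (m' := fun z => τ * m z) (inv_nonneg.2 hτ.le)
      fun z _ => by rw [← mul_assoc, inv_mul_cancel₀ hτ.ne', one_mul]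
    exact this.mono_const (by field_simp; rfl)

theorem WB.unscale {τ : ℝ} (h : WB a b (fun z => τ * m z) u A) (hτ : 0 ≤ τ) :
    WB a b m u (τ * A) := h.mono_mul hτ fun _ _ => le_rfl

/-- limits -/
theorem WB.of_forall (h : ∀ ε > 0, WB a b m u (A + ε)) (hm : ∀ z ∈ Icc a b, 0 < m z) :
    WB a b m u A := by
  classical
  let c : ℤ → ℝ := fun k => sInf {x | 0 ≤ x ∧ ∀ z ∈ Icc a b, ‖cf u k z‖ ≤ x * m z}
  have hb : ∀ k, BddBelow {x | 0 ≤ x ∧ ∀ z ∈ Icc a b, ‖cf u k z‖ ≤ x * m z} :=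
    fun k => ⟨0, fun x hx => hx.1⟩
  obtain ⟨d, d0, d2, -, d1⟩ := h 1 one_pos
  have hne : ∀ k, {x | 0 ≤ x ∧ ∀ z ∈ Icc a b, ‖cf u k z‖ ≤ x * m z}.Nonempty :=
    fun k => ⟨d k, d0 k, d1 k⟩
  have c0 : ∀ k, 0 ≤ c k := fun k => le_csInf (hne k) fun x hx => hx.1
  have cle : ∀ d : ℤ → ℝ, (∀ k, 0 ≤ d k) → (∀ k, ∀ z ∈ Icc a b, ‖cf u k z‖ ≤ d k * m z) →
      ∀ k, wt s k * c k ≤ wt s k * d k := fun d d0 d1 k =>
    mul_le_mul_of_nonneg_left (csInf_le (hb k) ⟨d0 k, d1 k⟩) (wt_pos s k).le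
  have hs : Summable fun k => wt s k * c k :=
    d2.of_nonneg_of_le (fun k => mul_nonneg (wt_pos s k).le (c0 k)) (cle d d0 d1)
  refine WB.intro c c0 (fun k z hz => ?_) hs (le_of_forall_pos_le_add fun ε hε => ?_)
  · rw [← div_le_iff₀ (hm z hz)]
    exact le_csInf (hne k) fun x hx => (div_le_iff₀ (hm z hz)).2 (hx.2 z hz)
  · obtain ⟨e, e0, e2, e3, e1⟩ := h ε hε
    exact (hs.tsum_le_tsum (cle e e0 e1) e2).trans e3

/-! ### pairs -/

/-- bounds for a pair and its difference -/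
structure PB (a b : ℝ) (o σ : ℝ → ℝ) (n : ℕ) {s : ℕ} (f f' : W s) (m : ℝ → ℝ) (A : ℝ) : Prop where
  l : WB a b (fun z => o z ^ n * m z) f A
  r : WB a b (fun z => o z ^ n * m z) f' A
  d : WB a b (fun z => o z ^ (n - 1) * σ z * m z) (f - f') A
  pos : ∀ z ∈ Icc a b, 0 ≤ m z
  hyp : ∀ z ∈ Icc a b, 0 ≤ o z ∧ o z ≤ 1 ∧ 0 ≤ σ z

variable {o σ : ℝ → ℝ} {n n' : ℕ} {f f' g g' : W s}

theorem PB.mono (h : PB a b o σ n f f' m A) (hn : n' ≤ n) (hm : ∀ z ∈ Icc a b, m z ≤ m' z)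
    (hA : A ≤ B) : PB a b o σ n' f f' m' B := by
  have e : ∀ z ∈ Icc a b, o z ^ n * m z ≤ o z ^ n' * m' z := fun z hz =>
    mul_le_mul (pow_le_pow_of_le_one (h.hyp z hz).1 (h.hyp z hz).2.1 hn) (hm z hz) (h.pos z hz)
      (pow_nonneg (h.hyp z hz).1 _)
  refine ⟨h.l.mono e hA, h.r.mono e hA, h.d.mono (fun z hz => ?_) hA,
    fun z hz => (h.pos z hz).trans (hm z hz), h.hyp⟩
  obtain ⟨h1, h2, h3⟩ := h.hyp z hz
  exact mul_le_mul (mul_le_mul_of_nonneg_right (pow_le_pow_of_le_one h1 h2 (by omega)) h3)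
    (hm z hz) (h.pos z hz) (by positivity)

theorem PB.low (h : PB a b o σ n f f' m A) (n' : ℕ) (hn : n' ≤ n) :
    PB a b o σ n' f f' m A := h.mono hn (fun _ _ => le_rfl) le_rfl

theorem PB.add (h : PB a b o σ n f f' m A) (h' : PB a b o σ n g g' m B) :
    PB a b o σ n (f + g) (f' + g') m (A + B) :=
  ⟨h.l.add h'.l, h.r.add h'.r, by rw [add_sub_add_comm]; exact h.d.add h'.d, h.pos, h.hyp⟩

theorem PB.neg (h : PB a b o σ n f f' m A) : PB a b o σ n (-f) (-f') m A :=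
  ⟨h.l.neg, h.r.neg, by rw [neg_sub_neg]; exact h.d.sub_comm, h.pos, h.hyp⟩

theorem PB.sub (h : PB a b o σ n f f' m A) (h' : PB a b o σ n g g' m B) :
    PB a b o σ n (f - g) (f' - g') m (A + B) := by
  simpa only [sub_eq_add_neg] using h.add h'.neg

theorem PB.mul (h : PB a b o σ n f f' m A) (h' : PB a b o σ n' g g' m' B) :
    PB a b o σ (n + n') (f * g) (f' * g') (fun z => m z * m' z) (2 * (A * B)) := by
  have hAB : A * B ≤ 2 * (A * B) := by nlinarith [mul_nonneg h.l.nonneg h'.l.nonneg]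
  refine ⟨(h.l.mul h'.l).mono (fun z _ => le_of_eq (by ring)) hAB,
    (h.r.mul h'.r).mono (fun z _ => le_of_eq (by ring)) hAB, ?_,
    fun z hz => mul_nonneg (h.pos z hz) (h'.pos z hz), h.hyp⟩
  have e : f * g - f' * g' = (f - f') * g + f' * (g - g') := by ring
  rw [e, two_mul]
  refine ((h.d.mul h'.l).mono (fun z hz => ?_) le_rfl).add
    ((h.r.mul h'.d).mono (fun z hz => ?_) le_rfl)
  · obtain ⟨h1, h2, h3⟩ := h.hyp z hz
    have h4 := mul_nonneg h3 (mul_nonneg (h.pos z hz) (h'.pos z hz))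
    have h5 := pow_le_pow_of_le_one h1 h2 (show n + n' - 1 ≤ n - 1 + n' by omega)
    calc _ = o z ^ (n - 1 + n') * (σ z * (m z * m' z)) := by ring
      _ ≤ o z ^ (n + n' - 1) * (σ z * (m z * m' z)) := mul_le_mul_of_nonneg_right h5 h4
      _ = _ := by ring
  · obtain ⟨h1, h2, h3⟩ := h.hyp z hz
    have h4 := mul_nonneg h3 (mul_nonneg (h.pos z hz) (h'.pos z hz))
    have h5 := pow_le_pow_of_le_one h1 h2 (show n + n' - 1 ≤ n + (n' - 1) by omega)
    calc _ = o z ^ (n + (n' - 1)) * (σ z * (m z * m' z)) := by ring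
      _ ≤ o z ^ (n + n' - 1) * (σ z * (m z * m' z)) := mul_le_mul_of_nonneg_right h5 h4
      _ = _ := by ring

/-- product with a factor of weight one -/
theorem PB.mul₀ (h : PB a b o σ n f f' (fun _ => 1) A) (h' : PB a b o σ n' g g' m B) :
    PB a b o σ (n + n') (f * g) (f' * g') m (2 * (A * B)) :=
  (h.mul h').mono le_rfl (fun _ _ => (one_mul _).le) le_rfl

theorem PB.refl (hyp : ∀ z ∈ Icc a b, 0 ≤ o z ∧ o z ≤ 1 ∧ 0 ≤ σ z) (h : WB a b m f A)
    (hm : ∀ z ∈ Icc a b, 0 ≤ m z) : PB a b o σ 0 f f m A :=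
  ⟨h.mono (fun _ _ => by simp) le_rfl, h.mono (fun _ _ => by simp) le_rfl,
    by rw [sub_self]; exact WB.zero _ h.nonneg, hm, hyp⟩

theorem PB.one (hyp : ∀ z ∈ Icc a b, 0 ≤ o z ∧ o z ≤ 1 ∧ 0 ≤ σ z) :
    PB a b o σ 0 (1 : W s) 1 (fun _ => 1) 1 := PB.refl hyp WB.one fun _ _ => zero_le_one

end

end Vale.Agent.P218F.End
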