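import Vale.Agent.P218F.EndV
import Vale.Agent.P218F.EndEst

/-! Cylindrical ends: comparison of neighbouring end points `R ≤ R' ≤ R + 1 / R`.
Definitions and internal statements. -/

set_option maxSynthPendingDepth 3

namespace Vale.Agent.P218F.End

open Set Metric Wien
open Cone (W A T3 BC J6 jets)

noncomputable section

/-- the change of variable `[a, R] → [a, R + d]`, the identity on `(-∞, R - 1]` -/
def pb (R d s : ℝ) : ℝ := s + d * max (s - (R - 1)) 0 ^ 3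

/-- its first derivative -/
def pb1 (R d s : ℝ) : ℝ := 1 + 3 * d * max (s - (R - 1)) 0 ^ 2

/-- its second derivative -/
def pb2 (R d s : ℝ) : ℝ := 6 * d * max (s - (R - 1)) 0

/-- `pb` as a continuous map -/
def pbC (R d : ℝ) : C(ℝ, ℝ) := ⟨pb R d, by unfold pb; fun_prop⟩

/-- pull-back of the coefficients -/
def pullCo (g : C(ℝ, ℝ)) (κ : Co) : Co :=
  (κ.1.compContinuous g, κ.2.1.compContinuous g, κ.2.2.1.compContinuous g,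
    κ.2.2.2.compContinuous g)

/-- pull-back of jets (the values are composed with `g`, no chain rule) -/
def pullJ (g : C(ℝ, ℝ)) (J : J6 (W 0)) : J6 (W 0) :=
  (pull ℤ 0 ℂ g J.1, pull ℤ 0 ℂ g J.2.1, pull ℤ 0 ℂ g J.2.2.1, pull ℤ 0 ℂ g J.2.2.2.1,
    pull ℤ 0 ℂ g J.2.2.2.2.1, pull ℤ 0 ℂ g J.2.2.2.2.2)

/-- the size `a^(19/5) R^(-28/5)` of the interior effect -/
def b0 (a R : ℝ) : ℝ := Real.exp (19 / 5 * Real.log a - 28 / 5 * Real.log R)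

/-- the weight of the difference -/
def sH (a R : ℝ) (w : ℝ → ℂ) (z : ℝ) : ℝ := bl R z * (om a R w z / ‖w z‖) + b0 a R * mL w z

/-- the weight of the derivatives of the low modes of the difference -/
def sL (R : ℝ) (w : ℝ → ℂ) (z : ℝ) : ℝ := mL w z * (1 + z * ‖w z‖ * bl R z)

/-- the weight of the sources of the low modes of the difference -/
def yL (R : ℝ) (w : ℝ → ℂ) (z : ℝ) : ℝ := (mu w z + z * bl R z) * mL w z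

/-- two symmetric solutions with the same `c` and neighbouring end points -/
structure Pair (C Λ Z₀ a R R' : ℝ) (y y' c : ℂ) (V P V' P' : BC) : Prop where
  l : Dat C Λ Z₀ a R y c V P
  r : Dat C Λ Z₀ a R' y' c V' P'
  le : R ≤ R'
  near : (R' - R) * R ≤ 1
  lip : ∀ z ∈ Icc Z₀ R, ‖V' z - V z‖ ≤ C * ‖c‖ * (R' - R) * R * Sym.ex R z ∧
    ‖P' z - P z‖ ≤ C * ‖c‖ * (R' - R) * R ^ 2 * Sym.ex R z

/-- the comparison of the coefficients `κ` and the pulled back coefficients `κ'` -/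
structure Cmp (C₁ a R d : ℝ) (w : ℝ → ℂ) (κ κ' : Co) : Prop where
  ok : CoOK C₁ a R w κ
  ok' : CoOK C₁ a R w κ'
  low : ∀ z ∈ Icc a R, ‖w z‖ ≤ 2 * ‖κ'.2.1 z‖ ∧ ‖κ'.2.1 z‖ ≤ 2 * ‖w z‖
  dif : ∀ z ∈ Icc a R, ‖κ'.1 z - κ.1 z‖ ≤ C₁ * d * bl R z / (z * ‖w z‖ ^ 2) ∧
    ‖κ'.2.1 z - κ.2.1 z‖ ≤ C₁ * d * bl R z / z ∧
    ‖κ'.2.2.1 z - κ.2.2.1 z‖ ≤ C₁ * d * bl R z / ‖w z‖ ∧ ‖κ'.2.2.2 z - κ.2.2.2 z‖ ≤ C₁ * d * bl R z

/-- X3 (C): the coefficients -/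
def CmpStmt : Prop := ∀ C : ℝ, 1 ≤ C → ∃ C₁ Λ₁ : ℝ, 1 ≤ C₁ ∧
  ∀ (Λ Z₀ a R R' : ℝ) (y y' c : ℂ) (V P V' P' : BC), Λ₁ ≤ Λ → Pair C Λ Z₀ a R R' y y' c V P V' P' →
    Cmp C₁ a R (R' - R) V (kap a R V P) (pullCo (pbC R (R' - R)) (kap a R' V' P')) ∧
    ‖(rho a R' V' a)⁻¹ - (rho a R V a)⁻¹‖ ≤ C₁ * (R' - R) * b0 a R

/-- X3 (W): the weights -/
def WtStmt : Prop := ∃ K : ℝ, 1 ≤ K ∧ ∀ (C₀ Λ a R : ℝ) (w P P₁ : ℝ → ℂ), Prof C₀ Λ a R w P P₁ →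
  AdmH a R w (sH a R w) ∧ AdmD a R P (sH a R w) ∧ AdmD a R P (sL R w) ∧
  (∀ α, 1 / 2 ≤ α → α ≤ 1 → AdmL a R w P α (fun z => 2 * mL w z) fun z => yL R w z / 25) ∧
  ∀ z ∈ Icc a R, 1 ≤ mL w z ∧ b0 a R * sL R w z ≤ 2 * sH a R w z ∧
    bl R z * (om a R w z ^ 2 / ‖w z‖ ^ 2) ≤ K * (b0 a R * yL R w z) ∧
    bl R z * (om a R w z ^ 2 / (z * ‖w z‖ ^ 3)) ≤ K * (b0 a R * yL R w z)

/-- X3 (D): one step -/
def StepStmt : Prop := ∀ C : ℝ, 1 ≤ C → ∃ Λ₁ D₀ K : ℝ, 0 < D₀ ∧ 1 ≤ K ∧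
  ∀ (Λ Z₀ a R R' : ℝ) (y y' c : ℂ) (V P V' P' : BC) (h : A 2) (v v' : T3 0) (D : ℝ), Λ₁ ≤ Λ →
    Pair C Λ Z₀ a R R' y y' c V P V' P' → VSol a R V P h v D → VSol a R' V' P' h v' D → D ≤ D₀ →
    ‖h‖ ≤ 1 →
      NJ a R V (sH a R V) (pullJ (pbC R (R' - R)) (jets 0 v') - jets 0 v) (K * (R' - R))

end

end Vale.Agent.P218F.End
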