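import Vale.Agent.P218F.EndsSpec
import Mathlib.Analysis.SpecialFunctions.SmoothTransition
import Mathlib.Analysis.Calculus.IteratedDeriv.Lemmas
import Mathlib.Analysis.Calculus.Deriv.Prod

/-! Ends of a shrinker, part 2: a global graph from local smooth convergence. -/

open MeasureTheory Set Filter Topology Metric
open scoped ENNReal NNReal RealInnerProductSpace ContDiff

namespace Vale.Agent.P218F.Ends

open Vale.Agent.P218FT

/-- a property which holds along all ultrafilters holds uniformly -/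
theorem unif_of_ultra {Q : ℝ × ℝ → Prop} (hper : ∀ z θ, Q (z, θ + 2 * Real.pi) ↔ Q (z, θ))
    (h : ∀ (U : Ultrafilter (ℝ × ℝ)) (θ₀ : ℝ), Tendsto Prod.fst (U : Filter (ℝ × ℝ)) atTop →
      Tendsto Prod.snd (U : Filter (ℝ × ℝ)) (𝓝 θ₀) → ∀ᶠ i in U, Q i) :
    ∃ Z : ℝ, ∀ z θ, Z ≤ z → Q (z, θ) := by
  have key : {i | Q i} ∈ (atTop : Filter ℝ) ×ˢ 𝓟 (Icc 0 (2 * Real.pi)) := by
    refine mem_iff_ultrafilter.2 fun U hU => ?_
    obtain ⟨θ₀, -, h0⟩ := isCompact_Icc.ultrafilter_le_nhds (U.map Prod.snd)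
      (show map Prod.snd (U : Filter (ℝ × ℝ)) ≤ 𝓟 (Icc 0 (2 * Real.pi)) from
        (tendsto_snd.mono_left hU))
    exact h U θ₀ (tendsto_fst.mono_left hU) h0
  obtain ⟨A, hA, B, hB, hAB⟩ := mem_prod_iff.1 key
  obtain ⟨Z, hZ⟩ := mem_atTop_sets.1 hA
  refine ⟨Z, fun z θ hz => ?_⟩
  have hp : Function.Periodic (fun θ => Q (z, θ)) (2 * Real.pi) := fun θ => propext (hper z θ)
  obtain ⟨θ', h1, h2⟩ := hp.exists_mem_Ico₀ (by positivity) θ
  have : Q (z, θ') := hAB (mk_mem_prod (hZ z hz) (hB (Ico_subset_Icc_self h1)))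
  exact h2.symm ▸ this

theorem CInf_small {ι E : Type} [NormedAddCommGroup E] [NormedSpace ℝ E] {U : Filter ι} {W : Set E}
    {u : ι → E → ℝ} (h : CInf U W u fun _ => 0) (k : ℕ) {ε : ℝ} (hε : 0 < ε) :
    ∀ᶠ i in U, ∀ q ∈ W, ‖iteratedFDeriv ℝ k (u i) q‖ < ε := by
  filter_upwards [Metric.tendstoUniformlyOn_iff.1 (h.conv k) ε hε] with i hi q hq
  have := hi q hq
  rwa [iteratedFDeriv_fun_zero, Pi.zero_apply, dist_comm, dist_zero_right] at this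

theorem CInf_small₀ {ι E : Type} [NormedAddCommGroup E] [NormedSpace ℝ E] {U : Filter ι}
    {W : Set E} {u : ι → E → ℝ} (h : CInf U W u fun _ => 0) {ε : ℝ} (hε : 0 < ε) :
    ∀ᶠ i in U, ∀ q ∈ W, |u i q| < ε := by
  filter_upwards [CInf_small h 0 hε] with i hi q hq
  simpa using hi q hq

theorem exists_retract (Z : ℝ) : ∃ φ : ℝ → ℝ, ContDiff ℝ ∞ φ ∧ (∀ z, Z ≤ φ z) ∧
    ∀ z, Z + 1 ≤ z → φ z = z := by
  refine ⟨fun z => Real.smoothTransition (z - Z) * z + (1 - Real.smoothTransition (z - Z)) * (Z + 1),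
    ?_, fun z => ?_, fun z hz => ?_⟩
  · have : ContDiff ℝ ∞ fun z : ℝ => Real.smoothTransition (z - Z) :=
      Real.smoothTransition.contDiff.comp (contDiff_id.sub contDiff_const)
    exact (this.mul contDiff_id).add ((contDiff_const.sub this).mul contDiff_const)
  · have h0 := Real.smoothTransition.nonneg (z - Z)
    have h1 := Real.smoothTransition.le_one (z - Z)
    rcases le_total z Z with h | h
    · simp only [Real.smoothTransition.zero_of_nonpos (sub_nonpos.2 h)]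
      linarith
    · nlinarith
  · simp only [Real.smoothTransition.one_of_one_le (show 1 ≤ z - Z by linarith)]
    ring

/-- **a global graph**: `A (z, θ) t` says that the point with coordinates `(z, θ, t)` lies on the
surface, `T z` is the range of heights -/
theorem exists_graph {A : ℝ × ℝ → ℝ → Prop} {T : ℝ → Set ℝ} {η : ℝ} (hη : 0 < η)
    (hper : ∀ z θ, A (z, θ + 2 * Real.pi) = A (z, θ))
    (hT : ∀ᶠ z in atTop, ∀ t, |t| < η → t ∈ T z)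
    (H : ∀ (U : Ultrafilter (ℝ × ℝ)) (θ₀ : ℝ), Tendsto Prod.fst (U : Filter (ℝ × ℝ)) atTop →
      ∃ (ρ : ℝ) (u : ℝ × ℝ → ℝ × ℝ → ℝ), 0 < ρ ∧ CInf U (ball (0, θ₀) ρ) u (fun _ => 0) ∧
        ∀ᶠ i in U, ∀ q ∈ ball ((0, θ₀) : ℝ × ℝ) ρ, ∀ t ∈ T (i.1 + q.1),
          (A (i.1 + q.1, q.2) t ↔ t = u i q)) :
    ∃ (Z : ℝ) (f : ℝ × ℝ → ℝ), ContDiff ℝ ∞ f ∧ (∀ z θ, f (z, θ + 2 * Real.pi) = f (z, θ)) ∧
      (∀ p, |f p| < η) ∧ (∀ z θ, Z ≤ z → ∀ t ∈ T z, (A (z, θ) t ↔ t = f (z, θ))) ∧ Decay f := by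
  set f₀ : ℝ × ℝ → ℝ := fun p => Classical.epsilon fun t => t ∈ T p.1 ∧ A p t with hf₀
  have per₀ : ∀ z θ, f₀ (z, θ + 2 * Real.pi) = f₀ (z, θ) := fun z θ => by
    simp only [hf₀, hper]
  have shift : (fun p : ℝ × ℝ => f₀ (p + (0, 2 * Real.pi))) = f₀ := by
    funext p
    have : p + (0, 2 * Real.pi) = (p.1, p.2 + 2 * Real.pi) := by ext <;> simp
    rw [this, per₀]
  have loc : ∀ (U : Ultrafilter (ℝ × ℝ)) (θ₀ : ℝ), Tendsto Prod.fst (U : Filter (ℝ × ℝ)) atTop →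
      Tendsto Prod.snd (U : Filter (ℝ × ℝ)) (𝓝 θ₀) → ∀ (k : ℕ) (ε : ℝ), 0 < ε → ∀ᶠ i in U,
        (|f₀ i| < η ∧ (∀ t ∈ T i.1, (A i t ↔ t = f₀ i)) ∧ ContDiffAt ℝ ∞ f₀ i) ∧
        ‖iteratedFDeriv ℝ k f₀ i‖ ≤ ε := by
    intro U θ₀ h1 h2 k ε hε
    obtain ⟨ρ, u, hρ, hc, H⟩ := H U θ₀ h1
    obtain ⟨Z, hZ⟩ := eventually_atTop.1 hT
    filter_upwards [H, hc.smooth, CInf_small hc k hε, CInf_small₀ hc hη,
      h1.eventually (eventually_ge_atTop (Z + ρ)), h2.eventually (ball_mem_nhds θ₀ hρ)]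
      with i a1 a2 a3 a4 a5 a6
    have hq : ((0, i.2) : ℝ × ℝ) ∈ ball ((0, θ₀) : ℝ × ℝ) ρ := by
      rw [mem_ball, Prod.dist_eq, dist_self, max_lt_iff]
      exact ⟨hρ, a6⟩
    have val : ∀ q ∈ ball ((0, θ₀) : ℝ × ℝ) ρ, f₀ (q + (i.1, 0)) = u i q := fun q hq' => by
      have b1 : |q.1| < ρ := by
        have := (max_lt_iff.1 (show max (dist q.1 0) (dist q.2 θ₀) < ρ from hq')).1
        rwa [Real.dist_eq, sub_zero] at this
      have b2 : u i q ∈ T (i.1 + q.1) := hZ _ (by linarith [(abs_lt.1 b1).1]) _ (a4 q hq')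
      have b3 : q + (i.1, 0) = (i.1 + q.1, q.2) := by ext <;> simp [add_comm]
      rw [b3]
      have b4 := Classical.epsilon_spec (p := fun t => t ∈ T (i.1 + q.1) ∧ A (i.1 + q.1, q.2) t)
        ⟨u i q, b2, (a1 q hq' _ b2).2 rfl⟩
      exact (a1 q hq' _ b4.1).1 b4.2
    have ei : ((0, i.2) : ℝ × ℝ) + (i.1, 0) = i := by ext <;> simp
    have ev : (fun q => f₀ (q + (i.1, 0))) =ᶠ[𝓝 (0, i.2)] u i :=
      Filter.eventually_of_mem (isOpen_ball.mem_nhds hq) val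
    have v0 : f₀ i = u i (0, i.2) := by rw [← val _ hq, ei]
    refine ⟨⟨v0 ▸ a4 _ hq, fun t ht => ?_, ?_⟩, ?_⟩
    · have := a1 _ hq t (by simpa using ht)
      rw [v0]
      simpa using this
    · have c1 : ContDiffAt ℝ ∞ (fun q => f₀ (q + (i.1, 0))) (0, i.2) :=
        (a2.contDiffAt (isOpen_ball.mem_nhds hq)).congr_of_eventuallyEq ev
      have c2 : ContDiffAt ℝ ∞ (fun q : ℝ × ℝ => q - (i.1, 0)) i := by fun_prop
      have c3 : i - (i.1, 0) = (0, i.2) := by ext <;> simp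
      have := ContDiffAt.comp i (c3 ▸ c1) c2
      simpa [Function.comp_def] using this
    · have := a3 _ hq
      rw [← (ev.iteratedFDeriv ℝ k).eq_of_nhds, iteratedFDeriv_comp_add_right, ei] at this
      exact this.le
  have eper : ∀ z θ : ℝ, ((z, θ + 2 * Real.pi) : ℝ × ℝ) = (z, θ) + (0, 2 * Real.pi) := by
    intro z θ; ext <;> simp
  obtain ⟨Z, hZ⟩ := unif_of_ultra (Q := fun i => |f₀ i| < η ∧ (∀ t ∈ T i.1, (A i t ↔ t = f₀ i)) ∧
      ContDiffAt ℝ ∞ f₀ i) (fun z θ => by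
    simp only [per₀, hper]
    refine and_congr_right fun _ => and_congr_right fun _ => ⟨fun h => ?_, fun h => ?_⟩
    · rw [← shift]
      exact ContDiffAt.comp (g := f₀) (z, θ) (eper z θ ▸ h) (by fun_prop)
    · have e : f₀ = fun p => f₀ (p - (0, 2 * Real.pi)) := by
        funext p
        conv_rhs => rw [← shift]
        simp
      rw [e]
      refine ContDiffAt.comp (g := f₀) (z, θ + 2 * Real.pi) ?_ (by fun_prop)
      simpa using h)
    fun U θ₀ h1 h2 => (loc U θ₀ h1 h2 0 1 one_pos).mono fun i hi => hi.1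
  obtain ⟨φ, hφ, hφ1, hφ2⟩ := exists_retract Z
  refine ⟨Z + 1, fun p => f₀ (φ p.1, p.2), ?_, fun z θ => per₀ _ _, fun p => (hZ _ _ (hφ1 _)).1,
    fun z θ hz t ht => ?_, fun k ε hε => ?_⟩
  · refine contDiff_iff_contDiffAt.2 fun p => ?_
    exact ContDiffAt.comp (g := f₀) p (hZ _ _ (hφ1 _)).2.2
      ((hφ.comp contDiff_fst).prodMk contDiff_snd).contDiffAt
  · simp only [hφ2 z hz]
    exact (hZ z θ (by linarith)).2.1 t ht
  · obtain ⟨Z', hZ'⟩ := unif_of_ultra (Q := fun i => ‖iteratedFDeriv ℝ k f₀ i‖ ≤ ε) (fun z θ => by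
      rw [eper, ← iteratedFDeriv_comp_add_right, shift])
      fun U θ₀ h1 h2 => (loc U θ₀ h1 h2 k ε hε).mono fun i hi => hi.2
    refine ⟨max Z' (Z + 2), fun z θ hz => ?_⟩
    have ev : (fun p : ℝ × ℝ => f₀ (φ p.1, p.2)) =ᶠ[𝓝 (z, θ)] f₀ := by
      have : ∀ᶠ p : ℝ × ℝ in 𝓝 (z, θ), Z + 1 < p.1 :=
        continuousAt_const.eventually_lt continuousAt_fst
          (by have := (le_max_right _ _).trans hz; simp only; linarith)
      filter_upwards [this] with p hp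
      rw [hφ2 _ hp.le]
    rw [(ev.iteratedFDeriv ℝ k).eq_of_nhds]
    exact hZ' z θ ((le_max_left _ _).trans hz)

/-- transversality of the height direction of a chart -/
theorem transversal {v : E3 → ℝ} {Ξ : (ℝ × ℝ) × ℝ → E3} {q₀ : ℝ × ℝ} (hv : ContDiff ℝ ∞ v)
    (hΞ : ContDiff ℝ ∞ Ξ) (h0 : ∀ᶠ q in 𝓝 q₀, v (Ξ (q, 0)) = 0) (hg : gradient v (Ξ (q₀, 0)) ≠ 0)
    {a b c : E3} {α β : ℝ} (ht : Triple a b c) (hα : α ≠ 0) (hβ : β ≠ 0) {κ : ℝ}
    (h1 : HasDerivAt (fun s => Ξ ((s, q₀.2), 0)) (α • a) q₀.1)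
    (h2 : HasDerivAt (fun s => Ξ ((q₀.1, s), 0)) (β • b) q₀.2)
    (h3 : HasDerivAt (fun s => Ξ (q₀, s)) (κ • c) 0) (hκ : κ ≠ 0) :
    fderiv ℝ v (Ξ (q₀, 0)) (fderiv ℝ Ξ (q₀, 0) (0, 1)) ≠ 0 := by
  have dv := (hv.differentiable (by simp) (Ξ (q₀, 0))).hasFDerivAt
  have e3 : fderiv ℝ Ξ (q₀, 0) (0, 1) = κ • c := by
    have a1 : HasDerivAt (fun s : ℝ => (q₀, s)) ((0, 1) : (ℝ × ℝ) × ℝ) 0 :=
      HasDerivAt.prodMk (hasDerivAt_const _ _) (hasDerivAt_id _)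
    exact ((hΞ.differentiable (by simp) (q₀, 0)).hasFDerivAt.comp_hasDerivAt 0 a1).unique h3
  have e1 : fderiv ℝ v (Ξ (q₀, 0)) (α • a) = 0 := by
    have t1 : Tendsto (fun s : ℝ => (s, q₀.2)) (𝓝 q₀.1) (𝓝 q₀) :=
      (continuous_id.prodMk continuous_const).tendsto' _ _ rfl
    exact (dv.comp_hasDerivAt_of_eq q₀.1 h1 rfl).unique
      ((hasDerivAt_const q₀.1 (0 : ℝ)).congr_of_eventuallyEq (t1.eventually h0))
  have e2 : fderiv ℝ v (Ξ (q₀, 0)) (β • b) = 0 := by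
    have t1 : Tendsto (fun s : ℝ => (q₀.1, s)) (𝓝 q₀.2) (𝓝 q₀) :=
      (continuous_const.prodMk continuous_id).tendsto' _ _ rfl
    exact (dv.comp_hasDerivAt_of_eq q₀.2 h2 rfl).unique
      ((hasDerivAt_const q₀.2 (0 : ℝ)).congr_of_eventuallyEq (t1.eventually h0))
  rw [e3]
  intro e4
  rw [← inner_grad, real_inner_smul_right, mul_eq_zero, real_inner_comm] at e1 e2 e4
  apply hg
  rw [ht.expand (gradient v (Ξ (q₀, 0))), e1.resolve_left hα, e2.resolve_left hβ,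
    e4.resolve_left hκ]
  simp

end Vale.Agent.P218F.Ends
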