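import Vale.Agent.P218F.EndsSpec
import Vale.Agent.P218FT.ConvA
import Vale.Agent.P218FT.ConvD
import Vale.Agent.P218FT.EVMain
import Mathlib.Analysis.SpecialFunctions.SmoothTransition

/-! Cylindrical ends and empty directions of a self-shrinker. -/

open MeasureTheory Set Filter Topology Metric
open scoped ENNReal NNReal RealInnerProductSpace ContDiff

namespace Vale.Agent.P218F.Ends.Cyl

open Vale.Agent.P218FT

/-- avoidance of shrinking balls -/
theorem avoid {M : ℝ → Set E3} {I : Set ℝ} (hM : IsMCF M I) {a b R : ℝ} {q : E3} (hR : 0 < R)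
    (hab : a ≤ b) (hI : Icc a b ⊆ I) (h : ∀ x ∈ M a, R ≤ ‖x - q‖) {x : E3} (hx : x ∈ M b) :
    R ^ 2 ≤ ‖x - q‖ ^ 2 + 4 * (b - a) := by
  have hb : b < b + 1 := lt_add_one b
  have hSa := hM.isSurf (hI ⟨le_rfl, hab⟩)
  have hSb := hM.isSurf (hI ⟨hab, le_rfl⟩)
  have := Chart.locFin_proof _ hSb
  have h1 := Hu.local_mono Chart.locFin_proof fv_proof cont_proof ev_proof hM q hR hab hb hI
  have h2 : ∫ x, Hu.FF q (b + 1) a R (a, x) ∂(area (M a)) = 0 := by
    refine integral_eq_zero_of_ae ?_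
    filter_upwards [Hu.ae_mem hSa.1] with y hy
    have h3 : R ^ 2 ≤ ‖y - q‖ ^ 2 := pow_le_pow_left₀ hR.le (h y hy) 2
    have h4 : Hu.cu R (a - a) (‖y - q‖ ^ 2) ≤ 0 := by
      unfold Hu.cu
      rw [sub_nonpos, le_div_iff₀ (by positivity)]
      linarith
    simp only [Hu.FF, Hu.ec, max_eq_right h4, Pi.zero_apply]
    simp
  have h4 : 0 ≤ ∫ t in a..b, Hu.WW M q (b + 1) a R t :=
    intervalIntegral.integral_nonneg hab fun t ht => Hu.WW_nonneg M q a _ (ht.2.trans_lt hb)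
  have h0 : ∀ y, 0 ≤ Hu.FF q (b + 1) a R (b, y) := fun y => Hu.FF_nonneg q a R (p := (b, y)) hb
  have h5 : ∫ x, Hu.FF q (b + 1) a R (b, x) ∂(area (M b)) = 0 :=
    le_antisymm (by linarith) (integral_nonneg h0)
  have hc : Continuous fun y : E3 => Hu.FF q (b + 1) a R (b, y) :=
    ((continuous_gk (b + 1 - b)).comp (f := fun y : E3 => y - q) (by fun_prop)).mul
      ((Hu.continuous_ec R).comp (f := fun y : E3 => (b - a, y - q)) (by fun_prop))
  have h6 := Conv.eq_zero_of_integral hSb hc.continuousOn h0 (Hu.integrable_FF hSb.1 q _ hR hab) h5 hx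
  have h7 := (mul_eq_zero.1 h6).resolve_left (gk_pos (by linarith) _).ne'
  have h8 : Hu.cu R (b - a) (‖x - q‖ ^ 2) ≤ 0 :=
    (le_max_left _ _).trans (pow_eq_zero_iff (by norm_num) |>.1 h7).le
  unfold Hu.cu at h8
  rwa [sub_nonpos, le_div_iff₀ (by positivity), one_mul] at h8

/-- a shrinker meets the ball of radius two about every point of the segment from a point of the
shrinker to the origin -/
theorem meets {S : Set E3} (hM : IsMCF (ssFlow S) (Iio 0)) {x : E3} (hx : x ∈ S) {μ : ℝ}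
    (hμ : 1 ≤ μ) : ∃ y ∈ S, ‖y - μ⁻¹ • x‖ < 2 := by
  by_contra hc
  push Not at hc
  have hμ0 : 0 < μ := by linarith
  have := avoid hM (a := -μ ^ 2) (b := -1) (R := 2 * μ) (q := x) (by positivity) (by nlinarith)
    (fun t ht => by simp only [mem_Iio]; linarith [ht.2]) (x := x) ?_ ?_
  · rw [sub_self, norm_zero] at this
    nlinarith
  · intro y hy
    have hy' : μ⁻¹ • y ∈ S := by
      simpa [ssFlow, scaleSet, Real.sqrt_sq hμ0.le] using hy
    have h1 := hc _ hy'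
    rw [← smul_sub, norm_smul, Real.norm_eq_abs, abs_of_pos (inv_pos.2 hμ0),
      le_inv_mul_iff₀ hμ0] at h1
    linarith
  · simpa [ssFlow, scaleSet] using hx

theorem eventually_compact {ι X : Type} [TopologicalSpace X] {U : Filter ι} {K : Set X}
    (hK : IsCompact K) {Q : ι → X → Prop} (h : ∀ x ∈ K, ∃ W ∈ 𝓝 x, ∀ᶠ i in U, ∀ y ∈ W, Q i y) :
    ∀ᶠ i in U, ∀ y ∈ K, Q i y := by
  refine hK.induction_on (p := fun S => ∀ᶠ i in U, ∀ y ∈ S, Q i y) (by simp) ?_ ?_ ?_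
  · exact fun s t hst ht => ht.mono fun i hi y hy => hi y (hst hy)
  · intro s t hs ht
    filter_upwards [hs, ht] with i h1 h2 y hy using hy.elim (h1 y) (h2 y)
  · intro x hx
    obtain ⟨W, hW, h⟩ := h x hx
    exact ⟨W, mem_nhdsWithin_of_mem_nhds hW, h⟩

theorem out_compact {ι : Type} {U : Filter ι} {N : ι → Set E3} {S K : Set E3} (h : SLimS U N S)
    (hK : IsCompact K) (hd : ∀ x ∈ K, x ∉ S) : ∀ᶠ i in U, ∀ y ∈ K, y ∉ N i :=
  eventually_compact hK fun x hx => h.out x (hd x hx)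

theorem eventually_of_ultra {Q : ℝ → Prop}
    (h : ∀ U : Ultrafilter ℝ, (U : Filter ℝ) ≤ atTop → ∀ᶠ l in U, Q l) : ∀ᶠ l in atTop, Q l :=
  Filter.mem_iff_ultrafilter.2 h

theorem mem_tr {S : Set E3} {p y : E3} : y ∈ scaleSet 1 p S ↔ p + y ∈ S := by simp [scaleSet]

/-- points of the shrinker in a thin cone are at bounded distance from the axis -/
theorem clear {S : Set E3} (hM : IsMCF (ssFlow S) (Iio 0)) {c : E3} (hc : ‖c‖ = 1) {ρ₀ l₁ : ℝ}
    (hρ : 0 < ρ₀) (hl : 0 < l₁)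
    (h : ∀ l, l₁ ≤ l → ∀ y, ‖y‖ ≤ ρ₀ + 2 → ρ₀ - 2 ≤ ‖pt c y‖ → l • c + y ∉ S) {x : E3} (hx : x ∈ S)
    (hδ : ‖pt c x‖ ≤ ρ₀ / l₁ * ⟪c, x⟫) : ‖pt c x‖ < ρ₀ := by
  by_contra hcon
  push Not at hcon
  have hp : 0 < ‖pt c x‖ := by linarith
  obtain ⟨y, hy, hy2⟩ := meets hM hx (μ := ‖pt c x‖ / ρ₀) ((one_le_div hρ).2 hcon)
  set κ := (‖pt c x‖ / ρ₀)⁻¹ with hκ
  have hκ0 : 0 < κ := by positivity
  have hκ1 : κ * ‖pt c x‖ = ρ₀ := by rw [hκ]; field_simp
  have e1 : y - (κ * ⟪c, x⟫) • c = (y - κ • x) + κ • pt c x := by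
    rw [pt_apply, smul_sub, smul_smul]; abel
  have e2 : ‖κ • pt c x‖ = ρ₀ := by rw [norm_smul, Real.norm_eq_abs, abs_of_pos hκ0, hκ1]
  refine h (κ * ⟪c, x⟫) ?_ (y - (κ * ⟪c, x⟫) • c) ?_ ?_ (by simpa using hy)
  · rw [div_mul_eq_mul_div, le_div_iff₀ hl] at hδ
    have := mul_le_mul_of_nonneg_left hδ hκ0.le
    rw [← mul_assoc, hκ1] at this
    nlinarith
  · rw [e1]
    linarith [norm_add_le (y - κ • x) (κ • pt c x)]
  · rw [e1, map_add, map_smul, pt_pt hc]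
    have h1 := norm_sub_norm_le (κ • pt c x) (pt c (y - κ • x) + κ • pt c x)
    rw [sub_add_cancel_right, norm_neg] at h1
    linarith [norm_pt_le hc (y - κ • x)]

/-- **empty directions**: the shrinker misses a cone outside a ball -/
theorem empty_end {S : Set E3} (hM : IsMCF (ssFlow S) (Iio 0)) {c : E3} (hc : ‖c‖ = 1)
    (hlim : ∀ U : Ultrafilter ℝ, (U : Filter ℝ) ≤ atTop →
      SLimS (U : Filter ℝ) (fun l => scaleSet 1 (l • c) S) ∅) :
    ∃ δ R : ℝ, 0 < δ ∧ ∀ x ∈ S, x ∈ cylReg c δ → ⟪c, x⟫ < R := by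
  obtain ⟨l₀, hl₀⟩ := eventually_atTop.1 (eventually_of_ultra fun U hU =>
    out_compact (hlim U hU) (isCompact_closedBall (0 : E3) 3) fun x _ => notMem_empty x)
  have key : ∀ l, max l₀ 1 ≤ l → ∀ y : E3, ‖y‖ ≤ 1 + 2 → l • c + y ∉ S := fun l hl y hy hm =>
    hl₀ l (le_of_max_le_left hl) y (by rw [mem_closedBall_zero_iff]; linarith) (mem_tr.2 hm)
  have h1 : 0 < max l₀ 1 := lt_max_of_lt_right one_pos
  refine ⟨1 / max l₀ 1, max l₀ 1, by positivity, fun x hx hx' => ?_⟩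
  have h2 := clear hM hc one_pos h1 (fun l hl y hy _ => key l hl y hy) hx hx'.2
  by_contra hcon
  push Not at hcon
  refine key _ hcon (pt c x) (by linarith) ?_
  rw [pt_apply, add_sub_cancel]
  exact hx

section frame

variable {a b c : E3} (T : Triple a b c)

theorem cylPt_add (a b c : E3) (l z θ ρ : ℝ) :
    l • c + cylPt a b c z θ ρ = cylPt a b c (l + z) θ ρ := by
  simp only [cylPt, add_smul]; abel

theorem cylPt_per (a b c : E3) (z θ ρ : ℝ) :
    cylPt a b c z (θ + 2 * Real.pi) ρ = cylPt a b c z θ ρ := by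
  simp only [cylPt, Real.cos_add_two_pi, Real.sin_add_two_pi]

include T

theorem inner_cylPt (z θ ρ : ℝ) : ⟪c, cylPt a b c z θ ρ⟫ = z := by
  have ca : ⟪c, a⟫ = 0 := by rw [real_inner_comm]; exact T.ac
  have cb : ⟪c, b⟫ = 0 := by rw [real_inner_comm]; exact T.bc
  simp only [cylPt, inner_add_right, real_inner_smul_right, ca, cb, real_inner_self_eq_norm_sq, T.nc]
  ring

theorem norm_cylPt_sq (z θ ρ : ℝ) : ‖cylPt a b c z θ ρ‖ ^ 2 = ρ ^ 2 + z ^ 2 := by
  have ba : ⟪b, a⟫ = 0 := by rw [real_inner_comm]; exact T.ab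
  rw [T.norm_sq, inner_cylPt T]
  simp only [cylPt, inner_add_right, real_inner_smul_right, ba, T.ab, T.ac, T.bc,
    real_inner_self_eq_norm_sq, T.na, T.nb]
  linear_combination ρ ^ 2 * Real.cos_sq_add_sin_sq θ

theorem norm_pt_cylPt (z θ : ℝ) {ρ : ℝ} (hρ : 0 ≤ ρ) : ‖pt c (cylPt a b c z θ ρ)‖ = ρ := by
  refine (sq_eq_sq₀ (norm_nonneg _) hρ).1 ?_
  rw [norm_pt_sq T.nc, norm_cylPt_sq T, inner_cylPt T]
  ring

theorem triple_rot (θ : ℝ) :
    Triple (Real.cos θ • a + Real.sin θ • b) ((-Real.sin θ) • a + Real.cos θ • b) c := by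
  have ba : ⟪b, a⟫ = 0 := by rw [real_inner_comm]; exact T.ab
  have key : ∀ s t : ℝ, s ^ 2 + t ^ 2 = 1 → ‖s • a + t • b‖ = 1 := by
    intro s t h
    refine (sq_eq_sq₀ (norm_nonneg _) zero_le_one).1 ?_
    rw [norm_add_sq_real, norm_smul, norm_smul, T.na, T.nb, real_inner_smul_left,
      real_inner_smul_right, T.ab, Real.norm_eq_abs, Real.norm_eq_abs, mul_one, mul_one, sq_abs,
      sq_abs]
    linarith
  refine ⟨key _ _ (Real.cos_sq_add_sin_sq θ), key _ _ (by rw [neg_sq, Real.sin_sq_add_cos_sq]),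
    T.nc, ?_, ?_, ?_⟩
  · simp only [inner_add_left, inner_add_right, real_inner_smul_left, real_inner_smul_right, ba,
      T.ab, real_inner_self_eq_norm_sq, T.na, T.nb]
    ring
  · simp only [inner_add_left, real_inner_smul_left, T.ac, T.bc]
    ring
  · simp only [inner_add_left, real_inner_smul_left, T.ac, T.bc]
    ring

end frame

/-- the round cylinder with axis `c` -/
def cylS (c : E3) : Set E3 := {x | ‖x‖ ^ 2 - ⟪x, c⟫ ^ 2 = 2}

theorem mem_cylS {c x : E3} (hc : ‖c‖ = 1) : x ∈ cylS c ↔ ‖pt c x‖ = √2 := by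
  rw [← sq_eq_sq₀ (norm_nonneg _) (Real.sqrt_nonneg _), norm_pt_sq hc, Real.sq_sqrt zero_le_two,
    real_inner_comm]
  rfl

theorem sqrt_two_bd : (1.4 : ℝ) < √2 ∧ √2 < (1.5 : ℝ) :=
  ⟨Real.lt_sqrt_of_sq_lt (by norm_num), (Real.sqrt_lt' (by norm_num)).2 (by norm_num)⟩

/-- the chart about the cylinder -/
noncomputable def Xi (a b c : E3) (p : (ℝ × ℝ) × ℝ) : E3 := cylPt a b c p.1.1 p.1.2 (√2 + p.2)

theorem contDiff_Xi (a b c : E3) : ContDiff ℝ ∞ (Xi a b c) := by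
  unfold Xi cylPt
  fun_prop

theorem transversal {a b c : E3} (T : Triple a b c) {v : E3 → ℝ} (hv : ContDiff ℝ ∞ v) {θ : ℝ}
    (hg : gradient v (Xi a b c ((0, θ), 0)) ≠ 0)
    (h0 : ∀ᶠ q in 𝓝 (((0 : ℝ), θ) : ℝ × ℝ), v (Xi a b c (q, 0)) = 0) :
    fderiv ℝ v (Xi a b c ((0, θ), 0)) (fderiv ℝ (Xi a b c) ((0, θ), 0) (0, 1)) ≠ 0 := by
  set x := Xi a b c ((0, θ), 0) with hx
  have hd := (hv.differentiable (by simp) x).hasFDerivAt
  have key : ∀ (γ : ℝ → ℝ × ℝ) (s : ℝ) (d : E3), ContinuousAt γ s → γ s = (0, θ) →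
      HasDerivAt (fun t => Xi a b c (γ t, 0)) d s → fderiv ℝ v x d = 0 := by
    intro γ s d hγ hs hder
    have h1 : HasFDerivAt v (fderiv ℝ v x) (Xi a b c (γ s, 0)) := by rw [hs]; exact hd
    have h2 := h1.comp_hasDerivAt s hder
    have h3 : (v ∘ fun t => Xi a b c (γ t, 0)) =ᶠ[𝓝 s] fun _ => 0 :=
      hγ.tendsto.eventually (p := fun q => v (Xi a b c (q, 0)) = 0) (by rw [hs]; exact h0)
    exact h2.unique ((hasDerivAt_const s (0 : ℝ)).congr_of_eventuallyEq h3)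
  have h1 : fderiv ℝ v x c = 0 := key (fun t => (t, θ)) 0 c (by fun_prop) rfl (by
    simpa [Xi, cylPt] using ((hasDerivAt_id (0 : ℝ)).smul_const c).const_add
      ((√2 * Real.cos θ) • a + (√2 * Real.sin θ) • b))
  have h2 : fderiv ℝ v x ((√2 * -Real.sin θ) • a + (√2 * Real.cos θ) • b) = 0 :=
    key (fun t => (0, t)) θ _ (by fun_prop) rfl (by
      simpa [Xi, cylPt] using ((((Real.hasDerivAt_cos θ).const_mul √2).smul_const a).fun_add
        (((Real.hasDerivAt_sin θ).const_mul √2).smul_const b)))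
  have h3 : fderiv ℝ (Xi a b c) ((0, θ), 0) (0, 1) = Real.cos θ • a + Real.sin θ • b := by
    have hl : HasDerivAt (fun t : ℝ => ((((0 : ℝ), θ), t) : (ℝ × ℝ) × ℝ)) (0, 1) 0 :=
      (hasDerivAt_const _ _).prodMk (hasDerivAt_id _)
    have h4 := (((contDiff_Xi a b c).differentiable (by simp)) ((0, θ), 0)).hasFDerivAt.comp_hasDerivAt
      (0 : ℝ) hl
    refine h4.unique ?_
    have h5 := (((((hasDerivAt_id (0 : ℝ)).const_add √2).mul_const (Real.cos θ)).smul_const a).add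
      ((((hasDerivAt_id (0 : ℝ)).const_add √2).mul_const (Real.sin θ)).smul_const b)).add_const
      ((0 : ℝ) • c)
    rw [one_mul, one_mul] at h5
    exact h5
  rw [h3]
  intro h4
  apply hg
  have h5 : fderiv ℝ v x ((-Real.sin θ) • a + Real.cos θ • b) = 0 := by
    rw [mul_smul, mul_smul, ← smul_add, map_smul, smul_eq_mul] at h2
    exact (mul_eq_zero.1 h2).resolve_left (by positivity)
  rw [← inner_grad, real_inner_comm] at h1 h4 h5
  rw [(triple_rot T θ).expand (gradient v x), h1, h4, h5]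
  simp

/-- the polar radius -/
noncomputable def rad (S : Set E3) (a b c : E3) (p : ℝ × ℝ) : ℝ :=
  Classical.epsilon fun ρ => 0 ≤ ρ ∧ ρ < 5 ∧ cylPt a b c p.1 p.2 ρ ∈ S

theorem rad_per (S : Set E3) (a b c : E3) (p : ℝ × ℝ) :
    rad S a b c (p + (0, 2 * Real.pi)) = rad S a b c p := by
  simp only [rad, Prod.fst_add, Prod.snd_add, add_zero, cylPt_per]

/-- the properties of the polar radius at a point -/
def Gd (S : Set E3) (a b c : E3) (k : ℕ) (ε : ℝ) (p : ℝ × ℝ) : Prop :=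
  ContDiffAt ℝ ∞ (rad S a b c) p ∧ |rad S a b c p - √2| < 1 / 4 ∧
    (∀ ρ, 0 ≤ ρ → ρ < 5 → (cylPt a b c p.1 p.2 ρ ∈ S ↔ ρ = rad S a b c p)) ∧
    ‖iteratedFDeriv ℝ k (fun q => rad S a b c q - √2) p‖ ≤ ε

theorem Gd.shift {S : Set E3} {a b c : E3} {k : ℕ} {ε : ℝ} {p d : ℝ × ℝ}
    (hd : ∀ q, rad S a b c (q + d) = rad S a b c q)
    (hd' : ∀ ρ, cylPt a b c (p + d).1 (p + d).2 ρ = cylPt a b c p.1 p.2 ρ)
    (h : Gd S a b c k ε (p + d)) : Gd S a b c k ε p := by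
  obtain ⟨h1, h2, h3, h4⟩ := h
  refine ⟨?_, by rwa [← hd], fun ρ => by rw [← hd, ← hd']; exact h3 ρ, ?_⟩
  · have := h1.comp p (contDiffAt_id.add contDiffAt_const)
    exact this.congr_of_eventuallyEq (Eventually.of_forall fun q => (hd q).symm)
  · rw [← iteratedFDeriv_comp_add_right] at h4
    simpa only [hd] using h4

theorem gd_per (S : Set E3) (a b c : E3) (k : ℕ) (ε l : ℝ) :
    Function.Periodic (fun θ => Gd S a b c k ε (l, θ)) (2 * Real.pi) := by
  intro θ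
  refine propext ⟨fun h => ?_, fun h => ?_⟩
  · refine Gd.shift (d := (0, 2 * Real.pi)) (rad_per S a b c) (fun ρ => ?_) (by simpa using h)
    simp [cylPt_per]
  · refine Gd.shift (d := -(0, 2 * Real.pi)) (fun q => ?_) (fun ρ => ?_) (by simpa using h)
    · rw [← rad_per S a b c (q + _), neg_add_cancel_right]
    · simp [cylPt_per]

theorem gd_ultra (hI : ImplStmt) {S : Set E3} {a b c : E3} (T : Triple a b c) (U : Ultrafilter ℝ)
    (hlim : SLimS (U : Filter ℝ) (fun l => scaleSet 1 (l • c) S) (cylS c)) (k : ℕ) {ε : ℝ} (hε : 0 < ε) (θ₀ : ℝ) :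
    ∃ V ∈ 𝓝 θ₀, ∀ᶠ l in U, ∀ θ ∈ V, Gd S a b c k ε (l, θ) := by
  have hon : ∀ q : ℝ × ℝ, Xi a b c (q, 0) ∈ cylS c := fun q => by
    rw [mem_cylS T.nc, Xi, norm_pt_cylPt T _ _ (by positivity), add_zero]
  obtain ⟨W, w, v, hW, hxW, -, hv, hC, hg, hvS, hwS⟩ := hlim.loc _ (hon (0, θ₀))
  have hv0 : ∀ᶠ q in 𝓝 (((0 : ℝ), θ₀) : ℝ × ℝ), v (Xi a b c (q, 0)) = 0 := by
    have hc : Continuous fun q : ℝ × ℝ => Xi a b c (q, 0) :=
      (contDiff_Xi a b c).continuous.comp (by fun_prop)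
    filter_upwards [hc.continuousAt.eventually (hW.mem_nhds hxW)] with q hq
    exact (hvS _ hq).1 (hon q)
  obtain ⟨ρ, τ, u, hρ, hτ, hτ1, hin, hu, hwu⟩ := hI ℝ U W w v (Xi a b c) (0, θ₀) (1 / 8) hW hC
    (contDiff_Xi a b c) hxW (by norm_num) hv0 (transversal T hv hg hv0)
  have hK : IsCompact (closedBall (0 : E3) 6 ∩ {y | τ ≤ |‖pt c y‖ - √2|}) :=
    (isCompact_closedBall _ _).inter_right (isClosed_le continuous_const (by fun_prop))
  have hout := out_compact hlim hK fun y hy hy' => by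
    have := hy.2
    rw [mem_ofPred_eq, (mem_cylS T.nc).1 hy', sub_self, abs_zero] at this
    linarith
  refine ⟨ball θ₀ ρ, ball_mem_nhds _ hρ, ?_⟩
  filter_upwards [hwS, hwu, hout, hu.smooth, Metric.tendstoUniformlyOn_iff.1 hu.unif τ hτ,
    Metric.tendstoUniformlyOn_iff.1 (hu.conv k) ε hε] with l h1 h2 h3 h4 h5 h6 θ hθ
  have hs := sqrt_two_bd
  have key : ∀ q ∈ ball (((0 : ℝ), θ₀) : ℝ × ℝ) ρ, |q.1| < 1 → |u l q| < τ ∧ ∀ r, 0 ≤ r → r < 5 →
      (cylPt a b c (l + q.1) q.2 r ∈ S ↔ r = √2 + u l q) := by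
    intro q hq hq1
    have h7 : |u l q| < τ := by simpa [Real.dist_eq] using h5 q hq
    refine ⟨h7, fun r hr hr5 => ?_⟩
    rw [← cylPt_add, ← mem_tr]
    have e : ∀ t, r = √2 + t → cylPt a b c q.1 q.2 r = Xi a b c (q, t) := fun t ht => by
      rw [Xi, ht]
    constructor
    · intro hm
      have h8 : |r - √2| < τ := by
        by_contra hc
        refine h3 _ ⟨?_, ?_⟩ hm
        · rw [mem_closedBall_zero_iff]
          refine (sq_le_sq₀ (norm_nonneg _) (by norm_num)).1 ?_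
          rw [norm_cylPt_sq T, ← sq_abs q.1]
          nlinarith [abs_nonneg q.1]
        · rw [mem_ofPred_eq, norm_pt_cylPt T _ _ hr]; exact not_lt.1 hc
      rw [e (r - √2) (by ring)] at hm
      have := (h2 q hq _ h8.le).1 ((h1 _ (hin q hq _ h8.le)).1 hm)
      linarith
    · intro hm
      rw [e _ hm]
      exact (h1 _ (hin q hq _ h7.le)).2 ((h2 q hq _ h7.le).2 rfl)
  have key2 : ∀ q ∈ ball (((0 : ℝ), θ₀) : ℝ × ℝ) ρ, |q.1| < 1 →
      rad S a b c (q + (l, 0)) = √2 + u l q := by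
    intro q hq hq1
    obtain ⟨h7, h8⟩ := key q hq hq1
    have h9 := abs_lt.1 h7
    have h10 := Classical.epsilon_spec
      (p := fun r => 0 ≤ r ∧ r < 5 ∧ cylPt a b c (q + (l, 0)).1 (q + (l, 0)).2 r ∈ S)
      ⟨√2 + u l q, by linarith, by linarith, by
        simpa [add_comm] using (h8 _ (by linarith) (by linarith)).2 rfl⟩
    exact (h8 _ h10.1 h10.2.1).1 (by simpa [add_comm] using h10.2.2)
  have hq : (((0 : ℝ), θ) : ℝ × ℝ) ∈ ball (((0 : ℝ), θ₀) : ℝ × ℝ) ρ := by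
    rw [← ball_prod_same]; exact ⟨mem_ball_self hρ, hθ⟩
  have hev : ∀ᶠ q in 𝓝 (((0 : ℝ), θ) : ℝ × ℝ), rad S a b c (q + (l, 0)) - √2 = u l q := by
    have : ∀ᶠ q in 𝓝 (((0 : ℝ), θ) : ℝ × ℝ), |q.1| < 1 :=
      (continuous_fst.abs.continuousAt).eventually (gt_mem_nhds (by simp))
    filter_upwards [isOpen_ball.mem_nhds hq, this] with q h7 h8
    rw [key2 q h7 h8]; ring
  have hp : (((0 : ℝ), θ) : ℝ × ℝ) + (l, 0) = (l, θ) := by simp
  have hr := key2 _ hq (by simp)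
  rw [hp] at hr
  obtain ⟨h7, h8⟩ := key _ hq (by simp)
  refine ⟨?_, by rw [hr, add_sub_cancel_left]; linarith, by simpa [hr] using h8, ?_⟩
  · have h9 : ContDiffAt ℝ ∞ (fun q => rad S a b c (q + (l, 0)) - √2) (0, θ) :=
      (h4.contDiffAt (isOpen_ball.mem_nhds hq)).congr_of_eventuallyEq hev
    have h10 : ContDiffAt ℝ ∞ (fun q => rad S a b c (q + (l, 0)) - √2) ((l, θ) - (l, 0)) := by
      simpa using h9
    have h11 := (h10.comp (l, θ) (contDiffAt_id.sub contDiffAt_const)).add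
      (contDiffAt_const (c := √2))
    simpa using h11
  · rw [← hp, ← iteratedFDeriv_comp_add_right (f := fun q => rad S a b c q - √2),
      (EventuallyEq.iteratedFDeriv ℝ hev k).self_of_nhds]
    have := h6 _ hq
    rw [iteratedFDeriv_fun_zero, dist_comm] at this
    simpa using this.le

/-- **cylindrical ends** -/
theorem cyl_end (hI : ImplStmt) {S : Set E3} (hM : IsMCF (ssFlow S) (Iio 0)) {a b c : E3}
    (T : Triple a b c) (hlim : ∀ U : Ultrafilter ℝ, (U : Filter ℝ) ≤ atTop →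
      SLimS (U : Filter ℝ) (fun l => scaleSet 1 (l • c) S) {x | ‖x‖ ^ 2 - ⟪x, c⟫ ^ 2 = 2}) :
    ∃ (z₀ δ : ℝ) (r : ℝ × ℝ → ℝ), 0 < δ ∧ CylEnd S a b c z₀ δ r := by
  have hs := sqrt_two_bd
  have hgd : ∀ (k : ℕ) (ε : ℝ), 0 < ε → ∃ Z, ∀ l θ, Z ≤ l → Gd S a b c k ε (l, θ) := by
    intro k ε hε
    obtain ⟨Z, hZ⟩ := eventually_atTop.1 (eventually_of_ultra fun U hU =>
      eventually_compact (K := Icc 0 (2 * Real.pi)) isCompact_Icc
        fun θ _ => gd_ultra hI T U (hlim U hU) k hε θ)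
    refine ⟨Z, fun l θ hl => ?_⟩
    obtain ⟨θ', h1, h2⟩ := (gd_per S a b c k ε l).exists_mem_Ico₀ Real.two_pi_pos θ
    exact h2.mpr (hZ l hl θ' (Ico_subset_Icc_self h1))
  have hK : IsCompact (closedBall (0 : E3) 7 ∩ {y | 3 ≤ ‖pt c y‖}) :=
    (isCompact_closedBall _ _).inter_right (isClosed_le continuous_const (by fun_prop))
  obtain ⟨l₀, hl₀⟩ := eventually_atTop.1 (eventually_of_ultra fun U hU =>
    out_compact (hlim U hU) hK fun y hy hy' => by
      have := hy.2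
      rw [mem_ofPred_eq, (mem_cylS T.nc).1 hy'] at this
      linarith)
  have h1 : 0 < max l₀ 1 := lt_max_of_lt_right one_pos
  have hcl := fun x hx => clear hM T.nc (ρ₀ := 5) (by norm_num) h1 (x := x)
    (fun l hl y hy hy' hm => hl₀ l (le_of_max_le_left hl) y
      ⟨by rw [mem_closedBall_zero_iff]; linarith, by rw [mem_ofPred_eq]; linarith⟩ (mem_tr.2 hm)) hx
  obtain ⟨Z, hZ⟩ := hgd 0 1 one_pos
  set r : ℝ × ℝ → ℝ := fun p => √2 + Real.smoothTransition (p.1 - (Z + 1)) * (rad S a b c p - √2)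
    with hr
  have hr1 : ∀ p : ℝ × ℝ, Z + 2 ≤ p.1 → r p = rad S a b c p := fun p hp => by
    simp only [hr, Real.smoothTransition.one_of_one_le (by linarith : 1 ≤ p.1 - (Z + 1))]
    ring
  have hr0 : ∀ p : ℝ × ℝ, p.1 ≤ Z + 1 → r p = √2 := fun p hp => by
    simp only [hr, Real.smoothTransition.zero_of_nonpos (by linarith : p.1 - (Z + 1) ≤ 0)]
    ring
  refine ⟨Z + 2, 5 / max l₀ 1, r, by positivity, T, contDiff_iff_contDiffAt.2 fun p => ?_,
    fun z θ => ?_, fun p => ?_, fun z θ ρ hz hρ hρ' => ?_, fun k ε hε => ?_⟩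
  · by_cases hp : Z ≤ p.1
    · exact contDiffAt_const.add ((Real.smoothTransition.contDiff.contDiffAt.comp p
        (contDiffAt_fst.sub contDiffAt_const)).mul ((hZ p.1 p.2 hp).1.sub contDiffAt_const))
    · refine (contDiffAt_const (c := √2)).congr_of_eventuallyEq ?_
      filter_upwards [continuous_fst.continuousAt.eventually
        (gt_mem_nhds (by linarith : p.1 < Z + 1))] with q hq using hr0 q hq.le
  · have := rad_per S a b c (z, θ)
    simp only [Prod.mk_add_mk, add_zero] at this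
    simp only [hr, this]
  · by_cases hp : Z ≤ p.1
    · have h2 := abs_lt.1 (hZ p.1 p.2 hp).2.1
      have h3 := Real.smoothTransition.nonneg (p.1 - (Z + 1))
      have h4 := Real.smoothTransition.le_one (p.1 - (Z + 1))
      simp only [hr]
      constructor <;> nlinarith [h2.1, h2.2]
    · rw [hr0 p (by linarith)]
      constructor <;> linarith
  · obtain ⟨-, h2, h3, -⟩ := hZ z θ (by linarith)
    rw [hr1 _ hz]
    constructor
    · intro hm
      have := hcl _ hm (by rwa [norm_pt_cylPt T _ _ hρ, inner_cylPt T])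
      rw [norm_pt_cylPt T _ _ hρ] at this
      exact (h3 ρ hρ this).1 hm
    · intro hm
      exact (h3 ρ hρ (by linarith [(abs_lt.1 h2).2])).2 hm
  · obtain ⟨Z', hZ'⟩ := hgd k ε hε
    refine ⟨max Z' (Z + 3), fun z θ hz => ?_⟩
    have hev : (fun p => r p - √2) =ᶠ[𝓝 (z, θ)] fun p => rad S a b c p - √2 := by
      filter_upwards [continuous_fst.continuousAt.eventually
        (lt_mem_nhds (by linarith [le_of_max_le_right hz] : Z + 2 < (z, θ).1))] with q hq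
      rw [hr1 q hq.le]
    rw [(hev.iteratedFDeriv ℝ k).self_of_nhds]
    exact (hZ' z θ (le_of_max_le_left hz)).2.2.2

end Vale.Agent.P218F.Ends.Cyl
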