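import Vale.Agent.P218F.Ends1
import Vale.Agent.P218F.Ends2
import Vale.Agent.P218F.EndsCyl
import Vale.Agent.P218FT.ConvA

/-! Ends of a shrinker, part 3: conical ends and the decomposition. -/

open MeasureTheory Set Filter Topology Metric
open scoped ENNReal NNReal RealInnerProductSpace ContDiff

namespace Vale.Agent.P218F.Ends

open Vale.Agent.P218FT

variable {D G : ℝ} {S : Set E3}

theorem Hyp.exists_seq (h : Hyp D G S) {y : E3} (hy : y ∈ Zset S) :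
    ∃ p : ℝ → E3, Tendsto p atTop (𝓝 y) ∧ ∀ l, 0 < l → l • p l ∈ S := by
  obtain ⟨ρ₀, h0, hZ⟩ := h.near_Z
  choose! q hq hq' using hZ y hy
  refine ⟨fun l => l⁻¹ • q l, ?_, fun l hl => by rw [smul_inv_smul₀ hl.ne']; exact hq l hl⟩
  rw [tendsto_iff_norm_sub_tendsto_zero]
  refine squeeze_zero' (Eventually.of_forall fun _ => norm_nonneg _) ?_
    (tendsto_id.const_div_atTop ρ₀)
  filter_upwards [eventually_gt_atTop 0] with l hl
  have : l⁻¹ • q l - y = l⁻¹ • (q l - l • y) := by rw [smul_sub, inv_smul_smul₀ hl.ne']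
  rw [this, norm_smul, Real.norm_eq_abs, abs_of_pos (inv_pos.2 hl), id, div_eq_inv_mul]
  exact mul_le_mul_of_nonneg_left (hq' l hl).le (inv_pos.2 hl).le

/-- the blow-downs converge smoothly to the density set near a regular point -/
theorem Hyp.coneLim (h : Hyp D G S) (hL : LocCompStmt) {x : E3} (hx : x ∈ Zset S) (hr : Reg S x)
    {ι : Type} (U : Ultrafilter ι) {lam : ι → ℝ} (hlam : Tendsto lam U atTop) :
    ∃ (W : Set E3) (w : ι → E3 → ℝ) (v : E3 → ℝ), IsOpen W ∧ x ∈ W ∧ ContDiff ℝ ∞ v ∧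
      CInf U W w v ∧ gradient v x ≠ 0 ∧ (∀ y ∈ W, y ∈ Zset S ↔ v y = 0) ∧
      ∀ᶠ i in U, ∀ y ∈ W, lam i • y ∈ S ↔ w i y = 0 := by
  obtain ⟨ρ, r, C, hρ, hr, hC, H⟩ := hr
  have hpos : ∀ᶠ i in U, 0 < lam i := hlam.eventually (eventually_gt_atTop 0)
  have ht : Tendsto (fun i => (lam i ^ 2)⁻¹) U (𝓝 0) :=
    ((tendsto_pow_atTop two_ne_zero).comp hlam).inv_tendsto_atTop
  obtain ⟨W, w, v, hW, hxW, -, hv, hc, hg, -, hm⟩ := hL ι U (fun _ => ssFlow S) (fun _ => Iio 0)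
    (fun i => -(lam i ^ 2)⁻¹) x (min (ρ / 2) r) C (by positivity) (by
      filter_upwards [hpos, ht.eventually (gt_mem_nhds (show 0 < ρ ^ 2 / 2 by positivity))]
        with i h1 h2
      have h3 : 0 < (lam i ^ 2)⁻¹ := by positivity
      have h4 : min (ρ / 2) r ^ 2 ≤ (ρ / 2) ^ 2 := by gcongr; exact min_le_left _ _
      refine ⟨h.inC.mcf, fun s hs => lt_of_le_of_lt hs.2 (by linarith), fun s hs y hy hd => ?_⟩
      refine TwoPt.mono' (H s ⟨by nlinarith [hs.1], lt_of_le_of_lt hs.2 (by linarith)⟩ y hy ?_)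
        (min_le_right _ _) le_rfl
      linarith [min_le_left (ρ / 2) r]) (by
      intro ε hε
      obtain ⟨p, hp, hp'⟩ := h.exists_seq hx
      filter_upwards [hpos, (hp.comp hlam).eventually (ball_mem_nhds x hε)] with i h1 h2
      exact ⟨_, (mem_ss_inv_sq h1).2 (hp' _ h1), mem_ball_iff_norm.1 h2⟩)
  have hm' : ∀ᶠ i in U, ∀ y ∈ W, lam i • y ∈ S ↔ w i y = 0 := by
    filter_upwards [hm, hpos] with i h1 h2 y hy
    rw [← mem_ss_inv_sq h2, h1 y hy]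
  have hO : IsOpen {y | gradient v y ≠ 0} := by
    refine isOpen_ne_fun ?_ continuous_const
    exact (InnerProductSpace.toDual ℝ E3).symm.continuous.comp (hv.continuous_fderiv (by simp))
  refine ⟨W ∩ {y | gradient v y ≠ 0}, w, v, hW.inter hO, ⟨hxW, hg⟩, hv, hc.mono inter_subset_left,
    hg, fun y hy => ⟨fun hZ => ?_, fun h0 => ?_⟩, hm'.mono fun i hi y hy => hi y hy.1⟩
  · obtain ⟨p, hp, hp'⟩ := h.exists_seq hZ
    refine tendsto_nhds_unique (hc.tendsto_comp hW hy.1 (hp.comp hlam))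
      (tendsto_const_nhds.congr' ?_)
    filter_upwards [hm', hpos, (hp.comp hlam).eventually (hW.mem_nhds hy.1)] with i h1 h2 h3
    exact ((h1 _ h3).1 (hp' _ h2)).symm
  · by_contra hn
    obtain ⟨A, hA, B, hB, hAB⟩ := mem_prod_iff.1 (h.out_Z hn)
    obtain ⟨ε, hε, hb⟩ := Metric.mem_nhds_iff.1 hB
    obtain ⟨i, ⟨z, h1, h2, h3⟩, h4, h5⟩ := ((exists_zero_near hW hc hv hy.1 h0 hy.2 hε).and
      (hm'.and (hlam.eventually hA))).exists
    exact hAB (mk_mem_prod h5 (hb (mem_ball_iff_norm.2 h2))) ((h4 z h1).2 h3)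

theorem conePt_add (γ n : ℝ → E3) (y y' θ t : ℝ) :
    conePt γ n (y + y') θ t = Real.exp y • conePt γ n y' θ t := by
  rw [conePt, conePt, Real.exp_add, mul_smul]

theorem conePt_zero (γ n : ℝ → E3) (y θ : ℝ) : conePt γ n y θ 0 = Real.exp y • γ θ := by
  rw [conePt, zero_smul, add_zero]

/-- **conical ends** -/
theorem Hyp.cone_end (h : Hyp D G S) (hL : LocCompStmt) (hI : ImplStmt) {γ n : ℝ → E3} {l δ : ℝ}
    (hδ : 0 < δ) (hγ : SphCurve γ n l δ) (hZ : ∀ θ, γ θ ∈ Zset S ∧ Reg S (γ θ))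
    (hex : ∀ y θ t, |t| ≤ δ → conePt γ n y θ t ∈ Zset S → t = 0) :
    ∃ (y₀ : ℝ) (ψ : ℝ × ℝ → ℝ), ConeEnd S γ n l y₀ δ ψ := by
  have hs := hγ.smooth
  have hn := hγ.smooth_n
  have hΞ : ContDiff ℝ ∞ fun p : (ℝ × ℝ) × ℝ => conePt γ n p.1.1 p.1.2 p.2 := by
    unfold conePt
    fun_prop
  obtain ⟨Z, f, h1, h2, h3, h4, h5⟩ := exists_graph (A := fun p t => conePt γ n p.1 p.2 t ∈ S)
    (T := fun _ => {t | |t| ≤ δ}) (η := δ / 2) (by positivity)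
    (fun z θ => by simp only [conePt, hγ.per, hγ.per_n])
    (Eventually.of_forall fun z t ht => show |t| ≤ δ by linarith) (by
      intro U θ₀ hU
      have hlam : Tendsto (fun i : ℝ × ℝ => Real.exp i.1) U atTop := Real.tendsto_exp_atTop.comp hU
      obtain ⟨W, w, v, hW, hxW, hv, hc, hg, hvZ, hm⟩ := h.coneLim hL (hZ θ₀).1 (hZ θ₀).2 U hlam
      have e0 : conePt γ n 0 θ₀ 0 = γ θ₀ := by rw [conePt_zero, Real.exp_zero, one_smul]
      have hv0 : ∀ᶠ q : ℝ × ℝ in 𝓝 (0, θ₀), v (conePt γ n q.1 q.2 0) = 0 := by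
        have c : ContinuousAt (fun q : ℝ × ℝ => conePt γ n q.1 q.2 0) (0, θ₀) :=
          (hΞ.continuous.comp (continuous_id.prodMk continuous_const)).continuousAt
        filter_upwards [c.eventually (hW.mem_nhds (show conePt γ n 0 θ₀ 0 ∈ W by rwa [e0]))]
          with q hq
        refine (hvZ _ hq).1 ?_
        rw [conePt_zero]
        exact Zset.smul (hZ _).1 (Real.exp_pos _)
      obtain ⟨ρ, τ, u, hρ, hτ, hτδ, hin, hu, hw⟩ := hI _ U W w v _ (0, θ₀) δ hW hc hΞ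
        (by rwa [e0]) hδ hv0 (transversal hv hΞ hv0 (by rwa [e0]) (hγ.tri θ₀) one_ne_zero
          hγ.lpos.ne' (κ := 1) (by
            simpa [conePt_zero] using (Real.hasDerivAt_exp 0).smul_const (γ θ₀)) (by
            simpa [conePt_zero, smul_inv_smul₀ hγ.lpos.ne'] using
              (hs.differentiable (by simp) θ₀).hasDerivAt) (by
            simpa [conePt] using ((hasDerivAt_id (0 : ℝ)).smul_const (n θ₀)).const_add (γ θ₀))
          one_ne_zero)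
      have hK : IsCompact ((fun p : (ℝ × ℝ) × ℝ => conePt γ n p.1.1 p.1.2 p.2) ''
          (closedBall (0, θ₀) ρ ×ˢ (closedBall 0 δ ∩ {t | τ ≤ |t|}))) :=
        ((isCompact_closedBall _ _).prod ((isCompact_closedBall _ _).inter_right
          (isClosed_le continuous_const continuous_abs))).image hΞ.continuous
      have hout := hlam.eventually (h.out_compact hK (by
        rintro _ ⟨p, ⟨-, a1, a2⟩, rfl⟩ hp
        have := hex _ _ _ (by simpa using a1) hp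
        simp only [mem_ofPred_eq, this, abs_zero] at a2
        linarith))
      refine ⟨ρ, u, hρ, hu, ?_⟩
      filter_upwards [hm, hw, hout, CInf_small₀ hu hτ] with i a1 a2 a3 a4 q hq t ht
      rw [conePt_add]
      rcases le_total |t| τ with b | b
      · rw [a1 _ (hin q hq t b)]
        exact a2 q hq t b
      · refine iff_of_false (a3 _ ⟨(q, t), ⟨ball_subset_closedBall hq, by simpa using ht, b⟩, rfl⟩)
          fun e => ?_
        have := a4 q hq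
        rw [← e] at this
        linarith)
  exact ⟨Z, f, hγ, h1, h2, h3, fun y θ t hy ht => h4 y θ hy t ht, h5⟩

/-- the open cone of opening `δ` about the half axis `c` -/
def opCone (c : E3) (δ : ℝ) : Set E3 := {x | ‖pt c x‖ < δ * ⟪c, x⟫}

theorem isOpen_opCone (c : E3) (δ : ℝ) : IsOpen (opCone c δ) :=
  isOpen_lt (by fun_prop) (by fun_prop)

theorem self_mem_opCone {c : E3} (hc : ‖c‖ = 1) {δ : ℝ} (hδ : 0 < δ) : c ∈ opCone c δ := by
  simp [opCone, pt_apply, hc, hδ]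

theorem smul_mem_cylReg {c x : E3} {δ s : ℝ} (hδ : 0 < δ) (hs : 0 < s) (h : x ∈ opCone c δ) :
    s • x ∈ cylReg c δ := by
  have h1 : ‖pt c x‖ < δ * ⟪c, x⟫ := h
  have h2 : 0 < ⟪c, x⟫ := (mul_pos_iff_of_pos_left hδ).1 ((norm_nonneg _).trans_lt h1)
  refine ⟨by rw [real_inner_smul_right]; positivity, ?_⟩
  rw [map_smul, norm_smul, Real.norm_eq_abs, abs_of_pos hs, real_inner_smul_right]
  nlinarith

theorem smul_mem_coneReg {γ n : ℝ → E3} {x : E3} {δ s : ℝ} (hs : 0 < s)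
    (h : x ∈ coneReg γ n δ) : s • x ∈ coneReg γ n δ := by
  obtain ⟨y, θ, t, ht, rfl⟩ := h
  exact ⟨Real.log s + y, θ, t, ht, by rw [conePt_add, Real.exp_log hs]⟩

theorem coneReg_mono {γ n : ℝ → E3} {δ δ' : ℝ} (h : δ ≤ δ') : coneReg γ n δ ⊆ coneReg γ n δ' :=
  fun _ ⟨y, θ, t, ht, e⟩ => ⟨y, θ, t, ht.trans h, e⟩

theorem SphCurve.mono {γ n : ℝ → E3} {l δ δ' : ℝ} (h : SphCurve γ n l δ') (hd : δ ≤ δ') :
    SphCurve γ n l δ :=
  ⟨h.lpos, h.smooth, h.smooth_n, h.per, h.per_n, h.tri,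
    fun y θ t y' θ' t' a b => h.inj y θ t y' θ' t' (a.trans hd) (b.trans hd)⟩

theorem CylEnd.mono {a b c : E3} {z₀ z₁ δ δ' : ℝ} {r : ℝ × ℝ → ℝ} (h : CylEnd S a b c z₀ δ' r)
    (hz : z₀ ≤ z₁) (h0 : 0 ≤ z₁) (hd : δ ≤ δ') : CylEnd S a b c z₁ δ r :=
  ⟨h.tri, h.smooth, h.per, h.bd, fun z θ ρ a1 a2 a3 => h.mem z θ ρ (hz.trans a1) a2
    (a3.trans (mul_le_mul_of_nonneg_right hd (h0.trans a1))), h.lim⟩

theorem ConeEnd.mono {γ n : ℝ → E3} {l y₀ y₁ δ : ℝ} {ψ : ℝ × ℝ → ℝ}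
    (h : ConeEnd S γ n l y₀ δ ψ) (hy : y₀ ≤ y₁) : ConeEnd S γ n l y₁ δ ψ :=
  ⟨h.crv, h.smooth, h.per, h.bd, fun y θ t a => h.mem y θ t (hy.trans a), h.lim⟩

theorem disj_cyl {c c' : E3} (hc : ‖c‖ = 1) (hc' : ‖c'‖ = 1) {δ : ℝ} (hd : 4 * δ < ‖c - c'‖) :
    Disjoint (cylReg c δ) (cylReg c' δ) := by
  refine disjoint_left.2 fun x ⟨h1, h2⟩ ⟨h3, h4⟩ => ?_
  rw [pt_apply] at h2 h4
  generalize ⟪c, x⟫ = s at h1 h2
  generalize ⟪c', x⟫ = s' at h3 h4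
  have e1 : ‖s • c - s' • c'‖ ≤ δ * (s + s') := by
    have := norm_sub_le_norm_sub_add_norm_sub (s • c) x (s' • c')
    rw [norm_sub_rev (s • c) x] at this
    linarith
  have e2 : |s - s'| ≤ δ * (s + s') := by
    have := abs_norm_sub_norm_le (s • c) (s' • c')
    rw [norm_smul, norm_smul, hc, hc', mul_one, mul_one, Real.norm_eq_abs, Real.norm_eq_abs,
      abs_of_pos h1, abs_of_pos h3] at this
    linarith
  have e3 : s * ‖c - c'‖ ≤ ‖s • c - s' • c'‖ + |s - s'| := by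
    have a1 : s • (c - c') = (s • c - s' • c') - (s - s') • c' := by module
    have a2 := norm_sub_le (s • c - s' • c') ((s - s') • c')
    rwa [← a1, norm_smul, norm_smul, hc', mul_one, Real.norm_eq_abs, Real.norm_eq_abs,
      abs_of_pos h1] at a2
  have e4 : s' * ‖c - c'‖ ≤ ‖s • c - s' • c'‖ + |s - s'| := by
    have a1 : s' • (c - c') = (s • c - s' • c') - (s - s') • c := by module
    have a2 := norm_sub_le (s • c - s' • c') ((s - s') • c)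
    rwa [← a1, norm_smul, norm_smul, hc, mul_one, Real.norm_eq_abs, Real.norm_eq_abs,
      abs_of_pos h3] at a2
  nlinarith

theorem disj_cone {c : E3} (hc : ‖c‖ = 1) {γ n : ℝ → E3} {l δ δ₀ δ₁ : ℝ}
    (hγ : SphCurve γ n l δ₀) (hn : ∀ θ, γ θ ∉ opCone c δ₁) (h0 : 0 < δ) (h1 : δ ≤ 1 / 10)
    (h2 : 4 * δ ≤ δ₁) : Disjoint (cylReg c δ) (coneReg γ n δ) := by
  refine disjoint_left.2 fun x ⟨a1, a2⟩ ⟨y, θ, t, ht, e⟩ => hn θ ?_
  have T := hγ.tri θ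
  have hp := Real.exp_pos y
  rw [e, conePt, real_inner_smul_right] at a1 a2
  rw [map_smul, norm_smul, Real.norm_eq_abs, abs_of_pos hp, mul_left_comm] at a2
  have b1 : 0 < ⟪c, γ θ + t • n θ⟫ := (mul_pos_iff_of_pos_left hp).1 a1
  have b2 := le_of_mul_le_mul_left a2 hp
  have b3 : ‖t • n θ‖ ≤ δ := by rwa [norm_smul, T.nc, mul_one]
  have b4 : ‖pt c (γ θ)‖ ≤ ‖pt c (γ θ + t • n θ)‖ + δ := by
    have : pt c (γ θ) = pt c (γ θ + t • n θ) - pt c (t • n θ) := by rw [map_add]; abel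
    rw [this]
    exact (norm_sub_le _ _).trans (by linarith [norm_pt_le hc (t • n θ)])
  have b5 : |⟪c, t • n θ⟫| ≤ δ := by
    have := abs_real_inner_le_norm c (t • n θ)
    rw [hc, one_mul] at this
    linarith
  have b6 := norm_pt_sq hc (γ θ)
  have b7 := abs_real_inner_le_norm c (γ θ)
  rw [T.na] at b6 b7
  rw [hc, one_mul] at b7
  rw [inner_add_right] at b1 b2
  show ‖pt c (γ θ)‖ < δ₁ * ⟪c, γ θ⟫
  obtain ⟨b8, b9⟩ := abs_le.1 b5
  obtain ⟨-, b10⟩ := abs_le.1 b7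
  have b11 : ‖pt c (γ θ)‖ ≤ 3 * δ := by nlinarith
  have b12 : 9 / 10 ≤ ⟪c, γ θ⟫ := by
    by_contra hh
    push Not at hh
    nlinarith [norm_nonneg (pt c (γ θ))]
  nlinarith

theorem exists_polar {a b c : E3} (T : Triple a b c) (x : E3) :
    ∃ θ, x = cylPt a b c ⟪c, x⟫ θ ‖pt c x‖ := by
  have e1 : ‖pt c x‖ = ‖(⟨⟪a, x⟫, ⟪b, x⟫⟩ : ℂ)‖ := by
    refine (sq_eq_sq₀ (norm_nonneg _) (norm_nonneg _)).1 ?_
    rw [norm_pt_sq T.nc, T.norm_sq, Complex.sq_norm, Complex.normSq_mk]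
    ring
  refine ⟨Complex.arg ⟨⟪a, x⟫, ⟪b, x⟫⟩, ?_⟩
  rw [cylPt, e1, Complex.norm_mul_cos_arg, Complex.norm_mul_sin_arg]
  exact T.expand x

theorem Reg.near {y : E3} (h : Reg S y) : ∀ᶠ z in 𝓝 y, Reg S z := by
  obtain ⟨ρ, r, C, hρ, hr, hC, H⟩ := h
  filter_upwards [ball_mem_nhds y (half_pos hρ)] with z hz
  refine ⟨ρ / 2, r, C, half_pos hρ, hr, hC, fun t ht x hx hd =>
    H t ⟨by nlinarith [ht.1], ht.2⟩ x hx ?_⟩
  linarith [norm_sub_le_norm_sub_add_norm_sub x z y, mem_ball_iff_norm.1 hz]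

/-- there are finitely many cylindrical directions -/
theorem Hyp.exists_dirs (h : Hyp D G S) (hd : ∀ y, ‖y‖ = 1 → Reg S y ∨ CylDir S y) :
    ∃ (m : ℕ) (c : Fin m → E3) (d : Fin m → ℝ), Function.Injective c ∧
      (∀ j, ‖c j‖ = 1 ∧ CylDir S (c j) ∧ 0 < d j ∧
        ∀ x ∈ Zset S, x ∈ opCone (c j) (d j) → pt (c j) x = 0) ∧
      ∀ y, ‖y‖ = 1 → Reg S y ∨ ∃ j, y ∈ opCone (c j) (d j) := by
  classical
  have key : ∀ c : E3, ‖c‖ = 1 ∧ CylDir S c → ∃ d : ℝ, 0 < d ∧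
      ∀ x ∈ Zset S, x ∈ opCone c d → pt c x = 0 := fun c hc => by
    obtain ⟨L, d, -, h1, h2⟩ := h.tube hc.2 hc.1
    exact ⟨d, h1, fun x hx hx' => h.tube_Z hc.1 h1 h2 hx hx'⟩
  choose! d h1 h2 using key
  obtain ⟨Y, hY, H⟩ := (isCompact_sphere (0 : E3) 1).induction_on
    (p := fun A => ∃ Y : Finset E3, (∀ c ∈ Y, ‖c‖ = 1 ∧ CylDir S c) ∧
      ∀ y ∈ A, Reg S y ∨ ∃ c ∈ Y, y ∈ opCone c (d c)) ⟨∅, by simp, by simp⟩
    (fun s t hst ⟨Y, a, b⟩ => ⟨Y, a, fun y hy => b y (hst hy)⟩)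
    (fun s t ⟨Y, a, b⟩ ⟨Y', a', b'⟩ => ⟨Y ∪ Y', fun c hc => (Finset.mem_union.1 hc).elim (a c) (a' c),
      fun y hy => hy.elim
        (fun e => (b y e).imp_right fun ⟨c, e1, e2⟩ => ⟨c, Finset.mem_union_left _ e1, e2⟩)
        fun e => (b' y e).imp_right fun ⟨c, e1, e2⟩ => ⟨c, Finset.mem_union_right _ e1, e2⟩⟩) (by
      intro y hy
      have hy1 : ‖y‖ = 1 := by simpa using hy
      rcases hd y hy1 with a | a
      · exact ⟨_, nhdsWithin_le_nhds a.near, ∅, by simp, fun z hz => Or.inl hz⟩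
      · exact ⟨_, nhdsWithin_le_nhds ((isOpen_opCone y (d y)).mem_nhds
          (self_mem_opCone hy1 (h1 y ⟨hy1, a⟩))), {y}, by simpa using ⟨hy1, a⟩,
          fun z hz => Or.inr ⟨y, by simp, hz⟩⟩)
  refine ⟨Y.card, fun j => Y.equivFin.symm j, fun j => d (Y.equivFin.symm j),
    Subtype.val_injective.comp Y.equivFin.symm.injective, fun j => ?_, fun y hy => ?_⟩
  · have := hY _ (Y.equivFin.symm j).2
    exact ⟨this.1, this.2, h1 _ this, h2 _ this⟩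
  · refine (H y (by simpa using hy)).imp_right fun ⟨c, e1, e2⟩ => ⟨Y.equivFin ⟨c, e1⟩, ?_⟩
    simpa using e2

theorem eq_of_pt {c x : E3} {d : ℝ} (hc : ‖c‖ = 1) (hx : ‖x‖ = 1) (hd : 0 < d)
    (h : x ∈ opCone c d) (h0 : pt c x = 0) : x = c := by
  have h2 : 0 < ⟪c, x⟫ := (mul_pos_iff_of_pos_left hd).1 ((norm_nonneg _).trans_lt h)
  rw [pt_apply, sub_eq_zero] at h0
  have h3 := congrArg norm h0
  rw [norm_smul, hc, hx, mul_one, Real.norm_eq_abs, abs_of_pos h2] at h3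
  rw [h0, ← h3, one_smul]

theorem norm_unit {x : E3} (hx : x ≠ 0) : ‖‖x‖⁻¹ • x‖ = 1 := by
  rw [norm_smul, norm_inv, norm_norm, inv_mul_cancel₀ (norm_ne_zero_iff.2 hx)]

theorem ends_of (h : Hyp D G S) (hL : LocCompStmt) (hI : ImplStmt) (hK : CurveStmt)
    (hd : ∀ y, ‖y‖ = 1 → Reg S y ∨ CylDir S y)
    (htp : ∃ r C : ℝ, 0 < r ∧ 0 < C ∧ ∀ x ∈ S, TwoPt S x r C) : Nonempty (EndData S) := by
  obtain ⟨m, c, d, hinj, hc, hcov⟩ := h.exists_dirs hd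
  set Γ : Set E3 := (sphere 0 1 ∩ Zset S) \ ⋃ j, opCone (c j) (d j) with hΓ
  have mΓ : ∀ x, x ∈ Γ ↔ ‖x‖ = 1 ∧ x ∈ Zset S ∧ ∀ j, x ∉ opCone (c j) (d j) := fun x => by
    simp [hΓ, and_assoc]
  have cΓ : IsCompact Γ := ((isCompact_sphere 0 1).inter_right h.isClosed_Z).diff
    (isOpen_iUnion fun j => isOpen_opCone _ _)
  have rΓ : ∀ x ∈ Γ, Reg S x := fun x hx =>
    (hcov x ((mΓ x).1 hx).1).resolve_right fun ⟨j, hj⟩ => ((mΓ x).1 hx).2.2 j hj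
  have alt : ∀ x ∈ Zset S, ‖x‖ = 1 → x ∈ Γ ∨ ∃ j, x = c j := fun x hx h1 => by
    rw [or_iff_not_imp_right, mΓ]
    exact fun hn => ⟨h1, hx, fun j hj =>
      hn ⟨j, eq_of_pt (hc j).1 h1 (hc j).2.2.1 hj ((hc j).2.2.2 x hx hj)⟩⟩
  obtain ⟨k, γ, n, l, δ₀, hδ₀, hγ, hΓγ, hkk, hnb⟩ := hK Γ cΓ (fun x hx => ((mΓ x).1 hx).1) (by
    intro x hx
    obtain ⟨h1, h2, h3⟩ := (mΓ x).1 hx
    obtain ⟨W, w, v, hW, hxW, hv, -, hg, hvZ, -⟩ := h.coneLim hL h2 (rΓ x hx)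
      (Ultrafilter.of (atTop : Filter ℝ)) (lam := id) (Ultrafilter.of_le _)
    have x0 : x ≠ 0 := norm_ne_zero_iff.1 (by rw [h1]; norm_num)
    have c1 : ContinuousAt (fun y : E3 => ‖y‖⁻¹ • y) x :=
      (continuous_norm.continuousAt.inv₀ (norm_ne_zero_iff.2 x0)).smul continuousAt_id
    have c2 : ∀ᶠ y in 𝓝 x, ∀ j, ‖y‖⁻¹ • y ≠ c j := eventually_all.2 fun j =>
      c1.eventually_ne (by
        rw [h1, inv_one, one_smul]
        intro e
        exact h3 j (e ▸ self_mem_opCone (hc j).1 (hc j).2.2.1))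
    refine ⟨v, hv, hg, ?_⟩
    filter_upwards [hW.mem_nhds hxW, c2, eventually_ne_nhds x0] with y a1 a2 a3
    rw [← hvZ y a1]
    refine ⟨fun ⟨s, hs, e⟩ => ?_, fun e => ⟨‖y‖⁻¹, inv_pos.2 (norm_pos_iff.2 a3), ?_⟩⟩
    · have := Zset.smul ((mΓ _).1 e).2.1 (inv_pos.2 hs)
      rwa [inv_smul_smul₀ hs.ne'] at this
    · exact (alt _ (Zset.smul e (inv_pos.2 (norm_pos_iff.2 a3))) (norm_unit a3)).resolve_right
        fun ⟨j, hj⟩ => a2 j hj)
  have hγΓ : ∀ i θ, γ i θ ∈ Γ := fun i θ => (hΓγ _).2 ⟨i, θ, rfl⟩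
  choose a b hab using fun j => exists_triple (hc j).1
  choose z₀ d' r hd' hcyl using fun j => Cyl.cyl_end hI h.inC.mcf (hab j)
    fun U hU => (hc j).2.1 ℝ U id hU
  have small : ∀ e : ℝ, 0 < e → ∀ᶠ δ : ℝ in 𝓝[>] 0, δ < e := fun e he =>
    nhdsWithin_le_nhds (gt_mem_nhds he)
  obtain ⟨δ, hδ, h1, h2, h3, h4, h5⟩ : ∃ δ : ℝ, 0 < δ ∧ δ < δ₀ ∧ δ < 1 / 10 ∧ (∀ j, δ < d j / 4) ∧
      (∀ j, δ < d' j) ∧ ∀ j j', j ≠ j' → δ < ‖c j - c j'‖ / 4 := by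
    have e1 : ∀ᶠ δ : ℝ in 𝓝[>] 0, ∀ j, δ < d j / 4 :=
      eventually_all.2 fun j => small _ (by linarith [(hc j).2.2.1])
    have e2 : ∀ᶠ δ : ℝ in 𝓝[>] 0, ∀ j, δ < d' j := eventually_all.2 fun j => small _ (hd' j)
    have e3 : ∀ᶠ δ : ℝ in 𝓝[>] 0, ∀ j j', j ≠ j' → δ < ‖c j - c j'‖ / 4 :=
      eventually_all.2 fun j => eventually_all.2 fun j' => eventually_all.2 fun hj => small _
        (div_pos (norm_pos_iff.2 (sub_ne_zero.2 (hinj.ne hj))) four_pos)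
    exact ((eventually_mem_nhdsWithin (s := Ioi (0 : ℝ))).and ((small _ hδ₀).and
      ((small (1 / 10) (by norm_num)).and (e1.and (e2.and e3))))).exists
  have dck : ∀ j i, Disjoint (cylReg (c j) δ) (coneReg (γ i) (n i) δ) := fun j i =>
    disj_cone (hc j).1 (hγ i) (fun θ => ((mΓ _).1 (hγΓ i θ)).2.2 j) hδ h2.le (by linarith [h3 j])
  have dkk : ∀ i i', i ≠ i' → Disjoint (coneReg (γ i) (n i) δ) (coneReg (γ i') (n i') δ) :=
    fun i i' hi => (hkk i i' hi).mono (coneReg_mono h1.le) (coneReg_mono h1.le)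
  choose y₀ ψ hcone using fun i => h.cone_end hL hI hδ ((hγ i).mono h1.le)
    (fun θ => ⟨((mΓ _).1 (hγΓ i θ)).2.1, rΓ _ (hγΓ i θ)⟩) (by
      intro y θ t ht hZ
      set x := conePt (γ i) (n i) y θ t with hx
      have xr : x ∈ coneReg (γ i) (n i) δ := ⟨y, θ, t, ht, rfl⟩
      have x0 : x ≠ 0 := by
        intro e
        have := congrArg (fun v => ⟪γ i θ, v⟫) e
        simp only [hx, conePt, real_inner_smul_right, inner_add_right, ((hγ i).tri θ).ac,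
          real_inner_self_eq_norm_sq, ((hγ i).tri θ).na, inner_zero_right] at this
        linarith [Real.exp_pos y]
      have xp : 0 < ‖x‖ := norm_pos_iff.2 x0
      have ex : x = ‖x‖ • ‖x‖⁻¹ • x := (smul_inv_smul₀ xp.ne' x).symm
      rcases alt _ (Zset.smul hZ (inv_pos.2 xp)) (norm_unit x0) with e | ⟨j, e⟩
      · obtain ⟨i', θ', e⟩ := (hΓγ _).1 e
        have e' : x = conePt (γ i') (n i') (Real.log ‖x‖) θ' 0 := by
          rw [conePt_zero, Real.exp_log xp, ← e, ← ex]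
        have : i = i' := by
          by_contra hi
          exact disjoint_left.1 (dkk i i' hi) xr ⟨_, _, 0, by simpa using hδ.le, e'⟩
        subst this
        exact ((hγ i).inj _ _ _ _ _ _ (ht.trans h1.le) (by simpa using hδ₀.le) e').2.1
      · refine absurd xr (disjoint_left.1 (dck j i) ?_)
        rw [ex, e]
        exact smul_mem_cylReg hδ xp (self_mem_opCone (hc j).1 hδ))
  obtain ⟨η, hη, hnb⟩ := hnb δ hδ
  have cK : IsCompact ((sphere (0 : E3) 1 \ ⋃ j, opCone (c j) δ) \ thickening η Γ) :=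
    ((isCompact_sphere 0 1).diff (isOpen_iUnion fun j => isOpen_opCone _ _)).diff isOpen_thickening
  obtain ⟨R₁, hR₁⟩ := eventually_atTop.1 (h.out_compact cK fun x ⟨⟨a1, a2⟩, a3⟩ hZ =>
    (alt x hZ (by simpa using a1)).elim (fun e => a3 (self_subset_thickening hη Γ e))
      fun ⟨j, e⟩ => a2 (mem_iUnion.2 ⟨j, e ▸ self_mem_opCone (hc j).1 hδ⟩))
  obtain ⟨R, hR, g1, g2, g3, g4⟩ : ∃ R : ℝ, 0 < R ∧ R₁ ≤ R ∧ 4 / δ ≤ R ∧ (∀ j, z₀ j ≤ R) ∧
      ∀ i, y₀ i ≤ Real.log R :=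
    ((eventually_gt_atTop 0).and ((eventually_ge_atTop _).and ((eventually_ge_atTop _).and
      ((eventually_all.2 fun j => eventually_ge_atTop _).and (eventually_all.2 fun i =>
        Real.tendsto_log_atTop.eventually (eventually_ge_atTop _)))))).exists
  have hcyl' : ∀ j, CylEnd S (a j) (b j) (c j) R δ (r j) := fun j =>
    (hcyl j).mono (g3 j) hR.le (h4 j).le
  have hcone' : ∀ i, ConeEnd S (γ i) (n i) (l i) (Real.log R) δ (ψ i) := fun i =>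
    (hcone i).mono (g4 i)
  refine ⟨⟨m, a, b, c, r, k, γ, n, l, ψ, R, δ, hδ, by linarith,
    by rwa [div_le_iff₀ hδ, mul_comm] at g2, hcyl', hcone', fun x hx hxR => ?_,
    fun j j' hj => disj_cyl (hc j).1 (hc j').1 (by linarith [h5 j j' hj]), dck, dkk, htp⟩⟩
  have xp : 0 < ‖x‖ := by linarith
  have ex : ‖x‖ • ‖x‖⁻¹ • x = x := smul_inv_smul₀ xp.ne' x
  have : (∃ j, x ∈ cylReg (c j) δ) ∨ ∃ i, x ∈ coneReg (γ i) (n i) δ := by
    by_contra hn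
    push Not at hn
    refine hR₁ ‖x‖ (by linarith) (‖x‖⁻¹ • x) ⟨⟨by simpa using norm_unit (norm_pos_iff.1 xp),
      fun e => ?_⟩, fun e => ?_⟩ (by rwa [ex])
    · obtain ⟨j, hj⟩ := mem_iUnion.1 e
      exact hn.1 j (ex ▸ smul_mem_cylReg hδ xp hj)
    · obtain ⟨g, hg, e⟩ := mem_thickening_iff.1 e
      obtain ⟨i, hi⟩ := hnb _ g hg (by rw [← dist_eq_norm]; exact e.le)
      exact hn.2 i (ex ▸ smul_mem_coneReg xp hi)
  rcases this with ⟨j, a1, a2⟩ | ⟨i, y, θ, t, ht, e⟩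
  · obtain ⟨θ, e⟩ := exists_polar (hab j) x
    have a3 : R ≤ ⟪c j, x⟫ := by
      have := norm_le_pt (x := x) (hc j).1
      rw [abs_of_pos a1] at this
      nlinarith
    refine Or.inl ⟨j, _, θ, a3, ?_⟩
    rwa [← ((hcyl' j).mem _ θ _ a3 (norm_nonneg _) a2).1 (e ▸ hx)]
  · have a3 : Real.log R ≤ y := by
      rw [Real.log_le_iff_le_exp hR]
      have a4 := norm_add_le (γ i θ) (t • n i θ)
      rw [norm_smul, ((hγ i).tri θ).na, ((hγ i).tri θ).nc, Real.norm_eq_abs] at a4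
      rw [e, conePt, norm_smul, Real.norm_eq_abs, abs_of_pos (Real.exp_pos y)] at hxR
      nlinarith [Real.exp_pos y]
    refine Or.inr ⟨i, y, θ, a3, ?_⟩
    rwa [← ((hcone' i).mem y θ t a3 ht).1 (e ▸ hx)]

end Vale.Agent.P218F.Ends
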