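import Mathlib.Topology.Homotopy.Lifting
import Mathlib.Topology.FiberBundle.Basic
import Mathlib.Topology.Instances.Int
import Mathlib.Topology.Algebra.Constructions
import Mathlib.Algebra.Ring.Int.Units
import Mathlib.Topology.Instances.Real.Lemmas

/-! A family of germs which are compatible up to sign on a simply connected space can be glued. -/

open Set Filter Topology

namespace Vale.Agent.P218F.Tube

variable {X : Type*} [TopologicalSpace X]

/-- the two functions agree near `b` up to a sign -/
def PM (f g : X → ℝ) (b : X) : Prop := f =ᶠ[𝓝 b] g ∨ f =ᶠ[𝓝 b] fun y => -g y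

lemma PM.refl (f : X → ℝ) (b : X) : PM f f b := Or.inl EventuallyEq.rfl

lemma PM.symm {f g : X → ℝ} {b : X} (h : PM f g b) : PM g f b := by
  rcases h with h | h
  · exact Or.inl h.symm
  · exact Or.inr (h.mono fun y hy => by simp only [hy, neg_neg])

lemma PM.trans {f g k : X → ℝ} {b : X} (h : PM f g b) (h' : PM g k b) : PM f k b := by
  rcases h with h | h <;> rcases h' with h' | h'
  · exact Or.inl (h.trans h')
  · exact Or.inr (h.trans h')
  · exact Or.inr ((h.and h').mono fun y hy => by simp only [hy.1, hy.2])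
  · exact Or.inl ((h.and h').mono fun y hy => by simp only [hy.1, hy.2, neg_neg])

lemma PM.eventually {f g : X → ℝ} {b : X} (h : PM f g b) : ∀ᶠ b' in 𝓝 b, PM f g b' := by
  rcases h with h | h
  · exact h.eventually_nhds.mono fun y hy => Or.inl hy
  · exact h.eventually_nhds.mono fun y hy => Or.inr hy

open Classical in
/-- the relative sign -/
noncomputable def rs (f g : X → ℝ) (b : X) : Bool := if f =ᶠ[𝓝 b] g then false else true

/-- multiplication by the sign -/
def sm (e : Bool) (t : ℝ) : ℝ := if e then -t else t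

lemma sm_xor (e e' : Bool) (t : ℝ) : sm (xor e e') t = sm e (sm e' t) := by
  cases e <;> cases e' <;> simp [sm]

lemma PM.eq_rs {f g : X → ℝ} {b : X} (h : PM f g b) : f =ᶠ[𝓝 b] fun y => sm (rs f g b) (g y) := by
  by_cases h1 : f =ᶠ[𝓝 b] g
  · simp only [rs, h1, sm, if_true]; exact h1
  · simpa [rs, h1, sm] using h.resolve_left h1

lemma rs_unique {f g : X → ℝ} {b : X} (hg : ¬ g =ᶠ[𝓝 b] fun _ => 0) {e e' : Bool}
    (h : f =ᶠ[𝓝 b] fun y => sm e (g y)) (h' : f =ᶠ[𝓝 b] fun y => sm e' (g y)) : e = e' := by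
  by_contra hne
  apply hg
  filter_upwards [h, h'] with y h1 h2
  rw [h1] at h2
  cases e <;> cases e' <;> simp [sm] at hne h2 <;> linarith

theorem exists_glue [SimplyConnectedSpace X] [LocallyPathConnectedSpace X] (g : X → X → ℝ)
    (hc : ∀ a, ∀ᶠ b in 𝓝 a, PM (g a) (g b) b) (hn : ∀ a, ¬ g a =ᶠ[𝓝 a] fun _ => 0) :
    ∃ s : X → ℝ, ∀ a, PM s (g a) a := by
  let B : X → Set X := fun a => interior {b | PM (g a) (g b) b}
  have hB : ∀ a b, b ∈ B a → PM (g a) (g b) b := fun a b h =>
    (interior_subset h : b ∈ {b | PM (g a) (g b) b})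
  have hB2 : ∀ a a' b, b ∈ B a → b ∈ B a' → PM (g a) (g a') b := fun a a' b h h' =>
    (hB a b h).trans (hB a' b h').symm
  have hN : ∀ a b, b ∈ B a → ¬ g a =ᶠ[𝓝 b] fun _ => 0 := by
    intro a b h h0
    apply hn b
    rcases (hB a b h).symm with h1 | h1
    · exact h1.trans h0
    · filter_upwards [h1, h0] with y h2 h3
      rw [h2, h3, neg_zero]
  have hloc : ∀ a a' b, b ∈ B a → b ∈ B a' →
      ∀ᶠ b' in 𝓝 b, rs (g a) (g a') b' = rs (g a) (g a') b := by
    intro a a' b h h'
    filter_upwards [(hB2 a a' b h h').eq_rs.eventually_nhds, isOpen_interior.mem_nhds h,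
      isOpen_interior.mem_nhds h'] with b' h1 h2 h3
    exact rs_unique (hN a' b' h3) (hB2 a a' b' h2 h3).eq_rs h1
  let Z : FiberBundleCore X X Bool :=
    { baseSet := B
      isOpen_baseSet := fun _ => isOpen_interior
      indexAt := id
      mem_baseSet_at := fun a => mem_interior_iff_mem_nhds.2 (hc a)
      coordChange := fun a a' b v => xor v (rs (g a) (g a') b)
      coordChange_self := fun a b _ v => by simp [rs]
      continuousOn_coordChange := fun a a' p hp => by
        have h1 : ContinuousAt (fun p : X × Bool => rs (g a) (g a') p.1) p :=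
          (continuousAt_const.congr
            (EventuallyEq.symm (hloc a a' p.1 hp.1.1 hp.1.2))).comp continuousAt_fst
        have h2 : Continuous fun q : Bool × Bool => xor q.1 q.2 := continuous_of_discreteTopology
        exact (h2.continuousAt.comp (continuousAt_snd.prodMk h1)).continuousWithinAt
      coordChange_comp := fun a a' a'' b hb v => by
        have e : rs (g a) (g a'') b = xor (rs (g a) (g a') b) (rs (g a') (g a'') b) := by
          refine rs_unique (hN a'' b hb.2) (hB2 a a'' b hb.1.1 hb.2).eq_rs ?_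
          filter_upwards [(hB2 a a' b hb.1.1 hb.1.2).eq_rs, (hB2 a' a'' b hb.1.2 hb.2).eq_rs]
            with y h1 h2
          rw [sm_xor, h1, h2]
        rw [e, Bool.xor_assoc] }
  have cov : IsCoveringMap Z.proj :=
    IsCoveringMap.mk Z.proj (fun _ => Bool) (fun a => Z.localTriv a) fun a => Z.mem_baseSet_at a
  obtain ⟨a₀⟩ : Nonempty X := inferInstance
  obtain ⟨F, ⟨-, hF⟩, -⟩ :=
    cov.existsUnique_continuousMap_lifts (ContinuousMap.id X) a₀ ⟨a₀, false⟩ rfl
  have hF1 : ∀ b, (F b).1 = b := fun b => congrFun hF b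
  refine ⟨fun b => sm (F b).2 (g b b), fun a => ?_⟩
  have ha : a ∈ B a := Z.mem_baseSet_at a
  have h1 : ContinuousAt (fun b => (Z.localTriv a (F b)).2) a := by
    refine continuousAt_snd.comp (ContinuousAt.comp ?_ F.continuous.continuousAt)
    refine (Z.localTriv a).continuousAt ?_
    rw [Z.mem_localTriv_source, hF1]
    exact ha
  have h2 : ∀ᶠ b in 𝓝 a, (Z.localTriv a (F b)).2 = (Z.localTriv a (F a)).2 :=
    h1.eventually ((isOpen_discrete {(Z.localTriv a (F a)).2}).mem_nhds rfl)
  have h3 : (fun b => sm (F b).2 (g b b)) =ᶠ[𝓝 a]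
      fun b => sm (Z.localTriv a (F a)).2 (g a b) := by
    filter_upwards [h2, isOpen_interior.mem_nhds ha] with b h4 h5
    rw [← h4, Z.localTriv_apply]
    have h6 : ∀ e : Bool, sm e (g b b) = sm (xor e (rs (g (F b).1) (g a) (F b).1)) (g a b) := by
      intro e
      rw [hF1, sm_xor]
      exact congrArg (sm e) (hB a b h5).symm.eq_rs.self_of_nhds
    exact h6 _
  generalize (Z.localTriv a (F a)).2 = e at h3
  cases e
  · exact Or.inl h3
  · exact Or.inr h3

end Vale.Agent.P218F.Tube
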