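import Vale.Agent.P218F.EndsSpec
import Vale.Agent.P218F.TubeSign
import Mathlib.Geometry.Manifold.PartitionOfUnity
import Mathlib.Analysis.Convex.Contractible
import Mathlib.Analysis.Calculus.Deriv.MeanValue
import Mathlib.Data.Real.Sign

/-! A properly embedded surface in `ℝ³` has a global equation. -/

open MeasureTheory Set Filter Topology Metric
open scoped ENNReal NNReal RealInnerProductSpace ContDiff Manifold

namespace Vale.Agent.P218F.Ends.Or

open Vale.Agent.P218FT Vale.Agent.P218F.Tube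

theorem hasDerivAt_line {w : E3 → ℝ} (hw : Differentiable ℝ w) (y n : E3) (t : ℝ) :
    HasDerivAt (fun s : ℝ => w (y + s • n)) (fderiv ℝ w (y + t • n) n) t := by
  have h1 : HasDerivAt (fun s : ℝ => y + s • n) n t := by
    simpa using ((hasDerivAt_id t).smul_const n).const_add y
  exact (hw _).hasFDerivAt.comp_hasDerivAt t h1

theorem pos_of_deriv_pos {f : ℝ → ℝ} {c : ℝ} (hf : HasDerivAt f c 0) (hc : 0 < c) (h0 : f 0 = 0) :
    ∀ᶠ t in 𝓝[>] (0 : ℝ), 0 < f t := by
  have h1 := (hasDerivAt_iff_tendsto_slope_zero.mp hf).mono_left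
    (nhdsWithin_mono _ fun t (ht : t ∈ Ioi (0 : ℝ)) => ne_of_gt ht)
  filter_upwards [h1.eventually (lt_mem_nhds hc), self_mem_nhdsWithin] with t h2 h3
  have h4 : (0 : ℝ) < t := h3
  rw [zero_add, h0, sub_zero, smul_eq_mul] at h2
  exact (pos_iff_pos_of_mul_pos h2).mp (inv_pos.mpr h4)

/-- if two functions with the same zeros increase in the direction `n`, one is positive where the
other one is -/
theorem pos_of_pos {w w' : E3 → ℝ} (hw : ContDiff ℝ ∞ w) (hw' : ContDiff ℝ ∞ w') {b n : E3}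
    (h0 : w' b = 0) (hn : 0 < fderiv ℝ w b n) (hn' : 0 < fderiv ℝ w' b n)
    (hz : ∀ᶠ y in 𝓝 b, w' y = 0 → w y = 0) : ∀ᶠ y in 𝓝 b, 0 < w y → 0 < w' y := by
  have hd : Differentiable ℝ w := hw.differentiable (by simp)
  have hd' : Differentiable ℝ w' := hw'.differentiable (by simp)
  have hc : Continuous fun y => fderiv ℝ w y n :=
    (hw.continuous_fderiv (by simp)).clm_apply continuous_const
  have h1 : ∀ᶠ y in 𝓝 b, 0 < fderiv ℝ w y n ∧ (w' y = 0 → w y = 0) :=
    (hc.continuousAt.eventually (lt_mem_nhds hn)).and hz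
  have h2 : Tendsto (fun p : E3 × ℝ => p.1 + p.2 • n) (𝓝 b ×ˢ 𝓝 0) (𝓝 b) := by
    have : Continuous fun p : E3 × ℝ => p.1 + p.2 • n := by fun_prop
    have h := this.tendsto (b, 0)
    simpa [nhds_prod_eq] using h
  obtain ⟨pa, hpa, pb, hpb, hab⟩ := eventually_prod_iff.mp (h2.eventually h1)
  obtain ⟨δ, hδ, hδb⟩ := Metric.eventually_nhds_iff.mp hpb
  have h3 : ∀ᶠ t in 𝓝[>] (0 : ℝ), 0 < w' (b + t • n) :=
    pos_of_deriv_pos (by simpa using hasDerivAt_line hd' b n 0) hn' (by simpa using h0)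
  obtain ⟨τ, hτ, hτ1⟩ := (h3.and (Ioo_mem_nhdsGT hδ)).exists
  have h4 : ∀ᶠ y in 𝓝 b, 0 < w' (y + τ • n) :=
    (hw'.continuous.comp (continuous_id.add continuous_const)).continuousAt.eventually
      (lt_mem_nhds hτ)
  filter_upwards [hpa, h4] with y hy hyτ hpos
  have h5 : ∀ t ∈ Icc (0 : ℝ) τ, 0 < fderiv ℝ w (y + t • n) n ∧
      (w' (y + t • n) = 0 → w (y + t • n) = 0) := fun t ht =>
    hab hy (hδb (by rw [Real.dist_eq, sub_zero, abs_of_nonneg ht.1]; exact ht.2.trans_lt hτ1.2))
  have h6 : MonotoneOn (fun s : ℝ => w (y + s • n)) (Icc 0 τ) :=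
    monotoneOn_of_deriv_nonneg (convex_Icc 0 τ)
      (fun t _ => (hasDerivAt_line hd y n t).continuousAt.continuousWithinAt)
      (fun t _ => (hasDerivAt_line hd y n t).differentiableAt.differentiableWithinAt)
      fun t ht => by
        rw [(hasDerivAt_line hd y n t).deriv]
        exact (h5 t (interior_subset ht)).1.le
  by_contra hneg
  push Not at hneg
  have h7 : ContinuousOn (fun s : ℝ => w' (y + s • n)) (Icc 0 τ) := fun t _ =>
    (hasDerivAt_line hd' y n t).continuousAt.continuousWithinAt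
  obtain ⟨t, ht, ht0⟩ := intermediate_value_Icc hτ1.1.le h7
    (show (0 : ℝ) ∈ Icc _ _ from ⟨by simpa using hneg, hyτ.le⟩)
  have h8 := h6 (left_mem_Icc.mpr hτ1.1.le) ht ht.1
  simp only [zero_smul, add_zero] at h8
  have h9 := (h5 t ht).2 ht0
  linarith

theorem sign_eq_of {a b : ℝ} (h1 : 0 < a → 0 < b) (h2 : 0 < b → 0 < a) (h3 : a = 0 ↔ b = 0) :
    Real.sign a = Real.sign b := by
  rcases lt_trichotomy a 0 with h | h | h
  · have : b < 0 := by
      rcases lt_trichotomy b 0 with h' | h' | h'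
      · exact h'
      · exact absurd (h3.mpr h') h.ne
      · exact absurd (h2 h') (not_lt.mpr h.le)
    rw [Real.sign_of_neg h, Real.sign_of_neg this]
  · rw [h, h3.mp h]
  · rw [Real.sign_of_pos h, Real.sign_of_pos (h1 h)]

theorem isEqn_neg {N : Set E3} {x : E3} {w : E3 → ℝ} (h : IsEqn N x w) :
    IsEqn N x fun y => -w y := by
  refine ⟨h.1.neg, fun h0 => h.2.1 ?_, h.2.2.mono fun y hy => by rw [hy, neg_eq_zero]⟩
  have h1 := norm_grad (fun y => -w y) x
  rw [h0, norm_zero, fderiv_fun_neg, norm_neg, ← norm_grad] at h1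
  exact norm_eq_zero.mp h1.symm

theorem fderiv_grad_pos {w : E3 → ℝ} {x : E3} (h : gradient w x ≠ 0) :
    0 < fderiv ℝ w x (gradient w x) := by
  rw [← inner_grad, real_inner_self_eq_norm_sq]
  exact pow_pos (norm_pos_iff.mpr h) 2

theorem sign_eq_of_pos {N : Set E3} {x : E3} {w w' : E3 → ℝ} (h : IsEqn N x w) (h' : IsEqn N x w')
    (hx : x ∈ N) (hp : 0 < fderiv ℝ w' x (gradient w x)) :
    (fun y => Real.sign (w y)) =ᶠ[𝓝 x] fun y => Real.sign (w' y) := by
  have hz : ∀ᶠ y in 𝓝 x, w y = 0 ↔ w' y = 0 :=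
    (h.2.2.and h'.2.2).mono fun y hy => hy.1.symm.trans hy.2
  have h1 := pos_of_pos h.1 h'.1 (h'.zero hx) (fderiv_grad_pos h.2.1) hp
    (hz.mono fun y hy => hy.mpr)
  have h2 := pos_of_pos h'.1 h.1 (h.zero hx) hp (fderiv_grad_pos h.2.1) (hz.mono fun y hy => hy.mp)
  filter_upwards [h1, h2, hz] with y a1 a2 a3 using sign_eq_of a1 a2 a3

/-- two local equations have the same sign, up to a common sign -/
theorem pm_of_isEqn {N : Set E3} {x : E3} {w w' : E3 → ℝ} (h : IsEqn N x w) (h' : IsEqn N x w')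
    (hx : x ∈ N) : PM (fun y => Real.sign (w y)) (fun y => Real.sign (w' y)) x := by
  have hne : fderiv ℝ w' x (gradient w x) ≠ 0 := by
    obtain ⟨ε, hε, h1, -⟩ := h.sign h' hx
    have h2 : ε ≠ 0 := by rcases hε with h | h <;> simp [h]
    rw [← inner_grad, grad_eq_smul_nuw h'.2.1, h1, real_inner_smul_left, real_inner_smul_left,
      real_inner_comm, inner_grad_nuw h.2.1]
    exact mul_ne_zero (norm_ne_zero_iff.mpr h'.2.1) (mul_ne_zero h2 (norm_ne_zero_iff.mpr h.2.1))
  rcases lt_or_gt_of_ne hne with hp | hp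
  · right
    have := sign_eq_of_pos h (isEqn_neg h') hx (by
      rw [fderiv_fun_neg, _root_.neg_apply]; linarith)
    simpa only [Real.sign_neg] using this
  · exact Or.inl (sign_eq_of_pos h h' hx hp)

theorem pm_one {w : E3 → ℝ} (hw : Continuous w) {x : E3} (h : w x ≠ 0) :
    PM (fun y => Real.sign (w y)) (fun _ => Real.sign 1) x := by
  rcases lt_or_gt_of_ne h with hp | hp
  · right
    filter_upwards [hw.continuousAt.eventually (gt_mem_nhds hp)] with y hy
    rw [Real.sign_of_neg hy, Real.sign_one]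
  · left
    filter_upwards [hw.continuousAt.eventually (lt_mem_nhds hp)] with y hy
    rw [Real.sign_of_pos hy, Real.sign_one]

/-- a side function together with adapted local equations -/
theorem exists_side {N : Set E3} (hN : IsSurf N) :
    ∃ (s : E3 → ℝ) (u : E3 → E3 → ℝ), ∀ a, ContDiff ℝ ∞ (u a) ∧
      ∀ᶠ y in 𝓝 a, s y = Real.sign (u a y) ∧ (y ∈ N ↔ u a y = 0) ∧
        (y ∈ N → gradient (u a) y ≠ 0) := by
  classical
  let v : E3 → E3 → ℝ := fun a => if a ∈ N then eqn N a else fun _ => 1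
  have hv1 : ∀ a ∈ N, v a = eqn N a := fun a ha => if_pos ha
  have hv2 : ∀ a ∉ N, v a = fun _ => 1 := fun a ha => if_neg ha
  have hout : ∀ a ∉ N, ∀ᶠ b in 𝓝 a, b ∉ N := fun a ha => hN.1.isOpen_compl.mem_nhds ha
  obtain ⟨s, hs⟩ := exists_glue (fun a y => Real.sign (v a y)) (fun a => by
      by_cases ha : a ∈ N
      · filter_upwards [(hN.isEqn ha).eventually] with b hb
        by_cases hbN : b ∈ N
        · rw [hv1 a ha, hv1 b hbN]
          exact pm_of_isEqn hb (hN.isEqn hbN) hbN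
        · rw [hv1 a ha, hv2 b hbN]
          exact pm_one hb.1.continuous fun h => hbN (hb.2.2.self_of_nhds.mpr h)
      · filter_upwards [hout a ha] with b hb
        rw [hv2 a ha, hv2 b hb]
        exact PM.refl _ _)
    (fun a h0 => by
      by_cases ha : a ∈ N
      · rw [hv1 a ha] at h0
        have h1 : eqn N a =ᶠ[𝓝 a] fun _ => 0 := h0.mono fun y hy => Real.sign_eq_zero_iff.mp hy
        refine (hN.isEqn ha).2.1 (norm_eq_zero.mp ?_)
        rw [norm_grad, h1.fderiv_eq]
        simp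
      · have := h0.self_of_nhds
        rw [hv2 a ha] at this
        simp at this)
  have key : ∀ a, ∃ u : E3 → ℝ, ContDiff ℝ ∞ u ∧
      ∀ᶠ y in 𝓝 a, s y = Real.sign (u y) ∧ (y ∈ N ↔ u y = 0) ∧ (y ∈ N → gradient u y ≠ 0) := by
    intro a
    by_cases ha : a ∈ N
    · have h1 := hs a
      rw [hv1 a ha] at h1
      rcases h1 with h1 | h1
      · refine ⟨_, (hN.isEqn ha).1, ?_⟩
        filter_upwards [h1, (hN.isEqn ha).eventually] with y a1 a2
        exact ⟨a1, a2.2.2.self_of_nhds, fun _ => a2.2.1⟩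
      · refine ⟨_, (isEqn_neg (hN.isEqn ha)).1, ?_⟩
        filter_upwards [h1, (isEqn_neg (hN.isEqn ha)).eventually] with y a1 a2
        exact ⟨by rw [a1, Real.sign_neg], a2.2.2.self_of_nhds, fun _ => a2.2.1⟩
    · have h1 := hs a
      rw [hv2 a ha] at h1
      rcases h1 with h1 | h1
      · refine ⟨fun _ => 1, contDiff_const, ?_⟩
        filter_upwards [h1, hout a ha] with y a1 a2
        exact ⟨a1, by simp [a2], fun h => absurd h a2⟩
      · refine ⟨fun _ => -1, contDiff_const, ?_⟩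
        filter_upwards [h1, hout a ha] with y a1 a2
        exact ⟨by rw [a1, Real.sign_neg], by simp [a2], fun h => absurd h a2⟩
  choose u hu using key
  exact ⟨s, u, hu⟩

theorem orient (N : Set E3) (hN : IsSurf N) :
    ∃ w : E3 → ℝ, ContDiff ℝ ∞ w ∧ (∀ x, x ∈ N ↔ w x = 0) ∧ ∀ x ∈ N, gradient w x ≠ 0 := by
  obtain ⟨s, u, hu⟩ := exists_side hN
  choose U hU hUo hUa using fun a => _root_.eventually_nhds_iff.mp (hu a).2
  obtain ⟨f, hf⟩ := SmoothPartitionOfUnity.exists_isSubordinate 𝓘(ℝ, E3) isClosed_univ U hUo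
    fun a _ => mem_iUnion.mpr ⟨a, hUa a⟩
  have hfU : ∀ a y, f a y ≠ 0 → y ∈ U a := fun a y h => hf a (subset_tsupport _ h)
  have hw : ContDiff ℝ ∞ fun y => ∑ᶠ a, f a y • u a y :=
    (f.contMDiff_finsum_smul fun a y _ => (hu a).1.contMDiff.contMDiffAt).contDiff
  have hfin : ∀ (y : E3) (c : ℝ), (Function.support fun a => c * (f a y • u a y)).Finite :=
    fun y c => (f.locallyFinite.point_finite y).subset fun a ha h => ha (by simp [h])
  have hge : ∀ a y, s y * (f a y • u a y) ≤ s y * ∑ᶠ a, f a y • u a y := by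
    intro a y
    rw [mul_finsum' _ _ (by simpa only [one_mul, Function.HasFiniteSupport] using hfin y 1)]
    refine single_le_finsum a (hfin y _) fun j => ?_
    by_cases h : f j y = 0
    · simp [h]
    · rw [(hU j y (hfU j y h)).1, smul_eq_mul, mul_left_comm]
      exact mul_nonneg (f.nonneg j y) (Real.sign_mul_nonneg _)
  have hzero : ∀ x ∈ N, ∑ᶠ a, f a x • u a x = 0 := by
    intro x hx
    refine finsum_eq_zero_of_forall_eq_zero fun a => ?_
    by_cases h : f a x = 0
    · simp [h]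
    · rw [(hU a x (hfU a x h)).2.1.mp hx, smul_zero]
  refine ⟨_, hw, fun x => ⟨hzero x, fun h0 => ?_⟩, fun x hx h0 => ?_⟩
  · obtain ⟨a, ha⟩ := f.exists_pos_of_mem (mem_univ x)
    have h1 := hU a x (hfU a x ha.ne')
    by_contra hx
    have h2 := Real.sign_mul_pos_of_ne_zero _ fun h => hx (h1.2.1.mpr h)
    have h3 := hge a x
    rw [h0, mul_zero, h1.1, smul_eq_mul, mul_left_comm] at h3
    exact absurd (mul_pos ha h2) (not_lt.mpr h3)
  · obtain ⟨a, ha⟩ := f.exists_pos_of_mem (mem_univ x)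
    have hxU := hfU a x ha.ne'
    have h1 := hU a x hxU
    have hp := fderiv_grad_pos (h1.2.2 hx)
    have hu0 : u a x = 0 := h1.2.1.mp hx
    set n := gradient (u a) x with hn
    have hdu := hasDerivAt_line ((hu a).1.differentiable (by simp)) x n 0
    have hdf := hasDerivAt_line ((f a).contMDiff.contDiff.differentiable (by simp)) x n 0
    have hdw := hasDerivAt_line (hw.differentiable (by simp)) x n 0
    simp only [zero_smul, add_zero] at hdu hdf hdw
    rw [← inner_grad _ x n, h0, inner_zero_left] at hdw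
    have h2 := pos_of_deriv_pos hdu hp (by simpa using hu0)
    have h3 := pos_of_deriv_pos ((hdf.mul hdu).sub hdw)
      (by simp only [zero_smul, add_zero, hu0, mul_zero, zero_add, sub_zero]; positivity)
      (by simp [hu0, hzero x hx, -smul_eq_mul])
    have h4 : ∀ᶠ t in 𝓝[>] (0 : ℝ), x + t • n ∈ U a := by
      have : Continuous fun t : ℝ => x + t • n := by fun_prop
      exact (this.continuousAt.eventually ((hUo a).mem_nhds (by simpa using hxU))).filter_mono
        nhdsWithin_le_nhds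
    obtain ⟨t, ⟨a1, a2⟩, a3⟩ := ((h2.and h3).and h4).exists
    have h5 := hge a (x + t • n)
    rw [(hU a _ a3).1, Real.sign_of_pos a1, one_mul, one_mul, smul_eq_mul] at h5
    simp only [Pi.sub_apply, Pi.mul_apply] at a2
    linarith

end Vale.Agent.P218F.Ends.Or

namespace Vale.Agent.P218F.Ends

theorem orient_proof : OrientStmt := Or.orient

end Vale.Agent.P218F.Ends
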