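import Vale.Agent.P218F.FtParam
import Vale.Agent.P218F.DynSpec
import Vale.Agent.P218F.EndsSpec
import Vale.Agent.P218F.CoreSpec

/-!
# Block FT: from the real solutions of the reduction to the family of surfaces

`x ∈ P` is the real parameter, `ε x = 1 / R(x)` (`ε x = 0` means `R = ∞`). The surface is
`PP (β x) p + w x p • WW (β x) p` over the core, `Q x j (cylPt z θ (e x j (z, θ)))` on the
cylindrical ends (`z₁ < z`, `ε x * z < 1`) and `conePt y θ (g x i (y, θ))` on the conical ends.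
-/

open MeasureTheory Set Filter Topology Metric Matrix
open scoped ContDiff RealInnerProductSpace Real

set_option maxSynthPendingDepth 3

noncomputable section

namespace Vale.Agent.P218F.Ft

open Vale.Agent.P218FT hiding P2
open Vale.Agent.P218F.Core Vale.Agent.P218F.Ends
open Vale.Agent.P218.H313 (rho grad)

/-- the polar graph of `e` about the axis `c` -/
def cylY (a b c : E3) (e : P2 → ℝ) (v : P2) : E3 := cylPt a b c v.1 v.2 (e v)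

/-- the radial direction -/
def cylV (a b : E3) (v : P2) : E3 := Real.cos v.2 • a + Real.sin v.2 • b

/-- the graph of `g` over the cone -/
def coneY (γ n : ℝ → E3) (g : P2 → ℝ) (v : P2) : E3 := conePt γ n v.1 v.2 (g v)

/-- the shrinker equation of the real surface `Y`, `W` being transversal -/
def ShrR (Y W : P2 → E3) (v : P2) : Prop := Shr (fun t => cE (Y t)) (fun t => cE (W t)) v = 0

/-- the Euler-Lagrange expression of `Core.elOp` for the real surface `Y` over the chart `φ` -/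
def elR (Y : P2 → E3) (W : E3) (φ : P2 → E3) (y : P2) : ℂ :=
  (cE W ⬝ᵥ nor (jet2 (fun t => cE (Y t)) y).2.1) ^ 2 / gdet (jet2 (fun t => cE (Y t)) y).2.1 *
    (lag (jet2 (fun t => cE (Y t)) y).one / lag (jet1 (fun t => cE (φ t)) y)) *
      shr (jet2 (fun t => cE (Y t)) y) (cE W)

/-- the Gaussian area density of a real parametrised surface (`= lag (jet1 (cE ∘ Y) v)`,
`lag_jet1`) -/
def lagR (Y : P2 → E3) (v : P2) : ℝ := rho (Y v) * ‖rn (fderiv ℝ Y v)‖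

/-- `S` without the parts `z > z₁ + t`, `y > y₁ + t` of its ends -/
def core {S : Set E3} (D : EndData S) (z₁ y₁ t : ℝ) : Set E3 :=
  S \ ((⋃ j, cylY (D.a j) (D.b j) (D.c j) (D.r j) '' {v | z₁ + t < v.1}) ∪
    ⋃ i, coneY (D.γ i) (D.n i) (D.ψ i) '' {v | y₁ + t < v.1})

section family

variable {P : Type} [NormedAddCommGroup P] [NormedSpace ℝ P] {ι : Type} [Fintype ι]
  {B : Type} [NormedAddCommGroup B] [NormedSpace ℝ B]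

/-- the data of the family -/
structure FamData {S : Set E3} (D : EndData S) (P ι B : Type) [AddCommGroup P] [Module ℝ P] where
  /-- heights of the trace circles -/
  z₁ : ℝ
  y₁ : ℝ
  /-- transversal field, base point map and direction map -/
  V : E3 → E3
  PP : B → E3 → E3
  WW : B → E3 → E3
  β : P → B
  /-- the solution on the core and its derivative at `x = 0` -/
  w : P → E3 → ℝ
  w' : P →ₗ[ℝ] (E3 → ℝ)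
  /-- the ends -/
  ε : P → ℝ
  Q : P → Fin D.m → E3 →L[ℝ] E3
  e : P → Fin D.m → P2 → ℝ
  g : P → Fin D.k → P2 → ℝ
  /-- sources and multipliers -/
  χ : ι → E3 → ℝ
  kap : P → ι → ℝ
  /-- the Gaussian area density of the surface over the core, with respect to `area S` -/
  den : P → E3 → ℝ

variable {S : Set E3} {D : EndData S}

/-- the surface over the core -/
def FamData.Φ (d : FamData D P ι B) (x : P) (p : E3) : E3 :=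
  d.PP (d.β x) p + d.w x p • d.WW (d.β x) p

/-- the Gaussian area of the surface, up to the height `1 / ε x` on the cylindrical ends -/
def FamData.act (d : FamData D P ι B) (x : P) : ℝ :=
  (∫ p in core D d.z₁ d.y₁ 0, d.den x p ∂(area S)) +
    (∑ j, ∫ v in {z | d.z₁ < z ∧ d.ε x * z < 1} ×ˢ Ioc 0 (2 * π),
      lagR (cylY (D.a j) (D.b j) (D.c j) (d.e x j)) v) +
    ∑ i, ∫ v in Ioi d.y₁ ×ˢ Ioc 0 (2 * π), lagR (coneY (D.γ i) (D.n i) (d.g x i)) v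

/-- **What the reduction delivers**, for real parameters near `0` (including `x = 0`, where the
fields force the data to be those of `S`). -/
structure Fam (V₀ : E3 → ℝ) (d : FamData D P ι B) (η₀ R₁ L : ℝ) (M : ℕ) (β : ℝ) : Prop where
  big : D.R₀ + 1 ≤ d.z₁ ∧ Real.log D.R₀ + 1 ≤ d.y₁ ∧ R₁ + 1 ≤ d.z₁ ∧ R₁ + 1 ≤ Real.exp d.y₁
  smooth : ∃ δ > 0, ContDiffOn ℝ ∞ (fun q : B × E3 => (d.PP q.1 q.2, d.WW q.1 q.2))
    (ball 0 δ ×ˢ univ)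
  base : ∀ p, d.PP 0 p = p ∧ d.WW 0 p = d.V p
  β0 : Tendsto d.β (𝓝 0) (𝓝 0)
  trans : ∀ p ∈ core D d.z₁ d.y₁ (5 / 2), ⟪d.V p, nu S p⟫ ≠ 0
  normal : ∀ᶠ x in 𝓝 (0 : P), ∀ p ∈ S, ‖p‖ ≤ R₁ + 1 →
    d.PP (d.β x) p = p ∧ d.WW (d.β x) p = grad V₀ p
  wc : ∀ φ y, Par S φ y → φ y ∈ core D d.z₁ d.y₁ (5 / 2) → ∃ ρ > 0, ∀ η > 0, ∀ᶠ x in 𝓝 (0 : P),
    ∀ v ∈ ball y ρ, ContDiffAt ℝ 2 (fun t => d.w x (φ t)) v ∧
      ‖jet2 (fun t => d.w x (φ t)) v‖ ≤ η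
  eq : ∀ᶠ x in 𝓝 (0 : P), ∀ φ y, Par S φ y → φ y ∈ core D d.z₁ d.y₁ (5 / 2) →
    elR (fun t => d.Φ x (φ t)) (d.WW (d.β x) (φ y)) φ y = -((∑ i, d.kap x i * d.χ i (φ y) : ℝ) : ℂ)
  chi : ∀ i, ContDiff ℝ ∞ (d.χ i) ∧ tsupport (d.χ i) ⊆ ball 0 (R₁ - 1)
  kap0 : Tendsto d.kap (𝓝 0) (𝓝 0)
  ε0 : Tendsto d.ε (𝓝 0) (𝓝 0)
  εle : ∀ᶠ x in 𝓝 (0 : P), 0 ≤ d.ε x ∧ d.ε x ^ M ≤ L * ‖d.kap x‖
  iso : ∀ᶠ x in 𝓝 (0 : P), ∀ j v, ‖d.Q x j v‖ = ‖v‖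
  Q0 : ∀ j, Tendsto (fun x => d.Q x j) (𝓝 0) (𝓝 (ContinuousLinearMap.id ℝ E3))
  cyl : ∀ᶠ x in 𝓝 (0 : P), ∀ j, (∀ v : P2, d.e x j (v.1, v.2 + 2 * π) = d.e x j v) ∧
    ∀ v : P2, d.z₁ < v.1 → d.ε x * v.1 < 1 → ContDiffAt ℝ 2 (d.e x j) v ∧
      ‖jet2 (fun t => d.e x j t - √2) v‖ ≤ 1 / 10 ∧ |v.1 * fderiv ℝ (d.e x j) v (1, 0)| ≤ 1 ∧
      ShrR (cylY (D.a j) (D.b j) (D.c j) (d.e x j)) (cylV (D.a j) (D.b j)) v
  cyl0 : ∀ Z η : ℝ, 0 < η → ∀ᶠ x in 𝓝 (0 : P), ∀ j (v : P2), d.z₁ < v.1 → v.1 ≤ Z →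
    |d.e x j v - D.r j v| ≤ η
  cylGlue : ∀ᶠ x in 𝓝 (0 : P), ∀ j (v : P2), v.1 ∈ Ioo d.z₁ (d.z₁ + 3) →
    d.Φ x (cylY (D.a j) (D.b j) (D.c j) (D.r j) v) =
      d.Q x j (cylY (D.a j) (D.b j) (D.c j) (d.e x j) v)
  cone : ∀ᶠ x in 𝓝 (0 : P), ∀ i, (∀ v : P2, d.g x i (v.1, v.2 + 2 * π) = d.g x i v) ∧
    ∀ v : P2, d.y₁ < v.1 → ContDiffAt ℝ 2 (d.g x i) v ∧ ‖jet2 (d.g x i) v‖ ≤ η₀ ∧
      ShrR (coneY (D.γ i) (D.n i) (d.g x i)) (fun t => D.n i t.2) v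
  cone0 : ∀ Z η : ℝ, 0 < η → ∀ᶠ x in 𝓝 (0 : P), ∀ i (v : P2), d.y₁ < v.1 → v.1 ≤ Z →
    |d.g x i v - D.ψ i v| ≤ η
  coneGlue : ∀ᶠ x in 𝓝 (0 : P), ∀ i (v : P2), v.1 ∈ Ioo d.y₁ (d.y₁ + 3) →
    d.Φ x (coneY (D.γ i) (D.n i) (D.ψ i) v) = coneY (D.γ i) (D.n i) (d.g x i) v
  ucont' : ∀ b, ContinuousOn (d.w' b) (S ∩ closedBall 0 (R₁ + 1))
  ustrict : ∀ ε : ℝ, 0 < ε → ∀ᶠ p : P × P in 𝓝 (0, 0), ∀ y ∈ S, ‖y‖ ≤ R₁ + 1 →
    |d.w p.1 y - d.w p.2 y - d.w' (p.1 - p.2) y| ≤ ε * ‖p.1 - p.2‖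
  onto : Function.Surjective fun (b : P) (i : ι) => ∫ y, d.w' b y * d.χ i y * rho y ∂(area S)
  den : ∀ᶠ x in 𝓝 (0 : P), IntegrableOn (d.den x) (core D d.z₁ d.y₁ 0) (area S) ∧
    ∀ p ∈ core D d.z₁ d.y₁ 0, ∃ φ y, Par S φ y ∧ φ y = p ∧
      d.den x p * ‖rn (fderiv ℝ φ y)‖ = lagR (fun t => d.Φ x (φ t)) y
  beta : 1 < β
  loj : ∀ᶠ x in 𝓝 (0 : P), d.act x - ∫ p, rho p ∂(area S) ≤ L * ‖d.kap x‖ ^ β

end family

/-- **FT**: the constants `r C K` depend only on `S` and on its ends -/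
def FtStmt : Prop :=
  ∀ (S : Set E3) (D : EndData S), IsShr S → ∃ η₀ r C K : ℝ, 0 < η₀ ∧ 0 < r ∧
    ∀ (V₀ : E3 → ℝ) (c₀ K₀ : ℝ), Dyn.Tube0 V₀ c₀ K₀ → Dyn.zs V₀ = S →
    ∀ (P : Type) [NormedAddCommGroup P] [NormedSpace ℝ P] (ι : Type) [Fintype ι] (B : Type)
      [NormedAddCommGroup B] [NormedSpace ℝ B] [FiniteDimensional ℝ B] (d : FamData D P ι B)
      (R₁ L : ℝ) (M : ℕ) (β : ℝ), Fam V₀ d η₀ R₁ L M β →
      ∃ (Sx : P → Set E3) (L' : ℝ) (q : ℕ), Dyn.Geo S V₀ Sx d.w d.w' d.χ d.kap r C K L' R₁ q β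

/-! ### Regularity -/

/-- regularity in a chart: `Y = A + w B` -/
def RegCoreStmt : Prop :=
  ∀ ρ Λ c : ℝ, 0 < ρ → 0 < c → ∃ L : ℝ, ∀ (A B : P2 → E3) (f w : P2 → ℝ) (u : P2),
    (∀ v ∈ ball u ρ, ContDiffAt ℝ ∞ A v ∧ ContDiffAt ℝ ∞ B v ∧ ContDiffAt ℝ ∞ f v ∧
      ContDiffAt ℝ 2 w v ∧ (∀ k ≤ 5, ‖iteratedFDeriv ℝ k A v‖ ≤ Λ ∧ ‖iteratedFDeriv ℝ k B v‖ ≤ Λ ∧
        ‖iteratedFDeriv ℝ k f v‖ ≤ Λ) ∧ ‖jet2 w v‖ ≤ Λ ∧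
      c ≤ |⟪B v, rn (fderiv ℝ (fun t => A t + w t • B t) v)⟫| ∧
      ((⟪B v, rn (fderiv ℝ (fun t => A t + w t • B t) v)⟫ ^ 2 /
          ‖rn (fderiv ℝ (fun t => A t + w t • B t) v)‖ ^ 2 * lagR (fun t => A t + w t • B t) v : ℝ) :
          ℂ) * Shr (fun t => cE (A t + w t • B t)) (fun t => cE (B t)) v = f v) →
    ContDiffAt ℝ ∞ w u ∧ ‖iteratedFDeriv ℝ 3 w u‖ ≤ L

/-- regularity on cylindrical ends -/
def RegCylStmt : Prop :=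
  ∃ (L : ℝ) (q : ℕ), ∀ (a b c : E3) (e : P2 → ℝ) (u : P2), Triple a b c → 1 ≤ u.1 →
    (∀ v ∈ ball u (1 / 2), ContDiffAt ℝ 2 e v ∧ ‖jet2 (fun t => e t - √2) v‖ ≤ 1 / 10 ∧
      ShrR (cylY a b c e) (cylV a b) v) →
    ContDiffAt ℝ ∞ e u ∧ ‖iteratedFDeriv ℝ 3 e u‖ ≤ L * u.1 ^ q

/-- regularity on conical ends -/
def RegConeStmt : Prop :=
  ∀ (γ n : ℝ → E3) (l δ : ℝ), SphCurve γ n l δ → ∃ (η₀ L : ℝ) (q : ℕ), 0 < η₀ ∧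
    ∀ (g : P2 → ℝ) (u : P2), 0 ≤ u.1 →
      (∀ v ∈ ball u (1 / 2), ContDiffAt ℝ 2 g v ∧ ‖jet2 g v‖ ≤ η₀ ∧
        ShrR (coneY γ n g) (fun t => n t.2) v) →
      ContDiffAt ℝ ∞ g u ∧ ‖iteratedFDeriv ℝ 3 g u‖ ≤ L * Real.exp u.1 ^ q

end Vale.Agent.P218F.Ft
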