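import Vale.Agent.P218F.Reg3
import Vale.Agent.P218F.FtSpec

/-!
# Regularity in charts, on cylindrical ends and on conical ends
-/

set_option maxSynthPendingDepth 5
set_option linter.unusedSectionVars false

open Set Metric Filter Topology Matrix
open scoped ContDiff RealInnerProductSpace Real
open Vale.Agent.P218F.Core Vale.Agent.P218F.Ft Vale.Agent.P218F.Ends
open Vale.Agent.P218FT (E3 Triple)
open Vale.Agent.P218.H313 (rho)

noncomputable section

namespace Vale.Agent.P218F.Reg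

lemma two_le : ((2 : ℕ∞) : WithTop ℕ∞) ≤ ∞ := by exact_mod_cast le_top

theorem reg_core : RegCoreStmt := by
  intro ρ Λ c hρ hc
  obtain ⟨L, hL⟩ := master ρ Λ c hρ hc
  refine ⟨L, fun A B f w u H => ?_⟩
  have := hL 1 (1 / 2) 0 A B f w u le_rfl (by rw [abs_of_pos] <;> norm_num) (by simp) fun v hv => by
    obtain ⟨hA, hB, hf, hw, hb, hw2, htr, heq⟩ := H v hv
    refine ⟨⟨hA, fun k hk => (hb k (by omega)).1⟩, ⟨hB, fun k hk => (hb k (by omega)).2.1⟩,
      ⟨hf, fun k hk => (hb k (by omega)).2.2⟩, hw, hw2, htr, ?_⟩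
    rw [shr_real (Y := fun t => A t + w t • B t)
      ((hA.of_le two_le).add (hw.smul (hB.of_le two_le))), ← Complex.ofReal_mul,
      Complex.ofReal_inj, lagR, rho] at heq
    have h : ⟪B v, rn (fderiv ℝ (fun t => A t + w t • B t) v)⟫ ≠ 0 := abs_pos.1 (hc.trans_le htr)
    have h0 : ‖rn (fderiv ℝ (fun t => A t + w t • B t) v)‖ ≠ 0 :=
      norm_ne_zero_iff.2 fun h0 => h (by rw [h0, inner_zero_right])
    rw [← heq, add_zero, real_inner_smul_left, neg_div, Real.exp_neg]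
    have := Real.exp_ne_zero (‖A v + w v • B v‖ ^ 2 / 4)
    field_simp
  rwa [mul_one] at this

/-! ### Vector algebra -/

lemma inner3 (x y : E3) : ⟪x, y⟫ = x 0 * y 0 + x 1 * y 1 + x 2 * y 2 := by
  simp [Fin.sum_univ_three, PiLp.inner_apply]; ring

lemma crs0 (x y : E3) : crs x y 0 = x 1 * y 2 - x 2 * y 1 := by simp [crs, cross_apply]
lemma crs1 (x y : E3) : crs x y 1 = x 2 * y 0 - x 0 * y 2 := by simp [crs, cross_apply]
lemma crs2 (x y : E3) : crs x y 2 = x 0 * y 1 - x 1 * y 0 := by simp [crs, cross_apply]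

lemma abs_det {x y z : E3} (h : Triple x y z) : |⟪z, crs x y⟫| = 1 := by
  have e : ⟪z, crs x y⟫ ^ 2 = ⟪x, x⟫ * ⟪y, y⟫ * ⟪z, z⟫ + 2 * ⟪x, y⟫ * ⟪x, z⟫ * ⟪y, z⟫ -
      ⟪x, x⟫ * ⟪y, z⟫ ^ 2 - ⟪y, y⟫ * ⟪x, z⟫ ^ 2 - ⟪z, z⟫ * ⟪x, y⟫ ^ 2 := by
    simp only [inner3, crs0, crs1, crs2]; ring
  rw [real_inner_self_eq_norm_sq, real_inner_self_eq_norm_sq, real_inner_self_eq_norm_sq, h.na,
    h.nb, h.nc, h.ab, h.ac, h.bc] at e
  rw [← sq_eq_sq₀ (abs_nonneg _) zero_le_one, sq_abs, e]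
  norm_num

lemma norm_crs_le (x y : E3) : ‖crs x y‖ ≤ ‖x‖ * ‖y‖ := by
  have e : ⟪crs x y, crs x y⟫ = ⟪x, x⟫ * ⟪y, y⟫ - ⟪x, y⟫ ^ 2 := by
    simp only [inner3, crs0, crs1, crs2]; ring
  simp only [real_inner_self_eq_norm_sq] at e
  rw [← sq_le_sq₀ (norm_nonneg _) (by positivity), e, mul_pow]
  exact sub_le_self _ (sq_nonneg _)

lemma tr_eq {A B : P2 → E3} {w : P2 → ℝ} {v : P2} {A' B' : P2 →L[ℝ] E3} (hA : HasFDerivAt A A' v)
    (hB : HasFDerivAt B B' v) (hw : ContDiffAt ℝ 2 w v) :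
    ⟪B v, rn (fderiv ℝ (fun t => A t + w t • B t) v)⟫ =
      ⟪B v, crs (A' (1, 0) + w v • B' (1, 0)) (A' (0, 1) + w v • B' (0, 1))⟫ := by
  rw [show fderiv ℝ (fun t => A t + w t • B t) v = _ from
    (hA.add ((ev_diff hw).self_of_nhds.hasFDerivAt.smul hB)).fderiv]
  simp only [rn, inner3, crs0, crs1, crs2, _root_.add_apply, _root_.smul_apply,
    ContinuousLinearMap.smulRight_apply, PiLp.add_apply, PiLp.smul_apply, smul_eq_mul]
  ring

lemma rn_smul (s : ℝ) (D : P2 →L[ℝ] E3) : rn (s • D) = s ^ 2 • rn D := by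
  ext i
  fin_cases i <;> simp [rn, crs, cross_apply] <;> ring

lemma nm_smul {s : ℝ} (hs : s ≠ 0) {F : P2 → E3} {v : P2} (hF : ContDiffAt ℝ 2 F v) :
    nm (jet2 (fun t => s • F t) v) = s * nm (jet2 F v) := by
  have e := jet2_clm (s • ContinuousLinearMap.id ℝ E3) hF
  have e1 : (jet2 (fun t => s • F t) v).2.1 = s • (jet2 F v).2.1 := congrArg (fun q => q.2.1) e
  have e2 : ∀ a b, (jet2 (fun t => s • F t) v).2.2 a b = s • (jet2 F v).2.2 a b := fun a b =>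
    congrArg (fun q => q.2.2 a b) e
  simp only [nm, gt, e1, e2, rn_smul, _root_.smul_apply, real_inner_smul_left,
    real_inner_smul_right, norm_smul, mul_pow, Real.norm_eq_abs, sq_abs]
  field_simp

/-! ### Bounds -/

section bounds

variable {X : Type} [NormedAddCommGroup X] [NormedSpace ℝ X]

lemma strip {F : P2 → X} (hF : ContDiff ℝ ∞ F) (hp : ∀ v, F (v + (0, 2 * π)) = F v) :
    ∃ Λ : ℝ, 0 ≤ Λ ∧ ∀ (z : ℝ) (v : P2), |v.1 - z| ≤ 1 → Sm Λ (fun t => F (t - (z, 0))) v := by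
  have h1 : ∀ k : ℕ, ∃ C : ℝ, ∀ v ∈ Icc (-1 : ℝ) 1 ×ˢ Icc 0 (2 * π),
      ‖iteratedFDeriv ℝ k F v‖ ≤ C := fun k => (isCompact_Icc.prod isCompact_Icc).exists_bound_of_continuousOn
    (hF.continuous_iteratedFDeriv (by exact_mod_cast le_top)).continuousOn
  choose C hC using h1
  refine ⟨∑ k ∈ Finset.range 5, |C k|, by positivity, fun z v hv => ⟨?_, fun k hk => ?_⟩⟩
  · exact (hF.comp (contDiff_id.sub contDiff_const)).contDiffAt
  rw [iteratedFDeriv_comp_sub]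
  have hper : Function.Periodic (fun θ => iteratedFDeriv ℝ k F (v.1 - z, θ)) (2 * π) := fun θ => by
    have := iteratedFDeriv_comp_add_right (𝕜 := ℝ) (f := F) k (0, 2 * π) (v.1 - z, θ)
    simp only [hp, Prod.mk_add_mk, add_zero] at this
    exact this.symm
  obtain ⟨θ, hθ, e⟩ := hper.exists_mem_Ico₀ Real.two_pi_pos v.2
  have e' : v - (z, 0) = (v.1 - z, v.2) := by ext <;> simp
  rw [e', e]
  exact (hC k _ ⟨abs_le.1 hv, Ico_subset_Icc_self hθ⟩).trans ((le_abs_self _).trans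
    (Finset.single_le_sum (f := fun k => |C k|) (fun _ _ => abs_nonneg _)
      (Finset.mem_range.2 (by omega))))

lemma Sm.mono {F : P2 → X} {v : P2} {Λ Λ' : ℝ} (h : Sm Λ F v) (hl : Λ ≤ Λ') : Sm Λ' F v :=
  ⟨h.1, fun k hk => (h.2 k hk).trans hl⟩

lemma Sm.add {F G : P2 → X} {v : P2} {Λ Λ' : ℝ} (h : Sm Λ F v) (h' : Sm Λ' G v) :
    Sm (Λ + Λ') (fun t => F t + G t) v :=
  ⟨h.1.add h'.1, fun k hk => by
    rw [fun_iteratedFDeriv_add_apply (h.1.of_le (by exact_mod_cast le_top))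
      (h'.1.of_le (by exact_mod_cast le_top))]
    exact norm_add_le_of_le (h.2 k hk) (h'.2 k hk)⟩

lemma Sm.smul {φ : P2 → ℝ} {v : P2} {Λ : ℝ} (h : Sm Λ φ v) {a : X} (ha : ‖a‖ = 1) :
    Sm Λ (fun t => φ t • a) v :=
  ⟨h.1.smul contDiffAt_const, fun k hk => by
    have := ((ContinuousLinearMap.id ℝ ℝ).smulRight a).norm_iteratedFDeriv_comp_left h.1 (n := k)
      (by exact_mod_cast le_top)
    rw [ContinuousLinearMap.norm_smulRight_apply, ha, ContinuousLinearMap.norm_id, mul_one,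
      one_mul] at this
    exact this.trans (h.2 k hk)⟩

lemma sm_zero {Λ : ℝ} (h : 0 ≤ Λ) (v : P2) : Sm Λ (fun _ => (0 : X)) v :=
  ⟨contDiffAt_const, fun k _ => by simpa using h⟩

lemma near {u v : P2} (hv : v ∈ ball u (1 / 2)) : |v.1 - u.1| ≤ 1 / 2 :=
  (norm_fst_le (v - u)).trans (mem_ball_iff_norm.1 hv).le

end bounds

theorem reg_cyl : RegCylStmt := by
  obtain ⟨Λ₁, p1, b1⟩ := strip (F := fun v : P2 => v.1) contDiff_fst fun v => by simp
  obtain ⟨Λ₂, p2, b2⟩ := strip (F := fun v : P2 => Real.cos v.2) (by fun_prop) fun v => by simp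
  obtain ⟨Λ₃, p3, b3⟩ := strip (F := fun v : P2 => Real.sin v.2) (by fun_prop) fun v => by simp
  obtain ⟨L, hL⟩ := master (1 / 2) (Λ₁ + Λ₂ + Λ₃ + 2) 1 (by norm_num) one_pos
  refine ⟨L, 1, fun a b c e u ht hu H => ?_⟩
  have hu0 : 0 < u.1 := by linarith
  rw [pow_one]
  refine hL u.1 (2 * u.1)⁻¹ ((1 / 2 : ℝ) • c) (fun t => (t.1 - u.1) • c) (cylV a b) (fun _ => 0) e u
    hu (by rw [abs_of_pos (by positivity)]; exact inv_le_one_of_one_le₀ (by linarith))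
    (by rw [norm_smul, ht.nc]; norm_num) fun v hv => ?_
  obtain ⟨he, hb, heq⟩ := H v hv
  have hv1 : |v.1 - u.1| ≤ 1 := (near hv).trans (by norm_num)
  have hA : Sm Λ₁ (fun t : P2 => (t.1 - u.1) • c) v := (b1 u.1 v hv1).smul ht.nc
  have hB : Sm (Λ₂ + Λ₃) (cylV a b) v := by
    have := ((b2 u.1 v hv1).smul ht.na).add ((b3 u.1 v hv1).smul ht.nb)
    simp only [Prod.snd_sub, sub_zero] at this
    exact this
  have s2 : √2 ≤ 3 / 2 := Real.sqrt_le_iff.2 (by norm_num)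
  have s2' : 7 / 5 ≤ √2 := Real.le_sqrt_of_sq_le (by norm_num)
  obtain ⟨e0, e1, e2⟩ := jet2_le.1 hb
  have f1 : fderiv ℝ (fun t => e t - √2) = fderiv ℝ e := funext fun _ => fderiv_sub_const _
  rw [f1] at e1 e2
  rw [Real.norm_eq_abs, abs_le] at e0
  have dA : HasFDerivAt (fun t : P2 => (t.1 - u.1) • c) _ v :=
    ((hasFDerivAt_fst (𝕜 := ℝ)).sub_const u.1).smul_const c
  have dB : HasFDerivAt (cylV a b) _ v :=
    (((Real.hasDerivAt_cos v.2).comp_hasFDerivAt v (hasFDerivAt_snd (𝕜 := ℝ))).smul_const a).add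
      (((Real.hasDerivAt_sin v.2).comp_hasFDerivAt v (hasFDerivAt_snd (𝕜 := ℝ))).smul_const b)
  have ba : ⟪b, a⟫ = 0 := by rw [real_inner_comm]; exact ht.ab
  have ca : ⟪c, a⟫ = 0 := by rw [real_inner_comm]; exact ht.ac
  have cb : ⟪c, b⟫ = 0 := by rw [real_inner_comm]; exact ht.bc
  have aa : ⟪a, a⟫ = 1 := by rw [real_inner_self_eq_norm_sq, ht.na, one_pow]
  have bb : ⟪b, b⟫ = 1 := by rw [real_inner_self_eq_norm_sq, ht.nb, one_pow]
  have nrm : ∀ s r : ℝ, s ^ 2 + r ^ 2 = 1 → ‖s • a + r • b‖ = 1 := fun s r h => by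
    rw [← sq_eq_sq₀ (norm_nonneg _) zero_le_one, ← real_inner_self_eq_norm_sq]
    simp only [inner_add_left, inner_add_right, real_inner_smul_left, real_inner_smul_right, aa, bb,
      ba, ht.ab]
    linear_combination h
  have T : Triple c (-Real.sin v.2 • a + Real.cos v.2 • b) (cylV a b v) := by
    refine ⟨ht.nc, nrm _ _ (by simp), nrm _ _ (by simp), ?_, ?_, ?_⟩ <;>
    simp only [cylV, inner_add_left, inner_add_right, real_inner_smul_left, real_inner_smul_right,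
      aa, bb, ba, ht.ab, ca, cb] <;> ring
  have htr : 1 ≤ |⟪cylV a b v, rn (fderiv ℝ (fun t => (t.1 - u.1) • c + e t • cylV a b t) v)⟫| := by
    have : ⟪cylV a b v, rn (fderiv ℝ (fun t => (t.1 - u.1) • c + e t • cylV a b t) v)⟫ =
        e v * ⟪cylV a b v, crs c (-Real.sin v.2 • a + Real.cos v.2 • b)⟫ := by
      rw [tr_eq dA dB he]
      simp [inner3, crs0, crs1, crs2]
      ring
    rw [this, abs_mul, abs_det T, mul_one]
    exact le_abs.2 (Or.inl (by linarith [e0.1]))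
  refine ⟨hA.mono (by linarith), hB.mono (by linarith), sm_zero (by linarith) v, he,
    jet2_le.2 ⟨abs_le.2 ⟨by linarith [e0.1], by linarith [e0.2]⟩, by linarith, by linarith⟩, htr, ?_⟩
  have eY : cylY a b c e = fun t => ((t.1 - u.1) • c + e t • cylV a b t) + u.1 • c := by
    funext t
    simp only [cylY, cylPt, cylV]
    module
  have hY : ContDiffAt ℝ 2 (fun t : P2 => (t.1 - u.1) • c + e t • cylV a b t) v :=
    (hA.1.of_le two_le).add (he.smul (hB.1.of_le two_le))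
  have f2 : fderiv ℝ (cylY a b c e) = fderiv ℝ fun t => (t.1 - u.1) • c + e t • cylV a b t := by
    rw [eY]; exact funext fun _ => fderiv_add_const _
  have f3 : nm (jet2 (cylY a b c e) v) =
      nm (jet2 (fun t => (t.1 - u.1) • c + e t • cylV a b t) v) := by
    simp only [nm, jet2, f2]
  rw [ShrR, shr_real (eY ▸ hY.add contDiffAt_const), Complex.ofReal_eq_zero, f3, f2,
    div_eq_zero_iff, or_iff_left (abs_pos.1 (one_pos.trans_le htr)), eY] at heq
  simp only [inner_add_left, real_inner_smul_left] at heq ⊢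
  field_simp
  linear_combination 2 * heq

theorem reg_cone : RegConeStmt := by
  intro γ n l δ h
  obtain ⟨Λ₁, p1, b1⟩ := strip (F := fun v : P2 => Real.exp v.1 • γ v.2)
    (contDiff_fst.exp.smul (h.smooth.comp contDiff_snd)) fun v => by simp [h.per]
  obtain ⟨Λ₂, p2, b2⟩ := strip (F := fun v : P2 => Real.exp v.1 • n v.2)
    (contDiff_fst.exp.smul (h.smooth_n.comp contDiff_snd)) fun v => by simp [h.per_n]
  have hl := h.lpos
  obtain ⟨η, hη, hη2⟩ : ∃ η : ℝ, 0 < η ∧ η * (Λ₂ * (Λ₁ * Λ₂)) ≤ l / 16 :=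
    ⟨l / 16 / (Λ₂ * (Λ₁ * Λ₂) + 1), by positivity, by
      rw [div_mul_eq_mul_div, div_le_iff₀ (by positivity)]; gcongr; linarith⟩
  obtain ⟨L, hL⟩ := master (1 / 2) (Λ₁ + Λ₂ + η) (l / 16) (by norm_num) (by positivity)
  refine ⟨η, L, 2, hη, fun g u hu H => ?_⟩
  refine hL (Real.exp u.1 ^ 2) (1 / 2) 0 (fun t => Real.exp (t.1 - u.1) • γ t.2)
    (fun t => Real.exp (t.1 - u.1) • n t.2) (fun _ => 0) g u (one_le_pow₀ (Real.one_le_exp hu))
    (by rw [abs_of_pos] <;> norm_num) (by simp) fun v hv => ?_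
  obtain ⟨hg, hb, heq⟩ := H v hv
  have hv1 : |v.1 - u.1| ≤ 1 := (near hv).trans (by norm_num)
  have hA : Sm Λ₁ (fun t : P2 => Real.exp (t.1 - u.1) • γ t.2) v := by
    simpa only [Prod.snd_sub, sub_zero, Prod.fst_sub] using b1 u.1 v hv1
  have hB : Sm Λ₂ (fun t : P2 => Real.exp (t.1 - u.1) • n t.2) v := by
    simpa only [Prod.snd_sub, sub_zero, Prod.fst_sub] using b2 u.1 v hv1
  obtain ⟨s, hs⟩ : ∃ s, s = Real.exp (v.1 - u.1) := ⟨_, rfl⟩
  have s1 : 1 / 2 ≤ s := by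
    have := Real.add_one_le_exp (v.1 - u.1)
    linarith [(abs_le.1 (near hv)).1]
  have dE : HasFDerivAt (fun t : P2 => Real.exp (t.1 - u.1)) _ v :=
    ((hasFDerivAt_fst (𝕜 := ℝ)).sub_const u.1).exp
  have dA : HasFDerivAt (fun t : P2 => Real.exp (t.1 - u.1) • γ t.2) _ v := dE.smul
    ((h.smooth.differentiable (by simp) v.2).hasDerivAt.hasFDerivAt.comp v (hasFDerivAt_snd (𝕜 := ℝ)))
  have dB : HasFDerivAt (fun t : P2 => Real.exp (t.1 - u.1) • n t.2) _ v := dE.smul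
    ((h.smooth_n.differentiable (by simp) v.2).hasDerivAt.hasFDerivAt.comp v (hasFDerivAt_snd (𝕜 := ℝ)))
  obtain ⟨a0, -⟩ := jet2_le.1 hA.s2.1.2
  obtain ⟨c0, c1, -⟩ := jet2_le.1 hB.s2.1.2
  have c2 : ‖s • deriv n v.2‖ ≤ Λ₂ := by
    have := (fderiv ℝ (fun t : P2 => Real.exp (t.1 - u.1) • n t.2) v).le_opNorm (0, 1)
    rw [dB.fderiv] at this c1
    simp only [Prod.norm_mk, norm_zero, norm_one, zero_le_one, sup_of_le_right, mul_one] at this
    refine le_trans (le_of_eq ?_) (this.trans c1)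
    simp [hs]
  obtain ⟨Y, hY⟩ : ∃ Y : P2 → E3, Y = fun t =>
      Real.exp (t.1 - u.1) • γ t.2 + g t • Real.exp (t.1 - u.1) • n t.2 := ⟨_, rfl⟩
  have htr : l / 16 ≤ |⟪Real.exp (v.1 - u.1) • n v.2, rn (fderiv ℝ Y v)⟫| := by
    have e : ⟪Real.exp (v.1 - u.1) • n v.2, rn (fderiv ℝ Y v)⟫ =
        s ^ 3 * l * ⟪n v.2, crs (γ v.2) (l⁻¹ • deriv γ v.2)⟫ +
          g v * ⟪s • n v.2, crs (s • γ v.2) (s • deriv n v.2)⟫ := by
      rw [hY, tr_eq dA dB hg]
      simp [inner3, crs0, crs1, crs2, ← hs]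
      field_simp
      ring
    have e1 : l / 8 ≤ |s ^ 3 * l * ⟪n v.2, crs (γ v.2) (l⁻¹ • deriv γ v.2)⟫| := by
      rw [abs_mul, abs_det (h.tri v.2), mul_one, abs_of_pos (by positivity)]
      have : (1 / 2) ^ 3 ≤ s ^ 3 := by gcongr
      nlinarith
    have e2 : |g v * ⟪s • n v.2, crs (s • γ v.2) (s • deriv n v.2)⟫| ≤ η * (Λ₂ * (Λ₁ * Λ₂)) := by
      rw [abs_mul]
      rw [← hs] at a0 c0
      exact mul_le_mul (jet2_le.1 hb).1 ((abs_real_inner_le_norm _ _).trans (mul_le_mul c0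
        ((norm_crs_le _ _).trans (mul_le_mul a0 c2 (norm_nonneg _) p1)) (norm_nonneg _) p2))
        (abs_nonneg _) hη.le
    rw [e]
    linarith [abs_add_le (s ^ 3 * l * ⟪n v.2, crs (γ v.2) (l⁻¹ • deriv γ v.2)⟫ +
      g v * ⟪s • n v.2, crs (s • γ v.2) (s • deriv n v.2)⟫)
      (-(g v * ⟪s • n v.2, crs (s • γ v.2) (s • deriv n v.2)⟫)), abs_neg
      (g v * ⟪s • n v.2, crs (s • γ v.2) (s • deriv n v.2)⟫), congrArg abs (add_neg_cancel_right
      (s ^ 3 * l * ⟪n v.2, crs (γ v.2) (l⁻¹ • deriv γ v.2)⟫)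
      (g v * ⟪s • n v.2, crs (s • γ v.2) (s • deriv n v.2)⟫))]
  have hY2 : ContDiffAt ℝ 2 Y v := hY ▸ (hA.1.of_le two_le).add (hg.smul (hB.1.of_le two_le))
  have hYv : Real.exp (v.1 - u.1) • γ v.2 + g v • Real.exp (v.1 - u.1) • n v.2 = Y v := by rw [hY]
  rw [← hY, hYv]
  refine ⟨hA.mono (by linarith), hB.mono (by linarith), sm_zero (by linarith) v, hg,
    hb.trans (by linarith), htr, ?_⟩
  have eY : coneY γ n g = fun t => Real.exp u.1 • Y t := by
    funext t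
    simp only [coneY, conePt, hY, Real.exp_sub, smul_add, smul_smul]
    congr 2 <;> field_simp
  have h0 := Real.exp_ne_zero u.1
  have h1 : ⟪n v.2, rn (fderiv ℝ Y v)⟫ ≠ 0 := fun h1 => by
    rw [real_inner_smul_left, h1, mul_zero, abs_zero] at htr
    linarith
  rw [ShrR, eY, shr_real (hY2.const_smul _), Complex.ofReal_eq_zero, nm_smul h0 hY2,
    fderiv_fun_const_smul (ev_diff hY2).self_of_nhds, rn_smul, real_inner_smul_right,
    real_inner_smul_right, real_inner_smul_left, div_eq_zero_iff,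
    or_iff_left (mul_ne_zero (pow_ne_zero 2 h0) h1)] at heq
  rw [add_zero, real_inner_smul_left]
  refine mul_left_cancel₀ h0 ?_
  linear_combination heq

end Vale.Agent.P218F.Reg
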