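import Vale.Agent.P218F.FtMain
import Vale.Agent.P218F.Reg4

/-! Block FT, without hypotheses. -/

namespace Vale.Agent.P218F.Ft

theorem ft_all : FtStmt := ft_proof Reg.reg_core Reg.reg_cyl Reg.reg_cone

end Vale.Agent.P218F.Ft
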