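import Vale.Agent.P218F.InjKer1

/-!
# The kernel of the linearised problem
-/

open MeasureTheory Set Filter Topology Metric Matrix
open scoped ContDiff RealInnerProductSpace Real

set_option maxSynthPendingDepth 3
set_option linter.unusedSectionVars false

noncomputable section

namespace Vale.Agent.P218F.LS.Ker

open Vale.Agent.P218FT hiding P2
open Vale.Agent.P218F.Core Vale.Agent.P218F.Ends Vale.Agent.P218F.Mesh Vale.Agent.P218F.Inj

variable {S : Set E3} {F : Frm S}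

/-- the rotation vector of the end `j` -/
def omE (F : Frm S) (β : Tilt F.D.m ℂ) : JJ F.D → C3
  | .inl j => β j 0 • cE (F.D.a j) + β j 1 • cE (F.D.b j)
  | .inr _ => 0

open Classical in
/-- the function on `S` which is `w` on the core and `u j` on the ends -/
def UU (F : Frm S) (w : E3 → ℂ) (u : JJ F.D → P2 → ℂ) (x : E3) : ℂ :=
  if x ∈ F.C0 then w x else ∑ j, gl F.D j (F.s1 j) (fun p => (F.σ j : ℂ) * u j p) x

/-- the normal component of the variation -/
def NV (F : Frm S) (w : E3 → ℂ) (β : Tilt F.D.m ℂ) (u : JJ F.D → P2 → ℂ) (x : E3) : ℂ :=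
  ((2 : ℂ) • (F.om β x ⨯₃ cE x) + UU F w u x • cE (F.V x)) ⬝ᵥ cE (nuw F.V₀ x)

theorem om_core (h : F.OK) (β : Tilt F.D.m ℂ) {x : E3} (hx : x ∈ S)
    (h' : ∀ j (p : P2), F.z₀ + 8 ≤ p.1 → x ≠ Kd F.D (.inl j) p) : F.om β x = 0 :=
  Finset.sum_eq_zero fun j _ => by rw [h.chi_out j x hx (h' j)]; simp

theorem cd_om (h : F.OK) : ContDiff ℝ ∞ fun v : Tilt F.D.m ℂ × E3 => F.om v.1 v.2 := by
  refine ContDiff.sum fun j _ => ContDiff.smul
    (Complex.ofRealCLM.contDiff.comp ((h.chi_smooth j).comp contDiff_snd)) ?_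
  fun_prop

theorem st_lt (h : F.OK) (j : JJ F.D) : st F.D j + 3 < F.s1 j := by
  have := R0_ge F.D
  have := h.z_big
  rcases j with j | i
  · simp only [st, Frm.s1]; linarith
  · have := Real.log_lt_log (show 0 < F.D.R₀ by linarith) (show F.D.R₀ < F.z₀ + 8 by linarith)
    simp only [st, Frm.s1]; linarith [h.y_big]

theorem sq_sign (h : F.OK) (j : JJ F.D) : (F.σ j : ℂ) * F.σ j = 1 := by
  rcases h.sign j with e | e <;> simp [e]

theorem V_pos (h : F.OK) {x : E3} (hx : x ∈ S) : 0 < ⟪F.V x, nuw F.V₀ x⟫ := by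
  rw [nuw_eq h.eq0 hx]; exact h.trans x hx

theorem V_core (h : F.OK) {x : E3} (hx : x ∈ S) (h1 : ‖x‖ ≤ F.z₀ + 6) :
    ⟪F.V x, nuw F.V₀ x⟫ = 1 := by
  rw [nuw_eq h.eq0 hx, h.core x hx h1, real_inner_self_eq_norm_sq, h.eq0.unit x hx, one_pow]

/-- the linearised operator on the core -/
theorem lin_op (h : F.OK) {κ : Type} [Fintype κ] (χ : κ → E3 → ℝ) {φ : P2 → E3} {y : P2}
    (hP : Par S φ y) (a : F.Ix κ → ℂ) {U : P2 → ℂ} (hU : ContDiffAt ℝ 2 U y) {f g : E3 → ℝ}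
    (hf : ContDiffAt ℝ 2 f (φ y)) (hg : ContDiffAt ℝ 2 g (φ y))
    (e : ∀ᶠ z in 𝓝 y, ((2 : ℂ) • (F.om (F.tl a) (φ z) ⨯₃ cE (φ z)) + U z • cE (F.V (φ z))) ⬝ᵥ
      cE (nuw F.V₀ (φ z)) = (f (φ z) : ℝ) + Complex.I * (g (φ z) : ℝ)) :
    lin (F.op χ) φ y (a, jet2 U y) = (⟪F.V (φ y), nuw F.V₀ (φ y)⟫ : ℝ) *
      ((jacS S f (φ y) : ℝ) + Complex.I * (jacS S g (φ y) : ℝ)) - ∑ i, a (.inl i) * χ i (φ y) := by
  have o0 : ∀ x, F.om (F.tl (0 : F.Ix κ → ℂ)) x = 0 := fun x => by simp [Frm.om, Frm.tl]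
  have r0 : ∀ x, rot 0 x = x := fun x => by simp [rot]
  have tl : ContDiff ℝ ∞ (F.tl (κ := κ)) := by
    unfold Frm.tl
    fun_prop
  have c1 : ∀ {z}, ContDiffAt ℝ ∞ φ z →
      ContDiffAt ℝ ∞ (fun v : (F.Ix κ → ℂ) × P2 => F.om (F.tl v.1) (φ v.2)) (0, z) := fun hz =>
    (cd_om h).contDiffAt.comp _ (f := fun v : (F.Ix κ → ℂ) × P2 => (F.tl v.1, φ v.2))
      ((tl.contDiffAt.comp _ contDiffAt_fst).prodMk (hz.comp _ contDiffAt_snd))
  have c2 : ∀ {z} {Y : E3 → E3}, ContDiff ℝ ∞ Y → ContDiffAt ℝ ∞ φ z → ContDiffAt ℝ ∞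
      (fun v : (F.Ix κ → ℂ) × P2 => rot (F.om (F.tl v.1) (φ v.2)) (cE (Y (φ v.2)))) (0, z) :=
    fun hY hz => cda_rot (c1 hz) ((cE.contDiff.comp hY).contDiffAt.comp _
      (hz.comp _ contDiffAt_snd)) (by simp [o0])
  have c3 : ∀ Y : E3 → C3, ∀ᶠ q in 𝓝 ((0 : F.Ix κ → ℂ), y), OpP.HolAt
      (fun v : (F.Ix κ → ℂ) × P2 => rot (F.om (F.tl v.1) (φ v.2)) (Y (φ v.2))) q := fun Y => by
    have k := (contDiffAt_const (c := (1 : ℂ))).add (cda_dot (c1 hP.contDiffAt) (c1 hP.contDiffAt))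
    filter_upwards [k.continuousAt.eventually_ne (y := 0) (by simp [o0])] with q hq
    have : ContDiff ℂ 1 fun a : F.Ix κ → ℂ => F.om (F.tl a) (φ q.2) := by
      unfold Frm.om Frm.tl
      fun_prop
    exact (cda_rot (x := q.1) this.contDiffAt (contDiffAt_const (c := Y (φ q.2)))
      hq).differentiableAt one_ne_zero
  have n3 : (3 : WithTop ℕ∞) ≤ ∞ := WithTop.coe_le_coe.2 (le_top : (3 : ℕ∞) ≤ ⊤)
  rw [Frm.op, lin_jac h.eq0.shr _ hP (isEqn h.eq0 hP.self_mem)
    ((c2 contDiff_id hP.contDiffAt).of_le n3) ((c2 h.smooth hP.contDiffAt).of_le n3) (c3 cE)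
    (c3 fun x => cE (F.V x)) (fun x => by rw [o0, r0]) (V := F.V) (fun x => by rw [Frm.W, o0, r0])
    (V_pos h hP.self_mem).ne' a hU hf hg ?_, Fintype.sum_sum_type]
  · simp
  filter_upwards [e, hP.smooth] with z e1 e2
  have a1 := hasDerivAt_line ((c2 contDiff_id e2).differentiableAt (by simp)) (a, 0)
  have a2 : ∀ t : ℝ, F.om (F.tl (0 + t • a)) (φ z) = t • F.om (F.tl a) (φ z) := fun t => by
    simp only [Frm.om, Frm.tl, zero_add, Finset.smul_sum, Pi.smul_apply, smul_add, smul_assoc,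
      smul_comm t]
  simp only [Prod.fst_add, Prod.snd_add, Prod.smul_fst, Prod.smul_snd, smul_zero, add_zero, a2,
    id] at a1
  rw [← e1, a1.unique (hasDerivAt_rot _ _)]

section main

variable (h : F.OK) (hC : Charts S F.D)
include h hC

theorem norm_Kd (j : JJ F.D) {p : P2} (hp : F.s1 j - 3 ≤ p.1) : F.z₀ + 8 ≤ ‖Kd F.D j p‖ := by
  have := R0_ge F.D
  have := h.z_big
  rcases j with j | i <;> simp only [Frm.s1] at hp
  · linarith [(hC.norm_cyl j p (by linarith)).1]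
  · have := Real.exp_le_exp.2 (show Real.log (F.z₀ + 8) ≤ p.1 by linarith [h.y_big])
    rw [Real.exp_log (by linarith)] at this
    linarith [(hC.norm_cone i p).1]

theorem chi_other {j : JJ F.D} {p : P2} (hp : st F.D j ≤ p.1) {j' : Fin F.D.m}
    (hj : j ≠ .inl j') : F.χ j' (Kd F.D j p) = 0 :=
  h.chi_out j' _ (hC.mem j p hp) fun q hq e => hj (hC.inj j (.inl j') p q hp
    (show F.D.R₀ ≤ q.1 by linarith [R0_ge F.D, h.z_big]) e).1

theorem om_end (β : Tilt F.D.m ℂ) (j : JJ F.D) {p : P2} (hp : F.s1 j < p.1) :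
    F.om β (Kd F.D j p) = omE F β j := by
  have := st_lt h j
  rcases j with j | i
  · simp only [Frm.s1, st] at hp this
    rw [Frm.om, Finset.sum_eq_single j (fun j' _ hj => by
      rw [chi_other h hC (j := .inl j) (show F.D.R₀ ≤ _ by linarith) (by simpa using hj.symm)]
      simp) (by simp), h.chi_end j p (by linarith),
      Real.smoothTransition.one_of_one_le (by linarith)]
    simp [omE]
  · exact Finset.sum_eq_zero fun j _ => by
      rw [chi_other h hC (j := .inr i) (by linarith) (by simp)]; simp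

theorem par_end (j : JJ F.D) {p : P2} (hp : F.s1 j < p.1) : Par S (Kd F.D j) p :=
  hC.par j p (by linarith [st_lt h j]) (h.imm j p (by linarith))

theorem nu_end (j : JJ F.D) {p : P2} (hp : F.s1 j < p.1) :
    ⟪Wd F.D j p, nuw F.V₀ (Kd F.D j p)⟫ ≠ 0 := fun e => by
  have := V_pos h (par_end h hC j hp).self_mem
  rw [h.ends j p (by linarith), real_inner_smul_left, e] at this
  simp at this

theorem mem_C0 {x : E3} (hx : x ∈ S) (h1 : ‖x‖ < F.z₀ + 8) : x ∈ F.C0 :=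
  ⟨hx, fun j p hp e => by linarith [norm_Kd h hC j (p := p) (by linarith), e ▸ h1]⟩

variable {κ : Type} [Fintype κ] {χ : κ → E3 → ℝ} {u₁ : Fin F.D.m → P2 → ℝ} {cd : Fin F.D.m → ℂ}
  {w : E3 → ℂ} {a : F.Ix κ → ℂ} {u : JJ F.D → P2 → ℂ} (L : F.LinSol χ u₁ cd w a u)
include L

theorem UU_end (j : JJ F.D) {p : P2} (hp : F.s1 j < p.1) :
    UU F w u (Kd F.D j p) = F.σ j * u j p := by
  rw [UU, if_neg fun hh => hh.2 j p hp rfl, Finset.sum_eq_single j (fun j' _ hj => gl_out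
    fun q hq e => absurd (hC.inj j j' p q (by linarith [st_lt h j]) (by linarith [st_lt h j'])
      e).1.symm hj) (by simp),
    gl_end hC (by linarith [st_lt h j]) (fun q => by rw [L.per]) hp]

theorem UU_near {x : E3} (hx : x ∈ F.C0) : ∀ᶠ y in 𝓝[S] x, UU F w u y = w y := by
  have cl : IsClosed (⋃ j, Kd F.D j '' {p | F.s1 j + 1 ≤ p.1}) :=
    isClosed_iUnion_of_finite fun j => hC.closed j _ (by linarith [st_lt h j])
  have n : x ∉ ⋃ j, Kd F.D j '' {p | F.s1 j + 1 ≤ p.1} := fun hh => by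
    obtain ⟨j, p, hp, e⟩ := mem_iUnion.1 hh
    exact hx.2 j p (by linarith [show F.s1 j + 1 ≤ p.1 from hp]) e.symm
  filter_upwards [nhdsWithin_le_nhds (cl.isOpen_compl.mem_nhds n), self_mem_nhdsWithin] with y a b
  by_cases hy : y ∈ F.C0
  · exact if_pos hy
  · obtain ⟨j, p, hp, rfl⟩ : ∃ j, ∃ p : P2, F.s1 j < p.1 ∧ y = Kd F.D j p := by
      by_contra hh
      exact hy ⟨b, fun j p hp e => hh ⟨j, p, hp, e⟩⟩
    have : p.1 < F.s1 j + 1 := not_le.1 fun hh => a (mem_iUnion.2 ⟨j, p, hh, rfl⟩)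
    rw [UU_end h hC L j hp, ← L.glue j p ⟨hp, by linarith⟩, ← mul_assoc, sq_sign h, one_mul]

theorem NV_end (j : JJ F.D) {p : P2} (hp : F.s1 j < p.1) :
    NV F w (F.tl a) u (Kd F.D j p) = (crossL ((2 : ℂ) • omE F (F.tl a) j) (cE (Kd F.D j p)) +
      u j p • Wx F.D j p) ⬝ᵥ cE (nuw F.V₀ (Kd F.D j p)) := by
  rw [NV, UU_end h hC L j hp, om_end h hC _ j hp, h.ends j p (by linarith), map_smul,
    ← Complex.coe_smul, smul_smul, mul_right_comm, sq_sign h, one_mul, crossL_apply, map_smul,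
    LinearMap.smul_apply]

theorem cd_u (j : JJ F.D) {p : P2} (hp : F.s1 j < p.1) : ContDiffAt ℝ 2 (u j) p :=
  (L.c2 j).contDiffAt ((continuous_fst.continuousAt.eventually (lt_mem_nhds hp)).mono
    fun _ hq => ⟨hq, trivial⟩)

theorem exists_G : ∃ G : E3 → ℂ, ContDiff ℝ 2 G ∧ ∀ x ∈ S, G x = NV F w (F.tl a) u x := by
  refine exists_ext h.eq0.shr.1 (n := 2) fun x hx => ?_
  have key : ∀ φ y, Par S φ y → ContDiffAt ℝ 2 (fun z => UU F w u (φ z)) y →
      ∀ᶠ z in 𝓝 y, ContDiffAt ℝ 2 (fun z => NV F w (F.tl a) u (φ z)) z := fun φ y hP hU => by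
    have c := hP.contDiffAt.of_le two_le_inf
    refine ev_two (cda_dot ((cda_cross ?_ (cE.contDiff.contDiffAt.comp y c)).const_smul
      (2 : ℂ) |>.add (hU.smul (cE.contDiff.contDiffAt.comp y
        ((h.smooth.of_le two_le_inf).contDiffAt.comp y c))))
      (cE.contDiff.contDiffAt.comp y ((cd_N h.eq0 hP).of_le two_le_inf)))
    exact ((cd_om h).of_le two_le_inf).contDiffAt.comp y (f := fun z => (F.tl a, φ z))
      (contDiffAt_const.prodMk c)
  by_cases hy : x ∈ F.C0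
  · obtain ⟨φ, y, hP, rfl⟩ := exists_par h.eq0.shr.1 hx
    exact ⟨φ, y, hP, rfl, key φ y hP ((L.reg φ y hP (Or.inl hy)).congr_of_eventuallyEq
      (hP.tendsto.eventually (UU_near h hC L hy)))⟩
  · obtain ⟨j, p, hp, rfl⟩ : ∃ j, ∃ p : P2, F.s1 j < p.1 ∧ x = Kd F.D j p := by
      by_contra hh
      exact hy ⟨hx, fun j p hp e => hh ⟨j, p, hp, e⟩⟩
    refine ⟨_, p, par_end h hC j hp, rfl, key _ p (par_end h hC j hp)
      (((contDiffAt_const (c := (F.σ j : ℂ))).mul (cd_u h hC L j hp)).congr_of_eventuallyEq ?_)⟩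
    exact (continuous_fst.continuousAt.eventually (lt_mem_nhds hp)).mono
      fun q hq => UU_end h hC L j hq

variable {G : E3 → ℂ} (hG : ContDiff ℝ 2 G) (eG : ∀ x ∈ S, G x = NV F w (F.tl a) u x)
include hG eG

theorem eq_G (hχ : ∀ i, tsupport (χ i) ⊆ ball 0 (F.z₀ + 4)) {x : E3} (hx : x ∈ S) :
    (jacS S (fun y => (G y).re) x : ℝ) + Complex.I * (jacS S (fun y => (G y).im) x : ℝ) =
      ∑ i, a (.inl i) * χ i x := by
  have c1 : ContDiff ℝ 2 fun y => (G y).re := Complex.reCLM.contDiff.comp hG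
  have c2 : ContDiff ℝ 2 fun y => (G y).im := Complex.imCLM.contDiff.comp hG
  have e : ∀ y, G y = ((G y).re : ℝ) + Complex.I * ((G y).im : ℝ) := fun y => by
    rw [mul_comm, Complex.re_add_im]
  have z : F.z₀ + 4 ≤ ‖x‖ → ∑ i, a (.inl i) * χ i x = 0 := fun hh =>
    Finset.sum_eq_zero fun i _ => by
      rw [image_eq_zero_of_notMem_tsupport fun k => (mem_ball_zero_iff.1 (hχ i k)).not_ge hh]
      simp
  by_cases hy : x ∈ F.C0
  · obtain ⟨φ, y, hP, rfl⟩ := exists_par h.eq0.shr.1 hx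
    have k := lin_op h χ hP a (L.reg φ y hP (Or.inl hy)) c1.contDiffAt c2.contDiffAt (by
      filter_upwards [hP.tendsto.eventually (UU_near h hC L hy), hP.mem] with t h1 h2
      rw [← e, eG _ h2, NV, h1])
    rw [L.eq φ y hP hy, eq_comm, sub_eq_zero] at k
    rcases le_total ‖φ y‖ (F.z₀ + 6) with hh | hh
    · rwa [V_core h hx hh, Complex.ofReal_one, one_mul] at k
    · rw [z (by linarith)] at k ⊢
      exact (mul_eq_zero.1 k).resolve_left (Complex.ofReal_ne_zero.2 (V_pos h hx).ne')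
  · obtain ⟨j, p, hp, rfl⟩ : ∃ j, ∃ p : P2, F.s1 j < p.1 ∧ x = Kd F.D j p := by
      by_contra hh
      exact hy ⟨hx, fun j p hp e => hh ⟨j, p, hp, e⟩⟩
    have hP := par_end h hC j hp
    have hw := isEqn h.eq0 hx
    have d0 : ContDiffAt ℝ 2 (fun t => cE (Kd F.D j t)) p :=
      cE.contDiff.contDiffAt.comp p hP.ch.two
    have d1 : ContDiffAt ℝ 2 (fun t => crossL ((2 : ℂ) • omE F (F.tl a) j) (cE (Kd F.D j t))) p :=
      (crossL _).contDiff.contDiffAt.comp p d0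
    have d2 : ContDiffAt ℝ 2 (fun t => u j t • Wx F.D j t) p := (cd_u h hC L j hp).smul
      (cE.contDiff.comp ((hC.smooth j).2.1.of_le two_le_inf)).contDiffAt
    have k := hP.ch.dnum_eq h.eq0.shr hw (d1.add d2) c1.contDiffAt c2.contDiffAt (by
      filter_upwards [continuous_fst.continuousAt.eventually (lt_mem_nhds hp), hP.mem] with t h1 h2
      rw [← e, eG _ h2, NV_end h hC L j h1])
    rw [jet2_add d1 d2, dnum_add, jet2_clm _ d0, dnum_rot, zero_add,
      end_dnum h.eq0 hC hP (nu_end h hC j hp) (cd_u h hC L j hp) (L.eqE j p hp)] at k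
    rw [z (by linarith [norm_Kd h hC j (p := p) (by linarith)])]
    exact (mul_eq_zero.1 k.symm).resolve_left (hP.ch.nor h.eq0.shr hw).nor_ne

theorem poly_G (hu : ∀ j, ∃ (C : ℝ) (q : ℕ), ∀ p : P2, F.z₀ + 11 + 1 ≤ p.1 →
    ‖jet1 (u₁ j) p‖ ≤ C * p.1 ^ q) : Poly S fun x => ‖G x‖ := by
  have z1 := R0_ge F.D
  have z2 := h.z_big
  obtain ⟨C0, h0⟩ := (hC.cpt (fun j => F.s1 j + 1) (fun j => by linarith [st_lt h j])
    fun j p hp => h.imm j p (by linarith)).exists_bound_of_continuousOn hG.continuous.continuousOn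
  have pn : Poly S fun x => ‖x‖ := ⟨1, 1, fun x _ => by simp⟩
  have key : ∀ j, ∃ b : E3 → ℝ, Poly S b ∧ (∀ x, 0 ≤ b x) ∧
      ∀ p : P2, F.s1 j + 1 < p.1 → ‖u j p‖ ≤ b (Kd F.D j p) := by
    rintro (j | i)
    · obtain ⟨C, q, h1⟩ := L.cyl
      obtain ⟨C', q', h2⟩ := hu j
      refine ⟨fun x => |C| + ‖cd j‖ * (|C'| * (1 + ‖x‖) ^ q'), (Inj.Poly.const _).add ((Inj.Poly.const _).mul
        ⟨|C'|, q', fun x _ => (abs_of_nonneg (by positivity)).le⟩), fun x => by positivity,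
        fun p hp => ?_⟩
      simp only [Frm.s1] at hp
      have a1 : |u₁ j p| ≤ C' * p.1 ^ q' := (norm_fst_le (jet1 (u₁ j) p)).trans (h2 p hp.le)
      have a3 := (hC.norm_cyl j p (by linarith)).1
      have a4 := a1.trans (mul_le_mul (le_abs_self C') (pow_le_pow_left₀ (by linarith)
        (show p.1 ≤ 1 + ‖Kd F.D (.inl j) p‖ by linarith) q') (pow_nonneg (by linarith) q')
        (abs_nonneg C'))
      refine (norm_le_norm_sub_add _ (cd j * u₁ j p)).trans (add_le_add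
        ((h1 j p (by linarith)).1.trans (le_abs_self C)) ?_)
      rw [norm_mul, Complex.norm_real]
      exact mul_le_mul_of_nonneg_left a4 (norm_nonneg _)
    · obtain ⟨C, h1⟩ := L.cone
      refine ⟨fun x => |C| * ‖x‖, (Inj.Poly.const _).mul pn, fun x => by positivity, fun p hp => ?_⟩
      have a1 : ‖scl (u (.inr i)) p‖ ≤ C := (norm_fst_le (jet1 (scl (u (.inr i))) p)).trans
        (h1 i p hp.le)
      rw [scl, norm_mul, Complex.norm_real, Real.norm_of_nonneg (Real.exp_pos _).le, Real.exp_neg,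
        inv_mul_le_iff₀ (Real.exp_pos _), mul_comm] at a1
      exact a1.trans (mul_le_mul (le_abs_self C) (hC.norm_cone i p).1 (Real.exp_pos _).le
        (abs_nonneg C))
  choose b b1 b2 b3 using key
  obtain ⟨C, k, h1⟩ := (Inj.Poly.const |C0|).add (Inj.Poly.sum Finset.univ fun j =>
    ((Inj.Poly.const (6 * ‖(2 : ℂ) • omE F (F.tl a) j‖)).mul pn).add (b1 j))
  refine ⟨C, k, fun x hx => le_trans ?_ ((le_abs_self _).trans (h1 x hx))⟩
  have n : ∀ j, 0 ≤ 6 * ‖(2 : ℂ) • omE F (F.tl a) j‖ * ‖x‖ + b j x := fun j =>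
    add_nonneg (by positivity) (b2 j x)
  rw [abs_norm]
  by_cases hh : ∀ j (p : P2), F.s1 j + 1 < p.1 → x ≠ Kd F.D j p
  · exact ((h0 x ⟨hx, hh⟩).trans (le_abs_self _)).trans
      (le_add_of_nonneg_right (Finset.sum_nonneg fun j _ => n j))
  push Not at hh
  obtain ⟨j, p, hp, rfl⟩ := hh
  refine le_add_of_nonneg_of_le (abs_nonneg _)
    (le_trans ?_ (Finset.single_le_sum (fun j _ => n j) (Finset.mem_univ j)))
  have a2 := abs_real_inner_le_norm (Wd F.D j p) (nuw F.V₀ (Kd F.D j p))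
  have a3 := norm_tilt ((2 : ℂ) • omE F (F.tl a) j) (Kd F.D j p) (nuw F.V₀ (Kd F.D j p))
  rw [norm_N h.eq0 hx, mul_one] at a2 a3
  rw [norm_Wd] at a2
  rw [eG _ hx, NV_end h hC L j (by linarith), add_dotProduct, smul_dotProduct, Inj.cE_dot]
  refine (norm_add_le _ _).trans (add_le_add a3 ?_)
  rw [norm_smul, Complex.norm_real]
  exact (mul_le_of_le_one_right (norm_nonneg _) a2).trans (b3 j p hp)

omit L in
theorem mom_G {c : E3 → ℝ} (hc : Continuous c) (hs : tsupport c ⊆ ball 0 (F.z₀ + 4))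
    (T : ℂ →L[ℝ] ℝ) (h0 : mo F.C0 c w = 0) : ∫ y, T (G y) * c y * gw y ∂(area S) = 0 := by
  have := Chart.locFin_proof S h.eq0.shr.1
  have z : ∀ x, F.z₀ + 4 ≤ ‖x‖ → c x = 0 := fun x hh =>
    image_eq_zero_of_notMem_tsupport fun k => (mem_ball_zero_iff.1 (hs k)).not_ge hh
  have cs : HasCompactSupport fun y => G y * (c y * gw y : ℝ) :=
    HasCompactSupport.intro (isCompact_closedBall 0 (F.z₀ + 4)) fun y hy => by
      simp [z y (not_le.1 (mt mem_closedBall_zero_iff.2 hy)).le]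
  have i : Integrable (fun y => G y * (c y * gw y : ℝ)) (area S) :=
    (hG.continuous.mul (Complex.continuous_ofReal.comp
      (hc.mul continuous_gw))).integrable_of_hasCompactSupport cs
  have e1 : ∫ y, G y * (c y * gw y : ℝ) ∂(area S) = ∫ y, w y * (c y * gw y : ℝ) ∂(area S) := by
    refine integral_congr_ae ((NC.ae_mem h.eq0.shr.1).mono fun x hx => ?_)
    rcases le_or_gt (F.z₀ + 4) ‖x‖ with hh | hh
    · simp [z x hh]
    · have o := om_core h (F.tl a) hx fun j p hp e => by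
        linarith [(hC.norm_cyl j p (by linarith [R0_ge F.D, h.z_big])).1, e ▸ hh]
      simp only [eG x hx, NV, o, UU, if_pos (mem_C0 h hC hx (by linarith)), map_zero,
        LinearMap.zero_apply, smul_zero, zero_add, smul_dotProduct, Inj.cE_dot,
        V_core h hx (by linarith), smul_eq_mul, Complex.ofReal_one, mul_one]
  have e2 : ∫ y, w y * (c y * gw y : ℝ) ∂(area S) = mo F.C0 c w :=
    setIntegral_eq_of_subset_of_forall_sdiff_eq_zero h.eq0.shr.1.1.measurableSet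
      (fun x hx => hx.1) fun x hx => by
        simp [z x (by linarith [not_lt.1 fun k => hx.2 (mem_C0 h hC hx.1 k)])]
  have e3 := T.integral_comp_comm i
  rw [e1, e2, h0, map_zero] at e3
  rw [← e3]
  refine integral_congr_ae (Eventually.of_forall fun x => ?_)
  simp only [mul_comm (G x), ← Complex.real_smul, map_smul, smul_eq_mul]
  ring

end main

/-- **KER** for every shrinker with bounded area ratios -/
theorem ker_core (hCh : ChartStmt) (D₀ : ℝ) (S : Set E3) (hS : IsShr S) (hA : AreaRatio D₀ S) :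
    ∃ R₂ : ℝ, ∀ R, R₂ ≤ R → ∃ r₂ : ℝ, 0 < r₂ ∧ r₂ ≤ 1 ∧ ∀ r, 0 < r → r ≤ r₂ → ∀ P : Finset E3,
      IsMesh S R r P → ∀ (q : ℕ) (en : Fin q ≃ P) (F : Frm S), F.OK → R + 1 ≤ F.z₀ →
      ∀ u₀ : Fin F.D.m → P2 → ℝ,
      (∀ j, IsJac (Bx F.D (.inl j)) (Wx F.D (.inl j)) (gS F.D (.inl j)) F.z₀ (u₀ j)) →
      ∃ ψ : Fin F.D.m → E3 → ℝ, F.Src (chis (fun i => (en i : E3)) r ψ) ∧
        NoKer F (chis (fun i => (en i : E3)) r ψ) := by
  by_cases hD : Nonempty (EndData S)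
  swap
  · exact ⟨0, fun R _ => ⟨1, one_pos, le_rfl, fun r _ _ P _ q en F => absurd ⟨F.D⟩ hD⟩⟩
  obtain ⟨r₀, C₀, hr₀, -, h2⟩ := hD.some.twoPt
  obtain ⟨K, R₂, H⟩ := exists_en hS hA hr₀ h2
  refine ⟨R₂, fun R hR => ?_⟩
  obtain ⟨r₂, hr₂, H⟩ := H R hR
  refine ⟨min r₂ 1, by positivity, min_le_right _ _, fun r hr hr' P hm q en F h hz u₀ hu₀ => ?_⟩
  have hE := H r hr (hr'.trans (min_le_left _ _)) P hm
  have hC := hCh S F.D hS.1
  have z1 := R0_ge F.D
  have z2 := h.z_big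
  choose Ψ ψ hΨ using fun j => exists_psi h hC j (hu₀ j)
  have src : F.Src (chis (fun i => (en i : E3)) r ψ) := by
    rintro (i | j)
    · refine ⟨contDiff_bump _ _, (closure_minimal (fun y hy => ?_) isClosed_closedBall).trans
        (closedBall_subset_ball (show R + 1 < F.z₀ + 4 by linarith))⟩
      exact mem_closedBall_zero_iff.2 (not_lt.1 fun k => hy (hm.bump_far hr hE.le (en i).2 k.le))
    · exact ⟨(hΨ j).cψ, (hΨ j).supp⟩
  refine ⟨ψ, src, fun u₁ hu₁ cd w a u L m1 m2 => ?_⟩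
  obtain ⟨G, hG, eG⟩ := exists_G h hC L
  have pG := poly_G h hC L hG eG fun j => (hu₁ j).tmp
  have key : ∀ T : ℂ →L[ℝ] ℝ, (∀ z, |T z| ≤ ‖z‖) → (∀ x ∈ S, jacS S (fun y => T (G y)) x =
      T (∑ i, a (.inl i) * chis (fun i => (en i : E3)) r ψ i x)) →
      (∀ i, T (a (.inl (.inl i))) = 0) ∧
      (∀ x ∈ S, T (G x) = T (∑ j, a (.inl (.inr j)) * Ψ j x)) ∧
      ((∀ j, mo F.C0 (ψ j) w = 0) → ∀ x ∈ S, T (G x) = 0) := fun T hT he => by
    have e : ∀ (c : ℂ) (t : ℝ), T (c * t) = T c * t := fun c t => by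
      rw [mul_comm, ← Complex.real_smul, map_smul, smul_eq_mul, mul_comm]
    obtain ⟨k1, k2, k3⟩ := hE.ker (fun j => (hΨ j).c.of_le two_le_inf) (fun j => (hΨ j).poly)
      (fun j x hx hh => (hΨ j).out x hx fun p hp e => by
        linarith [(hC.norm_cyl j p (by linarith)).1, e ▸ hh]) (fun j => (hΨ j).eq)
      (fun j => ⟨(hΨ j).cψ.continuous, (isCompact_closedBall 0 _).of_isClosed_subset
        (isClosed_tsupport _) ((hΨ j).supp.trans ball_subset_closedBall)⟩)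
      (f := fun y => T (G y)) (T.contDiff.comp hG)
      (pG.imp fun C => Exists.imp fun k hk x hx => (hT _).trans ((le_abs_self _).trans (hk x hx)))
      (fun p => T (a (.inl (.inl (en.symm p))))) (fun j => T (a (.inl (.inr j))))
      (fun x hx => by
        rw [he x hx, Fintype.sum_sum_type, map_add, map_sum, map_sum, ← en.sum_comp]
        simp only [e, chis, Equiv.symm_apply_apply])
      fun p hp => mom_G h hC hG eG (continuous_bump _ _)
        (by simpa [chis] using (src (.inl (en.symm ⟨p, hp⟩))).2) T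
        (by simpa [chis] using m1 (en.symm ⟨p, hp⟩))
    refine ⟨fun i => by simpa using congrFun k1 (en i), fun x hx => ?_, fun m =>
      k3 fun j => mom_G h hC hG eG (hΨ j).cψ.continuous (hΨ j).supp T (m j)⟩
    rw [k2 x hx, map_sum]
    simp only [e]
  have E := fun x hx => eq_G h hC L hG eG (fun i => (src i).2) (x := x) hx
  obtain ⟨a1, a2, a3⟩ := key Complex.reCLM Complex.abs_re_le_norm fun x hx => by
    rw [← E x hx]; simp
  obtain ⟨b1, b2, b3⟩ := key Complex.imCLM Complex.abs_im_le_norm fun x hx => by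
    rw [← E x hx]; simp
  have g1 : ∀ x ∈ S, G x = ∑ j, a (.inl (.inr j)) * Ψ j x := fun x hx =>
    Complex.ext (a2 x hx) (b2 x hx)
  have g2 : ∀ j (p : P2), F.z₀ + 12 ≤ p.1 → G (Kd F.D (.inl j) p) = a (.inl (.inr j)) * u₀ j p *
      (⟪Wd F.D (.inl j) p, nuw F.V₀ (Kd F.D (.inl j) p)⟫ : ℝ) := fun j p hp => by
    have m := hC.mem (.inl j) p (show F.D.R₀ ≤ _ by linarith)
    rw [g1 _ m, Finset.sum_eq_single j (fun j' _ hj => by
      rw [(hΨ j').out _ m fun q hq e => hj (Sum.inl.inj (hC.inj (.inl j) (.inl j') p q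
        (show F.D.R₀ ≤ _ by linarith) (show F.D.R₀ ≤ _ by linarith) e).1).symm]
      simp) (by simp), (hΨ j).far p (by linarith)]
    push_cast
    ring
  have g3 : ∀ j, cd j = 0 ∧ a (.inl (.inr j)) = 0 ∧ F.tl a j 0 = 0 ∧ F.tl a j 1 = 0 := fun j => by
    obtain ⟨C, q, h1⟩ := L.cyl
    refine growth F.D j (hu₀ j).low (hu₁ j).low (fun p hp => (h1 j p hp).1) (fun p hp => ?_) ?_
    · have n := nu_ne h.eq0 hC j (p := p) (by linarith)
      have k := g2 j p hp
      rw [eG _ (hC.mem (.inl j) p (show F.D.R₀ ≤ _ by linarith)),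
        NV_end h hC L (.inl j) (show F.z₀ + 11 < _ by linarith), add_dotProduct, smul_dotProduct,
        Inj.cE_dot] at k
      nth_rw 1 [nuw_cyl h.eq0 hC j (by linarith)] at k
      rw [map_smul, ← Complex.coe_smul, dotProduct_smul, crossL_apply, map_smul,
        LinearMap.smul_apply, smul_dotProduct] at k
      refine mul_right_cancel₀ (Complex.ofReal_ne_zero.2 n) ?_
      simp only [smul_eq_mul, omE] at k
      linear_combination k
    · refine m2.imp (fun m => congrFun m j) fun m => ?_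
      obtain ⟨c₀, Z, h0, h3⟩ := (hu₀ j).low
      have k := g2 j (max Z (F.z₀ + 12), 0) (le_max_right _ _)
      have m' := hC.mem (.inl j) (max Z (F.z₀ + 12), 0)
        (le_max_of_le_right (show F.D.R₀ ≤ _ by linarith))
      rw [show G _ = 0 from Complex.ext (a3 m _ m') (b3 m _ m'), eq_comm, mul_eq_zero,
        mul_eq_zero] at k
      have h4 := h3 (max Z (F.z₀ + 12), 0) (le_max_left _ _)
      have h5 : 0 < max Z (F.z₀ + 12) := lt_max_of_lt_right (by linarith)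
      refine (k.resolve_right (Complex.ofReal_ne_zero.2 (nu_ne h.eq0 hC j
        (lt_max_of_lt_right (show F.D.R₀ < _ by linarith))))).resolve_right
        (Complex.ofReal_ne_zero.2 fun e => ?_)
      rw [e, abs_zero] at h4
      exact h4.not_gt (by positivity)
  have a0 : a = 0 := by
    funext i
    rcases i with (i | j) | ⟨j, i⟩
    · exact Complex.ext (a1 i) (b1 i)
    · exact (g3 j).2.1
    · fin_cases i
      exacts [(g3 j).2.2.1, (g3 j).2.2.2]
  refine ⟨fun x hx => ?_, a0, funext fun j => (g3 j).1⟩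
  have k := g1 x hx.1
  rw [eG x hx.1, a0] at k
  simpa [NV, UU, hx, Frm.om, Frm.tl, Inj.cE_dot, (V_pos h hx.1).ne'] using k

/-- **KER** -/
theorem ker_proof (hCh : ChartStmt) : KerStmt := fun D₀ _ S hS hI _ => ker_core hCh D₀ S hS (by
  have := hI.ratio (-1) (by simp)
  rwa [show ssFlow S (-1) = S by ext x; simp [ssFlow, scaleSet]] at this)

end Vale.Agent.P218F.LS.Ker
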