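import Mathlib.Analysis.Complex.RemovableSingularity
import Mathlib.Analysis.Complex.Liouville
import Mathlib.Analysis.SpecialFunctions.Pow.Real
import Mathlib.Analysis.Calculus.FDeriv.Analytic
import Mathlib.Analysis.Calculus.Deriv.Pi

/-!
# P218F, block LOJ: the gradient inequality for functions comparable to a monomial
-/

open Filter Topology Set Metric Function

namespace Vale.Agent.P218F.Loj

/-- One variable: a holomorphic function comparable to `t ^ e` has a logarithmic derivative of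
size at least `1 / |t|`. -/
theorem one_var {φ : ℂ → ℂ} {r a b : ℝ} {e : ℕ} (hr : 0 < r) (he : 1 ≤ e)
    (hφ : DifferentiableOn ℂ φ (ball 0 r))
    (h1 : ∀ t ∈ ball (0 : ℂ) r, a * ‖t‖ ^ e ≤ ‖φ t‖)
    (h2 : ∀ t ∈ ball (0 : ℂ) r, ‖φ t‖ ≤ b * ‖t‖ ^ e) {t : ℂ} (ht0 : t ≠ 0) (ht : ‖t‖ ≤ r / 4)
    (htb : 4 * b * ‖t‖ ≤ a * r) : a / 2 * ‖t‖ ^ e ≤ ‖t‖ * ‖deriv φ t‖ := by
  set h : ℂ → ℂ := fun s => φ s / s ^ e with hh
  have hd : DifferentiableOn ℂ h (ball 0 r \ {0}) :=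
    (hφ.mono sdiff_subset).div (differentiableOn_pow e) fun s hs => pow_ne_zero _ hs.2
  have hbd : ∀ s ∈ ball (0 : ℂ) r \ {0}, ‖h s‖ ≤ b := by
    intro s hs
    have h0 : 0 < ‖s‖ ^ e := pow_pos (norm_pos_iff.2 hs.2) e
    simp only [hh, norm_div, norm_pow]
    rw [div_le_iff₀ h0]
    exact h2 s hs.1
  have hH := Complex.differentiableOn_update_limUnder_of_bddAbove (ball_mem_nhds (0 : ℂ) hr) hd
    ⟨b, by rintro _ ⟨s, hs, rfl⟩; exact hbd s hs⟩
  set H : ℂ → ℂ := update h 0 (limUnder (𝓝[≠] 0) h) with hHdef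
  have hHe : ∀ s, s ≠ 0 → H s = h s := fun s hs => update_of_ne hs _ _
  have hsub : closedBall t (r / 2) ⊆ ball 0 r := by
    intro s hs
    rw [mem_ball_zero_iff]
    have := norm_le_norm_add_const_of_dist_le (mem_closedBall.1 hs)
    linarith
  have hD : ‖deriv H t‖ ≤ b / (r / 2) := by
    refine Complex.norm_deriv_le_of_forall_mem_sphere_norm_le (by positivity)
      ((hH.mono hsub).diffContOnCl_ball subset_rfl) fun s hs => ?_
    have hs0 : s ≠ 0 := by
      rintro rfl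
      rw [mem_sphere, dist_zero_left] at hs
      linarith
    rw [hHe s hs0]
    exact hbd s ⟨hsub (sphere_subset_closedBall hs), hs0⟩
  have htm : t ∈ ball (0 : ℂ) r := hsub (mem_closedBall_self (by positivity))
  have hHt : DifferentiableAt ℂ H t := hH.differentiableAt (isOpen_ball.mem_nhds htm)
  have hev : φ =ᶠ[𝓝 t] fun s => s ^ e * H s := by
    filter_upwards [isOpen_ne.mem_nhds ht0] with s hs
    rw [hHe s hs]
    simp only [hh]
    field_simp
  have hder : deriv φ t = e * t ^ (e - 1) * H t + t ^ e * deriv H t := by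
    rw [hev.deriv_eq]
    exact ((hasDerivAt_pow e t).mul hHt.hasDerivAt).deriv
  have hφt : φ t = t ^ e * H t := hev.eq_of_nhds
  have hmul : t * deriv φ t = e * φ t + t ^ e * t * deriv H t := by
    rw [hder, hφt]
    obtain ⟨k, rfl⟩ : ∃ k, e = k + 1 := ⟨e - 1, by omega⟩
    simp only [Nat.add_sub_cancel]
    ring
  have e1 : (1 : ℝ) ≤ e := by exact_mod_cast he
  have h3 : ‖φ t‖ ≤ ‖(e : ℂ) * φ t‖ := by
    rw [norm_mul, Complex.norm_natCast]
    nlinarith [norm_nonneg (φ t)]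
  have h4 : ‖t ^ e * t * deriv H t‖ ≤ a / 2 * ‖t‖ ^ e := by
    rw [norm_mul, norm_mul, norm_pow]
    have h5 : ‖t‖ * ‖deriv H t‖ ≤ a / 2 := by
      refine (mul_le_mul_of_nonneg_left hD (norm_nonneg _)).trans ?_
      rw [← mul_div_assoc, div_le_iff₀ (by positivity)]
      linarith
    have h6 : 0 ≤ ‖t‖ ^ e := by positivity
    nlinarith
  have h7 : ‖(e : ℂ) * φ t‖ ≤ ‖t * deriv φ t‖ + ‖t ^ e * t * deriv H t‖ := by
    have : (e : ℂ) * φ t = t * deriv φ t - t ^ e * t * deriv H t := by rw [hmul]; ring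
    rw [this]
    exact norm_sub_le _ _
  have h8 := h1 t htm
  rw [norm_mul t] at h7
  linarith

variable {n : ℕ}

/-- The partial derivative in the direction `i` is bounded by the derivative. -/
theorem norm_deriv_update_le {g : (Fin n → ℂ) → ℂ} {z : Fin n → ℂ} (hg : DifferentiableAt ℂ g z)
    (i : Fin n) : ‖deriv (fun t => g (update z i t)) (z i)‖ ≤ ‖fderiv ℂ g z‖ := by
  have h1 : HasDerivAt (fun t => update z i t) (Pi.single i (1 : ℂ)) (z i) := hasDerivAt_update z i (z i)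
  have h2 : HasFDerivAt g (fderiv ℂ g z) (update z i (z i)) := by
    rw [update_eq_self]; exact hg.hasFDerivAt
  have h3 := h2.comp_hasDerivAt (z i) h1
  have h4 : deriv (fun t => g (update z i t)) (z i) = fderiv ℂ g z (Pi.single i 1) := h3.deriv
  rw [h4]
  refine ((fderiv ℂ g z).le_opNorm _).trans ?_
  rw [Pi.norm_single, norm_one, mul_one]

/-- A holomorphic function comparable to a monomial: logarithmic partial derivatives. -/
theorem log_deriv {g : (Fin n → ℂ) → ℂ} {z₀ : Fin n → ℂ} (hg : AnalyticAt ℂ g z₀) {e : Fin n → ℕ}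
    {C : ℝ} (hC : 0 < C)
    (h : ∀ᶠ z in 𝓝 z₀, ‖g z‖ ≤ C * ‖∏ i, z i ^ e i‖ ∧ ‖∏ i, z i ^ e i‖ ≤ C * ‖g z‖)
    {i : Fin n} (hi : e i ≠ 0) (hz : z₀ i = 0) :
    ∀ᶠ z in 𝓝 z₀, ‖g z‖ ≤ 2 * C ^ 2 * (‖z i‖ * ‖fderiv ℂ g z‖) := by
  obtain ⟨r, hr, H⟩ := Metric.eventually_nhds_iff.1 (h.and hg.eventually_analyticAt)
  have hc : ContinuousAt (fun z : Fin n → ℂ => ‖z i‖) z₀ := (continuous_apply i).norm.continuousAt
  have hs : ∀ᶠ z in 𝓝 z₀, ‖z i‖ < min (r / 4) (r / (4 * C ^ 2)) :=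
    hc.eventually_lt continuousAt_const (by simp only [hz, norm_zero]; positivity)
  filter_upwards [ball_mem_nhds z₀ hr, hs] with z hzb hzs
  have hzb' : dist z z₀ < r := hzb
  set M : ℝ := ‖∏ j ∈ Finset.univ.erase i, z j ^ e j‖ with hM
  have hM0 : 0 ≤ M := norm_nonneg _
  have hup : ∀ t ∈ ball (0 : ℂ) r, dist (update z i t) z₀ < r := by
    intro t ht
    rw [dist_pi_lt_iff hr]
    intro j
    by_cases hj : j = i
    · subst hj
      rw [update_self, hz]
      exact ht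
    · rw [update_of_ne hj]
      exact (dist_le_pi_dist z z₀ j).trans_lt hzb'
  have hpr : ∀ t : ℂ, ‖∏ j, update z i t j ^ e j‖ = M * ‖t‖ ^ e i := by
    intro t
    rw [← Finset.prod_erase_mul _ _ (Finset.mem_univ i), update_self, norm_mul, norm_pow, hM]
    congr 2
    exact Finset.prod_congr rfl fun j hj => by rw [update_of_ne (Finset.ne_of_mem_erase hj)]
  have hzz : ‖∏ j, z j ^ e j‖ = M * ‖z i‖ ^ e i := by
    have := hpr (z i)
    rwa [update_eq_self] at this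
  have hgz := (H hzb').1.1
  by_cases h0 : z i = 0
  · rw [hzz, h0, norm_zero, zero_pow hi] at hgz
    rw [h0, norm_zero]
    simpa using hgz
  have key := one_var (φ := fun t => g (update z i t)) (r := r) (a := M / C) (b := C * M)
    (e := e i) hr (Nat.one_le_iff_ne_zero.2 hi)
    (fun t ht => ((H (hup t ht)).2.differentiableAt.comp t
      (hasDerivAt_update z i t).differentiableAt).differentiableWithinAt)
    (fun t ht => by
      have := (H (hup t ht)).1.2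
      rw [hpr] at this
      rw [div_mul_eq_mul_div, div_le_iff₀ hC]
      linarith)
    (fun t ht => by
      have := (H (hup t ht)).1.1
      rw [hpr] at this
      linarith)
    h0 (hzs.le.trans (min_le_left _ _))
    (by
      have h1 : ‖z i‖ ≤ r / (4 * C ^ 2) := hzs.le.trans (min_le_right _ _)
      rw [le_div_iff₀ (by positivity)] at h1
      rw [div_mul_eq_mul_div, le_div_iff₀ hC]
      nlinarith)
  have h5 := norm_deriv_update_le (H hzb').2.differentiableAt i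
  have h6 : M / C / 2 * ‖z i‖ ^ e i ≤ ‖z i‖ * ‖fderiv ℂ g z‖ :=
    key.trans (mul_le_mul_of_nonneg_left h5 (norm_nonneg _))
  rw [hzz] at hgz
  calc ‖g z‖ ≤ C * (M * ‖z i‖ ^ e i) := hgz
    _ = 2 * C ^ 2 * (M / C / 2 * ‖z i‖ ^ e i) := by field_simp
    _ ≤ _ := mul_le_mul_of_nonneg_left h6 (by positivity)

/-- Lower bound of a monomial by the smallest of the coordinates which vanish at `z₀`. -/
theorem monomial_lower (z₀ : Fin n → ℂ) (e : Fin n → ℕ) : ∃ c : ℝ, 0 < c ∧ ∀ᶠ z in 𝓝 z₀,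
    ∀ s : ℝ, 0 ≤ s → s ≤ 1 → (∀ i, e i ≠ 0 → z₀ i = 0 → s ≤ ‖z i‖) →
      c * s ^ (∑ i, e i) ≤ ‖∏ i, z i ^ e i‖ := by
  classical
  refine ⟨∏ i, (if z₀ i = 0 then 1 else ‖z₀ i‖ / 2) ^ e i, Finset.prod_pos fun i _ => pow_pos ?_ _,
    ?_⟩
  · split_ifs with h
    · exact one_pos
    · have := norm_pos_iff.2 h
      positivity
  have h1 : ∀ᶠ z in 𝓝 z₀, ∀ i, z₀ i ≠ 0 → ‖z₀ i‖ / 2 ≤ ‖z i‖ := by
    refine eventually_all.2 fun i => ?_
    by_cases h : z₀ i = 0
    · exact Eventually.of_forall fun _ h' => (h' h).elim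
    have hc : ContinuousAt (fun z : Fin n → ℂ => ‖z i‖) z₀ :=
      (continuous_apply i).norm.continuousAt
    have := norm_pos_iff.2 h
    filter_upwards [continuousAt_const.eventually_lt hc (show ‖z₀ i‖ / 2 < ‖z₀ i‖ by linarith)]
      with z hz _ using hz.le
  filter_upwards [h1] with z hz s s0 s1 hs
  rw [← Finset.prod_pow_eq_pow_sum, ← Finset.prod_mul_distrib, norm_prod]
  refine Finset.prod_le_prod (fun i _ => ?_) fun i _ => ?_
  · split_ifs <;> positivity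
  rw [norm_pow, ← mul_pow]
  by_cases hi : e i = 0
  · simp [hi]
  refine pow_le_pow_left₀ (by split_ifs <;> positivity) ?_ _
  split_ifs with h
  · rw [one_mul]
    exact hs i hi h
  · have := hz i h
    nlinarith [norm_nonneg (z₀ i)]

/-- The gradient inequality for a holomorphic function which is comparable to a monomial. -/
theorem monomial_loj {g : (Fin n → ℂ) → ℂ} {z₀ : Fin n → ℂ} (hg : AnalyticAt ℂ g z₀)
    (hg0 : g z₀ = 0) {e : Fin n → ℕ} {C : ℝ} (hC : 0 < C)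
    (h : ∀ᶠ z in 𝓝 z₀, ‖g z‖ ≤ C * ‖∏ i, z i ^ e i‖ ∧ ‖∏ i, z i ^ e i‖ ≤ C * ‖g z‖) :
    ∃ θ K : ℝ, 0 < θ ∧ θ < 1 ∧ 0 < K ∧ ∀ᶠ z in 𝓝 z₀, ‖g z‖ ^ θ ≤ K * ‖fderiv ℂ g z‖ := by
  classical
  set I : Finset (Fin n) := Finset.univ.filter fun i => e i ≠ 0 ∧ z₀ i = 0 with hI
  have hne : I.Nonempty := by
    have h1 := h.self_of_nhds.2
    rw [hg0, norm_zero, mul_zero] at h1
    obtain ⟨i, -, hi⟩ := Finset.prod_eq_zero_iff.1 (norm_le_zero_iff.1 h1)
    obtain ⟨h2, h3⟩ := pow_eq_zero_iff'.1 hi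
    exact ⟨i, Finset.mem_filter.2 ⟨Finset.mem_univ _, h3, h2⟩⟩
  obtain ⟨c, hc, hl⟩ := monomial_lower z₀ e
  set E : ℕ := ∑ i, e i with hE
  have hlog : ∀ᶠ z in 𝓝 z₀, ∀ i ∈ I, ‖g z‖ ≤ 2 * C ^ 2 * (‖z i‖ * ‖fderiv ℂ g z‖) :=
    (eventually_all_finset I).2 fun i hi =>
      log_deriv hg hC h (Finset.mem_filter.1 hi).2.1 (Finset.mem_filter.1 hi).2.2
  have hsm : ∀ᶠ z in 𝓝 z₀, ∀ i ∈ I, ‖z i‖ ≤ 1 := by
    refine (eventually_all_finset I).2 fun i hi => ?_
    have hc : ContinuousAt (fun z : Fin n → ℂ => ‖z i‖) z₀ :=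
      (continuous_apply i).norm.continuousAt
    filter_upwards [hc.eventually_lt continuousAt_const
      (show ‖z₀ i‖ < 1 by rw [(Finset.mem_filter.1 hi).2.2, norm_zero]; exact one_pos)]
      with z hz using hz.le
  have hη : (0 : ℝ) < 1 / ((E : ℝ) + 2) := by positivity
  have hη1 : 1 / ((E : ℝ) + 2) < 1 := by
    rw [div_lt_one (by positivity)]
    have : (0 : ℝ) ≤ E := Nat.cast_nonneg E
    linarith
  refine ⟨1 - 1 / ((E : ℝ) + 2), 2 * C ^ 2 * (C / c) ^ (1 / ((E : ℝ) + 2)), by linarith,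
    by linarith, by positivity, ?_⟩
  filter_upwards [h, hl, hlog, hsm] with z h1 h2 h3 h4
  by_cases hgz : g z = 0
  · rw [hgz, norm_zero, Real.zero_rpow (by linarith)]
    positivity
  have hgp : 0 < ‖g z‖ := norm_pos_iff.2 hgz
  obtain ⟨i, hi, hmin⟩ := I.exists_min_image (fun i => ‖z i‖) hne
  have h5 := h2 ‖z i‖ (norm_nonneg _) (h4 i hi) fun j hj hj' =>
    hmin j (Finset.mem_filter.2 ⟨Finset.mem_univ _, hj, hj'⟩)
  have h6 : ‖z i‖ ^ (E + 2) ≤ C / c * ‖g z‖ := by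
    have h7 : ‖z i‖ ^ (E + 2) ≤ ‖z i‖ ^ E :=
      pow_le_pow_of_le_one (norm_nonneg _) (h4 i hi) (by omega)
    refine h7.trans ?_
    rw [div_mul_eq_mul_div, le_div_iff₀ hc]
    linarith [h1.2]
  have h8 : ‖z i‖ ≤ (C / c) ^ (1 / ((E : ℝ) + 2)) * ‖g z‖ ^ (1 / ((E : ℝ) + 2)) := by
    rw [← Real.mul_rpow (by positivity) hgp.le]
    have h9 := Real.rpow_le_rpow (by positivity) h6 hη.le
    rw [← Real.rpow_natCast, ← Real.rpow_mul (norm_nonneg _)] at h9
    have h10 : ((E + 2 : ℕ) : ℝ) * (1 / ((E : ℝ) + 2)) = 1 := by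
      push_cast
      field_simp
    rwa [h10, Real.rpow_one] at h9
  have hp : 0 < ‖g z‖ ^ (1 / ((E : ℝ) + 2)) := Real.rpow_pos_of_pos hgp _
  rw [Real.rpow_sub hgp, Real.rpow_one, div_le_iff₀ hp]
  refine (h3 i hi).trans ?_
  have h11 := mul_le_mul_of_nonneg_right h8 (norm_nonneg (fderiv ℂ g z))
  have h12 := mul_le_mul_of_nonneg_left h11 (show 0 ≤ 2 * C ^ 2 by positivity)
  refine h12.trans (le_of_eq ?_)
  ring

end Vale.Agent.P218F.Loj
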