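import Vale.Agent.P218F.KFin
import Vale.Agent.P218F.Loj

/-!
# Block K: the final theorem
-/

namespace Vale.Agent.P218F.K

theorem loj_proof : LojStmt := fun _ _ _ hg => Loj.lojC hg

/-- **Block K** -/
theorem k_proof : KStmt := k_of_loj loj_proof

end Vale.Agent.P218F.K
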