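import Vale.Agent.P218F.LSSpec
import Vale.Agent.P218F.CorePar
import Mathlib.Geometry.Manifold.PartitionOfUnity

/-! Existence of frames (helper69). -/

open MeasureTheory Set Filter Topology Metric Matrix
open scoped ContDiff RealInnerProductSpace Real Manifold

set_option maxSynthPendingDepth 3

noncomputable section

namespace Vale.Agent.P218F.LS

open Vale.Agent.P218FT hiding P2
open Vale.Agent.P218F.Core Vale.Agent.P218F.Ends Vale.Agent.P218F.Ft Vale.Agent.P218F.Mesh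

namespace Fr

/-- smooth selections of convex constraints -/
lemma exists_smooth {F : Type} [NormedAddCommGroup F] [NormedSpace ℝ F] {t : E3 → Set F}
    (ht : ∀ x, Convex ℝ (t x))
    (h : ∀ x, ∃ g : E3 → F, ∀ᶠ y in 𝓝 x, ContDiffAt ℝ ∞ g y ∧ g y ∈ t y) :
    ∃ g : E3 → F, ContDiff ℝ ∞ g ∧ ∀ x, g x ∈ t x := by
  obtain ⟨g, hg⟩ := exists_contMDiffMap_forall_mem_convex_of_local (n := ⊤) 𝓘(ℝ, E3) ht fun x => by
    obtain ⟨g, hg⟩ := h x
    exact ⟨_, hg, g, fun y hy => hy.1.contMDiffAt.contMDiffWithinAt, fun y hy => hy.2⟩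
  exact ⟨g, g.contMDiff.contDiff, hg⟩

lemma inner_crs_crs (a b u v : E3) :
    ⟪crs a b, crs u v⟫ = ⟪a, u⟫ * ⟪b, v⟫ - ⟪a, v⟫ * ⟪b, u⟫ := by
  simp [crs, cross_apply, PiLp.inner_apply, Fin.sum_univ_three]
  ring

lemma inner_crs_ne {a b c u v : E3} (h : Triple a b c)
    (hd : ⟪a, u⟫ * ⟪b, v⟫ - ⟪a, v⟫ * ⟪b, u⟫ ≠ 0) : ⟪c, crs u v⟫ ≠ 0 := by
  have h1 : ⟪a, crs a b⟫ = 0 := by
    simp [crs, cross_apply, PiLp.inner_apply, Fin.sum_univ_three]
    ring
  have h2 : ⟪b, crs a b⟫ = 0 := by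
    simp [crs, cross_apply, PiLp.inner_apply, Fin.sum_univ_three]
    ring
  rw [← inner_crs_crs, h.inner_eq, h1, h2] at hd
  intro e
  simp [e] at hd

variable {S : Set E3}

/-- conical ends are transversal to the conormal of the cone, far out -/
lemma cone_trans (D : EndData S) (i : Fin D.k) : ∀ᶠ y in atTop, ∀ p : P2, y ≤ p.1 →
    ⟪Wd D (.inr i) p, rn (fderiv ℝ (Kd D (.inr i)) p)⟫ ≠ 0 := by
  have hc := D.cone i
  have cv := hc.crv
  have dn : Continuous (deriv (D.n i)) := cv.smooth_n.continuous_deriv (by simp)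
  have pn : Function.Periodic (deriv (D.n i)) (2 * π) := fun θ => by
    rw [← deriv_comp_add_const]
    exact congrArg (fun f => deriv f θ) (funext cv.per_n)
  obtain ⟨M, hM⟩ := (pn.isBounded_of_continuous (by positivity) dn).exists_norm_le
  have M0 : 0 ≤ M := (norm_nonneg _).trans (hM _ (mem_range_self 0))
  obtain ⟨Z, hZ⟩ := hc.lim 0 (D.l i / (M + 1)) (by have := cv.lpos; positivity)
  filter_upwards [eventually_ge_atTop Z] with y hy p hp
  have h0 : |D.ψ i p| ≤ D.l i / (M + 1) := by simpa using hZ p.1 p.2 (hy.trans hp)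
  have t := cv.tri p.2
  have dγ := ((cv.smooth.differentiable (by simp) p.2).hasDerivAt.hasFDerivAt).comp p
    hasFDerivAt_snd
  have dν := ((cv.smooth_n.differentiable (by simp) p.2).hasDerivAt.hasFDerivAt).comp p
    hasFDerivAt_snd
  have de := (hasFDerivAt_fst (𝕜 := ℝ) (p := p)).exp
  have dψ := (hc.smooth.differentiable (by simp) p).hasFDerivAt
  have dK : HasFDerivAt (Kd D (.inr i)) _ p := (de.smul dγ).add ((de.mul dψ).smul dν)
  rw [dK.fderiv]
  refine inner_crs_ne t ?_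
  have hb : ⟪(D.l i)⁻¹ • deriv (D.γ i) p.2, deriv (D.γ i) p.2⟫ = D.l i := by
    have := t.nb
    rw [norm_smul, norm_inv, Real.norm_of_nonneg cv.lpos.le, inv_mul_eq_one₀ cv.lpos.ne'] at this
    rw [real_inner_smul_left, real_inner_self_eq_norm_sq, ← this]
    field_simp
  have hab : ⟪(D.l i)⁻¹ • deriv (D.γ i) p.2, D.γ i p.2⟫ = 0 := by rw [real_inner_comm]; exact t.ab
  have hm : |⟪(D.l i)⁻¹ • deriv (D.γ i) p.2, deriv (D.n i) p.2⟫| ≤ M := by
    refine (abs_real_inner_le_norm _ _).trans ?_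
    rw [t.nb, one_mul]
    exact hM _ (mem_range_self _)
  have hbc := t.bc
  have hac := t.ac
  generalize (D.l i)⁻¹ • deriv (D.γ i) p.2 = b at *
  simp [inner_add_right, real_inner_smul_right, hab, hbc, hac, hb, t.na, Wd]
  have h1 : |D.ψ i p * ⟪b, deriv (D.n i) p.2⟫| < D.l i := by
    rw [abs_mul]
    have := cv.lpos
    calc _ ≤ D.l i / (M + 1) * M := by gcongr
      _ < D.l i / (M + 1) * (M + 1) := by gcongr; linarith
      _ = _ := by field_simp
  have h2 := mul_pos (Real.exp_pos p.1) (show 0 < D.l i + D.ψ i p * ⟪b, deriv (D.n i) p.2⟫ by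
    linarith [neg_abs_le (D.ψ i p * ⟪b, deriv (D.n i) p.2⟫)])
  linarith

lemma per_int {F : Type} {f : P2 → F} (h : ∀ p : P2, f (p.1, p.2 + 2 * π) = f p) (p : P2)
    (k : ℤ) : f (p.1, p.2 + k * (2 * π)) = f p :=
  (Function.Periodic.int_mul (f := fun θ => f (p.1, θ)) (fun θ => h (p.1, θ)) k) p.2

variable {D : EndData S} {V₀ : E3 → ℝ}

lemma cd_Kd (hC : Charts S D) (j : JJ D) : ContDiff ℝ ∞ (Kd D j) :=
  (hC.smooth j).1.add ((hC.smooth j).2.2.smul (hC.smooth j).2.1)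

lemma inner_ne (hC : Charts S D) (h0 : IsEq0 S V₀) {j : JJ D} {p : P2} (hp : st D j < p.1)
    (h : ⟪Wd D j p, rn (fderiv ℝ (Kd D j) p)⟫ ≠ 0) : ⟪Wd D j p, gradient V₀ (Kd D j p)⟫ ≠ 0 := by
  have h1 : rn (fderiv ℝ (Kd D j) p) ≠ 0 := fun e => h (by simp [e])
  have hP := hC.par j p hp h1
  have h2 : fderiv ℝ (V₀ ∘ Kd D j) p = fderiv ℝ (fun _ => (0 : ℝ)) p :=
    EventuallyEq.fderiv_eq (hP.mem.mono fun z hz => (h0.zero _).1 hz)
  rw [fderiv_comp p (h0.smooth.differentiable (by simp) _) hP.differentiableAt] at h2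
  have h3 := eq_smul_rn h1 (n := gradient V₀ (Kd D j p)) fun a => by
    rw [real_inner_comm, inner_grad]
    simpa using congrArg (fun L => L a) h2
  generalize ⟪gradient V₀ (Kd D j p), _⟫ / _ = l at h3
  have h4 := h0.unit _ hP.self_mem
  rw [h3] at h4 ⊢
  rw [real_inner_smul_right]
  refine mul_ne_zero (fun e => ?_) h
  simp [e] at h4

lemma exists_sign (hC : Charts S D) (h0 : IsEq0 S V₀) (j : JJ D) {t : ℝ} (ht : st D j < t)
    (h : ∀ p : P2, t ≤ p.1 → ⟪Wd D j p, rn (fderiv ℝ (Kd D j) p)⟫ ≠ 0) :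
    ∃ σ : ℝ, (σ = 1 ∨ σ = -1) ∧
      ∀ p : P2, t ≤ p.1 → 0 < ⟪σ • Wd D j p, gradient V₀ (Kd D j p)⟫ := by
  have cv : Convex ℝ {p : P2 | t ≤ p.1} := convex_halfSpace_ge (LinearMap.fst ℝ ℝ ℝ).isLinear t
  have c : Continuous fun p => ⟪Wd D j p, gradient V₀ (Kd D j p)⟫ := (hC.smooth j).2.1.continuous.inner
    ((contDiff_grad h0.smooth).continuous.comp (cd_Kd hC j).continuous)
  rcases cv.isPreconnected.mapsTo_Ioi_or_Iio (b := 0) c.continuousOn
    (fun p hp => inner_ne hC h0 (ht.trans_le hp) (h p hp)) with h1 | h1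
  · exact ⟨1, Or.inl rfl, fun p hp => by simpa using h1 hp⟩
  · exact ⟨-1, Or.inr rfl, fun p hp => by simpa using h1 hp⟩

/-- the transversal field -/
lemma exists_field (hC : Charts S D) (h0 : IsEq0 S V₀) {t σ : JJ D → ℝ} {ρ : ℝ}
    (ht : ∀ j, st D j < t j) (hr : ∀ j (p : P2), t j ≤ p.1 → rn (fderiv ℝ (Kd D j) p) ≠ 0)
    (hσ : ∀ j (p : P2), t j ≤ p.1 → 0 < ⟪σ j • Wd D j p, gradient V₀ (Kd D j p)⟫)
    (hρ : ∀ j (p : P2), t j ≤ p.1 → ρ < ‖Kd D j p‖) :
    ∃ V : E3 → E3, ContDiff ℝ ∞ V ∧ (∀ x ∈ S, 0 < ⟪V x, gradient V₀ x⟫) ∧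
      (∀ x, ‖x‖ ≤ ρ → V x = gradient V₀ x) ∧
      ∀ j (p : P2), t j ≤ p.1 → V (Kd D j p) = σ j • Wd D j p := by
  have hg := contDiff_grad h0.smooth
  obtain ⟨V, h1, h2⟩ := exists_smooth (t := fun x => {v | (x ∈ S → 0 < ⟪v, gradient V₀ x⟫) ∧
      (‖x‖ ≤ ρ → v = gradient V₀ x) ∧
      ∀ j (p : P2), t j ≤ p.1 → x = Kd D j p → v = σ j • Wd D j p}) (fun x => by
    intro v hv w hw a b ha hb hab
    refine ⟨fun hx => ?_, fun hx => ?_, fun j p hp hx => ?_⟩
    · rw [inner_add_left, real_inner_smul_left, real_inner_smul_left]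
      have := hv.1 hx
      have := hw.1 hx
      rcases ha.eq_or_lt with rfl | ha
      · rw [zero_add] at hab
        simpa [hab]
      · positivity
    · rw [hv.2.1 hx, hw.2.1 hx, ← add_smul, hab, one_smul]
    · rw [hv.2.2 j p hp hx, hw.2.2 j p hp hx, ← add_smul, hab, one_smul]) fun x => by
    by_cases hx : ∃ j, x ∈ Kd D j '' {p | t j ≤ p.1}
    · obtain ⟨j, p, hp, rfl⟩ := hx
      have hP := hC.par j p ((ht j).trans_le hp) (hr j p hp)
      obtain ⟨ψ, a1, a2, a3⟩ := hP.exists_inv h0.shr.1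
      have a4 : Tendsto ψ (𝓝 (Kd D j p)) (𝓝 p) := by
        have := a1.self_of_nhds.continuousAt.tendsto
        rwa [a2.self_of_nhds] at this
      have a5 : Tendsto (fun y => ⟪σ j • Wd D j (ψ y), gradient V₀ y⟫) (𝓝 (Kd D j p))
          (𝓝 ⟪σ j • Wd D j p, gradient V₀ (Kd D j p)⟫) :=
        ((((hC.smooth j).2.1.continuous.tendsto p).comp a4).const_smul (σ j)).inner
          (hg.continuous.tendsto _)
      refine ⟨fun y => σ j • Wd D j (ψ y), ?_⟩
      filter_upwards [a1, a3, a5.eventually (lt_mem_nhds (hσ j p hp)),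
        (continuous_norm.tendsto _).eventually (lt_mem_nhds (hρ j p hp)),
        ((continuous_fst.tendsto p).comp a4).eventually (lt_mem_nhds ((ht j).trans_le hp))]
        with y b1 b3 b4 b5 b6
      refine ⟨((hC.smooth j).2.1.contDiffAt.comp y b1).const_smul _, fun _ => b4,
        fun h => absurd b5 (not_lt.2 h), fun j' p' hp' e => ?_⟩
      have m := hC.mem j' p' ((ht j').le.trans hp')
      obtain ⟨rfl, e1, k, e2⟩ := hC.inj j j' (ψ y) p' b6.le ((ht j').le.trans hp')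
        ((b3 (e ▸ m)).trans e)
      rw [show p' = ((ψ y).1, (ψ y).2 + k * (2 * π)) from Prod.ext e1 e2,
        per_int fun q => (hC.per j q).2.1]
    · refine ⟨gradient V₀, ?_⟩
      push Not at hx
      filter_upwards [eventually_all.2 fun j =>
        (hC.closed j _ (ht j).le).isOpen_compl.mem_nhds (hx j)] with y hy
      refine ⟨hg.contDiffAt, fun h => ?_, fun _ => rfl, fun j p hp e => absurd ⟨p, hp, e.symm⟩ (hy j)⟩
      rw [real_inner_self_eq_norm_sq, h0.unit y h]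
      norm_num
  exact ⟨V, h1, fun x hx => (h2 x).1 hx, fun x hx => (h2 x).2.1 hx,
    fun j p hp => (h2 _).2.2 j p hp rfl⟩

/-- the cut-off functions of the tilts -/
lemma exists_chi (hC : Charts S D) (j : Fin D.m) {z : ℝ} (hz : D.R₀ < z) :
    ∃ χ : E3 → ℝ, ContDiff ℝ ∞ χ ∧
      (∀ p : P2, D.R₀ ≤ p.1 → χ (Kd D (.inl j) p) = Real.smoothTransition (p.1 - z)) ∧
      ∀ x ∈ S, (∀ p : P2, z ≤ p.1 → x ≠ Kd D (.inl j) p) → χ x = 0 := by
  obtain ⟨χ, h1, h2⟩ := exists_smooth (t := fun x => {v : ℝ |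
      (∀ p : P2, D.R₀ ≤ p.1 → x = Kd D (.inl j) p → v = Real.smoothTransition (p.1 - z)) ∧
      (x ∈ S → (∀ p : P2, z ≤ p.1 → x ≠ Kd D (.inl j) p) → v = 0)}) (fun x => by
    intro v hv w hw a b ha hb hab
    refine ⟨fun p hp hx => ?_, fun hx h => ?_⟩
    · rw [hv.1 p hp hx, hw.1 p hp hx, ← add_smul, hab, one_smul]
    · simp [hv.2 hx h, hw.2 hx h]) fun x => by
    by_cases hx : x ∈ Kd D (.inl j) '' {p | z ≤ p.1}
    · obtain ⟨p, hp, rfl⟩ := hx
      refine ⟨fun y => Real.smoothTransition (⟪D.c j, y⟫ - z), ?_⟩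
      filter_upwards [hC.isOpen (.inl j) D.R₀ le_rfl p (hz.trans_le hp) (hC.imm j p).1] with y hy
      refine ⟨(Real.smoothTransition.contDiff.comp
        ((contDiff_const.inner ℝ contDiff_id).sub contDiff_const)).contDiffAt,
        fun q _ e => by rw [e, hC.height], fun m h => ?_⟩
      obtain ⟨q, -, rfl⟩ := hy m
      rw [hC.height]
      exact Real.smoothTransition.zero_of_nonpos (by
        by_contra hh
        exact h q (by linarith) rfl)
    · refine ⟨fun _ => 0, ?_⟩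
      filter_upwards [(hC.closed (.inl j) z hz.le).isOpen_compl.mem_nhds hx] with y hy
      refine ⟨contDiffAt_const, fun q _ e => ?_, fun _ _ => rfl⟩
      exact (Real.smoothTransition.zero_of_nonpos (by
        by_contra hh
        exact hy ⟨q, show z ≤ q.1 by linarith, e.symm⟩)).symm
  exact ⟨χ, h1, fun p hp => (h2 _).1 p hp rfl, fun x hx => (h2 x).2 hx⟩

end Fr

open Fr in
/-- the first half of `FrameStmt` -/
theorem exists_frame {S : Set E3} {D : EndData S} {V₀ : E3 → ℝ} (hC : Charts S D)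
    (h0 : IsEq0 S V₀) : ∃ Z : ℝ, ∀ z₀ ya : ℝ, Z ≤ z₀ → Real.log (z₀ + 8) + 3 ≤ ya →
      ∃ F : Frm S, F.D = D ∧ F.V₀ = V₀ ∧ F.z₀ = z₀ ∧ F.ya = ya ∧ F.OK := by
  obtain ⟨Y, hY, hY'⟩ := ((eventually_all.2 (cone_trans D)).and
    (eventually_gt_atTop (Real.log D.R₀))).exists
  have R0 : 0 < D.R₀ := by
    by_contra h
    nlinarith [D.big, D.δpos]
  refine ⟨max (2 * D.R₀) (Real.exp (Y + 1)), fun z₀ ya hz hy => ?_⟩
  have z1 : 2 * D.R₀ ≤ z₀ := (le_max_left _ _).trans hz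
  have y1 : Y ≤ ya - 4 := by
    have := Real.log_le_log (Real.exp_pos _)
      (show Real.exp (Y + 1) ≤ z₀ + 8 by linarith [(le_max_right _ _).trans hz])
    rw [Real.log_exp] at this
    linarith
  set s : JJ D → ℝ := Sum.elim (fun _ => z₀ + 11) fun _ => ya with hs
  have ht : ∀ j, st D j < s j - 4 := by
    rintro (j | i) <;> simp only [st, hs, Sum.elim_inl, Sum.elim_inr] <;> linarith
  have tr : ∀ j (p : P2), s j - 4 ≤ p.1 → ⟪Wd D j p, rn (fderiv ℝ (Kd D j) p)⟫ ≠ 0 := by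
    rintro (j | i) p hp
    · exact (hC.imm j p).2
    · exact hY i p (y1.trans hp)
  have im : ∀ j (p : P2), s j - 4 ≤ p.1 → rn (fderiv ℝ (Kd D j) p) ≠ 0 :=
    fun j p hp e => tr j p hp (by simp [e])
  choose σ σ1 σ2 using fun j => exists_sign hC h0 j (ht j) (tr j)
  obtain ⟨V, v1, v2, v3, v4⟩ := exists_field hC h0 (t := fun j => s j - 3) (σ := σ) (ρ := z₀ + 6)
    (fun j => by linarith [ht j]) (fun j p hp => im j p (by linarith))
    (fun j p hp => σ2 j p (by linarith)) (by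
      rintro (j | i) p hp <;> simp only [hs, Sum.elim_inl, Sum.elim_inr] at hp
      · linarith [(hC.norm_cyl j p (by linarith)).1]
      · have := Real.exp_le_exp.2 (show Real.log (z₀ + 8) ≤ p.1 by linarith)
        rw [Real.exp_log (by linarith)] at this
        linarith [(hC.norm_cone i p).1])
  choose χ c1 c2 c3 using fun j => exists_chi hC j (z := z₀ + 8) (by linarith)
  refine ⟨⟨D, V₀, z₀, ya, V, σ, χ⟩, rfl, rfl, rfl, rfl, h0, z1, hy, v1, v2,
    fun x _ hx => v3 x hx, σ1, ?_, c1, c2, c3, ?_⟩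
  · rintro (j | i) p hp <;> exact v4 _ p hp
  · rintro (j | i) p hp <;> exact im _ p hp

end Vale.Agent.P218F.LS
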