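import Vale.Agent.P218F.LSSpec
import Vale.Agent.P218F.LSFrame
import Vale.Agent.P218F.EndsCyl

/-! The charts of the ends, the geometry of the core problem, finite atlases. -/

open MeasureTheory Set Filter Topology Metric Matrix
open scoped ContDiff RealInnerProductSpace Real

set_option maxSynthPendingDepth 3

noncomputable section

namespace Vale.Agent.P218F.LS

open Vale.Agent.P218FT hiding P2
open Vale.Agent.P218F.Core Vale.Agent.P218F.Ends Vale.Agent.P218F.Ft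

namespace Ch

variable {S : Set E3}

lemma inner_crs_left (u v : E3) : ⟪u, crs u v⟫ = 0 := by
  simp [crs, cross_apply, PiLp.inner_apply, Fin.sum_univ_three]; ring

lemma inner_crs_right (u v : E3) : ⟪v, crs u v⟫ = 0 := by
  simp [crs, cross_apply, PiLp.inner_apply, Fin.sum_univ_three]; ring

lemma norm_crs_sq (u v : E3) : ‖crs u v‖ ^ 2 = ‖u‖ ^ 2 * ‖v‖ ^ 2 - ⟪u, v⟫ ^ 2 := by
  simp [crs, cross_apply, PiLp.inner_apply, Fin.sum_univ_three, EuclideanSpace.norm_sq_eq]; ring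

lemma inner_crs_shear (W u v : E3) (s t r r' : ℝ) :
    ⟪W, crs (r' • u + s • W) (t • W + r • v)⟫ = r' * r * ⟪W, crs u v⟫ := by
  simp [crs, cross_apply, PiLp.inner_apply, Fin.sum_univ_three]; ring

lemma triple_det {a b c : E3} (T : Triple a b c) : ⟪a, crs c b⟫ ^ 2 = 1 := by
  have h1 := T.norm_sq (crs c b)
  rw [norm_crs_sq, inner_crs_left, inner_crs_right, T.nb, T.nc, real_inner_comm, T.bc] at h1
  linarith

lemma R0_pos (D : EndData S) : 4 ≤ D.R₀ := by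
  have h1 := D.big
  have h2 := D.δpos
  have h3 := D.δle
  have h4 : 0 < D.R₀ := (mul_pos_iff_of_pos_left h2).1 (by linarith)
  nlinarith

lemma smooth (D : EndData S) (j : JJ D) :
    ContDiff ℝ ∞ (Bs D j) ∧ ContDiff ℝ ∞ (Wd D j) ∧ ContDiff ℝ ∞ (gS D j) := by
  rcases j with j | i
  · exact ⟨contDiff_fst.smul contDiff_const,
      ((Real.contDiff_cos.comp contDiff_snd).smul contDiff_const).add
        ((Real.contDiff_sin.comp contDiff_snd).smul contDiff_const), (D.cyl j).smooth⟩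
  · exact ⟨(Real.contDiff_exp.comp contDiff_fst).smul ((D.cone i).crv.smooth.comp contDiff_snd),
      (D.cone i).crv.smooth_n.comp contDiff_snd,
      (Real.contDiff_exp.comp contDiff_fst).mul (D.cone i).smooth⟩

lemma contDiff_Kd (D : EndData S) (j : JJ D) : ContDiff ℝ ∞ (Kd D j) :=
  (smooth D j).1.add ((smooth D j).2.2.smul (smooth D j).2.1)

lemma per (D : EndData S) (j : JJ D) (p : P2) : Bs D j (p.1, p.2 + 2 * π) = Bs D j p ∧
    Wd D j (p.1, p.2 + 2 * π) = Wd D j p ∧ gS D j (p.1, p.2 + 2 * π) = gS D j p := by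
  rcases j with j | i
  · exact ⟨rfl, by simp only [Wd, Real.cos_add_two_pi, Real.sin_add_two_pi], (D.cyl j).per _ _⟩
  · exact ⟨by simp only [Bs, (D.cone i).crv.per], (D.cone i).crv.per_n _,
      by simp only [gS, (D.cone i).per]⟩

lemma Kd_per (D : EndData S) (j : JJ D) (p : P2) : Kd D j (p.1, p.2 + 2 * π) = Kd D j p := by
  simp only [Kd, (per D j p).1, (per D j p).2.1, (per D j p).2.2]

lemma r_le (D : EndData S) (j : Fin D.m) {p : P2} (h : D.R₀ ≤ p.1) : D.r j p ≤ D.δ * p.1 := by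
  have := mul_le_mul_of_nonneg_left h D.δpos.le
  linarith [D.big, ((D.cyl j).bd p).2]

lemma psi_le (D : EndData S) (i : Fin D.k) (p : P2) : |D.ψ i p| ≤ D.δ := by
  linarith [(D.cone i).bd p, D.δpos]

lemma mem (D : EndData S) (j : JJ D) (p : P2) (h : st D j ≤ p.1) : Kd D j p ∈ S := by
  rcases j with j | i
  · rw [Kd_inl]
    exact ((D.cyl j).mem _ _ _ h (by linarith [((D.cyl j).bd p).1]) (r_le D j h)).2 rfl
  · rw [Kd_inr]
    exact ((D.cone i).mem _ _ _ h (psi_le D i p)).2 rfl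

lemma height (D : EndData S) (j : Fin D.m) (p : P2) : ⟪D.c j, Kd D (.inl j) p⟫ = p.1 := by
  rw [Kd_inl, Cyl.inner_cylPt (D.cyl j).tri]

lemma mem_cylReg (D : EndData S) (j : Fin D.m) {p : P2} (h : D.R₀ ≤ p.1) :
    Kd D (.inl j) p ∈ cylReg (D.c j) D.δ := by
  refine ⟨by rw [height]; linarith [R0_pos D], ?_⟩
  rw [height, Kd_inl, Cyl.norm_pt_cylPt (D.cyl j).tri _ _ (by linarith [((D.cyl j).bd p).1])]
  exact r_le D j h

lemma mem_coneReg (D : EndData S) (i : Fin D.k) (p : P2) :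
    Kd D (.inr i) p ∈ coneReg (D.γ i) (D.n i) D.δ := ⟨_, _, _, psi_le D i p, Kd_inr D i p⟩

lemma inj (D : EndData S) (j j' : JJ D) (p p' : P2) (h : st D j ≤ p.1) (h' : st D j' ≤ p'.1)
    (e : Kd D j p = Kd D j' p') : j = j' ∧ p'.1 = p.1 ∧ ∃ k : ℤ, p'.2 = p.2 + k * (2 * π) := by
  rcases j with j | i <;> rcases j' with j' | i'
  · obtain rfl : j = j' := by
      by_contra hc
      exact disjoint_left.1 (D.disj_cc j j' hc) (mem_cylReg D j h) (e ▸ mem_cylReg D j' h')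
    have T := (D.cyl j).tri
    have h1 : p'.1 = p.1 := by rw [← height D j p, e, height]
    refine ⟨rfl, h1, ?_⟩
    have r1 := ((D.cyl j).bd p).1
    have r2 := ((D.cyl j).bd p').1
    rw [Kd_inl, Kd_inl] at e
    have h2 : D.r j p = D.r j p' := by
      rw [← Cyl.norm_pt_cylPt T p.1 p.2 (ρ := D.r j p) (by linarith), e,
        Cyl.norm_pt_cylPt T _ _ (by linarith)]
    have ba : ⟪D.b j, D.a j⟫ = 0 := by rw [real_inner_comm]; exact T.ab
    have h3 := congrArg (fun x => ⟪D.a j, x⟫) e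
    have h4 := congrArg (fun x => ⟪D.b j, x⟫) e
    simp only [cylPt, inner_add_right, real_inner_smul_right, ba, T.ab, T.ac, T.bc,
      real_inner_self_eq_norm_sq, T.na, T.nb, h2, mul_zero, add_zero, zero_add, one_pow,
      mul_one] at h3 h4
    obtain ⟨k, hk⟩ := Real.Angle.angle_eq_iff_two_pi_dvd_sub.1 (Real.Angle.cos_sin_inj
      (mul_left_cancel₀ (by linarith) h3).symm (mul_left_cancel₀ (by linarith) h4).symm)
    exact ⟨k, by linarith⟩
  · exact (disjoint_left.1 (D.disj_ck j i') (mem_cylReg D j h) (e ▸ mem_coneReg D i' p')).elim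
  · exact (disjoint_left.1 (D.disj_ck j' i) (mem_cylReg D j' h') (e ▸ mem_coneReg D i p)).elim
  · obtain rfl : i = i' := by
      by_contra hc
      exact disjoint_left.1 (D.disj_kk i i' hc) (mem_coneReg D i p) (e ▸ mem_coneReg D i' p')
    rw [Kd_inr, Kd_inr] at e
    obtain ⟨h1, -, h2⟩ := (D.cone i).crv.inj _ _ _ _ _ _ (psi_le D i p) (psi_le D i p') e
    exact ⟨rfl, h1.symm, h2⟩

/-- the partial derivatives of the cylindrical charts -/
lemma fderiv_cyl (D : EndData S) (j : Fin D.m) (p v : P2) : fderiv ℝ (Kd D (.inl j)) p v =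
    v.1 • D.c j + fderiv ℝ (D.r j) p v • Wd D (.inl j) p +
      (D.r j p * v.2) • ((-Real.sin p.2) • D.a j + Real.cos p.2 • D.b j) := by
  have h0 : HasFDerivAt (Prod.snd : P2 → ℝ) (ContinuousLinearMap.snd ℝ ℝ ℝ) p := hasFDerivAt_snd
  have h1 : HasFDerivAt (Wd D (.inl j)) _ p :=
    (((Real.hasDerivAt_cos p.2).comp_hasFDerivAt p h0).smul_const (D.a j)).add
      (((Real.hasDerivAt_sin p.2).comp_hasFDerivAt p h0).smul_const (D.b j))
  have h2 : HasFDerivAt (Kd D (.inl j)) _ p := (hasFDerivAt_fst.smul_const (D.c j)).add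
    ((((D.cyl j).smooth.differentiable (by simp)) p).hasFDerivAt.smul h1)
  rw [h2.fderiv]
  simp only [_root_.add_apply, ContinuousLinearMap.smulRight_apply,
    _root_.smul_apply, ContinuousLinearMap.coe_fst', ContinuousLinearMap.coe_snd',
    smul_eq_mul]
  module

lemma imm (D : EndData S) (j : Fin D.m) (p : P2) :
    ⟪Wd D (.inl j) p, rn (fderiv ℝ (Kd D (.inl j)) p)⟫ ^ 2 = D.r j p ^ 2 := by
  have T := Cyl.triple_rot (D.cyl j).tri p.2
  have := inner_crs_shear (Wd D (.inl j) p) (D.c j) ((-Real.sin p.2) • D.a j + Real.cos p.2 • D.b j)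
    (fderiv ℝ (D.r j) p (1, 0)) (fderiv ℝ (D.r j) p (0, 1)) (D.r j p) 1
  rw [rn, fderiv_cyl, fderiv_cyl]
  simp only [mul_zero, zero_smul, add_zero, zero_add, mul_one]
  rw [this, mul_pow, show ⟪Wd D (.inl j) p, _⟫ ^ 2 = 1 from triple_det T]
  ring

lemma norm_cyl (D : EndData S) (j : Fin D.m) (p : P2) (h : 0 ≤ p.1) :
    p.1 ≤ ‖Kd D (.inl j) p‖ ∧ ‖Kd D (.inl j) p‖ ≤ p.1 + 2 := by
  have h1 := Cyl.norm_cylPt_sq (D.cyl j).tri p.1 p.2 (D.r j p)
  have h2 := (D.cyl j).bd p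
  rw [← Kd_inl] at h1
  exact ⟨(abs_le_of_sq_le_sq' (by nlinarith) (norm_nonneg _)).2,
    (abs_le_of_sq_le_sq' (by nlinarith) (by linarith)).2⟩

lemma norm_cone (D : EndData S) (i : Fin D.k) (p : P2) :
    Real.exp p.1 ≤ ‖Kd D (.inr i) p‖ ∧ ‖Kd D (.inr i) p‖ ≤ 2 * Real.exp p.1 := by
  have T := (D.cone i).crv.tri p.2
  have h1 : ‖D.γ i p.2 + D.ψ i p • D.n i p.2‖ ^ 2 = 1 + D.ψ i p ^ 2 := by
    rw [norm_add_sq_real, real_inner_smul_right, T.ac, norm_smul, T.na, T.nc, mul_one,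
      Real.norm_eq_abs, sq_abs]
    ring
  have h2 := abs_le.1 ((psi_le D i p).trans D.δle)
  have h3 : 1 ≤ ‖D.γ i p.2 + D.ψ i p • D.n i p.2‖ :=
    (abs_le_of_sq_le_sq' (by nlinarith) (norm_nonneg _)).2
  have h4 : ‖D.γ i p.2 + D.ψ i p • D.n i p.2‖ ≤ 2 :=
    (abs_le_of_sq_le_sq' (by nlinarith) (by norm_num)).2
  rw [Kd_inr, conePt, norm_smul, Real.norm_eq_abs, abs_of_pos (Real.exp_pos _)]
  have := Real.exp_pos p.1
  constructor <;> nlinarith

lemma fst_le_norm (D : EndData S) (j : JJ D) (p : P2) : p.1 ≤ ‖Kd D j p‖ := by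
  rcases j with j | i
  · rcases le_total 0 p.1 with h | h
    · exact (norm_cyl D j p h).1
    · exact h.trans (norm_nonneg _)
  · linarith [(norm_cone D i p).1, Real.add_one_le_exp p.1]

lemma isCompact_band (D : EndData S) (j : JJ D) (a b : ℝ) :
    IsCompact (Kd D j '' {p | p.1 ∈ Icc a b}) := by
  have := Core.isCompact_band (J := Unit) (f := fun _ => Kd D j) (a := a) (b := b)
    (fun _ y _ => (contDiff_Kd D j).continuous.continuousAt) fun _ y => Kd_per D j y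
  convert this using 1
  ext x
  simp

lemma closed (D : EndData S) (j : JJ D) (t : ℝ) : IsClosed (Kd D j '' {p | t ≤ p.1}) := by
  refine isClosed_of_closure_subset fun x hx => ?_
  have h1 : x ∈ closure (ball x 1 ∩ Kd D j '' {p | t ≤ p.1}) :=
    isOpen_ball.inter_closure ⟨mem_ball_self one_pos, hx⟩
  have h2 : ball x 1 ∩ Kd D j '' {p | t ≤ p.1} ⊆ Kd D j '' {p | p.1 ∈ Icc t (‖x‖ + 1)} := by
    rintro _ ⟨h, p, hp, rfl⟩
    refine ⟨p, ⟨hp, (fst_le_norm D j p).trans ?_⟩, rfl⟩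
    rw [mem_ball, dist_eq_norm] at h
    linarith [norm_le_insert' (Kd D j p) x]
  obtain ⟨p, hp, e⟩ := (isCompact_band D j _ _).isClosed.closure_subset (closure_mono h2 h1)
  exact ⟨p, hp.1, e⟩

lemma par (D : EndData S) (j : JJ D) (p : P2) (h : st D j < p.1)
    (hr : rn (fderiv ℝ (Kd D j) p) ≠ 0) : Par S (Kd D j) p :=
  ⟨Eventually.of_forall fun _ => (contDiff_Kd D j).contDiffAt, injective_of_rn hr,
    (continuous_fst.continuousAt.eventually (lt_mem_nhds h)).mono fun z hz => mem D j z hz.le⟩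

lemma isOpen (hS : IsSurf S) (D : EndData S) (j : JJ D) (t : ℝ) (ht : st D j ≤ t) (p : P2)
    (h : t < p.1) (hr : rn (fderiv ℝ (Kd D j) p) ≠ 0) :
    ∀ᶠ x in 𝓝 (Kd D j p), x ∈ S → ∃ p' : P2, t < p'.1 ∧ x = Kd D j p' := by
  rw [← eventually_nhdsWithin_iff, ← (par D j p (ht.trans_lt h) hr).map_nhds hS, eventually_map]
  exact (continuous_fst.continuousAt.eventually (lt_mem_nhds h)).mono fun z hz => ⟨z, hz, rfl⟩

lemma cover (D : EndData S) {x : E3} (hx : x ∈ S) (h : 2 * D.R₀ ≤ ‖x‖) :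
    ∃ j p, st D j ≤ p.1 ∧ x = Kd D j p := by
  rcases D.cover x hx h with ⟨j, z, θ, h1, h2⟩ | ⟨i, y, θ, h1, h2⟩
  · exact ⟨.inl j, (z, θ), h1, by rw [Kd_inl]; exact h2⟩
  · exact ⟨.inr i, (y, θ), h1, by rw [Kd_inr]; exact h2⟩

lemma cpt (hS : IsSurf S) (D : EndData S) (t : JJ D → ℝ) (ht : ∀ j, st D j ≤ t j)
    (hr : ∀ j (p : P2), t j < p.1 → rn (fderiv ℝ (Kd D j) p) ≠ 0) :
    IsCompact {x | x ∈ S ∧ ∀ j (p : P2), t j < p.1 → x ≠ Kd D j p} := by
  refine ((isCompact_closedBall (0 : E3) (2 * D.R₀)).union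
    (isCompact_iUnion fun j => isCompact_band D j (st D j) (t j))).of_isClosed_subset ?_ ?_
  · refine isOpen_compl_iff.1 (isOpen_iff_mem_nhds.2 fun x hx => ?_)
    by_cases hxS : x ∈ S
    · obtain ⟨j, p, hp, rfl⟩ : ∃ j p, t j < p.1 ∧ x = Kd D j p := by
        by_contra hc
        exact hx ⟨hxS, fun j p hp e => hc ⟨j, p, hp, e⟩⟩
      filter_upwards [isOpen hS D j (t j) (ht j) p hp (hr j p hp)] with y hy hy'
      obtain ⟨p', h1, h2⟩ := hy hy'.1
      exact hy'.2 j p' h1 h2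
    · filter_upwards [hS.1.isOpen_compl.mem_nhds hxS] with y hy hy' using hy hy'.1
  · rintro x ⟨hx, h⟩
    rcases le_total ‖x‖ (2 * D.R₀) with h1 | h1
    · exact Or.inl (mem_closedBall_zero_iff.2 h1)
    · obtain ⟨j, p, h2, e⟩ := cover D hx h1
      exact Or.inr (mem_iUnion.2 ⟨j, p, ⟨h2, not_lt.1 fun h3 => h j p h3 e⟩, e.symm⟩)

end Ch

theorem chart_proof : ChartStmt := fun _ D hS =>
  { smooth := Ch.smooth D
    per := Ch.per D
    mem := Ch.mem D
    inj := Ch.inj D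
    imm := fun j p => by
      have h : ⟪Wd D (.inl j) p, rn (fderiv ℝ (Kd D (.inl j)) p)⟫ ≠ 0 := fun h => by
        have h1 := Ch.imm D j p
        rw [h] at h1
        nlinarith [((D.cyl j).bd p).1]
      exact ⟨fun h0 => h (by rw [h0, inner_zero_right]), h⟩
    closed := fun j t _ => Ch.closed D j t
    par := Ch.par D
    isOpen := Ch.isOpen hS D
    cpt := Ch.cpt hS D
    height := Ch.height D
    norm_cyl := Ch.norm_cyl D
    norm_cone := Ch.norm_cone D }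

/-- the geometry of the core problem for any choice `s` of the trace circles -/
theorem geo_of {S : Set E3} (hS : IsSurf S) (hne : S.Nonempty) (D : EndData S) (s : JJ D → ℝ)
    (hs : ∀ j, st D j + 1 ≤ s j)
    (hr : ∀ j (p : P2), s j - 1 < p.1 → rn (fderiv ℝ (Kd D j) p) ≠ 0) :
    Core.Geo S {x | x ∈ S ∧ ∀ j (p : P2), s j < p.1 → x ≠ Kd D j p}
      fun j p => Kd D j (s j + p.1, p.2) := by
  have hm : ∀ j (y : P2), -1 < y.1 → (Kd D j (s j + y.1, y.2) ∈
      {x | x ∈ S ∧ ∀ j (p : P2), s j < p.1 → x ≠ Kd D j p} ↔ y.1 ≤ 0) := fun j y hy => by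
    have h1 : st D j ≤ s j + y.1 := by linarith [hs j]
    refine ⟨fun h => not_lt.1 fun h2 => h.2 j _ (by simpa using h2) rfl,
      fun h => ⟨Ch.mem D j _ h1, fun j' p hp e => ?_⟩⟩
    obtain ⟨rfl, h2, -⟩ := Ch.inj D j j' _ _ h1 (by linarith [hs j']) e
    simp only at h2
    linarith
  refine ⟨hS, Ch.cpt hS D s (fun j => by linarith [hs j]) fun j p hp => hr j p (by linarith), ?_,
    fun x hx => hx.1, fun j y hy => ?_, fun j y => Ch.Kd_per D j (s j + y.1, y.2),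
    fun j j' y y' hy hy' e => ?_, fun j y hy => hm j y hy.1, fun x hx => ?_⟩
  · obtain ⟨x, hx⟩ := hne
    by_cases h : ∃ j, ∃ p : P2, s j < p.1 ∧ x = Kd D j p
    · obtain ⟨j, -⟩ := h
      exact ⟨_, (hm j 0 (by simp)).2 le_rfl⟩
    · exact ⟨x, hx, fun j p hp e => h ⟨j, p, hp, e⟩⟩
  · have hψ : ContDiff ℝ ∞ fun z : P2 => ((s j + z.1, z.2) : P2) :=
      (contDiff_const.add contDiff_fst).prodMk contDiff_snd
    have hd : HasFDerivAt (fun z : P2 => ((s j + z.1, z.2) : P2)) (ContinuousLinearMap.id ℝ P2) y := by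
      have e : (fun z : P2 => ((s j + z.1, z.2) : P2)) = fun z => ((s j, 0) : P2) + id z := by
        funext z; simp [Prod.ext_iff]
      rw [e]
      exact (hasFDerivAt_id y).const_add _
    refine Par.comp (ψ := fun z : P2 => ((s j + z.1, z.2) : P2))
      (Ch.par D j _ (by linarith [hs j, hy.1]) (hr j _ (by linarith [hy.1])))
      (Eventually.of_forall fun _ => hψ.contDiffAt) ?_
    rw [hd.fderiv]
    exact Function.injective_id
  · obtain ⟨rfl, h1, h2⟩ := Ch.inj D j j' _ _ (by linarith [hs j, hy.1])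
      (by linarith [hs j', hy'.1]) e
    exact ⟨rfl, by simpa using h1, h2⟩
  · by_cases h : ∃ j θ, x = Kd D j (s j + 0, θ)
    · exact Or.inl h
    right
    have h1 : ∀ j, ∀ᶠ x' in 𝓝 x, x' ∉ Kd D j '' {p | s j ≤ p.1} := fun j => by
      refine (Ch.closed D j (s j)).isOpen_compl.mem_nhds ?_
      rintro ⟨p, hp, e⟩
      rcases (show s j ≤ p.1 from hp).eq_or_lt with h2 | h2
      · exact h ⟨j, p.2, by rw [add_zero, h2, e]⟩
      · exact hx.2 j p h2 e.symm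
    filter_upwards [eventually_all.2 h1] with x' h2 h3
    exact ⟨h3, fun j p hp e => h2 j ⟨p, hp.le, e.symm⟩⟩

/-- finite atlases of a compact part `C` of `S` which avoid a closed set `A` -/
theorem exists_atlas {S C A : Set E3} (hS : IsSurf S) (hC : IsCompact C) (hCS : C ⊆ S)
    (hA : IsClosed A) (hd : ∀ x ∈ C, x ∉ A) :
    ∃ (n : ℕ) (K : Fin n → P2 → E3) (y : Fin n → P2) (r : Fin n → ℝ), (∀ k, 0 < r k) ∧
      (∀ k, ∀ ξ ∈ ball (y k) (2 * r k), Par S (K k) ξ ∧ K k ξ ∉ A) ∧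
      (∀ k, InjOn (K k) (ball (y k) (2 * r k))) ∧
      ∀ x ∈ C, ∃ k, ∃ ξ ∈ ball (y k) (r k), K k ξ = x := by
  have h : ∀ x : C, ∃ (φ : P2 → E3) (y : P2) (r : ℝ), 0 < r ∧
      (∀ ξ ∈ ball y (2 * r), Par S φ ξ ∧ φ ξ ∉ A) ∧ InjOn φ (ball y (2 * r)) ∧
      φ '' ball y r ∈ 𝓝[C] x.1 := by
    rintro ⟨x, hx⟩
    obtain ⟨φ, y, hp, rfl⟩ := exists_par hS (hCS hx)
    obtain ⟨ψ, -, h2, -⟩ := hp.exists_inv hS
    obtain ⟨ε, hε, h3⟩ := Metric.eventually_nhds_iff_ball.1 (hp.eventually.and (h2.and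
      (hp.continuousAt.eventually (hA.isOpen_compl.mem_nhds (hd _ hx)))))
    refine ⟨φ, y, ε / 2, by linarith, ?_, ?_, ?_⟩
    · rw [mul_div_cancel₀ _ two_ne_zero]
      exact fun ξ hξ => ⟨(h3 ξ hξ).1, (h3 ξ hξ).2.2⟩
    · rw [mul_div_cancel₀ _ two_ne_zero]
      intro a ha b hb e
      rw [← (h3 a ha).2.1, e, (h3 b hb).2.1]
    · refine nhdsWithin_mono _ hCS ?_
      rw [← hp.map_nhds hS]
      exact image_mem_map (ball_mem_nhds _ (by linarith))
  choose φ y r h1 h2 h3 h4 using h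
  obtain ⟨t, ht⟩ := hC.elim_nhdsWithin_subcover' (fun x hx => φ ⟨x, hx⟩ '' ball (y ⟨x, hx⟩) (r ⟨x, hx⟩))
    fun x hx => h4 ⟨x, hx⟩
  refine ⟨t.card, fun k => φ (t.equivFin.symm k), fun k => y (t.equivFin.symm k),
    fun k => r (t.equivFin.symm k), fun k => h1 _, fun k => h2 _, fun k => h3 _, fun x hx => ?_⟩
  obtain ⟨z, hz, ξ, h5, h6⟩ := mem_iUnion₂.1 (ht hx)
  exact ⟨t.equivFin ⟨z, hz⟩, ξ, by simpa using h5, by simpa using h6⟩

namespace Frm

variable {S : Set E3} {F : Frm S}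

theorem OK.st_le (h : F.OK) (j : JJ F.D) : st F.D j + 3 ≤ F.s1 j := by
  have h1 := Ch.R0_pos F.D
  have h2 := h.z_big
  rcases j with j | i
  · show F.D.R₀ + 3 ≤ F.z₀ + 11
    linarith
  · show Real.log F.D.R₀ + 3 ≤ F.ya
    linarith [h.y_big, Real.log_le_log (by linarith) (show F.D.R₀ ≤ F.z₀ + 8 by linarith)]

theorem OK.geo (h : F.OK) (hne : S.Nonempty) : Core.Geo S F.C0 F.Kc :=
  geo_of h.eq0.shr.1 hne F.D F.s1 (fun j => by linarith [h.st_le j])
    fun j p hp => h.imm j p (by linarith)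

theorem Cr_eq (F : Frm S) (t : ℝ) : F.Cr t = Ft.core F.D (F.z₀ + 11) F.ya t := by
  have h1 : ∀ j, cylY (F.D.a j) (F.D.b j) (F.D.c j) (F.D.r j) = Kd F.D (.inl j) := fun j =>
    funext fun v => (Kd_inl F.D j v).symm
  have h2 : ∀ i, coneY (F.D.γ i) (F.D.n i) (F.D.ψ i) = Kd F.D (.inr i) := fun i =>
    funext fun v => (Kd_inr F.D i v).symm
  ext x
  simp only [Cr, Ft.core, h1, h2, Set.mem_sdiff, mem_union, mem_iUnion, mem_image, mem_ofPred_eq,
    not_or, not_exists, not_and, Sum.forall, s1]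
  exact and_congr_right fun _ => and_congr
    (forall₃_congr fun _ _ _ => ⟨fun h e => h e.symm, fun h e => h e.symm⟩)
    (forall₃_congr fun _ _ _ => ⟨fun h e => h e.symm, fun h e => h e.symm⟩)

theorem Cr_zero (F : Frm S) : F.Cr 0 = F.C0 := by simp only [Cr, C0, add_zero]

theorem Kd_eq_Kc (F : Frm S) (j : JJ F.D) (p : P2) : Kd F.D j p = F.Kc j (p.1 - F.s1 j, p.2) := by
  simp [Kc]

theorem Cr_cases {t : ℝ} {x : E3} (hx : x ∈ F.Cr t) :
    x ∈ F.C0 ∨ ∃ j, ∃ p : P2, F.s1 j < p.1 ∧ p.1 ≤ F.s1 j + t ∧ x = Kd F.D j p := by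
  by_cases h : ∃ j, ∃ p : P2, F.s1 j < p.1 ∧ x = Kd F.D j p
  · obtain ⟨j, p, h1, e⟩ := h
    exact Or.inr ⟨j, p, h1, not_lt.1 fun h => hx.2 j p h e, e⟩
  · exact Or.inl ⟨hx.1, fun j p h1 e => h ⟨j, p, h1, e⟩⟩

theorem Kd_mem_Mo {j : JJ F.D} {p : P2} (h1 : F.s1 j < p.1) (h2 : p.1 < F.s1 j + 6) :
    Kd F.D j p ∈ Mo F.C0 F.Kc :=
  Or.inr ⟨j, _, ⟨by simpa using h1, by simp only; linarith⟩, (F.Kd_eq_Kc j p).symm⟩

theorem Cr_sub {t : ℝ} (ht : t < 6) {x : E3} (hx : x ∈ F.Cr t) : x ∈ Mo F.C0 F.Kc := by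
  rcases Cr_cases hx with h | ⟨j, p, h1, h2, rfl⟩
  · exact Or.inl h
  · exact Kd_mem_Mo h1 (by linarith)

theorem OK.ball_sub (h : F.OK) {x : E3} (hx : x ∈ S) (hn : ‖x‖ ≤ F.z₀ + 8) : x ∈ F.C0 := by
  refine ⟨hx, fun j p hp e => ?_⟩
  have h1 := Ch.R0_pos F.D
  have h2 := h.z_big
  rcases j with j | i
  · linarith [Ch.fst_le_norm F.D (.inl j) p, show F.z₀ + 11 < p.1 from hp, e ▸ hn]
  · have h3 := Real.exp_lt_exp.2 (show Real.log (F.z₀ + 8) < p.1 by
      linarith [h.y_big, show F.ya < p.1 from hp])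
    rw [Real.exp_log (by linarith)] at h3
    linarith [(Ch.norm_cone F.D i p).1, e ▸ hn]

end Frm

theorem geo_proof : GeoStmt := fun _ F h hne =>
  ⟨h.geo hne, fun _ _ _ _ hx => (Frm.Cr_cases hx).imp_right fun ⟨j, p, h1, h2, e⟩ =>
    ⟨j, _, ⟨by simpa using h1, by simp only; linarith⟩, (e.trans (F.Kd_eq_Kc j p)).symm⟩,
    F.Cr_eq, fun _ => h.ball_sub⟩

theorem frame_proof : FrameStmt :=
  fun S D _ h0 => exists_frame (chart_proof S D h0.shr.1) h0

end Vale.Agent.P218F.LS
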