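import Vale.Agent.P218F.LSFam
import Vale.Agent.P218F.ConeEn

/-! The conical ends: from the end solver to the family used in the reduction. -/

open Set Filter Topology Metric Matrix
open scoped ContDiff Real

set_option maxSynthPendingDepth 3

noncomputable section

namespace Vale.Agent.P218F.LS.Fam

open Vale.Agent.P218FT hiding P2
open Vale.Agent.P218F.Core Vale.Agent.P218F.Wien Vale.Agent.P218F.Ends
open Vale.Agent.P218F.Cone (T3 fn fn1 fn2 vT vYT vTT IsTri lin2 BC ConeData IsSolver GoodC)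

/-- the radius -/
def ex (p : P2) : ℂ := (Real.exp p.1 : ℝ)

theorem fderiv_eq' {E F : Type} [NormedAddCommGroup E] [NormedSpace ℂ E] [NormedAddCommGroup F]
    [NormedSpace ℂ F] {f : E → F} {f' : E →L[ℂ] F} {x : E} (h : HasFDerivAt f f' x) :
    fderiv ℂ f x = f' := h.fderiv

theorem cd_ex : ContDiff ℝ 2 ex :=
  ConeData.Frame.contDiff_ex.of_le (WithTop.coe_le_coe.2 (le_top : (2 : ℕ∞) ≤ ⊤))

theorem norm_jet2_ex (p : P2) : ‖jet2 ex p‖ ≤ Real.exp p.1 := by
  obtain ⟨a0, a1, a2⟩ := Cone.jet2_clm_comp (ContinuousLinearMap.fst ℝ ℝ ℝ)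
    (f := fun t => ((Real.exp t : ℝ) : ℂ)) (fun t => (Real.hasDerivAt_exp t).ofReal_comp)
    (fun t => (Real.hasDerivAt_exp t).ofReal_comp) p
  simp only [ContinuousLinearMap.coe_fst'] at a0 a1 a2
  change (jet2 ex p).1 = _ at a0
  change ∀ u, (jet2 ex p).2.1 u = _ at a1
  change ∀ u v, (jet2 ex p).2.2 u v = _ at a2
  have hn : ‖((Real.exp p.1 : ℝ) : ℂ)‖ = Real.exp p.1 := by
    rw [Complex.norm_real, Real.norm_of_nonneg (Real.exp_pos _).le]
  have h0 := (Real.exp_pos p.1).le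
  refine norm_J2_le h0 (by rw [a0, hn]) (fun u => ?_) fun u v => ?_
  · rw [a1, norm_smul, hn, mul_comm]
    exact mul_le_mul_of_nonneg_left (norm_fst_le u) h0
  · rw [a2, norm_smul, hn, norm_mul, mul_comm, mul_assoc]
    exact mul_le_mul_of_nonneg_left
      (mul_le_mul (norm_fst_le u) (norm_fst_le v) (norm_nonneg _) (norm_nonneg _)) h0

theorem scl_mfn (t : T3 0) : scl (mfn ex t) = fn t := by
  funext p
  rw [scl, mfn_apply, ex, ← mul_assoc, ← Complex.ofReal_mul, ← Real.exp_add]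
  simp

theorem graph_eq (c : ConeData) (t : T3 0) :
    (fun η : P2 => cE (Real.exp η.1 • c.γ η.2) + mfn ex t η • cE (c.ν η.2)) = c.Y (fn t) := by
  funext η
  ext i
  simp [ConeData.Y, mfn_apply, ex, mul_add, mul_assoc]

theorem norm_jet1_fn {a : ℝ} {t : T3 0} (ht : IsTri a t) {p : P2} (hp : a < p.1) :
    jet1 (fn t) p = oneL (fnJ p t) := by
  rw [← jet2_one, ht.jet2_eq hp]
  rfl

theorem norm_oneL_fnJ (p : P2) (t : T3 0) : ‖oneL (fnJ p t)‖ ≤ 4 * ‖t‖ :=
  (norm_one_le _).trans (norm_fnJ_apply_le p t)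

theorem marg_of {c : ConeData} (h : c.Frame) {ε a : ℝ} (hg : GoodC c ε) {t : T3 0} (hn : ‖t‖ < ε)
    (ht : IsTri a t) {p : P2} (hp : a < p.1) :
    c.l / 2 * Real.exp (4 * p.1) ≤ (gdet (fderiv ℝ (c.Y (fn t)) p)).re := by
  have h1 := (Cone.geom_proof c h (fn t) p (ht.contDiffAt hp)).1
  simp only [ht.jet2_eq hp, Cone.fn1_y, Cone.fn1_t] at h1
  obtain ⟨v0, v1, -, v3, -, -⟩ := vals_le t p.1 p.2
  have h2 := (hg p.2 (fn t p, Cone.val t.2.1 p.1 p.2, vT t p.1 p.2)
    (lt_of_le_of_lt (norm_prod_le_iff.2 ⟨v0, norm_prod_le_iff.2 ⟨v1, v3⟩⟩) hn)).1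
  have h3 := (abs_le.1 ((Complex.abs_re_le_norm _).trans h2.le)).1
  rw [Complex.sub_re, Complex.ofReal_re] at h3
  rw [h1, Complex.re_ofReal_mul, mul_comm]
  exact mul_le_mul_of_nonneg_left (by linarith) (Real.exp_pos _).le

section solver

variable {c : ConeData} {ε ε0 a r M : ℝ} {g0 : AA} {e : AA → T3 0} {eE : AA → Cone.W 0}

/-- the solver in terms of the trace of the graph function -/
def sE (a : ℝ) (e : AA → T3 0) (g : AA) : T3 0 := e (((Real.exp (-a) : ℝ) : ℂ) • g)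

theorem smul_back (a : ℝ) (g : AA) :
    ((Real.exp (-a) : ℝ) : ℂ) • ((Real.exp a : ℝ) : ℂ) • g = g := by
  rw [smul_smul, ← Complex.ofReal_mul, ← Real.exp_add]
  simp

theorem mem_back {g : AA} (hg : g ∈ ball (((Real.exp a : ℝ) : ℂ) • g0) (Real.exp a * r)) :
    ((Real.exp (-a) : ℝ) : ℂ) • g ∈ ball g0 r := by
  rw [mem_ball_iff_norm] at hg ⊢
  rw [← smul_back a g0, ← smul_sub, norm_smul, Complex.norm_real,
    Real.norm_of_nonneg (Real.exp_pos _).le, Real.exp_neg, inv_mul_lt_iff₀ (Real.exp_pos _)]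
  exact hg

theorem hol_sE (hs : IsSolver (s := 0) c ε a r M g0 e eE) :
    DifferentiableOn ℂ (sE a e) (ball (((Real.exp a : ℝ) : ℂ) • g0) (Real.exp a * r)) :=
  hs.an.differentiableOn.comp (differentiableOn_id.fun_const_smul ((Real.exp (-a) : ℝ) : ℂ))
    fun _ hg => mem_back hg

theorem fderiv_sE (hs : IsSolver (s := 0) c ε a r M g0 e eE) (v : AA) :
    fderiv ℂ (sE a e) (((Real.exp a : ℝ) : ℂ) • g0) v =
      fderiv ℂ e g0 (((Real.exp (-a) : ℝ) : ℂ) • v) := by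
  have h1 : HasFDerivAt e (fderiv ℂ e g0)
      (((Real.exp (-a) : ℝ) : ℂ) • ((Real.exp a : ℝ) : ℂ) • g0) := by
    rw [smul_back]
    exact (hs.an g0 (mem_ball_self hs.r_pos)).differentiableAt.hasFDerivAt
  have h2 := h1.comp _ ((hasFDerivAt_id (𝕜 := ℂ) (((Real.exp a : ℝ) : ℂ) • g0)).const_smul
    ((Real.exp (-a) : ℝ) : ℂ))
  exact DFunLike.congr_fun (fderiv_eq' h2) v

theorem tris (h : c.Frame) (hg : GoodC c ε0) (hs : IsSolver (s := 0) c ε a r M g0 e eE)
    (hε : ε < ε0) {δ : ℝ} (h0 : 0 < δ) (hδ : δ ≤ Real.exp a * r) :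
    Tris (fun p => cE (Real.exp p.1 • c.γ p.2)) (fun p => cE (c.ν p.2))
      (fun p => Real.exp p.1 * c.ψ p) ex a δ (ε + Real.exp (a + 6))
      (((Real.exp a : ℝ) : ℂ) • g0) (sE a e) 0 := by
  have two : (2 : ℕ∞ω) ≤ ∞ := WithTop.coe_le_coe.2 (le_top : (2 : ℕ∞) ≤ ⊤)
  have hb : ∀ g ∈ ball (((Real.exp a : ℝ) : ℂ) • g0) δ,
      ((Real.exp (-a) : ℝ) : ℂ) • g ∈ ball g0 r := fun g hg => mem_back (ball_subset_ball hδ hg)
  have e0 : 0 ≤ ε := (norm_nonneg _).trans (hs.small _ (mem_ball_self hs.r_pos))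
  have e1 := (Real.exp_pos (a + 6)).le
  refine
    { cB := cE.contDiff.comp ((Real.contDiff_exp.comp contDiff_fst).smul
        ((h.smooth_γ.of_le two).comp contDiff_snd))
      cW := h.contDiff_V.of_le two
      cm := cd_ex
      perm := fun _ => rfl
      rem := fun _ => Complex.ofReal_im _
      bdm := fun p _ hp => (norm_jet2_ex p).trans
        ((Real.exp_le_exp.2 hp.le).trans (le_add_of_nonneg_left e0))
      δpos := h0
      ev0 := fun θ => by rw [map_smul, hs.ev_g0]; simp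
      hol := (hol_sE hs).mono (ball_subset_ball hδ)
      bd := fun g hg => (hs.small _ (hb g hg)).trans (le_add_of_nonneg_right e1)
      hlow := differentiableOn_const 0
      bdlow := fun g _ => by simpa using add_nonneg e0 e1
      tri := fun g hg => hs.tri _ (hb g hg)
      dtri := fun v => by rw [fderiv_sE hs]; exact hs.dtri _ (mem_ball_self hs.r_pos) _
      eq := fun g hg p hp => by rw [graph_eq]; exact hs.shr _ (hb g hg) p hp
      pos := fun g hg' p hp => ?_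
      mat := fun θ => ⟨0, fun g hg => ?_⟩
      real := fun g hg hr => ⟨hs.real _ (hb g hg) (by
        rw [star_smul, hr, Complex.star_def, Complex.conj_ofReal]), fun _ => rfl⟩
      base := fun p hp => by rw [mfn_apply, sE, smul_back, hs.base p hp, ex]; simp
      low0 := rfl }
  · have hn := (hs.small _ (hb g hg')).trans_lt hε
    rw [graph_eq]
    exact ⟨h.V_nor_ne hg hn (hs.tri _ (hb g hg')) hp,
      lt_of_lt_of_le (by have := h.l_pos; positivity) (marg_of h hg hn (hs.tri _ (hb g hg')) hp)⟩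
  · rw [mfn_apply, sE, hs.trace _ (hb g hg), map_smul, smul_eq_mul, ex, ← mul_assoc,
      ← Complex.ofReal_mul, ← Real.exp_add]
    simp

theorem coneSm (hs : IsSolver (s := 0) c ε a r M g0 e eE) {ε' : ℝ} (h1 : 4 * ε ≤ ε')
    (h2 : Real.exp (-a) * M ≤ ε') {g : AA} (hg : g ∈ ball g0 r) {p : P2} (hp : a < p.1) :
    ConeSm ε' (fn (e g)) p := by
  have ht := hs.tri g hg
  refine ⟨?_, ?_⟩
  · rw [ht.jet2_eq hp]
    exact (norm_fnJ_le _ p).trans (by linarith [hs.small g hg])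
  · rw [(ht.hasFDerivAt hp).fderiv, Cone.fn1_y]
    have e : ((Real.exp p.1 : ℝ) : ℂ) * Cone.val (e g).2.1 p.1 p.2 =
        ((Real.exp (-p.1) : ℝ) : ℂ) * Cone.val (eE g) p.1 p.2 := by
      rw [hs.drift g hg _ _ hp.le, ← mul_assoc, ← Complex.ofReal_mul, ← Real.exp_add]
      congr 3
      ring
    rw [e, norm_mul, Complex.norm_real, Real.norm_of_nonneg (Real.exp_pos _).le]
    refine le_trans (mul_le_mul (Real.exp_le_exp.2 (neg_le_neg hp.le))
      ((Cone.norm_val_le _ _ _).trans (hs.bdE g hg)) (norm_nonneg _) (Real.exp_pos _).le) h2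

theorem coneFam (h : c.Frame) (hg : GoodC c ε0) (hs : IsSolver (s := 0) c ε a r M g0 e eE)
    (hε : ε < ε0) {ε' : ℝ} (h1 : 4 * ε ≤ ε') (h2 : Real.exp (-a) * M ≤ ε') : ∃ C : ℝ,
    ConeFam (fun p => cE (Real.exp p.1 • c.γ p.2)) (fun p => cE (c.ν p.2))
      (fun p => Real.exp p.1 * c.ψ p) ε' a (Real.exp a * r / 2) C (c.l / 2)
      (((Real.exp a : ℝ) : ℂ) • g0) (fun g => mfn ex (sE a e g))
      (dE ex (sE a e) (((Real.exp a : ℝ) : ℂ) • g0)) := by
  set δ := Real.exp a * r / 2 with hδ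
  have h0 : 0 < δ := by have := hs.r_pos; positivity
  have h3 : δ ≤ Real.exp a * r := by linarith
  have T := tris h hg hs hε h0 h3
  set N := ε + Real.exp (a + 6)
  have hN := T.M_nonneg
  have e0 : 0 ≤ ε := (norm_nonneg _).trans (hs.small _ (mem_ball_self hs.r_pos))
  have hb : ∀ g ∈ ball (((Real.exp a : ℝ) : ℂ) • g0) δ,
      ((Real.exp (-a) : ℝ) : ℂ) • g ∈ ball g0 r := fun g hg => mem_back (ball_subset_ball h3 hg)
  have p1 : 0 ≤ 32 * N ^ 2 / δ := by positivity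
  have p2 : 0 ≤ 64 * N ^ 2 / δ ^ 2 := by positivity
  have p3 : 0 ≤ 4 * N / δ ^ 2 := by positivity
  have p4 : 0 ≤ 8 * N / δ := by positivity
  have p5 : 0 ≤ 8 * ε / δ := by positivity
  refine ⟨32 * N ^ 2 / δ + 64 * N ^ 2 / δ ^ 2 + 4 * N / δ ^ 2 + 8 * N / δ + 8 * ε / δ,
    { toInfFam := ?_
      ηpos := by have := h.l_pos; positivity
      small := fun g hg p hp => by rw [scl_mfn]; exact coneSm hs h1 h2 (hb g hg) hp
      marg := fun g hg' p hp => by
        rw [graph_eq]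
        exact marg_of h hg ((hs.small _ (hb g hg')).trans_lt hε) (T.tri g hg') hp
      lip := fun g hg g' hg' p hp => ?_
      glob' := fun v p hp => ?_ }⟩
  · have := T.infFam (C := 32 * N ^ 2 / δ + 64 * N ^ 2 / δ ^ 2 + 4 * N / δ ^ 2 + 8 * N / δ +
      8 * ε / δ) (by linarith) (by linarith) (by linarith)
    rwa [show fderiv ℂ (0 : AA → Fin 3 → ℂ) _ = 0 from fderiv_const_apply 0] at this
  · rw [scl_mfn, scl_mfn, norm_jet1_fn (T.tri g hg) hp, norm_jet1_fn (T.tri g' hg') hp,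
      ← map_sub, ← map_sub]
    have e2 : 2 * δ = Real.exp a * r := by rw [hδ]; ring
    have := lip_half (f := sE a e) (M := ε) (by rw [e2]; exact hol_sE hs)
      (fun q hq => hs.small _ (mem_back (by rwa [e2] at hq))) hg' hg
    refine (norm_oneL_fnJ _ _).trans ((mul_le_mul_of_nonneg_left this (by norm_num)).trans ?_)
    rw [← mul_assoc]
    refine mul_le_mul_of_nonneg_right ?_ (norm_nonneg _)
    rw [show 4 * (2 * ε / δ) = 8 * ε / δ by ring]
    linarith
  · rw [dE_apply, scl_mfn, norm_jet1_fn (T.dtri v) hp]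
    have := (fderiv ℂ (sE a e) _).le_of_opNorm_le (fderiv_le T.δpos T.hol T.bd) v
    refine (norm_oneL_fnJ _ _).trans ((mul_le_mul_of_nonneg_left this (by norm_num)).trans ?_)
    rw [← mul_assoc]
    refine mul_le_mul_of_nonneg_right ?_ (norm_nonneg _)
    rw [show 4 * (2 * N / δ) = 8 * N / δ by ring]
    linarith

end solver

end Vale.Agent.P218F.LS.Fam

namespace Vale.Agent.P218F.LS

open Vale.Agent.P218F.Cone in
/-- **END-CONE** -/
theorem coneFam_proof : ConeFamStmt := by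
  intro S D hS i ε hε
  have hc := ok_ofEnd hS (D.cone i)
  obtain ⟨ε0, h0, hg⟩ := hc.toFrame.exists_good
  obtain ⟨a0, M, hsol⟩ := cone_proof 0 _ hc (min (ε / 4) (ε0 / 2)) (by positivity)
  have ht : Tendsto (fun a : ℝ => Real.exp (-a) * M) atTop (𝓝 0) := by
    simpa using Real.tendsto_exp_neg_atTop_nhds_zero.mul_const M
  obtain ⟨a1, h1⟩ := eventually_atTop.1 (ht.eventually (ge_mem_nhds hε))
  refine ⟨max a0 a1, fun a ha => ?_⟩
  obtain ⟨r, g0, e, eE, hs⟩ := hsol a (le_of_max_le_left ha)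
  obtain ⟨C, hC⟩ := Fam.coneFam hc.toFrame hg hs ((min_le_right _ _).trans_lt (by linarith))
    (ε' := ε) (by linarith [min_le_left (ε / 4) (ε0 / 2)]) (h1 a (le_of_max_le_right ha))
  exact ⟨_, C, _, _, _, _, hC⟩

end Vale.Agent.P218F.LS
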