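import Vale.Agent.P218F.LSFrame
import Vale.Agent.P218F.CoreOp
import Vale.Agent.P218F.ConeBridge

/-! The operator of a frame satisfies the hypotheses of the core theorem (helper69). -/

open MeasureTheory Set Filter Topology Metric Matrix
open scoped ContDiff RealInnerProductSpace Real

set_option maxSynthPendingDepth 3

noncomputable section

namespace Vale.Agent.P218F.LS

open Vale.Agent.P218FT hiding P2
open Vale.Agent.P218F.Core Vale.Agent.P218F.Ends Vale.Agent.P218F.Ft Vale.Agent.P218F.Mesh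

/-! ### Rotations -/

/-- the rotation with Cayley vector `a`, as a linear map -/
def rotC (a : C3) : C3 →L[ℂ] C3 := LinearMap.toContinuousLinearMap
  (LinearMap.id + (2 / (1 + a ⬝ᵥ a)) • (crossProduct a + (crossProduct a).comp (crossProduct a)))

@[simp] theorem rotC_apply (a x : C3) : rotC a x = rot a x := rfl

@[simp] theorem rot_zero (x : C3) : rot 0 x = x := by simp [rot]

theorem rot_add (a x y : C3) : rot a (x + y) = rot a x + rot a y := (rotC a).map_add x y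

theorem rot_smul (a : C3) (c : ℂ) (x : C3) : rot a (c • x) = c • rot a x := (rotC a).map_smul c x

theorem rot_dot {a : C3} (h : 1 + a ⬝ᵥ a ≠ 0) (x y : C3) : rot a x ⬝ᵥ rot a y = x ⬝ᵥ y := by
  have hc : 2 / (1 + a ⬝ᵥ a) * (1 + a ⬝ᵥ a) = 2 := div_mul_cancel₀ _ h
  unfold rot
  generalize 2 / (1 + a ⬝ᵥ a) = c at *
  simp [dotProduct, Fin.sum_univ_three, cross_apply] at hc ⊢
  linear_combination (c * ((a 0 ^ 2 + a 1 ^ 2 + a 2 ^ 2) * (x 0 * y 0 + x 1 * y 1 + x 2 * y 2) -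
    (a 0 * x 0 + a 1 * x 1 + a 2 * x 2) * (a 0 * y 0 + a 1 * y 1 + a 2 * y 2))) * hc

theorem rot_cross {a : C3} (h : 1 + a ⬝ᵥ a ≠ 0) (x y : C3) :
    rot a x ⨯₃ rot a y = rot a (x ⨯₃ y) := by
  have hc : 2 / (1 + a ⬝ᵥ a) * (1 + a ⬝ᵥ a) = 2 := div_mul_cancel₀ _ h
  unfold rot
  generalize 2 / (1 + a ⬝ᵥ a) = c at *
  have hc' : c * (1 + (a 0 * a 0 + a 1 * a 1 + a 2 * a 2)) = 2 := by
    simpa [dotProduct, Fin.sum_univ_three] using hc
  ext i
  fin_cases i <;> simp [cross_apply, Matrix.vecHead, Matrix.vecTail]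
  · linear_combination (c * a 0 * (a 0 * (x 1 * y 2 - x 2 * y 1) + a 1 * (x 2 * y 0 - x 0 * y 2) +
      a 2 * (x 0 * y 1 - x 1 * y 0))) * hc'
  · linear_combination (c * a 1 * (a 0 * (x 1 * y 2 - x 2 * y 1) + a 1 * (x 2 * y 0 - x 0 * y 2) +
      a 2 * (x 0 * y 1 - x 1 * y 0))) * hc'
  · linear_combination (c * a 2 * (a 0 * (x 1 * y 2 - x 2 * y 1) + a 1 * (x 2 * y 0 - x 0 * y 2) +
      a 2 * (x 0 * y 1 - x 1 * y 0))) * hc'

theorem isRot_rotC {a : C3} (h : 1 + a ⬝ᵥ a ≠ 0) : IsRot ((rotC a).restrictScalars ℝ) :=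
  ⟨rot_dot h, rot_cross h⟩

theorem cE_rotR (a x : E3) : cE (rotR a x) = rot (cE a) (cE x) := by
  rw [rotR, rot, map_add, map_smul, map_add, cE_crs, cE_crs, cE_crs, cE_dot,
    real_inner_self_eq_norm_sq, ← Complex.coe_smul]
  push_cast
  rfl

theorem norm_rotR (a x : E3) : ‖rotR a x‖ = ‖x‖ := by
  have h := rot_dot (a := cE a) (by
    rw [cE_dot, real_inner_self_eq_norm_sq]
    exact_mod_cast (by positivity : (1 + ‖a‖ ^ 2 : ℝ) ≠ 0)) (cE x) (cE x)
  rw [← cE_rotR, cE_dot, cE_dot, real_inner_self_eq_norm_sq, real_inner_self_eq_norm_sq] at h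
  exact (pow_left_inj₀ (norm_nonneg _) (norm_nonneg _) two_ne_zero).1 (by exact_mod_cast h)

theorem exists_cE_re {v : C3} (h : IsRe v) : ∃ x : E3, cE x = v :=
  ⟨WithLp.toLp 2 fun i => (v i).re, funext fun i => Complex.ext rfl (h i).symm⟩

theorem isRe_cE (x : E3) : IsRe (cE x) := fun _ => Complex.ofReal_im _

theorem isRe_rot {a x : C3} (ha : IsRe a) (hx : IsRe x) : IsRe (rot a x) := by
  obtain ⟨a, rfl⟩ := exists_cE_re ha
  obtain ⟨x, rfl⟩ := exists_cE_re hx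
  rw [← cE_rotR]
  exact isRe_cE _

section cd

variable {𝕜 X : Type} [NontriviallyNormedField 𝕜] [NormedAlgebra 𝕜 ℂ] [NormedAddCommGroup X]
  [NormedSpace 𝕜 X] {n : WithTop ℕ∞} {a b : X → C3} {x : X}

theorem cda_cross (ha : ContDiffAt 𝕜 n a x) (hb : ContDiffAt 𝕜 n b x) :
    ContDiffAt 𝕜 n (fun z => a z ⨯₃ b z) x := by
  have a' := contDiffAt_pi.1 ha
  have b' := contDiffAt_pi.1 hb
  refine contDiffAt_pi.2 fun i => ?_
  fin_cases i <;> simp [cross_apply] <;> exact ((a' _).mul (b' _)).sub ((a' _).mul (b' _))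

theorem cda_dot (ha : ContDiffAt 𝕜 n a x) (hb : ContDiffAt 𝕜 n b x) :
    ContDiffAt 𝕜 n (fun z => a z ⬝ᵥ b z) x :=
  ContDiffAt.sum fun i _ => (contDiffAt_pi.1 ha i).mul (contDiffAt_pi.1 hb i)

theorem cda_rot (ha : ContDiffAt 𝕜 n a x) (hb : ContDiffAt 𝕜 n b x) (h : 1 + a x ⬝ᵥ a x ≠ 0) :
    ContDiffAt 𝕜 n (fun z => rot (a z) (b z)) x := by
  have h1 : ContDiffAt 𝕜 n (fun z => 2 / (1 + a z ⬝ᵥ a z)) x := by
    simp only [div_eq_mul_inv]
    exact contDiffAt_const.mul ((contDiffAt_const.add (cda_dot ha ha)).inv h)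
  have h2 := contDiffAt_pi.1 ((cda_cross ha hb).add (cda_cross ha (cda_cross ha hb)))
  exact hb.add (contDiffAt_pi.2 fun i => h1.mul (h2 i))

end cd

/-! ### The rotation vector -/

variable {S : Set E3}

namespace Frm

variable {F : Frm S}

/-- the rotation vector of the end `j` -/
def omE (F : Frm S) (β : Tilt F.D.m ℂ) : JJ F.D → C3
  | .inl j => β j 0 • cE (F.D.a j) + β j 1 • cE (F.D.b j)
  | .inr _ => 0

theorem OK.R0_pos (_ : F.OK) : 0 < F.D.R₀ := by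
  by_contra h
  nlinarith [F.D.big, F.D.δpos]

theorem OK.st_lt (h : F.OK) (j : JJ F.D) : st F.D j + 3 < F.s1 j := by
  have := h.R0_pos
  have := h.z_big
  rcases j with j | i
  · simp only [st, s1]; linarith
  · have := Real.log_lt_log h.R0_pos (show F.D.R₀ < F.z₀ + 8 by linarith)
    simp only [st, s1]; linarith [h.y_big]

theorem OK.norm_Kd (h : F.OK) (hC : Charts S F.D) (j : JJ F.D) {p : P2} (hp : F.s1 j - 3 ≤ p.1) :
    F.z₀ + 8 ≤ ‖Kd F.D j p‖ := by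
  have := h.R0_pos
  have := h.z_big
  rcases j with j | i <;> simp only [s1] at hp
  · linarith [(hC.norm_cyl j p (by linarith)).1]
  · have := Real.exp_le_exp.2 (show Real.log (F.z₀ + 8) ≤ p.1 by linarith [h.y_big])
    rw [Real.exp_log (by linarith)] at this
    linarith [(hC.norm_cone i p).1]

theorem OK.chi_other (h : F.OK) (hC : Charts S F.D) {j : JJ F.D} {p : P2} (hp : st F.D j ≤ p.1)
    {j' : Fin F.D.m} (hj : j ≠ .inl j') : F.χ j' (Kd F.D j p) = 0 :=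
  h.chi_out j' _ (hC.mem j p hp) fun q hq e => hj (hC.inj j (.inl j') p q hp
    (show F.D.R₀ ≤ q.1 by linarith [h.R0_pos, h.z_big]) e).1

theorem OK.om_cyl (h : F.OK) (hC : Charts S F.D) (β : Tilt F.D.m ℂ) (j : Fin F.D.m) {p : P2}
    (hp : F.D.R₀ ≤ p.1) : F.om β (Kd F.D (.inl j) p) =
      (Real.smoothTransition (p.1 - (F.z₀ + 8)) : ℂ) • F.omE β (.inl j) := by
  rw [om, Finset.sum_eq_single j (fun j' _ hj => by
    rw [h.chi_other hC (j := .inl j) hp (by simpa using hj.symm)]; simp) (by simp),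
    h.chi_end j p hp]
  rfl

theorem OK.om_end (h : F.OK) (hC : Charts S F.D) (β : Tilt F.D.m ℂ) (j : JJ F.D) {p : P2}
    (hp : F.s1 j - 2 ≤ p.1) : F.om β (Kd F.D j p) = F.omE β j := by
  have := h.st_lt j
  rcases j with j | i
  · simp only [s1, st] at hp this
    rw [h.om_cyl hC β j (by linarith), Real.smoothTransition.one_of_one_le (by linarith)]
    simp
  · exact Finset.sum_eq_zero fun j _ => by
      rw [h.chi_other hC (j := .inr i) (by linarith) (by simp)]; simp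

theorem OK.om_core (h : F.OK) (β : Tilt F.D.m ℂ) {x : E3} (hx : x ∈ S)
    (h' : ∀ j (p : P2), F.z₀ + 8 ≤ p.1 → x ≠ Kd F.D (.inl j) p) : F.om β x = 0 :=
  Finset.sum_eq_zero fun j _ => by rw [h.chi_out j x hx (h' j)]; simp

theorem omE_dot (β : Tilt F.D.m ℂ) (j : Fin F.D.m) :
    F.omE β (.inl j) ⬝ᵥ F.omE β (.inl j) = β j 0 ^ 2 + β j 1 ^ 2 := by
  have t := (F.D.cyl j).tri
  simp only [omE, add_dotProduct, dotProduct_add, smul_dotProduct, dotProduct_smul, cE_dot,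
    real_inner_self_eq_norm_sq, t.na, t.nb, t.ab, real_inner_comm (F.D.a j)]
  simp
  ring

theorem norm_omE_dot (β : Tilt F.D.m ℂ) (j : JJ F.D) : ‖F.omE β j ⬝ᵥ F.omE β j‖ ≤ 2 * ‖β‖ ^ 2 := by
  rcases j with j | i
  · have h : ∀ i, ‖β j i ^ 2‖ ≤ ‖β‖ ^ 2 := fun i => by
      rw [norm_pow]
      gcongr
      exact (norm_le_pi_norm (β j) i).trans (norm_le_pi_norm β j)
    rw [omE_dot]
    linarith [norm_add_le (β j 0 ^ 2) (β j 1 ^ 2), h 0, h 1]
  · simp [omE]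

theorem OK.norm_om_dot (h : F.OK) (hC : Charts S F.D) (β : Tilt F.D.m ℂ) {x : E3} (hx : x ∈ S) :
    ‖F.om β x ⬝ᵥ F.om β x‖ ≤ 2 * ‖β‖ ^ 2 := by
  by_cases h' : ∀ j (p : P2), F.z₀ + 8 ≤ p.1 → x ≠ Kd F.D (.inl j) p
  · simp [h.om_core β hx h']
  push Not at h'
  obtain ⟨j, p, hp, rfl⟩ := h'
  rw [h.om_cyl hC β j (by linarith [h.R0_pos, h.z_big]), smul_dotProduct, dotProduct_smul,
    norm_smul, norm_smul, Complex.norm_real,
    Real.norm_of_nonneg (Real.smoothTransition.nonneg _)]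
  have h1 := Real.smoothTransition.le_one (p.1 - (F.z₀ + 8))
  have h2 := Real.smoothTransition.nonneg (p.1 - (F.z₀ + 8))
  calc _ ≤ 1 * (1 * (2 * ‖β‖ ^ 2)) := by gcongr; exact norm_omE_dot β _
    _ = _ := by ring

theorem one_add_ne {z : ℂ} {t : ℝ} (h : ‖z‖ ≤ 2 * t ^ 2) (h0 : 0 ≤ t) (ht : t ≤ 1 / 2) :
    1 + z ≠ 0 := fun e => by
  rw [eq_neg_of_add_eq_zero_right e, norm_neg, norm_one] at h
  nlinarith

theorem OK.om_ne (h : F.OK) (hC : Charts S F.D) {β : Tilt F.D.m ℂ} (hβ : ‖β‖ ≤ 1 / 2) {x : E3}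
    (hx : x ∈ S) : 1 + F.om β x ⬝ᵥ F.om β x ≠ 0 :=
  one_add_ne (h.norm_om_dot hC β hx) (norm_nonneg _) hβ

theorem omE_ne {β : Tilt F.D.m ℂ} (hβ : ‖β‖ ≤ 1 / 2) (j : JJ F.D) :
    1 + F.omE β j ⬝ᵥ F.omE β j ≠ 0 := one_add_ne (norm_omE_dot β j) (norm_nonneg _) hβ

@[simp] theorem om_zero (x : E3) : F.om 0 x = 0 := by simp [om]

theorem isRe_om {β : Tilt F.D.m ℂ} (hβ : ∀ j, IsRe (β j)) (x : E3) : IsRe (F.om β x) := fun i => by
  simp [om, Finset.sum_apply, Complex.im_sum, hβ _ 0, hβ _ 1]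

theorem norm_tl {κ : Type} [Fintype κ] (a : F.Ix κ → ℂ) : ‖F.tl a‖ ≤ ‖a‖ :=
  (pi_norm_le_iff_of_nonneg (norm_nonneg a)).2 fun _ =>
    (pi_norm_le_iff_of_nonneg (norm_nonneg a)).2 fun _ => norm_le_pi_norm a _

theorem cd_om_tl {κ : Type} [Fintype κ] (x : E3) {n : WithTop ℕ∞} :
    ContDiff ℂ n fun a : F.Ix κ → ℂ => F.om (F.tl a) x := by
  unfold om tl
  fun_prop

theorem OK.cd_om (h : F.OK) : ContDiff ℝ ∞ fun v : Tilt F.D.m ℂ × E3 => F.om v.1 v.2 := by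
  refine ContDiff.sum fun j _ => ContDiff.smul
    (Complex.ofRealCLM.contDiff.comp ((h.chi_smooth j).comp contDiff_snd)) ?_
  fun_prop

theorem cd_tl {κ : Type} [Fintype κ] : ContDiff ℝ ∞ (F.tl (κ := κ)) := by
  unfold tl
  fun_prop

theorem OK.mo_sub (h : F.OK) (hC : Charts S F.D) : Mo F.C0 F.Kc ⊆ S := by
  rintro x (hx | ⟨j, y, hy, rfl⟩)
  · exact hx.1
  · exact hC.mem j _ (by have := h.st_lt j; have := hy.1; dsimp only; linarith)

/-- the field `V` is transversal to `S` -/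
theorem OK.trans_par (h : F.OK) {φ : P2 → E3} {y : P2} (hP : Par S φ y) :
    ⟪F.V (φ y), rn (fderiv ℝ φ y)⟫ ≠ 0 := by
  have h1 := rn_ne_zero hP.inj
  have h2 : fderiv ℝ (F.V₀ ∘ φ) y = fderiv ℝ (fun _ => (0 : ℝ)) y :=
    EventuallyEq.fderiv_eq (hP.mem.mono fun z hz => (h.eq0.zero _).1 hz)
  rw [fderiv_comp y (h.eq0.smooth.differentiable (by simp) _) hP.differentiableAt] at h2
  have h3 := eq_smul_rn h1 (n := gradient F.V₀ (φ y)) fun a => by
    rw [real_inner_comm, inner_grad]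
    simpa using congrArg (fun L => L a) h2
  have h4 := h.trans _ hP.self_mem
  rw [h3, real_inner_smul_right] at h4
  exact fun e => by simp [e] at h4

theorem fderiv_cE {φ : P2 → E3} {y : P2} (h : DifferentiableAt ℝ φ y) :
    fderiv ℝ (fun z => cE (φ z)) y = cE.comp (fderiv ℝ φ y) :=
  (cE.hasFDerivAt.comp y h.hasFDerivAt).fderiv

variable {κ : Type} [Fintype κ] {χ : κ → E3 → ℝ}

/-- the family of surfaces is smooth at every point of `S` -/
theorem OK.joint (h : F.OK) (hC : Charts S F.D) {x : E3} (hx : x ∈ S) {a : F.Ix κ → ℂ}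
    (ha : ‖a‖ ≤ 1 / 2) : ContDiffAt ℝ ∞ (fun v : (F.Ix κ → ℂ) × E3 =>
      (rot (F.om (F.tl v.1) v.2) (cE v.2), F.W (F.tl v.1) v.2)) (a, x) := by
  have h0 : ContDiff ℝ ∞ fun v : (F.Ix κ → ℂ) × E3 => (F.tl v.1, v.2) :=
    (cd_tl.comp contDiff_fst).prodMk contDiff_snd
  have h1 : ContDiffAt ℝ ∞ (fun v : (F.Ix κ → ℂ) × E3 => F.om (F.tl v.1) v.2) (a, x) :=
    (h.cd_om.comp h0).contDiffAt
  have h2 := h.om_ne hC ((norm_tl a).trans ha) hx
  have h3 : ContDiffAt ℝ ∞ (fun v : (F.Ix κ → ℂ) × E3 => cE v.2) (a, x) :=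
    (cE.contDiff.comp contDiff_snd).contDiffAt
  have h4 : ContDiffAt ℝ ∞ (fun v : (F.Ix κ → ℂ) × E3 => cE (F.V v.2)) (a, x) :=
    (cE.contDiff.comp (h.smooth.comp contDiff_snd)).contDiffAt
  have h5 := cda_rot h1 h3 h2
  have h6 := cda_rot h1 h4 h2
  exact h5.prodMk h6

theorem OK.src_end (h : F.OK) (hC : Charts S F.D) (hχ : ∀ i, tsupport (χ i) ⊆ ball 0 (F.z₀ + 8))
    (i : F.Ix κ) (j : JJ F.D) {p : P2} (hp : F.s1 j - 3 ≤ p.1) :
    Sum.elim χ 0 i (Kd F.D j p) = 0 := by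
  rcases i with i | i
  · refine image_eq_zero_of_notMem_tsupport fun hh => ?_
    linarith [mem_ball_zero_iff.1 (hχ i hh), h.norm_Kd hC j hp]
  · rfl

/-- **the hypotheses on the family of surfaces** -/
theorem OK.elOK (h : F.OK) (hC : Charts S F.D) (h1 : ∀ i, ContDiff ℝ 1 (χ i))
    (hχ : ∀ i, tsupport (χ i) ⊆ ball 0 (F.z₀ + 8)) {α δ : ℝ} (hα : α ≤ 1) (hδ : δ ≤ 1 / 2) :
    ElOK S F.C0 F.Kc F.V (fun (a : F.Ix κ → ℂ) x => rot (F.om (F.tl a) x) (cE x))
      (fun a x => F.W (F.tl a) x) (Sum.elim χ 0) α δ where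
  P0 x := by rw [show F.tl (0 : F.Ix κ → ℂ) = 0 from rfl, om_zero, rot_zero]
  W0 x := by rw [show F.tl (0 : F.Ix κ → ℂ) = 0 from rfl, W, om_zero, rot_zero]
  shr0 φ y hP _ := Cone.shr_of_isShr h.eq0.shr (OpP.par_cd hP) hP.mem _
  trans φ y hP _ := by
    rw [fderiv_cE hP.differentiableAt, ← cE_rn, cE_dot]
    exact_mod_cast h.trans_par hP
  smooth x hx := by
    obtain ⟨φ, y, hP, rfl⟩ := exists_par h.eq0.shr.1 (h.mo_sub hC hx)
    refine ⟨φ, y, hP, rfl, fun a ha => ?_⟩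
    exact ((h.joint hC hP.self_mem (ha.le.trans hδ)).of_le (WithTop.coe_le_coe.2 (le_top : (3 : ℕ∞) ≤ ⊤))).comp (a, y)
      (contDiffAt_fst.prodMk ((OpP.par_cd (n := 3) hP).comp (a, y) contDiffAt_snd))
  hol x hx a ha := by
    have h2 := h.om_ne hC ((norm_tl a).trans ((mem_ball_zero_iff.1 ha).le.trans hδ)) (h.mo_sub hC hx)
    exact (((cda_rot (n := 1) (cd_om_tl x).contDiffAt contDiffAt_const h2).prodMk
      (cda_rot (cd_om_tl x).contDiffAt contDiffAt_const h2)).differentiableAt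
        one_ne_zero).differentiableWithinAt
  real x _ a _ ha := ⟨isRe_rot (isRe_om (fun _ _ => ha _) x) (isRe_cE _),
    isRe_rot (isRe_om (fun _ _ => ha _) x) (isRe_cE _)⟩
  rot j a ha := ⟨rotC (F.omE (F.tl a) j), isRot_rotC (omE_ne ((norm_tl a).trans (ha.le.trans hδ)) j),
    fun y hy => by
      have := h.om_end hC (F.tl a) j (p := (F.s1 j + y.1, y.2)) (by dsimp only; linarith [hy.1])
      simp only [W, Kc, this, rotC_apply, and_self]⟩
  F0 i j y hy := h.src_end hC hχ i j (by dsimp only; linarith [hy.1])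
  Fhol x hx := by
    obtain ⟨φ, y, hP, rfl⟩ := exists_par h.eq0.shr.1 (h.mo_sub hC hx)
    have c : ContDiffAt ℝ 1 (fun z (i : F.Ix κ) => Sum.elim χ 0 i (φ z)) y :=
      contDiffAt_pi.2 fun i => by
        rcases i with i | i
        · exact (h1 i).contDiffAt.comp y (OpP.par_cd (n := 1) hP)
        · exact contDiffAt_const
    obtain ⟨K, t, ht, hK⟩ := c.exists_lipschitzOnWith
    obtain ⟨r, r0, hr⟩ := Metric.mem_nhds_iff.1 ht
    refine ⟨φ, y, hP, rfl, min r (1 / 2), by positivity, K, fun i z hz z' hz' => ?_⟩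
    have h2 := hK.norm_sub_le (hr (ball_subset_ball (min_le_left _ _) hz))
      (hr (ball_subset_ball (min_le_left _ _) hz'))
    have h3 : ‖z - z'‖ ≤ 1 := by
      have := dist_triangle_right z z' y
      rw [dist_eq_norm] at this
      linarith [mem_ball.1 hz, mem_ball.1 hz', min_le_right r (1 / 2)]
    refine ((norm_le_pi_norm _ i).trans h2).trans ?_
    gcongr
    exact Real.self_le_rpow_of_le_one (norm_nonneg _) h3 hα

/-- **the hypotheses of the core theorem on the operator** -/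
theorem OK.opOK (h : F.OK) (hC : Charts S F.D) (hG : Geo S F.C0 F.Kc)
    (h1 : ∀ i, ContDiff ℝ 1 (χ i)) (hχ : ∀ i, tsupport (χ i) ⊆ ball 0 (F.z₀ + 8)) {α : ℝ}
    (hα : 0 < α) (hα' : α < 1) : OpOK S F.C0 F.Kc (F.op χ) α (1 / 2) :=
  op_proof par_proof S _ _ _ _ _ _ _ _ α _ hα hα' (by norm_num) hG (h.elOK hC h1 hχ hα'.le le_rfl)

end Frm

/-! ### The operator on the ends -/

theorem jet2_translate {V : Type} [NormedAddCommGroup V] [NormedSpace ℝ V] (f : P2 → V)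
    (c y : P2) : jet2 (fun z => f (c + z)) y = jet2 f (c + y) := by
  have h1 : (fderiv ℝ fun z => f (c + z)) = fun z => fderiv ℝ f (c + z) :=
    funext fun z => fderiv_comp_add_left c
  unfold jet2
  rw [h1, fderiv_comp_add_left c]

theorem jet1_translate {V : Type} [NormedAddCommGroup V] [NormedSpace ℝ V] (f : P2 → V)
    (c y : P2) : jet1 (fun z => f (c + z)) y = jet1 f (c + y) :=
  congrArg J2.one (jet2_translate f c y)

theorem shift_eq (s : ℝ) (z : P2) : ((s + z.1, z.2) : P2) = (s, 0) + z :=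
  Prod.ext rfl (zero_add _).symm

theorem jet2_shift_fst {V : Type} [NormedAddCommGroup V] [NormedSpace ℝ V] (f : P2 → V)
    (s : ℝ) (y : P2) : jet2 (fun z : P2 => f (s + z.1, z.2)) y = jet2 f (s + y.1, y.2) := by
  simp only [shift_eq, jet2_translate]

theorem jet1_shift_fst {V : Type} [NormedAddCommGroup V] [NormedSpace ℝ V] (f : P2 → V)
    (s : ℝ) (y : P2) : jet1 (fun z : P2 => f (s + z.1, z.2)) y = jet1 f (s + y.1, y.2) :=
  congrArg J2.one (jet2_shift_fst f s y)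

theorem elOp_shift {ι : Type} [Fintype ι] (P W : (ι → ℂ) → E3 → C3) (F : ι → E3 → ℝ) (a : ι → ℂ)
    (φ : P2 → E3) (s : ℝ) (y : P2) (q : J2 P2 ℂ) :
    elOp P W F a (fun z => φ (s + z.1, z.2)) y q = elOp P W F a φ (s + y.1, y.2) q := by
  rw [OpP.elOp_eq, OpP.elOp_eq, surJ, surJ, jet2_shift_fst fun z => cE (φ z),
    jet2_shift_fst fun z => P a (φ z), jet2_shift_fst fun z => W a (φ z)]

theorem jet2_const_smul {V : Type} [NormedAddCommGroup V] [NormedSpace ℂ V] (c : ℂ) {f : P2 → V}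
    {y : P2} (hf : ContDiffAt ℝ 2 f y) : jet2 (fun z => c • f z) y = c • jet2 f y := by
  rw [jet2_smul contDiffAt_const hf, jet2_const]
  refine Prod.ext rfl (Prod.ext (ContinuousLinearMap.ext fun u => ?_)
    (ContinuousLinearMap.ext fun u => ContinuousLinearMap.ext fun v => ?_))
  · simp [J2.smul_one]
  · simp [J2.smul_two]

theorem smul_add_smul (q₀ q : J2 P2 ℂ) (c : ℂ) (B : J2 P2 C3) :
    (q₀ + c • q).smul B = q₀.smul B + q.smul (c • B) := by
  refine Prod.ext ?_ (Prod.ext (ContinuousLinearMap.ext fun u => ?_)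
    (ContinuousLinearMap.ext fun u => ContinuousLinearMap.ext fun v => ?_))
  · simp [J2.smul_fst, add_smul, smul_smul, mul_comm]
  · simp [J2.smul_one, add_smul, smul_smul, mul_comm]
    abel
  · simp [J2.smul_two, add_smul, smul_smul, mul_comm]
    abel

theorem map_surf (O : C3 →L[ℂ] C3) (A B : J2 P2 C3) (q : J2 P2 ℂ) :
    A.map (O.restrictScalars ℝ) + q.smul (B.map (O.restrictScalars ℝ)) =
      (A + q.smul B).map (O.restrictScalars ℝ) := by
  refine Prod.ext ?_ (Prod.ext (ContinuousLinearMap.ext fun u => ?_)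
    (ContinuousLinearMap.ext fun u => ContinuousLinearMap.ext fun v => ?_))
  · simp [J2.map, J2.smul_fst, rot_add]
  · simp [J2.map, J2.smul_one]
  · simp [J2.map, J2.smul_two]

theorem el_sign {σ : ℝ} (hσ : σ = 1 ∨ σ = -1) (A Q : J2 P2 C3) (W : C3) :
    OpP.el A Q ((σ : ℂ) • W) = σ * OpP.el A Q W := by
  rcases hσ with rfl | rfl
  · simp
  · simp [OpP.el, shr, div_neg]

/-- the two-jet of the graph over the end `j` with graph jet `Q` -/
def jE (D : EndData S) (j : JJ D) (p : P2) (Q : J2 P2 ℂ) : J2 P2 C3 :=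
  jet2 (fun η => cE (Bs D j η)) p + Q.smul (jet2 (fun η => cE (Wd D j η)) p)

/-- the factor between the Euler-Lagrange operator and the shrinker operator -/
def facE (D : EndData S) (j : JJ D) (p : P2) (Q : J2 P2 ℂ) : ℂ :=
  (cE (Wd D j p) ⬝ᵥ nor (jE D j p Q).2.1) ^ 2 / gdet (jE D j p Q).2.1 *
    (lag (jE D j p Q).one / lag (jE D j p (jS D j p)).one)

section ends

variable {D : EndData S} (hC : Charts S D) (j : JJ D) (p : P2)
include hC

theorem cd_B : ContDiffAt ℝ 2 (fun η => cE (Bs D j η)) p :=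
  (cE.contDiff.comp ((hC.smooth j).1.of_le (WithTop.coe_le_coe.2 (le_top : (2 : ℕ∞) ≤ ⊤)))).contDiffAt

theorem cd_W : ContDiffAt ℝ 2 (fun η => cE (Wd D j η)) p :=
  (cE.contDiff.comp
    ((hC.smooth j).2.1.of_le (WithTop.coe_le_coe.2 (le_top : (2 : ℕ∞) ≤ ⊤)))).contDiffAt

theorem cd_g : ContDiffAt ℝ 2 (fun η => (gS D j η : ℂ)) p :=
  (Complex.ofRealCLM.contDiff.comp
    ((hC.smooth j).2.2.of_le (WithTop.coe_le_coe.2 (le_top : (2 : ℕ∞) ≤ ⊤)))).contDiffAt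

theorem jet2_Ye {e : P2 → ℂ} (he : ContDiffAt ℝ 2 e p) :
    jet2 (Ye D j e) p = jE D j p (jet2 e p) := by
  rw [jE, ← jet2_smul he (cd_W hC j p)]
  exact jet2_add (cd_B hC j p) (he.smul (cd_W hC j p))

omit hC in
theorem cE_Kd : cE (Kd D j p) = Ye D j (fun η => (gS D j η : ℂ)) p := by
  simp [Kd, Ye]

theorem jet2_Kd : jet2 (fun η => cE (Kd D j η)) p = jE D j p (jS D j p) := by
  simp only [cE_Kd]
  exact jet2_Ye hC j p (cd_g hC j p)

end ends

namespace Frm.OK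

variable {F : Frm S} {κ : Type} [Fintype κ] {χ : κ → E3 → ℝ} (h : F.OK) (hC : Charts S F.D)
include h hC

theorem par_end (j : JJ F.D) {p : P2} (hp : F.s1 j - 3 ≤ p.1) : Par S (Kd F.D j) p :=
  hC.par j p (by linarith [h.st_lt j]) (h.imm j p (by linarith))

theorem gdet_end (j : JJ F.D) {p : P2} (hp : F.s1 j - 3 ≤ p.1) :
    0 < (gdet (jE F.D j p (jS F.D j p)).2.1).re := by
  rw [← jet2_Kd hC]
  exact OpP.gdet_pos (h.par_end hC j hp)

theorem gdet_end_ne (j : JJ F.D) {p : P2} (hp : F.s1 j - 3 ≤ p.1) :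
    gdet (jE F.D j p (jS F.D j p)).2.1 ≠ 0 := fun e => by
  have g := h.gdet_end hC j hp
  rw [e] at g
  exact lt_irrefl _ g

theorem trans_end (j : JJ F.D) {p : P2} (hp : F.s1 j - 3 ≤ p.1) :
    cE (Wd F.D j p) ⬝ᵥ nor (jE F.D j p (jS F.D j p)).2.1 ≠ 0 := by
  have := h.trans_par (h.par_end hC j hp)
  rw [h.ends j p hp, real_inner_smul_left] at this
  rw [← jet2_Kd hC, OpP.jet_cE (h.par_end hC j hp), ← cE_rn, cE_dot]
  exact_mod_cast right_ne_zero_of_mul this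

theorem shrE_zero (j : JJ F.D) {p : P2} (hp : F.s1 j - 3 ≤ p.1) :
    shrE F.D j p (jS F.D j p) = 0 := by
  have hP := h.par_end hC j hp
  have := Cone.shr_of_isShr h.eq0.shr (OpP.par_cd hP) hP.mem (cE (Wd F.D j p))
  rwa [jet2_Kd hC] at this

theorem facE_ne (j : JJ F.D) {p : P2} (hp : F.s1 j - 3 ≤ p.1) :
    facE F.D j p (jS F.D j p) ≠ 0 := by
  have g := h.gdet_end hC j hp
  have l : lag (jE F.D j p (jS F.D j p)).one ≠ 0 := OpP.lag_ne (q := J2.one _) g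
  rw [facE, div_self l, mul_one]
  exact div_ne_zero (pow_ne_zero 2 (h.trans_end hC j hp)) (h.gdet_end_ne hC j hp)

theorem diff_shrE (j : JJ F.D) {p : P2} (hp : F.s1 j - 3 ≤ p.1) :
    DifferentiableAt ℂ (shrE F.D j p) (jS F.D j p) := by
  have c := OpP.cl_diff (jS F.D j p)
  exact c.shr (c.jet (OpP.dj_const _ _) (OpP.dj_const _ _)
    (OpP.ds_diff (q := fun q => q) differentiableAt_id)) (W := fun _ => cE (Wd F.D j p))
    (fun _ => differentiableAt_const _) (h.gdet_end_ne hC j hp) (h.trans_end hC j hp)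

theorem diff_facE (j : JJ F.D) {p : P2} (hp : F.s1 j - 3 ≤ p.1) :
    DifferentiableAt ℂ (facE F.D j p) (jS F.D j p) := by
  have g := h.gdet_end hC j hp
  have c := OpP.cl_diff (jS F.D j p)
  have hQ : OpP.DJ (fun f : J2 P2 ℂ → ℂ => DifferentiableAt ℂ f (jS F.D j p)) (jE F.D j p) :=
    c.jet (OpP.dj_const _ _) (OpP.dj_const _ _) (OpP.ds_diff (q := fun q => q) differentiableAt_id)
  exact (c.div (c.sq (c.dot (f := fun _ => cE (Wd F.D j p)) (fun _ => differentiableAt_const _)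
    (c.nor hQ))) (c.gdet hQ) (h.gdet_end_ne hC j hp)).mul ((c.lag hQ g).mul_const _)

/-- the surface over an end is a rotated graph -/
theorem Y_end (U : E3 → ℂ) (β : Tilt F.D.m ℂ) (j : JJ F.D) {p : P2} (hp : F.s1 j - 2 ≤ p.1) :
    F.Y U β (Kd F.D j p) = rotC (F.omE β j) (Ye F.D j (F.e U j) p) := by
  rw [Y, h.om_end hC β j hp, h.ends j p (by linarith), rotC_apply, cE_Kd, Ye, Ye, e, map_smul,
    add_smul, add_assoc, ← Complex.coe_smul, smul_smul, mul_comm (U _)]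

theorem W_end (β : Tilt F.D.m ℂ) (j : JJ F.D) {p : P2} (hp : F.s1 j - 2 ≤ p.1) :
    F.W β (Kd F.D j p) = rotC (F.omE β j) ((F.σ j : ℂ) • cE (Wd F.D j p)) := by
  rw [W, h.om_end hC β j hp, h.ends j p (by linarith), rotC_apply, map_smul, Complex.coe_smul]

theorem surJ_end (a : F.Ix κ → ℂ) (j : JJ F.D) {p : P2} (hp : F.s1 j - 2 < p.1) (q : J2 P2 ℂ) :
    surJ (fun a x => rot (F.om (F.tl a) x) (cE x)) (fun a x => F.W (F.tl a) x) a (Kd F.D j) p q =
      (jE F.D j p (jS F.D j p + (F.σ j : ℂ) • q)).map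
        ((rotC (F.omE (F.tl a) j)).restrictScalars ℝ) := by
  have ev : ∀ᶠ z : P2 in 𝓝 p, F.s1 j - 2 ≤ z.1 :=
    (continuous_fst.tendsto p).eventually (le_mem_nhds hp)
  have c1 : ContDiffAt ℝ 2 (fun η => cE (Kd F.D j η)) p :=
    cE.contDiff.contDiffAt.comp p (OpP.par_cd (h.par_end hC j (by linarith)))
  have c2 : ContDiffAt ℝ 2 (fun η => (F.σ j : ℂ) • cE (Wd F.D j η)) p := (cd_W hC j p).const_smul _
  rw [jE, smul_add_smul, ← add_assoc, ← jE, ← jet2_Kd hC, ← jet2_const_smul _ (cd_W hC j p),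
    ← map_surf, ← jet2_clm _ c1, ← jet2_clm _ c2, surJ]
  congr 1
  · exact jet2_congr (ev.mono fun z hz => by simp only [h.om_end hC _ j hz]; rfl)
  · congr 1
    exact jet2_congr (ev.mono fun z hz => h.W_end hC _ j hz)

/-- **the operator in the chart of an end** -/
theorem op_end (hχ : ∀ i, tsupport (χ i) ⊆ ball 0 (F.z₀ + 8)) {a : F.Ix κ → ℂ} (ha : ‖a‖ ≤ 1 / 2)
    (j : JJ F.D) {p : P2} (hp : F.s1 j - 2 < p.1) (q : J2 P2 ℂ) :
    F.op χ a (Kd F.D j) p q = F.σ j * (facE F.D j p (jS F.D j p + (F.σ j : ℂ) • q) *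
      shrE F.D j p (jS F.D j p + (F.σ j : ℂ) • q)) := by
  rw [op, OpP.elOp_eq, h.surJ_end hC a j hp, h.W_end hC _ j hp.le, jet2_Kd hC]
  have := OpP.el_rot (isRot_rotC (omE_ne ((norm_tl a).trans ha) j)) (jE F.D j p (jS F.D j p))
    (jE F.D j p (jS F.D j p + (F.σ j : ℂ) • q)) ((F.σ j : ℂ) • cE (Wd F.D j p))
  rw [ContinuousLinearMap.coe_restrictScalars'] at this
  rw [this, el_sign (h.sign j), Finset.sum_eq_zero fun i _ => by
    rw [h.src_end hC hχ i j (by linarith), Complex.ofReal_zero, mul_zero], sub_zero]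
  rfl

/-- **the linearised operator in the chart of an end** -/
theorem lin_end (hχ : ∀ i, tsupport (χ i) ⊆ ball 0 (F.z₀ + 8)) (j : JJ F.D) {p : P2}
    (hp : F.s1 j - 2 < p.1) (a : F.Ix κ → ℂ) (q : J2 P2 ℂ) :
    lin (F.op χ) (Kd F.D j) p (a, q) =
      facE F.D j p (jS F.D j p) * fderiv ℂ (shrE F.D j p) (jS F.D j p) q := by
  have hp' : F.s1 j - 3 ≤ p.1 := by linarith
  have e : (fun v : (F.Ix κ → ℂ) × J2 P2 ℂ => F.op χ v.1 (Kd F.D j) p v.2) =ᶠ[𝓝 0]
      fun v => F.σ j * (facE F.D j p (jS F.D j p + (F.σ j : ℂ) • v.2) *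
        shrE F.D j p (jS F.D j p + (F.σ j : ℂ) • v.2)) := by
    filter_upwards [(continuous_fst.norm.tendsto (0 : (F.Ix κ → ℂ) × J2 P2 ℂ)).eventually
      (ge_mem_nhds (show _ < (1 / 2 : ℝ) by simp))] with v hv using h.op_end hC hχ hv j hp v.2
  have d : HasFDerivAt (fun v : (F.Ix κ → ℂ) × J2 P2 ℂ => jS F.D j p + (F.σ j : ℂ) • v.2)
      ((F.σ j : ℂ) • ContinuousLinearMap.snd ℂ _ _) 0 :=
    (hasFDerivAt_snd.const_smul (F.σ j : ℂ)).const_add _
  have z : jS F.D j p = jS F.D j p + (F.σ j : ℂ) • (0 : (F.Ix κ → ℂ) × J2 P2 ℂ).2 := by simp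
  have d1 := HasFDerivAt.comp (g := facE F.D j p) 0 (z ▸ (h.diff_facE hC j hp').hasFDerivAt :) d
  have d2 := HasFDerivAt.comp (g := shrE F.D j p) 0 (z ▸ (h.diff_shrE hC j hp').hasFDerivAt :) d
  have d3 := ((d1.mul d2).const_mul (F.σ j : ℂ)).congr_of_eventuallyEq e
  have s : (F.σ j : ℂ) * F.σ j = 1 := by rcases h.sign j with e | e <;> simp [e]
  rw [lin, d3.fderiv]
  simp [h.shrE_zero hC j hp']
  linear_combination (facE F.D j p (jS F.D j p) * fderiv ℂ (shrE F.D j p) (jS F.D j p) q) * s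

omit h hC in
theorem op_Kc (a : F.Ix κ → ℂ) (j : JJ F.D) (y : P2) (q : J2 P2 ℂ) :
    F.op χ a (F.Kc j) y q = F.op χ a (Kd F.D j) (F.s1 j + y.1, y.2) q :=
  elOp_shift _ _ _ a (Kd F.D j) _ y q

omit h hC in
theorem lin_Kc (j : JJ F.D) (y : P2) :
    lin (F.op χ) (F.Kc j) y = lin (F.op χ) (Kd F.D j) (F.s1 j + y.1, y.2) := by
  simp only [lin, op_Kc]

/-- graphs `e` which solve the shrinker equation give solutions on the collars -/
theorem op_collar (hχ : ∀ i, tsupport (χ i) ⊆ ball 0 (F.z₀ + 8)) {a : F.Ix κ → ℂ}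
    (ha : ‖a‖ ≤ 1 / 2) (j : JJ F.D) {y : P2} (hy : -2 < y.1) {e : P2 → ℂ}
    (he : ContDiffAt ℝ 2 e (F.s1 j + y.1, y.2))
    (h0 : shrE F.D j (F.s1 j + y.1, y.2) (jet2 e (F.s1 j + y.1, y.2)) = 0) :
    F.op χ a (F.Kc j) y (jet2 (fun z : P2 =>
      (F.σ j : ℂ) * (e (F.s1 j + z.1, z.2) - gS F.D j (F.s1 j + z.1, z.2))) y) = 0 := by
  have s : (F.σ j : ℂ) * F.σ j = 1 := by rcases h.sign j with e | e <;> simp [e]
  rw [op_Kc, h.op_end hC hχ ha j (by dsimp only; linarith),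
    jet2_shift_fst fun z => (F.σ j : ℂ) * (e z - gS F.D j z),
    show jet2 (fun z => (F.σ j : ℂ) * (e z - gS F.D j z)) _ = _ from
      jet2_const_smul _ (he.sub (cd_g hC j _)), jet2_sub he (cd_g hC j _), smul_smul, s, one_smul,
    add_sub_cancel, h0, mul_zero, mul_zero]

/-- the linearised equation on the collars -/
theorem lin_collar (hχ : ∀ i, tsupport (χ i) ⊆ ball 0 (F.z₀ + 8)) (a : F.Ix κ → ℂ) (j : JJ F.D)
    {y : P2} (hy : -2 < y.1) (q : J2 P2 ℂ) :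
    lin (F.op χ) (F.Kc j) y (a, q) = 0 ↔
      fderiv ℂ (shrE F.D j (F.s1 j + y.1, y.2)) (jS F.D j (F.s1 j + y.1, y.2)) q = 0 := by
  rw [lin_Kc, h.lin_end hC hχ j (by dsimp only; linarith), mul_eq_zero,
    or_iff_right (h.facE_ne hC j (by dsimp only; linarith))]

end Frm.OK

theorem Frm.Src.supp {F : Frm S} {κ : Type} {χ : κ → E3 → ℝ} (h : F.Src χ) (i : κ) :
    tsupport (χ i) ⊆ ball 0 (F.z₀ + 8) := (h i).2.trans (ball_subset_ball (by linarith))

/-- **EL** -/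
theorem el_of (hC : ChartStmt) : ElStmt := by
  intro S F h _ κ _ χ hχ
  have c := hC S F.D h.eq0.shr.1
  refine ⟨h.elOK c (fun i => (hχ i).1.of_le (by simp)) hχ.supp (by norm_num) (by norm_num),
    fun j y hy q => ⟨fun e => ?_, fun e => ?_⟩⟩
  · rw [Frm.OK.op_Kc, h.op_end c hχ.supp (by simp) j (by dsimp only; linarith [hy.1]), e, mul_zero,
      mul_zero]
  · exact (h.lin_collar c hχ.supp 0 j (by linarith [hy.1]) q).2 e

end Vale.Agent.P218F.LS
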