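import Vale.Agent.P218F.LSDat
import Vale.Agent.P218F.CoreHol
import Vale.Agent.P218F.CorePar

/-! The family of solutions of the glued problem. -/

open Set Filter Topology Metric
open scoped ContDiff Real

set_option maxSynthPendingDepth 3
set_option linter.unusedSectionVars false

noncomputable section

namespace Vale.Agent.P218F.LS.Dt

open Vale.Agent.P218FT Vale.Agent.P218F.Core Vale.Agent.P218F.Wien

variable {q m : ℕ}

theorem isOpen_dom (r : ℝ) {U : Set ℂ} (hU : IsOpen U) : IsOpen (Nm.dom q m r U) := by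
  refine IsOpen.inter (isOpen_lt continuous_fst.norm continuous_const) ?_
  show IsOpen {x : Nm.X q m | ∀ j, x.2 j ∈ U}
  rw [ofPred_forall]
  exact isOpen_iInter_of_finite fun j => hU.preimage (by fun_prop)

theorem convex_dom (r : ℝ) {U : Set ℂ} (hU : Convex ℝ U) : Convex ℝ (Nm.dom q m r U) := by
  intro x hx y hy a b ha hb hab
  exact ⟨mem_ball_zero_iff.1 (convex_ball (0 : Fin q → ℂ) r (mem_ball_zero_iff.2 hx.1)
    (mem_ball_zero_iff.2 hy.1) ha hb hab), fun j => hU (hx.2 j) (hy.2 j) ha hb hab⟩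

theorem near_dom {r L R₁ : ℝ} (hR : 0 < R₁) {x₁ : Nm.X q m} (hx : x₁ ∈ Nm.dom q m r (Sym.Om L R₁)) :
    ∃ ε > 0, ∀ R, |R - R₁| < ε → ball x₁ (2 * ε) ⊆ Nm.dom q m r (Sym.Om L R) := by
  have h1 : ∀ᶠ p : ℝ × Nm.X q m in 𝓝 (R₁, x₁), p.2 ∈ Nm.dom q m r (Sym.Om L p.1) := by
    refine Eventually.and (ContinuousAt.eventually_lt (by fun_prop) continuousAt_const hx.1)
      (eventually_all.2 fun j => ?_)
    have := hR.ne'
    refine ContinuousAt.eventually_lt (f := fun p : ℝ × Nm.X q m =>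
      dist (p.2.2 j) ((2 / p.1 ^ 2 : ℝ) : ℂ)) ?_ ?_ (hx.2 j)
    · exact Tendsto.dist (f := fun p : ℝ × Nm.X q m => p.2.2 j) (Continuous.tendsto (by fun_prop) _)
        (Complex.continuous_ofReal.continuousAt.comp (f := fun p : ℝ × Nm.X q m => 2 / p.1 ^ 2)
          (by fun_prop (disch := positivity)))
    · fun_prop (disch := positivity)
  obtain ⟨ε, hε, h⟩ := Metric.eventually_nhds_iff_ball.1 h1
  refine ⟨ε / 2, by positivity, fun R h2 x h3 => h (R, x) ?_⟩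
  rw [← ball_prod_same]
  exact ⟨mem_ball_iff_norm.2 (by rw [Real.norm_eq_abs]; linarith), ball_subset_ball (by linarith) h3⟩

theorem zero_mem_Om {C₀ Λ R0 : ℝ} {cc Y : ℝ → ℂ → ℂ} (h : Sym.Inv C₀ Λ R0 cc Y) (hΛ : 0 ≤ Λ)
    {R : ℝ} (hR : R0 ≤ R) (h0 : 0 < R) : (0 : ℂ) ∈ Sym.Om (2 * Λ) R := by
  refine ball_subset_ball ?_ (h.small R hR (mem_ball_self (by positivity)))
  gcongr
  linarith

theorem isRe_of_star {ι : Type} {a : ι → ℂ} (h : star a = a) : IsRe a := fun i =>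
  Complex.conj_eq_iff_im.1 (congrFun h i)

variable {N : Type} [Fintype N] {E : EndF m N} {c : Col (Fin m ⊕ N)} {Λ d δ C R0 : ℝ}

theorem EndF.OK.atR (h : E.OK c Λ d δ C R0) {R : ℝ} (hR : R0 ≤ R) {v : Fin m → ℂ}
    (hv : ∀ j, v j ∈ Sym.Om (2 * Λ) R) :
    ∀ j, EndAt (c.eqn j) (c.s j) δ (c.g0 j) (E.eR R v j) (E.lowR R v j)
  | .inl j => h.fin R hR j _ (hv j)
  | .inr i => h.inf (.inr i)

theorem EndF.OK.reR (h : E.OK c Λ d δ C R0) {R : ℝ} (hR : R0 ≤ R) {v : Fin m → ℂ}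
    (hv : ∀ j, v j ∈ Sym.Om (2 * Λ) R) (hr : IsRe v) :
    ∀ j, EndRe (c.s j) δ (c.g0 j) (E.eR R v j) (E.lowR R v j)
  | .inl j => h.finRe R hR j _ (hv j) (hr j)
  | .inr i => h.infRe (.inr i)

theorem EndF.OK.devI (h : E.OK c Λ d δ C R0) {ρ ε : ℝ} (hρ : ρ ≤ δ) (hε : |C| * ρ ^ 2 ≤ ε) (j) :
    EndDev (c.gr j) (c.s j) ρ ε (c.g0 j) (E.ei j) (E.lowi j) (E.e' j) (E.low' j) := by
  intro g hg
  have h1 := h.dev j g (ball_subset_ball hρ hg)
  have h2 : C * ‖g - c.g0 j‖ ^ 2 ≤ ε := by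
    refine le_trans ?_ hε
    gcongr
    exacts [le_abs_self C, (mem_ball_iff_norm.1 hg).le]
  exact ⟨h1.1.trans h2, fun p a b => (h1.2 p a b).trans h2⟩

theorem EndF.OK.devR (h : E.OK c Λ d δ C R0) {ρ ε : ℝ} (hρ : ρ ≤ δ) (hε : |C| * ρ ^ 2 ≤ ε) :
    0 < ε → ∃ R₁, ∀ R, R₁ ≤ R → ∀ v : Fin m → ℂ, (∀ j, v j ∈ Sym.Om (2 * Λ) R) → ∀ j,
      EndDev (c.gr j) (c.s j) ρ (2 * ε) (c.g0 j) (E.eR R v j) (E.lowR R v j) (E.e' j)
        (E.low' j) := by
  intro h0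
  obtain ⟨R₁, H⟩ := h.x7 ε h0
  refine ⟨R₁, fun R hR v hv j => ?_⟩
  rcases j with j | i
  · intro g hg
    have h1 := h.devI hρ hε (.inl j) g hg
    have h2 := H R hR j g (ball_subset_ball hρ hg) _ (hv j)
    refine ⟨?_, fun p a b => ?_⟩
    · exact (norm_sub_le_norm_sub_add_norm_sub _ _ _).trans ((add_le_add h2.1 h1.1).trans
        (by linarith))
    · have h3 := h1.2 p a b
      rw [sub_sub] at h3 ⊢
      exact (norm_sub_le_norm_sub_add_norm_sub _ _ _).trans ((add_le_add (h2.2 p a b) h3).trans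
        (by linarith))
  · exact h.devI hρ (by linarith) (.inr i)

section sol

variable {S C0 : Set E3} [CompactSpace C0] {κ M : Type} [Fintype κ] [Fintype M]
  {K : M ⊕ N → P2 → E3} {op : Op (Ix κ M)} {c : Col (M ⊕ N)} {mom : κ → C(C0, ℂ) →L[ℂ] ℂ}
  {Z : Type} [NormedAddCommGroup Z] [NormedSpace ℂ Z] {val : Z →ₗ[ℂ] E3 → ℂ}
  {arg : Z × (Ix κ M → ℂ) →L[ℂ] Arg C0 (M ⊕ N → A2) (Ix κ M)}
  {E' : (M ⊕ N → A2) →ₗ[ℂ] M ⊕ N → P2 → ℂ} {B' : Arg C0 (M ⊕ N → A2) (Ix κ M) →L[ℂ] Ix κ M → ℂ}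
  {ε ρ Cs : ℝ} {sol : Dat C0 (M ⊕ N) (M ⊕ N → A2) (Ix κ M) → Z × (Ix κ M → ℂ)}
  {e : M ⊕ N → A2 → P2 → ℂ} {low : M ⊕ N → A2 → Fin 3 → ℂ} {b : κ → ℂ}

theorem isSol_of (H : Solver S K op (evJ _) E' B' val arg ε ρ Cs sol) (hρ : 0 < ρ)
    (hA : Adm E' B' ε ρ (c.dat mom e low b))
    (hg : ∀ j y, y.1 ∈ Icc (0 : ℝ) 3 → val (sol (c.dat mom e low b)).1 (K j y) =
      (c.dat mom e low b).E (arg (sol (c.dat mom e low b))).2.1 j y) :
    IsSol S K op c mom val arg ρ e low b (sol (c.dat mom e low b)) :=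
  ⟨⟨by linarith [(H.norm _ hA).1], by linarith [(H.norm _ hA).2]⟩, H.eq _ hA,
    fun p => sub_eq_zero.1 (congrFun (eqs_eq_zero.1 (H.extra _ hA)).1 p),
    fun j => congrFun (eqs_eq_zero.1 (H.extra _ hA)).2 j, hg⟩

theorem reSol_of {α : ℝ} (G : Geo S C0 K) (hc : c.OK K op) (hS : Space S K α (evJ _) val arg)
    {t : Z × (Ix κ M → ℂ)} (h : IsRe t.2 ∧ ∀ x ∈ Mo C0 K, (val t.1 x).im = 0) :
    ReSol K c val arg t :=
  ⟨h.1, h.2, hc.tr_re fun j θ => by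
    rw [hS.tr]
    exact h.2 _ (G.mem_mo j ⟨by norm_num, by norm_num⟩)⟩

theorem IsSol.tr_lt {t : Z × (Ix κ M → ℂ)} (h : IsSol S K op c mom val arg ρ e low b t) :
    ‖(arg t).2.1‖ < ρ := ((norm_fst_le (arg t).2).trans (norm_snd_le _)).trans_lt h.norm.2

/-- holomorphic families of data -/
theorem hol_in {P : Type} [NormedAddCommGroup P] [NormedSpace ℂ P] {U : Set P} (hc : c.OK K op)
    {e : P → M ⊕ N → A2 → P2 → ℂ} {low : P → M ⊕ N → A2 → Fin 3 → ℂ} {b : P → κ → ℂ}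
    (hρ : ρ ≤ δ) (he : ∀ x ∈ U, ∀ j, EndAt (c.eqn j) (c.s j) δ (c.g0 j) (e x j) (low x j))
    (h1 : ∀ j (p : P2), c.s j < p.1 → p.1 < c.s j + 6 →
      DifferentiableOn ℂ (fun t : A2 × P => jet1 (e t.2 j t.1) p) (ball (c.g0 j) δ ×ˢ U))
    (h2 : ∀ j, DifferentiableOn ℂ (fun t : A2 × P => low t.2 (.inl j) t.1)
      (ball (c.g0 (.inl j)) δ ×ˢ U)) (hb : Differentiable ℂ b) :
    (∀ j y, y.1 ∈ Ioo (0 : ℝ) 6 → DifferentiableOn ℂ (fun t : (M ⊕ N → A2) × P =>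
      jet1 ((c.dat mom (e t.2) (low t.2) (b t.2)).E t.1 j) y) (ball 0 ρ ×ˢ U)) ∧
    DifferentiableOn ℂ (fun t : Arg C0 (M ⊕ N → A2) (Ix κ M) × P =>
      (c.dat mom (e t.2) (low t.2) (b t.2)).B t.1) (ball 0 ρ ×ˢ U) := by
  refine ⟨fun j y hy => ?_, diffOn_eqs (fun p => by fun_prop) fun j => ?_⟩
  · have a1 := (h1 j _ (sh_mem hy).1 (sh_mem hy).2).comp
      (f := fun t : (M ⊕ N → A2) × P => (c.tr t.1 j, t.2))
      (((tr_diff c j).comp differentiable_fst).prodMk differentiable_snd).differentiableOn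
      (s := ball 0 ρ ×ˢ U) fun t ht =>
        ⟨hc.tr_mem ((mem_ball_zero_iff.1 ht.1).trans_le hρ) j, ht.2⟩
    refine ((a1.sub_const (jet1 (fun η => (c.gr j η : ℂ)) (sh (c.s j) y))).const_smul
      (c.σ j : ℂ)).congr fun t ht => ?_
    rw [jet1_eq, dat_jet hc (he _ ht.2) ((mem_ball_zero_iff.1 ht.1).trans_le hρ) j hy, map_smul,
      map_sub]
    rfl
  · exact (h2 j).comp (f := fun t : Arg C0 (M ⊕ N → A2) (Ix κ M) × P =>
      (c.tr t.1.2.1 (.inl j), t.2)) (((tr_diff c _).comp (by fun_prop)).prodMk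
        differentiable_snd).differentiableOn fun t ht => ⟨hc.tr_mem ((((norm_fst_le t.1.2).trans
          (norm_snd_le _)).trans_lt (mem_ball_zero_iff.1 ht.1)).trans_le hρ) _, ht.2⟩

end sol

/-- **LS-DAT** -/
theorem sol_of (hC : CoreSolve) : SolStmt := by
  intro S C0 _ q m N _ K op c mom E α δ₀ Λ d δ C R0 C₀ cc Y hα hα1 hδ₀ hΛ hd hR0 hI G hop hc hm hE
    hinj
  obtain ⟨Z, _, _, val, arg, hZ, hS, θ, hθ, ρ0, hρ0, Cs, H⟩ := hC S C0 _ _ _ K op α δ₀ (evJ _)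
    (c.linE E.e') (c.linB mom E.low') (by linarith) hα1 hδ₀ G hop (traceOK hα _)
    (linOK hc hm hE.lin (fun i => (hE.cone0 i).2) hinj)
  refine ⟨Z, _, _, val, arg, hZ, hS, fun ρ₀ hρ₀ => ?_⟩
  have hδ := hE.δpos
  obtain ⟨ρ, hρ, r1, r2, r3, r4⟩ : ∃ ρ, 0 < ρ ∧ ρ ≤ ρ₀ ∧ ρ ≤ ρ0 ∧ ρ ≤ δ ∧
      |C| * ρ ^ 2 ≤ θ * ρ / 2 := by
    refine ⟨min (min ρ₀ ρ0) (min δ (θ / 2 / (|C| + 1))), by positivity,
      (min_le_left _ _).trans (min_le_left _ _), (min_le_left _ _).trans (min_le_right _ _),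
      (min_le_right _ _).trans (min_le_left _ _), ?_⟩
    set ρ := min (min ρ₀ ρ0) (min δ (θ / 2 / (|C| + 1)))
    have h1 : ρ ≤ θ / 2 / (|C| + 1) := (min_le_right _ _).trans (min_le_right _ _)
    have h2 : 0 < ρ := by positivity
    rw [le_div_iff₀ (by positivity)] at h1
    nlinarith
  obtain ⟨sol, hs⟩ := H ρ hρ r2
  obtain ⟨R₁, hdev⟩ := hE.devR r3 r4 (by positivity)
  rw [show 2 * (θ * ρ / 2) = θ * ρ by ring] at hdev
  set D : ℝ → Nm.X q m → Dat C0 _ _ _ := fun R x => c.dat mom (E.eR R x.2) (E.lowR R x.2) x.1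
  set Di : (Fin q → ℂ) → Dat C0 _ _ _ := fun b => c.dat mom E.ei E.lowi b
  set R1 := max R0 R₁
  have a0 : ∀ {R}, R1 ≤ R → R0 ≤ R := fun h => (le_max_left _ _).trans h
  have aR : ∀ R, R1 ≤ R → ∀ x ∈ Nm.dom q m (θ * ρ) (Sym.Om (2 * Λ) R),
      Adm (c.linE E.e') (c.linB mom E.low') (θ * ρ) ρ (D R x) := fun R hR x hx =>
    adm hc (hE.atR (a0 hR) hx.2) r3 (hdev R ((le_max_right _ _).trans hR) _ hx.2) hx.1.le
  have aI : ∀ b : Fin q → ℂ, ‖b‖ < θ * ρ →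
      Adm (c.linE E.e') (c.linB mom E.low') (θ * ρ) ρ (Di b) := fun b hb =>
    adm hc hE.inf r3 (hE.devI r3 (by nlinarith)) hb.le
  have hR : ∀ R, R1 ≤ R →
      DifferentiableOn ℂ (fun x => sol (D R x)) (Nm.dom q m (θ * ρ) (Sym.Om (2 * Λ) R)) ∧
      ∀ x ∈ Nm.dom q m (θ * ρ) (Sym.Om (2 * Λ) R),
        IsSol S K op c mom val arg ρ (E.eR R x.2) (E.lowR R x.2) x.1 (sol (D R x)) := by
    intro R hR
    obtain ⟨b1, b2⟩ := hol_in (mom := mom) (U := Nm.dom q m (θ * ρ) (Sym.Om (2 * Λ) R)) hc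
      (e := fun x => E.eR R x.2) (low := fun x => E.lowR R x.2) (b := fun x => x.1) r3
      (fun x hx => hE.atR (a0 hR) hx.2) (fun j p a b => by
        rcases j with j | i
        · exact ((hE.hol R (a0 hR) j).1 p a b).comp (f := fun t : A2 × Nm.X q m => (t.1, t.2.2 j))
            (by fun_prop) fun t ht => ⟨ht.1, ht.2.2 j⟩
        · exact ((hE.inf (.inr i)).hol p a b).comp differentiableOn_fst fun t ht => ht.1)
      (fun j => (hE.hol R (a0 hR) j).2.comp (f := fun t : A2 × Nm.X q m => (t.1, t.2.2 j))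
        (by fun_prop) fun t ht => ⟨ht.1, ht.2.2 j⟩) differentiable_fst
    obtain ⟨b3, b4⟩ := hs.hol _ _ (D R) (isOpen_dom _ isOpen_ball) (aR R hR) b1 b2
    refine ⟨b3, fun x hx => isSol_of hs hρ (aR R hR x hx) (b4 {x | Nm.IsRe x} (fun f f1 f2 => ?_)
      (fun x hx hr => reDat hc hm (hE.reR (a0 hR) hx.2 hr.2) r3 hr.1)
      (fun x hx => exact hc (hE.atR (a0 hR) hx.2) r3 fun i => (hE.cone0 i).1) x hx)⟩
    exact eqOn_zero_of_fixed (σ := star) continuous_star star_add (fun a x => star_smul a x)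
      star_star (isOpen_dom _ isOpen_ball) (convex_dom _ (convex_ball _ _)) (a := 0)
      ⟨by simp; positivity, fun _ => zero_mem_Om hI hΛ (a0 hR) (by linarith [a0 hR])⟩
      (star_zero _) f1 fun p hp hσ => f2 p hp
        ⟨isRe_of_star (congrArg Prod.fst hσ), isRe_of_star (congrArg Prod.snd hσ)⟩
  have hI' : DifferentiableOn ℂ (fun b => sol (Di b)) (ball 0 (θ * ρ)) ∧
      ∀ b ∈ ball (0 : Fin q → ℂ) (θ * ρ),
        IsSol S K op c mom val arg ρ E.ei E.lowi b (sol (Di b)) := by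
    obtain ⟨b1, b2⟩ := hol_in (mom := mom) (U := ball (0 : Fin q → ℂ) (θ * ρ)) hc
      (e := fun _ => E.ei) (low := fun _ => E.lowi) (b := fun x => x) r3 (fun _ _ => hE.inf)
      (fun j p a b => ((hE.inf j).hol p a b).comp differentiableOn_fst fun t ht => ht.1)
      (fun j => (hE.inf (.inl j)).hlow.comp differentiableOn_fst fun t ht => ht.1)
      differentiable_id
    obtain ⟨b3, b4⟩ := hs.hol _ _ Di isOpen_ball (fun b hb => aI b (mem_ball_zero_iff.1 hb)) b1 b2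
    refine ⟨b3, fun x hx => isSol_of hs hρ (aI x (mem_ball_zero_iff.1 hx))
      (b4 {x | IsRe x} (fun f f1 f2 => ?_) (fun x _ hr => reDat hc hm hE.infRe r3 hr)
      (fun x _ => exact hc hE.inf r3 fun i => (hE.cone0 i).1) x hx)⟩
    exact eqOn_zero_of_fixed (σ := star) continuous_star star_add (fun a x => star_smul a x)
      star_star isOpen_ball (convex_ball _ _) (mem_ball_self (by positivity)) (star_zero _) f1
      fun p hp hσ => f2 p hp (isRe_of_star hσ)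
  have nest : ∀ R R', R1 ≤ R → R ≤ R' → Nm.dom q m (θ * ρ) (Sym.Om (2 * Λ) R') ⊆
      Nm.dom q m (θ * ρ) (Sym.Om (2 * Λ) R) := fun R R' h1 h2 x hx =>
    ⟨hx.1, fun j => hI.nest R R' (a0 h1) h2 _ (by linarith) (by linarith) (hx.2 j)⟩
  have lipR : ∀ R R', R1 ≤ R → R ≤ R' → R' ≤ R + 1 → ∀ x ∈ Nm.dom q m (θ * ρ) (Sym.Om (2 * Λ) R'),
      ‖sol (D R' x) - sol (D R x)‖ ≤ |Cs| * |C| * ((R' - R) * R ^ (-5 - d)) := by
    intro R R' h1 h2 h3 x hx
    have hx' := nest R R' h1 h2 hx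
    have h0 : 0 ≤ (R' - R) * R ^ (-5 - d) :=
      mul_nonneg (by linarith) (Real.rpow_nonneg (by linarith [a0 h1]) _)
    have h4 : C * (R' - R) * R ^ (-5 - d) ≤ |C| * ((R' - R) * R ^ (-5 - d)) := by
      rw [mul_assoc]; gcongr; exact le_abs_self C
    have h5 := ((hR R h1).2 x hx').tr_lt.trans_le r3
    obtain ⟨b1, b2⟩ := stab_in hc (hE.atR (a0 (h1.trans h2)) hx.2) (hE.atR (a0 h1) hx'.2) h5
      (hs.extra _ (aR R h1 x hx')) (b := x.1) (η := |C| * ((R' - R) * R ^ (-5 - d)))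
      (by simp; positivity)
      (fun j => (hE.x3 R R' (a0 h1) h2 h3 j _ (hc.tr_mem h5 _) _ (hx.2 j)).1.trans h4)
      (fun j p a b => by
        rcases j with j | i
        · exact ((hE.x3 R R' (a0 h1) h2 h3 j _ (hc.tr_mem h5 _) _ (hx.2 j)).2 p a b).trans h4
        · simp only [EndF.eR, sub_self, norm_zero]; positivity)
    refine (hs.stab _ _ (aR R' (h1.trans h2) x hx) (aR R h1 x hx') _ b1 b2).trans ?_
    rw [mul_assoc]
    gcongr
    exact le_abs_self Cs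
  refine ⟨ρ, θ * ρ, R1, ρ + |Cs| * |C| + |Cs|, fun R x => sol (D R x), fun b => sol (Di b), r1,
    le_max_left _ _, ⟨by positivity, fun R h => (hR R h).1, fun R h x hx => ?_,
      fun R R' h1 h2 h3 x hx => (lipR R R' h1 h2 h3 x hx).trans ?_⟩, fun R h => (hR R h).2,
    fun R h x hx hr => reSol_of G hc hS (hs.real _ (aR R h x hx)
      (reDat hc hm (hE.reR (a0 h) hx.2 hr.2) r3 hr.1)), fun R₂ h x₁ hx₁ => ?_,
    fun b hb => hI'.2 b (mem_ball_zero_iff.2 hb), fun b hb hr => reSol_of G hc hS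
      (hs.real _ (aI b hb) (reDat hc hm hE.infRe r3 hr)), hI'.1, fun b hb => ?_, fun η hη => ?_⟩
  · have := ((hR R h).2 x hx).norm.1
    linarith [abs_nonneg Cs, mul_nonneg (abs_nonneg Cs) (abs_nonneg C)]
  · rw [mul_assoc (_ + _)]
    have h0 : 0 ≤ (R' - R) * R ^ (-5 - d) :=
      mul_nonneg (by linarith) (Real.rpow_nonneg (by linarith [a0 h1]) _)
    gcongr
    linarith [abs_nonneg Cs]
  · obtain ⟨ε, hε, hn⟩ := near_dom (by linarith [a0 h]) hx₁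
    refine ⟨|Cs| * |C| + 2 * ρ / ε, min ε (1 / 2), by positivity,
      fun R R' x x' h1 h2 h3 h4 h5 h6 => ?_⟩
    have b1 := hn R (h3.trans_le (min_le_left _ _))
    have b2 := mem_ball_iff_norm.2 (h5.trans_le (min_le_left _ _))
    have b3 := mem_ball_iff_norm.2 (h6.trans_le (min_le_left _ _))
    have b4 : ball x₁ ε ⊆ ball x₁ (2 * ε) := ball_subset_ball (by linarith)
    have b5 := hn R' (h4.trans_le (min_le_left _ _)) (b4 b3)
    refine ⟨b1 (b4 b2), b5, ?_⟩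
    have b6 := lipR R R' h1 h2 (by
      linarith [(abs_lt.1 (h3.trans_le (min_le_right _ _))).1,
        (abs_lt.1 (h4.trans_le (min_le_right _ _))).2]) x' b5
    have b7 := lip_half ((hR R h1).1.mono b1) (fun z hz => ((hR R h1).2 z (b1 hz)).norm.1.le) b3 b2
    have b8 : (R' - R) * R ^ (-5 - d) ≤ (R' - R) * 1 := by
      gcongr
      exact Real.rpow_le_one_of_one_le_of_nonpos (by linarith [a0 h1]) (by linarith)
    have b9 := mul_le_mul_of_nonneg_left b8 (by positivity : 0 ≤ |Cs| * |C|)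
    have b10 : 0 ≤ 2 * ρ / ε * (R' - R) := mul_nonneg (by positivity) (by linarith)
    have b11 : 0 ≤ |Cs| * |C| * ‖x' - x‖ := by positivity
    linarith [norm_sub_le_norm_sub_add_norm_sub (sol (D R' x')) (sol (D R x')) (sol (D R x))]
  · have e0 : ∀ j, c.tr 0 j = c.g0 j := fun j => by simp [Col.tr]
    refine (hs.small _ (aI b hb) ‖b‖ (fun j y hy => ?_) ?_).trans ?_
    · have h1 := (hE.dev j _ (mem_ball_self hδ)).2 _ (sh_mem hy).1 (sh_mem hy).2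
      rw [sub_self, map_zero, norm_zero, show jet2 (0 : P2 → ℂ) (sh (c.s j) y) = 0 from
        jet2_const 0 _, sub_zero] at h1
      rw [dat_jet hc hE.inf (by simpa using hδ) j hy, norm_smul, hc.norm, one_mul, e0]
      exact h1.trans (by simp)
    · refine norm_eqs_le (norm_nonneg _) ?_ fun j => ?_
      · exact le_of_eq (by rw [← norm_neg b]; congr 1; funext p; simp)
      · have h1 := (hE.dev (.inl j) _ (mem_ball_self hδ)).1
        rw [sub_self, map_zero, norm_zero, sub_zero] at h1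
        rw [show ((0 : Arg C0 (Fin m ⊕ N → A2) (Ix (Fin q) (Fin m))).2.1) = 0 from rfl, e0]
        exact h1.trans (by simp)
    · gcongr
      linarith [le_abs_self Cs, mul_nonneg (abs_nonneg Cs) (abs_nonneg C)]
  · obtain ⟨R₂, H2⟩ := hE.x7 (η / (|Cs| + 1)) (by positivity)
    refine ⟨max R1 R₂, fun R h x hx => ?_⟩
    have h1 := (le_max_left _ _).trans h
    have h2 := (le_max_right _ _).trans h
    have h5 := (hI'.2 x.1 (mem_ball_zero_iff.2 hx.1)).tr_lt.trans_le r3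
    obtain ⟨b1, b2⟩ := stab_in hc (hE.atR (a0 h1) hx.2) hE.inf h5 (hs.extra _ (aI _ hx.1))
      (b := x.1) (η := η / (|Cs| + 1)) (by simp; positivity)
      (fun j => (H2 R h2 j _ (hc.tr_mem h5 _) _ (hx.2 j)).1) (fun j p a b => by
        rcases j with j | i
        · exact (H2 R h2 j _ (hc.tr_mem h5 _) _ (hx.2 j)).2 p a b
        · simp only [EndF.eR, sub_self, norm_zero]; positivity)
    refine (hs.stab _ _ (aR R h1 x hx) (aI _ hx.1) _ b1 b2).trans ?_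
    rw [mul_div_assoc', div_le_iff₀ (by positivity)]
    nlinarith [le_abs_self Cs]

end Vale.Agent.P218F.LS.Dt
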