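import Vale.Agent.P218F.LSChart
import Vale.Agent.P218F.LSEl
import Vale.Agent.P218F.LSSol
import Vale.Agent.P218F.CoreOp

/-! The core theorem applied to the data of the ends of a frame. -/

open MeasureTheory Set Filter Topology Metric
open scoped ContDiff Real

set_option maxSynthPendingDepth 3
set_option linter.unusedSectionVars false

noncomputable section

namespace Vale.Agent.P218F.LS.Db

open Vale.Agent.P218FT hiding P2
open Vale.Agent.P218F.Core Vale.Agent.P218F.Ends Vale.Agent.P218F.Wien Vale.Agent.P218F.LS.Dt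

section inf

variable {B W : P2 → C3} {gr : P2 → ℝ} {s δ C : ℝ} {g0 : AA} {ei : AA → P2 → ℂ}
  {lowi : AA → Fin 3 → ℂ} {e' : AA →ₗ[ℂ] P2 → ℂ} {low' : AA →L[ℂ] Fin 3 → ℂ}
  (h : InfFam B W gr s δ C g0 ei lowi e' low')
include h

theorem endAt : EndAt (shrG B W) s δ g0 ei lowi where
  c2 g hg _ h1 _ := (h.c2 g hg).contDiffAt (prod_mem_nhds (Ioi_mem_nhds h1) univ_mem)
  cont g hg := (h.cont g hg).mono (prod_mono Ico_subset_Ici_self subset_rfl)
  per := h.per
  eq g hg p h1 _ := h.eq g hg p h1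
  mat := h.mat
  hol := h.hol
  hlow := h.hlow

theorem endRe : EndRe s δ g0 ei lowi := fun g hg hr =>
  ⟨fun p h1 _ => (h.real g hg hr).1 p h1.le, (h.real g hg hr).2⟩

theorem endLin : EndLin (shrG B W) gr s C e' low' where
  c2 g _ h1 _ := (h.c2' g).contDiffAt (prod_mem_nhds (Ioi_mem_nhds h1) univ_mem)
  cont g := (h.cont' g).mono (prod_mono Ico_subset_Ici_self subset_rfl)
  per := h.per'
  eq g p h1 _ := h.eq' g p h1
  mat := h.mat'
  real g hr := ⟨fun p h1 _ => (h.real' g hr).1 p h1.le, (h.real' g hr).2⟩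
  bd := h.bd'

end inf

variable {S : Set E3} {F : Frm S}

/-- the collars of a frame -/
def col (H : EF F) : Col (JJ F.D) := ⟨F.s1, F.σ, gS F.D, H.g0, shrE F.D⟩

/-- the end solutions of a frame -/
def endF (H : EF F) : EndF F.D.m (Fin F.D.k) where
  e R j g v := H.e j R g v
  low R j g v := H.low j R g v
  ei := H.ei
  lowi := Sum.elim H.lowi fun _ => 0
  e' := H.e'
  low' := Sum.elim H.low' fun _ => 0

variable {H : EF F}

theorem inf (hH : H.OK) : ∀ j, InfFam (Bx F.D j) (Wx F.D j) (gS F.D j) (F.s1 j) H.δ H.C (H.g0 j)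
    (H.ei j) ((endF H).lowi j) (H.e' j) ((endF H).low' j)
  | .inl j => (hH.cyl j).toInfFam
  | .inr i => (hH.cone i).toInfFam

theorem z_nonneg (hF : F.OK) : 0 ≤ F.z₀ := by
  have h1 := F.D.big
  have h2 := F.D.δpos
  have h3 : 0 ≤ F.D.R₀ := by by_contra h; nlinarith
  linarith [hF.z_big]

theorem endOK (hF : F.OK) (hH : H.OK) : (endF H).OK (col H) H.Λ (3 / 5) H.δ H.C H.R0 where
  δpos := hH.δpos
  inf j := endAt (inf hH j)
  infRe j := endRe (inf hH j)
  lin j := endLin (inf hH j)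
  cone0 _ := ⟨fun _ => rfl, rfl⟩
  dev j g hg := ⟨(inf hH j).devlow g hg, (inf hH j).dev g hg⟩
  fin R hR j v hv := by
    have h := hH.cyl j
    have hb : F.z₀ + 11 + 6 ≤ R := by linarith [h.big, z_nonneg hF]
    have hm : MapsTo (fun g : AA => (g, v)) (ball (H.g0 (.inl j)) H.δ)
        (ball (H.g0 (.inl j)) H.δ ×ˢ Sym.Om (2 * H.Λ) R) := fun g hg => ⟨hg, hv⟩
    have hd : DifferentiableOn ℂ (fun g : AA => (g, v)) (ball (H.g0 (.inl j)) H.δ) := by fun_prop
    exact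
      { c2 := fun g hg p h1 h2 => (h.fc2 R hR g hg v hv).contDiffAt
          (prod_mem_nhds (Icc_mem_nhds h1 (h2.trans_le hb)) univ_mem)
        cont := fun g hg => (h.fc2 R hR g hg v hv).continuousOn.mono
          (prod_mono (fun z hz => ⟨hz.1, hz.2.le.trans hb⟩) subset_rfl)
        per := fun g hg => h.fper R hR g hg v hv
        eq := fun g hg p h1 h2 => (h.feq R hR g hg v hv p h1 (h2.trans_le hb)).2.1
        mat := fun g hg => h.fmat R hR g hg v hv
        hol := fun p h1 h2 => ((h.fhol R hR).1 p h1 h2).comp hd hm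
        hlow := (h.fhol R hR).2.comp hd hm }
  finRe R hR j v hv hr g hg hg' := by
    have h := hH.cyl j
    have hb : F.z₀ + 11 + 6 ≤ R := by linarith [h.big, z_nonneg hF]
    exact ⟨fun p h1 h2 => (h.freal R hR g hg v hv hg' hr).1 p h1.le (h2.le.trans hb),
      (h.freal R hR g hg v hv hg' hr).2⟩
  hol R hR j := (hH.cyl j).fhol R hR
  x3 R R' h1 h2 h3 j := (hH.cyl j).x3 R R' h1 h2 h3
  x7 ε hε := by
    choose R₁ hR₁ using fun j => (hH.cyl j).x7 (F.z₀ + 11 + 6) ε hε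
    obtain ⟨R₂, hR₂⟩ := (Set.finite_range R₁).bddAbove
    exact ⟨R₂, fun R hR j => hR₁ j R ((hR₂ ⟨j, rfl⟩).trans hR)⟩

variable {q : ℕ} {χ : Fin q ⊕ Fin F.D.m → E3 → ℝ}

theorem Kc_sub (j : JJ F.D) (p : P2) : F.Kc j (p.1 - F.s1 j, p.2) = Kd F.D j p := by
  simp [Frm.Kc]

theorem sh_sub (s : ℝ) (p : P2) : Dt.sh s (p.1 - s, p.2) = p := by simp [Dt.sh]

variable [CompactSpace F.C0] {mom : Fin q → C(F.C0, ℂ) →L[ℂ] ℂ}

theorem inj_of (hH : H.OK) (hc : (col H).OK F.Kc (F.op χ)) (hK : NoKer F χ)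
    (hm : ∀ i (v : C(F.C0, ℂ)) (w : E3 → ℂ), (∀ x : F.C0, v x = w x) →
      mom i v = mo F.C0 (χ (.inl i)) w) : Inj S F.Kc (F.op χ) (col H) mom (endF H).e' := by
  intro w v h1 h2 h3 h4 h5
  have hb : ∀ j, H.C * ‖(F.σ j : ℂ) • v.2.1 j‖ ≤ |H.C| * ‖v.2.1‖ := fun j => by
    rw [norm_smul, show ‖(F.σ j : ℂ)‖ = 1 from hc.norm j, one_mul]
    gcongr
    exacts [le_abs_self _, norm_le_pi_norm v.2.1 j]
  obtain ⟨a, b, -⟩ := hK H.u (fun j => (hH.cyl j).jac) 0 w v.2.2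
    (fun j => H.e' j ((F.σ j : ℂ) • v.2.1 j))
    { reg := h2
      eq := h3
      glue := fun j p hp => by
        have := h4 j (p.1 - F.s1 j, p.2) ⟨by linarith [hp.1], by linarith [hp.2]⟩
        rw [Kc_sub, show (col H).s j = F.s1 j from rfl, sh_sub] at this
        rw [this, map_smul]
        rfl
      c2 := fun j => (inf hH j).c2' _
      per := fun j => (inf hH j).per' _
      eqE := fun j => (inf hH j).eq' _
      cyl := ⟨|H.C| * ‖v.2.1‖, 0, fun j p hp => by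
        have := ((hH.cyl j).glob' ((F.σ (.inl j) : ℂ) • v.2.1 (.inl j)) p (by linarith)).trans
          (hb (.inl j))
        rw [Pi.zero_apply, zero_mul, sub_zero, pow_zero, mul_one]
        exact ⟨(norm_fst_le _).trans this, (norm_snd_le _).trans this⟩⟩
      cone := ⟨|H.C| * ‖v.2.1‖, fun i p hp =>
        ((hH.cone i).glob' _ p (by linarith)).trans (hb (.inr i))⟩ }
    (fun i => by rw [← hm i v.1 w h1]; exact h5 i) (Or.inl rfl)
  exact ⟨ContinuousMap.ext fun x => (h1 x).trans (a x x.2), b⟩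

variable {Z : Type} [NormedAddCommGroup Z] [NormedSpace ℂ Z] {val : Z →ₗ[ℂ] E3 → ℂ}
  {arg : Un F q Z →L[ℂ] Arg F.C0 (JJ F.D → AA) (F.Ix (Fin q ⊕ Fin F.D.m))}

/-- the trace -/
def trOf (arg : Un F q Z →L[ℂ] Arg F.C0 (JJ F.D → AA) (F.Ix (Fin q ⊕ Fin F.D.m))) :
    Un F q Z →L[ℂ] JJ F.D → AA :=
  (ContinuousLinearMap.fst ℂ _ _).comp ((ContinuousLinearMap.snd ℂ _ _).comp arg)

theorem sp_of {α : ℝ} (hG : Geo S F.C0 F.Kc) (hχ : F.Src χ)
    (h : Space S F.Kc α (evJ _) val arg) : Sp χ val (trOf arg) where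
  jet φ y h1 h2 := by
    obtain ⟨r, hr, C, hC⟩ := h.jet φ y h1 h2
    exact ⟨r, hr, C, fun z y' hy => ⟨(hC z y' hy).1, (hC z y' hy).2.1⟩⟩
  tr := h.tr
  sup := ⟨‖arg‖, fun z x hx => by
    rw [← h.res (z, 0) ⟨x, hx⟩]
    refine ((arg (z, 0)).1.norm_coe_le_norm _).trans ((norm_fst_le _).trans
      ((arg.le_opNorm _).trans_eq ?_))
    simp⟩
  cont z := by
    rw [continuousOn_iff_continuous_domRestrict]
    exact (arg (z, 0)).1.continuous.congr fun x => h.res (z, 0) x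
  mom i := by
    obtain ⟨L, hL, -⟩ := exists_mom par_proof hG.surf hG.sub (hχ i).1.continuous
    exact ⟨L.comp ((ContinuousLinearMap.fst ℂ _ _).comp (arg.comp (ContinuousLinearMap.inl ℂ _ _))),
      fun z => hL _ _ fun x => h.res (z, 0) x⟩

theorem sol_of_isSol {α δ₀ ρ' ρ : ℝ} (hG : Geo S F.C0 F.Kc)
    (hCr : ∀ x ∈ F.Cr (5 / 2), x ∈ F.C0 ∨ ∃ j y, y.1 ∈ Ioc (0 : ℝ) (5 / 2) ∧ F.Kc j y = x)
    (hO : OpOK S F.C0 F.Kc (F.op χ) α δ₀) (hc : (col H).OK F.Kc (F.op χ))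
    (hm : ∀ i (v : C(F.C0, ℂ)) (w : E3 → ℂ), (∀ x : F.C0, v x = w x) →
      mom i v = mo F.C0 (χ (.inl i)) w) (hS : Space S F.Kc α (evJ _) val arg)
    {e low : _} {b : Fin q → ℂ} {t : Un F q Z}
    (he : ∀ j, EndAt (shrE F.D j) (F.s1 j) H.δ (H.g0 j) (e j) (low j))
    (h0 : ∀ i g, low (.inr i) g = 0) (h1 : ρ' ≤ ρ) (h2 : ρ ≤ δ₀) (h3 : ρ ≤ H.δ)
    (h : IsSol S F.Kc (F.op χ) (col H) mom val arg ρ' e low b t) :
    LS.Sol χ val (trOf arg) ρ b t fun j => e j (H.g (trOf arg t) j) where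
  norm := h.norm.1.le.trans h1
  trn := h.tr_lt.le.trans h1
  eq φ y hp hx := by
    rcases hCr _ hx with hx | ⟨j, y', hy, hx⟩
    · exact h.eq φ y hp hx
    have y6 : y'.1 ∈ Ioo (0 : ℝ) 6 := ⟨hy.1, by linarith [hy.2]⟩
    have hp' := hG.par j y' ⟨by linarith [hy.1], by linarith [hy.2]⟩
    have hM : F.Kc j y' ∈ Mo F.C0 F.Kc := Or.inr ⟨j, y', y6, rfl⟩
    have ha : ‖t.2‖ < δ₀ := ((norm_snd_le t).trans_lt h.norm.1).trans_le (h1.trans h2)
    have reg : ∀ φ y, Par S φ y → φ y ∈ Mo F.C0 F.Kc →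
        ContDiffAt ℝ 2 (fun z => val t.1 (φ z)) y := fun φ y a b => by
      obtain ⟨r, hr, C, hC⟩ := hS.jet φ y a b
      exact (hC t.1 y (mem_ball_self hr)).1
    rw [hO.inv _ _ _ _ hp' hp hM hx.symm _ ha _ (reg _ _ hp' hM) (reg _ _ hp (hx ▸ hM)),
      hO.out j y' y6 _ ha]
    have e1 : (fun z => val t.1 (F.Kc j z)) =ᶠ[𝓝 y']
        ((col H).dat mom e low b).E (arg t).2.1 j := by
      filter_upwards [continuous_fst.continuousAt.eventually
        (Icc_mem_nhds hy.1 (show y'.1 < 3 by linarith [hy.2]))] with z hz using h.glue j z hz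
    rw [jet2_congr e1]
    exact (exact (mom := mom) (b := b) hc he (h1.trans h3) h0).eq _ h.tr_lt j y' y6
  mom i := by rw [← hm i (arg t).1 _ (hS.res t)]; exact h.mom i
  glue j p hp := by
    have := h.glue j (p.1 - F.s1 j, p.2) ⟨by linarith [hp.1], by linarith [hp.2]⟩
    rw [Kc_sub, show (col H).s j = F.s1 j from rfl, sh_sub] at this
    rw [Frm.e, this, ← mul_assoc]
    erw [hc.sq j]
    rw [one_mul]
    exact add_sub_cancel _ _

end Vale.Agent.P218F.LS.Db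

namespace Vale.Agent.P218F.LS

open Vale.Agent.P218FT hiding P2
open Vale.Agent.P218F.Core Vale.Agent.P218F.Ends Vale.Agent.P218F.Wien Vale.Agent.P218F.LS.Dt Db

theorem dat_of (hSol : SolStmt) (hCh : ChartStmt) (hGeo : GeoStmt) (hEl : ElStmt) : DatStmt := by
  intro S F hF hne H hH q χ hχ hK
  obtain ⟨hG, hCr, -⟩ := hGeo S F hF hne
  obtain ⟨hE, hd⟩ := hEl S F hF hne _ χ hχ
  have hD := hCh S F.D hG.surf
  have : CompactSpace F.C0 := isCompact_iff_compactSpace.1 hG.cpt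
  have hO : OpOK S F.C0 F.Kc (F.op χ) (3 / 4) (1 / 100) :=
    op_proof par_proof S F.C0 _ _ F.Kc F.V _ _ _ _ _ (by norm_num) (by norm_num) (by norm_num) hG hE
  have hc : (col H).OK F.Kc (F.op χ) :=
    { sign := hF.sign
      c2 := fun j => (hD.smooth j).2.2.of_le (by norm_cast)
      per := fun j p => (hD.per j p).2.2
      ev0 := fun j => (inf hH j).ev0
      dict := fun j y hy q => (hd j y hy q).1
      dict' := fun j y hy q => (hd j y hy q).2 }
  choose mom hm hr using fun i : Fin q =>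
    exists_mom par_proof hG.surf hG.sub (hχ (.inl i)).1.continuous
  obtain ⟨C₀, R₀, cc, hI, r1, r2⟩ := hH.inv
  have hI' : Sym.Inv C₀ H.Λ H.R0 cc H.Y :=
    ⟨fun R a => hI.approx R (r2.trans a), fun R a => hI.mem R (r2.trans a), hI.room,
      fun R a => hI.right R (r2.trans a), fun R a => hI.hol R (r2.trans a),
      fun R a => hI.real R (r2.trans a), fun R a => hI.zero R (r2.trans a),
      fun R a => hI.close R (r2.trans a), fun R a => hI.lip R (r2.trans a),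
      fun R R' a => hI.lipR R R' (r2.trans a), fun R R' a => hI.nest R R' (r2.trans a),
      fun R a => hI.small R (r2.trans a)⟩
  have hΛ : 0 ≤ H.Λ := zero_le_one.trans hH.lam
  have hEn := endOK hF hH
  obtain ⟨Z, i1, i2, val, arg, hZ, hS, h⟩ := hSol S F.C0 q F.D.m (Fin F.D.k) F.Kc (F.op χ) (col H)
    mom (endF H) (3 / 4) (1 / 100) H.Λ (3 / 5) H.δ H.C H.R0 C₀ cc H.Y (by norm_num) (by norm_num)
    (by norm_num) hΛ (by norm_num) (r1.trans r2) hI' hG hO hc hr hEn (inj_of hH hc hK hm)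
  refine ⟨Z, i1, i2, val, trOf arg, hZ, sp_of hG hχ hS, min (H.δ / 2) (1 / 100),
    lt_min (half_pos hH.δpos) (by norm_num), fun ρ ρ0 ρ1 => ?_⟩
  obtain ⟨ρ', r, R1, C', s, si, a1, a2, hs⟩ := h ρ ρ0
  have b1 : ρ < H.δ := (ρ1.trans (min_le_left _ _)).trans_lt (half_lt_self hH.δpos)
  have b2 : ρ ≤ 1 / 100 := ρ1.trans (min_le_right _ _)
  have hCr' := hCr (5 / 2) (by norm_num) (by norm_num)
  refine ⟨R1, r, C', s, si, a2, b1, hs.fam, fun R hR x hx => ?_, fun R hR x hx hr => ?_,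
    fun b hb hr => ⟨?_, (hs.reali b hb hr).a, (hs.reali b hb hr).w⟩, ?_, fun b hb => ?_⟩
  · have := sol_of_isSol hG hCr' hO hc hm hS (hEn.atR (a2.trans hR) hx.2) (fun _ _ => rfl) a1 b2
      b1.le (hs.fin R hR x hx)
    convert this using 1
    funext j
    rcases j with j | i <;> rfl
  · exact ⟨(hs.real R hR x hx hr).a, (hs.real R hR x hx hr).w⟩
  · exact sol_of_isSol hG hCr' hO hc hm hS hEn.inf (fun _ _ => rfl) a1 b2 b1.le (hs.inf b hb)
  · simpa using hs.small 0 (by simpa using hs.fam.rpos)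
  · refine Metric.tendsto_atTop.2 fun ε hε => ?_
    obtain ⟨R₂, hR₂⟩ := hs.lim (ε / 2) (half_pos hε)
    refine ⟨max R₂ H.R0, fun R hR => ?_⟩
    have hR0 := (le_max_right _ _).trans hR
    rw [dist_eq_norm]
    exact (hR₂ R ((le_max_left _ _).trans hR) (b, 0) ⟨hb, fun _ => zero_mem_Om hI' hΛ hR0
      (by linarith)⟩).trans_lt (half_lt_self hε)

/-- **DAT** -/
theorem dat_proof (hC : CoreSolve) : DatStmt :=
  dat_of (sol_of hC) chart_proof geo_proof (el_of chart_proof)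

end Vale.Agent.P218F.LS
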