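import Vale.Agent.P218F.LSEnSpec

/-! The Gaussian area of the reduced family: good surfaces, bounds, reality. -/

open MeasureTheory Set Filter Topology Metric Matrix
open scoped ContDiff RealInnerProductSpace Real

set_option maxSynthPendingDepth 3

noncomputable section

namespace Vale.Agent.P218F.LS

open Vale.Agent.P218FT hiding P2
open Vale.Agent.P218F.Core Vale.Agent.P218F.Ends Vale.Agent.P218F.Ft Vale.Agent.P218F.Mesh
open Lm

variable {S : Set E3} {F : Frm S} {H : EF F} {q : ℕ} {Z : Type} [NormedAddCommGroup Z]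
  [NormedSpace ℂ Z] {χ : Fin q ⊕ Fin F.D.m → E3 → ℝ} {val : Z →ₗ[ℂ] E3 → ℂ}
  {tr : Un F q Z →L[ℂ] JJ F.D → AA} {ρ R0 r C : ℝ} {s : ℝ → Nm.X q F.D.m → Un F q Z}
  {si : (Fin q → ℂ) → Un F q Z}

namespace Eb

/-- the surface of the unknown `u` -/
abbrev YU (val : Z →ₗ[ℂ] E3 → ℂ) (u : Un F q Z) : E3 → C3 := F.Y (val u.1) (F.tl u.2)

theorem two_le_infty : (2 : WithTop ℕ∞) ≤ ∞ := WithTop.coe_le_coe.2 (le_top : (2 : ℕ∞) ≤ ⊤)

theorem reg_val (hS : Sp χ val tr) (z : Z) {p : E3} (hp : p ∈ Mo F.C0 F.Kc) :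
    Reg S 2 (val z) p := fun φ y a e => by
  obtain ⟨r, hr, C, hC⟩ := hS.jet φ y a (e ▸ hp)
  exact (hC z y (mem_ball_self hr)).1

theorem reg_Y (h : F.OK) {κ : Type} [Fintype κ] {a : F.Ix κ → ℂ} (ha : ‖a‖ ≤ 1 / 2) {U : E3 → ℂ}
    {p : E3} (hp : p ∈ S) (hU : Reg S 2 U p) : Reg S 2 (F.Y U (F.tl a)) p := by
  have d : ContDiffAt ℝ (2 : ℕ) (fun x : E3 =>
      (rot (F.om (F.tl a) x) (cE x), F.W (F.tl a) x)) p :=
    ContDiffAt.comp (f := fun x : E3 => (a, x)) p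
      ((h.joint (chart_proof S F.D h.eq0.shr.1) hp ha).of_le two_le_infty) (by fun_prop)
  have e : F.Y U (F.tl a) = fun x => rot (F.om (F.tl a) x) (cE x) + U x • F.W (F.tl a) x := by
    funext x
    simp only [Frm.Y, rot_add, rot_smul, Frm.W]
  rw [e]
  exact (Reg.of_cd d.fst).add (hU.csmul (Reg.of_cd d.snd))

theorem reg_YU (h : F.OK) (hS : Sp χ val tr) {u : Un F q Z} (hu : ‖u‖ ≤ 1 / 2) {p : E3}
    (hp : p ∈ Mo F.C0 F.Kc) : Reg S 2 (YU val u) p :=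
  reg_Y h ((norm_snd_le u).trans hu) (h.mo_sub (chart_proof S F.D h.eq0.shr.1) hp)
    (reg_val hS _ hp)

/-- an atlas of the core on which the jets of the function space are bounded -/
theorem exists_atlas_val (h : F.OK) (hne : S.Nonempty) (hS : Sp χ val tr) :
    ∃ (n : ℕ) (φ : Fin n → P2 → E3) (Q : Fin n → Set P2) (B : ℝ), 0 ≤ B ∧ Atlas S F.C0 φ Q ∧
      ∀ k, ∀ t ∈ Q k, ∀ z, ContDiffAt ℝ 2 (fun t => val z (φ k t)) t ∧
        ‖jet2 (fun t => val z (φ k t)) t‖ ≤ B * ‖z‖ := by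
  choose! r hr C hC using hS.jet
  obtain ⟨n, φ, y, Q, hA, hy⟩ := exists_Atlas par_proof (h.geo hne) r
    fun φ y a b => hr φ y a (Or.inl b)
  obtain ⟨B, hB⟩ := (finite_range fun k => C (φ k) (y k)).bddAbove
  refine ⟨n, φ, Q, max B 0, le_max_right _ _, hA, fun k t ht z => ?_⟩
  obtain ⟨b1, b2⟩ := hC _ _ (hy k).1 (Or.inl (hy k).2.1) z t ((hy k).2.2 ht)
  exact ⟨b1, b2.trans (mul_le_mul_of_nonneg_right (le_max_of_le_left (hB ⟨k, rfl⟩))
    (norm_nonneg _))⟩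

theorem gj_zero (B W : Jt) : gj B W 0 = B := by
  simp [gj, Prod.ext_iff]

/-- uniform control of the surfaces over the core -/
structure Unif (val : Z →ₗ[ℂ] E3 → ℂ) (ρ M η : ℝ) {n : ℕ} (φ : Fin n → P2 → E3)
    (Q : Fin n → Set P2) : Prop where
  pos : 0 < ρ
  half : ρ ≤ 1 / 2
  ηpos : 0 < η
  atlas : Atlas S F.C0 φ Q
  kj : ∀ u : Un F q Z, ‖u‖ ≤ ρ → ∀ k, ∀ t ∈ Q k, jet1 (fun z => YU val u (φ k z)) t ∈ Kj M η
  lip : ∀ u u' : Un F q Z, ‖u‖ ≤ ρ → ‖u'‖ ≤ ρ → ∀ k, ∀ t ∈ Q k,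
    ‖jet1 (fun z => YU val u' (φ k z)) t - jet1 (fun z => YU val u (φ k z)) t‖ ≤ M * ‖u' - u‖

theorem contDiff_gj : ContDiff ℝ 1 fun v : Jt × Jt × J1 P2 ℂ => gj v.1 v.2.1 v.2.2 := by
  have e : ∀ (a : P2 →L[ℝ] ℂ) (w : C3), a.smulRight w =
      ((ContinuousLinearMap.lsmul ℝ ℂ (E := C3)).flip w).comp a := fun a w => by ext <;> simp
  simp only [gj, e]
  refine contDiff_fst.add (ContDiff.prodMk (by fun_prop) (ContDiff.add (by fun_prop)
    (ContDiff.clm_comp ((ContinuousLinearMap.contDiff _).comp (by fun_prop)) (by fun_prop))))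

theorem cd_jet {A : Type} [NormedAddCommGroup A] [NormedSpace ℝ A] {G : A × P2 → C3} {v : A × P2}
    (h : ContDiffAt ℝ 2 G v) :
    ContDiffAt ℝ 1 (fun w : A × P2 => jet1 (fun t => G (w.1, t)) w.2) v :=
  (h.of_le one_le_two).prodMk (ContDiffAt.fderiv (m := 1)
    (f := fun (w : A × P2) (t : P2) => G (w.1, t)) (g := Prod.snd)
    (ContDiffAt.comp (g := G) (f := fun w : (A × P2) × P2 => (w.1.1, w.2)) _ h (by fun_prop))
    contDiffAt_snd (le_of_eq one_add_one_eq_two))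

theorem cd1_fr (h : F.OK) {κ : Type} [Fintype κ] {φ : P2 → E3} {y : P2} (hP : Par S φ y)
    {a : F.Ix κ → ℂ} (ha : ‖a‖ ≤ 1 / 2) : ContDiffAt ℝ 1 (fr F φ) (a, y) := by
  have d : ContDiffAt ℝ 2 (fun v : (F.Ix κ → ℂ) × P2 =>
      (rot (F.om (F.tl v.1) (φ v.2)) (cE (φ v.2)), F.W (F.tl v.1) (φ v.2))) (a, y) :=
    ContDiffAt.comp (f := fun v : (F.Ix κ → ℂ) × P2 => (v.1, φ v.2)) (a, y)
      ((h.joint (chart_proof S F.D h.eq0.shr.1) hP.mem.self_of_nhds ha).of_le two_le_infty)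
      (contDiffAt_fst.prodMk (ContDiffAt.comp (g := φ) _ (par_cd hP 2) contDiffAt_snd))
  exact (cd_jet d.fst).prodMk (cd_jet d.snd)

/-- the one-jet of the surface as a function of the tilts, of the one-jet of the function and of
the point -/
def gG (F : Frm S) {κ : Type} (φ : P2 → E3) (v : ((F.Ix κ → ℂ) × J1 P2 ℂ) × P2) : Jt :=
  gj (fr F φ (v.1.1, v.2)).1 (fr F φ (v.1.1, v.2)).2 v.1.2

theorem cd_gG (h : F.OK) {κ : Type} [Fintype κ] {φ : P2 → E3}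
    {v : ((F.Ix κ → ℂ) × J1 P2 ℂ) × P2} (hP : Par S φ v.2) (ha : ‖v.1.1‖ ≤ 1 / 2) :
    ContDiffAt ℝ 1 (gG F φ) v := by
  have d : ContDiffAt ℝ 1 (fun v : ((F.Ix κ → ℂ) × J1 P2 ℂ) × P2 => fr F φ (v.1.1, v.2)) v :=
    ContDiffAt.comp (f := fun v : ((F.Ix κ → ℂ) × J1 P2 ℂ) × P2 => (v.1.1, v.2)) v
      (cd1_fr h hP ha) (by fun_prop)
  exact contDiff_gj.contDiffAt.comp v (d.fst.prodMk (d.snd.prodMk contDiffAt_fst.snd))

theorem gG_zero (F : Frm S) {κ : Type} {φ : P2 → E3} {t : P2} (hP : Par S φ t) :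
    0 < (gdet (gG F (κ := κ) φ (0, t)).2).re := by
  have e : F.tl (0 : F.Ix κ → ℂ) = 0 := rfl
  simp only [gG, Prod.snd_zero, gj_zero, fr, Prod.fst_zero, e, Frm.om_zero, rot_zero]
  exact OpP.gdet_pos hP

/-- **uniform control of the surfaces with small unknowns** -/
theorem exists_unif (h : F.OK) (hne : S.Nonempty) (hS : Sp χ val tr) :
    ∃ (ρ M η : ℝ) (n : ℕ) (φ : Fin n → P2 → E3) (Q : Fin n → Set P2),
      Unif (F := F) (q := q) val ρ M η φ Q ∧ ∀ k, ∀ t ∈ Q k, ∀ z,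
        ContDiffAt ℝ 2 (fun t => val z (φ k t)) t ∧ ‖jet2 (fun t => val z (φ k t)) t‖ ≤ M * ‖z‖ := by
  obtain ⟨n, φ, Q, B, B0, hA, hB⟩ := exists_atlas_val h hne hS
  let A := F.Ix (Fin q ⊕ Fin F.D.m) → ℂ
  have : ProperSpace (J1 P2 ℂ) := FiniteDimensional.proper ℝ _
  let T : Fin n → Set ((A × J1 P2 ℂ) × P2) := fun k =>
    (closedBall 0 (1 / 2) ×ˢ closedBall 0 B) ×ˢ Q k
  have cT : ∀ k, IsCompact (T k) := fun k =>
    ((isCompact_closedBall _ _).prod (isCompact_closedBall _ _)).prod (hA.cpt k)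
  have dT : ∀ k, ∀ v ∈ T k, ContDiffAt ℝ 1 (gG F (φ k)) v := fun k v hv =>
    cd_gG h (hA.par k _ hv.2) (mem_closedBall_zero_iff.1 hv.1.1)
  have h1 : ∀ k, ∃ M : ℝ, ∀ v ∈ T k, ‖gG F (φ k) v‖ ≤ M := fun k =>
    (cT k).exists_bound_of_continuousOn fun v hv => (dT k v hv).continuousAt.continuousWithinAt
  have h2 : ∀ k, ∃ L, LipschitzOnWith L (gG F (φ k)) (T k) := fun k =>
    LocallyLipschitzOn.exists_lipschitzOnWith_of_compact (cT k) fun v hv => by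
      obtain ⟨L, t, ht, hL⟩ := (dT k v hv).exists_lipschitzOnWith
      exact ⟨L, t, mem_nhdsWithin_of_mem_nhds ht, hL⟩
  have h3 : ∀ᶠ w : (A × J1 P2 ℂ) × ℝ in 𝓝 0, ∀ k, ∀ t ∈ Q k,
      w.2 < (gdet (gG F (φ k) (w.1, t)).2).re := by
    refine eventually_all.2 fun k => (hA.cpt k).eventually_forall_of_forall_eventually
      fun t ht => ?_
    have c : ContinuousAt (fun z : ((A × J1 P2 ℂ) × ℝ) × P2 => gG F (φ k) (z.1.1, z.2)) (0, t) :=
      ContinuousAt.comp (f := fun z : ((A × J1 P2 ℂ) × ℝ) × P2 => (z.1.1, z.2)) (g := gG F (φ k))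
        (x := (0, t)) (cd_gG (v := (0, t)) h (hA.par k t ht)
          (le_trans (norm_zero (E := A)).le (by norm_num))).continuousAt (by fun_prop)
    exact ContinuousAt.eventually_lt (f := fun z : ((A × J1 P2 ℂ) × ℝ) × P2 => z.1.2)
      (by fun_prop) (Complex.continuous_re.continuousAt.comp
        (continuous_gdet.continuousAt.comp c.snd)) (gG_zero F (hA.par k t ht))
  choose M hM using h1
  choose L hL using h2
  obtain ⟨ε, hε, h3⟩ := Metric.eventually_nhds_iff_ball.1 h3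
  obtain ⟨M₀, hM₀⟩ := (finite_range fun k => max (M k) (L k * (1 + B))).bddAbove
  have j1 : ∀ k, ∀ t ∈ Q k, ∀ z, ‖jet1 (fun t => val z (φ k t)) t‖ ≤ B * ‖z‖ := fun k t ht z =>
    (norm_jet1_le (jet2 _ t)).trans (hB k t ht z).2
  have e : ∀ u : Un F q Z, ‖u‖ ≤ 1 / 2 → ∀ k, ∀ t ∈ Q k, jet1 (fun z => YU val u (φ k z)) t =
      gG F (φ k) ((u.2, jet1 (fun t => val u.1 (φ k t)) t), t) ∧
      ((u.2, jet1 (fun t => val u.1 (φ k t)) t), t) ∈ T k := fun u hu k t ht =>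
    ⟨jet1_Y h (hA.par k t ht) ((norm_snd_le u).trans hu)
      ((hB k t ht _).1.differentiableAt (by simp)),
      ⟨mem_closedBall_zero_iff.2 ((norm_snd_le u).trans hu), mem_closedBall_zero_iff.2
        ((j1 k t ht _).trans (mul_le_of_le_one_right B0
          (((norm_fst_le u).trans hu).trans (by norm_num))))⟩, ht⟩
  refine ⟨min (1 / 2) (ε / (2 * (1 + B))), max M₀ B, ε / 2, n, φ, Q, ⟨by positivity,
    min_le_left _ _, by positivity, hA, fun u hu k t ht => ?_, fun u u' hu hu' k t ht => ?_⟩,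
    fun k t ht z => ⟨(hB k t ht z).1, (hB k t ht z).2.trans
      (mul_le_mul_of_nonneg_right (le_max_right _ _) (norm_nonneg _))⟩⟩
  · obtain ⟨e1, e2⟩ := e u (hu.trans (min_le_left _ _)) k t ht
    rw [e1]
    refine ⟨(hM k _ e2).trans (((le_max_left _ _).trans (hM₀ ⟨k, rfl⟩)).trans (le_max_left _ _)),
      (h3 ((u.2, jet1 (fun t => val u.1 (φ k t)) t), ε / 2) ?_ k t ht).le⟩
    have a := (le_div_iff₀ (by positivity)).1 (hu.trans (min_le_right _ _))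
    have a1 := norm_fst_le u
    have a2 := norm_snd_le u
    have a3 := j1 k t ht u.1
    have a4 := mul_le_mul_of_nonneg_left a1 B0
    have a5 := mul_nonneg B0 (norm_nonneg u)
    have a6 := norm_nonneg u
    rw [mem_ball_zero_iff]
    refine max_lt (max_lt ?_ ?_) ?_
    · dsimp only
      linarith
    · dsimp only
      linarith
    · dsimp only
      rw [Real.norm_of_nonneg (by positivity)]
      linarith
  · obtain ⟨e1, e2⟩ := e u (hu.trans (min_le_left _ _)) k t ht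
    obtain ⟨e3, e4⟩ := e u' (hu'.trans (min_le_left _ _)) k t ht
    rw [e1, e3]
    have a := (hL k).norm_sub_le e4 e2
    have a1 := norm_fst_le (u' - u)
    have a2 := norm_snd_le (u' - u)
    have a3 := j1 k t ht (u' - u).1
    have a4 := mul_le_mul_of_nonneg_left a1 B0
    have a5 := mul_nonneg B0 (norm_nonneg (u' - u))
    have a6 := norm_nonneg (u' - u)
    have d := fun z => (hB k t ht z).1.differentiableAt (by simp)
    have b : ‖(((u'.2, jet1 (fun t => val u'.1 (φ k t)) t), t) : (A × J1 P2 ℂ) × P2) -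
        ((u.2, jet1 (fun t => val u.1 (φ k t)) t), t)‖ ≤ (1 + B) * ‖u' - u‖ := by
      refine max_le (max_le (a2.trans (by linarith)) ?_) (by simp; positivity)
      show ‖jet1 (fun t => val u'.1 (φ k t)) t - jet1 (fun t => val u.1 (φ k t)) t‖ ≤ _
      rw [← jet1_sub (d _) (d _)]
      simp only [Prod.fst_sub, map_sub, Pi.sub_apply] at a3 a4
      linarith
    refine a.trans ((mul_le_mul_of_nonneg_left b (L k).2).trans ?_)
    rw [← mul_assoc]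
    exact mul_le_mul_of_nonneg_right
      (((le_max_right _ _).trans (hM₀ ⟨k, rfl⟩)).trans (le_max_left _ _)) a6

theorem Unif.good {M η : ℝ} {n : ℕ} {φ : Fin n → P2 → E3} {Q : Fin n → Set P2} (h : F.OK)
    (hS : Sp χ val tr) (hU : Unif (F := F) (q := q) val ρ M η φ Q) :
    GoodAt (F := F) (q := q) val ρ := fun u hu p hp => by
  have r := reg_YU h hS (hu.trans hU.half) (Or.inl hp)
  obtain ⟨k, t, ht, rfl⟩ := hU.atlas.cover p hp
  exact ⟨r, gd_of_one par_proof h.eq0.shr.1 (hU.atlas.par k t ht) (r.mono one_le_two)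
    (Kj_good hU.ηpos (hU.kj u hu k t ht))⟩

/-! ### Bounds -/

theorem strip_bound {f : P2 → ℂ} {A : Set ℝ} (hA : MeasurableSet A) {g : ℝ → ℝ}
    (hg : IntegrableOn g A) (hf : ∀ y : P2, y.1 ∈ A → y.2 ∈ Icc 0 (2 * π) → ‖f y‖ ≤ g y.1) :
    ‖∫ y in A ×ˢ Ioc 0 (2 * π), f y‖ ≤ (∫ z in A, g z) * (2 * π) := by
  have hm : MeasurableSet (A ×ˢ Ioc 0 (2 * π) : Set P2) := hA.prod measurableSet_Ioc
  have i : IntegrableOn (fun y : P2 => g y.1) (A ×ˢ Ioc 0 (2 * π)) := by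
    rw [IntegrableOn, Measure.volume_eq_prod, ← Measure.prod_restrict]
    exact Integrable.comp_fst hg _
  refine (norm_integral_le_of_norm_le i ?_).trans (le_of_eq ?_)
  · filter_upwards [ae_restrict_mem hm] with y hy using hf y hy.1 (Ioc_subset_Icc_self hy.2)
  · have := setIntegral_prod_mul (μ := (volume : Measure ℝ)) (ν := (volume : Measure ℝ))
      g (fun _ => (1 : ℝ)) A (Ioc 0 (2 * π))
    simp only [mul_one] at this
    rw [Measure.volume_eq_prod, this]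
    simp [Real.pi_pos.le]

theorem estr_eq (X : P2 → C3) (a : ℝ) {R : ℝ} (hR : 0 < R) : Estr X a R⁻¹ = Est X a R := by
  have : {z | a < z ∧ R⁻¹ * z < 1} = Ioo a R := by
    ext z
    simp only [mem_ofPred_eq, mem_Ioo, inv_mul_lt_iff₀ hR, mul_one]
  rw [Estr, this, Est]

theorem R_pos (hH : H.OK) {R : ℝ} (hR : H.R0 ≤ R) : 0 < R := by
  obtain ⟨C₀, R₀, cc, -, h2, h3⟩ := hH.inv
  linarith

theorem cyl_cd (hH : H.OK) (j : Fin F.D.m) {R : ℝ} (hR : H.R0 ≤ R) {g : AA}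
    (hg : g ∈ ball (H.g0 (.inl j)) H.δ) {c : ℂ} (hc : c ∈ Sym.Om (2 * H.Λ) R) {p : P2}
    (hp : p.1 ∈ Ioo (F.z₀ + 11) R) : ContDiffAt ℝ 2 (H.e j R g c) p :=
  ((hH.cyl j).fc2 R hR _ hg c hc).contDiffAt (prod_mem_nhds (Icc_mem_nhds hp.1 hp.2) univ_mem)

theorem cyl_bdd (hH : H.OK) (j : Fin F.D.m) : ∃ K : ℝ, ∀ R, H.R0 ≤ R →
    ∀ g ∈ ball (H.g0 (.inl j)) H.δ, ∀ c ∈ Sym.Om (2 * H.Λ) R,
      ‖Estr (Ye F.D (.inl j) (H.e j R g c)) (F.z₀ + 11) R⁻¹‖ ≤ K := by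
  obtain ⟨K, K0, hK⟩ := cyl_bound F.D j H.C
  have i := integrable_gauss.const_mul K
  refine ⟨(∫ z : ℝ, K * Real.exp (-z ^ 2 / 4)) * (2 * π), fun R hR g hg c hc => ?_⟩
  rw [estr_eq _ _ (R_pos hH hR)]
  refine (strip_bound measurableSet_Ioo i.integrableOn fun y h1 h2 => hK _ y
    ((cyl_cd hH j hR hg hc h1).differentiableAt (by simp))
    ((hH.cyl j).feq R hR g hg c hc y h1.1 h1.2).2.2 h2).trans ?_
  exact mul_le_mul_of_nonneg_right (setIntegral_le_integral i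
    (Eventually.of_forall fun z => by positivity)) Real.two_pi_pos.le

theorem cone_bdd (hH : H.OK) (i : Fin F.D.k) : ∃ K : ℝ, ∀ g ∈ ball (H.g0 (.inr i)) H.δ,
    ‖Estr (Ye F.D (.inr i) (H.ei (.inr i) g)) F.ya 0‖ ≤ K := by
  obtain ⟨K, -, hK⟩ := cone_bound F.D i
  refine ⟨(∫ z in Ioi F.ya, K * Real.exp (-2 * z)) * (2 * π), fun g hg => ?_⟩
  rw [estr_zero]
  exact strip_bound measurableSet_Ioi (int_exp K _) fun y h1 h2 => hK _ y
    ((inf_cd (hH.cone i).toInfFam hg h1).differentiableAt (by simp)) (cone_small hH i hg h1) h2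

theorem core_bdd (h : F.OK) (hne : S.Nonempty) (hS : Sp χ val tr) : ∃ K : ℝ,
    ∀ u : Un F q Z, ‖u‖ ≤ 1 / 2 → ‖Ec S F.C0 (YU val u)‖ ≤ K := by
  obtain ⟨n, φ, Q, B, B0, hA, hB⟩ := exists_atlas_val h hne hS
  have : ProperSpace (J1 P2 ℂ) := FiniteDimensional.proper ℝ _
  have h1 : ∀ k, ∃ M : ℝ, ∀ v ∈ (closedBall (0 : F.Ix (Fin q ⊕ Fin F.D.m) → ℂ) (1 / 2) ×ˢ
      closedBall (0 : J1 P2 ℂ) B) ×ˢ Q k, ‖gG F (φ k) v‖ ≤ M := fun k =>
    (((isCompact_closedBall _ _).prod (isCompact_closedBall _ _)).prod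
      (hA.cpt k)).exists_bound_of_continuousOn fun v hv => (cd_gG h (hA.par k _ hv.2)
        (mem_closedBall_zero_iff.1 hv.1.1)).continuousAt.continuousWithinAt
  choose M hM using h1
  obtain ⟨M₀, hM₀⟩ := (finite_range M).bddAbove
  obtain ⟨K, hK⟩ := ec_bound hA par_proof (h.geo hne) M₀
  refine ⟨K, fun u hu => (hK _ (fun x hx => (reg_YU h hS hu (Or.inl hx)).mono one_le_two)
    fun k t ht _ => ?_).2⟩
  rw [jet1_Y h (hA.par k t ht) ((norm_snd_le u).trans hu)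
    ((hB k t ht _).1.differentiableAt (by simp))]
  exact (hM k ((u.2, jet1 (fun t => val u.1 (φ k t)) t), t)
    ⟨⟨mem_closedBall_zero_iff.2 ((norm_snd_le u).trans hu), mem_closedBall_zero_iff.2
      (((norm_jet1_le (jet2 _ t)).trans (hB k t ht _).2).trans (mul_le_of_le_one_right B0
        (((norm_fst_le u).trans hu).trans (by norm_num))))⟩, ht⟩).trans (hM₀ ⟨k, rfl⟩)

/-! ### Reality -/

theorem isRe_add_smul {a b : C3} {c : ℂ} (ha : IsRe a) (hb : IsRe b) (hc : c.im = 0) :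
    IsRe (a + c • b) := fun i => by
  simp [ha i, hb i, hc]

theorem isRe_Ye (j : JJ F.D) {e : P2 → ℂ} {p : P2} (he : (e p).im = 0) : IsRe (Ye F.D j e p) :=
  isRe_add_smul (isRe_cE _) (isRe_cE _) he

theorem diff_Ye (j : JJ F.D) {e : P2 → ℂ} {p : P2} (he : DifferentiableAt ℝ e p) :
    DifferentiableAt ℝ (Ye F.D j e) p := (diff_B F.D j p).add (he.smul (diff_W F.D j p))

theorem Kc_mem (h : F.OK) (hne : S.Nonempty) (j : JJ F.D) (θ : ℝ) : F.Kc j (0, θ) ∈ F.C0 :=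
  ((h.geo hne).mem j (0, θ) ⟨by norm_num, by norm_num⟩).2 le_rfl

/-- real unknowns have real traces -/
theorem reA_g (h : F.OK) (hne : S.Nonempty) (hH : H.OK) (hS : Sp χ val tr) {u : Un F q Z}
    (hu : ReU val u) (j : JJ F.D) : ReA (H.g (tr u) j) := fun θ => by
  have e : Wien.ev 2 ℂ θ (H.g0 j) = gS F.D j (F.s1 j, θ) := by
    rcases j with j | i
    exacts [(hH.cyl j).ev0 θ, (hH.cone i).ev0 θ]
  rw [EF.g, map_add, map_smul, e, hS.tr, smul_eq_mul, Complex.add_im, Complex.ofReal_im,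
    Complex.im_ofReal_mul, hu.2 _ (Or.inl (Kc_mem h hne j θ))]
  simp

theorem core_im (h : F.OK) (hne : S.Nonempty) (hS : Sp χ val tr) {u : Un F q Z} (h1 : ‖u‖ ≤ 1 / 2)
    (hu : ReU val u) : (Ec S F.C0 (YU val u)).im = 0 :=
  ec_im par_proof (h.geo hne) fun _ hx => ⟨(reg_YU h hS h1 (Or.inl hx)).mono one_le_two,
    (OpP.mo_nhds par_proof (h.geo hne) (Or.inl hx)).mono fun y hy a =>
      isRe_rot (Frm.isRe_om (fun _ _ => hu.1 _) y)
        (isRe_add_smul (isRe_cE _) (isRe_cE _) (hu.2 y (hy a)))⟩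

theorem cyl_im (hH : H.OK) (j : Fin F.D.m) {R : ℝ} (hR : H.R0 ≤ R) {g : AA}
    (hg : g ∈ ball (H.g0 (.inl j)) H.δ) {c : ℂ} (hc : c ∈ Sym.Om (2 * H.Λ) R) (h1 : ReA g)
    (h2 : c.im = 0) : (Estr (Ye F.D (.inl j) (H.e j R g c)) (F.z₀ + 11) R⁻¹).im = 0 := by
  rw [estr_eq _ _ (R_pos hH hR)]
  exact est_im fun y hy => ⟨diff_Ye _ ((cyl_cd hH j hR hg hc hy).differentiableAt (by simp)),
    isRe_Ye _ (((hH.cyl j).freal R hR g hg c hc h1 h2).1 y hy.1.le hy.2.le)⟩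

theorem cone_im (hH : H.OK) (i : Fin F.D.k) {g : AA} (hg : g ∈ ball (H.g0 (.inr i)) H.δ)
    (h1 : ReA g) : (Estr (Ye F.D (.inr i) (H.ei (.inr i) g)) F.ya 0).im = 0 := by
  rw [estr_zero]
  exact eh_im fun y hy => ⟨diff_Ye _
    ((inf_cd (hH.cone i).toInfFam hg hy).differentiableAt (by simp)),
    isRe_Ye _ (((hH.cone i).real g hg h1).1 y hy.le)⟩

end Eb

open Eb

/-- **small unknowns give good surfaces** -/
theorem good_at (h : F.OK) (hne : S.Nonempty) (hS : Sp χ val tr) :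
    ∃ ρ₁ > 0, ρ₁ ≤ 1 / 2 ∧ GoodAt (F := F) (q := q) val ρ₁ := by
  obtain ⟨ρ, M, η, n, φ, Q, hU, -⟩ := exists_unif h hne hS
  exact ⟨ρ, hU.pos, hU.half, hU.good h hS⟩

/-- **the field `bdd` of `EnOut`** -/
theorem en_bdd (h : F.OK) (hne : S.Nonempty) (hH : H.OK) (hS : Sp χ val tr) (hρ : ρ ≤ 1 / 2)
    (hR : Red H χ val tr ρ R0 r C s si) : ∃ C' : ℝ, 0 ≤ C' ∧ ∀ tau main, ∀ R, R0 ≤ R →
      ∀ x ∈ Nm.dom q F.D.m r (Sym.Om (2 * H.Λ) R), ‖(lsf H χ val tr s tau main).f R x‖ ≤ C' := by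
  obtain ⟨K, hK⟩ := core_bdd h hne hS
  choose K1 h1 using cyl_bdd hH
  choose K2 h2 using cone_bdd hH
  refine ⟨max (K + ∑ j, K1 j + ∑ i, K2 i) 0, le_max_right _ _, fun tau main R a x hx =>
    le_max_of_le_left ?_⟩
  have b := hR.sol R a x hx
  have m := g_mem (H := H) h (b.trn.trans_lt hR.rho)
  exact (norm_add₃_le ..).trans (add_le_add (add_le_add (hK _ (b.norm.trans hρ))
    (norm_sum_le_of_le _ fun j _ => h1 j R (hR.big.trans a) _ (m _) _ (hx.2 j)))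
    (norm_sum_le_of_le _ fun i _ => h2 i _ (m _)))

/-- **the field `real` of `EnOut`** -/
theorem en_real (h : F.OK) (hne : S.Nonempty) (hH : H.OK) (hS : Sp χ val tr) (hρ : ρ ≤ 1 / 2)
    (hR : Red H χ val tr ρ R0 r C s si) (tau : ℝ → Nm.X q F.D.m → Fin F.D.m → (Fin 2 → ℂ) →L[ℂ] ℂ)
    (main : ℝ → Nm.X q F.D.m → Fin F.D.m → ℂ) : ∀ R, R0 ≤ R →
      ∀ x ∈ Nm.dom q F.D.m r (Sym.Om (2 * H.Λ) R), Nm.IsRe x →
        ((lsf H χ val tr s tau main).f R x).im = 0 := fun R a x hx hr => by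
  have b := hR.sol R a x hx
  have m := g_mem (H := H) h (b.trn.trans_lt hR.rho)
  have u := hR.real R a x hx hr
  have k := reA_g h hne hH hS u
  show (F.en _ _ _ _).im = 0
  rw [Frm.en, Complex.add_im, Complex.add_im, Complex.im_sum, Complex.im_sum,
    core_im h hne hS (b.norm.trans hρ) u, zero_add, Finset.sum_eq_zero, zero_add,
    Finset.sum_eq_zero]
  exacts [fun i _ => cone_im hH i (m _) (k _),
    fun j _ => cyl_im hH j (hR.big.trans a) (m _) (hx.2 j) (k _) (hr.2 j)]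

theorem enB_proof : EnB := fun S F h hne H hH q χ _ Z _ _ val tr hS => by
  obtain ⟨ρ₁, h0, h1, hg⟩ := good_at h hne hS
  refine ⟨ρ₁, h0, hg, fun ρ hρ R0 r C s si hR => ?_⟩
  obtain ⟨C', -, hC⟩ := en_bdd h hne hH hS (hρ.trans h1) hR
  exact ⟨C', fun R a x hx => ⟨hC 0 0 R a x hx, en_real h hne hH hS (hρ.trans h1) hR 0 0 R a x hx⟩⟩

end Vale.Agent.P218F.LS
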