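import Vale.Agent.P218F.LSEnSpec

/-! The increment of the Gaussian area on a conical end. -/

open MeasureTheory Set Filter Topology Metric Matrix
open scoped ContDiff RealInnerProductSpace Real

set_option maxSynthPendingDepth 3

noncomputable section

namespace Vale.Agent.P218F.LS

open Vale.Agent.P218FT hiding P2
open Vale.Agent.P218F.Core Vale.Agent.P218F.Ends Vale.Agent.P218F.Ft Vale.Agent.P218F.Mesh
open Lm

namespace Ci

theorem per_bound {f : ℝ → C3} (hf : ContDiff ℝ 1 f) (hp : ∀ θ, f (θ + 2 * π) = f θ) :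
    ∃ M, 0 ≤ M ∧ ∀ p : P2, ‖jet1 (fun η : P2 => ey η • f η.2) p‖ ≤ M * Real.exp p.1 := by
  obtain ⟨M, M0, hM⟩ := ey_bound hf
  refine ⟨M, M0, fun p => ?_⟩
  have hπ := Real.two_pi_pos
  have h : Function.Periodic (fun θ => jet1 (fun η : P2 => ey η • f η.2) (p.1, θ)) (2 * π) :=
    fun θ => jet1_per (f := fun η : P2 => ey η • f η.2) (fun y => by simp only [ey, hp]) (p.1, θ)
  obtain ⟨θ, h1, h2⟩ := h.exists_mem_Ico₀ hπ p.2
  exact (congrArg norm h2).trans_le (hM (p.1, θ) (Ico_subset_Icc_self h1))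

theorem ey_ne (y : P2) : ey y ≠ 0 := Complex.ofReal_ne_zero.2 (Real.exp_pos _).ne'

theorem norm_ey_inv (y : P2) : ‖(ey y)⁻¹‖ = (Real.exp y.1)⁻¹ := by
  rw [norm_inv, ey, Complex.norm_real, Real.norm_of_nonneg (Real.exp_pos _).le]

theorem gj_sub (B W : Jt) (u u' : J1 P2 ℂ) : gj B W u' - gj B W u = gj 0 W (u' - u) := by
  refine Prod.ext (by simp [gj, sub_smul]) (ContinuousLinearMap.ext fun v => ?_)
  simp [gj, sub_smul]
  abel

theorem ext_closed {p p' : P2 → Jt} {y : P2} {M η d : ℝ} (h : ContinuousAt p y)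
    (h' : ContinuousAt p' y) (k : ∀ t, y.1 < t → p (t, y.2) ∈ Kc M η ∧ ‖p' (t, y.2) - p (t, y.2)‖ ≤ d) :
    p y ∈ Kc M η ∧ ‖p' y - p y‖ ≤ d := by
  have l : Tendsto (fun t : ℝ => ((t, y.2) : P2)) (𝓝[>] y.1) (𝓝 y) :=
    (show ContinuousAt (fun t : ℝ => ((t, y.2) : P2)) y.1 by fun_prop).tendsto.mono_left
      nhdsWithin_le_nhds
  have cl : IsClosed (Kc M η) := (isCompact_Kj _ _).isClosed.inter (isClosed_le continuous_const
    (Complex.continuous_re.comp (continuous_fst.dotProduct continuous_fst)))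
  exact ⟨cl.mem_of_tendsto (h.tendsto.comp l) (eventually_nhdsWithin_of_forall fun t ht => (k t ht).1),
    le_of_tendsto ((h'.sub h).norm.tendsto.comp l)
      (eventually_nhdsWithin_of_forall fun t ht => (k t ht).2)⟩

variable {S : Set E3} {F : Frm S} {H : EF F} {i : Fin F.D.k} {U : E3 → ℂ} {β : Tilt F.D.m ℂ}
  {e : P2 → ℂ} {g g' : AA}

/-- the graph of `e`, continued by the core below the trace circle -/
def Xt (F : Frm S) (i : Fin F.D.k) (U : E3 → ℂ) (β : Tilt F.D.m ℂ) (e : P2 → ℂ) (y : P2) : C3 :=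
  if y.1 ≤ F.ya then F.Y U β (Kd F.D (.inr i) y) else Ye F.D (.inr i) e y

/-- the normalised jets -/
def pt (F : Frm S) (i : Fin F.D.k) (U : E3 → ℂ) (β : Tilt F.D.m ℂ) (e : P2 → ℂ) (y : P2) : Jt :=
  (ey y)⁻¹ • jet1 (Xt F i U β e) y

theorem glue (h : F.OK) (hG : GlC F (.inr i) U β e) {y : P2} (h1 : F.ya ≤ y.1)
    (h2 : y.1 ≤ F.ya + 3) : F.Y U β (Kd F.D (.inr i) y) = Ye F.D (.inr i) e y := by
  rw [h.Y_end (chart_proof S F.D h.eq0.shr.1) U β (.inr i) (by simp only [Frm.s1]; linarith)]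
  simp only [Frm.omE, rotC_apply, rot_zero, Ye, hG.glue y ⟨h1, h2⟩]

theorem Xt_ev {y : P2} (hy : F.ya < y.1) : Xt F i U β e =ᶠ[𝓝 y] Ye F.D (.inr i) e := by
  filter_upwards [continuousAt_fst.eventually (Ioi_mem_nhds hy)] with z hz
  exact if_neg (not_le.2 hz)

theorem cd_Ye (j : JJ F.D) {y : P2} (he : ContDiffAt ℝ 2 e y) : ContDiffAt ℝ 2 (Ye F.D j e) y :=
  ((cE.contDiff.comp (Ch.smooth F.D j).1).of_le (WithTop.coe_le_coe.2 (le_top : (2 : ℕ∞) ≤ ⊤))).contDiffAt.add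
    (he.smul ((cE.contDiff.comp (Ch.smooth F.D j).2.1).of_le
      (WithTop.coe_le_coe.2 (le_top : (2 : ℕ∞) ≤ ⊤))).contDiffAt)

theorem cd_Xt (h : F.OK) (hG : GlC F (.inr i) U β e)
    (he : ∀ y : P2, F.ya < y.1 → ContDiffAt ℝ 2 e y) {y : P2} (hy : F.ya ≤ y.1) :
    ContDiffAt ℝ 2 (Xt F i U β e) y := by
  rcases hy.eq_or_lt with a | a
  · have c : ContDiffAt ℝ 2 (fun z : P2 => F.Y U β (F.Kc (.inr i) (z.1 - F.ya, z.2))) y :=
      ContDiffAt.comp (g := fun z => F.Y U β (F.Kc (.inr i) z)) y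
        (by rw [← a, sub_self]; exact hG.reg _) (by fun_prop)
    refine c.congr_of_eventuallyEq ?_
    filter_upwards [continuousAt_fst.eventually (Iio_mem_nhds (show y.1 < F.ya + 3 by linarith))]
      with z hz
    rw [Xt, show F.Kc (.inr i) (z.1 - F.ya, z.2) = _ from (F.Kd_eq_Kc (.inr i) z).symm]
    split_ifs with b
    · rfl
    · exact (glue h hG (not_le.1 b).le (le_of_lt hz)).symm
  · exact (cd_Ye _ (he y a)).congr_of_eventuallyEq (Xt_ev a)

theorem ext (h : F.OK) (hG : GlC F (.inr i) U β e)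
    (he : ∀ y : P2, F.ya < y.1 → ContDiffAt ℝ 2 e y) (hp : ∀ p : P2, e (p.1, p.2 + 2 * π) = e p)
    (b : ℝ) : Ext F.ya b (Ye F.D (.inr i) e) fun y => ey y • pt F i U β e y := by
  simp only [pt, smul_inv_smul₀ (ey_ne _)]
  refine ⟨fun y hy => (continuousAt_jet1 ((cd_Xt h hG he hy.1.1).of_le
    one_le_two)).continuousWithinAt, fun s _ => ?_, fun y hy => cd_Ye _ (he y hy.1),
    fun y hy => jet1_congr (Xt_ev hy.1)⟩
  simpa using jet1_per (f := Xt F i U β e) (T := 2 * π) (fun y => by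
    simp only [Xt, Ye, Ch.Kd_per, hp, (Ch.per F.D _ y).1, (Ch.per F.D _ y).2.1]) (s, 0)

theorem cAt_pt (h : F.OK) (hG : GlC F (.inr i) U β e)
    (he : ∀ y : P2, F.ya < y.1 → ContDiffAt ℝ 2 e y) {y : P2} (hy : F.ya ≤ y.1) :
    ContinuousAt (pt F i U β e) y :=
  ((hasFDerivAt_ey y).continuousAt.inv₀ (ey_ne y)).smul
    (continuousAt_jet1 ((cd_Xt h hG he hy).of_le one_le_two))

theorem pt_eq {y : P2} (hy : F.ya < y.1) (he : DifferentiableAt ℝ e y) : pt F i U β e y =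
    (ey y)⁻¹ • gj (jet1 (fun η : P2 => ey η • cE (F.D.γ i η.2)) y)
      (jet1 (fun η : P2 => ey η • cE (F.D.n i η.2)) y) (jet1 (scl e) y) := by
  rw [pt, jet1_congr (Xt_ev hy), jet1_cone F.D i he]

theorem norm_scale {y : P2} {q : Jt} {M : ℝ} (h : ‖q‖ ≤ M * Real.exp y.1) :
    ‖(ey y)⁻¹ • q‖ ≤ M := by
  rw [norm_smul, norm_ey_inv, inv_mul_le_iff₀ (Real.exp_pos _), mul_comm]
  exact h

theorem pt_mem (hH : H.OK) (hg : g ∈ ball (H.g0 (.inr i)) H.δ) {M N : ℝ}
    (hM : ∀ p : P2, ‖jet1 (fun η : P2 => ey η • cE (F.D.γ i η.2)) p‖ ≤ M * Real.exp p.1)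
    (hN : ∀ p : P2, ‖jet1 (fun η : P2 => ey η • cE (F.D.n i η.2)) p‖ ≤ N * Real.exp p.1)
    {y : P2} (hy : F.ya < y.1) : pt F i U β (H.ei (.inr i) g) y ∈ Kc (M + N) H.η := by
  have c := hH.cone i
  have d := (inf_cd c.toInfFam hg hy).differentiableAt (by simp)
  have sm := cone_small hH i hg hy
  have e0 := Real.exp_pos y.1
  refine ⟨⟨?_, ?_⟩, ?_⟩
  · rw [pt_eq hy d]
    obtain ⟨h1, h2⟩ := norm_gj_le ((norm_snd_le _).trans (hM y)) (hN y) sm
    refine norm_scale (max_le ((norm_add_le _ _).trans ?_) (h2.trans (le_of_eq (by ring))))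
    have := (norm_fst_le _).trans (hM y)
    have := (norm_nonneg _).trans h1
    dsimp only
    linarith
  · rw [pt, jet1_congr (Xt_ev hy), Prod.smul_snd, gdet_smul, ey, ← Complex.ofReal_inv,
      ← Complex.ofReal_pow, Complex.re_ofReal_mul, inv_pow, le_inv_mul_iff₀ (by positivity),
      ← Real.exp_nat_mul, mul_comm]
    exact c.marg g hg y hy
  · have T := (F.D.cone i).crv.tri y.2
    have h1 : (pt F i U β (H.ei (.inr i) g) y).1 ⬝ᵥ (pt F i U β (H.ei (.inr i) g) y).1 =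
        1 + scl (H.ei (.inr i) g) y ^ 2 := by
      rw [pt, jet1_congr (Xt_ev hy)]
      simp only [jet1, Ye_cone, Prod.smul_fst, smul_add, smul_comm (ey y)⁻¹ (scl _ y),
        inv_smul_smul₀ (ey_ne y), add_dotProduct, dotProduct_add, smul_dotProduct, dotProduct_smul,
        cE_dot, real_inner_self_eq_norm_sq, T.na, T.nc, real_inner_comm (F.D.γ i y.2), T.ac]
      simp [sq]
    have h3 : ‖scl (H.ei (.inr i) g) y ^ 2‖ ≤ 1 / 4 := by
      rw [norm_pow]
      exact (pow_le_pow_left₀ (norm_nonneg _) ((norm_fst_le (jet1 _ y)).trans sm) 2).trans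
        (by norm_num)
    have h4 := (abs_le.1 ((Complex.abs_re_le_norm _).trans h3)).1
    rw [mem_ofPred_eq, h1, Complex.add_re, Complex.one_re]
    linarith

end Ci

open Ci

/-- **the increment on a conical end** -/
theorem coneInc_proof : ConeInc := by
  intro S F h H hH i
  have c := hH.cone i
  obtain ⟨M, -, hM⟩ := per_bound (f := fun θ => cE (F.D.γ i θ))
    ((cE.contDiff.comp (F.D.cone i).crv.smooth).of_le (by simp))
    fun θ => by rw [(F.D.cone i).crv.per]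
  obtain ⟨N, N0, hN⟩ := per_bound (f := fun θ => cE (F.D.n i θ))
    ((cE.contDiff.comp (F.D.cone i).crv.smooth_n).of_le (by simp))
    fun θ => by rw [(F.D.cone i).crv.per_n]
  obtain ⟨δ, C, hδ, -, hC⟩ := cone_incr (M + N) H.η c.ηpos
  set L := 2 * (|H.C| * N) with hL
  have L0 : 0 ≤ L := by positivity
  refine ⟨C * L ^ 2, δ / (L + 1), by positivity, fun g hg g' hg' U U' β β' a a' hd => ?_⟩
  have cd := fun y => inf_cd (p := y) c.toInfFam hg
  have cd' := fun y => inf_cd (p := y) c.toInfFam hg'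
  have key : ∀ y : P2, F.ya < y.1 → pt F i U β (H.ei (.inr i) g) y ∈ Kc (M + N) H.η ∧
      ‖pt F i U' β' (H.ei (.inr i) g') y - pt F i U β (H.ei (.inr i) g) y‖ ≤ L * ‖g' - g‖ := by
    refine fun y hy => ⟨pt_mem hH hg hM hN hy, ?_⟩
    rw [pt_eq hy ((cd y hy).differentiableAt (by simp)),
      pt_eq hy ((cd' y hy).differentiableAt (by simp)), ← smul_sub, gj_sub]
    obtain ⟨h1, h2⟩ := norm_gj_le (B := 0) (b := 0) (by simp) (hN y)
      ((c.lip g hg g' hg' y hy).trans (mul_le_mul_of_nonneg_right (le_abs_self _) (norm_nonneg _)))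
    refine norm_scale (max_le ?_ (h2.trans (le_of_eq (by ring))))
    have := (norm_nonneg _).trans h1
    simp only [gj, zero_add]
    exact h1.trans (by rw [hL]; linarith)
  have s0 : 0 ≤ F.ya := by
    have := Real.log_nonneg (show 1 ≤ F.z₀ + 8 by linarith [h.R0_pos, h.z_big])
    linarith [h.y_big]
  rw [estr_zero, estr_zero]
  refine (hC F.ya (L * ‖g' - g‖) 3 _ _ _ _ (F.Kc (.inr i)) _ _ s0 ?_ (by norm_num)
    (ext h a cd (c.per g hg)) (ext h a' cd' (c.per g' hg')) (fun y hy => ?_) (fun y hy => ?_)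
    (fun θ => ⟨(a.reg θ).of_le one_le_two, (a'.reg θ).of_le one_le_two⟩) fun y hy =>
      ⟨glue h a (by simp [Frm.s1, hy.1.le]) (by simp [Frm.s1, hy.2.le]),
        glue h a' (by simp [Frm.s1, hy.1.le]) (by simp [Frm.s1, hy.2.le])⟩).trans
    (le_of_eq (by ring))
  · rw [lt_div_iff₀ (by positivity)] at hd
    nlinarith [norm_nonneg (g' - g)]
  · rw [el_eq_shr (jet2 (Ye F.D (.inr i) (H.ei (.inr i) g)) y) (c.pos g hg y hy).1,
      jet2_Ye (chart_proof S F.D h.eq0.shr.1) _ _ (cd y hy)]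
    exact mul_eq_zero_of_right _ (c.eq g hg y hy)
  · rcases hy.eq_or_lt with b | b
    · exact ext_closed (cAt_pt h a cd hy) (cAt_pt h a' cd' hy) fun t ht => key (t, y.2) (b ▸ ht)
    · exact key y b

end Vale.Agent.P218F.LS
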