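import Vale.Agent.P218F.LSEnSpec

/-! The increment of the Gaussian area on the core. -/

open MeasureTheory Set Filter Topology Metric Matrix
open scoped ContDiff Real

set_option maxSynthPendingDepth 3

noncomputable section

namespace Vale.Agent.P218F.LS

open Vale.Agent.P218FT hiding P2
open Vale.Agent.P218F.Core Vale.Agent.P218F.Ends Vale.Agent.P218F.Ft Vale.Agent.P218F.Mesh Lm

namespace Cq

theorem cd_gj : ContDiff ℝ 1 fun v : Jt × Jt × J1 P2 ℂ => gj v.1 v.2.1 v.2.2 := by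
  have e : ∀ (a : P2 →L[ℝ] ℂ) (w : C3), a.smulRight w =
      ((ContinuousLinearMap.lsmul ℝ ℂ (E := C3)).flip w).comp a := fun a w => by ext <;> simp
  simp only [gj, e]
  refine contDiff_fst.add (ContDiff.prodMk (by fun_prop) (ContDiff.add (by fun_prop)
    (ContDiff.clm_comp ((ContinuousLinearMap.contDiff _).comp (by fun_prop)) (by fun_prop))))

theorem cd_jet {A : Type} [NormedAddCommGroup A] [NormedSpace ℝ A] {G : A × P2 → C3} {v : A × P2}
    (h : ContDiffAt ℝ 2 G v) :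
    ContDiffAt ℝ 1 (fun w : A × P2 => jet1 (fun t => G (w.1, t)) w.2) v :=
  (h.of_le one_le_two).prodMk (ContDiffAt.fderiv (m := 1)
    (f := fun (w : A × P2) (t : P2) => G (w.1, t)) (g := Prod.snd)
    (ContDiffAt.comp (g := G) (f := fun w : (A × P2) × P2 => (w.1.1, w.2)) _ h (by fun_prop))
    contDiffAt_snd (by norm_num))

variable {S : Set E3} {F : Frm S} {κ : Type} [Fintype κ] {φ : P2 → E3} {y : P2}

/-- the one-jet of the surface as a function of the parameters and of the one-jet of `U` -/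
def GG (F : Frm S) {κ : Type} (φ : P2 → E3) (v : ((F.Ix κ → ℂ) × J1 P2 ℂ) × P2) : Jt :=
  gj (fr F φ (v.1.1, v.2)).1 (fr F φ (v.1.1, v.2)).2 v.1.2

theorem cd_fr' (h : F.OK) (hP : Par S φ y) {a : F.Ix κ → ℂ} (ha : ‖a‖ ≤ 1 / 2) :
    ContDiffAt ℝ 1 (fr F φ) (a, y) := by
  have : ContDiffAt ℝ 2 (fun v : (F.Ix κ → ℂ) × P2 =>
      (rot (F.om (F.tl v.1) (φ v.2)) (cE (φ v.2)), F.W (F.tl v.1) (φ v.2))) (a, y) :=
    ContDiffAt.comp (f := fun v : (F.Ix κ → ℂ) × P2 => (v.1, φ v.2)) (a, y)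
      ((h.joint (chart_proof S F.D h.eq0.shr.1) hP.mem.self_of_nhds ha).of_le (by norm_cast))
      (contDiffAt_fst.prodMk (ContDiffAt.comp (g := φ) _ (par_cd hP 2) contDiffAt_snd))
  exact (cd_jet this.fst).prodMk (cd_jet this.snd)

theorem cd_fr'' (h : F.OK) (hP : Par S φ y) {v : (F.Ix κ → ℂ) × J1 P2 ℂ} (ha : ‖v‖ ≤ 1 / 2) :
    ContDiffAt ℝ 1 (fun w : ((F.Ix κ → ℂ) × J1 P2 ℂ) × P2 => fr F φ (w.1.1, w.2)) (v, y) :=
  ContDiffAt.comp (g := fr F φ) (f := fun w : ((F.Ix κ → ℂ) × J1 P2 ℂ) × P2 => (w.1.1, w.2)) (v, y)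
    (cd_fr' h hP ((norm_fst_le v).trans ha)) (by fun_prop)

theorem cd_GG (h : F.OK) (hP : Par S φ y) {v : (F.Ix κ → ℂ) × J1 P2 ℂ} (ha : ‖v‖ ≤ 1 / 2) :
    ContDiffAt ℝ 1 (GG F φ) (v, y) :=
  cd_gj.contDiffAt.comp (f := fun w : ((F.Ix κ → ℂ) × J1 P2 ℂ) × P2 =>
    ((fr F φ (w.1.1, w.2)).1, (fr F φ (w.1.1, w.2)).2, w.1.2)) (v, y)
    ((cd_fr'' h hP ha).fst.prodMk ((cd_fr'' h hP ha).snd.prodMk (by fun_prop)))

omit [Fintype κ] in
theorem GG_zero : GG F (κ := κ) φ (0, y) = jet1 (fun t => cE (φ t)) y := by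
  simp only [GG, gj, fr, Prod.fst_zero, Prod.snd_zero,
    show F.tl (0 : F.Ix κ → ℂ) = 0 from rfl, Frm.om_zero, rot_zero, zero_smul, zero_add]
  refine Prod.ext (add_zero _) ?_
  ext <;> simp

theorem chart (h : F.OK) {Q : Set P2} (hQ : IsCompact Q) (hP : ∀ t ∈ Q, Par S φ t) :
    ∃ η > 0, ∃ L ≥ 0, (∀ᶠ v : (F.Ix κ → ℂ) × J1 P2 ℂ in 𝓝 0, ∀ t ∈ Q,
      η ≤ (gdet (GG F φ (v, t)).2).re ∧ F.W (F.tl v.1) (φ t) ⬝ᵥ nor (GG F φ (v, t)).2 ≠ 0) ∧
      ∀ v v' : (F.Ix κ → ℂ) × J1 P2 ℂ, ‖v‖ ≤ 1 / 2 → ‖v'‖ ≤ 1 / 2 → ∀ t ∈ Q,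
        ‖GG F φ (v, t)‖ ≤ L ∧ ‖GG F φ (v', t) - GG F φ (v, t)‖ ≤ L * ‖v' - v‖ := by
  have := FiniteDimensional.proper_real (P2 →L[ℝ] ℂ)
  have z0 : ‖(0 : (F.Ix κ → ℂ) × J1 P2 ℂ)‖ ≤ 1 / 2 := by simp
  have cg : ∀ t ∈ Q, ContinuousAt (fun w => (gdet (GG F (κ := κ) φ w).2).re) (0, t) := fun t ht =>
    (Complex.continuous_re.comp (continuous_gdet.comp continuous_snd)).continuousAt.comp
      (cd_GG h (hP t ht) z0).continuousAt
  obtain ⟨η, η0, hη⟩ := hQ.exists_forall_le' (f := fun t => (gdet (GG F (κ := κ) φ (0, t)).2).re)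
    (fun t ht => ((cg t ht).comp (f := fun t : P2 => ((0 : (F.Ix κ → ℂ) × J1 P2 ℂ), t))
      (by fun_prop)).continuousWithinAt) (a := 0) fun t ht => by
      rw [GG_zero]; exact OpP.gdet_pos (hP t ht)
  have hc : IsCompact (closedBall (0 : (F.Ix κ → ℂ) × J1 P2 ℂ) (1 / 2) ×ˢ Q) :=
    (isCompact_closedBall _ _).prod hQ
  have hd : ∀ w ∈ closedBall (0 : (F.Ix κ → ℂ) × J1 P2 ℂ) (1 / 2) ×ˢ Q,
      ContDiffAt ℝ 1 (GG F φ) w := fun w hw =>
    cd_GG h (hP _ hw.2) (mem_closedBall_zero_iff.1 hw.1)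
  obtain ⟨M, hM⟩ := hc.exists_bound_of_continuousOn fun w hw =>
    (hd w hw).continuousAt.continuousWithinAt
  obtain ⟨K, hK⟩ := LocallyLipschitzOn.exists_lipschitzOnWith_of_compact hc
    (f := GG F φ) fun w hw => by
      obtain ⟨K, t, h1, h2⟩ := (hd w hw).exists_lipschitzOnWith
      exact ⟨K, t, mem_nhdsWithin_of_mem_nhds h1, h2⟩
  refine ⟨η / 2, half_pos η0, max M K, le_max_of_le_right K.2,
    hQ.eventually_forall_of_forall_eventually fun t ht => Eventually.and ?_ ?_,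
    fun v v' a b t ht => ⟨le_max_of_le_left (hM (v, t) ⟨mem_closedBall_zero_iff.2 a, ht⟩), ?_⟩⟩
  · exact (cg t ht).eventually (le_mem_nhds ((half_lt_self η0).trans_le (hη t ht)))
  · refine ContinuousAt.eventually_ne (g := fun w : ((F.Ix κ → ℂ) × J1 P2 ℂ) × P2 =>
      (fr F φ (w.1.1, w.2)).2.1 ⬝ᵥ nor (GG F φ w).2) ?_ ?_
    · exact (continuous_fst.dotProduct (continuous_nor.comp continuous_snd)).continuousAt.comp
        (f := fun w : ((F.Ix κ → ℂ) × J1 P2 ℂ) × P2 =>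
          ((fr F φ (w.1.1, w.2)).2.1, (GG F φ w).2))
        ((cd_fr'' h (hP t ht) z0).continuousAt.snd.fst.prodMk
          (cd_GG h (hP t ht) z0).continuousAt.snd)
    · rw [GG_zero]
      simp only [fr, jet1, Frm.W, Prod.fst_zero, show F.tl (0 : F.Ix κ → ℂ) = 0 from rfl,
        Frm.om_zero, rot_zero]
      rw [Frm.fderiv_cE (hP t ht).differentiableAt, ← cE_rn, cE_dot]
      exact_mod_cast h.trans_par (hP t ht)
  · have := hK.norm_sub_le (x := (v', t)) (y := (v, t)) ⟨mem_closedBall_zero_iff.2 b, ht⟩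
      ⟨mem_closedBall_zero_iff.2 a, ht⟩
    rw [show ‖((v', t) : _ × P2) - (v, t)‖ = ‖v' - v‖ by
      rw [Prod.norm_def, Prod.fst_sub, Prod.snd_sub, sub_self, norm_zero,
        max_eq_left (norm_nonneg _)]] at this
    exact this.trans (by gcongr; exact le_max_right _ _)

omit [Fintype κ] in
theorem Y_eq (U : E3 → ℂ) (a : F.Ix κ → ℂ) : F.Y U (F.tl a) =
    sur (fun (a : F.Ix κ → ℂ) x => rot (F.om (F.tl a) x) (cE x)) (fun a x => F.W (F.tl a) x) a U :=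
  funext fun x => by simp only [Frm.Y, sur, Frm.W, rot_add, rot_smul]

end Cq

open Cq in
theorem coreInc_proof : CoreInc := by
  intro S F h hne q χ hχ Z _ _ val tr hS
  have hG := h.geo hne
  have hD := chart_proof S F.D h.eq0.shr.1
  have ru : ∀ z, ∀ x ∈ F.C0, Reg S 2 (val z) x := fun z x hx φ y a b => by
    obtain ⟨r, hr, C, hC⟩ := hS.jet φ y a (Or.inl (b.symm ▸ hx))
    exact (hC z y (mem_ball_self hr)).1
  have rp : ∀ a : F.Ix (Fin q ⊕ Fin F.D.m) → ℂ, ‖a‖ ≤ 1 / 2 → ∀ x ∈ F.C0,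
      Reg S 2 (fun x => rot (F.om (F.tl a) x) (cE x)) x ∧ Reg S 2 (F.W (F.tl a)) x :=
    fun a ha x hx => by
      have := ((h.joint hD hx.1 ha).comp (f := fun x : E3 => (a, x)) x (by fun_prop)).of_le
        (m := (2 : ℕ)) (by norm_cast)
      exact ⟨Reg.of_cd this.fst, Reg.of_cd this.snd⟩
  have rY : ∀ u : Un F q Z, ‖u.2‖ ≤ 1 / 2 → ∀ x ∈ F.C0, Reg S 2 (F.Y (val u.1) (F.tl u.2)) x :=
    fun u hu x hx => by
      rw [Y_eq]
      exact reg_sur (rp _ hu x hx).1 (rp _ hu x hx).2 (ru _ x hx)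
  choose! r hr C hC using hS.jet
  obtain ⟨n, φ, y, Q, hA, hy⟩ := exists_Atlas par_proof hG r fun φ y a b => hr φ y a (Or.inl b)
  choose η η0 L L0 h1 h2 using fun k =>
    chart (κ := Fin q ⊕ Fin F.D.m) h (hA.cpt k) (hA.par k)
  obtain ⟨e, e1, e0⟩ := ((eventually_all.2 fun k => mem_nhdsWithin_of_mem_nhds
    (Iic_mem_nhds (η0 k))).and (self_mem_nhdsWithin (s := Ioi (0 : ℝ)) (a := 0))).exists
  obtain ⟨B, hB⟩ := (finite_range fun k => L k + |C (φ k) (y k)|).bddAbove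
  obtain ⟨ρ, ρ0, hρ⟩ := Metric.eventually_nhds_iff_ball.1 (eventually_all.2 h1)
  set B1 := |B| + 1 with hB1
  have b0 : 1 ≤ B1 := by linarith [abs_nonneg B]
  have bL : ∀ k, L k ≤ B1 := fun k => by
    linarith [hB ⟨k, rfl⟩, abs_nonneg (C (φ k) (y k)), le_abs_self B]
  have bC : ∀ k, C (φ k) (y k) ≤ B1 := fun k => by
    linarith [hB ⟨k, rfl⟩, le_abs_self (C (φ k) (y k)), le_abs_self B, L0 k]
  obtain ⟨δ, K, δ0, K0, hK⟩ := core_incr hA par_proof hG B1 e e0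
  let v : Un F q Z → Fin n → P2 → (F.Ix (Fin q ⊕ Fin F.D.m) → ℂ) × J1 P2 ℂ := fun u k t =>
    (u.2, jet1 (fun z => val u.1 (φ k z)) t)
  have dv : ∀ z k, ∀ t ∈ Q k, DifferentiableAt ℝ (fun s => val z (φ k s)) t := fun z k t ht =>
    (hC _ _ (hy k).1 (Or.inl (hy k).2.1) z t ((hy k).2.2 ht)).1.differentiableAt (by simp)
  have nv : ∀ u k, ∀ t ∈ Q k, ‖v u k t‖ ≤ B1 * ‖u‖ := fun u k t ht => max_le
    ((norm_snd_le u).trans (le_mul_of_one_le_left (norm_nonneg _) b0))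
    ((norm_jet1_le (jet2 _ t)).trans
      ((hC _ _ (hy k).1 (Or.inl (hy k).2.1) u.1 t ((hy k).2.2 ht)).2.trans
        (mul_le_mul (bC k) (norm_fst_le u) (norm_nonneg _) (by linarith))))
  have sv : ∀ u u' k, ∀ t ∈ Q k, v u' k t - v u k t = v (u' - u) k t := fun u u' k t ht => by
    refine Prod.ext rfl ?_
    simp only [v, Prod.snd_sub, Prod.fst_sub, map_sub, Pi.sub_apply]
    rw [jet1_sub (dv _ k t ht) (dv _ k t ht)]
  have m0 : 0 < min (ρ / 2) (1 / 2) := lt_min (half_pos ρ0) (by norm_num)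
  have sm : ∀ u : Un F q Z, ‖u‖ ≤ min (ρ / 2) (1 / 2) / B1 → ‖u.2‖ ≤ 1 / 2 ∧ ∀ k, ∀ t ∈ Q k,
      ‖v u k t‖ ≤ 1 / 2 ∧ v u k t ∈ ball 0 ρ ∧
        jet1 (fun z => F.Y (val u.1) (F.tl u.2) (φ k z)) t = GG F (φ k) (v u k t, t) :=
    fun u hu => by
      rw [le_div_iff₀' (by linarith)] at hu
      have a : ‖u.2‖ ≤ 1 / 2 := (norm_snd_le u).trans
        ((le_mul_of_one_le_left (norm_nonneg _) b0).trans (hu.trans (min_le_right _ _)))
      exact ⟨a, fun k t ht => ⟨(nv u k t ht).trans (hu.trans (min_le_right _ _)),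
        mem_ball_zero_iff.2 (((nv u k t ht).trans (hu.trans (min_le_left _ _))).trans_lt
          (half_lt_self ρ0)), jet1_Y h (hA.par k t ht) a (dv _ k t ht)⟩⟩
  refine ⟨min (ρ / 2) (1 / 2) / B1, by positivity, δ / (B1 * B1), by positivity,
    K * (B1 * B1) ^ 2, fun u u' hu hu' hd he => ?_⟩
  obtain ⟨a, ha⟩ := sm u hu
  obtain ⟨a', ha'⟩ := sm u' hu'
  have k1 := hK (F.Y (val u.1) (F.tl u.2)) (F.Y (val u'.1) (F.tl u'.2)) (B1 * B1 * ‖u' - u‖)
    ((lt_div_iff₀' (by positivity)).1 hd)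
    (fun x hx => ⟨rY u a x hx, (rY u' a' x hx).mono one_le_two⟩) fun k t ht _ => by
      obtain ⟨c1, c2, c3⟩ := ha k t ht
      obtain ⟨d1, -, d3⟩ := ha' k t ht
      obtain ⟨f1, f2⟩ := h2 k _ _ c1 d1 t ht
      rw [c3, d3]
      refine ⟨⟨f1.trans (bL k), (e1 k).trans (hρ _ c2 k t ht).1⟩, f2.trans ?_⟩
      rw [sv u u' k t ht, mul_assoc]
      exact mul_le_mul (bL k) (nv _ k t ht) (norm_nonneg _) (by linarith)
  have k2 := el_core (P := fun (a : F.Ix (Fin q ⊕ Fin F.D.m) → ℂ) x => rot (F.om (F.tl a) x) (cE x))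
    (W := fun a x => F.W (F.tl a) x) (F := Sum.elim χ 0) (a := u.2) (w := val u.1) par_proof hG
    (fun i => by
      rcases i with i | i
      exacts [(hχ i).1.continuous.continuousOn, continuousOn_const]) (a' := u'.2) (w' := val u'.1)
    (fun x hx => ⟨(rp _ a x hx).1, (rp _ a x hx).2, ru _ x hx, (ru _ x hx).mono zero_le_two⟩)
    (fun φ' y' hp hx => by
      obtain ⟨k, t, ht, e⟩ := hA.cover _ hx
      obtain ⟨τ, t1, t2, t3, t4, -⟩ := exists_trans par_proof hG.surf (hA.par k t ht) hp e.symm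
      obtain ⟨-, c2, c3⟩ := ha k t ht
      have := congrArg Prod.snd (jet1_trans ((rY u a _ hx).mono one_le_two) (hA.par k t ht) e
        t1 t2 t3)
      rw [c3] at this
      rw [← Y_eq, show fderiv ℝ (fun z => F.Y (val u.1) (F.tl u.2) (φ' z)) y' = _ from this,
        nor_comp, dotProduct_smul, ← e]
      exact smul_ne_zero (Complex.ofReal_ne_zero.2 t4) (hρ _ c2 k t ht).2)
    (fun φ' y' hp hx => he φ' y' hp ⟨hx.1, fun j p hj => hx.2 j p (by linarith)⟩)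
    fun x hx => by
      by_cases hb : x ∈ ball (0 : E3) (F.z₀ + 8)
      · have o : ∀ β, F.om β x = 0 := fun β => h.om_core β hx.1 fun j p hp e => by
          have := h.norm_Kd hD (.inl j) (p := p) (by simp only [Frm.s1]; linarith)
          rw [← e] at this
          linarith [mem_ball_zero_iff.1 hb]
        exact Or.inr ⟨by simp only [o], by simp only [Frm.W, o]⟩
      · refine Or.inl fun i => ?_
        rcases i with i | i
        exacts [image_eq_zero_of_notMem_tsupport fun hh => hb (hχ.supp i hh), rfl]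
  have m0 : ∀ w : E3 → ℂ, mo F.C0 (0 : E3 → ℝ) w = 0 := fun w => by simp [mo]
  rw [← Y_eq, ← Y_eq, Fintype.sum_sum_type] at k2
  simp only [Sum.elim_inl, Sum.elim_inr, Pi.zero_apply, m0, mul_zero, sub_self,
    Finset.sum_const_zero, add_zero] at k2
  rw [k2] at k1
  exact k1.trans (le_of_eq (by ring))

end Vale.Agent.P218F.LS
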