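import Vale.Agent.P218F.LSEnCyl0

/-!
# The increment of the Gaussian area on a cylindrical end
-/

open MeasureTheory Set Filter Topology Metric Matrix
open scoped ContDiff Real

set_option maxSynthPendingDepth 3

noncomputable section

namespace Vale.Agent.P218F.LS

open Vale.Agent.P218FT hiding P2
open Vale.Agent.P218F.Core Vale.Agent.P218F.Ends Vale.Agent.P218F.Ft Vale.Agent.P218F.Mesh

namespace Cy

variable {S : Set E3} {s R : ℝ} {e : P2 → ℂ}

theorem estr_inv (X : P2 → C3) (s : ℝ) (hR : 0 < R) : Estr X s R⁻¹ = Est X s R := by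
  have : {z | s < z ∧ R⁻¹ * z < 1} = Ioo s R := by
    ext z
    simp only [mem_ofPred_eq, mem_Ioo, inv_mul_lt_iff₀ hR, mul_one]
  rw [Estr, Est, this]

theorem jw1_le (T : Set P2) (y : P2) : ‖jw1 T e y‖ ≤ ‖jw2 T e y‖ := Lm.norm_jet1_le (jw2 T e y)

theorem jw1_lip (h : s < R) (he : ContDiffOn ℝ 2 e (Icc s R ×ˢ univ)) {M : ℝ}
    (hM : ∀ p ∈ Icc s R ×ˢ (univ : Set ℝ), ‖jw2 (Icc s R ×ˢ univ) e p‖ ≤ M) {y y' : P2}
    (hy : y.1 ∈ Icc s R) (hy' : y'.1 ∈ Icc s R) :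
    ‖jw1 (Icc s R ×ˢ univ) e y' - jw1 (Icc s R ×ˢ univ) e y‖ ≤ M * ‖y' - y‖ := by
  have cv : Convex ℝ (Icc s R ×ˢ univ : Set P2) := (convex_Icc s R).prod convex_univ
  refine max_le (cv.norm_image_sub_le_of_norm_fderivWithin_le (he.differentiableOn (by simp))
    (fun p hp => ((norm_fst_le (jw2 _ e p).2).trans (norm_snd_le _)).trans (hM p hp))
    ⟨hy, trivial⟩ ⟨hy', trivial⟩) (cv.norm_image_sub_le_of_norm_fderivWithin_le
    ((he.fderivWithin (m := 1) (ud_strip h) (by norm_num)).differentiableOn (by simp))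
    (fun p hp => ((norm_snd_le (jw2 _ e p).2).trans (norm_snd_le _)).trans (hM p hp))
    ⟨hy, trivial⟩ ⟨hy', trivial⟩)

theorem el_Ye {D : EndData S} (hC : Charts S D) (j : Fin D.m) {y : P2} (he : ContDiffAt ℝ 2 e y)
    (h0 : e y ≠ 0) (h : shrG (Bx D (.inl j)) (Wx D (.inl j)) y (jet2 e y) = 0) :
    el (jet2 (Ye D (.inl j) e) y) = 0 := by
  have t : wr D j y.2 ⬝ᵥ nor (jet2 (Ye D (.inl j) e) y).2.1 ≠ 0 := fun h1 => by
    have h2 := trans_gq D j y (jet1 e y)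
    rw [gq, ← Lm.jet1_Ye D _ (he.differentiableAt (by simp))] at h2
    exact pow_ne_zero 2 h0 (h2.symm.trans ((congrArg (· ^ 2) h1).trans (by simp)))
  rw [el_eq_shr _ t, jet2_Ye hC _ y he, ← Wx_eq]
  exact mul_eq_zero_of_right _ h

variable {F : Frm S}

theorem glue_end (h : F.OK) {j : JJ F.D} {U : E3 → ℂ} {β : Tilt F.D.m ℂ} (hg : GlC F j U β e)
    {y : P2} (hy : y.1 ∈ Ioo (0 : ℝ) 3) :
    F.Y U β (F.Kc j y) = rotC (F.omE β j) (Ye F.D j e (F.s1 j + y.1, y.2)) := by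
  rw [Frm.Kc, h.Y_end (chart_proof S F.D h.eq0.shr.1) U β j (by dsimp only; linarith [hy.1]), Ye, Ye,
    hg.glue _ ⟨by dsimp only; linarith [hy.1], by dsimp only; linarith [hy.2]⟩]

end Cy

open Cy in
/-- **the increment on a cylindrical end** -/
theorem cylInc_proof : CylInc := by
  intro S F h H hH j R₁ hR₁ g₁ hg₁ c₁ hc₁
  have c := hH.cyl j
  have hC := chart_proof S F.D h.eq0.shr.1
  obtain ⟨B, hO⟩ := rotFam_Orot F.D j
  obtain ⟨N, N0, n1, n2, n3⟩ := frame_bound F.D j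
  obtain ⟨M₀, η, ε₁, hη, hε₁, hx⟩ := c.x4 R₁ hR₁ g₁ hg₁ c₁ hc₁
  set s := F.z₀ + 11 with hs
  have s0 : 0 ≤ s := by linarith [h.R0_pos, h.z_big]
  have big := c.big
  obtain ⟨M, M0, hM⟩ : ∃ M, 0 ≤ M ∧ M₀ ≤ M := ⟨max M₀ 0, le_max_right _ _, le_max_left _ _⟩
  have MN : 0 ≤ M * N := by positivity
  obtain ⟨δ, C, hδ, C0, hc⟩ := cyl_incr hO ((R₁ + 1) * N + N + 2 * (M * N)) η (R₁ + 1 - s) hη
  have k0 : 0 < 1 + N + 8 * (M * N) := by positivity
  refine ⟨C * (1 + N + 8 * (M * N)) ^ 2, min ε₁ (min 1 (δ / (1 + N + 8 * (M * N)))),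
    by positivity, ?_⟩
  intro R R' d g g' x x' U U' β β' a a' hRR hβ gl gl' d1 d2 d3 d4 hd
  have e1 := min_le_left ε₁ (min 1 (δ / (1 + N + 8 * (M * N))))
  have e2 := (min_le_right ε₁ (min 1 (δ / (1 + N + 8 * (M * N))))).trans (min_le_left _ _)
  have e3 := (min_le_right ε₁ (min 1 (δ / (1 + N + 8 * (M * N))))).trans (min_le_right _ _)
  have ab := a.big
  have sR : s < R := by linarith
  have sR' : s < R' := by linarith
  have d0 : 0 ≤ d := by linarith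
  have RR : R ≤ R₁ + 1 := by linarith [(abs_lt.1 a.dR).2]
  have f2 := c.fc2 R a.big g a.gm x a.cm
  have f2' := c.fc2 R' a'.big g' a'.gm x' a'.cm
  obtain ⟨b1, b2⟩ := hx R a.big (a.dR.trans_le e1) g a.gm (a.dg.trans_le e1) x a.cm
    (a.dc.trans_le e1)
  have b1' := (hx R' a'.big (a'.dR.trans_le e1) g' a'.gm (a'.dg.trans_le e1) x' a'.cm
    (a'.dc.trans_le e1)).1
  have b3 := b2 R' hRR (a'.dR.trans_le e1) g' a'.gm (a'.dg.trans_le e1) x' a'.cm (a'.dc.trans_le e1)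
  have cl : ∀ y : P2, y.1 ∈ Icc s R → ‖jw1 (Icc s R' ×ˢ univ) (H.e j R' g' x') y -
      jw1 (Icc s R ×ˢ univ) (H.e j R g x) y‖ ≤ 3 * (M * d) := fun y hy => by
    refine mem_closedBall_zero_iff.1 (of_int (f := fun y => jw1 (Icc s R' ×ˢ univ) (H.e j R' g' x') y -
      jw1 (Icc s R ×ˢ univ) (H.e j R g x) y) sR isClosed_closedBall (((cont_jw1 sR' f2').mono
        (prod_mono (Icc_subset_Icc_right hRR) le_rfl)).sub (cont_jw1 sR f2)) (fun z hz => ?_) hy)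
    rw [mem_closedBall_zero_iff, jw1_int hz, jw1_int ⟨hz.1, hz.2.trans_le hRR⟩]
    refine (b3 z hz.1 hz.2).trans ?_
    have := norm_nonneg (g' - g)
    have := norm_nonneg (x' - x)
    calc M₀ * (R' - R + ‖g' - g‖ + ‖x' - x‖) ≤ M * (R' - R + ‖g' - g‖ + ‖x' - x‖) := by
          gcongr
      _ ≤ M * (d + d + d) := by gcongr
      _ = 3 * (M * d) := by ring
  have cq : ∀ y : P2, y.1 ∈ Icc s R → ‖qC F.D j s R' (H.e j R' g' x') y -
      qC F.D j s R (H.e j R g x) y‖ ≤ 6 * (M * N) * d := fun y hy => by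
    refine (gq_sub n1 n3 rfl _ _).trans ?_
    have := mul_le_mul_of_nonneg_right (cl y hy) N0
    rw [sub_self, abs_zero]
    linarith
  have Nd : 0 ≤ N * d := by positivity
  have MNd : 0 ≤ M * N * d := by positivity
  have key := hc (cx F.D j) s R R' ((1 + N + 8 * (M * N)) * d) 3 _ _ _ _ (β j) (β' j)
    (F.Kc (.inl j)) (F.Y U β) (F.Y U' β') (dots F.D j 0).1 sR hRR (by linarith) (by linarith)
    (by rw [mul_comm]; exact (lt_div_iff₀ k0).1 (hd.trans_le e3)) (by norm_num)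
    ((norm_le_pi_norm β j).trans hβ) (((norm_le_pi_norm (β' - β) j).trans d4).trans (by linarith))
    (ext_qC F.D j sR f2 (c.fper R a.big g a.gm x a.cm))
    (ext_qC F.D j sR' f2' (c.fper R' a'.big g' a'.gm x' a'.cm))
    (fun y hy => el_Ye hC j (f2.contDiffAt (strip_nhds hy))
      (c.feq R a.big g a.gm x a.cm y hy.1 hy.2).1 (c.feq R a.big g a.gm x a.cm y hy.1 hy.2).2.1)
    (fun y hy => ⟨⟨?_, ?_⟩, (cq y hy).trans (by linarith)⟩) (fun y hy => ?_)
    (fun θ => ⟨neu_gq F.D j _ (c.neu R a.big g a.gm x a.cm θ),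
      (height_gq F.D j _ _).trans (height_gq F.D j _ _).symm⟩)
    (fun θ => ⟨(gl.reg θ).of_le one_le_two, (gl'.reg θ).of_le one_le_two⟩)
    (fun y hy => ⟨glue_end h gl hy, glue_end h gl' hy⟩)
  · rw [estr_inv _ _ (by linarith), estr_inv _ _ (by linarith)]
    exact key.trans_eq (by ring)
  · obtain ⟨u1, u2⟩ := gq_bound n2 n3 y (((jw1_le _ y).trans (b1 y ⟨hy, trivial⟩).1).trans hM)
    have u3 : ‖(y.1 : ℂ) • cx F.D j‖ ≤ (R₁ + 1) * N := by
      rw [norm_smul, Complex.norm_real, Real.norm_of_nonneg (s0.trans hy.1)]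
      gcongr
      · linarith
      · linarith [hy.2]
    have u4 : 0 ≤ (R₁ + 1) * N := (norm_nonneg _).trans u3
    exact max_le ((norm_le_norm_add_norm_sub' _ _).trans (add_le_add u3 u1) |>.trans (by linarith))
      (u2.trans (by linarith))
  · rw [qC_eq, gdet_gq]
    exact (b1 y ⟨hy, trivial⟩).2
  · have u1 := cq (R, y.2) ⟨sR.le, le_rfl⟩
    have u2 := jw1_lip sR' f2' (fun p hp => (b1' p hp).1.trans hM) (y := (R, y.2)) (y' := y)
      ⟨sR.le, hRR⟩ ⟨sR.le.trans hy.1, hy.2⟩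
    have u3 : |y.1 - R| ≤ d := by
      rw [abs_of_nonneg (by linarith [hy.1])]
      linarith [hy.2]
    have u4 : ‖y - (R, y.2)‖ ≤ d := max_le u3 (by simpa using d0)
    have u5 := gq_sub n1 n3 (p := (R, y.2)) (p' := y) rfl
      (jw1 (Icc s R' ×ˢ univ) (H.e j R' g' x') (R, y.2)) (jw1 (Icc s R' ×ˢ univ) (H.e j R' g' x') y)
    have u6 := mul_le_mul_of_nonneg_right (u2.trans (mul_le_mul_of_nonneg_left u4 M0)) N0
    have u7 := mul_le_mul_of_nonneg_right u3 N0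
    refine (norm_sub_le_norm_sub_add_norm_sub _ (qC F.D j s R' (H.e j R' g' x') (R, y.2)) _).trans
      ((add_le_add u5 u1).trans ?_)
    linarith

end Vale.Agent.P218F.LS
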