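import Vale.Agent.P218F.LSEnSpec
import Mathlib.Analysis.Complex.Schwarz

/-! The assembly of `EnergyStmt` from its pieces (helper62). -/

open MeasureTheory Set Filter Topology Metric Matrix
open scoped ContDiff Real

set_option maxSynthPendingDepth 3

noncomputable section

namespace Vale.Agent.P218F.LS

open Vale.Agent.P218FT hiding P2
open Vale.Agent.P218F.Core Vale.Agent.P218F.Ends Vale.Agent.P218F.Ft Vale.Agent.P218F.Mesh

namespace EnF

variable {q m : ℕ}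

theorem near_dom {r L R₁ : ℝ} (hR : 0 < R₁) {x₁ : Nm.X q m}
    (hx : x₁ ∈ Nm.dom q m r (Sym.Om L R₁)) :
    ∃ ε > 0, ∀ R, |R - R₁| < ε → ball x₁ (3 * ε) ⊆ Nm.dom q m r (Sym.Om L R) := by
  have h1 : ∀ᶠ p : ℝ × Nm.X q m in 𝓝 (R₁, x₁), p.2 ∈ Nm.dom q m r (Sym.Om L p.1) := by
    refine Eventually.and (ContinuousAt.eventually_lt (by fun_prop) continuousAt_const hx.1)
      (eventually_all.2 fun j => ?_)
    have := hR.ne'
    refine ContinuousAt.eventually_lt (f := fun p : ℝ × Nm.X q m =>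
      dist (p.2.2 j) ((2 / p.1 ^ 2 : ℝ) : ℂ)) ?_ ?_ (hx.2 j)
    · exact Tendsto.dist (f := fun p : ℝ × Nm.X q m => p.2.2 j) (Continuous.tendsto (by fun_prop) _)
        (Complex.continuous_ofReal.continuousAt.comp (f := fun p : ℝ × Nm.X q m => 2 / p.1 ^ 2)
          (by fun_prop (disch := positivity)))
    · fun_prop (disch := positivity)
  obtain ⟨ε, hε, h⟩ := Metric.eventually_nhds_iff_ball.1 h1
  refine ⟨ε / 3, by positivity, fun R h2 x h3 => h (R, x) ?_⟩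
  rw [← ball_prod_same]
  exact ⟨mem_ball_iff_norm.2 (by rw [Real.norm_eq_abs]; linarith), ball_subset_ball (by linarith) h3⟩

/-- the parameters near `(R₁, x₁)` -/
structure Cl (R0 R₁ : ℝ) (x₁ : Nm.X q m) (ε R : ℝ) (x : Nm.X q m) : Prop where
  big : R0 ≤ R
  dR : |R - R₁| < ε
  dx : ‖x - x₁‖ < ε

theorem Cl.mono {R0 R₁ ε ε' R : ℝ} {x₁ x : Nm.X q m} (h : Cl R0 R₁ x₁ ε R x) (e : ε ≤ ε') :
    Cl R0 R₁ x₁ ε' R x := ⟨h.big, h.dR.trans_le e, h.dx.trans_le e⟩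

theorem Cl.sum_lt {R0 R₁ ε R R' : ℝ} {x₁ x x' : Nm.X q m} (h : Cl R0 R₁ x₁ ε R x)
    (h' : Cl R0 R₁ x₁ ε R' x') : |R' - R| < 2 * ε ∧ ‖x' - x‖ < 2 * ε := by
  have a := abs_sub_le R' R₁ R
  have b := norm_sub_le_norm_sub_add_norm_sub x' x₁ x
  rw [abs_sub_comm R₁] at a
  rw [norm_sub_rev x₁] at b
  constructor <;> linarith [h.dR, h'.dR, h.dx, h'.dx]

/-- the local Lipschitz bound -/
theorem loc_lip {V : Type} [NormedAddCommGroup V] [NormedSpace ℂ V] {L R0 r C R₁ : ℝ}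
    {g : ℝ → Nm.X q m → V} (h : Nm.PFam (3 / 5) L R0 r C g) (h0 : 1 ≤ R0) (h1 : R0 ≤ R₁)
    {x₁ : Nm.X q m} (hx : x₁ ∈ Nm.dom q m r (Sym.Om L R₁)) : ∃ K ε : ℝ, 0 ≤ K ∧ 0 < ε ∧
      ∀ R x R' x', Cl R0 R₁ x₁ ε R x → Cl R0 R₁ x₁ ε R' x' →
        ‖g R' x' - g R x‖ ≤ K * (|R' - R| + ‖x' - x‖) := by
  obtain ⟨ε₀, e0, hd⟩ := near_dom (by linarith) hx
  obtain ⟨ε, e1, e2, e3⟩ : ∃ ε : ℝ, 0 < ε ∧ ε ≤ ε₀ ∧ ε ≤ 1 / 2 :=
    ⟨min ε₀ (1 / 2), by positivity, min_le_left _ _, min_le_right _ _⟩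
  have hC : 0 ≤ C := (norm_nonneg _).trans (h.bdd R₁ h1 x₁ hx)
  have key : ∀ R x R' x', Cl R0 R₁ x₁ ε R x → Cl R0 R₁ x₁ ε R' x' → R ≤ R' →
      ‖g R' x' - g R x‖ ≤ (C + C / ε) * (|R' - R| + ‖x' - x‖) := by
    intro R x R' x' a b c
    obtain ⟨s1, s2⟩ := a.sum_lt b
    have sub : ball x (2 * ε) ⊆ Nm.dom q m r (Sym.Om L R) :=
      (ball_subset_ball' (by linarith [a.dx, dist_eq_norm x x₁])).trans (hd R (a.dR.trans_le e2))
    have m' : x' ∈ Nm.dom q m r (Sym.Om L R') := hd R' (b.dR.trans_le e2)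
      (mem_ball_iff_norm.2 (by linarith [b.dx]))
    have i1 := h.lipR R R' a.big c (by linarith [le_abs_self (R' - R)]) x' m'
    have i2 : R ^ (-5 - 3 / 5 : ℝ) ≤ 1 :=
      Real.rpow_le_one_of_one_le_of_nonpos (h0.trans a.big) (by norm_num)
    have i3 := Complex.dist_le_div_mul_dist_of_mapsTo_ball (R₂ := 2 * C)
      ((h.hol R a.big).mono sub) (fun z hz => mem_closedBall_iff_norm.2 ((norm_sub_le _ _).trans
        (by linarith [h.bdd R a.big z (sub hz), h.bdd R a.big x (sub (mem_ball_self (by linarith)))])))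
      (mem_ball_iff_norm.2 s2)
    rw [dist_eq_norm, dist_eq_norm, mul_div_mul_left _ _ two_ne_zero] at i3
    have i4 : C * (R' - R) * R ^ (-5 - 3 / 5 : ℝ) ≤ C * |R' - R| :=
      (mul_le_of_le_one_right (mul_nonneg hC (by linarith)) i2).trans
        (mul_le_mul_of_nonneg_left (le_abs_self _) hC)
    have i5 := norm_sub_le_norm_sub_add_norm_sub (g R' x') (g R x') (g R x)
    have i6 : 0 ≤ C / ε := by positivity
    nlinarith [abs_nonneg (R' - R), norm_nonneg (x' - x)]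
  refine ⟨C + C / ε, ε, by positivity, e1, fun R x R' x' a b => ?_⟩
  rcases le_total R R' with c | c
  · exact key R x R' x' a b c
  · rw [norm_sub_rev, abs_sub_comm, norm_sub_rev x']
    exact key R' x' R x b a c

theorem exists_small {ι : Type} [Finite ι] {e : ι → ℝ} (h : ∀ i, 0 < e i) :
    ∃ t > 0, ∀ i, t ≤ e i := by
  have : ∀ᶠ t in 𝓝[>] (0 : ℝ), ∀ i, t ≤ e i := eventually_all.2 fun i =>
    mem_nhdsWithin_of_mem_nhds (Iic_mem_nhds (h i))
  obtain ⟨t, a, b⟩ := (this.and self_mem_nhdsWithin).exists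
  exact ⟨t, b, a⟩

variable {S : Set E3} {F : Frm S} {H : EF F}

theorem g_sub (h : F.OK) (t t' : JJ F.D → AA) (j : JJ F.D) : ‖H.g t' j - H.g t j‖ ≤ ‖t' - t‖ := by
  rw [EF.g, EF.g, add_sub_add_left_eq_sub, ← smul_sub, norm_smul]
  refine le_trans ?_ (norm_le_pi_norm (t' - t) j)
  rcases h.sign j with e | e <;> simp [e]

theorem sq_le {K a d : ℝ} (h0 : 0 ≤ a) (h : a ≤ d) : K * a ^ 2 ≤ |K| * d ^ 2 := by
  gcongr
  exact le_abs_self K

end EnF

open EnF in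
/-- **ENERGY** from its pieces -/
theorem energy_of (hB : EnB) (hCo : CoreInc) (hT : CylTip) (hCy : CylInc) (hCn : ConeInc) :
    EnergyStmt := by
  intro S F h hne H hH q χ hχ Z _ _ _ val tr hS
  obtain ⟨ρa, a0, hg, hb⟩ := hB S F h hne H hH q χ hχ Z val tr hS
  obtain ⟨ρb, b0, εc, c0, Kc, hc⟩ := hCo S F h hne q χ hχ Z val tr hS
  obtain ⟨ρ₁, r0, r1, r2, r3⟩ : ∃ ρ₁ : ℝ, 0 < ρ₁ ∧ ρ₁ ≤ ρa ∧ ρ₁ ≤ ρb ∧ ρ₁ ≤ 1 / 4 :=
    ⟨min ρa (min ρb (1 / 4)), by positivity, min_le_left _ _,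
      (min_le_right _ _).trans (min_le_left _ _), (min_le_right _ _).trans (min_le_right _ _)⟩
  have hg1 : GoodAt (F := F) (q := q) val ρ₁ := fun u hu => hg u (hu.trans r1)
  refine ⟨ρ₁, r0, hg1, fun ρ hρ R0 r C s si hR => ?_⟩
  obtain ⟨C', hC'⟩ := hb ρ (hρ.trans r1) R0 r C s si hR
  choose Ct hCt using hT S F h H hH
  choose Kn εn n0 hn using hCn S F h H hH
  have G := h.geo hne
  have gm : ∀ R, R0 ≤ R → ∀ x ∈ Nm.dom q F.D.m r (Sym.Om (2 * H.Λ) R), ∀ j,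
      H.g (tr (s R x)) j ∈ ball (H.g0 j) H.δ := fun R a x b j =>
    Lm.g_mem h ((hR.sol R a x b).trn.trans_lt hR.rho) j
  have tb : ∀ R, R0 ≤ R → ∀ x ∈ Nm.dom q F.D.m r (Sym.Om (2 * H.Λ) R), ‖F.tl (s R x).2‖ ≤ 1 / 4 :=
    fun R a x b => (Frm.norm_tl _).trans ((norm_snd_le _).trans
      ((hR.sol R a x b).norm.trans (hρ.trans r3)))
  have gl : ∀ R, R0 ≤ R → ∀ x ∈ Nm.dom q F.D.m r (Sym.Om (2 * H.Λ) R), ∀ j,
      GlC F j (val (s R x).1) (F.tl (s R x).2) (H.eR R x.2 (tr (s R x)) j) := fun R a x b j => by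
    refine ⟨fun θ => ?_, (hR.sol R a x b).glue j⟩
    obtain ⟨p1, p2⟩ := Geo.par0 G j (y := (0, θ)) (by norm_num) le_rfl
    exact (hg1 _ ((hR.sol R a x b).norm.trans hρ) _ p2).1 _ _ p1 rfl
  have cle : ∀ j, Ct j ≤ |C'| + ∑ j, |Ct j| := fun j => (le_abs_self _).trans
    ((Finset.single_le_sum (f := fun j => |Ct j|) (fun _ _ => abs_nonneg _)
      (Finset.mem_univ j)).trans (le_add_of_nonneg_left (abs_nonneg _)))
  have one : 1 ≤ R0 := by
    obtain ⟨_, _, _, -, h2, h3⟩ := hH.inv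
    exact h2.trans (h3.trans hR.big)
  refine ⟨fun R x j => tauE H j R (H.g (tr (s R x)) (.inl j)) (x.2 j) (F.tl (s R x).2 j),
    fun R x j => mainE H j R (H.g (tr (s R x)) (.inl j)) (x.2 j), |C'| + ∑ j, |Ct j|,
    fun R a x b => (hC' R a x b).1.trans ((le_abs_self _).trans (le_add_of_nonneg_right
      (Finset.sum_nonneg fun _ _ => abs_nonneg _))), fun R a x b => (hC' R a x b).2, ?_,
    fun R a x b j => ?_, fun R a x b j => ?_,
    en_lim h hne hH hS (by linarith) hg1 hρ hR, en_base h hne hH hR⟩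
  · intro R₁ a₁ x₁ b₁
    obtain ⟨K, ε₀, K0, e0, hK⟩ := loc_lip hR.fam one a₁ b₁
    choose Ky εy y0 hy using fun j => hCy S F h H hH j R₁ (hR.big.trans a₁) _
      (gm R₁ a₁ x₁ b₁ (.inl j)) _ (b₁.2 j)
    obtain ⟨t₁, t1, ht1⟩ := exists_small y0
    obtain ⟨t₂, t2, ht2⟩ := exists_small n0
    obtain ⟨t, t0, ta, tb', tc⟩ : ∃ t : ℝ, 0 < t ∧ t ≤ t₁ ∧ t ≤ t₂ ∧ t ≤ εc :=
      ⟨min t₁ (min t₂ εc), by positivity, min_le_left _ _,
        (min_le_right _ _).trans (min_le_left _ _), (min_le_right _ _).trans (min_le_right _ _)⟩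
    obtain ⟨M, M1, M2, M3⟩ : ∃ M : ℝ, 1 ≤ M ∧ K ≤ M ∧ ‖tr‖ * K ≤ M :=
      ⟨1 + K + ‖tr‖ * K, by nlinarith [norm_nonneg tr], by nlinarith [norm_nonneg tr], by linarith⟩
    obtain ⟨ε, e1, e2, e3⟩ : ∃ ε : ℝ, 0 < ε ∧ ε ≤ ε₀ ∧ M * (4 * ε) ≤ t :=
      ⟨min ε₀ (t / (4 * M)), by positivity, min_le_left _ _, by
        have : min ε₀ (t / (4 * M)) * (4 * M) ≤ t :=
          (le_div_iff₀ (by positivity)).1 (min_le_right _ _)
        linarith⟩
    have e4 : ε ≤ t := by nlinarith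
    have est : ∀ R x R' x', Cl R0 R₁ x₁ ε R x → Cl R0 R₁ x₁ ε R' x' →
        M * (|R' - R| + ‖x' - x‖) < t ∧ ‖s R' x' - s R x‖ ≤ M * (|R' - R| + ‖x' - x‖) ∧
        ∀ j, ‖H.g (tr (s R' x')) j - H.g (tr (s R x)) j‖ ≤ M * (|R' - R| + ‖x' - x‖) := by
      intro R x R' x' a b
      have i := hK R x R' x' (a.mono e2) (b.mono e2)
      obtain ⟨s1, s2⟩ := a.sum_lt b
      have p : 0 ≤ |R' - R| + ‖x' - x‖ := by positivity
      refine ⟨lt_of_lt_of_le (mul_lt_mul_of_pos_left (by linarith) (by linarith)) e3,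
        i.trans (by gcongr), fun j => (g_sub h _ _ j).trans ?_⟩
      rw [← map_sub]
      refine (tr.le_opNorm _).trans ((mul_le_mul_of_nonneg_left i (norm_nonneg _)).trans ?_)
      rw [← mul_assoc]
      gcongr
    have c₁ : Cl R0 R₁ x₁ ε R₁ x₁ := ⟨a₁, by simpa using e1, by simpa using e1⟩
    have nr : ∀ R x, Cl R0 R₁ x₁ ε R x → x ∈ Nm.dom q F.D.m r (Sym.Om (2 * H.Λ) R) → ∀ j,
        Nr H j R₁ (H.g (tr (s R₁ x₁)) (.inl j)) (x₁.2 j) (εy j) R (H.g (tr (s R x)) (.inl j))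
          (x.2 j) := fun R x a b j => by
      have l := e4.trans (ta.trans (ht1 j))
      obtain ⟨u1, -, u2⟩ := est R₁ x₁ R x c₁ a
      exact ⟨hR.big.trans a.big, a.dR.trans_le l, gm R a.big x b _,
        (u2 _).trans_lt (u1.trans_le (ta.trans (ht1 j))), b.2 j,
        ((norm_le_pi_norm (x - x₁).2 j).trans (norm_snd_le _)).trans_lt (a.dx.trans_le l)⟩
    refine ⟨(|Kc| + ∑ j, |Ky j| + ∑ i, |Kn i|) * (2 * M ^ 2), ε, e1,
      fun R R' x x' a aa d1 d2 b b' d3 d4 => ?_⟩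
    have a' := a.trans aa
    obtain ⟨u1, u2, u3⟩ := est R x R' x' ⟨a, d1, d3⟩ ⟨a', d2, d4⟩
    rw [abs_of_nonneg (sub_nonneg.2 aa)] at u1 u2 u3
    set d := M * (R' - R + ‖x' - x‖) with hd
    have p1 : 0 ≤ R' - R := sub_nonneg.2 aa
    have p2 := norm_nonneg (x' - x)
    have l0 : R' - R + ‖x' - x‖ ≤ d := le_mul_of_one_le_left (by positivity) M1
    have so := hR.sol R a x b
    have so' := hR.sol R' a' x' b'
    have A := (hc (s R x) (s R' x') (so.norm.trans (hρ.trans r2)) (so'.norm.trans (hρ.trans r2))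
      (u2.trans_lt (u1.trans_le tc)) so.eq).trans (sq_le (norm_nonneg _) u2)
    have B := fun j => (hy j R R' d _ _ _ _ _ _ _ _ (nr R x ⟨a, d1, d3⟩ b j)
      (nr R' x' ⟨a', d2, d4⟩ b' j) aa (tb R a x b) (gl R a x b (.inl j)) (gl R' a' x' b' (.inl j))
      (by linarith) (u3 _) (((norm_le_pi_norm (x' - x).2 j).trans (norm_snd_le _)).trans
        (by linarith)) (((Frm.norm_tl (s R' x' - s R x).2).trans (norm_snd_le _)).trans u2)
      (u1.trans_le (ta.trans (ht1 j)))).trans (sq_le (p1.trans (by linarith)) le_rfl)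
    have D := fun i => (hn i _ (gm R a x b (.inr i)) _ (gm R' a' x' b' (.inr i)) _ _ _ _
      (gl R a x b (.inr i)) (gl R' a' x' b' (.inr i))
      ((u3 _).trans_lt (u1.trans_le (tb'.trans (ht2 i))))).trans (sq_le (norm_nonneg _) (u3 _))
    have E := (norm_add₃_le.trans (add_le_add (add_le_add A ((norm_sum_le Finset.univ _).trans
      (Finset.sum_le_sum fun j _ => B j))) ((norm_sum_le Finset.univ _).trans
      (Finset.sum_le_sum fun i _ => D i))))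
    refine le_trans (le_of_eq (congrArg _ ?_)) (E.trans ?_)
    · simp only [lsf, Frm.en, EF.eR, Fintype.sum_sum_type, so.mom, so'.mom, Finset.sum_add_distrib,
        Finset.sum_sub_distrib, neg_mul, Finset.sum_neg_distrib, Finset.mul_sum]
      ring
    · rw [← Finset.sum_mul, ← Finset.sum_mul, ← add_mul, ← add_mul, mul_assoc]
      refine mul_le_mul_of_nonneg_left ?_ (by positivity)
      rw [hd, mul_pow]
      nlinarith [sq_nonneg (R' - R - ‖x' - x‖), sq_nonneg M]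
  · refine ((hCt j R (hR.big.trans a) _ (gm R a x b _) _ (b.2 j)).1 _
      ((norm_le_pi_norm _ j).trans (tb R a x b))).trans ?_
    gcongr
    exact cle j
  · refine (hCt j R (hR.big.trans a) _ (gm R a x b _) _ (b.2 j)).2.trans ?_
    have : 0 ≤ R := by linarith
    gcongr
    exact cle j

end Vale.Agent.P218F.LS
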