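import Vale.Agent.P218F.LSEnCyl0

/-!
# The tip terms of a cylindrical end
-/

open MeasureTheory Set Filter Topology Metric Matrix
open scoped ContDiff Real

set_option maxSynthPendingDepth 3

noncomputable section

namespace Vale.Agent.P218F.LS

open Vale.Agent.P218FT hiding P2
open Vale.Agent.P218F.Core Vale.Agent.P218F.Ends Vale.Agent.P218F.Ft Vale.Agent.P218F.Mesh

namespace ETip

variable {S : Set E3} (D : EndData S) (j : Fin D.m)

/-- the derivative of the axis -/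
def LB : P2 →L[ℝ] C3 := cE.comp ((ContinuousLinearMap.fst ℝ ℝ ℝ).smulRight (D.c j))

theorem fderiv_B (p : P2) : fderiv ℝ (Bx D (.inl j)) p = LB D j := (LB D j).fderiv

theorem fderiv_W (p : P2) : fderiv ℝ (Wx D (.inl j)) p = (ContinuousLinearMap.snd ℝ ℝ ℝ).smulRight
    (cE (-Real.sin p.2 • D.a j + Real.cos p.2 • D.b j)) := by
  have h : HasDerivAt (fun θ => cE (Real.cos θ • D.a j + Real.sin θ • D.b j))
      (cE (-Real.sin p.2 • D.a j + Real.cos p.2 • D.b j)) p.2 :=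
    cE.hasFDerivAt.comp_hasDerivAt p.2 (((Real.hasDerivAt_cos p.2).smul_const _).add
      ((Real.hasDerivAt_sin p.2).smul_const _))
  refine (h.hasFDerivAt.comp p hasFDerivAt_snd).fderiv.trans ?_
  ext <;> simp

/-- the jet of a polar graph -/
def qJ (p : P2) (u : J1 P2 ℂ) : Jt := Lm.gj (jet1 (Bx D (.inl j)) p) (jet1 (Wx D (.inl j)) p) u

theorem q_one (p : P2) (u : J1 P2 ℂ) : (qJ D j p u).1 =
    (p.1 : ℂ) • cE (D.c j) + u.1 • cE (Real.cos p.2 • D.a j + Real.sin p.2 • D.b j) := by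
  simp only [qJ, Lm.gj, jet1, Prod.fst_add, Bx, Wx, Bs, Wd, map_smul, Complex.coe_smul]

theorem q_t1 (p : P2) {u : J1 P2 ℂ} (hu : u.2 (1, 0) = 0) : t1 (qJ D j p u).2 = cE (D.c j) := by
  simp [qJ, Lm.gj, jet1, t1, fderiv_B, fderiv_W, LB, hu]

theorem q_t2 (p : P2) (u : J1 P2 ℂ) : t2 (qJ D j p u).2 =
    u.1 • cE (-Real.sin p.2 • D.a j + Real.cos p.2 • D.b j) +
      u.2 (0, 1) • cE (Real.cos p.2 • D.a j + Real.sin p.2 • D.b j) := by
  simp [qJ, Lm.gj, jet1, t2, fderiv_B, fderiv_W, LB, Wx, Wd]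

theorem cc : cE (D.c j) ⬝ᵥ cE (D.c j) = 1 := by
  rw [cE_dot, real_inner_self_eq_norm_sq, (D.cyl j).tri.nc]
  simp

theorem c_ab (x y : ℝ) : cE (D.c j) ⬝ᵥ cE (x • D.a j + y • D.b j) = 0 := by
  have T := (D.cyl j).tri
  simp only [cE_dot, inner_add_right, inner_smul_right, real_inner_comm (D.a j),
    real_inner_comm (D.b j), T.ac, T.bc]
  simp

theorem ab_ab (x y x' y' : ℝ) :
    cE (x • D.a j + y • D.b j) ⬝ᵥ cE (x' • D.a j + y' • D.b j) = ((x * x' + y * y' : ℝ) : ℂ) := by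
  have T := (D.cyl j).tri
  simp only [cE_dot, inner_add_right, inner_smul_right, inner_add_left, real_inner_smul_left,
    real_inner_self_eq_norm_sq, T.na, T.nb, real_inner_comm (D.a j) (D.b j), T.ab]
  congr 1
  ring

theorem q_neu (p : P2) {u : J1 P2 ℂ} (hu : u.2 (1, 0) = 0) : Neu (cE (D.c j)) (qJ D j p u) :=
  ⟨q_t1 D j p hu, by simp only [q_t2, dotProduct_add, dotProduct_smul, c_ab, smul_zero, add_zero]⟩

theorem q_gdet (p : P2) {u : J1 P2 ℂ} (hu : u.2 (1, 0) = 0) :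
    gdet (qJ D j p u).2 = u.1 ^ 2 + u.2 (0, 1) ^ 2 := by
  rw [gdet, (q_neu D j p hu).one, (q_neu D j p hu).two, cc, q_t2]
  simp only [add_dotProduct, dotProduct_add, smul_dotProduct, dotProduct_smul, ab_ab, smul_eq_mul]
  have h : (Real.sin p.2 : ℂ) ^ 2 + (Real.cos p.2 : ℂ) ^ 2 = 1 := by
    exact_mod_cast Real.sin_sq_add_cos_sq p.2
  simp only [Complex.ofReal_add, Complex.ofReal_mul, Complex.ofReal_neg]
  linear_combination (u.1 ^ 2 + u.2 (0, 1) ^ 2) * h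

theorem q_sq (p : P2) (u : J1 P2 ℂ) :
    (qJ D j p u).1 ⬝ᵥ (qJ D j p u).1 = (p.1 : ℂ) ^ 2 + u.1 ^ 2 := by
  rw [q_one]
  simp only [add_dotProduct, dotProduct_add, smul_dotProduct, dotProduct_smul, ab_ab, smul_eq_mul,
    cc, c_ab, dotProduct_comm _ (cE (D.c j))]
  have h : (Real.sin p.2 : ℂ) ^ 2 + (Real.cos p.2 : ℂ) ^ 2 = 1 := by
    exact_mod_cast Real.sin_sq_add_cos_sq p.2
  simp only [Complex.ofReal_add, Complex.ofReal_mul]
  linear_combination u.1 ^ 2 * h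

theorem q_lag (p : P2) {u : J1 P2 ℂ} (hu : u.2 (1, 0) = 0) : lag (qJ D j p u) =
    (Real.exp (-p.1 ^ 2 / 4) : ℝ) *
      (Complex.exp (-u.1 ^ 2 / 4) * Complex.sqrt (u.1 ^ 2 + u.2 (0, 1) ^ 2)) := by
  rw [lag, q_gdet D j p hu, q_sq, ← mul_assoc, Complex.ofReal_exp, ← Complex.exp_add]
  congr 2
  push_cast
  ring

theorem W_bound : ∃ M, 0 ≤ M ∧ ∀ p : P2, ‖jet1 (Wx D (.inl j)) p‖ ≤ M := by
  have key : ∀ x y : ℝ, |x| ≤ 1 → |y| ≤ 1 →
      ‖cE (x • D.a j + y • D.b j)‖ ≤ ‖cE (D.a j)‖ + ‖cE (D.b j)‖ := fun x y hx hy => by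
    rw [map_add, map_smul, map_smul]
    refine (norm_add_le _ _).trans (add_le_add ?_ ?_) <;>
    · rw [norm_smul]
      exact mul_le_of_le_one_left (norm_nonneg _) (by assumption)
  refine ⟨‖cE (D.a j)‖ + ‖cE (D.b j)‖, by positivity, fun p => max_le
    (key _ _ (Real.abs_cos_le_one _) (Real.abs_sin_le_one _)) ?_⟩
  show ‖fderiv ℝ (Wx D (.inl j)) p‖ ≤ _
  rw [fderiv_W]
  refine ContinuousLinearMap.opNorm_le_bound _ (by positivity) fun v => ?_
  rw [ContinuousLinearMap.smulRight_apply, norm_smul, mul_comm]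
  exact mul_le_mul (key _ _ (by simpa using Real.abs_sin_le_one _) (Real.abs_cos_le_one _))
    (norm_snd_le v) (norm_nonneg _) (by positivity)

/-- bounds of the one-jet extend to the tip circle -/
theorem jw1_le {e : P2 → ℂ} {s R C : ℝ} (hs : s < R) (he : ContDiffOn ℝ 2 e (Icc s R ×ˢ univ))
    (hb : ∀ p : P2, s < p.1 → p.1 < R → ‖jet1 e p‖ ≤ C) (θ : ℝ) :
    ‖jw1 (Icc s R ×ˢ univ) e (R, θ)‖ ≤ C := by
  have hu : UniqueDiffOn ℝ (Icc s R ×ˢ (univ : Set ℝ)) :=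
    (uniqueDiffOn_Icc hs).prod uniqueDiffOn_univ
  have hc : ContinuousOn (jw1 (Icc s R ×ˢ univ) e) (Icc s R ×ˢ univ) :=
    he.continuousOn.prodMk (he.continuousOn_fderivWithin hu (by norm_num))
  have hcl : ((R, θ) : P2) ∈ closure (Ioo s R ×ˢ (univ : Set ℝ)) := by
    rw [closure_prod_eq, closure_Ioo hs.ne, closure_univ]
    exact ⟨right_mem_Icc.2 hs.le, trivial⟩
  refine ContinuousWithinAt.closure_le hcl (f := fun p => ‖jw1 (Icc s R ×ˢ univ) e p‖)
    (g := fun _ => C) ((hc _ ⟨right_mem_Icc.2 hs.le, trivial⟩).mono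
      (prod_mono Ioo_subset_Icc_self subset_rfl)).norm continuousWithinAt_const fun p hp => ?_
  have hn : (Icc s R ×ˢ univ : Set P2) ∈ 𝓝 p :=
    prod_mem_nhds (Icc_mem_nhds hp.1.1 hp.1.2) univ_mem
  rw [jw1, fderivWithin_of_mem_nhds hn]
  exact hb p hp.1.1 hp.1.2

theorem jw1_two {e : P2 → ℂ} {s R : ℝ} (hs : s < R) (he : ContDiffOn ℝ 2 e (Icc s R ×ˢ univ))
    (θ : ℝ) : (jw1 (Icc s R ×ˢ univ) e (R, θ)).2 (0, 1) = deriv (fun t => e (R, t)) θ := by
  have h1 := (he.differentiableOn (by norm_num) (R, θ)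
    ⟨right_mem_Icc.2 hs.le, trivial⟩).hasFDerivWithinAt
  have h2 : HasDerivAt (fun t : ℝ => ((R, t) : P2)) (0, 1) θ :=
    (hasDerivAt_const θ R).prodMk (hasDerivAt_id θ)
  have h3 := h1.comp_hasDerivWithinAt (s := univ) θ h2.hasDerivWithinAt
    fun t _ => ⟨right_mem_Icc.2 hs.le, trivial⟩
  exact (hasDerivWithinAt_univ.1 h3).deriv.symm

end ETip

theorem cylTip_proof : CylTip := by
  intro S F hF H hH j
  obtain ⟨B, hB⟩ := Cy.rotFam_Orot F.D j
  obtain ⟨M, M0, hM⟩ := ETip.W_bound F.D j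
  have hc := hH.cyl j
  obtain ⟨C1, hC1⟩ := tau_bound hB (‖cE (F.D.c j)‖ + ‖ETip.LB F.D j‖ + 2 * (|H.C| * M))
  refine ⟨max C1 H.C, fun R hR g hg c hcm => ?_⟩
  have z0 : 0 ≤ F.z₀ := by nlinarith [hF.z_big, F.D.big, F.D.δpos, F.D.δle]
  have hs : F.z₀ + 11 < R := by linarith [hc.big]
  have c2 := hc.fc2 R hR g hg c hcm
  have ne : ∀ θ, (jw1 (Icc (F.z₀ + 11) R ×ˢ univ) (H.e j R g c) (R, θ)).2 (1, 0) = 0 :=
    hc.neu R hR g hg c hcm
  refine ⟨fun β hβ => (hC1 (cE (F.D.c j)) β R _ (ETip.cc F.D j) (by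
      have := abs_nonneg H.C
      linarith [norm_nonneg (ETip.LB F.D j), mul_nonneg this M0]) hβ fun θ => ?_).trans
    (mul_le_mul_of_nonneg_right (le_max_left _ _) (Real.exp_pos _).le), ?_⟩
  · obtain ⟨M', η, ε, η0, ε0, h4⟩ := hc.x4 R hR g hg c hcm
    have h5 := ((h4 R hR (by simpa using ε0) g hg (by simpa using ε0) c hcm (by simpa using ε0)).1
      (R, θ) ⟨right_mem_Icc.2 hs.le, trivial⟩).2
    have h6 := (ETip.jw1_le hs c2 (fun p h1 h2 => (hc.feq R hR g hg c hcm p h1 h2).2.2) θ).trans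
      (le_abs_self _)
    obtain ⟨h7, h8⟩ := Lm.norm_gj_le (B := jet1 (Bx F.D (.inl j)) (R, θ))
      (le_of_eq (congrArg norm (ETip.fderiv_B F.D j _))) (hM (R, θ)) h6
    have h0 := (norm_nonneg _).trans h7
    refine ⟨Or.inl ?_, ETip.q_neu F.D j _ (ne θ), ?_, ?_,
      h8.trans (by linarith [norm_nonneg (cE (F.D.c j))])⟩
    · have e := ETip.q_gdet F.D j (R, θ) (ne θ)
      rw [gC, ne θ] at h5
      refine (η0.trans_le h5).trans_eq (congrArg Complex.re ?_)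
      refine Eq.trans ?_ e.symm
      ring
    · refine (congrArg _ (ETip.q_one F.D j _ _)).trans ?_
      simp only [dotProduct_add, dotProduct_smul, ETip.cc, ETip.c_ab, mul_zero, add_zero,
        smul_eq_mul, mul_one]
    · refine le_trans (le_of_eq ?_) (h7.trans
        (by linarith [norm_nonneg (cE (F.D.c j)), norm_nonneg (ETip.LB F.D j)]))
      refine congrArg norm ((congrArg (· - _) (ETip.q_one F.D j _ _)).trans ?_)
      exact add_sub_cancel_left _ _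
  · have e : mainE H j R g c = (Real.exp (-R ^ 2 / 4) : ℝ) * ∫ θ in (0 : ℝ)..2 * π,
        Complex.exp (-H.e j R g c (R, θ) ^ 2 / 4) * Complex.sqrt (H.e j R g c (R, θ) ^ 2 +
          deriv (fun t => H.e j R g c (R, t)) θ ^ 2) := by
      rw [mainE, ← intervalIntegral.integral_const_mul]
      refine intervalIntegral.integral_congr fun θ _ => ?_
      refine (ETip.q_lag F.D j (R, θ) (ne θ)).trans ?_
      rw [ETip.jw1_two hs c2]
      rfl
    rw [e, ← mul_sub, norm_mul, Complex.norm_real, Real.norm_of_nonneg (Real.exp_pos _).le]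
    refine (mul_le_mul_of_nonneg_left (hc.x5 R hR g hg c hcm) (Real.exp_pos _).le).trans ?_
    have R0 : 0 ≤ R := by linarith
    calc _ = H.C * (Real.exp (-R ^ 2 / 4) * R ^ (-2 - 3 / 5 : ℝ) *
          ‖H.Y R c‖ ^ (-(1 / 2) : ℝ)) := by ring
      _ ≤ max C1 H.C * (Real.exp (-R ^ 2 / 4) * R ^ (-2 - 3 / 5 : ℝ) *
          ‖H.Y R c‖ ^ (-(1 / 2) : ℝ)) :=
        mul_le_mul_of_nonneg_right (le_max_right _ _) (by positivity)
      _ = _ := by ring

end Vale.Agent.P218F.LS
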