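import Vale.Agent.P218F.InjLin
import Vale.Agent.P218F.CoreOp
import Vale.Agent.P218F.CorePar

/-!
# The linearisation of the Euler-Lagrange operator, and extensions of functions on a surface
-/

open Filter Topology Matrix Set
open scoped ContDiff RealInnerProductSpace Manifold

set_option linter.unusedSectionVars false
set_option maxSynthPendingDepth 3

noncomputable section

namespace Vale.Agent.P218F.Inj

open Vale.Agent.P218F.Core Vale.Agent.P218F.Core.OpP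
open Vale.Agent.P218FT hiding P2

section param

variable {E : Type} [NormedAddCommGroup E] [NormedSpace ℝ E] [NormedSpace ℂ E]
  [IsScalarTower ℝ ℂ E]

theorem swap {F V : Type} [NormedAddCommGroup F] [NormedSpace ℝ F] [NormedAddCommGroup V]
    [NormedSpace ℝ V] {H : F → V} {p : F} (hH : ContDiffAt ℝ 2 H p) (e e' : F) :
    fderiv ℝ (fun q => fderiv ℝ H q e') p e = fderiv ℝ (fun q => fderiv ℝ H q e) p e' := by
  rw [fderiv_apply hH, fderiv_apply hH]
  exact jet2_symm hH e e'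

/-- jets of a family of maps, along a line in the space of parameters -/
theorem hasJetDeriv_param {H : E × P2 → C3} {y : P2} (hH : ContDiffAt ℝ (3 : ℕ) H (0, y)) (a : E) :
    HasJetDeriv (fun t : ℝ => jet2 (fun z => H (t • a, z)) y)
      (jet2 (fun z => fderiv ℝ H (0, z) (a, 0)) y) 0 := by
  have h2 := OpP.ev_two hH
  have l : ∀ {G : E × P2 → C3}, DifferentiableAt ℝ G (0, y) →
      HasDerivAt (fun t : ℝ => G (t • a, y)) (fderiv ℝ G (0, y) (a, 0)) 0 := fun hG => by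
    simpa using hasDerivAt_line hG (a, 0)
  have ev : ∀ᶠ t : ℝ in 𝓝 0, ContDiffAt ℝ 2 H (t • a, y) := by
    simpa using (tendsto_line ((0 : E), y) (a, 0)).eventually h2
  have k : ContDiffAt ℝ 2 (fun q => fderiv ℝ H q (a, 0)) (0, y) := contDiffAt_apply (n := 2) hH _
  have g : ∀ v, ContDiffAt ℝ 2 (dz v H) (0, y) := fun v => cd_dz (m := 2) hH le_rfl v
  refine ⟨l (h2.self_of_nhds.differentiableAt (by simp)), fun u => ?_, fun u v => ?_⟩
  · refine ((l ((g u).differentiableAt (by simp))).congr_of_eventuallyEq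
      (ev.mono fun t ht => (jet_slice ht u u).1)).congr_deriv ?_
    rw [(jet_slice k u u).1]
    exact swap h2.self_of_nhds _ _
  · refine ((l ((cd_dz (m := 1) (n := 2) (g v) le_rfl u).differentiableAt
      (by simp))).congr_of_eventuallyEq (ev.mono fun t ht => (jet_slice ht u v).2)).congr_deriv ?_
    rw [(jet_slice k u v).2]
    have e : (fun q => fderiv ℝ (dz v H) q (a, 0)) =ᶠ[𝓝 (0, y)]
        dz v fun q => fderiv ℝ H q (a, 0) := h2.mono fun q hq => swap hq _ _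
    exact (swap (g v) _ _).trans (congrArg (fun L : E × P2 →L[ℝ] C3 => L (0, u)) e.fderiv_eq)

end param

theorem HasJetDeriv.add_smul {A B : ℝ → J2 P2 C3} {A' B' : J2 P2 C3} (hA : HasJetDeriv A A' 0)
    (hB : HasJetDeriv B B' 0) (q : J2 P2 ℂ) :
    HasJetDeriv (fun t => A t + (t • q).smul (B t)) (A' + q.smul (B 0)) 0 := by
  have k : ∀ {f : ℝ → C3} {f' : C3} (c : ℂ), HasDerivAt f f' 0 →
      HasDerivAt (fun t : ℝ => (t • c) • f t) (c • f 0) 0 := fun c hf => by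
    simpa using ((hasDerivAt_id (0 : ℝ)).smul_const c).fun_smul hf
  exact ⟨hA.d0.add (k _ hB.d0), fun u => (hA.d1 u).add ((k _ (hB.d1 u)).add (k _ hB.d0)),
    fun u v => (hA.d2 u v).add ((((k _ (hB.d2 u v)).add (k _ (hB.d1 v))).add
      (k _ (hB.d1 u))).add (k _ hB.d0))⟩

theorem fderiv_eq_of_line {X : Type} [NormedAddCommGroup X] [NormedSpace ℝ X] [NormedSpace ℂ X]
    [IsScalarTower ℝ ℂ X] {f : X → ℂ} {x v : X} (hf : DifferentiableAt ℂ f x) {c : ℂ}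
    (h : HasDerivAt (fun t : ℝ => f (x + t • v)) c 0) : fderiv ℂ f x v = c := by
  have a := hasDerivAt_line (hf.restrictScalars ℝ) v
  rw [hf.fderiv_restrictScalars ℝ] at a
  exact a.unique h

/-- **the linearisation of the Euler-Lagrange operator** -/
theorem lin_elOp {ι : Type} [Fintype ι] {P W : (ι → ℂ) → E3 → C3} (F : ι → E3 → ℝ) {φ : P2 → E3}
    {y : P2} (jP : ContDiffAt ℝ (3 : ℕ) (fun v : (ι → ℂ) × P2 => P v.1 (φ v.2)) (0, y))
    (jW : ContDiffAt ℝ (3 : ℕ) (fun v : (ι → ℂ) × P2 => W v.1 (φ v.2)) (0, y))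
    (hP : ∀ᶠ q in 𝓝 (0, y), HolAt (fun v : (ι → ℂ) × P2 => P v.1 (φ v.2)) q)
    (hW : ∀ᶠ q in 𝓝 (0, y), HolAt (fun v : (ι → ℂ) × P2 => W v.1 (φ v.2)) q)
    (P0 : ∀ x, P 0 x = cE x) (g0 : 0 < (gdet (jet2 (fun z => cE (φ z)) y).2.1).re)
    (h0 : num (jet2 (fun z => cE (φ z)) y) = 0)
    (ht : W 0 (φ y) ⬝ᵥ nor (jet2 (fun z => cE (φ z)) y).2.1 ≠ 0) (a : ι → ℂ) (q : J2 P2 ℂ) :
    lin (elOp P W F) φ y (a, q) =
      W 0 (φ y) ⬝ᵥ nor (jet2 (fun z => cE (φ z)) y).2.1 / gdet (jet2 (fun z => cE (φ z)) y).2.1 *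
        dnum (jet2 (fun z => cE (φ z)) y)
          (jet2 (fun z => fderiv ℝ (fun v : (ι → ℂ) × P2 => P v.1 (φ v.2)) (0, z) (a, 0)) y +
            q.smul (jet2 (fun z => W 0 (φ z)) y)) - ∑ i, a i * F i (φ y) := by
  set A := jet2 (fun z => cE (φ z)) y with hA
  have c := cl_diff (0 : (ι → ℂ) × J2 P2 ℂ)
  have dB := dj_diff (a := fun v : (ι → ℂ) × J2 P2 ℂ => v.1) (x₀ := 0) jW hW differentiableAt_fst
  have dQ := c.jet (dj_diff (a := fun v : (ι → ℂ) × J2 P2 ℂ => v.1) (x₀ := 0) jP hP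
    differentiableAt_fst) dB (ds_diff (q := fun v : (ι → ℂ) × J2 P2 ℂ => v.2) differentiableAt_snd)
  change DJ _ fun v : (ι → ℂ) × J2 P2 ℂ => surJ P W v.1 φ y v.2 at dQ
  have dW : DV (fun f => DifferentiableAt ℂ f 0) fun v : (ι → ℂ) × J2 P2 ℂ => W v.1 (φ y) := dB.1
  have q0 : surJ P W 0 φ y 0 = A := by simp only [surJ, smul_zero_jet, add_zero, P0, hA]
  have g1 : gdet A.2.1 ≠ 0 := fun h => by simp [h] at g0
  have g2 := lag_ne (q := A.one) g0
  have d1 : DifferentiableAt ℂ (fun v : (ι → ℂ) × J2 P2 ℂ =>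
      (W v.1 (φ y) ⬝ᵥ nor (surJ P W v.1 φ y v.2).2.1) ^ 2 / gdet (surJ P W v.1 φ y v.2).2.1 *
        (lag (surJ P W v.1 φ y v.2).one / lag A.one)) 0 :=
    (c.div (c.sq (c.dot dW (c.nor dQ))) (c.gdet dQ) (q0.symm ▸ g1)).mul
      (c.div (c.lag dQ (q0.symm ▸ g0)) (differentiableAt_const _) g2)
  have d2 : DifferentiableAt ℂ (fun v : (ι → ℂ) × J2 P2 ℂ =>
      shr (surJ P W v.1 φ y v.2) (W v.1 (φ y))) 0 := c.shr dQ dW (q0.symm ▸ g1) (q0.symm ▸ ht)
  have d3 : HasFDerivAt (fun v : (ι → ℂ) × J2 P2 ℂ => ∑ i, v.1 i * (F i (φ y) : ℂ)) _ 0 :=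
    HasFDerivAt.fun_sum fun i _ => (((ContinuousLinearMap.proj i).comp
      (ContinuousLinearMap.fst ℂ (ι → ℂ) (J2 P2 ℂ))).hasFDerivAt).mul_const (F i (φ y) : ℂ)
  have j := (hasJetDeriv_param jP a).add_smul (hasJetDeriv_param jW a) q
  have j0 : jet2 (fun z => P ((0 : ℝ) • a) (φ z)) y +
      ((0 : ℝ) • q).smul (jet2 (fun z => W ((0 : ℝ) • a) (φ z)) y) = A := by
    rw [zero_smul, zero_smul]; exact q0
  have k := j.shr (by rw [j0]; exact g1) (by rw [j0]; exact h0) (hasJetDeriv_param jW a).d0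
    (by rw [j0]; simpa [jet2] using ht)
  rw [j0] at k
  simp only [zero_smul] at k
  have e := fderiv_eq_of_line (v := (a, q)) d2 (by simp only [zero_add]; exact k)
  have f := ((d1.hasFDerivAt.mul d2.hasFDerivAt).sub d3).fderiv
  have f' : lin (elOp P W F) φ y = _ := f
  have s0 : shr A (W 0 (φ y)) = 0 := by rw [shr_eq, h0, zero_div]
  rw [f']
  simp only [_root_.sub_apply, _root_.add_apply, _root_.smul_apply, e, Prod.fst_zero, Prod.snd_zero,
    q0, s0, zero_smul, smul_eq_mul, div_self g2, _root_.zero_apply, _root_.sum_apply,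
    ContinuousLinearMap.comp_apply, ContinuousLinearMap.proj_apply, ContinuousLinearMap.coe_fst',
    mul_comm (a _)]
  rw [show (jet2 (fun z => W 0 (φ z)) y).1 = W 0 (φ y) from rfl]
  field_simp
  ring

/-- the linearisation of the operator of a graph -/
theorem fderiv_graph (A B : J2 P2 C3) (W : C3) (q₀ q : J2 P2 ℂ)
    (hg : gdet (A + q₀.smul B).2.1 ≠ 0) (h0 : num (A + q₀.smul B) = 0)
    (ht : W ⬝ᵥ nor (A + q₀.smul B).2.1 ≠ 0) :
    fderiv ℂ (fun p : J2 P2 ℂ => shr (A + p.smul B) W) q₀ q =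
      dnum (A + q₀.smul B) (q.smul B) / (W ⬝ᵥ nor (A + q₀.smul B).2.1) := by
  have c := cl_diff q₀
  have d : DifferentiableAt ℂ (fun p : J2 P2 ℂ => shr (A + p.smul B) W) q₀ :=
    c.shr (c.jet (dj_const q₀ A) (dj_const q₀ B) (ds_diff (q := fun p => p) differentiableAt_id))
      (W := fun _ => W) (fun _ => differentiableAt_const _) hg ht
  have c0 : ∀ Q : J2 P2 C3, HasJetDeriv (fun _ : ℝ => Q) 0 0 := fun Q =>
    ⟨hasDerivAt_const _ _, fun _ => hasDerivAt_const _ _, fun _ _ => hasDerivAt_const _ _⟩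
  have j := (c0 (A + q₀.smul B)).add_smul (c0 B) q
  have j0 : A + q₀.smul B + ((0 : ℝ) • q).smul B = A + q₀.smul B := by
    rw [zero_smul, smul_zero_jet, add_zero]
  have k := j.shr (by rw [j0]; exact hg) (by rw [j0]; exact h0) (hasDerivAt_const (0 : ℝ) W)
    (by rw [j0]; exact ht)
  rw [j0, zero_add] at k
  refine fderiv_eq_of_line d (k.congr_of_eventuallyEq (Eventually.of_forall fun t => ?_))
  have : (q₀ + t • q).smul B = q₀.smul B + (t • q).smul B := by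
    refine Prod.ext (add_smul _ _ _) (Prod.ext ?_ ?_)
    · exact ContinuousLinearMap.ext fun u => by
        simp only [J2.smul_one, Prod.fst_add, Prod.snd_add, _root_.add_apply, add_smul]; abel
    · exact ContinuousLinearMap.ext fun u => ContinuousLinearMap.ext fun v => by
        simp only [J2.smul_two, Prod.fst_add, Prod.snd_add, _root_.add_apply, add_smul]; abel
  simp only [this, add_assoc]

/-! ### Orthogonal maps -/

/-- an orthogonal map, which multiplies the orientation by `ε` -/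
structure IsOr (O : C3 →L[ℝ] C3) (ε : ℂ) : Prop where
  dot : ∀ x y, O x ⬝ᵥ O y = x ⬝ᵥ y
  cross : ∀ x y z, O x ⬝ᵥ (O y ⨯₃ O z) = ε * (x ⬝ᵥ (y ⨯₃ z))

theorem IsOr.num {O : C3 →L[ℝ] C3} {ε : ℂ} (h : IsOr O ε) (q : J2 P2 C3) :
    num (q.map O) = ε * num q := by
  simp only [Inj.num, gtr, gdet, nor, t1, t2, J2.map, ContinuousLinearMap.comp_apply,
    ContinuousLinearMap.compL_apply, h.dot, h.cross]
  ring

theorem IsOr.dnum {O : C3 →L[ℝ] C3} {ε : ℂ} (h : IsOr O ε) (q p : J2 P2 C3) :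
    dnum (q.map O) (p.map O) = ε * dnum q p := by
  simp only [Inj.dnum, dgtr, dgdet, dnor, gtr, gdet, nor, t1, t2, J2.map, dotProduct_add,
    ContinuousLinearMap.comp_apply, ContinuousLinearMap.compL_apply, h.dot, h.cross]
  ring

theorem IsOr.gdet {O : C3 →L[ℝ] C3} {ε : ℂ} (h : IsOr O ε) (D : P2 →L[ℝ] C3) :
    gdet (O.comp D) = gdet D := by
  simp only [Core.gdet, t1, t2, ContinuousLinearMap.comp_apply, h.dot]

theorem IsOr.nor {O : C3 →L[ℝ] C3} {ε : ℂ} (h : IsOr O ε) (W : C3) (D : P2 →L[ℝ] C3) :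
    O W ⬝ᵥ nor (O.comp D) = ε * (W ⬝ᵥ nor D) := h.cross _ _ _

/-- the map with columns `a`, `b`, `c` -/
def frame (a b c : E3) : C3 →L[ℝ] C3 :=
  ((ContinuousLinearMap.proj 0 : C3 →L[ℂ] ℂ).smulRight (cE a) +
    (ContinuousLinearMap.proj 1 : C3 →L[ℂ] ℂ).smulRight (cE b) +
    (ContinuousLinearMap.proj 2 : C3 →L[ℂ] ℂ).smulRight (cE c)).restrictScalars ℝ

theorem frame_apply (a b c : E3) (x : C3) :
    frame a b c x = x 0 • cE a + x 1 • cE b + x 2 • cE c := rfl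

theorem isOr_frame {a b c : E3} (h : Triple a b c) :
    IsOr (frame a b c) (cE a ⬝ᵥ (cE b ⨯₃ cE c)) ∧ cE a ⬝ᵥ (cE b ⨯₃ cE c) ≠ 0 := by
  have aa : cE a ⬝ᵥ cE a = 1 := by rw [cE_dot, real_inner_self_eq_norm_sq, h.na]; simp
  have bb : cE b ⬝ᵥ cE b = 1 := by rw [cE_dot, real_inner_self_eq_norm_sq, h.nb]; simp
  have cc : cE c ⬝ᵥ cE c = 1 := by rw [cE_dot, real_inner_self_eq_norm_sq, h.nc]; simp
  have ab : cE a ⬝ᵥ cE b = 0 := by rw [cE_dot, h.ab]; simp
  have ac : cE a ⬝ᵥ cE c = 0 := by rw [cE_dot, h.ac]; simp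
  have bc : cE b ⬝ᵥ cE c = 0 := by rw [cE_dot, h.bc]; simp
  refine ⟨⟨fun x y => ?_, fun x y z => ?_⟩, fun h0 => ?_⟩
  · simp only [frame_apply, add_dotProduct, dotProduct_add, smul_dotProduct, dotProduct_smul, aa,
      bb, cc, ab, ac, bc, dotProduct_comm (cE b) (cE a), dotProduct_comm (cE c) (cE a),
      dotProduct_comm (cE c) (cE b), smul_eq_mul]
    simp [dotProduct, Fin.sum_univ_three]
    ring
  · simp only [frame_apply]
    generalize cE a = A, cE b = B, cE c = C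
    simp [dotProduct, Fin.sum_univ_three, cross_apply]
    ring
  · have := expand_dot (cE a) (cE a) (cE b) (cE c)
    rw [aa, bb, cc, ab, ac, bc, h0] at this
    simp at this

/-! ### Functions on a surface -/

variable {S : Set E3}

theorem _root_.Vale.Agent.P218F.Core.Par.ch {φ : P2 → E3} {y : P2} (h : Par S φ y) : Ch S φ y :=
  ⟨par_cd (n := 3) h, by
    rw [fderiv_cE h.differentiableAt]; exact gdet_ne_of_inj h.inj, h.mem⟩

theorem _root_.Vale.Agent.P218F.Core.Par.comp_within {F : Type} [NormedAddCommGroup F]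
    [NormedSpace ℝ F] {φ : P2 → E3} {y : P2} (h : Par S φ y) {u : E3 → F}
    (hu : ContDiffWithinAt ℝ 2 u S (φ y)) : ContDiffAt ℝ 2 (fun z => u (φ z)) y :=
  (hu.comp y (h.contDiffAt.of_le two_le_inf).contDiffWithinAt
    (fun _ hz => hz : MapsTo φ {z | φ z ∈ S} S)).contDiffAt h.mem

/-- functions which are smooth in charts extend -/
theorem exists_ext (hS : IsSurf S) {F : Type} [NormedAddCommGroup F] [NormedSpace ℝ F] {n : ℕ∞}
    {u : E3 → F} (hu : ∀ x ∈ S, ∃ φ y, Par S φ y ∧ φ y = x ∧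
      ∀ᶠ z in 𝓝 y, ContDiffAt ℝ n (fun t => u (φ t)) z) :
    ∃ f : E3 → F, ContDiff ℝ n f ∧ ∀ x ∈ S, f x = u x := by
  obtain ⟨f, hf⟩ := exists_contMDiffMap_forall_mem_convex_of_local (n := n) 𝓘(ℝ, E3) (M := E3)
    (F := F) (t := fun y => {c | y ∈ S → c = u y})
    (fun y => by
      by_cases hy : y ∈ S
      · simp [hy]
      · simpa [hy] using convex_univ)
    (fun x => by
      by_cases hx : x ∈ S
      · obtain ⟨φ, y, h, rfl, h1⟩ := hu x hx
        obtain ⟨ψ, k1, k2, k3⟩ := h.exists_inv hS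
        have t : Tendsto ψ (𝓝 (φ y)) (𝓝 y) := by
          have := k1.self_of_nhds.continuousAt.tendsto
          rwa [k2.self_of_nhds] at this
        refine ⟨_, (k1.and k3).and (t.eventually h1), fun x => u (φ (ψ x)),
          ContDiffOn.contMDiffOn fun x hx => ?_, fun z hz h4 => congrArg u (hz.1.2 h4)⟩
        exact (hx.2.comp x (hx.1.1.of_le (by exact_mod_cast le_top))).contDiffWithinAt
      · exact ⟨Sᶜ, hS.1.isOpen_compl.mem_nhds hx, fun _ => 0, contMDiffOn_const,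
          fun z hz h4 => absurd h4 hz⟩)
  exact ⟨f, f.contMDiff.contDiff, hf⟩

/-- the Jacobi operator only depends on the values on the surface -/
theorem jacS_congr (hS : IsShr S) {f g : E3 → ℝ} {x : E3} (hx : x ∈ S) (hf : ContDiffAt ℝ 2 f x)
    (hg : ContDiffAt ℝ 2 g x) (h : ∀ᶠ y in 𝓝[S] x, f y = g y) : jacS S f x = jacS S g x := by
  obtain ⟨φ, y, k, rfl⟩ := exists_par hS.1 hx
  have e : (fun z => ((f (φ z) : ℝ) : ℂ)) =ᶠ[𝓝 y] fun z => ((g (φ z) : ℝ) : ℂ) :=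
    (k.tendsto.eventually h).mono fun z hz => by simp only [hz]
  have a := k.ch.drift hS hf
  rw [jet2_congr e, k.ch.drift hS hg, Complex.ofReal_inj] at a
  rw [jacS, jacS, a, Complex.ofReal_injective e.self_of_nhds]

theorem nor_dot (hS : IsShr S) {φ : P2 → E3} {y : P2} (h : Ch S φ y) {w : E3 → ℝ}
    (hw : IsEqn S (φ y) w) (v : E3) : cE v ⬝ᵥ nor (fderiv ℝ (fun z => cE (φ z)) y) =
      (cE (nuw w (φ y)) ⬝ᵥ nor (fderiv ℝ (fun z => cE (φ z)) y)) * (⟪v, nuw w (φ y)⟫ : ℝ) := by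
  have hN := h.nor hS hw
  rw [(nor_eq h.imm hN.unit.self_of_nhds hN.orth.self_of_nhds).2, cE_dot]

/-- **the linearised Euler-Lagrange operator is the Jacobi operator of the normal component** -/
theorem lin_jac (hS : IsShr S) {ι : Type} [Fintype ι] {P W : (ι → ℂ) → E3 → C3} (F : ι → E3 → ℝ)
    {φ : P2 → E3} {y : P2} (h : Par S φ y) {w : E3 → ℝ} (hw : IsEqn S (φ y) w)
    (jP : ContDiffAt ℝ (3 : ℕ) (fun v : (ι → ℂ) × P2 => P v.1 (φ v.2)) (0, y))
    (jW : ContDiffAt ℝ (3 : ℕ) (fun v : (ι → ℂ) × P2 => W v.1 (φ v.2)) (0, y))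
    (hP : ∀ᶠ q in 𝓝 (0, y), HolAt (fun v : (ι → ℂ) × P2 => P v.1 (φ v.2)) q)
    (hW : ∀ᶠ q in 𝓝 (0, y), HolAt (fun v : (ι → ℂ) × P2 => W v.1 (φ v.2)) q)
    (P0 : ∀ x, P 0 x = cE x) {V : E3 → E3} (W0 : ∀ x, W 0 x = cE (V x))
    (ht : ⟪V (φ y), nuw w (φ y)⟫ ≠ 0) (a : ι → ℂ) {U : P2 → ℂ} (hU : ContDiffAt ℝ 2 U y)
    {f g : E3 → ℝ} (hf : ContDiffAt ℝ 2 f (φ y)) (hg : ContDiffAt ℝ 2 g (φ y))
    (e : ∀ᶠ z in 𝓝 y, (fderiv ℝ (fun v : (ι → ℂ) × P2 => P v.1 (φ v.2)) (0, z) (a, 0) +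
      U z • cE (V (φ z))) ⬝ᵥ cE (nuw w (φ z)) = (f (φ z) : ℝ) + Complex.I * (g (φ z) : ℝ)) :
    lin (elOp P W F) φ y (a, jet2 U y) = (⟪V (φ y), nuw w (φ y)⟫ : ℝ) *
      ((jacS S f (φ y) : ℝ) + Complex.I * (jacS S g (φ y) : ℝ)) - ∑ i, a i * F i (φ y) := by
  have hN := h.ch.nor hS hw
  have n0 := hN.nor_ne
  have n1 := (nor_eq h.ch.imm hN.unit.self_of_nhds hN.orth.self_of_nhds).1
  have n2 := nor_dot hS h.ch hw (V (φ y))
  have c1 : ContDiffAt ℝ 2
      (fun z => fderiv ℝ (fun v : (ι → ℂ) × P2 => P v.1 (φ v.2)) (0, z) (a, 0)) y :=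
    cd_slice (p := (0, y)) (contDiffAt_apply (n := 2) jP (a, 0))
  have c2 : ContDiffAt ℝ 2 (fun z => W 0 (φ z)) y := (cd_slice jW).of_le (by norm_num)
  have k := lin_elOp F jP jW hP hW P0 (gdet_pos h) (h.ch.num_zero hS) (by
    rw [W0]
    exact n2 ▸ mul_ne_zero n0 (Complex.ofReal_ne_zero.2 ht)) a (jet2 U y)
  have c3 : ContDiffAt ℝ 2 (fun z => U z • W 0 (φ z)) y := hU.smul c2
  rw [← jet2_smul hU c2, ← jet2_add c1 c3,
    h.ch.dnum_eq hS hw (c1.add c3) hf hg (by simpa only [W0] using e), W0] at k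
  rw [k]
  change cE (V (φ y)) ⬝ᵥ nor (fderiv ℝ (fun z => cE (φ z)) y) /
    gdet (fderiv ℝ (fun z => cE (φ z)) y) * _ - _ = _
  rw [n2, ← n1]
  field_simp

end Vale.Agent.P218F.Inj
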