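import Vale.Agent.P218F.LSSpec
import Vale.Agent.P218F.ConeTri
import Vale.Agent.P218F.CoreOp
import Vale.Agent.P218F.CoreHol

/-! Holomorphic families of triples as families of end solutions. -/

open Set Filter Topology Metric Matrix
open scoped ContDiff Real

set_option maxSynthPendingDepth 3

noncomputable section

namespace Vale.Agent.P218F.LS.Fam

open Vale.Agent.P218F.Core Vale.Agent.P218F.Wien
open Vale.Agent.P218F.Cone (T3 fn fn1 fn2 vT vYT vTT IsTri lin2 BC)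

/-! ### Jets as continuous linear maps -/

theorem norm_J2_le {V : Type} [NormedAddCommGroup V] [NormedSpace ℝ V] {q : J2 P2 V} {c : ℝ}
    (hc : 0 ≤ c) (h0 : ‖q.1‖ ≤ c) (h1 : ∀ u, ‖q.2.1 u‖ ≤ c * ‖u‖)
    (h2 : ∀ u v, ‖q.2.2 u v‖ ≤ c * ‖u‖ * ‖v‖) : ‖q‖ ≤ c :=
  norm_prod_le_iff.2 ⟨h0, norm_prod_le_iff.2 ⟨ContinuousLinearMap.opNorm_le_bound _ hc h1,
    ContinuousLinearMap.opNorm_le_bound₂ _ hc h2⟩⟩

theorem J2_le {V : Type} [NormedAddCommGroup V] [NormedSpace ℝ V] (q : J2 P2 V) :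
    ‖q.1‖ ≤ ‖q‖ ∧ (∀ u, ‖q.2.1 u‖ ≤ ‖q‖ * ‖u‖) ∧ ∀ u v, ‖q.2.2 u v‖ ≤ ‖q‖ * ‖u‖ * ‖v‖ := by
  have h1 : ‖q.2.1‖ ≤ ‖q‖ := (norm_fst_le q.2).trans (norm_snd_le q)
  have h2 : ‖q.2.2‖ ≤ ‖q‖ := (norm_snd_le q.2).trans (norm_snd_le q)
  refine ⟨norm_fst_le q, fun u => q.2.1.le_of_opNorm_le h1 u, fun u v => ?_⟩
  exact (q.2.2.le_opNorm₂ u v).trans (by gcongr)

theorem norm_one_le {V : Type} [NormedAddCommGroup V] [NormedSpace ℝ V] (q : J2 P2 V) :
    ‖q.one‖ ≤ ‖q‖ :=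
  norm_prod_le_iff.2 ⟨norm_fst_le q, (norm_fst_le q.2).trans (norm_snd_le q)⟩

theorem norm_smulJ_le {V : Type} [NormedAddCommGroup V] [NormedSpace ℂ V] (a : J2 P2 ℂ)
    (q : J2 P2 V) : ‖a.smul q‖ ≤ 4 * ‖a‖ * ‖q‖ := by
  obtain ⟨a0, a1, a2⟩ := J2_le a
  obtain ⟨q0, q1, q2⟩ := J2_le q
  have ha := norm_nonneg a
  have hq := norm_nonneg q
  have k : ∀ (c : ℂ) (x : V) (s t : ℝ), ‖c‖ ≤ s → ‖x‖ ≤ t → ‖c • x‖ ≤ s * t := fun c x s t h1 h2 =>
    (norm_smul c x).le.trans (mul_le_mul h1 h2 (norm_nonneg _) ((norm_nonneg _).trans h1))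
  refine norm_J2_le (by positivity) ?_ (fun u => ?_) fun u v => ?_
  · rw [J2.smul_fst]
    nlinarith [k _ _ _ _ a0 q0, mul_nonneg ha hq]
  · rw [J2.smul_one]
    refine (norm_add_le _ _).trans ?_
    nlinarith [k _ _ _ _ a0 (q1 u), k _ _ _ _ (a1 u) q0,
      mul_nonneg (mul_nonneg ha hq) (norm_nonneg u)]
  · rw [J2.smul_two]
    refine (norm_add_le _ _).trans ((add_le_add_left (norm_add₃_le) _).trans ?_)
    nlinarith [k _ _ _ _ a0 (q2 u v), k _ _ _ _ (a1 u) (q1 v), k _ _ _ _ (a1 v) (q1 u),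
      k _ _ _ _ (a2 u v) q0]

theorem J2_ext {V : Type} [NormedAddCommGroup V] [NormedSpace ℝ V] {q q' : J2 P2 V}
    (h0 : q.1 = q'.1) (h1 : ∀ u, q.2.1 u = q'.2.1 u) (h2 : ∀ u v, q.2.2 u v = q'.2.2 u v) :
    q = q' :=
  Prod.ext h0 (Prod.ext (ContinuousLinearMap.ext h1)
    (ContinuousLinearMap.ext fun u => ContinuousLinearMap.ext (h2 u)))

/-- multiplication of scalar jets with a fixed jet -/
def mulJ (a : J2 P2 ℂ) : J2 P2 ℂ →L[ℂ] J2 P2 ℂ :=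
  LinearMap.mkContinuous
    { toFun := fun q => a.smul q
      map_add' := fun q q' => J2_ext (by simp [J2.smul_fst, mul_add])
        (fun u => by simp [J2.smul_one]; ring) fun u v => by simp [J2.smul_two]; ring
      map_smul' := fun c q => J2_ext (by simp [J2.smul_fst]; ring)
        (fun u => by simp [J2.smul_one]; ring) fun u v => by simp [J2.smul_two]; ring }
    (4 * ‖a‖) fun q => norm_smulJ_le a q

theorem mulJ_apply (a q : J2 P2 ℂ) : mulJ a q = a.smul q := rfl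

theorem norm_lin2_le {V : Type} [NormedAddCommGroup V] [NormedSpace ℝ V] {x y : V} {c : ℝ}
    (hx : ‖x‖ ≤ c) (hy : ‖y‖ ≤ c) : ‖lin2 (x, y)‖ ≤ 2 * c := by
  have hc := (norm_nonneg x).trans hx
  refine ContinuousLinearMap.opNorm_le_bound _ (by positivity) fun u => ?_
  have e : lin2 (x, y) u = u.1 • x + u.2 • y := rfl
  rw [e]
  refine (norm_add_le _ _).trans ?_
  rw [norm_smul, norm_smul]
  nlinarith [mul_le_mul (norm_fst_le u) hx (norm_nonneg _) (norm_nonneg _),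
    mul_le_mul (norm_snd_le u) hy (norm_nonneg _) (norm_nonneg _)]

theorem vals_le (t : T3 0) (y θ : ℝ) : ‖Cone.val t.1 y θ‖ ≤ ‖t‖ ∧ ‖Cone.val t.2.1 y θ‖ ≤ ‖t‖ ∧
    ‖Cone.val t.2.2 y θ‖ ≤ ‖t‖ ∧ ‖vT t y θ‖ ≤ ‖t‖ ∧ ‖vYT t y θ‖ ≤ ‖t‖ ∧ ‖vTT t y θ‖ ≤ ‖t‖ := by
  have h0 : ‖t.1‖ ≤ ‖t‖ := norm_fst_le t
  have h1 : ‖t.2.1‖ ≤ ‖t‖ := (norm_fst_le t.2).trans (norm_snd_le t)
  have h2 : ‖t.2.2‖ ≤ ‖t‖ := (norm_snd_le t.2).trans (norm_snd_le t)
  exact ⟨(Cone.norm_val_le _ _ _).trans h0, (Cone.norm_val_le _ _ _).trans h1,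
    (Cone.norm_val_le _ _ _).trans h2,
    (Cone.norm_val_le _ _ _).trans ((norm_dth_apply_le _).trans h0),
    (Cone.norm_val_le _ _ _).trans ((norm_dth_apply_le _).trans h1),
    (Cone.norm_val_le _ _ _).trans ((norm_dth_apply_le _).trans ((norm_dth_apply_le _).trans h0))⟩

theorem norm_fnJ_le (t : T3 0) (z : P2) :
    ‖((fn t z, fn1 t z, fn2 t z) : J2 P2 ℂ)‖ ≤ 4 * ‖t‖ := by
  obtain ⟨h0, h1, h2, h3, h4, h5⟩ := vals_le t z.1 z.2
  have := norm_nonneg t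
  refine norm_prod_le_iff.2 ⟨h0.trans (by linarith), norm_prod_le_iff.2 ⟨?_, ?_⟩⟩
  · exact (norm_lin2_le h1 h3).trans (by linarith)
  · exact (norm_lin2_le (norm_lin2_le h2 h4) (norm_lin2_le h4 h5)).trans (by linarith)

/-- the two-jet of a triple at a point -/
def fnJ (z : P2) : T3 0 →L[ℂ] J2 P2 ℂ :=
  LinearMap.mkContinuous
    { toFun := fun t => (fn t z, fn1 t z, fn2 t z)
      map_add' := fun t t' => J2_ext (by simp [fn, Cone.val])
        (fun u => by simp [fn1, vT, Cone.val]; ring) fun u v => by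
          simp [fn2, vYT, vTT, Cone.val]; ring
      map_smul' := fun c t => J2_ext (by simp [fn, Cone.val])
        (fun u => by simp [fn1, vT, Cone.val]; ring) fun u v => by
          simp [fn2, vYT, vTT, Cone.val]; ring }
    4 fun t => norm_fnJ_le t z

theorem fnJ_apply (z : P2) (t : T3 0) : fnJ z t = (fn t z, fn1 t z, fn2 t z) := rfl

theorem norm_fnJ_apply_le (z : P2) (t : T3 0) : ‖fnJ z t‖ ≤ 4 * ‖t‖ := norm_fnJ_le t z

/-- the one-jet of a two-jet -/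
def oneL : J2 P2 ℂ →L[ℂ] J1 P2 ℂ :=
  (ContinuousLinearMap.fst ℂ _ _).prod
    ((ContinuousLinearMap.fst ℂ _ _).comp (ContinuousLinearMap.snd ℂ _ _))

theorem oneL_apply (q : J2 P2 ℂ) : oneL q = q.one := rfl

/-- the function of a triple times a fixed function -/
def mfn (m : P2 → ℂ) : T3 0 →ₗ[ℂ] P2 → ℂ where
  toFun t p := m p * fn t p
  map_add' t t' := by funext p; simp [fn, Cone.val, mul_add]
  map_smul' c t := by funext p; simp [fn, Cone.val]; ring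

theorem mfn_apply (m : P2 → ℂ) (t : T3 0) (p : P2) : mfn m t p = m p * fn t p := rfl

/-- its two-jet -/
def mJ (m : P2 → ℂ) (p : P2) : T3 0 →L[ℂ] J2 P2 ℂ := (mulJ (jet2 m p)).comp (fnJ p)

theorem norm_mJ_le (m : P2 → ℂ) (p : P2) (t : T3 0) : ‖mJ m p t‖ ≤ 16 * ‖jet2 m p‖ * ‖t‖ := by
  refine (norm_smulJ_le (jet2 m p) (fnJ p t)).trans ?_
  nlinarith [mul_le_mul_of_nonneg_left (norm_fnJ_apply_le p t) (norm_nonneg (jet2 m p))]

theorem mJ_fst (m : P2 → ℂ) (p : P2) (t : T3 0) : (mJ m p t).1 = mfn m t p := rfl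

theorem jet2_mfn {m : P2 → ℂ} {t : T3 0} {p : P2} (hm : ContDiffAt ℝ 2 m p)
    (ht : ContDiffAt ℝ 2 (fn t) p) (hj : jet2 (fn t) p = (fn t p, fn1 t p, fn2 t p)) :
    jet2 (mfn m t) p = mJ m p t := by
  have := jet2_smul hm ht
  rw [hj] at this
  exact this

theorem fn_per (t : T3 0) (p : P2) : fn t (p.1, p.2 + 2 * π) = fn t p := by
  exact congrArg (fun u : BC => u p.1) (ev_periodic t.1 p.2)

theorem fn_real {t : T3 0} (h : star t = t) (p : P2) : (fn t p).im = 0 := by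
  have h1 := Cone.val_star t.1 p.1 p.2
  rw [show star t.1 = t.1 from congrArg Prod.fst h] at h1
  exact Complex.conj_eq_iff_im.1 h1.symm

theorem reA_iff (g : AA) : ReA g ↔ star g = g :=
  ((star_eq_iff_ev g).trans (forall_congr' fun _ => Complex.conj_eq_iff_im)).symm

/-! ### The operator -/

theorem ds_id (q : J2 P2 ℂ) : OpP.DS (fun f : J2 P2 ℂ → ℂ => DifferentiableAt ℂ f q) fun x => x := by
  have k : ∀ u : P2, ∃ T : (P2 →L[ℝ] ℂ) →L[ℂ] ℂ, ∀ x, T x = x u := fun u =>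
    ⟨LinearMap.mkContinuous ⟨⟨fun x => x u, fun _ _ => rfl⟩, fun _ _ => rfl⟩ ‖u‖ fun x =>
      (x.le_opNorm u).trans (mul_comm _ _).le, fun _ => rfl⟩
  have k2 : ∀ u : P2, ∃ T : (P2 →L[ℝ] P2 →L[ℝ] ℂ) →L[ℂ] P2 →L[ℝ] ℂ, ∀ x, T x = x u := fun u =>
    ⟨LinearMap.mkContinuous ⟨⟨fun x => x u, fun _ _ => rfl⟩, fun _ _ => rfl⟩ ‖u‖ fun x =>
      (x.le_opNorm u).trans (mul_comm _ _).le, fun _ => rfl⟩
  refine ⟨differentiableAt_fst, fun u => ?_, fun u v => ?_⟩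
  · obtain ⟨T, hT⟩ := k u
    simp only [← hT]
    exact T.differentiableAt.comp q differentiableAt_snd.fst
  · obtain ⟨T, hT⟩ := k v
    obtain ⟨T', hT'⟩ := k2 u
    simp only [← hT, ← hT']
    exact T.differentiableAt.comp q (T'.differentiableAt.comp q differentiableAt_snd.snd)

theorem jet2_graph {B W : P2 → C3} {e : P2 → ℂ} {p : P2} (hB : ContDiffAt ℝ 2 B p)
    (hW : ContDiffAt ℝ 2 W p) (he : ContDiffAt ℝ 2 e p) :
    jet2 (fun η => B η + e η • W η) p = jet2 B p + (jet2 e p).smul (jet2 W p) := by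
  rw [← jet2_smul he hW]
  exact jet2_add hB (he.smul hW)

theorem shrG_jet2 {B W : P2 → C3} {e : P2 → ℂ} {p : P2} (hB : ContDiffAt ℝ 2 B p)
    (hW : ContDiffAt ℝ 2 W p) (he : ContDiffAt ℝ 2 e p) :
    shrG B W p (jet2 e p) = Shr (fun η => B η + e η • W η) W p := by
  rw [Shr, jet2_graph hB hW he, shrG]

theorem diff_shrG {B W : P2 → C3} {e : P2 → ℂ} {p : P2} (hB : ContDiffAt ℝ 2 B p)
    (hW : ContDiffAt ℝ 2 W p) (he : ContDiffAt ℝ 2 e p)
    (h1 : W p ⬝ᵥ nor (fderiv ℝ (fun η => B η + e η • W η) p) ≠ 0)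
    (h2 : gdet (fderiv ℝ (fun η => B η + e η • W η) p) ≠ 0) :
    DifferentiableAt ℂ (shrG B W p) (jet2 e p) := by
  have hj := jet2_graph hB hW he
  have e1 : fderiv ℝ (fun η => B η + e η • W η) p =
      (jet2 B p + (jet2 e p).smul (jet2 W p)).2.1 := congrArg (fun q => q.2.1) hj
  rw [e1] at h1 h2
  have c : ∀ A : J2 P2 C3,
      OpP.DJ (fun f : J2 P2 ℂ → ℂ => DifferentiableAt ℂ f (jet2 e p)) fun _ => A := fun _ =>
    ⟨fun _ => differentiableAt_const _, fun _ _ => differentiableAt_const _,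
      fun _ _ _ => differentiableAt_const _⟩
  exact (OpP.cl_diff (jet2 e p)).shr ((OpP.cl_diff (jet2 e p)).jet (c _) (c _) (ds_id _))
    (fun _ => differentiableAt_const _) h2 h1

/-- derivatives of real families in real directions are real -/
theorem im_fderiv {f : AA → ℂ} {L : AA →L[ℂ] ℂ} {g0 : AA} (hf : HasFDerivAt f L g0) (h0 : ReA g0)
    (hr : ∀ᶠ g in 𝓝 g0, ReA g → (f g).im = 0) {h : AA} (hh : ReA h) : (L h).im = 0 := by
  have l1 : HasDerivAt (fun t : ℝ => g0 + (t : ℂ) • h) h 0 := by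
    simpa using ((Complex.ofRealCLM.hasDerivAt (x := 0)).smul_const h).const_add g0
  have l0 : g0 + ((0 : ℝ) : ℂ) • h = g0 := by simp
  have l4 : HasDerivAt (fun t : ℝ => f (g0 + (t : ℂ) • h)) (L h) 0 :=
    (hf.restrictScalars ℝ).comp_hasDerivAt_of_eq 0 l1 l0.symm
  have l2 : HasDerivAt (fun t : ℝ => (f (g0 + (t : ℂ) • h)).im) (L h).im 0 :=
    Complex.imCLM.hasFDerivAt.comp_hasDerivAt 0 l4
  have l3 : (fun t : ℝ => (f (g0 + (t : ℂ) • h)).im) =ᶠ[𝓝 0] fun _ => 0 := by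
    have : ∀ᶠ t : ℝ in 𝓝 0, ReA (g0 + (t : ℂ) • h) → (f (g0 + (t : ℂ) • h)).im = 0 :=
      l1.continuousAt.eventually (p := fun g => ReA g → (f g).im = 0) (by
        show ∀ᶠ g in 𝓝 (g0 + ((0 : ℝ) : ℂ) • h), _
        rw [l0]; exact hr)
    filter_upwards [this] with t ht
    refine ht fun θ => ?_
    simp [h0 θ, hh θ]
  exact (l2.congr_of_eventuallyEq l3.symm).unique (hasDerivAt_const _ _)

/-! ### Families of triples -/

/-- the hypotheses on a holomorphic family of triples `E`; the graph function is `m * fn (E g)` -/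
structure Tris (B W : P2 → C3) (gr : P2 → ℝ) (m : P2 → ℂ) (s δ M : ℝ) (g0 : AA) (E : AA → T3 0)
    (low : AA → Fin 3 → ℂ) : Prop where
  cB : ContDiff ℝ 2 B
  cW : ContDiff ℝ 2 W
  cm : ContDiff ℝ 2 m
  perm : ∀ p : P2, m (p.1, p.2 + 2 * π) = m p
  rem : ∀ p, (m p).im = 0
  bdm : ∀ p : P2, s < p.1 → p.1 < s + 6 → ‖jet2 m p‖ ≤ M
  δpos : 0 < δ
  ev0 : ∀ θ, ev 2 ℂ θ g0 = gr (s, θ)
  hol : DifferentiableOn ℂ E (ball g0 δ)
  bd : ∀ g ∈ ball g0 δ, ‖E g‖ ≤ M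
  hlow : DifferentiableOn ℂ low (ball g0 δ)
  bdlow : ∀ g ∈ ball g0 δ, ‖low g‖ ≤ M
  tri : ∀ g ∈ ball g0 δ, IsTri s (E g)
  dtri : ∀ h, IsTri s (fderiv ℂ E g0 h)
  eq : ∀ g ∈ ball g0 δ, ∀ p : P2, s < p.1 → Shr (fun η => B η + mfn m (E g) η • W η) W p = 0
  pos : ∀ g ∈ ball g0 δ, ∀ p : P2, s < p.1 →
    W p ⬝ᵥ nor (fderiv ℝ (fun η => B η + mfn m (E g) η • W η) p) ≠ 0 ∧
      0 < (gdet (fderiv ℝ (fun η => B η + mfn m (E g) η • W η) p)).re
  mat : ∀ θ, ∃ L : (Fin 3 → ℂ) →L[ℂ] ℂ, ∀ g ∈ ball g0 δ,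
    mfn m (E g) (s, θ) = ev 2 ℂ θ g + L (low g)
  real : ∀ g ∈ ball g0 δ, star g = g → star (E g) = E g ∧ IsRe (low g)
  base : ∀ p : P2, s ≤ p.1 → mfn m (E g0) p = gr p
  low0 : low g0 = 0

/-- the linearisation -/
def dE (m : P2 → ℂ) (E : AA → T3 0) (g0 : AA) : AA →ₗ[ℂ] P2 → ℂ :=
  (mfn m).comp (fderiv ℂ E g0 : AA →ₗ[ℂ] T3 0)

theorem dE_apply (m : P2 → ℂ) (E : AA → T3 0) (g0 h : AA) :
    dE m E g0 h = mfn m (fderiv ℂ E g0 h) := rfl

theorem cdAt_mfn {m : P2 → ℂ} (hm : ContDiff ℝ 2 m) {s : ℝ} {t : T3 0} (ht : IsTri s t) {p : P2}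
    (hp : s < p.1) : ContDiffAt ℝ 2 (mfn m t) p := hm.contDiffAt.mul (ht.contDiffAt hp)

theorem jet2_tri {m : P2 → ℂ} (hm : ContDiff ℝ 2 m) {s : ℝ} {t : T3 0} (ht : IsTri s t) {p : P2}
    (hp : s < p.1) : jet2 (mfn m t) p = mJ m p t :=
  jet2_mfn hm.contDiffAt (ht.contDiffAt hp) (ht.jet2_eq hp)

namespace Tris

variable {B W : P2 → C3} {gr : P2 → ℝ} {m : P2 → ℂ} {s δ M : ℝ} {g0 : AA} {E : AA → T3 0}
  {low : AA → Fin 3 → ℂ} (h : Tris B W gr m s δ M g0 E low)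
include h

theorem mem0 : g0 ∈ ball g0 δ := mem_ball_self h.δpos

theorem nh : ball g0 δ ∈ 𝓝 g0 := ball_mem_nhds _ h.δpos

theorem M_nonneg : 0 ≤ M := (norm_nonneg _).trans (h.bd _ h.mem0)

theorem dE0 : HasFDerivAt E (fderiv ℂ E g0) g0 := (h.hol.differentiableAt h.nh).hasFDerivAt

theorem dlow0 : HasFDerivAt low (fderiv ℂ low g0) g0 :=
  (h.hlow.differentiableAt h.nh).hasFDerivAt

theorem re0 : ReA g0 := fun θ => by rw [h.ev0]; exact Complex.ofReal_im _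

theorem jet_gr {p : P2} (hp : s < p.1) : jet2 (fun η => (gr η : ℂ)) p = mJ m p (E g0) := by
  rw [← jet2_tri h.cm (h.tri _ h.mem0) hp]
  refine jet2_congr ?_
  filter_upwards [(isOpen_lt continuous_const continuous_fst).mem_nhds hp] with η hη
  exact (h.base η (le_of_lt hη)).symm

theorem eqG {g : AA} (hg : g ∈ ball g0 δ) {p : P2} (hp : s < p.1) :
    shrG B W p (jet2 (mfn m (E g)) p) = 0 := by
  rw [shrG_jet2 h.cB.contDiffAt h.cW.contDiffAt (cdAt_mfn h.cm (h.tri g hg) hp)]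
  exact h.eq g hg p hp

theorem eq' (v : AA) {p : P2} (hp : s < p.1) :
    fderiv ℂ (shrG B W p) (jet2 (fun η => (gr η : ℂ)) p) (jet2 (dE m E g0 v) p) = 0 := by
  obtain ⟨p1, p2⟩ := h.pos _ h.mem0 p hp
  have d := diff_shrG h.cB.contDiffAt h.cW.contDiffAt (cdAt_mfn h.cm (h.tri _ h.mem0) hp) p1
    fun h0 => by simp [h0] at p2
  rw [jet2_tri h.cm (h.tri _ h.mem0) hp] at d
  rw [h.jet_gr hp, dE_apply, jet2_tri h.cm (h.dtri v) hp]
  have d1 := d.hasFDerivAt.comp g0 ((mJ m p).hasFDerivAt.comp g0 h.dE0)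
  have d2 : (shrG B W p ∘ mJ m p ∘ E) =ᶠ[𝓝 g0] fun _ => 0 := by
    filter_upwards [h.nh] with g hg
    have := h.eqG hg hp
    rwa [jet2_tri h.cm (h.tri g hg) hp] at this
  exact DFunLike.congr_fun ((d1.congr_of_eventuallyEq d2.symm).unique (hasFDerivAt_const _ _)) v

theorem dval (p : P2) : HasFDerivAt (fun g => mfn m (E g) p)
    (((ContinuousLinearMap.fst ℂ _ _).comp (mJ m p)).comp (fderiv ℂ E g0)) g0 :=
  ((ContinuousLinearMap.fst ℂ _ _).comp (mJ m p)).hasFDerivAt.comp g0 h.dE0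

theorem mat' (v : AA) (hv : fderiv ℂ low g0 v = 0) (θ : ℝ) : dE m E g0 v (s, θ) = ev 2 ℂ θ v := by
  obtain ⟨L, hL⟩ := h.mat θ
  have d1 := (ev 2 ℂ θ).hasFDerivAt.add (L.hasFDerivAt.comp g0 h.dlow0)
  have d2 := (h.dval (s, θ)).unique (d1.congr_of_eventuallyEq (by
    filter_upwards [h.nh] with g hg using hL g hg))
  have d3 := DFunLike.congr_fun d2 v
  simp only [ContinuousLinearMap.comp_apply, _root_.add_apply, hv, map_zero,
    add_zero] at d3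
  exact d3

theorem reE {g : AA} (hg : g ∈ ball g0 δ) (hr : ReA g) (p : P2) : (mfn m (E g) p).im = 0 := by
  rw [mfn_apply, Complex.mul_im, h.rem, fn_real (h.real g hg ((reA_iff g).1 hr)).1]
  simp

theorem real' (v : AA) (hv : ReA v) :
    (∀ p : P2, s ≤ p.1 → (dE m E g0 v p).im = 0) ∧ IsRe (fderiv ℂ low g0 v) := by
  refine ⟨fun p _ => im_fderiv (h.dval p) h.re0 ?_ hv, fun i => ?_⟩
  · filter_upwards [h.nh] with g hg hr using h.reE hg hr p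
  · refine im_fderiv ((ContinuousLinearMap.proj (R := ℂ) (φ := fun _ : Fin 3 => ℂ)
      i).hasFDerivAt.comp g0 h.dlow0) h.re0 ?_ hv
    filter_upwards [h.nh] with g hg hr using (h.real g hg ((reA_iff g).1 hr)).2 i

theorem mJ_le {p : P2} (hp : s < p.1) (hp' : p.1 < s + 6) (t : T3 0) :
    ‖mJ m p t‖ ≤ 16 * M * ‖t‖ :=
  (norm_mJ_le m p t).trans (by gcongr; exact h.bdm p hp hp')

theorem infFam {C : ℝ} (h1 : 32 * M ^ 2 / δ ≤ C) (h2 : 64 * M ^ 2 / δ ^ 2 ≤ C)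
    (h3 : 4 * M / δ ^ 2 ≤ C) : InfFam B W gr s δ C g0 (fun g => mfn m (E g)) low (dE m E g0)
      (fderiv ℂ low g0) where
  δpos := h.δpos
  ev0 := h.ev0
  c2 g hg p hp := (cdAt_mfn h.cm (h.tri g hg) hp.1).contDiffWithinAt
  cont g _ := (h.cm.continuous.mul (Cone.continuous_fn _)).continuousOn
  per g _ p := by simp only [mfn_apply, h.perm, fn_per]
  eq g hg p hp := h.eqG hg hp
  pos := h.pos
  mat g hg h0 θ := by
    obtain ⟨L, hL⟩ := h.mat θ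
    rw [hL g hg, h0, map_zero, add_zero]
  real g hg hr := ⟨fun p _ => h.reE hg hr p, (h.real g hg ((reA_iff g).1 hr)).2⟩
  hol p hp _ := by
    refine ((oneL.comp (mJ m p)).differentiable.comp_differentiableOn h.hol).congr fun g hg => ?_
    rw [← jet2_one, jet2_tri h.cm (h.tri g hg) hp]
    rfl
  hlow := h.hlow
  base := h.base
  low0 := h.low0
  c2' v p hp := (cdAt_mfn h.cm (h.dtri v) hp.1).contDiffWithinAt
  cont' v := (h.cm.continuous.mul (Cone.continuous_fn _)).continuousOn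
  per' v p := by simp only [dE_apply, mfn_apply, h.perm, fn_per]
  eq' v p hp := h.eq' v hp
  mat' := h.mat'
  real' := h.real'
  bd' v p hp hp' := by
    rw [dE_apply, jet2_tri h.cm (h.dtri v) hp]
    refine (h.mJ_le hp hp' _).trans (le_trans ?_ (mul_le_mul_of_nonneg_right h1 (norm_nonneg v)))
    have := (fderiv ℂ E g0).le_of_opNorm_le (fderiv_le h.δpos h.hol h.bd) v
    calc 16 * M * ‖fderiv ℂ E g0 v‖ ≤ 16 * M * (2 * M / δ * ‖v‖) := by
          gcongr; exact mul_nonneg (by norm_num) h.M_nonneg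
      _ = _ := by ring
  dev g hg p hp hp' := by
    rw [dE_apply, jet2_tri h.cm (h.dtri _) hp, jet2_tri h.cm (h.tri g hg) hp, h.jet_gr hp,
      ← map_sub, ← map_sub]
    refine (h.mJ_le hp hp' _).trans (le_trans ?_ (mul_le_mul_of_nonneg_right h2 (sq_nonneg _)))
    calc _ ≤ 16 * M * (4 * M / δ ^ 2 * ‖g - g0‖ ^ 2) :=
          mul_le_mul_of_nonneg_left (rem_le h.hol h.bd hg) (mul_nonneg (by norm_num) h.M_nonneg)
      _ = _ := by ring
  devlow g hg := by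
    have := rem_le h.hlow h.bdlow hg
    rw [h.low0, sub_zero] at this
    exact this.trans (mul_le_mul_of_nonneg_right h3 (sq_nonneg _))

end Tris

end Vale.Agent.P218F.LS.Fam
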