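import Vale.Agent.P218F.LSEndA
import Vale.Agent.P218F.LSFam
import Vale.Agent.P218F.EndInfSpec
import Vale.Agent.P218F.InjOp
import Vale.Agent.P218F.ConeBridge

/-! The cylindrical ends: from the end solvers to the family used in the reduction. -/

set_option maxSynthPendingDepth 3

namespace Vale.Agent.P218F.LS.EB

open Set Filter Topology Metric Wien Core
open Cone (W A T3 BC fn fn1 fn2 vT vYT vTT lin2 IsTri)
open End (IsEnd Dm eR cylY res3 cyl)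
open EndI (IsInf IsW)
open P218FT (E3 Triple)
open scoped Real

noncomputable section

/-! ### The matching condition -/

/-- the trace of the round cylinder -/
def c2 : A 2 := const ℤ 2 ℂ (√2 : ℝ)

lemma ev_c2 (θ : ℝ) : ev 2 ℂ θ c2 = (√2 : ℝ) := ev_const _ _

lemma star_c2 : star c2 = c2 := (Fam.reA_iff _).1 fun θ => by rw [ev_c2]; simp

/-- the low modes of the trace -/
def lwL (s : ℝ) : T3 0 →L[ℂ] Fin 3 → ℂ := lowL.comp ((Cone.tr 2 s).comp (.fst ℂ _ _))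

lemma norm_lwL_le (s : ℝ) (p : T3 0) : ‖lwL s p‖ ≤ 2 * ‖p‖ :=
  (norm_lowL_le (Cone.tr 2 s p.1)).trans (by linarith [norm_tr_apply_le s p.1, norm_fst_le p])

lemma lwL_res3 {a b s : ℝ} (hs : s ∈ Icc a b) (p : T3 0) : lwL s (res3 a b p) = lwL s p :=
  congrArg lowL (tr_res p.1 hs)

/-- the trace with given low modes -/
def unL : (Fin 3 → ℂ) →L[ℂ] A 2 :=
  let pr : Fin 3 → (Fin 3 → ℂ) →L[ℂ] ℂ := fun i => .proj i
  (single 2 (0 : ℤ)).comp (pr 0) + (single 2 (1 : ℤ)).comp ((2⁻¹ : ℂ) • (pr 1 - Complex.I • pr 2)) +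
    (single 2 (-1 : ℤ)).comp ((2⁻¹ : ℂ) • (pr 1 + Complex.I • pr 2))

lemma unL_low {u : A 2} (h : ∀ k : ℤ, 2 ≤ |k| → cf u k = 0) : unL (lowL u) = u := by
  ext k
  by_cases hk : 2 ≤ |k|
  · have : k ≠ 0 ∧ k ≠ 1 ∧ k ≠ -1 := by
      refine ⟨?_, ?_, ?_⟩ <;> rintro rfl <;> simp at hk
    simp [unL, cf_single_ne, this, h k hk]
  · obtain rfl | rfl | rfl : k = 0 ∨ k = 1 ∨ k = -1 := by
      have := abs_lt.1 (not_le.1 hk); omega
    · simp [unL, cf_single_ne, lowL_zero]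
    · simp [unL, cf_single_ne, lowL_one, lowL_two, ← mul_assoc]; ring
    · simp [unL, cf_single_ne, lowL_one, lowL_two, ← mul_assoc]; ring

lemma mat_of {s : ℝ} {p : T3 0} {g : A 2} (h : ∀ k : ℤ, 2 ≤ |k| → cf p.1 k s = cf (g - c2) k)
    (θ : ℝ) : fn p (s, θ) = ev 2 ℂ θ g + ((ev 2 ℂ θ).comp unL) (lwL s p - lowL g) := by
  have e : lwL s p - lowL g = lowL (Cone.tr 2 s p.1 - g) := (map_sub lowL _ _).symm
  rw [ContinuousLinearMap.comp_apply, e, unL_low fun k hk => ?_, map_sub, add_sub_cancel]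
  · exact Cone.val_eq_tr _ _ _
  · have : k ≠ 0 := by rintro rfl; simp at hk
    simp [h k hk, c2, const_apply, cf_single_ne this]

lemma isRe_lw {s : ℝ} {p : T3 0} {g : A 2} (hp : star p = p) (hg : star g = g) :
    IsRe (lwL s p - lowL g) := by
  rw [show lwL s p - lowL g = lowL (Cone.tr 2 s p.1 - g) from (map_sub lowL _ _).symm]
  refine isRe_lowL ?_
  rw [star_sub, Cone.star_tr, hg, show star p.1 = p.1 from congrArg Prod.fst hp]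

/-! ### Jets -/

lemma jet1_of {p : T3 0} {z : P2} (h : jet2 (fn p) z = jt 0 z p) :
    jet1 (fn p) z = oneL (jt 0 z p) := by
  rw [← jet2_one, h]; rfl

lemma norm_oneL_jt (z : P2) (p : T3 0) : ‖oneL (jt 0 z p)‖ ≤ 4 * ‖p‖ :=
  (norm_one_le _).trans (norm_jt_le p z)

lemma cylSm_of {p : T3 0} {z : P2} {ε κ : ℝ} (hc : ContDiffAt ℝ 2 (fn p) z)
    (h : jet2 (fn p) z = jt 0 z p) (hz : 0 ≤ z.1) (h1 : ‖p - cyl‖ ≤ κ)
    (h2 : z.1 * ‖Cone.val p.2.1 z.1 z.2‖ ≤ κ) (hκ : 4 * κ ≤ ε) : CylSm ε (fn p) z := by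
  have h0 := (norm_nonneg _).trans h1
  refine ⟨?_, ?_⟩
  · have e : jet2 (fun η => fn p η - (√2 : ℝ)) z = jt 0 z (p - cyl) := by
      rw [map_sub, jt_cyl, ← h]
      simp [jet2, funext fun x => fderiv_sub_const (𝕜 := ℝ) (f := fn p) (x := x) (√2 : ℝ)]
    rw [e]
    exact (norm_jt_le _ _).trans (by linarith)
  · rw [show fderiv ℝ (fn p) z = fn1 p z from congrArg (fun q => q.2.1) h, Cone.fn1_y, norm_mul,
      Complex.norm_real, Real.norm_of_nonneg hz]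
    linarith

lemma mv {a b : ℝ} {p : T3 0} (h : End.Tri a b p) {z z' : P2} (hz : z.1 ∈ Icc a b)
    (hz' : z'.1 ∈ Icc a b) : ‖oneL (jt 0 z p) - oneL (jt 0 z' p)‖ ≤ 4 * ‖p‖ * ‖z - z'‖ :=
  ((convex_Icc a b).prod convex_univ).norm_image_sub_le_of_norm_hasFDerivWithin_le
    (f := fun z => oneL (jt 0 z p))
    (fun _ hw => (h.hasFDerivWithinAt hw.1).prodMk (h.hasFDerivWithinAt1 hw.1))
    (fun w _ => (ContinuousLinearMap.opNorm_prod _ _).trans_le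
      ((norm_snd_le (jt 0 w p)).trans (norm_jt_le p w))) ⟨hz', trivial⟩ ⟨hz, trivial⟩

lemma mfn_one (p : T3 0) : Fam.mfn (fun _ => 1) p = fn p := funext fun _ => one_mul _

/-! ### The data -/

/-- the end solvers for finite `R` and for `R = ∞`, and the choice of the constants -/
structure Dat where
  (a b c : E3)
  r : P2 → ℝ
  (Λ C₀ R₀ δE C₁ s R₁ C₂ δI η CI ε δ R0 : ℝ)
  (cc Y : ℝ → ℂ → ℂ)
  e : ℝ → A 2 × ℂ → T3 0
  E : A 2 → T3 0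
  h₀ : A 2
  T : Triple a b c
  hE : IsEnd Λ δE C₁ s R₁ C₂ cc Y e
  hI : IsInf δI η CI s E
  inv : Sym.Inv C₀ Λ R₀ cc Y
  cle : ∀ R, R₁ ≤ R → ∀ y ∈ Sym.D Λ R, ‖cc R y‖ ≤ 7 / R ^ 2
  C0 : 0 ≤ C₀
  R01 : R₀ ≤ R₁
  R10 : R₁ ≤ R0
  s1 : 1 ≤ s
  CI0 : 0 ≤ CI
  δpos : 0 < δ
  dE : 2 * δ ≤ δE
  dI : 2 * δ ≤ δI
  dη : |C₁| * (2 * δ) ≤ η / 2
  ηpos : 0 < η
  dεI : 4 * (CI * (2 * δ)) ≤ ε
  dεE : 4 * (|C₁| * (3 * δ)) ≤ ε
  d1 : δ ≤ 1 / 2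
  h0 : ‖h₀‖ ≤ δ
  hs : star h₀ = h₀
  ev0 : ∀ θ, ev 2 ℂ θ h₀ = ((r (s, θ) - √2 : ℝ) : ℂ)
  base : ∀ z : P2, s ≤ z.1 → fn (E h₀) z = r z
  tip : ∀ R, R0 ≤ R → |C₂| * R ^ (-(19 / 10) : ℝ) < 1 / 4

namespace Dat

variable (d : Dat)

/-- the trace of the end -/
def g0 : A 2 := d.h₀ + c2
/-- the solver on the half line -/
def Ei (g : A 2) : T3 0 := d.E (g - c2)
/-- its low modes -/
def li (g : A 2) : Fin 3 → ℂ := lwL d.s (d.Ei g) - lowL g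
/-- the solver on `[s, R]` -/
def Ef (R : ℝ) (g : A 2) (c : ℂ) : T3 0 := d.e R (g - c2, d.Y R c)
/-- its low modes -/
def lf (R : ℝ) (g : A 2) (c : ℂ) : Fin 3 → ℂ := lwL d.s (d.Ef R g c) - lowL g
/-- a bound -/
def M : ℝ := 1 + 2 * (‖cyl‖ + d.CI) + 2 * (1 + ‖c2‖)

variable {d} {g g' : A 2} {R R' : ℝ} {c c' : ℂ} {p : P2}

lemma g0_sub : d.g0 - c2 = d.h₀ := add_sub_cancel_right _ _

lemma lt2 (hg : g ∈ ball d.g0 d.δ) : ‖g - c2‖ < 2 * d.δ := by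
  have := norm_add_le (g - d.g0) d.h₀
  rw [show g - d.g0 + d.h₀ = g - c2 by rw [g0]; abel] at this
  linarith [mem_ball_iff_norm.1 hg, d.h0]

lemma memI (hg : g ∈ ball d.g0 d.δ) : g - c2 ∈ ball (0 : A 2) d.δI :=
  mem_ball_zero_iff.2 ((lt2 hg).trans_le d.dI)

lemma mem0 : d.g0 ∈ ball d.g0 d.δ := mem_ball_self d.δpos

lemma mem0' : d.h₀ ∈ ball (0 : A 2) d.δI := g0_sub ▸ memI mem0

lemma fderiv_Ei : fderiv ℂ d.Ei d.g0 = fderiv ℂ d.E d.h₀ := by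
  rw [← g0_sub]; exact fderiv_comp_sub _

lemma jetI (hg : g ∈ ball d.g0 d.δ) (hp : d.s < p.1) : jet2 (fn (d.Ei g)) p = jt 0 p (d.Ei g) :=
  (d.hI.tri _ (memI hg)).jet2_eq hp

lemma smI (hg : g ∈ ball d.g0 d.δ) : d.CI * ‖g - c2‖ ≤ d.CI * (2 * d.δ) :=
  mul_le_mul_of_nonneg_left (lt2 hg).le d.CI0

lemma bdI (hg : g ∈ ball d.g0 d.δ) : ‖d.Ei g‖ ≤ ‖cyl‖ + d.CI := by
  have h1 := (d.hI.small _ (memI hg)).1.trans (smI hg)
  have h2 := norm_add_le cyl (d.E (g - c2) - cyl)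
  rw [add_sub_cancel] at h2
  rw [Ei]
  nlinarith [d.d1, d.CI0]

lemma geomI (hg : g ∈ ball d.g0 d.δ) (hp : d.s < p.1) :
    1 ≤ (gdet (fderiv ℝ (cylY d.a d.b d.c (fn (d.Ei g))) p)).re ∧
    eR d.a d.b p ⬝ᵥ nor (fderiv ℝ (cylY d.a d.b d.c (fn (d.Ei g))) p) ≠ 0 ∧
    Shr (cylY d.a d.b d.c (fn (d.Ei g))) (eR d.a d.b) p = 0 := by
  obtain ⟨k1, k2⟩ := d.hI.good _ (memI hg) p.1 p.2
  obtain ⟨g1, g2, g3⟩ := geom d.T ((d.hI.tri _ (memI hg)).contDiffAt hp) fun h => by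
    rw [show fn _ (p.1, p.2) = 0 from h] at k1; norm_num at k1
  change gdet (fderiv ℝ (cylY d.a d.b d.c (fn (d.Ei g))) p) = gC (jet2 (fn (d.Ei g)) p).one at g1
  change gC (jet2 (fn (d.Ei g)) p).one ≠ 0 → (_ ↔ ep p.1 (jet2 (fn (d.Ei g)) p) = 0) at g3
  rw [jetI hg hp, gC_jt] at g1 g3
  refine ⟨g1 ▸ k2, g2, (g3 fun h => ?_).2 (ep_jt (d.hI.eqn _ (memI hg) p.1) ⟨hp.le, le_rfl⟩)⟩
  change 1 ≤ (fn (d.Ei g) p ^ 2 * (1 + Cone.val (d.Ei g).2.1 p.1 p.2 ^ 2) +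
    vT (d.Ei g) p.1 p.2 ^ 2).re at k2
  rw [h] at k2; norm_num at k2

lemma star_sub_c2 (h : star g = g) : star (g - c2) = g - c2 := by rw [star_sub, h, star_c2]

lemma tris (d : Dat) :
    Fam.Tris (Ba d.c) (eR d.a d.b) d.r (fun _ => 1) d.s d.δ d.M d.g0 d.Ei d.li := by
  have hol : DifferentiableOn ℂ d.Ei (ball d.g0 d.δ) :=
    d.hI.hol.comp (differentiableOn_id.sub_const _) fun g hg => memI hg
  have n1 := norm_nonneg cyl
  have n2 := norm_nonneg c2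
  have n3 := d.CI0
  have ev0 : ∀ θ, ev 2 ℂ θ d.g0 = d.r (d.s, θ) := fun θ => by
    rw [g0, map_add, d.ev0, ev_c2]; push_cast; ring
  refine
    { cB := cd_Ba _
      cW := cd_eR _ _
      cm := contDiff_const
      perm := fun _ => rfl
      rem := fun _ => rfl
      bdm := fun p _ _ => by simp [jet2, M]; linarith
      δpos := d.δpos
      ev0 := ev0
      hol := hol
      bd := fun g hg => (bdI hg).trans (by rw [M]; linarith)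
      hlow := ((lwL d.s).differentiable.comp_differentiableOn hol).sub lowL.differentiableOn
      bdlow := fun g hg => (norm_sub_le _ _).trans ?_
      tri := fun g hg => d.hI.tri _ (memI hg)
      dtri := fun v => fderiv_Ei ▸ d.hI.dtri _ mem0' v
      eq := fun g hg p hp => by rw [mfn_one, cylY_eq]; exact (geomI hg hp).2.2
      pos := fun g hg p hp => by
        rw [mfn_one, cylY_eq]; exact ⟨(geomI hg hp).2.1, one_pos.trans_le (geomI hg hp).1⟩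
      mat := fun θ => ⟨_, fun g hg => by
        rw [mfn_one]; exact mat_of (d.hI.trace _ (memI hg)) θ⟩
      real := fun g hg hr => have := d.hI.real _ (memI hg) (star_sub_c2 hr)
        ⟨this, isRe_lw this hr⟩
      base := fun p hp => by rw [mfn_one, Ei, g0_sub, d.base p hp]
      low0 := sub_eq_zero.2 (congrArg lowL (ext_ev fun θ => ?_)) }
  · have h1 := norm_add_le (g - c2) c2
    rw [sub_add_cancel] at h1
    rw [M]
    linarith [norm_lwL_le d.s (d.Ei g), norm_lowL_le g, bdI hg, lt2 hg, d.d1]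
  · rw [ev0, ← d.base (d.s, θ) le_rfl, ← g0_sub]
    exact (Cone.val_eq_tr _ _ _).symm

/-! #### The Jacobi field -/

lemma jac {u : P2 → ℝ} (h : IsW d.s (d.E d.h₀) u) : IsJac (Ba d.c) (eR d.a d.b) d.r d.s u := by
  obtain ⟨K, hK⟩ := h.loc
  have loc : ∀ p : P2, d.s < p.1 → ∃ w : T3 0, End.Tri d.s (p.1 + 1) w ∧
      End.DEq d.s (p.1 + 1) (d.E d.h₀) w ∧ ‖w‖ ≤ K * (p.1 + 1) ^ 2 ∧
      p.1 ∈ Ioo d.s (p.1 + 1) ∧ (fun η => (u η : ℂ)) =ᶠ[𝓝 p] fn w := fun p hp => by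
    obtain ⟨w, h1, h2, h3, h4⟩ := hK (p.1 + 1) (by linarith)
    have m : p.1 ∈ Ioo d.s (p.1 + 1) := ⟨hp, lt_add_one _⟩
    exact ⟨w, h1, h2, h3, m, mem_of_superset (End.mem_nhds_strip m) fun η hη => (h4 η hη.1).symm⟩
  have re : ∀ {p : P2} {w : T3 0}, (fun η => (u η : ℂ)) =ᶠ[𝓝 p] fn w →
      u =ᶠ[𝓝 p] fun η => Complex.reCLM (fn w η) := fun h => h.mono fun η hη => by simp [← hη]
  refine ⟨fun p hp => ?_, h.per, fun p hp => ?_, ⟨1 / 20, d.s, by norm_num, fun p hp => ?_⟩,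
    ⟨16 * |K|, 2, fun p hp => ?_⟩⟩
  · obtain ⟨w, h1, -, -, m, h4⟩ := loc p hp.1
    exact ((Complex.reCLM.contDiff.contDiffAt.comp p (h1.contDiffAt m)).congr_of_eventuallyEq
      (re h4)).contDiffWithinAt
  · obtain ⟨w, h1, h2, -, m, h4⟩ := loc p hp
    obtain ⟨g1, g2, g3⟩ := geomI (mem0 (d := d)) hp
    have j := jetI (mem0 (d := d)) hp
    rw [Ei, g0_sub] at g1 g2 g3 j
    have hc := (d.hI.tri _ mem0').contDiffAt hp
    have e : jet2 (fun η => (d.r η : ℂ)) p = jet2 (fn (d.E d.h₀)) p := jet2_congr (by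
      filter_upwards [Cone.mem_nhds_half hp] with η hη using (d.base η hη.1).symm)
    have g4 : gdet (fderiv ℝ (cylY d.a d.b d.c (fn (d.E d.h₀))) p) ≠ 0 := fun h => by
      rw [h] at g1; norm_num at g1
    have g5 := (End.geom_proof _ _ _ d.T _ p hc).1
    have k := End.dnum_cylY d.T hc (h1.contDiffAt m) (g5 ▸ g4)
    simp only [j, h1.jet2_eq m, jt_apply, Cone.fn1_y, Cone.fn1_t, Cone.fn2_yy, Cone.fn2_yt,
      Cone.fn2_tt] at k g5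
    have k2 := k (d.hI.eqn _ mem0' p.1 p.1 ⟨hp.le, le_rfl⟩ p.2)
    rw [show End.depol _ (fn (d.E d.h₀) p) _ _ _ _ _ (fn w p) _ _ _ _ _ = 0 from
      h2 p.1 (Ioo_subset_Icc_self m) p.2, mul_zero, ← g5] at k2
    rw [e, jet2_congr h4]
    refine (Inj.fderiv_graph _ _ _ _ _ (jet2_cyl hc ▸ g4) ?_ (jet2_cyl hc ▸ g2)).trans ?_
    · rw [← jet2_cyl hc]
      exact (div_eq_zero_iff.1 ((Inj.shr_eq _ _).symm.trans g3)).resolve_right g2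
    · rw [← jet2_cyl hc, ← jet2_smul (h1.contDiffAt m) (cd_eR _ _).contDiffAt,
        (mul_eq_zero.1 k2).resolve_left g4, zero_div]
  · linarith [h.low p hp, le_abs_self (u p)]
  · obtain ⟨w, h1, -, h3, m, h4⟩ := loc p (by linarith)
    have h5 : jet1 u p = (Complex.reCLM (fn w p), Complex.reCLM.comp (fn1 w p)) :=
      Prod.ext (re h4).self_of_nhds ((re h4).fderiv_eq.trans
        (Complex.reCLM.hasFDerivAt.comp p (h1.hasFDerivAt m)).fderiv)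
    have h6 := norm_oneL_jt p w
    have h7 : 1 ≤ p.1 := by linarith [d.s1]
    have h8 : K * (p.1 + 1) ^ 2 ≤ |K| * (2 * p.1) ^ 2 :=
      mul_le_mul (le_abs_self K) (by gcongr; linarith) (sq_nonneg _) (abs_nonneg K)
    rw [h5]
    refine le_trans (max_le ((Complex.abs_re_le_norm _).trans (norm_fst_le (oneL (jt 0 p w))))
      ((ContinuousLinearMap.opNorm_comp_le _ _).trans ?_)) (h6.trans (by linarith))
    rw [Complex.reCLM_norm, one_mul]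
    exact norm_snd_le (oneL (jt 0 p w))

/-! #### Finite `R` -/

lemma R_ge (hR : d.R0 ≤ R) : d.R₁ ≤ R ∧ d.R₀ ≤ R ∧ 2 * d.s + 20 ≤ R ∧ 1 ≤ R :=
  have h := d.R10.trans hR
  ⟨h, d.R01.trans h, d.hE.big.trans h, by linarith [d.hE.big, d.s1]⟩

lemma memD (hR : d.R0 ≤ R) (hc : c ∈ Sym.Om (2 * d.Λ) R) : d.Y R c ∈ Sym.D d.Λ R := by
  refine ball_subset_ball ?_ (d.inv.mem R (R_ge hR).2.1 _ le_rfl c hc)
  have := d.inv.room
  gcongr
  linarith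

lemma nest (hR : d.R0 ≤ R) (h : R ≤ R') (hc : c ∈ Sym.Om (2 * d.Λ) R') : c ∈ Sym.Om (2 * d.Λ) R :=
  have := d.C0.trans d.inv.room
  d.inv.nest R R' (R_ge hR).2.1 h _ (by linarith) (by linarith) hc

lemma memE (hR : d.R0 ≤ R) (hg : g ∈ ball d.g0 d.δ) (hc : c ∈ Sym.Om (2 * d.Λ) R) :
    (g - c2, d.Y R c) ∈ Dm d.δE d.Λ R :=
  ⟨mem_ball_zero_iff.2 ((lt2 hg).trans_le d.dE), memD hR hc⟩

lemma triE (hR : d.R0 ≤ R) (hg : g ∈ ball d.g0 d.δ) (hc : c ∈ Sym.Om (2 * d.Λ) R) :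
    End.Tri d.s R (d.Ef R g c) := d.hE.tri R (R_ge hR).1 _ (memE hR hg hc)

lemma jetE (hR : d.R0 ≤ R) (hg : g ∈ ball d.g0 d.δ) (hc : c ∈ Sym.Om (2 * d.Λ) R)
    (hp : d.s < p.1) (hp' : p.1 < R) : jet2 (fn (d.Ef R g c)) p = jt 0 p (d.Ef R g c) :=
  (triE hR hg hc).jet2_eq ⟨hp, hp'⟩

lemma feq (hR : d.R0 ≤ R) (hg : g ∈ ball d.g0 d.δ) (hc : c ∈ Sym.Om (2 * d.Λ) R)
    (hp : d.s < p.1) (hp' : p.1 < R) : fn (d.Ef R g c) p ≠ 0 ∧
      shrG (Ba d.c) (eR d.a d.b) p (jet2 (fn (d.Ef R g c)) p) = 0 ∧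
      ‖jet1 (fn (d.Ef R g c)) p‖ ≤ max 8 d.C₁ := by
  obtain ⟨k1, k2⟩ := d.hE.good R (R_ge hR).1 _ (memE hR hg hc) p.1 ⟨hp.le, hp'.le⟩ p.2
  obtain ⟨k3, k4⟩ := d.hE.bd1 R (R_ge hR).1 _ (memE hR hg hc) p.1 ⟨hp.le, hp'.le⟩ p.2
  have h1 : fn (d.Ef R g c) p ≠ 0 := fun h => k1.ne' (congrArg Complex.re h)
  refine ⟨h1, ?_, ?_⟩
  · rw [shrG_cyl ((triE hR hg hc).contDiffAt ⟨hp, hp'⟩)]
    exact (triE hR hg hc).shr_eq_zero d.T (d.hE.eqn R (R_ge hR).1 _ (memE hR hg hc)) ⟨hp, hp'⟩ h1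
      fun h => k2.ne' (congrArg Complex.re h)
  · rw [jet1_of (jetE hR hg hc hp hp')]
    exact max_le_max k3 k4

lemma neu (hR : d.R0 ≤ R) (hg : g ∈ ball d.g0 d.δ) (hc : c ∈ Sym.Om (2 * d.Λ) R) (θ : ℝ) :
    fderivWithin ℝ (fn (d.Ef R g c)) (Icc d.s R ×ˢ univ) (R, θ) (1, 0) = 0 := by
  have h : d.s < R := by linarith [(R_ge hR).2.2.1, d.s1]
  have h1 : Cone.tr 1 R (d.Ef R g c).2.1 = 0 := by
    ext k
    rw [Cone.cf_tr, cf_zero]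
    exact d.hE.neu R (R_ge hR).1 _ (memE hR hg hc) k
  rw [show fderivWithin ℝ _ _ _ = fn1 (d.Ef R g c) (R, θ) from congrArg Prod.snd
    (jw1_tri h (triE hR hg hc) (z := (R, θ)) ⟨⟨h.le, le_rfl⟩, trivial⟩), Cone.fn1_y, Cone.val_eq_tr,
    h1, map_zero]

lemma hol (hR : d.R0 ≤ R) : DifferentiableOn ℂ (fun q : A 2 × ℂ => d.Ef R q.1 q.2)
    (ball d.g0 d.δ ×ˢ Sym.Om (2 * d.Λ) R) :=
  (d.hE.hol R (R_ge hR).1).comp (f := fun q : A 2 × ℂ => (q.1 - c2, d.Y R q.2))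
    ((differentiableOn_fst.sub_const _).prodMk ((d.inv.hol R (R_ge hR).2.1).comp
      differentiableOn_snd fun _ hq => hq.2)) fun _ hq => memE hR hq.1 hq.2

lemma x3 (hR : d.R0 ≤ R) (h1 : R ≤ R') (h2 : R' ≤ R + 1) (hg : g ∈ ball d.g0 d.δ)
    (hc : c ∈ Sym.Om (2 * d.Λ) R') {C : ℝ} (hC : 4 * |d.C₂| * (d.s + 6) ^ 2 ≤ C) :
    ‖d.lf R' g c - d.lf R g c‖ ≤ C * (R' - R) * R ^ (-5 - 3 / 5 : ℝ) ∧
      ∀ p : P2, d.s < p.1 → p.1 < d.s + 6 → ‖jet2 (fn (d.Ef R' g c)) p - jet2 (fn (d.Ef R g c)) p‖ ≤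
        C * (R' - R) * R ^ (-5 - 3 / 5 : ℝ) := by
  obtain ⟨r1, r2, r3, r4⟩ := R_ge hR
  have hc' := nest hR h1 hc
  have k := d.hE.lipR R R' r1 h1 h2 _ (memE hR hg hc').1 c hc (d.s + 6) ⟨by linarith, by linarith⟩
  rw [← End.res3L_apply, ← End.res3L_apply, ← map_sub, End.res3L_apply] at k
  have k2 : 4 * ‖res3 d.s (d.s + 6) (d.Ef R' g c - d.Ef R g c)‖ ≤
      C * (R' - R) * R ^ (-5 - 3 / 5 : ℝ) := by
    have : 0 ≤ (R' - R) * R ^ (-(28 / 5) : ℝ) := mul_nonneg (by linarith) (by positivity)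
    rw [show (-5 - 3 / 5 : ℝ) = -(28 / 5) by norm_num]
    refine (mul_le_mul_of_nonneg_left k (by norm_num)).trans ?_
    nlinarith [mul_le_mul_of_nonneg_right hC this, mul_le_mul_of_nonneg_right (le_abs_self d.C₂)
      (mul_nonneg this (sq_nonneg (d.s + 6)))]
  refine ⟨?_, fun p hp hp' => ?_⟩
  · rw [lf, lf, sub_sub_sub_cancel_right, ← map_sub, ← lwL_res3 (b := d.s + 6) ⟨le_rfl, by linarith⟩]
    exact (norm_lwL_le _ _).trans (by linarith [norm_nonneg (res3 d.s (d.s + 6)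
      (d.Ef R' g c - d.Ef R g c))])
  · rw [jetE hR hg hc' hp (by linarith [d.s1]), jetE (hR.trans h1) hg hc hp (by linarith [d.s1]),
      ← map_sub, ← jt_res3 _ ⟨hp.le, hp'.le⟩]
    exact (norm_jt_le _ _).trans k2

lemma x5 (hR : d.R0 ≤ R) (hg : g ∈ ball d.g0 d.δ) (hc : c ∈ Sym.Om (2 * d.Λ) R)
    {C : ℝ} (hC : 2 * π * (128 * Real.exp 4) * |d.C₂| ^ 2 * 8 ≤ C) :
    ‖(∫ θ in (0 : ℝ)..2 * π, Complex.exp (-fn (d.Ef R g c) (R, θ) ^ 2 / 4) *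
        Complex.sqrt (fn (d.Ef R g c) (R, θ) ^ 2 + deriv (fun t => fn (d.Ef R g c) (R, t)) θ ^ 2)) -
      Nm.bet (d.Y R c)‖ ≤ C * R ^ (-2 - 3 / 5 : ℝ) * ‖d.Y R c‖ ^ (-(1 / 2) : ℝ) := by
  obtain ⟨r1, -, -, r4⟩ := R_ge hR
  have hΛ := d.C0.trans d.inv.room
  have hy' : ‖d.Y R c - 4‖ < 4 := (mem_ball_iff_norm.1 (memD hR hc)).trans_le
    (sub_le_self _ (by positivity))
  have y0 : 0 < (d.Y R c).re := by
    have := (abs_lt.1 ((Complex.abs_re_le_norm _).trans_lt hy')).1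
    simp at this; linarith
  have y8 : ‖d.Y R c‖ ≤ 8 := by
    have := norm_add_le (d.Y R c - 4) 4
    simp at this; linarith
  have yp : 0 < ‖d.Y R c‖ := y0.trans_le (Complex.re_le_norm _)
  have e : ∀ θ, fn (d.Ef R g c) (R, θ) = ev 2 ℂ θ (Cone.tr 2 R (d.Ef R g c).1) := fun θ =>
    Cone.val_eq_tr _ _ _
  simp only [e, (hasDerivAt_ev _ _).deriv]
  refine (main_le y0 y8 ((Cone.cf_tr _ _ _).trans (d.hE.tip0 R r1 _ (memE hR hg hc))) (d.tip R hR)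
    ((d.hE.tip R r1 _ (memE hR hg hc)).trans ?_)).trans ?_
  · rw [mul_right_comm]
    gcongr
    exact le_abs_self _
  · have a1 : (R ^ (-(19 / 10) : ℝ)) ^ 2 ≤ R ^ (-2 - 3 / 5 : ℝ) := by
      rw [← Real.rpow_natCast, ← Real.rpow_mul (by linarith)]
      exact Real.rpow_le_rpow_of_exponent_le r4 (by norm_num)
    have a2 : √‖d.Y R c‖ ≤ 8 * ‖d.Y R c‖ ^ (-(1 / 2) : ℝ) := by
      rw [Real.sqrt_eq_rpow, show (1 / 2 : ℝ) = 1 + -(1 / 2) by norm_num, Real.rpow_add yp,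
        Real.rpow_one, show (-(1 + -(1 / 2)) : ℝ) = -(1 / 2) by norm_num]
      gcongr
    calc _ ≤ 2 * π * (128 * Real.exp 4) * (|d.C₂| ^ 2 * R ^ (-2 - 3 / 5 : ℝ)) *
          (8 * ‖d.Y R c‖ ^ (-(1 / 2) : ℝ)) := by rw [mul_pow]; gcongr
      _ = 2 * π * (128 * Real.exp 4) * |d.C₂| ^ 2 * 8 * R ^ (-2 - 3 / 5 : ℝ) *
          ‖d.Y R c‖ ^ (-(1 / 2) : ℝ) := by ring
      _ ≤ _ := by gcongr

lemma x6 (hR : d.R0 ≤ R) (hg : g ∈ ball d.g0 d.δ) (hc : c ∈ Sym.Om (2 * d.Λ) R)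
    (h : ‖c‖ ≤ d.δ / R ^ 2) (hp : d.s < p.1) (hp' : p.1 < R) : CylSm d.ε (fn (d.Ef R g c)) p := by
  obtain ⟨r1, r2, -, r4⟩ := R_ge hR
  rw [le_div_iff₀ (by positivity), ← d.inv.right R r2 c hc] at h
  obtain ⟨k1, k2⟩ := d.hE.small R r1 _ (memE hR hg hc) R ⟨by linarith, le_rfl⟩ (h.trans d.d1)
  have k : d.C₁ * (‖g - c2‖ + ‖d.cc R (d.Y R c)‖ * R ^ 2) ≤ |d.C₁| * (3 * d.δ) :=
    mul_le_mul (le_abs_self _) (by linarith [lt2 hg]) (by positivity) (abs_nonneg _)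
  exact cylSm_of ((triE hR hg hc).contDiffAt ⟨hp, hp'⟩) (jetE hR hg hc hp hp') (by linarith [d.s1])
    (((triE hR hg hc).cl ▸ k1).trans k) ((k2 p.1 ⟨hp.le, hp'.le⟩ p.2).trans k) d.dεE

lemma x7 (Z ε : ℝ) (hε : 0 < ε) : ∃ R₂, ∀ R, R₂ ≤ R → ∀ g ∈ ball d.g0 d.δ,
    ∀ c ∈ Sym.Om (2 * d.Λ) R, ‖d.lf R g c - d.li g‖ ≤ ε ∧ ∀ p : P2, d.s < p.1 → p.1 < Z →
      ‖jet2 (fn (d.Ef R g c)) p - jet2 (fn (d.Ei g)) p‖ ≤ ε := by
  obtain ⟨R₂, h⟩ := d.hI.x7 _ _ _ _ _ _ _ _ d.hE d.cle (max d.s Z) (ε / 4) (le_max_left _ _)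
    (by positivity)
  refine ⟨max R₂ (max d.R0 Z), fun R hR g hg c hc => ?_⟩
  obtain ⟨r1, r2, r3⟩ : R₂ ≤ R ∧ d.R0 ≤ R ∧ Z ≤ R := by simpa using hR
  have k := h R r1 _ (memE r2 hg hc) ((lt2 hg).trans_le d.dI)
    ((mul_le_mul (le_abs_self _) (lt2 hg).le (norm_nonneg _) (abs_nonneg _)).trans d.dη)
  rw [← End.res3L_apply, ← End.res3L_apply, ← map_sub, End.res3L_apply] at k
  change ‖res3 _ _ (d.Ef R g c - d.Ei g)‖ ≤ _ at k
  refine ⟨?_, fun p hp hp' => ?_⟩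
  · rw [lf, li, sub_sub_sub_cancel_right, ← map_sub, ← lwL_res3 ⟨le_rfl, le_max_left _ Z⟩]
    exact (norm_lwL_le _ _).trans (by linarith)
  · rw [jetE r2 hg hc hp (hp'.trans_le r3), jetI hg hp, ← map_sub,
      ← jt_res3 _ ⟨hp.le, le_max_of_le_right hp'.le⟩]
    exact (norm_jt_le _ _).trans (by linarith)

/-! #### Local estimates -/

lemma Ylip {Q : ℝ} (hR : d.R0 ≤ R) (hR' : d.R0 ≤ R') (h : |R' - R| ≤ 1) (h1 : R ≤ Q) (h2 : R' ≤ Q)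
    (hc : c ∈ Sym.Om (2 * d.Λ) R) (hc' : c' ∈ Sym.Om (2 * d.Λ) R') :
    ‖d.Y R' c' - d.Y R c‖ ≤ d.C₀ * |R' - R| + 2 * Q ^ 2 * ‖c' - c‖ := by
  wlog k : R ≤ R' generalizing R R' c c'
  · rw [norm_sub_rev, abs_sub_comm, norm_sub_rev c']
    exact this hR' hR (abs_sub_comm R R' ▸ h) h2 h1 hc' hc (not_le.1 k).le
  obtain ⟨-, r2, -, r4⟩ := R_ge hR
  rw [abs_of_nonneg (sub_nonneg.2 k)] at h ⊢
  have a1 := (d.inv.lipR R R' r2 k (by linarith) c' hc').trans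
    (div_le_self (mul_nonneg d.C0 (sub_nonneg.2 k)) r4)
  have a2 : ‖d.Y R c' - d.Y R c‖ ≤ 2 * Q ^ 2 * ‖c' - c‖ :=
    (d.inv.lip R r2 c' (nest hR k hc') c hc).trans (by gcongr)
  linarith [norm_sub_le_norm_sub_add_norm_sub (d.Y R' c') (d.Y R c') (d.Y R c)]

variable (d) in
/-- parameters near `(R₂, g₂, c₂)` -/
def Nr (R₂ : ℝ) (g₂ : A 2) (c₂ : ℂ) (ε R : ℝ) (g : A 2) (c : ℂ) : Prop :=
  d.R0 ≤ R ∧ |R - R₂| < ε ∧ g ∈ ball d.g0 d.δ ∧ ‖g - g₂‖ < ε ∧ c ∈ Sym.Om (2 * d.Λ) R ∧ ‖c - c₂‖ < ε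

lemma lipA {R₂ : ℝ} {g₂ : A 2} {c₂ : ℂ} (hR : d.R0 ≤ R₂) (hg : g₂ ∈ ball d.g0 d.δ)
    (hc : c₂ ∈ Sym.Om (2 * d.Λ) R₂) : ∃ K ε : ℝ, 0 ≤ K ∧ 0 < ε ∧ ε ≤ 1 / 2 ∧ ∀ R g c R' g' c',
      d.Nr R₂ g₂ c₂ ε R g c → d.Nr R₂ g₂ c₂ ε R' g' c' → R ≤ R' → ∀ z : P2, z.1 ∈ Icc d.s R →
        ‖oneL (jt 0 z (d.Ef R' g' c')) - oneL (jt 0 z (d.Ef R g c))‖ ≤
          K * (R' - R + ‖g' - g‖ + ‖c' - c‖) := by
  obtain ⟨K, ε, hε, h⟩ := d.hE.lip R₂ (R_ge hR).1 _ (memE hR hg hc)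
  set L := 1 + d.C₀ + 2 * (R₂ + 1) ^ 2 with hL
  have L1 : 1 ≤ L := by linarith [d.C0, sq_nonneg (R₂ + 1)]
  have xl : ∀ {R g c R' g' c'}, d.R0 ≤ R → d.R0 ≤ R' → |R' - R| ≤ 1 → R ≤ R₂ + 1 → R' ≤ R₂ + 1 →
      c ∈ Sym.Om (2 * d.Λ) R → c' ∈ Sym.Om (2 * d.Λ) R' →
      ‖(g' - c2, d.Y R' c') - (g - c2, d.Y R c)‖ ≤ L * (|R' - R| + ‖g' - g‖ + ‖c' - c‖) := by
    intro R g c R' g' c' a1 a2 a3 a4 a5 a6 a7
    have := Ylip a1 a2 a3 a4 a5 a6 a7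
    rw [Prod.mk_sub_mk, sub_sub_sub_cancel_right]
    have b1 := abs_nonneg (R' - R)
    have b2 := norm_nonneg (g' - g)
    have b3 := norm_nonneg (c' - c)
    have b4 := d.C0
    have b5 := sq_nonneg (R₂ + 1)
    refine max_le ?_ (this.trans ?_) <;> rw [hL] <;> nlinarith [mul_nonneg b4 b1, mul_nonneg b4 b2,
      mul_nonneg b4 b3, mul_nonneg b5 b1, mul_nonneg b5 b2, mul_nonneg b5 b3]
  have nr : ∀ {R g c}, d.Nr R₂ g₂ c₂ (min (1 / 2) (ε / (3 * L))) R g c → |R - R₂| < 1 / 2 ∧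
      |R - R₂| < ε ∧ ‖(g - c2, d.Y R c) - (g₂ - c2, d.Y R₂ c₂)‖ < ε := by
    intro R g c ⟨a1, a2, _, a4, a5, a6⟩
    rw [lt_min_iff, lt_div_iff₀ (c := 3 * L) (by positivity)] at a2 a4 a6
    refine ⟨a2.1, by nlinarith [abs_nonneg (R - R₂)], (xl hR a1 (by linarith) (by linarith)
      (by linarith [(abs_lt.1 a2.1).2]) hc a5).trans_lt (by linarith)⟩
  refine ⟨|K| * (1 + L), min (1 / 2) (ε / (3 * L)), by positivity, by positivity, min_le_left _ _,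
    fun R g c R' g' c' a b k z hz => ?_⟩
  obtain ⟨a1, a2, a3⟩ := nr a
  obtain ⟨b1, b2, b3⟩ := nr b
  rw [abs_lt] at a1 b1
  have e := abs_of_nonneg (sub_nonneg.2 k)
  have h1 := xl (g := g) (g' := g') a.1 b.1 (by rw [e]; linarith) (by linarith) (by linarith)
    a.2.2.2.2.1 b.2.2.2.2.1
  obtain ⟨h2, h3⟩ := h R R' _ _ (R_ge a.1).1 k a2 b2 (memE a.1 a.2.2.1 a.2.2.2.2.1)
    (memE b.1 b.2.2.1 b.2.2.2.2.1) a3 b3 z.1 hz z.2
  rw [e] at h1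
  refine (max_le h2 h3).trans ((mul_le_mul_of_nonneg_right (le_abs_self K) (by
    linarith [norm_nonneg ((g' - c2, d.Y R' c') - (g - c2, d.Y R c))])).trans ?_)
  rw [mul_assoc]
  gcongr
  linarith [norm_nonneg (g' - g), norm_nonneg (c' - c)]

lemma x4 {R₂ : ℝ} {g₂ : A 2} {c₂ : ℂ} (hR : d.R0 ≤ R₂) (hg : g₂ ∈ ball d.g0 d.δ)
    (hc : c₂ ∈ Sym.Om (2 * d.Λ) R₂) : ∃ M η ε : ℝ, 0 < η ∧ 0 < ε ∧ ∀ R g c, d.Nr R₂ g₂ c₂ ε R g c →
      (∀ p ∈ Icc d.s R ×ˢ (univ : Set ℝ), ‖jw2 (Icc d.s R ×ˢ univ) (fn (d.Ef R g c)) p‖ ≤ M ∧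
        η ≤ (gC (jw1 (Icc d.s R ×ˢ univ) (fn (d.Ef R g c)) p)).re) ∧
      ∀ R' g' c', d.Nr R₂ g₂ c₂ ε R' g' c' → R ≤ R' → ∀ p : P2, d.s < p.1 → p.1 < R →
        ‖jet1 (fn (d.Ef R' g' c')) p - jet1 (fn (d.Ef R g c)) p‖ ≤
          M * (R' - R + ‖g' - g‖ + ‖c' - c‖) := by
  obtain ⟨K, ε, hK, hε, hε1, h⟩ := lipA hR hg hc
  let q : P2 → J1 P2 ℂ := fun z => oneL (jt 0 z (d.Ef R₂ g₂ c₂))
  have cK : IsCompact (q '' Icc d.s R₂ ×ˢ Icc 0 (2 * π)) :=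
    (isCompact_Icc.prod isCompact_Icc).image (oneL.continuous.comp (continuous_jt _))
  have cf : Continuous fun j : J1 P2 ℂ => (gC j).re := by unfold gC; fun_prop
  obtain ⟨η, hη, h1⟩ := cK.exists_forall_le' cf.continuousOn (a := 0) (by
    rintro _ ⟨z, hz, rfl⟩
    exact (gC_jt _ z).symm ▸ (d.hE.good R₂ (R_ge hR).1 _ (memE hR hg hc) z.1 hz.1 z.2).2)
  obtain ⟨ρ, hρ, h2⟩ := cK.exists_thickening_subset_open
    (isOpen_lt (continuous_const (y := η / 2)) cf) fun j hj => (half_lt_self hη).trans_le (h1 j hj)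
  set B := 4 * (|d.C₂| * (R₂ + 1))
  have hB : 0 ≤ B := by have := (R_ge hR).2.2.2; positivity
  set ε₁ := min ε (ρ / (B + 3 * K + 1))
  have e1 : ε₁ * (B + 3 * K + 1) ≤ ρ := (le_div_iff₀ (by positivity)).1 (min_le_right _ _)
  have e0 : 0 < ε₁ := by positivity
  have nr : ∀ {R g c}, d.Nr R₂ g₂ c₂ ε₁ R g c → d.Nr R₂ g₂ c₂ ε R g c := fun ⟨a, b, c, e, f, g⟩ =>
    ⟨a, b.trans_le (min_le_left _ _), c, e.trans_le (min_le_left _ _), f,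
      g.trans_le (min_le_left _ _)⟩
  have n0 : d.Nr R₂ g₂ c₂ ε R₂ g₂ c₂ := ⟨hR, by simpa, hg, by simpa, hc, by simpa⟩
  refine ⟨B + K, η / 2, ε₁, half_pos hη, e0, fun R g c a => ⟨fun p hp => ?_,
    fun R' g' c' b k p hp hp' => ?_⟩⟩
  · obtain ⟨a1, a2, a3, a4, a5, a6⟩ := id a
    have t := triE a1 a3 a5
    have hs : d.s < R := by linarith [(R_ge a1).2.2.1, d.s1]
    have hs2 : d.s < R₂ := by linarith [(R_ge hR).2.2.1, d.s1]
    have b1 : 4 * ‖d.Ef R g c‖ ≤ B := mul_le_mul_of_nonneg_left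
      ((d.hE.bdd R (R_ge a1).1 _ (memE a1 a3 a5)).trans (mul_le_mul (le_abs_self _)
        (by linarith [(abs_lt.1 (nr a).2.1).2]) (by linarith [d.s1]) (abs_nonneg _))) (by norm_num)
    rw [jw2_tri hs t hp, jw1_tri hs t hp]
    refine ⟨(norm_jt_le _ _).trans (by linarith), le_of_lt (h2 (mem_thickening_iff.2 ?_))⟩
    have m1 : min p.1 R₂ ∈ Icc d.s R := ⟨le_min hp.1.1 hs2.le, min_le_of_left_le hp.1.2⟩
    have m2 : min p.1 R₂ ∈ Icc d.s R₂ := ⟨m1.1, min_le_right _ _⟩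
    obtain ⟨θ, hθ, e⟩ := Function.Periodic.exists_mem_Ico₀ (f := fun θ => q (min p.1 R₂, θ))
      (fun θ => congrArg oneL (jt_per _ _ θ)) Real.two_pi_pos p.2
    refine ⟨_, ⟨(_, θ), ⟨m2, Ico_subset_Icc_self hθ⟩, e.symm⟩, ?_⟩
    have c1 := mv t (z := p) (z' := (min p.1 R₂, p.2)) hp.1 m1
    have c2 : ‖p - (min p.1 R₂, p.2)‖ ≤ ε₁ := by
      refine max_le ?_ (by simpa using e0.le)
      change |p.1 - min p.1 R₂| ≤ _
      rw [abs_of_nonneg (sub_nonneg.2 (min_le_left _ _)), sub_le_comm]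
      exact le_min (by linarith) (by linarith [hp.1.2, (abs_lt.1 a2).2])
    have c3 : ‖oneL (jt 0 (min p.1 R₂, p.2) (d.Ef R g c)) - q (min p.1 R₂, p.2)‖ ≤ K * (3 * ε₁) := by
      rw [abs_lt] at a2
      rcases le_total R R₂ with k | k
      · rw [norm_sub_rev]
        refine (h _ _ _ _ _ _ (nr a) n0 k _ m1).trans (mul_le_mul_of_nonneg_left ?_ hK)
        rw [norm_sub_rev g₂, norm_sub_rev c₂]
        linarith
      · exact (h _ _ _ _ _ _ n0 (nr a) k _ m2).trans (mul_le_mul_of_nonneg_left (by linarith) hK)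
    rw [dist_eq_norm]
    refine (norm_sub_le_norm_sub_add_norm_sub _ _ _).trans_lt ((add_le_add (c1.trans
      (mul_le_mul b1 c2 (norm_nonneg _) hB)) c3).trans_lt (by linarith))
  · rw [jet1_of (jetE a.1 a.2.2.1 a.2.2.2.2.1 hp hp'),
      jet1_of (jetE b.1 b.2.2.1 b.2.2.2.2.1 hp (hp'.trans_le k))]
    refine (h _ _ _ _ _ _ (nr a) (nr b) k p ⟨hp.le, hp'.le⟩).trans ?_
    have : 0 ≤ R' - R + ‖g' - g‖ + ‖c' - c‖ := by
      linarith [norm_nonneg (g' - g), norm_nonneg (c' - c)]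
    gcongr
    linarith

/-! #### The family -/

lemma x7W (d : Dat) : ∃ u, IsW d.s (d.E d.h₀) u ∧ ∀ p : P2, d.s ≤ p.1 →
    Tendsto (fun q : ℝ × A 2 => deriv (fun c : ℂ => fn (d.Ef q.1 q.2 c) p) 0) (atTop ×ˢ 𝓝 d.g0)
      (𝓝 (u p)) := by
  obtain ⟨u, hu, hW⟩ := d.hI.jac _ mem0' d.hs
  have h0 : ‖d.h₀‖ < 2 * d.δ := g0_sub ▸ lt2 mem0
  have t : Tendsto (fun q : ℝ × A 2 => (q.1, q.2 - c2)) (atTop ×ˢ 𝓝 d.g0) (atTop ×ˢ 𝓝 d.h₀) :=
    tendsto_fst.prodMk (g0_sub (d := d) ▸ tendsto_snd.sub_const c2)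
  refine ⟨u, hu, fun p hp => ?_⟩
  have k := (hW _ _ _ _ _ _ _ _ _ _ (d.C0.trans d.inv.room) d.hE d.inv (h0.trans_le d.dE)
    (((mul_le_mul (le_abs_self _) h0.le (norm_nonneg _) (abs_nonneg _)).trans d.dη).trans_lt
      (half_lt_self d.ηpos)) p hp).comp t
  simpa only [Function.comp_def, Ef] using k

theorem cylFam (d : Dat) : ∃ C u, CylFam (Ba d.c) (eR d.a d.b) d.r d.Λ d.Y d.ε d.s d.δ d.δ C d.R0
    d.g0 (fun g => Fam.mfn (fun _ => 1) (d.Ei g)) d.li (Fam.dE (fun _ => 1) d.Ei d.g0)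
    (fderiv ℂ d.li d.g0) u (fun R g c => fn (d.Ef R g c)) d.lf := by
  obtain ⟨u, hu, hW⟩ := x7W d
  obtain ⟨C, c1, c2, c3, c4, c5, c6, c7⟩ := ((eventually_ge_atTop (32 * d.M ^ 2 / d.δ)).and
    ((eventually_ge_atTop (64 * d.M ^ 2 / d.δ ^ 2)).and ((eventually_ge_atTop (4 * d.M / d.δ ^ 2)).and
    ((eventually_ge_atTop (4 * d.CI)).and ((eventually_ge_atTop (max 8 d.C₁)).and
    ((eventually_ge_atTop (4 * |d.C₂| * (d.s + 6) ^ 2)).and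
    (eventually_ge_atTop (2 * π * (128 * Real.exp 4) * |d.C₂| ^ 2 * 8)))))))).exists
  have k : ∀ {x y : ℝ}, 0 ≤ y → x ≤ d.CI * y → 4 * x ≤ C * y := fun h1 h2 => by nlinarith
  refine ⟨C, u,
    { toInfFam := d.tris.infFam c1 c2 c3
      δ₁pos := d.δpos
      big := (R_ge le_rfl).2.2.1
      smalli := fun g hg p hp => ?_
      lipi := fun g hg g' hg' p hp => ?_
      glob' := fun v p hp => ?_
      jac := jac hu
      fc2 := fun R hR g hg c hc => (triE hR hg hc).contDiffOn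
      fper := fun R _ g _ c _ p => fn_per _ p
      feq := fun R hR g hg c hc p hp hp' =>
        have := feq hR hg hc hp hp'
        ⟨this.1, this.2.1, this.2.2.trans c5⟩
      neu := fun R hR g hg c hc θ => neu hR hg hc θ
      fmat := fun R hR g hg c hc h θ =>
        (mat_of (d.hE.trace R (R_ge hR).1 _ (memE hR hg hc)) θ).trans (by
          rw [show lwL _ (d.e _ _) - _ = 0 from h, map_zero, add_zero])
      freal := fun R hR g hg c hc hr h =>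
        have hr := (Fam.reA_iff g).1 hr
        have := d.hE.real R (R_ge hR).1 _ (memE hR hg hc) (star_sub_c2 hr)
          (d.inv.real R (R_ge hR).2.1 c hc h)
        ⟨fun p _ _ => Fam.fn_real this p, isRe_lw this hr⟩
      fhol := fun R hR => ⟨fun p hp hp' =>
        ((oneL.comp (jt 0 p)).differentiable.comp_differentiableOn (hol hR)).congr fun q hq =>
          jet1_of (jetE hR hq.1 hq.2 hp (by linarith [(R_ge hR).2.2.1, d.s1])),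
        ((lwL d.s).differentiable.comp_differentiableOn (hol hR)).sub
          (lowL.differentiable.comp_differentiableOn differentiableOn_fst)⟩
      x3 := fun R R' hR h1 h2 g hg c hc => x3 hR h1 h2 hg hc c6
      x4 := fun R₂ hR g₂ hg c₂ hc => ?_
      x5 := fun R hR g hg c hc => x5 hR hg hc c7
      x6 := fun R hR g hg c hc h p hp hp' => x6 hR hg hc h hp hp'
      x7 := fun Z ε hε => by simp only [mfn_one]; exact x7 Z ε hε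
      x7W := fun p hp _ => hW p hp.le }⟩
  · rw [mfn_one]
    obtain ⟨h1, h2⟩ := d.hI.small _ (memI hg)
    exact cylSm_of ((d.hI.tri _ (memI hg)).contDiffAt hp) (jetI hg hp) (by linarith [d.s1])
      (h1.trans (smI hg)) ((h2 _ _ hp.le).trans (smI hg)) d.dεI
  · rw [mfn_one, mfn_one, jet1_of (jetI hg hp), jet1_of (jetI hg' hp), ← map_sub, ← map_sub]
    exact (norm_oneL_jt _ _).trans (k (norm_nonneg _) (by
      simpa [Ei] using d.hI.lip _ (memI hg') _ (memI hg)))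
  · rw [Fam.dE_apply, mfn_one, jet1_of ((d.tris.dtri v).jet2_eq hp), fderiv_Ei]
    exact (norm_oneL_jt _ _).trans (k (norm_nonneg _) (d.hI.dle _ mem0' v))
  · obtain ⟨M, η, ε, h1, h2, h⟩ := x4 hR hg hc
    exact ⟨M, η, ε, h1, h2, fun R a1 a2 g a3 a4 c a5 a6 => ⟨(h R g c ⟨a1, a2, a3, a4, a5, a6⟩).1,
      fun R' k b2 g' b3 b4 c' b5 b6 => (h R g c ⟨a1, a2, a3, a4, a5, a6⟩).2 R' g' c'
        ⟨a1.trans k, b2, b3, b4, b5, b6⟩ k⟩⟩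

end Dat

/-- the graph function of an end solves the equation -/
lemma ep_end {S : Set E3} (hS : P218FT.IsShr S) {a b c : E3} {z₀ δ : ℝ} {r : P2 → ℝ}
    (h : Ends.CylEnd S a b c z₀ δ r) (hδ : 0 < δ) (h4 : 4 ≤ δ * z₀) {z : P2} (hz : z₀ < z.1) :
    ep z.1 (jet2 (fun y => (r y : ℂ)) z) = 0 := by
  have h2 : ContDiff ℝ 2 r := h.smooth.of_le P218FT.two_le_inf
  have hc : ContDiffAt ℝ 2 (fun y => (r y : ℂ)) z :=
    (Complex.ofRealCLM.contDiff.comp h2).contDiffAt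
  have h1 := (h.bd z).1
  refine ((geom h.tri hc (Complex.ofReal_ne_zero.2 (by linarith))).2.2 fun h0 => ?_).1 ?_
  · have e : fderiv ℝ (fun y => (r y : ℂ)) z = Complex.ofRealCLM.comp (fderiv ℝ r z) :=
      (Complex.ofRealCLM.hasFDerivAt.comp z (h2.differentiable (by simp) z).hasFDerivAt).fderiv
    simp only [gC, jet2, J2.one, e, ContinuousLinearMap.comp_apply, Complex.ofRealCLM_apply] at h0
    norm_cast at h0
    exact absurd h0 (by positivity)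
  · rw [Shr, show cylY a b c (fun y => (r y : ℂ)) = fun v => cE (Ends.cylPt a b c v.1 v.2 (r v)) by
      funext v i
      simp [cylY, eR, Ends.cylPt, mul_add, mul_assoc]]
    refine Cone.shr_of_isShr hS (by unfold Ends.cylPt; fun_prop) ?_ _
    filter_upwards [(isOpen_lt continuous_const continuous_fst).mem_nhds hz] with w hw
    have := h.bd w
    exact (h.mem w.1 w.2 _ (le_of_lt hw) (by linarith)
      (by nlinarith [mul_lt_mul_of_pos_left (show z₀ < w.1 from hw) hδ])).2 rfl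

/-- **END-CYL** -/
theorem _root_.Vale.Agent.P218F.LS.cylFam_of (hE : End.EndStmt) (hI : EndI.InfStmt)
    (hB : EndI.BaseStmt) : CylFamStmt := by
  intro C₀
  by_cases h1 : 1 ≤ C₀
  swap
  · exact ⟨0, fun _ _ _ _ _ _ _ _ _ h => absurd h.one h1⟩
  obtain ⟨Λ₁, hE⟩ := hE C₀ h1
  refine ⟨Λ₁, fun Λ Z₀ R₀ κ V P cc Y hΛ h S D hS j ε hε => ?_⟩
  obtain ⟨δE, C₁, p1, hE⟩ := hE Λ Z₀ R₀ V P cc Y hΛ h.zpos h.zlam h.fam h.lip h.inv
  obtain ⟨δI, η, CI, p2, p3, p4, hI⟩ := hI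
  have k : ∀ {K x : ℝ}, 0 < x → ∀ᶠ δ in 𝓝[>] (0 : ℝ), K * δ ≤ x := fun {K x} hx =>
    nhdsWithin_le_nhds ((by fun_prop : ContinuousAt (fun δ => K * δ) 0).eventually_le_const
      (by simpa))
  obtain ⟨δ, d0, d1, d2, d3, d4, d5, d6⟩ := (eventually_mem_nhdsWithin.and ((k (K := 2) p1).and
    ((k (K := 2) p2).and ((k (K := |C₁| * 2) (half_pos p3)).and ((k (K := 4 * CI * 2) hε).and
    ((k (K := 4 * |C₁| * 3) hε).and (k (K := 1) one_half_pos))))))).exists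
  obtain ⟨Z, hZ⟩ := hB δI η CI (D.r j) D.R₀ p2 p3 (D.cyl j).smooth (D.cyl j).per (D.cyl j).lim
    (fun z hz => ep_end hS (D.cyl j) D.δpos D.big hz) δ d0
  refine ⟨max Z (max Z₀ 16), fun s hs => ?_⟩
  obtain ⟨s1, s2, s3⟩ : Z ≤ s ∧ Z₀ ≤ s ∧ 16 ≤ s := by simpa using hs
  obtain ⟨R₁, C₂, e, r1, hE⟩ := hE s s2
  obtain ⟨E, hI⟩ := hI s s3
  obtain ⟨h₀, -, a1, a2, a3, a4⟩ := hZ s s1 E hI
  have t : Tendsto (fun R : ℝ => |C₂| * R ^ (-(19 / 10) : ℝ)) atTop (𝓝 0) := by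
    simpa using (tendsto_rpow_neg_atTop (y := 19 / 10) (by norm_num)).const_mul |C₂|
  obtain ⟨R0, r2⟩ := eventually_atTop.1 ((eventually_ge_atTop R₁).and
    (t.eventually (gt_mem_nhds (by norm_num : (0 : ℝ) < 1 / 4))))
  obtain ⟨C, u, hC⟩ := Dat.cylFam
    { a := D.a j, b := D.b j, c := D.c j, r := D.r j, T := (D.cyl j).tri, hE := hE, hI := hI
      inv := h.inv, cle := fun R hR y hy => (h.fam.sol R (r1.trans hR) y hy).c_le
      C0 := zero_le_one.trans h1, R01 := r1, R10 := (r2 R0 le_rfl).1, s1 := by linarith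
      CI0 := zero_le_one.trans p4, δpos := d0, dE := d1, dI := d2, dη := by linarith, ηpos := p3
      dεI := by linarith, dεE := by linarith, d1 := by linarith, h0 := a1, hs := a2, ev0 := a3
      base := a4, tip := fun R hR => (r2 R hR).2, ε := ε, .. }
  exact ⟨_, _, C, _, _, _, _, _, _, u, _, _, hC⟩

end

end Vale.Agent.P218F.LS.EB
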