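import Vale.Agent.P218F.Norm1

/-!
# P218, block NORMAL, part 2: families which converge like `R ^ (-4 - d)`
-/

noncomputable section

namespace Vale.Agent.P218F.Nm

open Set Metric Filter Topology Asymptotics
open Vale.Agent.P218F.Core

/-- nested parameter domains -/
structure Nest (R0 : ℝ) (U : ℝ → Set ℂ) : Prop where
  one : 1 ≤ R0
  opn : ∀ R, IsOpen (U R)
  small : ∀ R, R0 ≤ R → ball 0 (1 / R ^ 2) ⊆ U R
  le : ∀ R, R0 ≤ R → ∀ c ∈ U R, ‖c‖ ≤ 6 / R ^ 2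
  nest : ∀ R R', R0 ≤ R → R ≤ R' → U R' ⊆ U R

theorem Nest.mono {R0 R1 : ℝ} {U : ℝ → Set ℂ} (h : Nest R0 U) (h1 : R0 ≤ R1) : Nest R1 U :=
  ⟨h.one.trans h1, h.opn, fun R hR => h.small R (h1.trans hR), fun R hR => h.le R (h1.trans hR),
    fun R R' hR => h.nest R R' (h1.trans hR)⟩

theorem om_room {L l R : ℝ} {c : ℂ} (hc : c ∈ Sym.Om (L + l) R) :
    ball c (4 * l / R ^ 4) ⊆ Sym.Om L R := by
  refine ball_subset_ball' ?_
  have h1 := mem_ball.1 hc
  have h2 : (4 - (16 * Real.log R + 4 * L) / R ^ 2) / R ^ 2 =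
      4 * l / R ^ 4 + (4 - (16 * Real.log R + 4 * (L + l)) / R ^ 2) / R ^ 2 := by ring
  linarith

theorem om_mono {L L' : ℝ} (h : L ≤ L') (R : ℝ) : Sym.Om L' R ⊆ Sym.Om L R := by
  refine ball_subset_ball ?_
  gcongr

theorem nest_of_inv {C Λ R0 L : ℝ} {cc Y : ℝ → ℂ → ℂ} (h : Sym.Inv C Λ R0 cc Y) (hR : 1 ≤ R0)
    (hL : 0 ≤ L) (hL' : L ≤ 8 * Λ) : Nest R0 (Sym.Om L) where
  one := hR
  opn := fun _ => isOpen_ball
  small := fun R h1 => (h.small R h1).trans (om_mono hL' R)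
  le := fun R h1 c hc => by
    have h2 := mem_ball_iff_norm.1 hc
    have h3 := norm_add_le (c - ((2 / R ^ 2 : ℝ) : ℂ)) ((2 / R ^ 2 : ℝ) : ℂ)
    rw [sub_add_cancel, Complex.norm_real, Real.norm_of_nonneg (by positivity)] at h3
    have h4 : 0 ≤ Real.log R := Real.log_nonneg (hR.trans h1)
    have h5 : (4 - (16 * Real.log R + 4 * L) / R ^ 2) / R ^ 2 ≤ 4 / R ^ 2 := by
      gcongr
      have : 0 ≤ (16 * Real.log R + 4 * L) / R ^ 2 := by positivity
      linarith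
    have h6 : 6 / R ^ 2 = 4 / R ^ 2 + 2 / R ^ 2 := by ring
    linarith
  nest := fun R R' h1 h2 => h.nest R R' h1 h2 L hL hL'

variable {q m : ℕ} {R0 : ℝ} {U : ℝ → Set ℂ}

theorem Nest.W_sub (h : Nest R0 U) {R : ℝ} (hR : R0 ≤ R) (r : ℝ) :
    W q m r (1 / R ^ 2) ⊆ dom q m r (U R) := W_subset_dom (h.small R hR)

theorem Nest.dom_sub (h : Nest R0 U) {R R' : ℝ} (hR : R0 ≤ R) (hR' : R ≤ R') (r : ℝ) :
    dom q m r (U R') ⊆ dom q m r (U R) := dom_mono le_rfl (h.nest R R' hR hR')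

theorem Nest.snd_le (h : Nest R0 U) {R r : ℝ} (hR : R0 ≤ R) {x : X q m}
    (hx : x ∈ dom q m r (U R)) : ‖x.2‖ ≤ 6 / R ^ 2 :=
  (pi_norm_le_iff_of_nonneg (by positivity)).2 fun j => h.le R hR _ (hx.2 j)

theorem Nest.sub_W (h : Nest R0 U) {R : ℝ} (hR : R0 ≤ R) (r : ℝ) :
    dom q m r (U R) ⊆ W q m r 7 := fun x hx => ⟨hx.1, by
  have h1 := h.snd_le hR hx
  have h2 : 1 ≤ R := h.one.trans hR
  have h3 : 6 / R ^ 2 ≤ 6 := div_le_self (by norm_num) (one_le_pow₀ h2)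
  show ‖x.2‖ < 7
  linarith⟩

theorem Nest.zero_mem (h : Nest R0 U) {R r : ℝ} (hR : R0 ≤ R) (hr : 0 < r) :
    (0 : X q m) ∈ dom q m r (U R) := by
  have : 0 < R := by linarith [h.one]
  exact h.W_sub hR r ⟨by simpa using hr, by simpa using pow_pos this 2⟩

theorem convex_W (r ρ : ℝ) : Convex ℝ (W q m r ρ) := by
  have : W q m r ρ = ball 0 r ×ˢ ball 0 ρ := by ext x; simp [W]
  rw [this]
  exact (convex_ball _ _).prod (convex_ball _ _)

theorem ball_subset_W {r ρ s : ℝ} {x : X q m} (h1 : ‖x.1‖ + s ≤ r) (h2 : ‖x.2‖ + s ≤ ρ) :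
    ball x s ⊆ W q m r ρ := fun z hz => by
  have h3 := mem_ball_iff_norm.1 hz
  have h4 : ‖z.1 - x.1‖ ≤ ‖z - x‖ := norm_fst_le (z - x)
  have h5 : ‖z.2 - x.2‖ ≤ ‖z - x‖ := norm_snd_le (z - x)
  exact ⟨by linarith [norm_sub_norm_le z.1 x.1], by linarith [norm_sub_norm_le z.2 x.2]⟩

theorem ball_subset_dom {r s : ℝ} {A : Set ℂ} {x : X q m} (h1 : ‖x.1‖ + s ≤ r)
    (h2 : ∀ j, ball (x.2 j) s ⊆ A) : ball x s ⊆ dom q m r A := fun z hz => by
  have h3 := mem_ball_iff_norm.1 hz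
  have h4 : ‖z.1 - x.1‖ ≤ ‖z - x‖ := norm_fst_le (z - x)
  have h5 : ‖z.2 - x.2‖ ≤ ‖z - x‖ := norm_snd_le (z - x)
  refine ⟨by linarith [norm_sub_norm_le z.1 x.1], fun j => h2 j (mem_ball_iff_norm.2 ?_)⟩
  exact (norm_le_pi_norm (z.2 - x.2) j).trans_lt (h5.trans_lt h3)

variable {V : Type*} [NormedAddCommGroup V] [NormedSpace ℂ V]

theorem lip_W {E : X q m → V} {r ρ s η : ℝ} (hd : DifferentiableOn ℂ E (W q m r ρ))
    (hb : ∀ z ∈ W q m r ρ, ‖E z‖ ≤ η) (hs : 0 < s) (h1 : s ≤ r / 2) (h2 : s ≤ ρ / 2) {x y : X q m}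
    (hx : x ∈ W q m (r / 2) (ρ / 2)) (hy : y ∈ W q m (r / 2) (ρ / 2)) :
    ‖E x - E y‖ ≤ 2 * η / s * ‖x - y‖ := by
  have h3 : ∀ z ∈ W q m (r / 2) (ρ / 2), ball z s ⊆ W q m r ρ := fun z hz =>
    ball_subset_W (by linarith [hz.1]) (by linarith [hz.2])
  refine (convex_W _ _).norm_image_sub_le_of_norm_fderiv_le (𝕜 := ℂ) (fun z hz => ?_)
    (fun z hz => ?_) hy hx
  · exact hd.differentiableAt ((isOpen_W r ρ).mem_nhds (h3 z hz (mem_ball_self hs)))
  · exact fderiv_le hs (hd.mono (h3 z hz)) fun w hw => hb w (h3 z hz hw)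

/-- `T` is the limit of the Taylor polynomials of the family `g` -/
structure IsLim (d L R0 r C : ℝ) (g : ℝ → X q m → V) (T : X q m → V) : Prop where
  nonneg : 0 ≤ C
  hol : DifferentiableOn ℂ T (W q m r 7)
  bdd : ∀ x ∈ W q m r 7, ‖T x‖ ≤ C
  app : ∀ R, R0 ≤ R → ∀ x ∈ dom q m r (Sym.Om L R), ‖g R x - T x‖ ≤ C * R ^ (-4 - d)
  real : ∀ A : Set V, RS A →
    (∀ R, R0 ≤ R → ∀ x ∈ dom q m r (Sym.Om L R), IsRe x → g R x ∈ A) →
    ∀ x ∈ W q m r 7, IsRe x → T x ∈ A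

variable {d L r C : ℝ} {g : ℝ → X q m → V}

theorem PFam.nonneg (h : PFam d L R0 r C g) (hN : Nest R0 (Sym.Om L)) : 0 ≤ C :=
  (norm_nonneg _).trans (h.bdd R0 le_rfl 0 (hN.zero_mem le_rfl h.rpos))

theorem PFam.mono (h : PFam d L R0 r C g) {R1 : ℝ} (h1 : R0 ≤ R1) : PFam d L R1 r C g :=
  ⟨h.rpos, fun R hR => h.hol R (h1.trans hR), fun R hR => h.bdd R (h1.trans hR),
    fun R R' hR => h.lipR R R' (h1.trans hR)⟩

theorem PFam.lipR' (h : PFam d L R0 r C g) (hd : 0 < d) (hN : Nest R0 (Sym.Om L)) {R R' : ℝ}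
    (h1 : R0 ≤ R) (h2 : R ≤ R') {x : X q m} (hx : x ∈ dom q m r (Sym.Om L R')) :
    ‖g R' x - g R x‖ ≤ C * (R' - R) * R ^ (-5 - d) := by
  have hC := h.nonneg hN
  have hR : 0 < R := by linarith [hN.one]
  have := chain (φ := fun s => g s x) (B := fun s => C * s * R ^ (-5 - d)) h2
    fun s s' a1 a2 a3 a4 => by
      refine (h.lipR s s' (h1.trans a1) a2 a4 x
        (hN.dom_sub (h1.trans (a1.trans a2)) a3 r hx)).trans ?_
      have h3 : s ^ (-5 - d) ≤ R ^ (-5 - d) :=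
        Real.rpow_le_rpow_of_nonpos hR a1 (by linarith)
      have h4 : 0 ≤ C * (s' - s) := mul_nonneg hC (by linarith)
      calc C * (s' - s) * s ^ (-5 - d) ≤ C * (s' - s) * R ^ (-5 - d) := by gcongr
        _ = _ := by ring
  exact this.trans (le_of_eq (by ring))

theorem rpow_split {s : ℝ} (hs : 0 < s) (a : ℝ) (n : ℕ) : s ^ (a - n) = s ^ a / s ^ n := by
  rw [Real.rpow_sub hs, Real.rpow_natCast]

variable [CompleteSpace V]

theorem rem_any {e : X q m → V} {s R M : ℝ} (hs : 0 < s) (hR : s ≤ R)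
    (hd : DifferentiableOn ℂ e (W q m r (1 / s ^ 2))) (hb : ∀ z ∈ W q m r (1 / s ^ 2), ‖e z‖ ≤ M)
    {x : X q m} (hx : ‖x.1‖ < r) (hx2 : ‖x.2‖ ≤ 7 / R ^ 2) (hM : ‖e x‖ ≤ M) :
    ‖e x - tp e x‖ ≤ 212 * 28 ^ 3 * M * (s / R) ^ 6 := by
  have hR0 : 0 < R := hs.trans_le hR
  have hM0 : 0 ≤ M := (norm_nonneg _).trans hM
  set u := (s / R) ^ 2 with hu
  have hu0 : 0 ≤ u := by positivity
  have hu1 : u ≤ 1 := pow_le_one₀ (by positivity) ((div_le_one hR0).2 hR)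
  have hκ : 2 * (7 / R ^ 2) / (1 / s ^ 2) = 14 * u := by rw [hu]; field_simp; norm_num
  have h6 : (s / R) ^ 6 = u ^ 3 := by rw [hu]; ring
  rw [h6]
  rcases le_total (4 * (7 / R ^ 2)) (1 / s ^ 2) with h4 | h4
  · have := norm_sub_tp_le (by positivity) hd hb hx hx2 (by positivity) h4
    rw [hκ] at this
    have h7 : 0 ≤ M * u ^ 3 := by positivity
    nlinarith
  · have h5 := norm_tp_le (by positivity) hd hb hx hx2 (by positivity)
    rw [hκ] at h5
    have h7 : 1 ≤ 28 * u := by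
      rw [div_le_iff₀ (by positivity)] at h4
      refine h4.trans (le_of_eq ?_)
      rw [hu]; field_simp; norm_num
    have h8 : 1 ≤ (28 * u) ^ 3 := one_le_pow₀ h7
    have h9 : M * (1 + 14 * u + (14 * u) ^ 2) ≤ M * 211 := by gcongr; nlinarith
    calc ‖e x - tp e x‖ ≤ ‖e x‖ + ‖tp e x‖ := norm_sub_le _ _
      _ ≤ 212 * M * 1 := by linarith
      _ ≤ 212 * M * (28 * u) ^ 3 := by gcongr
      _ = _ := by ring

theorem PFam.tp_inc (h : PFam d L R0 r C g) (hd : 0 < d) (hd1 : d ≤ 1) (hN : Nest R0 (Sym.Om L))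
    {a R R' : ℝ} (ha : 0 < a) (h0 : a ≤ R) (h1 : R0 ≤ R) (h2 : R ≤ R') {x : X q m}
    (hx : ‖x.1‖ < r) (hx2 : ‖x.2‖ ≤ 7 / a ^ 2) :
    ‖tp (g R') x - tp (g R) x‖ ≤ 3193 * 4 * C / d / a ^ 4 * R ^ (-d) := by
  have hC := h.nonneg hN
  have := chain (φ := fun s => tp (g s) x)
    (B := fun s => -(3193 * 4 * C / d / a ^ 4 * s ^ (-d))) h2 fun s s' a1 a2 _ a4 => by
      have b0 : R0 ≤ s := h1.trans a1
      have b1 : 1 ≤ s := hN.one.trans b0
      have b2 : 0 < s' := by linarith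
      have b3 := hN.W_sub (q := q) (m := m) (b0.trans a2) r
      have b4 := (h.hol s' (b0.trans a2)).mono b3
      have b5 := (h.hol s b0).mono (b3.trans (hN.dom_sub b0 a2 r))
      rw [← tp_sub (by positivity) b4 b5 hx]
      refine (norm_tp_le (by positivity) (b4.sub b5)
        (fun z hz => h.lipR s s' b0 a2 a4 z (b3 hz)) hx hx2 (by positivity)).trans ?_
      set u := (s / a) ^ 2 with hu
      have hu1 : 1 ≤ u := one_le_pow₀ ((one_le_div ha).2 (h0.trans a1))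
      have b6 : 2 * (7 / a ^ 2) / (1 / s' ^ 2) ≤ 56 * u := by
        have : s' ^ 2 ≤ (2 * s) ^ 2 := by gcongr; linarith
        rw [hu, div_pow, div_div_eq_mul_div, div_one]
        calc 2 * (7 / a ^ 2) * s' ^ 2 ≤ 2 * (7 / a ^ 2) * (2 * s) ^ 2 := by gcongr
          _ = _ := by ring
      have b7 : 0 ≤ 2 * (7 / a ^ 2) / (1 / s' ^ 2) := by positivity
      have b8 : 1 + 2 * (7 / a ^ 2) / (1 / s' ^ 2) + (2 * (7 / a ^ 2) / (1 / s' ^ 2)) ^ 2 ≤
          3193 * u ^ 2 := by nlinarith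
      have b9 : s ^ (-5 - d) = s ^ (-1 - d) / s ^ 4 := by
        rw [← rpow_split (by linarith)]; congr 1; push_cast; ring
      have b10 := pot hd hd1 b1 a2 a4
      have b11 : 0 ≤ s' - s := by linarith
      have b12 : 0 < s := by linarith
      calc C * (s' - s) * s ^ (-5 - d) * (1 + 2 * (7 / a ^ 2) / (1 / s' ^ 2) +
            (2 * (7 / a ^ 2) / (1 / s' ^ 2)) ^ 2)
          ≤ C * (s' - s) * s ^ (-5 - d) * (3193 * u ^ 2) := by gcongr
        _ = 3193 * C / a ^ 4 * ((s' - s) * s ^ (-1 - d)) := by rw [b9, hu]; field_simp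
        _ ≤ 3193 * C / a ^ 4 * (4 / d * (s ^ (-d) - s' ^ (-d))) := by gcongr
        _ = _ := by ring
  have h3 : 0 ≤ 3193 * 4 * C / d / a ^ 4 * R' ^ (-d) := by
    have : 0 < R' := by linarith
    positivity
  linarith

theorem PFam.rem (h : PFam d L R0 r C g) (hd1 : d ≤ 1) (hN : Nest R0 (Sym.Om L))
    {R : ℝ} (hR : R0 ≤ R) {x : X q m} (hx : x ∈ dom q m r (Sym.Om L R)) :
    ‖g R x - tp (g R) x‖ ≤ 212 * 28 ^ 3 * C * (64 + R0 ^ 6) * R ^ (-4 - d) := by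
  have hC := h.nonneg hN
  have hR1 : 1 ≤ R := hN.one.trans hR
  have hR0 : 0 < R := by linarith
  have h00 : 0 < R0 := by linarith [hN.one]
  have hx2 : ‖x.2‖ ≤ 7 / R ^ 2 := (hN.snd_le hR hx).trans (by gcongr; norm_num)
  have h1 := chain (φ := fun s => g s x - tp (g s) x)
    (B := fun s => 212 * 28 ^ 3 * 64 * C * (R ^ (1 - d) / R ^ 6) * s) hR fun s s' b0 a2 a3 a4 => by
      have b1 : 1 ≤ s := hN.one.trans b0
      have b2 : 0 < s' := by linarith
      have b3 := hN.W_sub (q := q) (m := m) (b0.trans a2) r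
      have b4 := (h.hol s' (b0.trans a2)).mono b3
      have b5 := (h.hol s b0).mono (b3.trans (hN.dom_sub b0 a2 r))
      have b6 := rem_any b2 a3 (b4.sub b5) (fun z hz => h.lipR s s' b0 a2 a4 z (b3 hz)) hx.1 hx2
        (h.lipR s s' b0 a2 a4 x (hN.dom_sub (b0.trans a2) a3 r hx))
      have b7 := tp_sub (by positivity) b4 b5 hx.1
      have b8 : g s' x - tp (g s') x - (g s x - tp (g s) x) =
          (g s' - g s) x - tp (g s' - g s) x := by
        rw [show tp (g s' - g s) x = tp (g s') x - tp (g s) x from b7, Pi.sub_apply]; abel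
      rw [b8]
      refine b6.trans ?_
      have b12 : 0 < s := by linarith
      have b9 : s ^ (-5 - d) = s ^ (1 - d) / s ^ 6 := by
        rw [← rpow_split b12]; congr 1; push_cast; ring
      have b10 : s ^ (1 - d) ≤ R ^ (1 - d) := Real.rpow_le_rpow b12.le (a2.trans a3) (by linarith)
      have b11 : 0 ≤ s' - s := by linarith
      have b13 : s' / R ≤ 2 * s / R := by gcongr; linarith
      calc 212 * 28 ^ 3 * (C * (s' - s) * s ^ (-5 - d)) * (s' / R) ^ 6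
          ≤ 212 * 28 ^ 3 * (C * (s' - s) * (R ^ (1 - d) / s ^ 6)) * (2 * s / R) ^ 6 := by
            rw [b9]; gcongr
        _ = _ := by field_simp; ring
  have b3 := hN.W_sub (q := q) (m := m) le_rfl r
  have h2 := rem_any h00 hR ((h.hol R0 le_rfl).mono b3) (fun z hz => h.bdd R0 le_rfl z (b3 hz))
    hx.1 hx2 (h.bdd R0 le_rfl x (hN.dom_sub le_rfl hR r hx))
  have h3 : R ^ (1 - d) / R ^ 6 * R = R ^ (-4 - d) := by
    rw [← rpow_split hR0, ← Real.rpow_add_one hR0.ne']; congr 1; push_cast; ring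
  have h4 : 1 / R ^ 6 ≤ R ^ (-4 - d) := by
    have := Real.rpow_le_rpow_of_exponent_le hR1 (show (0 : ℝ) - (6 : ℕ) ≤ -4 - d by
      push_cast; linarith)
    rwa [rpow_split hR0, Real.rpow_zero] at this
  have h5 := norm_add_le (g R x - tp (g R) x - (g R0 x - tp (g R0) x)) (g R0 x - tp (g R0) x)
  rw [sub_add_cancel] at h5
  have h6 : 212 * 28 ^ 3 * C * (R0 / R) ^ 6 ≤ 212 * 28 ^ 3 * C * (R0 ^ 6 * R ^ (-4 - d)) := by
    rw [div_pow, div_eq_mul_one_div]; gcongr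
  have h7 : 0 ≤ 212 * 28 ^ 3 * 64 * C * (R ^ (1 - d) / R ^ 6) * R0 := by positivity
  have h8 : 212 * 28 ^ 3 * 64 * C * (R ^ (1 - d) / R ^ 6) * R =
      212 * 28 ^ 3 * 64 * C * R ^ (-4 - d) := by rw [mul_assoc, h3]
  rw [h8] at h1
  linarith

/-- **the dyadic Taylor lemma** -/
theorem PFam.exists_lim (h : PFam d L R0 r C g) (hd : 0 < d) (hd1 : d ≤ 1)
    (hN : Nest R0 (Sym.Om L)) : ∃ (T : X q m → V) (C' : ℝ), IsLim d L R0 r C' g T := by
  have hC := h.nonneg hN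
  have h00 : 0 < R0 := by linarith [hN.one]
  set K := 3193 * 4 * C / d with hK
  have hK0 : 0 ≤ K := by positivity
  have he : Tendsto (fun R : ℝ => K * R ^ (-d)) atTop (𝓝 0) := by
    simpa using (tendsto_rpow_neg_atTop hd).const_mul K
  have hW : ∀ x ∈ W q m r 7, ‖x.2‖ ≤ 7 / (1 : ℝ) ^ 2 := fun x hx => by simpa using hx.2.le
  have h1 : ∀ x ∈ W q m r 7, ∃ v, Tendsto (fun R => tp (g R) x) atTop (𝓝 v) := fun x hx => by
    refine cauchySeq_tendsto_of_complete (Metric.cauchySeq_iff'.2 fun ε hε => ?_)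
    obtain ⟨N, hN1, hN2⟩ := ((he.eventually_lt_const hε).and (eventually_ge_atTop R0)).exists
    refine ⟨N, fun R hR => ?_⟩
    rw [dist_eq_norm]
    refine (h.tp_inc hd hd1 hN one_pos (hN.one.trans hN2) hN2 hR hx.1 (hW x hx)).trans_lt ?_
    simpa [hK] using hN1
  choose! T hT using h1
  have h2 : ∀ a R, 0 < a → a ≤ R → R0 ≤ R → ∀ x ∈ W q m r 7, ‖x.2‖ ≤ 7 / a ^ 2 →
      ‖tp (g R) x - T x‖ ≤ K / a ^ 4 * R ^ (-d) := fun a R ha h3 h4 x hx hx2 => by
    rw [norm_sub_rev]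
    refine le_of_tendsto ((hT x hx).sub_const _).norm ?_
    filter_upwards [eventually_ge_atTop R] with R' hR' using h.tp_inc hd hd1 hN ha h3 h4 hR' hx.1 hx2
  have hdW : ∀ R, R0 ≤ R → DifferentiableOn ℂ (g R) (W q m r (1 / R ^ 2)) := fun R hR =>
    (h.hol R hR).mono (hN.W_sub hR r)
  set M := C * (1 + 2 * 7 / (1 / R0 ^ 2) + (2 * 7 / (1 / R0 ^ 2)) ^ 2) with hM
  have hM0 : 0 ≤ M := by positivity
  have hA : 0 ≤ 212 * 28 ^ 3 * C * (64 + R0 ^ 6) := by positivity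
  refine ⟨T, K + M + 212 * 28 ^ 3 * C * (64 + R0 ^ 6), by positivity, ?_, fun x hx => ?_,
    fun R hR x hx => ?_, fun A hA hg x hx hre => ?_⟩
  · refine diffOn_of_unif (isOpen_W r 7) (f := fun R => tp (g R)) he ?_
    filter_upwards [eventually_ge_atTop R0] with R hR
    have hR0 : 0 < R := h00.trans_le hR
    refine ⟨tp_diff (by positivity) (hdW R hR) 7, fun x hx => ?_⟩
    simpa using h2 1 R one_pos (hN.one.trans hR) hR x hx (hW x hx)
  · have h3 := h2 1 R0 one_pos hN.one le_rfl x hx (hW x hx)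
    have h4 := norm_tp_le (by positivity) (hdW R0 le_rfl)
      (fun z hz => h.bdd R0 le_rfl z (hN.W_sub le_rfl r hz)) hx.1 hx.2.le (by norm_num)
    have h5 : R0 ^ (-d) ≤ 1 := Real.rpow_le_one_of_one_le_of_nonpos hN.one (by linarith)
    have h6 := norm_sub_le (tp (g R0) x) (tp (g R0) x - T x)
    rw [sub_sub_cancel] at h6
    have h7 : K / 1 ^ 4 * R0 ^ (-d) ≤ K := by simpa using mul_le_of_le_one_right hK0 h5
    linarith
  · have hR0 : 0 < R := h00.trans_le hR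
    have h3 := h2 R R hR0 le_rfl hR x (hN.sub_W hR r hx)
      ((hN.snd_le hR hx).trans (by gcongr; norm_num))
    have h4 := h.rem hd1 hN hR hx
    have h5 : K / R ^ 4 * R ^ (-d) = K * R ^ (-4 - d) := by
      rw [show -4 - d = -d - (4 : ℕ) by push_cast; ring, rpow_split hR0]; ring
    have h6 := norm_add_le (g R x - tp (g R) x) (tp (g R) x - T x)
    rw [sub_add_sub_cancel] at h6
    have h7 : 0 ≤ M * R ^ (-4 - d) := by positivity
    linarith
  · refine hA.closed.mem_of_tendsto (hT x hx) ?_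
    filter_upwards [eventually_ge_atTop R0] with R hR
    have hR0 : 0 < R := h00.trans_le hR
    exact tp_mem hA (by positivity) (hdW R hR) (fun z hz => hg R hR z (hN.W_sub hR r hz)) hx.1 hre

variable {T : X q m → V} {C' : ℝ}

theorem rpow_le_inv_pow {R a : ℝ} (hR : 1 ≤ R) (n : ℕ) (ha : a ≤ -n) : R ^ a ≤ 1 / R ^ n := by
  have := Real.rpow_le_rpow_of_exponent_le hR (show a ≤ 0 - (n : ℝ) by linarith)
  rwa [rpow_split (by linarith), Real.rpow_zero] at this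

omit [CompleteSpace V] in
/-- the limit along the axis `c = 0` -/
theorem IsLim.tendsto (h : IsLim d L R0 r C' g T) (hd : 0 < d) (hN : Nest R0 (Sym.Om L))
    {b : Fin q → ℂ} (hb : ‖b‖ < r) : Tendsto (fun R => g R (b, 0)) atTop (𝓝 (T (b, 0))) := by
  have he : Tendsto (fun R : ℝ => C' * R ^ (-4 - d)) atTop (𝓝 0) := by
    have := (tendsto_rpow_neg_atTop (show 0 < 4 + d by linarith)).const_mul C'
    simpa [show -d + -4 = -4 - d by ring] using this
  refine tendsto_iff_norm_sub_tendsto_zero.2 (squeeze_zero' (Eventually.of_forall fun _ =>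
    norm_nonneg _) ?_ he)
  filter_upwards [eventually_ge_atTop R0] with R hR
  have : 0 < R := by linarith [hN.one]
  exact h.app R hR _ (hN.W_sub hR r ⟨hb, by simpa using pow_pos this 2⟩)

omit [CompleteSpace V] in
/-- convergence of the derivatives on the half polydisc -/
theorem IsLim.fderiv_sub_le (h : IsLim d L R0 r C' g T) (hg : PFam d L R0 r C g) (hd : 0 < d)
    (hN : Nest R0 (Sym.Om L)) {R : ℝ} (hR : R0 ≤ R) (hr : 1 / R ^ 2 ≤ r) {x : X q m}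
    (hx : x ∈ W q m (r / 2) (1 / R ^ 2 / 2)) :
    ‖fderiv ℂ (g R) x - fderiv ℂ T x‖ ≤ 4 * C' / R ^ 2 := by
  have hR1 : 1 ≤ R := hN.one.trans hR
  have hs : 0 < 1 / R ^ 2 / 2 := by positivity
  have h1 : ball x (1 / R ^ 2 / 2) ⊆ dom q m r (Sym.Om L R) :=
    (ball_subset_W (by linarith [hx.1]) (by linarith [hx.2])).trans (hN.W_sub hR r)
  have h2 := (hg.hol R hR).mono h1
  have h3 := h.hol.mono (h1.trans (hN.sub_W hR r))
  have h4 := fderiv_le hs (f := fun z => g R z - T z) (h2.sub h3) fun z hz => h.app R hR z (h1 hz)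
  rw [fderiv_fun_sub (h2.differentiableAt (ball_mem_nhds x hs))
    (h3.differentiableAt (ball_mem_nhds x hs))] at h4
  refine h4.trans ?_
  have h5 := rpow_le_inv_pow hR1 4 (show -4 - d ≤ -(4 : ℕ) by push_cast; linarith)
  have h6 := h.nonneg
  calc 2 * (C' * R ^ (-4 - d)) / (1 / R ^ 2 / 2) ≤ 2 * (C' * (1 / R ^ 4)) / (1 / R ^ 2 / 2) := by
        gcongr
    _ = _ := by field_simp; ring

omit [CompleteSpace V] in
theorem IsLim.tendsto_fderiv (h : IsLim d L R0 r C' g T) (hg : PFam d L R0 r C g) (hd : 0 < d)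
    (hN : Nest R0 (Sym.Om L)) :
    Tendsto (fun R => fderiv ℂ (g R) 0) atTop (𝓝 (fderiv ℂ T 0)) := by
  have h1 : Tendsto (fun R : ℝ => 1 / R ^ 2) atTop (𝓝 0) :=
    tendsto_const_nhds.div_atTop (tendsto_pow_atTop two_ne_zero)
  have he : Tendsto (fun R : ℝ => 4 * C' / R ^ 2) atTop (𝓝 0) :=
    tendsto_const_nhds.div_atTop (tendsto_pow_atTop two_ne_zero)
  refine tendsto_iff_norm_sub_tendsto_zero.2 (squeeze_zero' (Eventually.of_forall fun _ =>
    norm_nonneg _) ?_ he)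
  filter_upwards [eventually_ge_atTop R0, h1.eventually_lt_const hg.rpos] with R hR hr
  have : 0 < R := by linarith [hN.one]
  exact h.fderiv_sub_le hg hd hN hR hr.le
    ⟨by simpa using hg.rpos, by simpa using pow_pos this 2⟩

omit [CompleteSpace V] in
/-- uniform Lipschitz bound on the smaller domain -/
theorem IsLim.lip (h : IsLim d L R0 r C' g T) (hg : PFam d L R0 r C g) (hd : 0 < d)
    (hN : Nest R0 (Sym.Om L)) : ∃ K : ℝ, 0 ≤ K ∧ ∀ R, R0 ≤ R → 1 / R ^ 4 ≤ min (r / 4) (1 / 2) →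
      ∀ x₀ ∈ dom q m (r / 2) (Sym.Om (L + 1) R), ball x₀ (2 * (1 / R ^ 4)) ⊆
        dom q m r (Sym.Om L R) ∧ ∀ x ∈ ball x₀ (1 / R ^ 4), ∀ y ∈ ball x₀ (1 / R ^ 4),
          ‖g R x - g R y‖ ≤ K * ‖x - y‖ := by
  have hC := h.nonneg
  have hr := hg.rpos
  set s := min (r / 4) (1 / 2) with hs
  have hs0 : 0 < s := lt_min (by positivity) (by norm_num)
  have hs1 : s ≤ r / 4 := min_le_left _ _
  have hs2 : s ≤ 1 / 2 := min_le_right _ _
  refine ⟨2 * C' + 2 * C' / s, by positivity, fun R hR hρ x₀ hx₀ => ?_⟩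
  have hR1 : 1 ≤ R := hN.one.trans hR
  have h1 : ball x₀ (2 * (1 / R ^ 4)) ⊆ dom q m r (Sym.Om L R) :=
    ball_subset_dom (by linarith [hx₀.1]) fun j => (ball_subset_ball (by
      have : 0 ≤ 1 / R ^ 4 := by positivity
      rw [mul_one, div_eq_mul_one_div 4]; linarith)).trans (om_room (hx₀.2 j))
  refine ⟨h1, fun x hx y hy => ?_⟩
  have h2 : ‖x₀.2‖ ≤ 6 := (hN.snd_le hR (h1 (mem_ball_self (by positivity)))).trans
    (div_le_self (by norm_num) (one_le_pow₀ hR1))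
  have h3 : ball x₀ (2 * s) ⊆ W q m r 7 := ball_subset_W (by linarith [hx₀.1]) (by linarith)
  have h4 := lip_half (f := fun z => g R z - T z)
    (((hg.hol R hR).mono h1).sub (h.hol.mono (h1.trans (hN.sub_W hR r))))
    (fun z hz => h.app R hR z (h1 hz)) hx hy
  have h5 := lip_half (h.hol.mono h3) (fun z hz => h.bdd z (h3 hz)) (ball_subset_ball hρ hx)
    (ball_subset_ball hρ hy)
  have h6 := rpow_le_inv_pow hR1 4 (show -4 - d ≤ -(4 : ℕ) by push_cast; linarith)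
  have h7 : 2 * (C' * R ^ (-4 - d)) / (1 / R ^ 4) ≤ 2 * C' := by
    rw [div_le_iff₀ (by positivity), mul_assoc]; gcongr
  have h8 := norm_add_le (g R x - T x - (g R y - T y)) (T x - T y)
  rw [show g R x - T x - (g R y - T y) + (T x - T y) = g R x - g R y by abel] at h8
  have h9 := mul_le_mul_of_nonneg_right h7 (norm_nonneg (x - y))
  linarith

theorem Rof_sq {δ : ℝ} (hδ : 0 < δ) {x : X q m} (hx : x.2 ≠ 0) : ‖x.2‖ = δ / Rof δ x ^ 2 := by
  have := norm_pos_iff.2 hx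
  rw [Rof, Real.sq_sqrt (by positivity)]
  field_simp

theorem glue_aux {δ R R' : ℝ} (hδ : 0 < δ) (p' : 0 < R') (hRR : R' ≤ R) (a : R ≤ 2 * R') :
    (R - R') * (1 / R' ^ 5) ≤ 2 * (δ / R' ^ 2 / δ ^ 2 * (δ / R' ^ 2 - δ / R ^ 2)) := by
  have p : 0 < R := p'.trans_le hRR
  have c1 : 2 * (δ / R' ^ 2 / δ ^ 2 * (δ / R' ^ 2 - δ / R ^ 2)) =
      (R - R') * (2 * (R + R') / (R' ^ 4 * R ^ 2)) := by field_simp; ring
  rw [c1]
  refine mul_le_mul_of_nonneg_left ?_ (by linarith)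
  rw [div_le_div_iff₀ (by positivity) (by positivity)]
  have c2 : R ^ 2 ≤ 2 * (R + R') * R' := by nlinarith
  calc 1 * (R' ^ 4 * R ^ 2) = R' ^ 4 * R ^ 2 := one_mul _
    _ ≤ R' ^ 4 * (2 * (R + R') * R') := by gcongr
    _ = _ := by ring

theorem glue_aux2 {δ R R' : ℝ} (hδ : 0 < δ) (p' : 0 < R') (a : 2 * R' ≤ R) :
    δ / R ^ 2 ≤ δ / R' ^ 2 / 4 := by
  rw [div_div]; gcongr; nlinarith

theorem glue_aux3 {δ t C' η : ℝ} (hδ : 0 < δ) (hδ1 : δ ≤ 1 / 4) (ht : 0 < t) (hC' : 0 ≤ C')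
    (h4 : η ≤ (t / δ) ^ 2) : 2 * (C' * η) / (t / δ / 2) ≤ 4 * C' * (t / δ ^ 2) :=
  calc 2 * (C' * η) / (t / δ / 2) ≤ 2 * (C' * (t / δ) ^ 2) / (t / δ / 2) := by gcongr
    _ = 4 * C' * (t / δ ^ 2 * δ) := by field_simp; ring
    _ ≤ 4 * C' * (t / δ ^ 2 * 1) := by gcongr; linarith
    _ = _ := by rw [mul_one]

theorem glue_aux4 {δ t C' η k D : ℝ} (hδ : 0 < δ) (ht : 0 < t) (hC' : 0 ≤ C')
    (h4 : η ≤ (t / δ) ^ 2) (hk : t ≤ k * D) : C' * η ≤ k * C' * (t / δ ^ 2 * D) :=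
  calc C' * η ≤ C' * (t / δ) ^ 2 := by gcongr
    _ = C' * (t / δ ^ 2 * t) := by field_simp
    _ ≤ C' * (t / δ ^ 2 * (k * D)) := by gcongr
    _ = _ := by ring

omit [CompleteSpace V] in
theorem IsLim.glue_le (h : IsLim d L R0 r C' g T) (hg : PFam d L R0 r C g) (hd : 0 < d)
    (hN : Nest R0 (Sym.Om L)) {δ : ℝ} (hδ : 0 < δ) (hδ1 : δ ≤ 1 / 4) {x x' : X q m}
    (hx : ‖x.1‖ < r / 2) (hx' : ‖x'.1‖ < r / 2) (hle : ‖x.2‖ ≤ ‖x'.2‖)
    (h1 : ‖x'.2‖ ≤ δ / R0 ^ 2) (h2 : ‖x'.2‖ ≤ δ * r) :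
    ‖(glue δ g T x - T x) - (glue δ g T x' - T x')‖ ≤
      (8 * C' + 2 * C) / δ ^ 2 * ‖x'.2‖ * ‖x - x'‖ := by
  have hC' := h.nonneg
  have hC := hg.nonneg hN
  have hr := hg.rpos
  have h00 : 0 < R0 := by linarith [hN.one]
  by_cases e' : x'.2 = 0
  · have e : x.2 = 0 := by rwa [e', norm_zero, norm_le_zero_iff] at hle
    simp [glue, e, e']
  have n' := norm_pos_iff.2 e'
  have s' := Rof_sq hδ e'
  obtain ⟨R', hR'⟩ : ∃ R', R' = Rof δ x' := ⟨_, rfl⟩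
  rw [← hR'] at s'
  have p' : 0 < R' := hR' ▸ Real.sqrt_pos.2 (by positivity)
  have hR0 : R0 ≤ R' := by
    rw [s', div_le_div_iff_of_pos_left hδ (by positivity) (by positivity)] at h1
    exact (pow_le_pow_iff_left₀ h00.le p'.le two_ne_zero).1 h1
  have hR1 : 1 ≤ R' := hN.one.trans hR0
  have i' : 1 / R' ^ 2 = ‖x'.2‖ / δ := by rw [s']; field_simp
  have hdist : ‖x'.2‖ - ‖x.2‖ ≤ ‖x - x'‖ := by
    have a1 : ‖x.2 - x'.2‖ ≤ ‖x - x'‖ := norm_snd_le (x - x')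
    have a2 := norm_sub_norm_le x'.2 x.2
    rw [norm_sub_rev] at a2
    linarith
  have hW' : x' ∈ W q m (r / 2) (1 / R' ^ 2 / 2) := ⟨hx', by
    rw [i', div_div, lt_div_iff₀ (by positivity)]; nlinarith⟩
  have hW : x ∈ W q m (r / 2) (1 / R' ^ 2 / 2) := ⟨hx, hle.trans_lt hW'.2⟩
  have hsub : W q m (r / 2) (1 / R' ^ 2 / 2) ⊆ dom q m r (Sym.Om L R') := fun z hz =>
    hN.W_sub hR0 r ⟨by linarith [hz.1], by
      have : 0 < 1 / R' ^ 2 := by positivity
      linarith [hz.2]⟩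
  have h4 : R' ^ (-4 - d) ≤ (‖x'.2‖ / δ) ^ 2 := by
    rw [← i']
    refine (rpow_le_inv_pow hR1 4 (by push_cast; linarith)).trans (le_of_eq (by field_simp))
  have hu : 0 ≤ ‖x'.2‖ / δ ^ 2 * ‖x - x'‖ := by positivity
  have hfin : ∀ t : ℝ, t ≤ (8 * C' + 2 * C) * (‖x'.2‖ / δ ^ 2 * ‖x - x'‖) →
      t ≤ (8 * C' + 2 * C) / δ ^ 2 * ‖x'.2‖ * ‖x - x'‖ := fun t ht => ht.trans (le_of_eq (by ring))
  refine hfin _ ?_
  have u1 := mul_nonneg hC hu
  have u2 := mul_nonneg hC' hu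
  by_cases e : x.2 = 0
  · have a1 := h.app R' hR0 x' (hsub hW')
    have a2 := glue_aux4 (k := 1) (D := ‖x - x'‖) hδ n' hC' h4
      (by rw [e, norm_zero] at hdist; linarith)
    rw [glue, glue, if_pos e, if_neg e', sub_self, zero_sub, norm_neg, ← hR']
    linarith
  have n := norm_pos_iff.2 e
  have s := Rof_sq hδ e
  have hRR : R' ≤ Rof δ x := hR' ▸ Real.sqrt_le_sqrt (by gcongr)
  rw [glue, glue, if_neg e, if_neg e', ← hR']
  generalize Rof δ x = R at s hRR ⊢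
  have p : 0 < R := p'.trans_le hRR
  have hxR : x ∈ dom q m r (Sym.Om L R) := hN.W_sub (hR0.trans hRR) r ⟨by linarith, by
    rw [s]; exact div_lt_div_of_pos_right (by linarith) (by positivity)⟩
  have a1 : ‖g R x - g R' x‖ ≤ (4 * C' + 2 * C) * (‖x'.2‖ / δ ^ 2 * ‖x - x'‖) := by
    rcases le_total (2 * R') R with a | a
    · have b1 := h.app R (hR0.trans hRR) x hxR
      have b2 := h.app R' hR0 x (hsub hW)
      have b3 : R ^ (-4 - d) ≤ R' ^ (-4 - d) := Real.rpow_le_rpow_of_nonpos p' hRR (by linarith)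
      have b4 := glue_aux2 hδ p' a
      rw [← s, ← s'] at b4
      have b5 := glue_aux4 (k := 2) (D := ‖x - x'‖) hδ n' hC' h4 (by linarith)
      have b6 := norm_sub_le (g R x - T x) (g R' x - T x)
      rw [sub_sub_sub_cancel_right] at b6
      linarith [mul_le_mul_of_nonneg_left b3 hC']
    · have b1 := hg.lipR' hd hN hR0 hRR hxR
      have b2 := rpow_le_inv_pow hR1 5 (show -5 - d ≤ -(5 : ℕ) by push_cast; linarith)
      have b3 := glue_aux hδ p' hRR a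
      rw [← s, ← s'] at b3
      have b4 : 0 ≤ C * (R - R') := mul_nonneg hC (by linarith)
      have b5 := mul_le_mul_of_nonneg_left b2 b4
      have b6 := mul_le_mul_of_nonneg_left b3 hC
      have b7 := mul_le_mul_of_nonneg_left hdist (show 0 ≤ C * (‖x'.2‖ / δ ^ 2) by positivity)
      linarith
  have a2 := lip_W (E := fun z => g R' z - T z) (s := 1 / R' ^ 2 / 2)
    (((hg.hol R' hR0).mono (hN.W_sub hR0 r)).sub
      (h.hol.mono ((hN.W_sub hR0 r).trans (hN.sub_W hR0 r))))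
    (fun z hz => h.app R' hR0 z (hN.W_sub hR0 r hz)) (by positivity)
    (by rw [i']; exact div_le_div_of_nonneg_right ((div_le_iff₀ hδ).2 (by linarith)) zero_le_two)
    le_rfl hW hW'
  have a3 := glue_aux3 hδ hδ1 n' hC' h4
  rw [← i'] at a3
  have a4 := mul_le_mul_of_nonneg_right a3 (norm_nonneg (x - x'))
  have a5 := norm_add_le (g R x - g R' x) (g R' x - T x - (g R' x' - T x'))
  rw [show g R x - g R' x + (g R' x - T x - (g R' x' - T x')) =
    g R x - T x - (g R' x' - T x') by abel] at a5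
  have a6 := a2.trans a4
  linarith

/-- **strict differentiability of the global family at the origin** -/
theorem IsLim.strict (h : IsLim d L R0 r C' g T) (hg : PFam d L R0 r C g) (hd : 0 < d)
    (hN : Nest R0 (Sym.Om L)) {δ : ℝ} (hδ : 0 < δ) (hδ1 : δ ≤ 1 / 4) :
    HasStrictFDerivAt (glue δ g T) (fderiv ℂ T 0) 0 := by
  have hC' := h.nonneg
  have hC := hg.nonneg hN
  have hr := hg.rpos
  have h00 : 0 < R0 := by linarith [hN.one]
  have h1 : HasStrictFDerivAt T (fderiv ℂ T 0) 0 :=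
    (P281.MF.analyticAt_of_differentiableOn (isOpen_W r 7) h.hol
      ⟨by simpa using hr, by simp⟩).hasStrictFDerivAt
  have h2 : HasStrictFDerivAt (fun x => glue δ g T x - T x) (0 : X q m →L[ℂ] V) 0 := by
    rw [hasStrictFDerivAt_iff_isLittleO]
    refine isLittleO_iff.2 fun ε hε => ?_
    set K := (8 * C' + 2 * C) / δ ^ 2 with hK
    have hK0 : 0 ≤ K := by positivity
    have h3 : ∀ᶠ x : X q m in 𝓝 0, ‖x.1‖ < r / 2 ∧ ‖x.2‖ < δ / R0 ^ 2 ∧ ‖x.2‖ < δ * r ∧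
        K * ‖x.2‖ < ε := by
      refine Eventually.and ?_ (Eventually.and ?_ (Eventually.and ?_ ?_)) <;>
        refine ContinuousAt.eventually_lt (by fun_prop) continuousAt_const ?_ <;>
        simp <;> positivity
    filter_upwards [h3.prod_nhds h3] with p ⟨⟨a1, a2, a3, a4⟩, b1, b2, b3, b4⟩
    simp only [zero_apply, sub_zero]
    rcases le_total ‖p.1.2‖ ‖p.2.2‖ with c | c
    · exact (h.glue_le hg hd hN hδ hδ1 a1 b1 c b2.le b3.le).trans (by gcongr)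
    · rw [norm_sub_rev, norm_sub_rev p.1]
      exact (h.glue_le hg hd hN hδ hδ1 b1 a1 c a2.le a3.le).trans (by gcongr)
  have h3 := h2.add h1
  have e : (fun x => glue δ g T x - T x) + T = glue δ g T := by ext x; simp
  rwa [zero_add, e] at h3

end Vale.Agent.P218F.Nm
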