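import Vale.Agent.P218F.LSSpec
import Vale.Agent.P218F.Norm2
import Vale.Agent.P218F.CoreOp
import Vale.Agent.P218F.CorePar

/-!
# The derivative of the reduction at `0` solves the linearised problem
-/

open MeasureTheory Set Filter Topology Metric Matrix
open scoped ContDiff RealInnerProductSpace Real

set_option maxSynthPendingDepth 3

noncomputable section

namespace Vale.Agent.P218F.LS

open Vale.Agent.P218FT hiding P2
open Vale.Agent.P218F.Core Vale.Agent.P218F.Ends Vale.Agent.P218F.Ft Vale.Agent.P218F.Mesh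

namespace Lin

section abstract

variable {P W X V : Type*} [NormedAddCommGroup P] [NormedSpace ℂ P] [NormedAddCommGroup W]
  [NormedSpace ℂ W] [NormedAddCommGroup X] [NormedSpace ℂ X] [NormedAddCommGroup V]
  [NormedSpace ℂ V] {ι : Type*} {l : Filter ι}

/-- convergence of the derivatives of holomorphic maps -/
theorem tendsto_fderiv {f : ι → P → W} {f0 : P → W} {v : ι → P} {a : P} {c : W} {δ C : ℝ}
    {L : P →L[ℂ] W} (hδ : 0 < δ) (hd : ∀ᶠ i in l, DifferentiableOn ℂ (f i) (ball a δ))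
    (happ : ∀ ε : ℝ, 0 < ε → ∀ᶠ i in l, ∀ g ∈ ball a δ, ‖f i g - f0 g‖ ≤ ε)
    (hq : ∀ g ∈ ball a δ, ‖f0 g - c - L (g - a)‖ ≤ C * ‖g - a‖ ^ 2) (hv : Tendsto v l (𝓝 a)) :
    Tendsto (fun i => fderiv ℂ (f i) (v i)) l (𝓝 L) := by
  refine Metric.tendsto_nhds.2 fun ε hε => ?_
  obtain ⟨t, ht, h1, h2⟩ : ∃ t : ℝ, 0 < t ∧ 2 * t ≤ δ ∧ 8 * |C| * t ≤ ε / 4 := by
    refine ⟨min (δ / 2) (ε / 4 / (8 * |C| + 1)), by positivity, by
      linarith [min_le_left (δ / 2) (ε / 4 / (8 * |C| + 1))], ?_⟩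
    have h3 := min_le_right (δ / 2) (ε / 4 / (8 * |C| + 1))
    rw [le_div_iff₀ (by positivity)] at h3
    have h4 : 0 < min (δ / 2) (ε / 4 / (8 * |C| + 1)) := by positivity
    nlinarith
  filter_upwards [hd, happ (ε * t / 8) (by positivity), hv.eventually (ball_mem_nhds a ht)]
    with i h3 h4 h5
  have h6 : ball (v i) t ⊆ ball a (2 * t) := ball_subset_ball' (by linarith [mem_ball.1 h5])
  have h7 : ball (v i) t ⊆ ball a δ := h6.trans (ball_subset_ball h1)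
  have h8 : DifferentiableOn ℂ (fun g => f i g - c - L (g - a)) (ball (v i) t) :=
    ((h3.mono h7).sub_const c).sub (by fun_prop)
  have h9 := fderiv_le ht h8 (M := ε * t / 8 + |C| * (2 * t) ^ 2) fun g hg => by
    have e1 : f i g - c - L (g - a) = (f i g - f0 g) + (f0 g - c - L (g - a)) := by abel
    rw [e1]
    refine (norm_add_le _ _).trans (add_le_add (h4 g (h7 hg)) ((hq g (h7 hg)).trans ?_))
    have e2 := (mem_ball_iff_norm.1 (h6 hg)).le
    calc C * ‖g - a‖ ^ 2 ≤ |C| * ‖g - a‖ ^ 2 := by gcongr; exact le_abs_self C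
      _ ≤ _ := by gcongr
  have e3 : HasFDerivAt (fun g => f i g - c - L (g - a)) (fderiv ℂ (f i) (v i) - L) (v i) := by
    refine (((h3.mono h7).differentiableAt (ball_mem_nhds _ ht)).hasFDerivAt.sub_const c).sub ?_
    exact (L.hasFDerivAt.sub_const (L a)).congr_of_eventuallyEq
      (Eventually.of_forall fun g => L.map_sub g a)
  rw [e3.fderiv] at h9
  rw [dist_eq_norm]
  refine h9.trans_lt ?_
  have e4 : 2 * (ε * t / 8 + |C| * (2 * t) ^ 2) / t = ε / 4 + 8 * |C| * t := by field_simp; ring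
  linarith

theorem tendsto_apply {A : ι → P →L[ℂ] W} {A0 : P →L[ℂ] W} {v : ι → P} {a : P}
    (hA : Tendsto A l (𝓝 A0)) (hv : Tendsto v l (𝓝 a)) :
    Tendsto (fun i => A i (v i)) l (𝓝 (A0 a)) :=
  ((isBoundedBilinearMap_apply (𝕜 := ℂ) (E := P) (F := W)).continuous.tendsto (A0, a)).comp
    (hA.prodMk_nhds hv)

/-- a family of maps which are differentiable at `0`, with limits -/
structure Fm (l : Filter ι) (s : ι → X → V) (Dz : X →L[ℂ] V) : Prop where
  diff : ∀ᶠ i in l, DifferentiableAt ℂ (s i) 0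
  zero : Tendsto (fun i => s i 0) l (𝓝 0)
  der : Tendsto (fun i => fderiv ℂ (s i) 0) l (𝓝 Dz)

variable {s : ι → X → V} {Dz : X →L[ℂ] V}

theorem Fm.der_apply (h : Fm l s Dz) (A : V →L[ℂ] W) (x : X) :
    Tendsto (fun i => A (fderiv ℂ (s i) 0 x)) l (𝓝 (A (Dz x))) :=
  (A.continuous.tendsto _).comp (tendsto_apply h.der tendsto_const_nhds)

/-- linear constraints -/
theorem Fm.linear [l.NeBot] (h : Fm l s Dz) (A : V →L[ℂ] W) (B : X →L[ℂ] W)
    (he : ∀ᶠ i in l, ∀ᶠ x in 𝓝 0, A (s i x) = B x) (x : X) : A (Dz x) = B x := by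
  refine tendsto_nhds_unique (h.der_apply A x) (tendsto_const_nhds.congr' ?_)
  filter_upwards [h.diff, he] with i h1 h2
  have h3 := (A.hasFDerivAt.comp 0 h1.hasFDerivAt).unique
    (B.hasFDerivAt.congr_of_eventuallyEq h2)
  exact (congrArg (fun T : X →L[ℂ] W => T x) h3).symm

/-- holomorphic constraints -/
theorem Fm.nonlin [l.NeBot] (h : Fm l s Dz) (A : V →L[ℂ] P) {Φ : P → W} {r M : ℝ} (hr : 0 < r)
    (hd : DifferentiableOn ℂ Φ (ball 0 r)) (hb : ∀ v ∈ ball (0 : P) r, ‖Φ v‖ ≤ M)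
    (he : ∀ᶠ i in l, ∀ᶠ x in 𝓝 0, Φ (A (s i x)) = 0) (x : X) : fderiv ℂ Φ 0 (A (Dz x)) = 0 := by
  have hv : Tendsto (fun i => A (s i 0)) l (𝓝 0) := by
    have := (A.continuous.tendsto 0).comp h.zero
    rwa [map_zero] at this
  have h1 := tendsto_fderiv (l := l) (f := fun _ => Φ) (f0 := Φ) hr (Eventually.of_forall fun _ => hd)
    (fun ε hε => Eventually.of_forall fun _ g _ => by simpa using hε.le)
    (fun g hg => rem_le hd hb hg) hv
  refine tendsto_nhds_unique (tendsto_apply h1 (h.der_apply A x)) (tendsto_const_nhds.congr' ?_)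
  filter_upwards [h.diff, he, hv.eventually (ball_mem_nhds 0 hr)] with i h2 h3 h4
  have h5 := ((hd.differentiableAt (isOpen_ball.mem_nhds h4)).hasFDerivAt.comp 0
    (A.hasFDerivAt.comp 0 h2.hasFDerivAt)).unique
    ((hasFDerivAt_const (0 : W) (0 : X)).congr_of_eventuallyEq h3)
  exact (congrArg (fun T : X →L[ℂ] W => T x) h5).symm

/-- gluing conditions -/
theorem Fm.glue [l.NeBot] (h : Fm l s Dz) (A : V →L[ℂ] ℂ) (B : V →L[ℂ] P) (c : X →L[ℂ] ℂ)
    {Ψ : ι → P → ℂ → ℂ} {f0 : P → ℂ} {g0 : P} {k u : ℂ} {δ C : ℝ} {L : P →L[ℂ] ℂ} (hδ : 0 < δ)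
    (hd : ∀ᶠ i in l, ∀ g ∈ ball g0 δ, DifferentiableAt ℂ (fun q : P × ℂ => Ψ i q.1 q.2) (g, 0))
    (happ : ∀ ε : ℝ, 0 < ε → ∀ᶠ i in l, ∀ g ∈ ball g0 δ, ‖Ψ i g 0 - f0 g‖ ≤ ε)
    (hq : ∀ g ∈ ball g0 δ, ‖f0 g - k - L (g - g0)‖ ≤ C * ‖g - g0‖ ^ 2)
    (hu : Tendsto (fun q : ι × P => deriv (Ψ q.1 q.2) 0) (l ×ˢ 𝓝 g0) (𝓝 u))
    (he : ∀ᶠ i in l, ∀ᶠ x in 𝓝 0, k + A (s i x) = Ψ i (g0 + B (s i x)) (c x)) (x : X) :
    A (Dz x) = L (B (Dz x)) + c x * u := by
  have hv : Tendsto (fun i => g0 + B (s i 0)) l (𝓝 g0) := by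
    simpa using ((B.continuous.tendsto 0).comp h.zero).const_add g0
  have hg : ∀ {i g}, DifferentiableAt ℂ (fun q : P × ℂ => Ψ i q.1 q.2) (g, 0) →
      HasFDerivAt (fun g => Ψ i g 0) ((fderiv ℂ (fun q : P × ℂ => Ψ i q.1 q.2) (g, 0)).comp
        (ContinuousLinearMap.inl ℂ P ℂ)) g := fun {i g} hh =>
    HasFDerivAt.comp (f := fun e : P => (e, (0 : ℂ))) g hh.hasFDerivAt
      (hasFDerivAt_prodMk_left g (0 : ℂ))
  have h1 := tendsto_fderiv (l := l) (f := fun i g => Ψ i g 0) hδ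
    (hd.mono fun i hi g hg' => (hg (hi g hg')).differentiableAt.differentiableWithinAt) happ hq hv
  have h2 := (tendsto_apply h1 (h.der_apply B x)).add
    ((hu.comp (tendsto_id.prodMk hv)).const_mul (c x))
  refine tendsto_nhds_unique (h.der_apply A x) (h2.congr' ?_)
  filter_upwards [h.diff, he, hd, hv.eventually (ball_mem_nhds g0 hδ)] with i e1 e2 e3 e4
  have e5 := e3 _ e4
  set T := fderiv ℂ (fun q : P × ℂ => Ψ i q.1 q.2) (g0 + B (s i 0), 0) with hT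
  have e6 : HasFDerivAt (fun x => (g0 + B (s i x), c x))
      ((B.comp (fderiv ℂ (s i) 0)).prod c) 0 :=
    ((B.hasFDerivAt.comp 0 e1.hasFDerivAt).const_add g0).prodMk c.hasFDerivAt
  have e7 : HasFDerivAt (fun q : P × ℂ => Ψ i q.1 q.2) T (g0 + B (s i 0), c 0) := by
    rw [map_zero]; exact e5.hasFDerivAt
  have e8 := ((A.hasFDerivAt.comp 0 e1.hasFDerivAt).const_add k).unique
    ((HasFDerivAt.comp (f := fun x => (g0 + B (s i x), c x)) 0 e7 e6).congr_of_eventuallyEq e2)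
  have e9 := congrArg (fun T : X →L[ℂ] ℂ => T x) e8
  have e10 : HasDerivAt (Ψ i (g0 + B (s i 0))) (T (0, 1)) 0 := by
    exact (HasFDerivAt.comp (f := fun e : ℂ => (g0 + B (s i 0), e)) 0 e5.hasFDerivAt
      (hasFDerivAt_prodMk_right (g0 + B (s i 0)) (0 : ℂ))).hasDerivAt
  simp only [ContinuousLinearMap.comp_apply, ContinuousLinearMap.prod_apply] at e9
  simp only [Function.comp_apply, id]
  rw [e9, (hg e5).fderiv, e10.deriv, ← smul_eq_mul, ← map_smul, ContinuousLinearMap.comp_apply,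
    ← map_add]
  simp [hT]

end abstract

theorem jet2_csmul (c : ℂ) {f : P2 → ℂ} {y : P2} (hf : ContDiffAt ℝ 2 f y) :
    jet2 (fun z => c * f z) y = c • jet2 f y := by
  have := jet2_clm (((ContinuousLinearMap.lsmul ℂ ℂ c : ℂ →L[ℂ] ℂ)).restrictScalars ℝ) hf
  refine this.trans ?_
  refine Prod.ext rfl (Prod.ext (ContinuousLinearMap.ext fun u => rfl)
    (ContinuousLinearMap.ext fun u => ContinuousLinearMap.ext fun v => rfl))

variable {S : Set E3} {F : Frm S} {q : ℕ} {Z : Type} [NormedAddCommGroup Z] [NormedSpace ℂ Z]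
  {χ : Fin q ⊕ Fin F.D.m → E3 → ℝ} {val : Z →ₗ[ℂ] E3 → ℂ} {tr : Un F q Z →L[ℂ] JJ F.D → AA}

/-- the two-jet in a chart is a continuous linear map -/
theorem exists_jet (h : Sp χ val tr) {φ : P2 → E3} {y : P2} (hP : Par S φ y)
    (hy : φ y ∈ Mo F.C0 F.Kc) :
    ∃ A : Z →L[ℂ] J2 P2 ℂ, ∀ z, A z = jet2 (fun t => val z (φ t)) y := by
  obtain ⟨r, hr, C, hC⟩ := h.jet φ y hP hy
  have h1 := fun z => hC z y (mem_ball_self hr)
  refine ⟨LinearMap.mkContinuous
    { toFun := fun z => jet2 (fun t => val z (φ t)) y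
      map_add' := fun z z' => ?_
      map_smul' := fun c z => ?_ } C fun z => (h1 z).2, fun _ => rfl⟩
  · simp only [map_add, Pi.add_apply]
    exact jet2_add (h1 z).1 (h1 z').1
  · simp only [map_smul, Pi.smul_apply, smul_eq_mul, RingHom.id_apply]
    exact jet2_csmul c (h1 z).1

/-- evaluation of the linearised end solution -/
theorem exists_ev {B W : P2 → C3} {gr : P2 → ℝ} {s δ C : ℝ} {g0 : AA} {ei : AA → P2 → ℂ}
    {lowi : AA → Fin 3 → ℂ} {e' : AA →ₗ[ℂ] P2 → ℂ} {low' : AA →L[ℂ] Fin 3 → ℂ}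
    (h : InfFam B W gr s δ C g0 ei lowi e' low') {p : P2} (h1 : s < p.1) (h2 : p.1 < s + 6) :
    ∃ L : AA →L[ℂ] ℂ, (∀ g, L g = e' g p) ∧
      (∀ g ∈ ball g0 δ, ‖ei g p - gr p - L (g - g0)‖ ≤ C * ‖g - g0‖ ^ 2) ∧
      DifferentiableOn ℂ (fun g => ei g p) (ball g0 δ) :=
  ⟨LinearMap.mkContinuous ((LinearMap.proj p).comp e') C fun g =>
    (norm_fst_le (jet2 (e' g) p)).trans (h.bd' g p h1 h2), fun _ => rfl,
    fun g hg => (norm_fst_le (jet2 (ei g) p - jet2 (fun η => (gr η : ℂ)) p -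
      jet2 (e' (g - g0)) p)).trans (h.dev g hg p h1 h2), (h.hol p h1 h2).fst⟩

variable {H : EF F} {ρ R0 r C : ℝ} {s : ℝ → Nm.X q F.D.m → Un F q Z}
  {si : (Fin q → ℂ) → Un F q Z} {Dz : Nm.X q F.D.m →L[ℂ] Un F q Z}

theorem zero_mem (hH : H.OK) {R : ℝ} (hR : H.R0 ≤ R) : (0 : ℂ) ∈ Sym.Om (2 * H.Λ) R := by
  obtain ⟨C₀, R₀, cc, h1, h2, h3⟩ := hH.inv
  have hN := Nm.nest_of_inv (L := 2 * H.Λ) h1 h2 (by linarith [hH.lam]) (by linarith [hH.lam])
  have : 0 < R := by linarith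
  exact hN.small R (h3.trans hR) (mem_ball_self (by positivity))

theorem dom_mem (hH : H.OK) (hR : Red H χ val tr ρ R0 r C s si) :
    ∀ᶠ R in atTop, R0 ≤ R ∧ Nm.dom q F.D.m r (Sym.Om (2 * H.Λ) R) ∈ 𝓝 0 := by
  filter_upwards [eventually_ge_atTop R0] with R h1
  exact ⟨h1, (Nm.isOpen_dom r isOpen_ball).mem_nhds ⟨by simpa using hR.fam.rpos,
    fun _ => zero_mem hH (hR.big.trans h1)⟩⟩

theorem fm (hH : H.OK) (hR : Red H χ val tr ρ R0 r C s si)
    (hD : Tendsto (fun R => fderiv ℂ (s R) 0) atTop (𝓝 Dz)) : Fm atTop s Dz where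
  diff := (dom_mem hH hR).mono fun R h => (hR.fam.hol R h.1).differentiableAt h.2
  zero := hR.zero ▸ hR.lim 0 (by simpa using hR.fam.rpos)
  der := hD

theorem ev_sol (hH : H.OK) (hR : Red H χ val tr ρ R0 r C s si) : ∀ᶠ R in atTop, ∀ᶠ x in 𝓝 0,
    Sol χ val tr ρ x.1 (s R x) (H.eR R x.2 (tr (s R x))) :=
  (dom_mem hH hR).mono fun R h => mem_of_superset h.2 fun x hx => hR.sol R h.1 x hx

/-- the linearised end solutions -/
def uu (H : EF F) (t : JJ F.D → AA) (c : Fin F.D.m → ℂ) : JJ F.D → P2 → ℂ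
  | .inl j => fun p => H.e' (.inl j) ((F.σ (.inl j) : ℂ) • t (.inl j)) p + c j * H.u j p
  | .inr i => H.e' (.inr i) ((F.σ (.inr i) : ℂ) • t (.inr i))

theorem glue (hG : Geo S F.C0 F.Kc) (hH : H.OK) (hS : Sp χ val tr)
    (hR : Red H χ val tr ρ R0 r C s si) (hD : Tendsto (fun R => fderiv ℂ (s R) 0) atTop (𝓝 Dz))
    (x : Nm.X q F.D.m) (j : JJ F.D) (p : P2) (hp : p.1 ∈ Ioo (F.s1 j) (F.s1 j + 3)) :
    F.σ j * val (Dz x).1 (Kd F.D j p) = uu H (tr (Dz x)) x.2 j p := by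
  have hK : F.Kc j (p.1 - F.s1 j, p.2) = Kd F.D j p := by simp [Frm.Kc]
  obtain ⟨A, hA⟩ := exists_jet hS (hG.par j (p.1 - F.s1 j, p.2)
    ⟨by linarith [hp.1], by linarith [hp.2]⟩)
    (Or.inr ⟨j, _, ⟨by linarith [hp.1], by linarith [hp.2]⟩, rfl⟩)
  set A' : Un F q Z →L[ℂ] ℂ := (F.σ j : ℂ) • ((ContinuousLinearMap.fst ℂ _ _).comp A).comp
    (ContinuousLinearMap.fst ℂ _ _) with hA'
  have hA2 : ∀ t : Un F q Z, A' t = F.σ j * val t.1 (Kd F.D j p) := fun t => by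
    rw [← hK]; simp [hA', hA, jet2]
  set B : Un F q Z →L[ℂ] AA := (F.σ j : ℂ) • (ContinuousLinearMap.proj j).comp tr with hB
  have he : ∀ᶠ R in atTop, ∀ᶠ x in 𝓝 0, gS F.D j p + A' (s R x) =
      H.eR R x.2 (tr (s R x)) j p :=
    (ev_sol hH hR).mono fun R h => h.mono fun x hx => by
      rw [hA2]; exact hx.glue j p (Ioo_subset_Icc_self hp)
  rw [← hA2]
  rcases j with j | i
  · have hc := hH.cyl j
    have p1 : F.z₀ + 11 < p.1 := hp.1
    have p2 : p.1 < F.z₀ + 11 + 6 := by have : p.1 < F.z₀ + 11 + 3 := hp.2; linarith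
    obtain ⟨L, hL, hq, -⟩ := exists_ev hc.toInfFam p1 p2
    have := (fm hH hR hD).glue A' B
      ((ContinuousLinearMap.proj j).comp (ContinuousLinearMap.snd ℂ _ _))
      (Ψ := fun R g c => H.e j R g c p) hH.δpos ?_ ?_ hq (hc.x7W p p1 p2) he x
    · rw [this, hL]; rfl
    · filter_upwards [eventually_ge_atTop H.R0] with R h1 g hg
      exact ((hc.fhol R h1).1 p p1 p2).fst.differentiableAt
        ((isOpen_ball.prod isOpen_ball).mem_nhds ⟨hg, zero_mem hH h1⟩)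
    · intro ε hε
      obtain ⟨R₁, h1⟩ := hc.x7 (F.z₀ + 11 + 6) ε hε
      filter_upwards [eventually_ge_atTop H.R0, eventually_ge_atTop R₁] with R h2 h3 g hg
      exact (norm_fst_le (jet2 (H.e j R g 0) p - jet2 (H.ei (.inl j) g) p)).trans
        ((h1 R h3 g hg 0 (zero_mem hH h2)).2 p p1 p2)
  · have hc := hH.cone i
    have p1 : F.ya < p.1 := hp.1
    have p2 : p.1 < F.ya + 6 := by have : p.1 < F.ya + 3 := hp.2; linarith
    obtain ⟨L, hL, hq, hd⟩ := exists_ev hc.toInfFam p1 p2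
    have := (fm hH hR hD).glue A' B 0 (u := 0)
      (Ψ := fun _ g _ => H.ei (.inr i) g p) hH.δpos ?_ ?_ hq (by simp) he x
    · rw [this, hL]; simp [uu, hB]
    · exact Eventually.of_forall fun _ g hg =>
        DifferentiableAt.comp (f := Prod.fst) (g, (0 : ℂ))
          (hd.differentiableAt (isOpen_ball.mem_nhds hg)) differentiableAt_fst
    · exact fun ε hε => Eventually.of_forall fun _ g _ => by simpa using hε.le

theorem cd_u (hH : H.OK) (j : Fin F.D.m) :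
    ContDiffOn ℝ 2 (fun p => (H.u j p : ℂ)) (Ioi (F.z₀ + 11) ×ˢ univ) :=
  Complex.ofRealCLM.contDiff.comp_contDiffOn (hH.cyl j).jac.c2

theorem linSol (hF : F.OK) (hG : Geo S F.C0 F.Kc) {α δ : ℝ}
    (hO : OpOK S F.C0 F.Kc (F.op χ) α δ) (hH : H.OK) (hS : Sp χ val tr)
    (hR : Red H χ val tr ρ R0 r C s si) (hD : Tendsto (fun R => fderiv ℂ (s R) 0) atTop (𝓝 Dz))
    (x : Nm.X q F.D.m) :
    F.LinSol χ H.u x.2 (val (Dz x).1) (Dz x).2 (uu H (tr (Dz x)) x.2) where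
  reg φ y hP hy := by
    obtain ⟨r, hr, C, hC⟩ := hS.jet φ y hP hy
    exact (hC _ y (mem_ball_self hr)).1
  eq φ y hP hy := by
    obtain ⟨A, hA⟩ := exists_jet hS hP (Or.inl hy)
    obtain ⟨r, hr, M, hM⟩ := hO.loc φ y hP (Or.inl hy)
    obtain ⟨h1, h2⟩ := hM y (mem_ball_self hr)
    have := (fm hH hR hD).nonlin ((ContinuousLinearMap.snd ℂ _ _).prod
      (A.comp (ContinuousLinearMap.fst ℂ _ _))) hr h1 (fun v hv => (h2 v hv).1)
      ((ev_sol hH hR).mono fun R h => h.mono fun x hx => ?_) x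
    · rw [← hA]; exact this
    · have := hx.eq φ y hP ⟨hy.1, fun j p hp => hy.2 j p (by linarith)⟩
      rw [← hA] at this
      exact this
  glue := glue hG hH hS hR hD x
  c2 j := by
    rcases j with j | i
    · exact ((hH.cyl j).c2' _).add (contDiffOn_const.mul (cd_u hH j))
    · exact (hH.cone i).c2' _
  per j p := by
    rcases j with j | i
    · simp only [uu, (hH.cyl j).per' _ p, (hH.cyl j).jac.per p]
    · exact (hH.cone i).per' _ p
  eqE j p hp := by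
    rcases j with j | i
    · have hn : Ioi (F.z₀ + 11) ×ˢ (univ : Set ℝ) ∈ 𝓝 p :=
        (isOpen_Ioi.prod isOpen_univ).mem_nhds ⟨hp, trivial⟩
      have h1 := ((hH.cyl j).c2' ((F.σ (.inl j) : ℂ) • tr (Dz x) (.inl j))).contDiffAt hn
      have h2 := (cd_u hH j).contDiffAt hn
      show fderiv ℂ _ _ (jet2 (fun p => _ + _) p) = 0
      rw [jet2_add h1 (contDiffAt_const.mul h2), jet2_csmul _ h2, map_add,
        (hH.cyl j).eq' _ p hp, map_smul, (hH.cyl j).jac.eq p hp]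
      simp
    · exact (hH.cone i).eq' _ p hp
  cyl := by
    choose K n hK using fun j => (hH.cyl j).jac.tmp
    have h0 : 0 < F.D.R₀ := by
      by_contra h
      nlinarith [F.D.big, F.D.δpos]
    refine ⟨∑ j, (|H.C| * ‖(F.σ (.inl j) : ℂ) • tr (Dz x) (.inl j)‖ + ‖x.2 j‖ * |K j|), ∑ j, n j,
      fun j p hp => ?_⟩
    have p0 : 1 ≤ p.1 := by linarith [hF.z_big]
    have p1 : F.z₀ + 11 < p.1 := by linarith
    have hn : Ioi (F.z₀ + 11) ×ˢ (univ : Set ℝ) ∈ 𝓝 p :=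
      (isOpen_Ioi.prod isOpen_univ).mem_nhds ⟨p1, trivial⟩
    set g := (F.σ (.inl j) : ℂ) • tr (Dz x) (.inl j) with hg
    have h1 := ((hH.cyl j).glob' g p p1).trans
      (mul_le_mul_of_nonneg_right (le_abs_self _) (norm_nonneg _))
    have h2 := Finset.single_le_sum (f := fun j => |H.C| *
      ‖(F.σ (.inl j) : ℂ) • tr (Dz x) (.inl j)‖ + ‖x.2 j‖ * |K j|)
      (fun j _ => by positivity) (Finset.mem_univ j)
    have h3 : p.1 ^ n j ≤ p.1 ^ ∑ j, n j := pow_le_pow_right₀ p0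
      (Finset.single_le_sum (f := n) (fun _ _ => Nat.zero_le _) (Finset.mem_univ j))
    have h4 : 1 ≤ p.1 ^ ∑ j, n j := one_le_pow₀ p0
    refine ⟨?_, ?_⟩
    · show ‖_ + _ - _‖ ≤ _
      rw [add_sub_cancel_right]
      refine ((norm_fst_le (jet1 (H.e' (.inl j) g) p)).trans h1).trans (le_trans ?_ h2)
      exact le_add_of_nonneg_right (by positivity)
    · have d1 := (((hH.cyl j).c2' g).contDiffAt hn).differentiableAt (by simp)
      have d2 := ((hH.cyl j).jac.c2.contDiffAt hn).differentiableAt (by simp)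
      have d3 := d1.hasFDerivAt.add
        ((Complex.ofRealCLM.hasFDerivAt.comp p d2.hasFDerivAt).const_mul (x.2 j))
      have d4 : fderiv ℝ (uu H (tr (Dz x)) x.2 (.inl j)) p = _ := d3.fderiv
      rw [d4]
      have d5 : ‖Complex.ofRealCLM.comp (fderiv ℝ (H.u j) p)‖ ≤ |K j| * p.1 ^ ∑ j, n j := by
        refine (ContinuousLinearMap.opNorm_comp_le _ _).trans ?_
        rw [Complex.ofRealCLM_norm, one_mul]
        refine ((norm_snd_le (jet1 (H.u j) p)).trans (hK j p (by linarith))).trans ?_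
        exact (mul_le_mul_of_nonneg_right (le_abs_self _) (by positivity)).trans (by gcongr)
      have d6 := (norm_snd_le (jet1 (H.e' (.inl j) g) p)).trans h1
      refine (norm_add_le _ _).trans (le_trans ?_ (mul_le_mul_of_nonneg_right h2 (by positivity)))
      rw [add_mul, norm_smul, mul_assoc ‖x.2 j‖]
      exact add_le_add (d6.trans (le_mul_of_one_le_right (by positivity) h4)) (by gcongr)
  cone := by
    refine ⟨∑ i, |H.C| * ‖(F.σ (.inr i) : ℂ) • tr (Dz x) (.inr i)‖, fun i p hp => ?_⟩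
    refine (((hH.cone i).glob' _ p (by linarith)).trans
      (mul_le_mul_of_nonneg_right (le_abs_self _) (norm_nonneg _))).trans ?_
    exact Finset.single_le_sum (f := fun i => |H.C| * ‖(F.σ (.inr i) : ℂ) • tr (Dz x) (.inr i)‖)
      (fun j _ => by positivity) (Finset.mem_univ i)

end Lin

/-- **LINID** -/
theorem linId_of (hG : GeoStmt) (hE : ElStmt) : LinIdStmt := by
  intro S F hF hne H hH q χ hχ hK Z _ _ val tr hS ρ R0 r C s si hR Dz hD
  have h1 := (hG S F hF hne).1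
  have h2 : OpOK S F.C0 F.Kc (F.op χ) (3 / 4) (1 / 100) := op_proof par_proof S _ _ _ _ _ _ _ _ _ _
    (by norm_num) (by norm_num) (by norm_num) h1 (hE S F hF hne _ χ hχ).1
  have h3 : ∀ x i, mo F.C0 (χ (.inl i)) (val (Dz x).1) = x.1 i := fun x i => by
    obtain ⟨L, hL⟩ := hS.mom (.inl i)
    rw [← hL]
    exact (Lin.fm hH hR hD).linear (L.comp (ContinuousLinearMap.fst ℂ _ _))
      ((ContinuousLinearMap.proj i).comp (ContinuousLinearMap.fst ℂ _ _))
      ((Lin.ev_sol hH hR).mono fun R h => h.mono fun x hx => (hL _).trans (hx.mom i)) x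
  refine ⟨h3, fun x hx h4 => ?_⟩
  exact (hK H.u (fun j => (hH.cyl j).jac) _ _ _ _ (Lin.linSol hF h1 h2 hH hS hR hD x)
    (fun i => by rw [h3, hx]; rfl) (Or.inr h4)).2.2

end Vale.Agent.P218F.LS
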