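import Vale.Agent.P218F.LSSpec
import Vale.Agent.P218F.Norm2

/-!
# The reduction near a shrinker: the export to NORMAL
-/

open MeasureTheory Set Filter Topology Metric

set_option maxSynthPendingDepth 3

noncomputable section

namespace Vale.Agent.P218F.LS

open Vale.Agent.P218FT hiding P2
open Vale.Agent.P218F.Core

theorem im_mo {C0 : Set E3} (hC : MeasurableSet C0) (F : E3 → ℝ) {w : E3 → ℂ}
    (hw : ∀ x ∈ C0, (w x).im = 0) : (mo C0 F w).im = 0 := by
  have e : mo C0 F w = ((∫ x in C0, (w x).re * (F x * Real.exp (-‖x‖ ^ 2 / 4))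
      ∂(μHE[2] : Measure E3) : ℝ) : ℂ) := by
    rw [mo, ← integral_complex_ofReal]
    refine setIntegral_congr_fun hC fun x hx => ?_
    have : w x = ((w x).re : ℂ) := Complex.ext (by simp) (by simp [hw x hx])
    simp only [Complex.ofReal_mul (w x).re]
    rw [← this]
  rw [e, Complex.ofReal_im]

theorem ev_low {X Y : Type} [NormedAddCommGroup X] [NormedSpace ℂ X] [FiniteDimensional ℂ X]
    [NormedAddCommGroup Y] [NormedSpace ℂ Y] {A : ℝ → X →L[ℂ] Y} {B : X →L[ℂ] Y}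
    (h : Tendsto A atTop (𝓝 B)) (hB : ∀ w, B w = 0 → w = 0) :
    ∃ K : ℝ, ∀ᶠ R in atTop, ∀ w, ‖w‖ ≤ K * ‖A R w‖ := by
  obtain ⟨K, hK0, hK⟩ := (B : X →ₗ[ℂ] Y).exists_antilipschitzWith (LinearMap.ker_eq_bot'.2 hB)
  have hK0' : (0 : ℝ) < K := hK0
  refine ⟨2 * K, ?_⟩
  filter_upwards [h.eventually (closedBall_mem_nhds B (show (0 : ℝ) < 1 / (2 * K) by positivity))]
    with R hR w
  have h1 : ‖w‖ ≤ K * ‖B w‖ := by simpa using hK.le_mul_dist w 0
  have h2 : ‖A R w - B w‖ ≤ 1 / (2 * K) * ‖w‖ := (A R - B).le_of_opNorm_le (mem_closedBall_iff_norm.1 hR) w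
  have h3 := norm_sub_norm_le (B w) (A R w)
  rw [norm_sub_rev] at h3
  have h4 : K * (1 / (2 * (K : ℝ)) * ‖w‖) = ‖w‖ / 2 := by field_simp
  have h5 := mul_le_mul_of_nonneg_left (h3.trans h2) hK0'.le
  linarith

/-- **N** -/
theorem n_proof : NStmt := by
  intro S F H hH q χ Z _ _ val tr hG hSp ρ R0 r C s si hs Dz hDz hN tau main C' fi fS hE
  obtain ⟨C₀, R₀, cc, hI, h1, h2⟩ := hH.inv
  have hn := (Nm.nest_of_inv hI h1 (L := 2 * H.Λ) (by linarith [hH.lam])
    (by linarith [hH.lam])).mono (h2.trans hs.big)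
  choose L hL using fun j => hSp.mom (.inr j)
  let La : Un F q Z →L[ℂ] (Fin F.D.m → ℂ) :=
    ContinuousLinearMap.pi fun j => (L j).comp (ContinuousLinearMap.fst ℂ _ _)
  let Lb : Un F q Z →L[ℂ] (Fin F.D.m → Fin 2 → ℂ) := ContinuousLinearMap.pi fun j =>
    ContinuousLinearMap.pi fun i => (ContinuousLinearMap.proj (.inr (j, i))).comp
      (ContinuousLinearMap.snd ℂ _ _)
  have ea : ∀ R, (lsf H χ val tr s tau main).a R = fun x => La (s R x) := fun R => by
    funext x j; exact (hL j _).symm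
  have eb : ∀ R, (lsf H χ val tr s tau main).bt R = fun x => Lb (s R x) := fun R => rfl
  let T : (Nm.X q F.D.m →L[ℂ] Un F q Z) → (Fin F.D.m → ℂ) →L[ℂ] (Fin F.D.m → ℂ) :=
    fun D => La.comp (D.comp (ContinuousLinearMap.inr ℂ _ _))
  have hT : Continuous T := continuous_const.clm_comp (continuous_id.clm_comp continuous_const)
  obtain ⟨K, hK⟩ := ev_low ((hT.tendsto Dz).comp hDz) fun w hw =>
    hN.inj (0, w) rfl fun j => (hL j _).symm.trans (congrFun hw j)
  obtain ⟨R1, hR1⟩ := eventually_atTop.1 (hK.and (eventually_ge_atTop R0))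
  have h0 : R0 ≤ R1 := (hR1 R1 le_rfl).2
  have hC := hs.fam.nonneg hn
  have p1 : 0 ≤ ‖La‖ * C := by positivity
  have p2 : 0 ≤ ‖Lb‖ * C := by positivity
  have p3 := le_abs_self C'
  have p4 := le_abs_self K
  have p5 := abs_nonneg C'
  have p6 := abs_nonneg K
  refine ⟨R1, |C'| + ‖La‖ * C + ‖Lb‖ * C + |K|, h0, hs.fam.rpos, fun R hR => ?_, fun R hR => ?_,
    fun R hR x hx => ⟨?_, ?_, ?_⟩, fun R hR x hx hre => ⟨hE.real R (h0.trans hR) x hx hre, fun j => ?_⟩,
    fun R R' hR h3 h4 x hx => ?_, fun R hR w => ?_, fun R₁ hR x₁ hx => ?_, fun R hR x hx j => ?_,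
    fun R hR x hx j => ?_⟩
  · rw [ea]; exact La.differentiable.comp_differentiableOn (hs.fam.hol R (h0.trans hR))
  · rw [eb]; exact Lb.differentiable.comp_differentiableOn (hs.fam.hol R (h0.trans hR))
  · linarith [hE.bdd R (h0.trans hR) x hx]
  · rw [ea]
    linarith [La.le_of_opNorm_le_of_le le_rfl (hs.fam.bdd R (h0.trans hR) x hx)]
  · rw [eb]
    linarith [Lb.le_of_opNorm_le_of_le le_rfl (hs.fam.bdd R (h0.trans hR) x hx)]
  · exact im_mo hG.cpt.isClosed.measurableSet _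
      fun y hy => (hs.real R (h0.trans hR) x hx hre).2 y (Or.inl hy)
  · have h5 := hs.fam.lipR R R' (h0.trans hR) h3 h4 x hx
    have h6 : 0 ≤ (R' - R) * R ^ (-5 - 3 / 5 : ℝ) := mul_nonneg (by linarith)
      (Real.rpow_nonneg (by linarith [hn.one]) _)
    rw [ea, ea, eb, eb]
    simp only [← map_sub]
    constructor
    · refine (La.le_of_opNorm_le_of_le le_rfl h5).trans ?_
      rw [mul_assoc C, ← mul_assoc, mul_assoc _ (R' - R)]
      exact mul_le_mul_of_nonneg_right (by linarith) h6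
    · refine (Lb.le_of_opNorm_le_of_le le_rfl h5).trans ?_
      rw [mul_assoc C, ← mul_assoc, mul_assoc _ (R' - R)]
      exact mul_le_mul_of_nonneg_right (by linarith) h6
  · have hd : DifferentiableAt ℂ (s R) 0 := (hs.fam.hol R (h0.trans hR)).differentiableAt
      ((Nm.isOpen_dom r isOpen_ball).mem_nhds (hn.zero_mem (h0.trans hR) hs.fam.rpos))
    have h3 : HasFDerivAt (fun x => La (s R x)) (La.comp (fderiv ℂ (s R) 0)) 0 :=
      La.hasFDerivAt.comp 0 hd.hasFDerivAt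
    rw [ea, h3.fderiv]
    exact ((hR1 R hR).1 w).trans (mul_le_mul_of_nonneg_right (by linarith) (norm_nonneg _))
  · obtain ⟨K', ε, hε, h3⟩ := hE.incr R₁ (h0.trans hR) x₁ hx
    exact ⟨K', ε, hε, fun R R' x x' h4 => h3 R R' x x' (h0.trans h4)⟩
  · exact (hE.tau_le R (h0.trans hR) x hx j).trans
      (mul_le_mul_of_nonneg_right (by linarith) (Real.exp_pos _).le)
  · refine (hE.main_le R (h0.trans hR) x hx j).trans ?_
    have : 0 ≤ R := by linarith [hn.one]
    gcongr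
    linarith

end Vale.Agent.P218F.LS
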