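import Vale.Agent.P218F.KSpec
import Vale.Agent.P281.MF.Hol

/-! Block K: basic facts on the domains, the boundary term, sectors and contours. -/

open Filter Topology Set Asymptotics Metric

noncomputable section

namespace Vale.Agent.P218F.K

/-! ### the domains `Om` -/

theorem sOf_re (R : ℝ) (c : ℂ) :
    (sOf R c).re = R ^ 2 / 4 + c.re * R ^ 4 / 8 - Real.log (R ^ 2) := by
  have : sOf R c = ((R ^ 2 / 4 - Real.log (R ^ 2) : ℝ) : ℂ) + ((R ^ 4 / 8 : ℝ) : ℂ) * c := by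
    unfold sOf; push_cast; ring
  rw [this, Complex.add_re, Complex.ofReal_re, Complex.re_ofReal_mul]; ring

theorem sOf_im (R : ℝ) (c : ℂ) : (sOf R c).im = c.im * R ^ 4 / 8 := by
  have : sOf R c = ((R ^ 2 / 4 - Real.log (R ^ 2) : ℝ) : ℂ) + ((R ^ 4 / 8 : ℝ) : ℂ) * c := by
    unfold sOf; push_cast; ring
  rw [this, Complex.add_im, Complex.ofReal_im, Complex.im_ofReal_mul]; ring

theorem sOf_sub (R : ℝ) (c c' : ℂ) : sOf R c' - sOf R c = (R : ℂ) ^ 4 / 8 * (c' - c) := by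
  unfold sOf; ring

theorem cOf_sOf {R : ℝ} (hR : R ≠ 0) (c : ℂ) : cOf R (sOf R c) = c := by
  have : (R : ℂ) ≠ 0 := by exact_mod_cast hR
  unfold cOf sOf; field_simp; ring

theorem sOf_cOf {R : ℝ} (hR : R ≠ 0) (s : ℂ) : sOf R (cOf R s) = s := by
  have : (R : ℂ) ≠ 0 := by exact_mod_cast hR
  unfold cOf sOf; field_simp; ring

theorem cOf_sub {R : ℝ} (hR : R ≠ 0) (s s' : ℂ) :
    cOf R s' - cOf R s = 8 / (R : ℂ) ^ 4 * (s' - s) := by
  have : (R : ℂ) ≠ 0 := by exact_mod_cast hR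
  unfold cOf; field_simp; ring

theorem differentiable_sOf (R : ℝ) : Differentiable ℂ (sOf R) := by
  unfold sOf; fun_prop

theorem differentiable_cOf (R : ℝ) : Differentiable ℂ (cOf R) := by
  unfold cOf; fun_prop

theorem norm_cOf_le {R : ℝ} (hR : 0 < R) (s : ℂ) :
    ‖cOf R s‖ * R ^ 2 ≤ 2 + 8 * (‖s‖ + |Real.log (R ^ 2)|) / R ^ 2 := by
  have h2 : (0 : ℝ) < R ^ 2 := by positivity
  unfold cOf
  rw [norm_div, norm_pow, Complex.norm_real, Real.norm_of_nonneg hR.le, div_mul_cancel₀ _ h2.ne']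
  refine (norm_sub_le _ _).trans ?_
  rw [norm_div, norm_pow, Complex.norm_real, Real.norm_of_nonneg hR.le, norm_mul]
  have h3 : ‖s + ((Real.log (R ^ 2) : ℝ) : ℂ)‖ ≤ ‖s‖ + |Real.log (R ^ 2)| := by
    refine (norm_add_le _ _).trans ?_
    rw [Complex.norm_real, Real.norm_eq_abs]
  have h4 : ‖(8 : ℂ)‖ = 8 := by simp
  have h5 : ‖(2 : ℂ)‖ = 2 := by simp
  rw [h4, h5, add_comm]
  gcongr

theorem isOpen_Om (Λ a R : ℝ) : IsOpen (Om Λ a R) :=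
  (isOpen_lt (f := fun c : ℂ => ‖c * (R : ℂ) ^ 2 - 2‖) (by fun_prop) continuous_const).inter
    (isOpen_lt (continuous_norm.mul continuous_const) continuous_const)

theorem convex_Om (Λ a R : ℝ) : Convex ℝ (Om Λ a R) := by
  rintro x ⟨hx, hx'⟩ y ⟨hy, hy'⟩ s t hs ht hst
  refine ⟨?_, ?_⟩
  · have h1 := convex_ball (2 : ℂ) _ (mem_ball_iff_norm.2 hx) (mem_ball_iff_norm.2 hy) hs ht hst
    rw [mem_ball_iff_norm] at h1
    rwa [show s • (x * (R : ℂ) ^ 2) + t • (y * (R : ℂ) ^ 2) = (s • x + t • y) * (R : ℂ) ^ 2 by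
      simp only [Complex.real_smul]; ring] at h1
  · have h1 : ‖s • x + t • y‖ ≤ s * ‖x‖ + t * ‖y‖ := by
      refine (norm_add_le _ _).trans ?_
      rw [norm_smul, norm_smul, Real.norm_of_nonneg hs, Real.norm_of_nonneg ht]
    have h2 := mul_le_mul_of_nonneg_right h1 (sq_nonneg R)
    obtain rfl : t = 1 - s := by linarith
    rcases eq_or_lt_of_le hs with h | h
    · subst h; simpa using hy'
    · nlinarith [mul_pos h (sub_pos.2 hx'), mul_nonneg ht (sub_pos.2 hy').le]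

/-- the domain lies in the half plane `Λ < re s` -/
theorem Om_re {Λ a R : ℝ} (hR : R ≠ 0) {c : ℂ} (hc : c ∈ Om Λ a R) : Λ < (sOf R c).re := by
  have h2 : 0 < R ^ 2 := by positivity
  have h1 := (abs_lt.1 ((Complex.abs_re_le_norm _).trans_lt hc.1)).1
  have h3 : (c * (R : ℂ) ^ 2 - 2).re = c.re * R ^ 2 - 2 := by
    rw [← Complex.ofReal_pow, Complex.sub_re, Complex.re_mul_ofReal]; simp
  rw [h3] at h1
  have h4 : 8 * (Λ + Real.log (R ^ 2)) / R ^ 2 < 2 + c.re * R ^ 2 := by linarith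
  rw [div_lt_iff₀ h2] at h4
  rw [sOf_re]
  nlinarith

theorem Om_norm {Λ a R : ℝ} {c : ℂ} (hc : c ∈ Om Λ a R) : ‖c‖ * R ^ 2 < a := hc.2

theorem norm_mul_sq (c : ℂ) (R : ℝ) : ‖c * (R : ℂ) ^ 2‖ = ‖c‖ * R ^ 2 := by
  rw [norm_mul, norm_pow, Complex.norm_real, Real.norm_eq_abs, sq_abs]

theorem Om_mono {Λ Λ' a a' : ℝ} (h : Λ' ≤ Λ) (ha : a ≤ a') (R : ℝ) : Om Λ a R ⊆ Om Λ' a' R :=
  fun _ hc => ⟨hc.1.trans_le (by gcongr), hc.2.trans_le ha⟩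

/-- the domains decrease with the radius -/
theorem Om_nest {Λ a ρ R : ℝ} (hρ : 0 < ρ) (hR : ρ ≤ R)
    (h1 : Λ + Real.log (ρ ^ 2) ≤ ρ ^ 2 / 8) : Om Λ a R ⊆ Om Λ a ρ := by
  rintro c ⟨hc, hc'⟩
  have hpP : ρ ^ 2 ≤ R ^ 2 := by gcongr
  have hp : 0 < ρ ^ 2 := by positivity
  refine ⟨?_, (mul_le_mul_of_nonneg_left hpP (norm_nonneg _)).trans_lt hc'⟩
  have hl : Real.log (ρ ^ 2) ≤ Real.log (R ^ 2) := Real.log_le_log hp hpP
  have hP : 0 < R ^ 2 := hp.trans_le hpP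
  set θ := ρ ^ 2 / R ^ 2 with hθ
  have hθ0 : 0 < θ := by positivity
  have hθ1 : θ ≤ 1 := (div_le_one hP).2 hpP
  have hR0 : (R : ℂ) ≠ 0 := by exact_mod_cast (hρ.trans_le hR).ne'
  have h2 : c * (ρ : ℂ) ^ 2 - 2 = (θ : ℂ) * (c * (R : ℂ) ^ 2 - 2) - ((2 * (1 - θ) : ℝ) : ℂ) := by
    rw [hθ]; push_cast; field_simp; ring
  have h3 : ‖c * (ρ : ℂ) ^ 2 - 2‖ ≤ θ * ‖c * (R : ℂ) ^ 2 - 2‖ + 2 * (1 - θ) := by
    rw [h2]
    refine (norm_sub_le _ _).trans ?_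
    rw [norm_mul, Complex.norm_real, Complex.norm_real, Real.norm_of_nonneg hθ0.le,
      Real.norm_of_nonneg (by linarith)]
  have h4 := mul_lt_mul_of_pos_left hc hθ0
  set l := Λ + Real.log (ρ ^ 2) with hldef
  have h5 : 8 * l / R ^ 2 ≤ 8 * (Λ + Real.log (R ^ 2)) / R ^ 2 := by
    gcongr; linarith
  have h6 : 8 * l / R ^ 2 = θ * (8 * l / ρ ^ 2) := by rw [hθ]; field_simp
  have h7 : 8 * l / ρ ^ 2 ≤ 1 := by rw [div_le_one hp]; linarith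
  have h8 := mul_le_mul_of_nonneg_left h5 hθ0.le
  rw [h6] at h8
  have h9 : 0 ≤ (1 - θ) * (2 - 8 * l / ρ ^ 2 * (1 + θ)) :=
    mul_nonneg (by linarith) (by nlinarith)
  nlinarith

theorem mem_Om_of_le {Λ a b R : ℝ} {c : ℂ} (hc : ‖c‖ * R ^ 2 ≤ b) (hb : b < a)
    (h : Λ + Real.log (R ^ 2) < (2 - b) * R ^ 2 / 8) : c ∈ Om Λ a R := by
  refine ⟨?_, hc.trans_lt hb⟩
  rcases eq_or_ne R 0 with rfl | hR
  · simp; norm_num
  have h2 : 0 < R ^ 2 := by positivity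
  have h1 := norm_sub_le (c * (R : ℂ) ^ 2) 2
  rw [norm_mul_sq, Complex.norm_two] at h1
  have h3 : 8 * (Λ + Real.log (R ^ 2)) / R ^ 2 < 2 - b := by
    rw [div_lt_iff₀ h2]; linarith
  linarith

/-- a small perturbation of the parameter -/
theorem mem_Om_of_near {Λ a R δ δ' : ℝ} {c c' : ℂ} (hc : c ∈ Om Λ a R)
    (h1 : ‖c' - c‖ * R ^ 4 ≤ 8 * δ) (h2 : ‖c' - c‖ * R ^ 2 ≤ δ') :
    c' ∈ Om (Λ - δ) (a + δ') R := by
  obtain ⟨h3, h4⟩ := hc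
  refine ⟨?_, ?_⟩
  · rcases eq_or_ne R 0 with rfl | hR
    · simp; norm_num
    have hR2 : 0 < R ^ 2 := by positivity
    have h5 := norm_add_le (c * (R : ℂ) ^ 2 - 2) ((c' - c) * (R : ℂ) ^ 2)
    rw [norm_mul_sq, show c * (R : ℂ) ^ 2 - 2 + (c' - c) * (R : ℂ) ^ 2 = c' * (R : ℂ) ^ 2 - 2 by
      ring] at h5
    have h6 : ‖c' - c‖ * R ^ 2 ≤ 8 * δ / R ^ 2 := by
      rw [le_div_iff₀ hR2]; nlinarith
    have h7 : 8 * (Λ - δ + Real.log (R ^ 2)) / R ^ 2 =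
        8 * (Λ + Real.log (R ^ 2)) / R ^ 2 - 8 * δ / R ^ 2 := by ring
    linarith
  · have h5 : ‖c'‖ ≤ ‖c‖ + ‖c' - c‖ := norm_le_insert' _ _ |>.trans (by rw [add_comm])
    have h6 := mul_le_mul_of_nonneg_right h5 (sq_nonneg R)
    nlinarith

theorem tendsto_log_sq_div : Tendsto (fun R : ℝ => Real.log (R ^ 2) / R) atTop (𝓝 0) := by
  have h := (Real.isLittleO_log_id_atTop.tendsto_div_nhds_zero).const_mul 2
  simp only [mul_zero, id] at h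
  refine h.congr fun R => ?_
  rw [Real.log_pow]; push_cast; ring

theorem eventually_log_le (Λ : ℝ) {ε : ℝ} (hε : 0 < ε) :
    ∀ᶠ R : ℝ in atTop, Λ + Real.log (R ^ 2) ≤ ε * R := by
  filter_upwards [tendsto_log_sq_div.eventually (gt_mem_nhds (half_pos hε)),
    eventually_gt_atTop 0, eventually_ge_atTop (2 * Λ / ε)] with R h1 h2 h3
  rw [div_lt_iff₀ h2] at h1
  rw [div_le_iff₀ hε] at h3
  linarith

theorem eventually_log_le_sq (Λ : ℝ) {ε : ℝ} (hε : 0 < ε) :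
    ∀ᶠ R : ℝ in atTop, Λ + Real.log (R ^ 2) ≤ ε * R ^ 2 := by
  filter_upwards [eventually_log_le Λ hε, eventually_ge_atTop 1] with R h1 h2
  refine h1.trans ?_
  gcongr
  nlinarith

theorem eventually_big {Λ : ℝ} (h : 0 ≤ Λ) : ∀ᶠ R₀ : ℝ in atTop, Big Λ R₀ := by
  filter_upwards [eventually_forall_ge_atTop.2
    (eventually_log_le_sq (Λ + 2) (by norm_num : (0 : ℝ) < 1 / 16)),
    eventually_ge_atTop 4] with R₀ h1 h2
  exact ⟨h, h2, fun R hR => by have := h1 R hR; linarith⟩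

theorem Big.mono {Λ Λ' R₀ R₁ : ℝ} (h : Big Λ R₀) (h0 : 0 ≤ Λ') (h1 : Λ' ≤ Λ) (h2 : R₀ ≤ R₁) :
    Big Λ' R₁ :=
  ⟨h0, h.2.1.trans h2, fun R hR => by have := h.2.2 R (h2.trans hR); linarith⟩

theorem Big.one_le {Λ R₀ R : ℝ} (h : Big Λ R₀) (hR : R₀ ≤ R) : 1 ≤ R := by
  have := h.2.1; linarith

theorem Big.pos {Λ R₀ R : ℝ} (h : Big Λ R₀) (hR : R₀ ≤ R) : 0 < R := one_pos.trans_le (h.one_le hR)

theorem Big.nest {Λ R₀ : ℝ} (h : Big Λ R₀) {Λ' a ρ R : ℝ} (h1 : Λ' ≤ Λ + 2)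
    (hρ : R₀ ≤ ρ) (hR : ρ ≤ R) : Om Λ' a R ⊆ Om Λ' a ρ := by
  refine Om_nest (h.pos hρ) hR ?_
  have := h.2.2 ρ hρ
  nlinarith [sq_nonneg ρ]

theorem eventually_nest (Λ : ℝ) :
    ∀ᶠ ρ : ℝ in atTop, ∀ R, ρ ≤ R → ∀ a, Om Λ a R ⊆ Om Λ a ρ := by
  filter_upwards [eventually_log_le_sq Λ (by norm_num : (0 : ℝ) < 1 / 8), eventually_gt_atTop 0]
    with ρ h2 h3 R hR a
  exact Om_nest h3 hR (by linarith)

/-- the disc `|c| R² ≤ 3/2` lies in the domain -/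
theorem Big.mem_Om {Λ R₀ : ℝ} (h : Big Λ R₀) {Λ' a R : ℝ} (h1 : Λ' ≤ Λ + 1) (ha : 3 / 2 < a)
    (hR : R₀ ≤ R) {c : ℂ} (hc : ‖c‖ * R ^ 2 ≤ 3 / 2) : c ∈ Om Λ' a R := by
  refine mem_Om_of_le hc ha ?_
  have := h.2.2 R hR
  linarith

/-- every disc `|c| R² ≤ b < 2` lies in the domain for large `R` -/
theorem eventually_mem_Om (Λ : ℝ) {a b : ℝ} (hb : b < 2) (ha : b < a) :
    ∀ᶠ R : ℝ in atTop, ∀ c : ℂ, ‖c‖ * R ^ 2 ≤ b → c ∈ Om Λ a R := by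
  filter_upwards [eventually_log_le_sq (Λ + 1) (by linarith : (0 : ℝ) < (2 - b) / 8)] with R h c hc
  exact mem_Om_of_le hc ha (by linarith)

/-- the edge lemma -/
theorem eventually_mem_Om_of_edge (Λ : ℝ) : ∀ᶠ r : ℝ in atTop, ∀ (c : ℂ) (X a : ℝ),
    r ^ 2 / 2 + 2 * Real.log (r ^ 2) + (2 * Λ + 1) ≤ X → (‖c‖ ≤ 1 / X ∨ 0 ≤ c.re) →
    ‖c‖ * r ^ 2 < a → a ≤ 3 → c ∈ Om Λ a r := by
  have h1 : Tendsto (fun R : ℝ => Real.log (R ^ 2)) atTop atTop :=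
    Real.tendsto_log_atTop.comp (tendsto_pow_atTop two_ne_zero)
  filter_upwards [eventually_log_le (Λ + 1) (by norm_num : (0 : ℝ) < 1 / 8), eventually_ge_atTop 4,
    h1.eventually_ge_atTop (-Λ)] with r h2 h3 h4 c X a hX hc ha ha3
  refine ⟨?_, ha⟩
  have hr : 0 < r ^ 2 := by positivity
  set l := Real.log (r ^ 2)
  rcases hc with hc | hc
  · set v := 2 * l + (2 * Λ + 1) with hv
    have hv0 : 0 < v := by linarith
    have hv1 : v ≤ r / 4 := by linarith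
    have hX0 : 0 < r ^ 2 / 2 + v := by positivity
    have h5 : 1 / X ≤ 1 / (r ^ 2 / 2 + v) := one_div_le_one_div_of_le hX0 (by linarith)
    have h6 : ‖c‖ * (r ^ 2 / 2 + v) ≤ 1 := by
      have := hc.trans h5
      rwa [le_div_iff₀ hX0] at this
    have h7 := norm_sub_le (c * (r : ℂ) ^ 2) 2
    rw [norm_mul_sq, Complex.norm_two] at h7
    have h8 : 8 * (Λ + l) / r ^ 2 < 2 - ‖c‖ * r ^ 2 := by
      rw [div_lt_iff₀ hr, show Λ + l = (v - 1) / 2 by rw [hv]; ring]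
      refine lt_of_mul_lt_mul_right ?_ hX0.le
      have h9 := mul_le_mul_of_nonneg_right h6 (by positivity : 0 ≤ r ^ 4)
      have h10 : v ^ 2 ≤ (r / 4) ^ 2 := by gcongr
      nlinarith
    linarith
  · have h5 : ‖c * (r : ℂ) ^ 2 - 2‖ ^ 2 ≤ (15 / 4) ^ 2 := by
      have h6 := norm_mul_sq c r
      have h7 : 0 ≤ (c * (r : ℂ) ^ 2).re := by
        rw [← Complex.ofReal_pow, Complex.re_mul_ofReal]; positivity
      set z := c * (r : ℂ) ^ 2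
      have h8 : ‖z‖ ^ 2 ≤ 3 ^ 2 := pow_le_pow_left₀ (norm_nonneg _) (by linarith) 2
      rw [Complex.sq_norm, Complex.normSq_apply] at h8 ⊢
      simp only [Complex.sub_re, Complex.sub_im, Complex.re_ofNat, Complex.im_ofNat]
      nlinarith
    have h6 := (pow_le_pow_iff_left₀ (norm_nonneg _) (by norm_num) two_ne_zero).1 h5
    have h7 : 8 * (Λ + l) / r ^ 2 < 1 / 4 := by
      rw [div_lt_iff₀ hr]; nlinarith
    linarith

/-- a fixed point of the half plane is in the domain for large `r`, locally uniformly -/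
theorem eventually_cOf_mem {Λ : ℝ} {s₀ : ℂ} (hs : Λ < s₀.re) {a : ℝ} (ha : 2 < a) :
    ∀ᶠ q : ℝ × ℂ in atTop ×ˢ 𝓝 s₀, cOf q.1 q.2 ∈ Om Λ a q.1 := by
  set δ := (s₀.re - Λ) / 2 with hδ
  have hδ0 : 0 < δ := by linarith
  set ε := min (min (√δ / 2) ((a - 2) / 16)) (1 / 8) with hε
  have hε0 : 0 < ε := lt_min (lt_min (by positivity) (by linarith)) (by norm_num)
  have h0 : Tendsto (fun R : ℝ => Real.log (R ^ 2)) atTop atTop :=
    Real.tendsto_log_atTop.comp (tendsto_pow_atTop two_ne_zero)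
  have h1 : ∀ᶠ r : ℝ in atTop, ‖s₀‖ + δ + Real.log (r ^ 2) ≤ ε * r ∧ 1 ≤ r ∧
      0 ≤ Real.log (r ^ 2) ∧ -Λ ≤ Real.log (r ^ 2) :=
    (eventually_log_le _ hε0).and ((eventually_ge_atTop 1).and
      ((h0.eventually_ge_atTop 0).and (h0.eventually_ge_atTop _)))
  filter_upwards [h1.prod_mk (ball_mem_nhds s₀ hδ0)] with ⟨r, s⟩ ⟨⟨h2, h3, h4, h4'⟩, h5⟩
  simp only [dist_eq_norm] at h2 h3 h4 h4' h5 ⊢
  have hr : 0 < r ^ 2 := by positivity
  have h6 : ‖s‖ ≤ ‖s₀‖ + δ := by linarith [norm_le_insert' s s₀]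
  have h7 : Λ + δ < s.re := by
    have := (abs_lt.1 ((Complex.abs_re_le_norm _).trans_lt h5)).1
    rw [Complex.sub_re] at this
    linarith
  set l := Real.log (r ^ 2) with hl
  have hε1 : ε ≤ √δ / 2 := (min_le_left _ _).trans (min_le_left _ _)
  have hε2 : ε ≤ (a - 2) / 16 := (min_le_left _ _).trans (min_le_right _ _)
  have hε3 : ε ≤ 1 / 8 := min_le_right _ _
  refine ⟨?_, ?_⟩
  · have hr0 : (r : ℂ) ≠ 0 := by exact_mod_cast (by linarith : r ≠ 0)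
    have h8 : cOf r s * (r : ℂ) ^ 2 - 2 = ((8 / r ^ 2 : ℝ) : ℂ) * (s + l - (r ^ 2 / 2 : ℝ)) := by
      unfold cOf; rw [← hl]; push_cast; field_simp; ring
    rw [h8, norm_mul, Complex.norm_real, Real.norm_of_nonneg (by positivity),
      show 4 - 8 * (Λ + l) / r ^ 2 = 8 / r ^ 2 * (r ^ 2 / 2 - (Λ + l)) by field_simp; ring]
    refine mul_lt_mul_of_pos_left ?_ (by positivity)
    have h9 : ‖s + l‖ ≤ ε * r := by
      refine (norm_add_le _ _).trans ?_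
      rw [Complex.norm_real, Real.norm_of_nonneg h4]; linarith
    have h10 : (s + l).re ≤ ε * r := (Complex.re_le_norm _).trans h9
    have h11 : (s + l).re = s.re + l := by simp
    have h12 : ‖s + l‖ ^ 2 ≤ δ / 4 * r ^ 2 := by
      calc ‖s + l‖ ^ 2 ≤ (√δ / 2 * r) ^ 2 := by
            gcongr; exact h9.trans (by gcongr)
        _ = δ / 4 * r ^ 2 := by rw [mul_pow, div_pow, Real.sq_sqrt hδ0.le]; norm_num
    refine lt_of_pow_lt_pow_left₀ 2 (by nlinarith) ?_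
    set z := s + (l : ℂ)
    rw [Complex.sq_norm, Complex.normSq_apply] at h12 ⊢
    simp only [Complex.sub_re, Complex.sub_im, Complex.ofReal_re, Complex.ofReal_im]
    nlinarith [sq_nonneg (Λ + l), mul_pos hδ0 hr]
  · refine (norm_cOf_le (by linarith) s).trans_lt ?_
    rw [← hl, abs_of_nonneg h4]
    have : 8 * (‖s‖ + l) / r ^ 2 < a - 2 := by
      rw [div_lt_iff₀ hr]
      have h8 : ε * r ≤ (a - 2) / 16 * r ^ 2 :=
        mul_le_mul hε2 (by nlinarith) (by linarith) (by linarith)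
      nlinarith [mul_pos (sub_pos.2 ha) hr]
    linarith

/-! ### the domains `Dom`, `St`, `UU` -/

section Dom

variable {ι κ τ : Type} [Fintype ι] [Fintype κ] [Fintype τ]

omit [Fintype κ] in
theorem isOpen_St (r₀ : ℝ) : IsOpen (St ι κ r₀) := by
  have : St ι κ r₀ = ⋂ j, {x : ι ⊕ κ → ℂ | ‖x (Sum.inl j)‖ < r₀} := by ext; simp [St]
  rw [this]
  exact isOpen_iInter_of_finite fun j =>
    isOpen_lt (continuous_apply _).norm continuous_const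

theorem isOpen_Dom (r₀ Λ R : ℝ) : IsOpen (Dom ι κ r₀ Λ R) := by
  have : Dom ι κ r₀ Λ R =
      St ι κ r₀ ∩ ⋂ i, (fun x : ι ⊕ κ → ℂ => x (Sum.inr i)) ⁻¹' Om Λ 3 R := by
    ext; simp [Dom, St]
  rw [this]
  exact (isOpen_St r₀).inter (isOpen_iInter_of_finite fun i =>
    (isOpen_Om _ _ _).preimage (continuous_apply _))

omit [Fintype ι] [Fintype κ] in
theorem Dom_subset_St (r₀ Λ R : ℝ) : Dom ι κ r₀ Λ R ⊆ St ι κ r₀ := fun _ h => h.1

omit [Fintype ι] [Fintype κ] in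
theorem convex_Dom (r₀ Λ R : ℝ) : Convex ℝ (Dom ι κ r₀ Λ R) := by
  rintro x ⟨hx, hx'⟩ y ⟨hy, hy'⟩ s t hs ht hst
  refine ⟨fun j => ?_, fun i => convex_Om Λ 3 R (hx' i) (hy' i) hs ht hst⟩
  have := convex_ball (0 : ℂ) r₀ (mem_ball_zero_iff.2 (hx j)) (mem_ball_zero_iff.2 (hy j)) hs ht hst
  exact mem_ball_zero_iff.1 this

omit [Fintype ι] [Fintype κ] in
theorem Big.nest_Dom {Λ R₀ : ℝ} (h : Big Λ R₀) {r₀ ρ R : ℝ} (hρ : R₀ ≤ ρ) (hR : ρ ≤ R) :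
    Dom ι κ r₀ Λ R ⊆ Dom ι κ r₀ Λ ρ :=
  fun _ hx => ⟨hx.1, fun i => h.nest (by linarith) hρ hR (hx.2 i)⟩

omit [Fintype ι] in
theorem Big.mem_Dom {Λ R₀ : ℝ} (h : Big Λ R₀) {r₀ R : ℝ} (hR : R₀ ≤ R) {x : ι ⊕ κ → ℂ}
    (hx : x ∈ St ι κ r₀) (hc : ‖cp x‖ * R ^ 2 ≤ 3 / 2) : x ∈ Dom ι κ r₀ Λ R :=
  ⟨hx, fun i => h.mem_Om (by linarith) (by norm_num) hR
    ((mul_le_mul_of_nonneg_right (norm_le_pi_norm (cp x) i) (sq_nonneg R)).trans hc)⟩

omit [Fintype ι] in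
theorem norm_cp_le_of_mem {r₀ Λ R : ℝ} (hR : 0 < R) {x : ι ⊕ κ → ℂ} (hx : x ∈ Dom ι κ r₀ Λ R) :
    ‖cp x‖ ≤ 3 / R ^ 2 :=
  (pi_norm_le_iff_of_nonneg (by positivity)).2 fun i => by
    rw [le_div_iff₀ (by positivity)]
    exact (hx.2 i).2.le

theorem norm_cp_le (x : ι ⊕ κ → ℂ) : ‖cp x‖ ≤ ‖x‖ :=
  (pi_norm_le_iff_of_nonneg (norm_nonneg _)).2 fun i => norm_le_pi_norm x (Sum.inr i)

theorem isOpen_UU (ls : κ → ℝ) (r₁ Λ θ R : ℝ) : IsOpen (UU ι ls r₁ Λ θ R) := by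
  have : UU ι ls r₁ Λ θ R = {p : ℂ × (ι ⊕ κ → ℂ) | ‖p.2‖ < θ * r₁} ∩
      ⋂ i, (fun p : ℂ × (ι ⊕ κ → ℂ) => p.1 * (ls i + p.2 (Sum.inr i))) ⁻¹'
        Om (Λ + 1 - θ) (2 + θ) R := by
    ext; simp [UU]
  rw [this]
  exact (isOpen_lt continuous_snd.norm continuous_const).inter
    (isOpen_iInter_of_finite fun i => (isOpen_Om _ _ _).preimage (by fun_prop))

theorem UU_mono (ls : κ → ℝ) {r₁ : ℝ} (hr : 0 ≤ r₁) (Λ : ℝ) {θ θ' : ℝ} (h : θ ≤ θ') (R : ℝ) :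
    UU ι ls r₁ Λ θ R ⊆ UU ι ls r₁ Λ θ' R :=
  fun _ hp => ⟨hp.1.trans_le (by gcongr),
    fun i => Om_mono (by linarith) (by linarith) R (hp.2 i)⟩

theorem chart_mem_Dom {ls : κ → ℝ} {r₀ r₁ Λ θ R : ℝ} (hr : 0 ≤ r₁) (hr' : r₁ ≤ r₀) (hθ : θ ≤ 1)
    {p : ℂ × (ι ⊕ κ → ℂ)} (hp : p ∈ UU ι ls r₁ Λ θ R) : chart ls p ∈ Dom ι κ r₀ Λ R := by
  have hp' := UU_mono ls hr Λ hθ R hp
  refine ⟨fun j => ?_, fun i => ?_⟩
  · have := (norm_le_pi_norm p.2 (Sum.inl j)).trans_lt hp'.1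
    simp only [chart, sc, shift, Sum.elim_inl]
    linarith
  · have := hp'.2 i
    simp only [chart, sc, shift, Sum.elim_inr]
    exact Om_mono (by linarith) (by norm_num) R this

/-- in the chart domains `|ε| R²` is bounded -/
theorem norm_fst_le_of_mem {ls : κ → ℝ} (hls : ‖ls‖ = 1) {r₁ Λ θ R b : ℝ} (hb : θ * r₁ ≤ b)
    {p : ℂ × (ι ⊕ κ → ℂ)} (hp : p ∈ UU ι ls r₁ Λ θ R) : ‖p.1‖ * (1 - b) * R ^ 2 ≤ 2 + θ := by
  have hne : Nonempty κ := by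
    by_contra h
    rw [not_nonempty_iff] at h
    rw [Subsingleton.elim ls 0, norm_zero] at hls
    exact zero_ne_one hls
  obtain ⟨i, hi⟩ : ∃ i, ‖ls‖ = ‖ls i‖ := by
    obtain ⟨i, -, hi⟩ := Finset.exists_max_image Finset.univ (fun i => ‖ls i‖) Finset.univ_nonempty
    exact ⟨i, le_antisymm ((pi_norm_le_iff_of_nonneg (norm_nonneg _)).2 fun j =>
      hi j (Finset.mem_univ _)) (norm_le_pi_norm ls i)⟩
  have h1 := (hp.2 i).2
  rw [norm_mul] at h1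
  have h2 : 1 - b ≤ ‖(ls i : ℂ) + p.2 (Sum.inr i)‖ := by
    have h3 := norm_sub_norm_le (ls i : ℂ) (-p.2 (Sum.inr i))
    rw [sub_neg_eq_add, norm_neg, Complex.norm_real, ← hi, hls] at h3
    have h4 := (norm_le_pi_norm p.2 (Sum.inr i)).trans_lt hp.1
    linarith
  refine le_trans ?_ h1.le
  gcongr

theorem differentiable_chart (ls : κ → ℝ) :
    Differentiable ℂ (chart ls : ℂ × (ι ⊕ κ → ℂ) → ι ⊕ κ → ℂ) := by
  refine differentiable_pi.2 fun j => ?_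
  rcases j with j | j <;> simp only [chart, sc, shift, Sum.elim_inl, Sum.elim_inr] <;> fun_prop

theorem differentiable_arc {σ : Type} [Fintype σ] (a : ℕ → σ → ℝ) (M : ℕ) :
    Differentiable ℂ (arc a M) := by
  refine differentiable_pi.2 fun j => ?_
  simp only [arc]
  fun_prop

end Dom

/-! ### exponentially small increments -/

theorem exists_pow_mul_exp_le (A : ℕ) {a b : ℝ} (h : b < a) :
    ∃ C : ℝ, 0 < C ∧ ∀ R : ℝ, 1 ≤ R →
      R ^ A * Real.exp (-(a * R ^ 2)) ≤ C * Real.exp (-(b * R ^ 2)) := by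
  have hd : 0 < a - b := sub_pos.2 h
  refine ⟨A.factorial / (a - b) ^ A, by positivity, fun R hR => ?_⟩
  have h1 : ((a - b) * R ^ 2) ^ A / A.factorial ≤ Real.exp ((a - b) * R ^ 2) :=
    Real.pow_div_factorial_le_exp _ (by positivity) A
  have h2 : R ^ A ≤ (R ^ 2) ^ A := by
    gcongr
    nlinarith
  rw [div_le_iff₀ (by positivity), mul_pow] at h1
  have h3 : Real.exp (-(b * R ^ 2)) = Real.exp ((a - b) * R ^ 2) * Real.exp (-(a * R ^ 2)) := by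
    rw [← Real.exp_add]; congr 1; ring
  rw [h3, ← mul_assoc]
  refine mul_le_mul_of_nonneg_right ?_ (Real.exp_pos _).le
  rw [div_mul_eq_mul_div, le_div_iff₀ (by positivity)]
  calc R ^ A * (a - b) ^ A ≤ (R ^ 2) ^ A * (a - b) ^ A := by gcongr
    _ = (a - b) ^ A * (R ^ 2) ^ A := mul_comm _ _
    _ ≤ _ := h1
    _ = _ := mul_comm _ _

/-- unit steps add up -/
theorem inc_of_step {V : Type*} [NormedAddCommGroup V] {F : ℝ → V} {C ρ R : ℝ} {A : ℕ}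
    (hC : 0 ≤ C) (hρ : 2 * A + 2 ≤ ρ) (hR : ρ ≤ R)
    (h : ∀ s t, ρ ≤ s → s ≤ t → t ≤ s + 1 → t ≤ R →
      ‖F t - F s‖ ≤ C * s ^ A * Real.exp (-s ^ 2 / 4)) :
    ‖F R - F ρ‖ ≤ 2 * C * ρ ^ A * Real.exp (-ρ ^ 2 / 4) := by
  have hA : (0 : ℝ) ≤ A := Nat.cast_nonneg A
  have key : ∀ s : ℝ, 2 * A + 2 ≤ s → 2 * ((s + 1) ^ A * Real.exp (-(s + 1) ^ 2 / 4)) ≤
      s ^ A * Real.exp (-s ^ 2 / 4) := by
    intro s hs
    have hs0 : 0 < s := by linarith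
    have h1 : (s + 1) ^ A ≤ s ^ A * Real.exp (1 / 2) := by
      have h2 : s + 1 ≤ s * Real.exp (1 / s) := by
        have := Real.add_one_le_exp (1 / s)
        calc s + 1 = s * (1 / s + 1) := by field_simp; ring
          _ ≤ _ := by gcongr
      calc (s + 1) ^ A ≤ (s * Real.exp (1 / s)) ^ A := by gcongr
        _ = s ^ A * Real.exp (A * (1 / s)) := by rw [mul_pow, Real.exp_nat_mul]
        _ ≤ _ := by
          gcongr
          rw [mul_one_div, div_le_iff₀ hs0]; linarith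
    have h3 : 2 * (Real.exp (1 / 2) * Real.exp (-(s + 1) ^ 2 / 4)) ≤ Real.exp (-s ^ 2 / 4) := by
      have h4 : (2 : ℝ) ≤ Real.exp (3 / 4) := by
        have := Real.quadratic_le_exp_of_nonneg (by norm_num : (0 : ℝ) ≤ 3 / 4)
        linarith
      calc _ ≤ Real.exp (3 / 4) * (Real.exp (1 / 2) * Real.exp (-(s + 1) ^ 2 / 4)) := by gcongr
        _ = Real.exp (3 / 4 + (1 / 2 + -(s + 1) ^ 2 / 4)) := by rw [← Real.exp_add, ← Real.exp_add]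
        _ ≤ _ := Real.exp_le_exp.2 (by nlinarith)
    calc _ ≤ 2 * (s ^ A * Real.exp (1 / 2) * Real.exp (-(s + 1) ^ 2 / 4)) := by gcongr
      _ = s ^ A * (2 * (Real.exp (1 / 2) * Real.exp (-(s + 1) ^ 2 / 4))) := by ring
      _ ≤ _ := by gcongr
  have main : ∀ m : ℕ, ∀ s, ρ ≤ s → s ≤ R → R ≤ s + m →
      ‖F R - F s‖ ≤ 2 * C * s ^ A * Real.exp (-s ^ 2 / 4) := by
    intro m
    induction m with
    | zero =>
      intro s h1 h2 h3
      obtain rfl : R = s := by simpa using le_antisymm (by simpa using h3) h2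
      have : 0 ≤ R := by linarith
      simp only [sub_self, norm_zero]
      positivity
    | succ m ih =>
      intro s h1 h2 h3
      have hs0 : 0 ≤ s := by linarith
      have hp : 0 ≤ C * s ^ A * Real.exp (-s ^ 2 / 4) := by positivity
      by_cases h4 : R ≤ s + 1
      · have := h s R h1 h2 h4 le_rfl
        linarith
      · push Not at h4
        have h5 := h s (s + 1) h1 (by linarith) le_rfl h4.le
        have h6 := ih (s + 1) (by linarith) h4.le (by push_cast at h3; linarith)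
        have h7 := mul_le_mul_of_nonneg_left (key s (by linarith)) hC
        have h8 : ‖F R - F s‖ ≤ ‖F R - F (s + 1)‖ + ‖F (s + 1) - F s‖ := norm_sub_le_norm_sub_add_norm_sub _ _ _
        linarith
  obtain ⟨m, hm⟩ := exists_nat_ge (R - ρ)
  exact main m ρ le_rfl hR (by linarith)

/-- the increments of an `ExpFam` for arbitrary `ρ ≤ R` -/
theorem ExpFam.inc' {ι κ : Type} [Fintype ι] [Fintype κ] {V : Type} [NormedAddCommGroup V]
    [NormedSpace ℂ V] {r₀ Λ R₀ : ℝ} {F : ℝ → (ι ⊕ κ → ℂ) → V} (h : ExpFam r₀ Λ R₀ F)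
    (hb : Big Λ R₀) : ∃ (C : ℝ) (A : ℕ), 0 ≤ C ∧ ∀ ρ R, R₀ ≤ ρ → ρ ≤ R → ∀ x ∈ Dom ι κ r₀ Λ R,
      ‖F R x - F ρ x‖ ≤ C * ρ ^ A * Real.exp (-ρ ^ 2 / 4) := by
  obtain ⟨C, A, hC⟩ := h.inc
  obtain ⟨B, hB⟩ := h.bdd
  refine ⟨2 * max C 0 + 2 * max B 0 * Real.exp ((2 * A + 2) ^ 2 / 4), A, by positivity,
    fun ρ R hρ hR x hx => ?_⟩
  have h1 := hb.one_le hρ
  have h2 : 1 ≤ ρ ^ A := one_le_pow₀ h1
  have hp : 0 ≤ ρ ^ A * Real.exp (-ρ ^ 2 / 4) := by positivity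
  by_cases hl : 2 * A + 2 ≤ ρ
  · have := inc_of_step (F := fun s => F s x) (le_max_right C 0) hl hR fun s t hs hst ht htR =>
      (hC s t (hρ.trans hs) hst ht x (hb.nest_Dom ((hρ.trans hs).trans hst) htR hx)
        (hb.nest_Dom (hρ.trans hs) (hst.trans htR) hx)).trans (by
          have : 0 ≤ s := by linarith
          gcongr
          exact le_max_left _ _)
    refine this.trans ?_
    rw [mul_assoc, mul_assoc _ (ρ ^ A)]
    refine mul_le_mul_of_nonneg_right (le_add_of_nonneg_right (by positivity)) hp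
  · push Not at hl
    have h3 : ‖F R x - F ρ x‖ ≤ 2 * max B 0 := by
      have h4 := hB R (hρ.trans hR) x hx
      have h5 := hB ρ hρ x (hb.nest_Dom hρ hR hx)
      have h6 := norm_sub_le (F R x) (F ρ x)
      have h7 := le_max_left B 0
      linarith
    have h4 : 1 ≤ Real.exp ((2 * A + 2) ^ 2 / 4) * (ρ ^ A * Real.exp (-ρ ^ 2 / 4)) := by
      have h5 : 1 ≤ Real.exp ((2 * A + 2) ^ 2 / 4) * Real.exp (-ρ ^ 2 / 4) := by
        rw [← Real.exp_add]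
        refine Real.one_le_exp ?_
        have : ρ ^ 2 ≤ (2 * A + 2) ^ 2 := by gcongr
        linarith
      calc (1 : ℝ) ≤ 1 * (Real.exp ((2 * A + 2) ^ 2 / 4) * Real.exp (-ρ ^ 2 / 4)) := by linarith
        _ ≤ ρ ^ A * (Real.exp ((2 * A + 2) ^ 2 / 4) * Real.exp (-ρ ^ 2 / 4)) := by gcongr
        _ = _ := by ring
    have h6 := mul_le_mul_of_nonneg_left h4 (by positivity : 0 ≤ 2 * max B 0)
    have h7 : 0 ≤ 2 * max C 0 * (ρ ^ A * Real.exp (-ρ ^ 2 / 4)) := by positivity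
    nlinarith

/-! ### the boundary term -/

theorem differentiableAt_bd {y : ℂ} (hy : 0 < y.re) : DifferentiableAt ℂ bd y := by
  unfold bd
  exact ((differentiableAt_const _).mul
    (differentiableAt_id.cpow_const (Or.inl hy))).mul (by fun_prop)

theorem norm_bd_le {y : ℂ} (hy : 0 < y.re) : ‖bd y‖ ≤ 2 * Real.pi * √‖y‖ := by
  unfold bd
  have h1 : ‖y ^ (1 / 2 : ℂ)‖ = √‖y‖ := by
    rw [show (1 / 2 : ℂ) = ((1 / 2 : ℝ) : ℂ) by norm_num, Complex.norm_cpow_real,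
      Real.sqrt_eq_rpow]
  have h2 : ‖Complex.exp (-y / 4)‖ ≤ 1 := by
    rw [Complex.norm_exp]
    refine Real.exp_le_one_iff.2 ?_
    have : (-y / 4).re = -y.re / 4 := by simp
    rw [this]; linarith
  rw [norm_mul, norm_mul, norm_mul, h1, Complex.norm_real, Real.norm_of_nonneg Real.pi_pos.le]
  have h3 : ‖(2 : ℂ)‖ = 2 := by simp
  rw [h3]
  exact mul_le_of_le_one_right (by positivity) h2

section Sym

variable {R₀ Λ : ℝ} {Y : ℝ → ℂ → ℂ} {sig : ℂ → ℂ}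

theorem SymData.mono (h : SymData R₀ Λ Y sig) {R₁ : ℝ} (hR : R₀ ≤ R₁) : SymData R₁ Λ Y sig where
  one_le := h.one_le
  hol := fun R h1 => h.hol R (hR.trans h1)
  cont := h.cont.mono fun _ hp => ⟨hR.trans hp.1, hp.2⟩
  re_pos := fun R h1 => h.re_pos R (hR.trans h1)
  bdd := h.bdd.imp fun _ hC R h1 => hC R (hR.trans h1)
  low := h.low.imp fun _ hC R h1 => hC R (hR.trans h1)
  asy := by
    obtain ⟨k₀, C, η, h1, h2⟩ := h.asy
    exact ⟨k₀, C, η, h1, fun R h3 => h2 R (hR.trans h3)⟩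
  lim := h.lim

theorem SymData.bd_hol (h : SymData R₀ Λ Y sig) {R : ℝ} (hR : R₀ ≤ R) :
    DifferentiableOn ℂ (fun c => bd (Y R c)) (Om Λ 4 R) := fun c hc =>
  (differentiableAt_bd (h.re_pos R hR c hc)).comp_differentiableWithinAt c (h.hol R hR c hc)

theorem SymData.bd_bdd (h : SymData R₀ Λ Y sig) :
    ∃ C : ℝ, 0 ≤ C ∧ ∀ R, R₀ ≤ R → ∀ c ∈ Om Λ 4 R, ‖bd (Y R c)‖ ≤ C := by
  obtain ⟨C, hC⟩ := h.bdd
  refine ⟨2 * Real.pi * √C, by positivity, fun R hR c hc =>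
    (norm_bd_le (h.re_pos R hR c hc)).trans ?_⟩
  gcongr
  exact hC R hR c hc

theorem SymData.bd_cont (h : SymData R₀ Λ Y sig) :
    ContinuousOn (fun p : ℝ × ℂ => bd (Y p.1 p.2)) {p | R₀ ≤ p.1 ∧ p.2 ∈ Om Λ 4 p.1} :=
  fun p hp => (differentiableAt_bd (h.re_pos p.1 hp.1 p.2 hp.2)).continuousAt.comp_continuousWithinAt
    (f := fun p : ℝ × ℂ => Y p.1 p.2) (h.cont p hp)

/-- `bd ∘ Y R` is `C R⁴`-Lipschitz in the interior -/
theorem SymData.bd_lip (h : SymData R₀ Λ Y sig) :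
    ∃ C : ℝ, 0 ≤ C ∧ ∀ R, R₀ ≤ R → 4 ≤ R → ∀ c ∈ Om (Λ + 1 / 2) (15 / 4) R,
      ∀ c' ∈ Om (Λ + 1 / 2) (15 / 4) R, ‖bd (Y R c') - bd (Y R c)‖ ≤ C * R ^ 4 * ‖c' - c‖ := by
  obtain ⟨C, hC0, hC⟩ := h.bd_bdd
  refine ⟨C, hC0, fun R hR h4 c hc c' hc' => ?_⟩
  have hR0 : 0 < R := by linarith
  have hball : ∀ z ∈ Om (Λ + 1 / 2) (15 / 4) R, closedBall z (1 / R ^ 4) ⊆ Om Λ 4 R := by
    intro z hz w hw
    rw [mem_closedBall, dist_eq_norm, le_div_iff₀ (by positivity)] at hw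
    have h1 : ‖w - z‖ * R ^ 2 ≤ 1 / 4 := by
      have h2 : ‖w - z‖ * R ^ 2 * 4 ≤ ‖w - z‖ * R ^ 2 * R ^ 2 := by
        gcongr; nlinarith
      nlinarith
    exact Om_mono (by linarith) (by norm_num) R
      (mem_Om_of_near (δ := 1 / 2) hz (by linarith) h1)
  have hsub : Om (Λ + 1 / 2) (15 / 4) R ⊆ Om Λ 4 R := Om_mono (by linarith) (by norm_num) R
  refine (convex_Om _ _ R).norm_image_sub_le_of_norm_deriv_le (f := fun c => bd (Y R c))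
    (fun z hz => (h.bd_hol hR).differentiableAt ((isOpen_Om _ _ _).mem_nhds (hsub hz)))
    (fun z hz => ?_) hc hc'
  have := Complex.norm_deriv_le_of_forall_mem_sphere_norm_le (by positivity : 0 < 1 / R ^ 4)
    (((h.bd_hol hR).mono (hball z hz)).diffContOnCl_ball subset_rfl)
    fun w hw => hC R hR w (hball z hz (sphere_subset_closedBall hw))
  rwa [div_div_eq_mul_div, div_one] at this

end Sym

/-! ### sectors -/

theorem isOpen_Sec (ω₀ κ₀ : ℝ) : IsOpen (Sec ω₀ κ₀) :=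
  (isOpen_lt continuous_const Complex.continuous_re).inter
    (isOpen_lt Complex.continuous_im.abs (continuous_const.mul Complex.continuous_re))

theorem Sec_mono {ω₀ ω₁ : ℝ} (h : ω₀ ≤ ω₁) (κ₀ : ℝ) : Sec ω₁ κ₀ ⊆ Sec ω₀ κ₀ :=
  fun _ hω => ⟨h.trans_lt hω.1, hω.2⟩

theorem eventually_atSec {κ₀ : ℝ} {p : ℂ → Prop} :
    (∀ᶠ ω in atSec κ₀, p ω) ↔ ∃ ω₀, ∀ ω ∈ Sec ω₀ κ₀, p ω := by
  rw [atSec, eventually_inf_principal, eventually_comap, eventually_atTop]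
  constructor
  · rintro ⟨a, ha⟩
    exact ⟨a, fun ω hω => ha ω.re hω.1.le ω rfl hω.2⟩
  · rintro ⟨a, ha⟩
    exact ⟨a + 1, fun b hb ω hω h => ha ω ⟨by rw [hω]; linarith, h⟩⟩

theorem eventually_mem_Sec (ω₀ κ₀ : ℝ) : ∀ᶠ ω in atSec κ₀, ω ∈ Sec ω₀ κ₀ :=
  eventually_atSec.2 ⟨ω₀, fun _ h => h⟩

theorem tendsto_re_atSec (κ₀ : ℝ) : Tendsto Complex.re (atSec κ₀) atTop :=
  tendsto_comap.mono_left inf_le_left

theorem tendsto_norm_atSec (κ₀ : ℝ) : Tendsto (fun ω : ℂ => ‖ω‖) (atSec κ₀) atTop :=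
  tendsto_atTop_mono (fun ω => Complex.re_le_norm ω) (tendsto_re_atSec κ₀)

theorem tendsto_atSec {α : Type*} {l : Filter α} {κ₀ : ℝ} {g : α → ℂ}
    (h1 : Tendsto (fun x => (g x).re) l atTop) (h2 : ∀ᶠ x in l, |(g x).im| < κ₀ * (g x).re) :
    Tendsto g l (atSec κ₀) :=
  tendsto_inf.2 ⟨tendsto_comap_iff.2 h1, tendsto_principal.2 h2⟩

theorem norm_inv_sq_le {w : ℂ} (hw : w.re ≠ 0) : ‖1 / w ^ 2‖ ≤ 1 / w.re ^ 2 := by
  rw [norm_div, norm_one, norm_pow]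
  refine one_div_le_one_div_of_le (by positivity) ?_
  rw [← sq_abs]
  gcongr
  exact Complex.abs_re_le_norm w

/-- what all ends have in common -/
structure Edge (κ₀ : ℝ) (P : ℂ → ℂ) : Prop where
  hol : ∃ ω₀ : ℝ, DifferentiableOn ℂ P (Sec ω₀ κ₀)
  norm_le : ∀ᶠ ω in atSec κ₀, ‖P ω‖ * ‖ω‖ ^ 2 ≤ 10 / 9
  re_le : ∃ C : ℝ, ∀ᶠ ω in atSec κ₀, ‖P ω‖ ≤ 1 / (ω.re ^ 2 - C) ∨ 0 ≤ (P ω).re

theorem Lost.edge {κ₀ : ℝ} {P : ℂ → ℂ} (h : Lost κ₀ P) : Edge κ₀ P :=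
  ⟨h.1, h.2.1, 0, by simpa using h.2.2 0⟩

theorem Tied.edge {κ₀ a k : ℝ} {P : ℂ → ℂ} (h : Tied κ₀ P a k) : Edge κ₀ P := by
  obtain ⟨ω₀, w, hw, hP, hl⟩ := h
  set K : ℝ := |k| / 2 + 1 with hK
  have hK1 : 1 ≤ K := by have := abs_nonneg k; linarith
  have h1 : ∀ᶠ ω in atSec κ₀, ‖ω * (w ω - ω + Complex.I * a / 2)‖ < K := by
    refine hl.norm.eventually (gt_mem_nhds ?_)
    rw [norm_div, norm_neg, Complex.norm_real, Real.norm_eq_abs]
    simp [hK]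
  have h2 : ∀ᶠ ω in atSec κ₀, ω ∈ Sec ω₀ κ₀ ∧ 1 ≤ ω.re ∧ ω.re - K / ω.re ≤ (w ω).re ∧
      1 ≤ ω.re - K / ω.re ∧ ‖ω‖ - (K + |a| / 2) ≤ ‖w ω‖ := by
    filter_upwards [h1, eventually_mem_Sec ω₀ κ₀,
      (tendsto_re_atSec κ₀).eventually_ge_atTop (K + 1)] with ω h3 h4 h5
    have h6 : 0 < ω.re := by linarith
    have h7 : ω.re ≤ ‖ω‖ := Complex.re_le_norm ω
    have h8 : ‖w ω - ω + Complex.I * a / 2‖ ≤ K / ω.re := by
      rw [le_div_iff₀ h6]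
      rw [norm_mul, mul_comm] at h3
      exact (mul_le_mul_of_nonneg_left h7 (norm_nonneg _)).trans h3.le
    have h9 : K / ω.re ≤ K := div_le_self (by linarith) (by linarith)
    refine ⟨h4, by linarith, ?_, by linarith, ?_⟩
    · have := (abs_le.1 ((Complex.abs_re_le_norm _).trans h8)).1
      simp at this
      linarith
    · have h10 : ‖Complex.I * a / 2‖ = |a| / 2 := by simp
      have h11 : ω = w ω - (w ω - ω + Complex.I * a / 2) + Complex.I * a / 2 := by ring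
      have h12 := norm_add_le (w ω - (w ω - ω + Complex.I * a / 2)) (Complex.I * a / 2)
      have h13 := norm_sub_le (w ω) (w ω - ω + Complex.I * a / 2)
      rw [← h11] at h12
      linarith
  refine ⟨?_, ?_, 2 * K, ?_⟩
  · obtain ⟨ω₁, h3⟩ := eventually_atSec.1 h2
    refine ⟨max ω₀ ω₁, DifferentiableOn.congr (f := fun ω => -1 / w ω ^ 2) ?_ fun ω hω =>
      hP ω (Sec_mono (le_max_left _ _) _ hω)⟩
    refine (differentiableOn_const _).div ((hw.mono (Sec_mono (le_max_left _ _) _)).pow 2)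
      fun ω hω => pow_ne_zero _ fun h0 => ?_
    obtain ⟨-, -, h4, h5, -⟩ := h3 ω (Sec_mono (le_max_right _ _) _ hω)
    rw [h0, Complex.zero_re] at h4
    linarith
  · filter_upwards [h2, (tendsto_norm_atSec κ₀).eventually_ge_atTop (20 * (K + |a| / 2))]
      with ω ⟨h3, h4, _, _, h7⟩ h8
    have h9 : 0 < ‖ω‖ := by have := Complex.re_le_norm ω; linarith
    have h10 : 19 / 20 * ‖ω‖ ≤ ‖w ω‖ := by linarith
    rw [hP ω h3, norm_div, norm_neg, norm_one, norm_pow, div_mul_eq_mul_div, one_mul,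
      div_le_iff₀ (pow_pos (by linarith) 2)]
    nlinarith
  · filter_upwards [h2, (tendsto_re_atSec κ₀).eventually_ge_atTop (2 * K + 1)]
      with ω ⟨h3, h4, h5, h6, _⟩ h8
    rw [hP ω h3, neg_div, norm_neg]
    refine Or.inl ((norm_inv_sq_le (by linarith : 0 < (w ω).re).ne').trans
      (one_div_le_one_div_of_le (by nlinarith) ?_))
    have h9 : (ω.re - K / ω.re) ^ 2 ≤ (w ω).re ^ 2 := by gcongr
    have h10 : (ω.re - K / ω.re) ^ 2 = ω.re ^ 2 - 2 * K + (K / ω.re) ^ 2 := by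
      field_simp; ring
    nlinarith [sq_nonneg (K / ω.re)]

/-! ### contours -/

@[simp] theorem pt_re (α β : ℝ) : (pt α β).re = α := by simp [pt]

@[simp] theorem pt_im (α β : ℝ) : (pt α β).im = β := by simp [pt]

theorem continuous_pt (α : ℝ) : Continuous (pt α) := by unfold pt; fun_prop

theorem al_sq {Λ₂ r : ℝ} (h : 0 ≤ Λ₂) (hr : 1 ≤ r) :
    al Λ₂ r ^ 2 = r ^ 2 / 2 + 2 * Real.log (r ^ 2) + Λ₂ :=
  Real.sq_sqrt (by have := Real.log_nonneg (one_le_pow₀ hr : 1 ≤ r ^ 2); positivity)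

theorem al_nonneg (Λ₂ r : ℝ) : 0 ≤ al Λ₂ r := Real.sqrt_nonneg _

theorem al_mono (Λ₂ : ℝ) {r r' : ℝ} (hr : 0 < r) (h : r ≤ r') : al Λ₂ r ≤ al Λ₂ r' := by
  unfold al
  gcongr

theorem half_le_al {Λ₂ r : ℝ} (h : 0 ≤ Λ₂) (hr : 1 ≤ r) : 7 / 10 * r ≤ al Λ₂ r := by
  refine (pow_le_pow_iff_left₀ (by positivity) (al_nonneg _ _) two_ne_zero).1 ?_
  rw [al_sq h hr]
  have := Real.log_nonneg (one_le_pow₀ hr : 1 ≤ r ^ 2)
  nlinarith

theorem continuousOn_al (Λ₂ : ℝ) : ContinuousOn (al Λ₂) (Ioi 0) := by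
  unfold al
  refine ContinuousOn.sqrt (((continuousOn_id.pow 2).div_const 2).add
    (continuousOn_const.mul ((continuousOn_id.pow 2).log fun x hx => ?_)) |>.add continuousOn_const)
  exact pow_ne_zero _ (ne_of_gt hx)

theorem tendsto_al (Λ₂ : ℝ) : Tendsto (al Λ₂) atTop atTop := by
  refine Real.tendsto_sqrt_atTop.comp (tendsto_atTop_add_const_right _ _ ?_)
  exact ((tendsto_pow_atTop two_ne_zero).atTop_div_const two_pos).atTop_add_atTop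
    ((Real.tendsto_log_atTop.comp (tendsto_pow_atTop two_ne_zero)).const_mul_atTop two_pos)

theorem norm_ker (B a α β : ℝ) : ‖ker B a (pt α β)‖ =
    Real.exp (α ^ 2 / 2 - (α - a) ^ 2 / B - β ^ 2 * (1 / 2 - 1 / B)) := by
  rw [ker, Complex.norm_exp]
  congr 1
  simp only [pt, Complex.sub_re, Complex.div_ofReal_re, Complex.div_ofNat_re, sq, Complex.mul_re,
    Complex.add_re, Complex.add_im, Complex.sub_im, Complex.ofReal_re, Complex.ofReal_im,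
    Complex.mul_im, Complex.I_re, Complex.I_im]
  ring

theorem differentiable_ker (B a : ℝ) : Differentiable ℂ (ker B a) := by
  unfold ker; fun_prop

/-- to the right of the contour all ends are in the domain -/
theorem Edge.mem_Om {κ₀ : ℝ} {P : ℂ → ℂ} (h : Edge κ₀ P) (Λ : ℝ) :
    ∃ Λ₃ : ℝ, 0 ≤ Λ₃ ∧ ∀ Λ₂, Λ₃ ≤ Λ₂ → ∀ᶠ r : ℝ in atTop, ∀ ω : ℂ, al Λ₂ r ≤ ω.re →
      |ω.im| < κ₀ * ω.re → P ω ∈ Om Λ (9 / 4) r := by
  obtain ⟨C, hC⟩ := h.re_le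
  obtain ⟨ω₀, h0⟩ := eventually_atSec.1 (hC.and h.norm_le)
  refine ⟨max 0 (C + (2 * Λ + 1)), le_max_left _ _, fun Λ₂ hΛ => ?_⟩
  have h1 : 0 ≤ Λ₂ := (le_max_left _ _).trans hΛ
  have h2 : C + (2 * Λ + 1) ≤ Λ₂ := (le_max_right _ _).trans hΛ
  filter_upwards [eventually_mem_Om_of_edge Λ, (tendsto_al Λ₂).eventually_gt_atTop ω₀,
    eventually_ge_atTop 1] with r h3 h4 h5 ω h6 h7
  obtain ⟨h8, h9⟩ := h0 ω ⟨h4.trans_le h6, h7⟩
  have h10 : al Λ₂ r ^ 2 ≤ ω.re ^ 2 := pow_le_pow_left₀ (al_nonneg _ _) h6 2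
  rw [al_sq h1 h5] at h10
  refine h3 _ _ _ (by linarith) h8 ?_ (by norm_num)
  have h11 := Real.log_nonneg (one_le_pow₀ h5 : 1 ≤ r ^ 2)
  have h12 : ω.re ^ 2 ≤ ‖ω‖ ^ 2 := by
    rw [← sq_abs]
    exact pow_le_pow_left₀ (abs_nonneg _) (Complex.abs_re_le_norm ω) 2
  have h13 : ‖P ω‖ * r ^ 2 ≤ ‖P ω‖ * (2 * ‖ω‖ ^ 2) :=
    mul_le_mul_of_nonneg_left (by linarith) (norm_nonneg _)
  linarith

end Vale.Agent.P218F.K
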