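import Vale.Agent.P218F.SymSpec
import Vale.Agent.P218F.KBasic
import Mathlib.Analysis.SpecialFunctions.Complex.LogDeriv

/-! The bridge from block SYM to block K. -/

open Set Filter Topology Metric

noncomputable section

namespace Vale.Agent.P218F.SymK

open K

/-! ### Logarithms in the right half plane -/

theorem norm_log_le {a : ℂ} (ha : 0 ≤ a.re) (h1 : 1 ≤ ‖a‖) :
    ‖Complex.log a‖ ≤ Real.log ‖a‖ + 2 := by
  refine (Complex.norm_le_abs_re_add_abs_im _).trans ?_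
  rw [Complex.log_re, Complex.log_im, abs_of_nonneg (Real.log_nonneg h1)]
  linarith [Complex.abs_arg_le_pi_div_two_iff.2 ha, Real.pi_le_four]

theorem abs_log_sub_le {x y m : ℝ} (hm : 0 < m) (hx : m ≤ x) (hy : m ≤ y) :
    |Real.log x - Real.log y| ≤ |x - y| / m := by
  have key : ∀ {x y : ℝ}, m ≤ x → m ≤ y → Real.log x - Real.log y ≤ |x - y| / m := by
    intro x y hx hy
    have hy0 : 0 < y := hm.trans_le hy
    rw [← Real.log_div (hm.trans_le hx).ne' hy0.ne']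
    refine (Real.log_le_sub_one_of_pos (div_pos (hm.trans_le hx) hy0)).trans ?_
    calc x / y - 1 = (x - y) / y := by field_simp
      _ ≤ |x - y| / y := by gcongr; exact le_abs_self _
      _ ≤ |x - y| / m := by gcongr
  refine abs_le.2 ⟨?_, key hx hy⟩
  have := key hy hx
  rw [abs_sub_comm] at this
  linarith

theorem log_sub_le {a b : ℂ} (ha : 0 < a.re) (hb : 0 < b.re) {m : ℝ} (hm : 0 < m) (h1 : m ≤ ‖a‖)
    (h2 : m ≤ ‖b‖) : ‖Complex.log a - Complex.log b‖ ≤ 9 * (‖a - b‖ / m) := by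
  rcases le_or_gt ‖a - b‖ (m / 2) with h | h
  · have hc : Convex ℝ (closedBall b (m / 2) ∩ {z : ℂ | 0 < z.re}) :=
      (convex_closedBall _ _).inter (convex_halfSpace_re_gt 0)
    have := hc.norm_image_sub_le_of_norm_hasDerivWithin_le (f := Complex.log) (f' := fun z => z⁻¹)
      (C := 2 / m) (fun z hz => (Complex.hasDerivAt_log (Or.inl hz.2)).hasDerivWithinAt)
      (fun z hz => by
        have h3 := norm_sub_norm_le b z
        have h4 := mem_closedBall_iff_norm'.1 hz.1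
        rw [norm_inv, ← inv_div]
        exact inv_anti₀ (by positivity) (by linarith))
      ⟨mem_closedBall_self (by positivity), hb⟩ ⟨mem_closedBall_iff_norm.2 h, ha⟩
    refine this.trans ?_
    rw [div_mul_eq_mul_div, mul_div_assoc]
    gcongr
    norm_num
  · refine (Complex.norm_le_abs_re_add_abs_im _).trans ?_
    rw [Complex.sub_re, Complex.sub_im, Complex.log_re, Complex.log_re, Complex.log_im,
      Complex.log_im]
    have h3 := abs_log_sub_le hm h1 h2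
    have h4 : |‖a‖ - ‖b‖| / m ≤ ‖a - b‖ / m := by gcongr; exact abs_norm_sub_norm_le a b
    have h5 := abs_sub a.arg b.arg
    have h6 : 1 / 2 ≤ ‖a - b‖ / m := by rw [le_div_iff₀ hm]; linarith
    linarith [Complex.abs_arg_le_pi_div_two_iff.2 ha.le, Complex.abs_arg_le_pi_div_two_iff.2 hb.le,
      Real.pi_le_four]

/-! ### The relation between `σ` and `s` -/

theorem cmp_tip {k K A : ℝ} (hK : 0 ≤ K) (hA : A = 14 + 2 * |k| + 2 * K) {σ s : ℂ} {ε R : ℝ}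
    (h1 : 1 ≤ σ.re) (h2 : 1 ≤ s.re) (h3 : K * ε ≤ 1 / 4) (hR : 1 ≤ R)
    (H : ‖σ - 2 * s - Complex.log σ - k‖ ≤ K * (1 / ‖σ‖ + ε * (1 + ‖σ‖ / R))) :
    ‖σ - 2 * s‖ ≤ Real.log ‖σ‖ + 2 + |k| + K * (1 / ‖σ‖ + ε * (1 + ‖σ‖ / R)) ∧
      ‖σ‖ ≤ A * ‖s‖ ∧ ‖s‖ ≤ A * ‖σ‖ := by
  have a1 : 1 ≤ ‖σ‖ := h1.trans (Complex.re_le_norm _)
  have a2 : 1 ≤ ‖s‖ := h2.trans (Complex.re_le_norm _)
  have a3 := norm_log_le (by linarith : 0 ≤ σ.re) a1
  have a4 : Real.log ‖σ‖ ≤ ‖σ‖ / 4 + 2 := by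
    have b1 := Real.log_le_sub_one_of_pos (by positivity : 0 < ‖σ‖ / 4)
    rw [Real.log_div (by positivity) (by norm_num)] at b1
    linarith [Real.log_le_sub_one_of_pos (by norm_num : (0 : ℝ) < 4)]
  have a5 : ‖σ - 2 * s‖ ≤ ‖Complex.log σ‖ + |k| + K * (1 / ‖σ‖ + ε * (1 + ‖σ‖ / R)) := by
    have b1 := norm_add₃_le (a := Complex.log σ) (b := (k : ℂ))
      (c := σ - 2 * s - Complex.log σ - k)
    rw [Complex.norm_real, Real.norm_eq_abs, show Complex.log σ + k +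
      (σ - 2 * s - Complex.log σ - k) = σ - 2 * s by ring] at b1
    linarith
  have a6 : 1 / ‖σ‖ ≤ 1 := (div_le_one (by positivity)).2 a1
  have a7 : ‖σ‖ / R ≤ ‖σ‖ := div_le_self (by positivity) hR
  have a8 : ‖σ - 2 * s‖ ≤ ‖σ‖ / 2 + (A / 2 - 2) := by
    have b1 : K * ε * (1 + ‖σ‖ / R) ≤ 1 / 4 * (1 + ‖σ‖) := by gcongr
    have b2 := mul_le_mul_of_nonneg_left a6 hK
    linarith
  have n2 : ‖2 * s‖ = 2 * ‖s‖ := by simp
  have hA1 : 0 ≤ A - 4 := by linarith [abs_nonneg k]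
  refine ⟨by linarith, ?_, ?_⟩
  · linarith [norm_sub_norm_le σ (2 * s), mul_le_mul_of_nonneg_left a2 hA1]
  · have b1 := norm_sub_norm_le (2 * s) σ
    rw [norm_sub_rev] at b1
    linarith [mul_le_mul_of_nonneg_left a1 hA1]

theorem abs_tip (k K : ℝ) (hK : 0 ≤ K) : ∃ K' : ℝ, 0 ≤ K' ∧ ∀ (σ s : ℂ) (ε R : ℝ), 1 ≤ σ.re →
    1 ≤ s.re → 0 ≤ ε → K * ε ≤ 1 / 4 → 1 ≤ R →
    ‖σ - 2 * s - Complex.log σ - k‖ ≤ K * (1 / ‖σ‖ + ε * (1 + ‖σ‖ / R)) → ‖s‖ ≤ K' * ‖σ‖ ∧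
      ‖σ - 2 * s - Complex.log (2 * s) - k‖ ≤
        K' * ‖s‖ ^ (-3 / 4 : ℝ) + K' * ε * (1 + ‖s‖ / R) := by
  obtain ⟨A, hA⟩ : ∃ A, A = 14 + 2 * |k| + 2 * K := ⟨_, rfl⟩
  have hA1 : 14 ≤ A := by linarith [abs_nonneg k]
  have hA0 : 0 < A := by linarith
  have hA2 : A ^ 2 ≤ A ^ 3 := pow_le_pow_right₀ (by linarith) (by norm_num)
  have hA3 : A ^ 1 ≤ A ^ 3 := pow_le_pow_right₀ (by linarith) (by norm_num)
  have hKA : K ≤ A := by linarith [abs_nonneg k]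
  refine ⟨100 * A ^ 3, by positivity, fun σ s ε R h1 h2 hε h3 hR H => ?_⟩
  have a1 : 1 ≤ ‖σ‖ := h1.trans (Complex.re_le_norm _)
  have a2 : 1 ≤ ‖s‖ := h2.trans (Complex.re_le_norm _)
  obtain ⟨a5, a9, a10⟩ := cmp_tip hK hA h1 h2 h3 hR H
  have a6 : 1 / ‖σ‖ ≤ 1 := (div_le_one (by positivity)).2 a1
  refine ⟨a10.trans (by gcongr; linarith), ?_⟩
  have l1 := log_sub_le (a := σ) (b := 2 * s) (by linarith) (by simp; linarith)
    (m := ‖s‖ / A) (by positivity) (by rw [div_le_iff₀ hA0]; linarith)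
    ((div_le_self (norm_nonneg _) (by linarith)).trans (by simp; linarith))
  obtain ⟨q, hq⟩ : ∃ q, q = ‖s‖ ^ (1 / 4 : ℝ) := ⟨_, rfl⟩
  have q1 : 1 ≤ q := hq ▸ Real.one_le_rpow a2 (by norm_num)
  have q2 : ‖s‖ ^ (-3 / 4 : ℝ) = q / ‖s‖ := by
    rw [hq, show (-3 / 4 : ℝ) = 1 / 4 - 1 by norm_num, Real.rpow_sub_one (by positivity)]
  have q3 : Real.log ‖σ‖ ≤ A + 4 * q := by
    have b1 := Real.log_le_log (by positivity) a9
    rw [Real.log_mul (by positivity) (by positivity)] at b1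
    have b2 := Real.log_le_rpow_div (norm_nonneg s) (by norm_num : (0 : ℝ) < 1 / 4)
    linarith [Real.log_le_sub_one_of_pos hA0]
  obtain ⟨T, hT⟩ : ∃ T, T = ε * (1 + ‖s‖ / R) := ⟨_, rfl⟩
  have T0 : 0 ≤ T := by rw [hT]; positivity
  have t1 : ε * (1 + ‖σ‖ / R) ≤ A * T := by
    have b1 : ‖σ‖ / R ≤ A * (‖s‖ / R) := by rw [← mul_div_assoc]; gcongr
    have b2 : ε * (1 + ‖σ‖ / R) ≤ ε * (A * (1 + ‖s‖ / R)) := by gcongr; linarith
    rw [hT]; linarith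
  have t2 : ‖σ - 2 * s‖ ≤ 3 * A * q + A ^ 2 * T := by
    have b1 : K * (1 / ‖σ‖ + ε * (1 + ‖σ‖ / R)) ≤ K * 1 + A * (A * T) := by
      rw [mul_add]; gcongr
    have b2 : A * 1 ≤ A * q := by gcongr
    have b3 : 14 * q ≤ A * q := by gcongr
    linarith [abs_nonneg k]
  have t3 : ‖σ - 2 * s‖ / (‖s‖ / A) ≤ 3 * A ^ 2 * (q / ‖s‖) + A ^ 3 * T := by
    have b1 : T / ‖s‖ ≤ T := div_le_self T0 a2
    calc _ ≤ (3 * A * q + A ^ 2 * T) / (‖s‖ / A) := by gcongr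
      _ = 3 * A ^ 2 * (q / ‖s‖) + A ^ 3 * (T / ‖s‖) := by field_simp
      _ ≤ _ := by gcongr
  have t4 : 1 / ‖σ‖ ≤ A * (q / ‖s‖) := by
    rw [← mul_div_assoc, div_le_div_iff₀ (by positivity) (by positivity)]
    have b2 : A * 1 * ‖σ‖ ≤ A * q * ‖σ‖ := by gcongr
    linarith
  have t5 : K * (1 / ‖σ‖ + ε * (1 + ‖σ‖ / R)) ≤ A * (A * (q / ‖s‖) + A * T) := by gcongr
  have t6 := norm_add_le (σ - 2 * s - Complex.log σ - k) (Complex.log σ - Complex.log (2 * s))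
  rw [show σ - 2 * s - Complex.log σ - k + (Complex.log σ - Complex.log (2 * s)) =
    σ - 2 * s - Complex.log (2 * s) - k by ring] at t6
  rw [q2, mul_assoc (100 * A ^ 3), ← hT]
  have u1 : A ^ 2 * (q / ‖s‖) ≤ A ^ 3 * (q / ‖s‖) := by gcongr
  have u2 : A ^ 2 * T ≤ A ^ 3 * T := by gcongr
  have u3 : 0 ≤ A ^ 3 * (q / ‖s‖) := by positivity
  have u4 : 0 ≤ A ^ 3 * T := by positivity
  linarith

theorem inv_tip {R B : ℝ} {y c E : ℂ} (hR : 0 < R) (hy : ‖y‖ ≤ 1) (hc : c ≠ 0) (hE : ‖E‖ ≤ B)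
    (hB : 6 * B ≤ R ^ 2) (h : -1 / c = (R : ℂ) ^ 2 / (2 - y) + E) :
    ‖(R : ℂ) ^ 2 / 4 * (2 + c * (R : ℂ) ^ 2) - (R : ℂ) ^ 2 / 4 * y - E * (2 - y) ^ 2 / 4‖ ≤
      14 * B ^ 2 / R ^ 2 := by
  have hB0 : 0 ≤ B := (norm_nonneg _).trans hE
  have h1 : ‖2 - y‖ ≤ 3 := (norm_sub_le _ _).trans (by simp; linarith)
  have h2 : 2 - y ≠ 0 := fun h0 => by
    rw [← sub_eq_zero.1 h0] at hy
    norm_num at hy
  have hR' : (R : ℂ) ≠ 0 := by exact_mod_cast hR.ne'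
  set t := E * (2 - y) / (R : ℂ) ^ 2 with ht
  have h3 : ‖t‖ ≤ 3 * B / R ^ 2 := by
    rw [ht, norm_div, norm_mul, norm_pow, Complex.norm_real, Real.norm_of_nonneg hR.le, mul_comm 3]
    gcongr
  have h4 : 3 * B / R ^ 2 ≤ 1 / 2 := by rw [div_le_iff₀ (by positivity)]; linarith
  have h5 : 1 / 2 ≤ ‖1 + t‖ := by
    have := norm_sub_norm_le (1 : ℂ) (-t)
    rw [norm_one, norm_neg, sub_neg_eq_add] at this
    linarith
  have h6 : 1 + t ≠ 0 := norm_pos_iff.1 (by linarith)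
  have h7 : c * (R : ℂ) ^ 2 = -(2 - y) / (1 + t) := by
    rw [eq_div_iff h6, ht]
    field_simp at h ⊢
    linear_combination -h
  have h8 : E * (2 - y) = t * (R : ℂ) ^ 2 := by rw [ht]; field_simp
  have h9 : (R : ℂ) ^ 2 / 4 * (2 + c * (R : ℂ) ^ 2) - (R : ℂ) ^ 2 / 4 * y - E * (2 - y) ^ 2 / 4 =
      -(E * (2 - y) ^ 2 / 4 * t / (1 + t)) := by
    rw [h7]
    field_simp
    linear_combination -(2 - y) * h8
  rw [h9, norm_neg, norm_div, norm_mul, norm_div, norm_mul, norm_pow, Complex.norm_ofNat]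
  calc _ ≤ B * 3 ^ 2 / 4 * (3 * B / R ^ 2) / (1 / 2) := by gcongr
    _ = 27 / 2 * B ^ 2 / R ^ 2 := by ring
    _ ≤ _ := by gcongr; norm_num

/-- the tip relation in the variables `σ`, `s` -/
theorem tip_rel {C κ R : ℝ} (hC : 1 ≤ C) {y c : ℂ} (hR : 6 ≤ R) (hy : ‖y‖ ≤ 1) (hc : c ≠ 0)
    (hσ : 1 ≤ ((R : ℂ) ^ 2 / 4 * y).re) (hl : (14 + |κ| + 2 * C) * Real.log R ≤ R)
    (H : ‖-1 / c - ((((R : ℂ) ^ 2 - 6) / (2 - y) + 4 * Real.log R -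
      Complex.log ((R : ℂ) ^ 2 * y / 4)) + κ)‖ ≤ C / (R ^ 2 * ‖y‖) + C / R) :
    ‖(R : ℂ) ^ 2 / 4 * y - 2 * sOf R c - Complex.log ((R : ℂ) ^ 2 / 4 * y) - (3 - κ : ℝ)‖ ≤
      20 * (14 + |κ| + 2 * C) ^ 2 * (1 / ‖(R : ℂ) ^ 2 / 4 * y‖ +
        Real.log R / R * (1 + ‖(R : ℂ) ^ 2 / 4 * y‖ / R)) := by
  rw [show (R : ℂ) ^ 2 * y / 4 = (R : ℂ) ^ 2 / 4 * y by ring] at H
  obtain ⟨A, hA⟩ : ∃ A, A = 14 + |κ| + 2 * C := ⟨_, rfl⟩
  rw [← hA] at hl ⊢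
  obtain ⟨σ, hs⟩ : ∃ σ, σ = (R : ℂ) ^ 2 / 4 * y := ⟨_, rfl⟩
  have n1 : ‖σ‖ = R ^ 2 / 4 * ‖y‖ := by rw [hs]; simp
  rw [← hs] at hσ H ⊢
  have hR0 : 0 < R := by linarith
  have l1 : 1 ≤ Real.log R := by
    rw [Real.le_log_iff_exp_le hR0]
    linarith [Real.exp_one_lt_d9]
  obtain ⟨l, hl'⟩ : ∃ l, l = Real.log R := ⟨_, rfl⟩
  have a1 : 1 ≤ ‖σ‖ := hσ.trans (Complex.re_le_norm _)
  have a2 : ‖Complex.log σ‖ ≤ 2 * l + 2 := by
    refine (norm_log_le (by linarith) a1).trans ?_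
    have b1 : ‖σ‖ ≤ R ^ 2 := by
      rw [n1]
      linarith [mul_le_mul_of_nonneg_left hy (by positivity : 0 ≤ R ^ 2 / 4), sq_nonneg R]
    have b2 := Real.log_le_log (by linarith) b1
    rw [Real.log_pow] at b2
    push_cast at b2
    linarith
  have a3 : 1 ≤ ‖2 - y‖ := by
    have := norm_sub_norm_le 2 y
    rw [Complex.norm_two] at this
    linarith
  have a4 : 2 - y ≠ 0 := norm_pos_iff.1 (by linarith)
  have e1 : C / (R ^ 2 * ‖y‖) ≤ C * (1 / ‖σ‖) := by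
    rw [show R ^ 2 * ‖y‖ = 4 * ‖σ‖ by rw [n1]; ring, ← div_eq_mul_one_div]
    gcongr
    linarith
  have e2 : C / R ≤ C * (l / R) := by
    rw [← mul_div_assoc]
    gcongr
    exact le_mul_of_one_le_right (by linarith) (hl' ▸ l1)
  have a6 : 1 / ‖σ‖ ≤ 1 := (div_le_one (by positivity)).2 a1
  rw [← hl'] at H hl l1 ⊢
  have hA1 : 1 ≤ A := by linarith [abs_nonneg κ]
  have a7 : l / R ≤ 1 := by
    rw [div_le_one hR0]
    exact (le_mul_of_one_le_left (by linarith) hA1).trans hl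
  obtain ⟨E₁, hE₁⟩ : ∃ E₁, E₁ = -1 / c - ((((R : ℂ) ^ 2 - 6) / (2 - y) + 4 * l -
      Complex.log σ) + κ) := ⟨_, rfl⟩
  rw [← hE₁] at H
  obtain ⟨E, hE⟩ : ∃ E, E = -6 / (2 - y) + 4 * l - Complex.log σ + κ + E₁ := ⟨_, rfl⟩
  have b1 : ‖E‖ ≤ A * l := by
    have c1 : ‖-6 / (2 - y)‖ ≤ 6 := by
      rw [norm_div, div_le_iff₀ (by linarith)]
      simp only [norm_neg, Complex.norm_ofNat]
      linarith
    have c2 : ‖4 * (l : ℂ)‖ = 4 * l := by simp [abs_of_nonneg (by linarith : 0 ≤ l)]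
    have c3 := norm_add_le (-6 / (2 - y) + 4 * l - Complex.log σ + κ) E₁
    have c4 := norm_add_le (-6 / (2 - y) + 4 * l - Complex.log σ) κ
    have c5 := norm_sub_le (-6 / (2 - y) + 4 * l) (Complex.log σ)
    have c6 := norm_add_le (-6 / (2 - y)) (4 * (l : ℂ))
    rw [Complex.norm_real, Real.norm_eq_abs] at c4
    have c7 := mul_le_mul_of_nonneg_left a6 (by linarith : 0 ≤ C)
    have c8 := mul_le_mul_of_nonneg_left a7 (by linarith : 0 ≤ C)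
    have c9 := mul_le_mul_of_nonneg_left l1 (by positivity : 0 ≤ |κ| + 2 * C)
    rw [hE, hA]
    linarith
  have b2 := inv_tip hR0 hy hc b1 (by nlinarith) (by rw [hE, hE₁]; ring)
  rw [← hs] at b2
  have b3 : σ - 2 * sOf R c - Complex.log σ - (3 - κ : ℝ) = 3 * y / (2 - y) - E₁ -
      E * (y * (y / 4 - 1)) - ((R : ℂ) ^ 2 / 4 * (2 + c * (R : ℂ) ^ 2) - σ - E * (2 - y) ^ 2 / 4) := by
    have c1 : E = -6 / (2 - y) + 4 * l - Complex.log σ + κ + E₁ := hE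
    have c2 : -6 / (2 - y) = -3 - 3 * y / (2 - y) := by field_simp; ring
    rw [sOf, Real.log_pow, ← hl']
    push_cast
    linear_combination -c1 - c2
  have b4 : ‖3 * y / (2 - y)‖ ≤ 3 * ‖y‖ := by
    rw [norm_div, norm_mul, Complex.norm_ofNat]
    exact div_le_self (by positivity) a3
  have b5 : ‖E * (y * (y / 4 - 1))‖ ≤ A * l * (‖y‖ * 2) := by
    rw [norm_mul, norm_mul]
    gcongr
    refine (norm_sub_le _ _).trans ?_
    simp only [norm_div, Complex.norm_ofNat, norm_one]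
    linarith
  have b6 : ‖y‖ = 4 * (‖σ‖ / R) / R := by rw [n1]; field_simp
  have hA2 : A ≤ A ^ 2 := le_self_pow₀ hA1 two_ne_zero
  have hCA : C ≤ A ^ 2 := by linarith [abs_nonneg κ]
  have b7 : 14 * (A * l) ^ 2 / R ^ 2 ≤ 14 * (A ^ 2 * (l / R)) := by
    calc _ = 14 * (A ^ 2 * (l / R * (l / R))) := by ring
      _ ≤ 14 * (A ^ 2 * (l / R * 1)) := by gcongr
      _ = _ := by ring
  have b8 : ‖y‖ * 1 ≤ ‖y‖ * (A * l) := by gcongr; nlinarith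
  have b9 : A * l * ‖y‖ ≤ 4 * (A ^ 2 * (l / R * (‖σ‖ / R))) := by
    calc _ ≤ A ^ 2 * l * ‖y‖ := by gcongr
      _ = _ := by rw [b6]; ring
  have b10 : C * (1 / ‖σ‖) ≤ A ^ 2 * (1 / ‖σ‖) := by gcongr
  have b11 : C * (l / R) ≤ A ^ 2 * (l / R) := by gcongr
  have b12 : 0 ≤ A ^ 2 * (1 / ‖σ‖) := by positivity
  have b13 : 0 ≤ A ^ 2 * (l / R) := by positivity
  rw [b3]
  refine (norm_sub_le _ _).trans ((add_le_add ((norm_sub_le _ _).trans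
    (add_le_add ((norm_sub_le _ _).trans (add_le_add b4 H)) b5)) b2).trans ?_)
  linarith

/-- far from the tip -/
theorem far_rel {C k R : ℝ} (hC : 1 ≤ C) {y c : ℂ} (hR : 6 ≤ R) (hy : 1 ≤ ‖y‖) (hy' : ‖y‖ ≤ 8)
    (hs : 1 ≤ (sOf R c).re) (hl : (4 + C) * Real.log R ≤ R / 2)
    (H : ‖y - (2 + c * (R : ℂ) ^ 2)‖ ≤ C * Real.log R / R ^ 2) :
    ‖sOf R c‖ ≤ ‖(R : ℂ) ^ 2 / 4 * y‖ ∧
      ‖(R : ℂ) ^ 2 / 4 * y - 2 * sOf R c - Complex.log (2 * sOf R c) - k‖ ≤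
        16 * (9 + C + |k|) * (Real.log R / R) * (1 + ‖sOf R c‖ / R) := by
  have hR0 : 0 < R := by linarith
  have l1 : 1 ≤ Real.log R := by
    rw [Real.le_log_iff_exp_le hR0]
    linarith [Real.exp_one_lt_d9]
  have n1 : ‖(R : ℂ) ^ 2 / 4 * y‖ = R ^ 2 / 4 * ‖y‖ := by simp
  have a1 : ‖(R : ℂ) ^ 2 / 4 * y - 2 * sOf R c‖ ≤ (4 + C) * Real.log R := by
    rw [show (R : ℂ) ^ 2 / 4 * y - 2 * sOf R c = (R : ℂ) ^ 2 / 4 * (y - (2 + c * (R : ℂ) ^ 2)) +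
      ((4 * Real.log R : ℝ) : ℂ) by rw [sOf, Real.log_pow]; push_cast; ring]
    refine (norm_add_le _ _).trans ?_
    rw [Complex.norm_real, Real.norm_of_nonneg (by linarith), norm_mul]
    have b1 : ‖(R : ℂ) ^ 2 / 4‖ ≤ R ^ 2 := by
      simp only [norm_div, norm_pow, Complex.norm_real, Real.norm_eq_abs, sq_abs,
        Complex.norm_ofNat]
      linarith [sq_nonneg R]
    have b2 : ‖(R : ℂ) ^ 2 / 4‖ * ‖y - (2 + c * (R : ℂ) ^ 2)‖ ≤ R ^ 2 * (C * Real.log R / R ^ 2) := by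
      gcongr
    rw [mul_div_cancel₀ _ (by positivity)] at b2
    linarith
  obtain ⟨σ, hσ⟩ : ∃ σ, σ = (R : ℂ) ^ 2 / 4 * y := ⟨_, rfl⟩
  obtain ⟨s, hs'⟩ : ∃ s, s = sOf R c := ⟨_, rfl⟩
  rw [← hσ] at a1 n1 ⊢
  rw [← hs'] at a1 hs ⊢
  have n2 : ‖2 * s‖ = 2 * ‖s‖ := by simp
  have a2 : R ^ 2 / 4 * 1 ≤ ‖σ‖ := by rw [n1]; gcongr
  have a3 : ‖σ‖ ≤ R ^ 2 / 4 * 8 := by rw [n1]; gcongr
  have a4 : 6 * R ≤ R ^ 2 := by nlinarith
  have a5 := norm_sub_norm_le σ (2 * s)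
  have a6 := norm_sub_norm_le (2 * s) σ
  rw [norm_sub_rev] at a6
  have a7 : 1 ≤ ‖s‖ := hs.trans (Complex.re_le_norm _)
  refine ⟨by linarith, ?_⟩
  have a8 : ‖Complex.log (2 * s)‖ ≤ 3 * Real.log R + 2 := by
    refine (norm_log_le (by simp; linarith) (by linarith)).trans ?_
    have b1 : 6 * R ^ 2 ≤ R ^ 3 := by nlinarith [sq_nonneg R]
    have b2 := Real.log_le_log (by linarith) (show ‖2 * s‖ ≤ R ^ 3 by linarith)
    rw [Real.log_pow] at b2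
    push_cast at b2
    linarith
  have a9 := norm_sub_le (σ - 2 * s - Complex.log (2 * s)) k
  have a10 := norm_sub_le (σ - 2 * s) (Complex.log (2 * s))
  rw [Complex.norm_real, Real.norm_eq_abs] at a9
  have a11 := mul_le_mul_of_nonneg_left l1 (abs_nonneg k)
  calc _ ≤ (9 + C + |k|) * Real.log R := by linarith
    _ = 16 * (9 + C + |k|) * (Real.log R / R) * (0 + R ^ 2 / 16 / R) := by field_simp; ring
    _ ≤ _ := by gcongr <;> linarith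

/-! ### The bridge -/

theorem om_sub {Λ a R : ℝ} (hR : R ≠ 0) : Om Λ a R ⊆ Sym.Om (2 * Λ) R := by
  intro c hc
  have h2 : 0 < R ^ 2 := by positivity
  have hR' : (R : ℂ) ≠ 0 := by exact_mod_cast hR
  have h1 := hc.1
  rw [show c * (R : ℂ) ^ 2 - 2 = (c - ((2 / R ^ 2 : ℝ) : ℂ)) * (R : ℂ) ^ 2 by
    push_cast; field_simp, norm_mul_sq, Real.log_pow] at h1
  rw [Sym.Om, mem_ball_iff_norm, lt_div_iff₀ h2]
  refine h1.trans_eq ?_
  push_cast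
  ring

variable {C Λ R₀ κ : ℝ} {cc Y : ℝ → ℂ → ℂ}

theorem y_bd (h : Sym.Inv C Λ R₀ cc Y) (hΛ : 0 ≤ Λ) {R : ℝ} (hR : R₀ ≤ R) {c : ℂ}
    (hc : c ∈ Sym.Om (2 * Λ) R) :
    Y R c ∈ Sym.D Λ R ∧ 4 * Λ / R ^ 2 < (Y R c).re ∧ ‖Y R c‖ ≤ 8 := by
  have h1 : Y R c ∈ Sym.D Λ R := by
    refine ball_subset_ball ?_ (h.mem R hR _ le_rfl c hc)
    gcongr
    linarith [h.room]
  have h2 := mem_ball_iff_norm.1 h1
  have h3 := (abs_lt.1 ((Complex.abs_re_le_norm _).trans_lt h2)).1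
  have h4 := norm_sub_norm_le (Y R c) 4
  have h5 : 0 ≤ 4 * Λ / R ^ 2 := by positivity
  simp only [Complex.sub_re, Complex.re_ofNat, Complex.norm_ofNat] at h3 h4
  exact ⟨h1, by linarith, by linarith⟩

theorem asy (hC : 1 ≤ C) (hΛ : 1 ≤ Λ) (h : Sym.Inv C Λ R₀ cc Y) (h1 : Sym.Tip1 C Λ R₀ κ cc) :
    ∃ K : ℝ, ∀ᶠ R : ℝ in atTop, ∀ c ∈ Om Λ 4 R, ‖sOf R c‖ ≤ K * ‖(R : ℂ) ^ 2 / 4 * Y R c‖ ∧
      ‖(R : ℂ) ^ 2 / 4 * Y R c - 2 * sOf R c - Complex.log (2 * sOf R c) - (3 - κ : ℝ)‖ ≤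
        K * ‖sOf R c‖ ^ (-3 / 4 : ℝ) + K * (Real.log R / R) * (1 + ‖sOf R c‖ / R) := by
  obtain ⟨K, hK, H⟩ := abs_tip (3 - κ) (20 * (14 + |κ| + 2 * C) ^ 2) (by positivity)
  have hl : Tendsto (fun R : ℝ => Real.log R / R) atTop (𝓝 0) :=
    Real.isLittleO_log_id_atTop.tendsto_div_nhds_zero
  have ev : ∀ M : ℝ, ∀ᶠ R : ℝ in atTop, M * (Real.log R / R) ≤ 1 / 4 := fun M =>
    (hl.const_mul M).eventually (ge_mem_nhds (by norm_num))
  refine ⟨K + 16 * (9 + C + |3 - κ|), ?_⟩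
  filter_upwards [ev (20 * (14 + |κ| + 2 * C) ^ 2), ev (14 + |κ| + 2 * C), ev (4 + C),
    eventually_ge_atTop 6, eventually_ge_atTop R₀] with R e1 e2 e3 e4 e5 c hc
  have hR0 : 0 < R := by linarith
  rw [← mul_div_assoc, div_le_iff₀ hR0] at e2 e3
  have hc' := om_sub hR0.ne' hc
  obtain ⟨y1, y2, y3⟩ := y_bd h (by linarith) e5 hc'
  have s1 : 1 ≤ (sOf R c).re := hΛ.trans (Om_re hR0.ne' hc).le
  have l0 : 0 ≤ Real.log R / R := div_nonneg (Real.log_nonneg (by linarith)) hR0.le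
  have k0 : 1 ≤ 16 * (9 + C + |3 - κ|) := by linarith [abs_nonneg (3 - κ)]
  rcases le_total ‖Y R c‖ 1 with hy | hy
  · have c0 : c ≠ 0 := fun h0 => by
      rw [h0, h.zero R e5] at hy
      norm_num at hy
    have s2 : 1 ≤ ((R : ℂ) ^ 2 / 4 * Y R c).re := by
      rw [show (R : ℂ) ^ 2 / 4 = ((R ^ 2 / 4 : ℝ) : ℂ) by push_cast; rfl, Complex.re_ofReal_mul]
      rw [div_lt_iff₀ (by positivity)] at y2
      linarith
    have t1 := h1 R e5 _ y1 hy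
    rw [h.right R e5 c hc'] at t1
    obtain ⟨b1, b2⟩ := H _ _ _ R s2 s1 l0 e1 (by linarith)
      (tip_rel hC e4 hy c0 s2 (by linarith) t1)
    exact ⟨b1.trans (by gcongr; linarith), b2.trans (by gcongr <;> linarith)⟩
  · obtain ⟨b1, b2⟩ := far_rel (k := 3 - κ) hC e4 hy y3 s1 (by linarith) (h.close R e5 c hc')
    refine ⟨b1.trans (le_mul_of_one_le_left (norm_nonneg _) (by linarith)), b2.trans ?_⟩
    refine le_add_of_nonneg_of_le (by positivity) ?_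
    gcongr
    linarith

theorem y_cont (hΛ : 0 ≤ Λ) (h : Sym.Inv C Λ R₀ cc Y) {R₁ : ℝ} (h0 : 0 < R₁) (h1 : R₀ ≤ R₁) :
    ContinuousOn (fun p : ℝ × ℂ => Y p.1 p.2) {p | R₁ ≤ p.1 ∧ p.2 ∈ Om Λ 4 p.1} := by
  have key : ∀ R R' c c', R₁ ≤ R → R ≤ R' → R' ≤ R + 1 → c ∈ Om Λ 4 R → c' ∈ Om Λ 4 R' →
      ‖Y R' c' - Y R c‖ ≤ |C| * |R' - R| / R₁ + 2 * R ^ 2 * ‖c' - c‖ := by
    intro R R' c c' a1 a2 a3 a4 a5
    have b1 := om_sub (by linarith) a5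
    have b2 := h.lipR R R' (h1.trans a1) a2 a3 c' b1
    have b3 := h.lip R (h1.trans a1) c' (h.nest R R' (h1.trans a1) a2 _ (by linarith)
      (by linarith) b1) c (om_sub (by linarith) a4)
    have b4 : C * (R' - R) / R ≤ |C| * |R' - R| / R₁ := by
      rw [← abs_mul]
      gcongr
      exact le_abs_self _
    linarith [norm_sub_le_norm_sub_add_norm_sub (Y R' c') (Y R c') (Y R c)]
  rintro ⟨R, c⟩ ⟨a1, a2⟩
  rw [ContinuousWithinAt, tendsto_iff_norm_sub_tendsto_zero]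
  have t : Tendsto (fun p : ℝ × ℂ => |C| * |p.1 - R| / R₁ + 2 * (R + 1) ^ 2 * ‖p.2 - c‖)
      (𝓝 (R, c)) (𝓝 0) := by
    refine Continuous.tendsto' (by fun_prop) _ _ (by simp)
  refine squeeze_zero' (Eventually.of_forall fun _ => norm_nonneg _) ?_
    (t.mono_left nhdsWithin_le_nhds)
  have ev : ∀ᶠ p : ℝ × ℂ in 𝓝 (R, c), p.1 ∈ Ioo (R - 1) (R + 1) :=
    (continuous_fst.tendsto (R, c)).eventually (Ioo_mem_nhds (by linarith) (by linarith))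
  filter_upwards [self_mem_nhdsWithin, mem_nhdsWithin_of_mem_nhds ev] with p hp hq
  have hR : 0 < R := h0.trans_le a1
  rcases le_total R p.1 with a3 | a3
  · refine (key R p.1 c p.2 a1 a3 hq.2.le a2 hp.2).trans ?_
    gcongr
    linarith
  · rw [norm_sub_rev, abs_sub_comm, norm_sub_rev p.2]
    refine (key p.1 R p.2 c hp.1 a3 (by linarith [hq.1]) hp.2 a2).trans ?_
    have := h0.trans_le hp.1
    gcongr
    linarith

theorem tendsto_cOf_cs (s : ℂ) :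
    Tendsto (fun R : ℝ => R ^ 4 / 2 * ‖cOf R s - Sym.cs R s‖) atTop (𝓝 0) := by
  have hl : Tendsto (fun R : ℝ => Real.log R / R) atTop (𝓝 0) :=
    Real.isLittleO_log_id_atTop.tendsto_div_nhds_zero
  have hi : Tendsto (fun R : ℝ => ((R⁻¹ : ℝ) : ℂ)) atTop (𝓝 0) :=
    (Complex.continuous_ofReal.tendsto 0).comp tendsto_inv_atTop_zero
  have hl' : Tendsto (fun R : ℝ => ((Real.log R / R : ℝ) : ℂ)) atTop (𝓝 0) :=
    (Complex.continuous_ofReal.tendsto 0).comp hl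
  set w : ℝ → ℂ := fun R => 8 * ((Real.log R / R : ℝ) : ℂ) + 4 * s * ((R⁻¹ : ℝ) : ℂ) with hw
  have h1 : Tendsto w atTop (𝓝 0) := by
    simpa only [mul_zero, add_zero] using (hl'.const_mul 8).add (hi.const_mul (4 * s))
  have h2 : Tendsto (fun R : ℝ => 1 + w R * ((R⁻¹ : ℝ) : ℂ)) atTop (𝓝 1) := by
    simpa using (h1.mul hi).const_add 1
  have h3 := ((h1.pow 2).div h2 one_ne_zero).norm
  simp only [ne_eq, OfNat.ofNat_ne_zero, not_false_eq_true, zero_pow, div_one, norm_zero] at h3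
  refine h3.congr' ?_
  filter_upwards [h2.eventually_ne one_ne_zero, eventually_gt_atTop 0] with R a1 a2
  have hR' : (R : ℂ) ≠ 0 := by exact_mod_cast a2.ne'
  have e1 : (((R ^ 2 / 2 + 4 * Real.log R : ℝ) : ℂ) + 2 * s) =
      (R : ℂ) ^ 2 / 2 * (1 + w R * ((R⁻¹ : ℝ) : ℂ)) := by
    rw [hw]; push_cast; field_simp; ring
  have e2 : cOf R s = -2 / (R : ℂ) ^ 2 * (1 - w R * ((R⁻¹ : ℝ) : ℂ)) := by
    rw [hw, cOf, Real.log_pow]; push_cast; field_simp; ring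
  rw [← Real.norm_of_nonneg (by positivity : 0 ≤ R ^ 4 / 2), ← Complex.norm_real, ← norm_mul,
    Sym.cs, e1, e2, Pi.div_apply]
  congr 1
  have e3 : w R = w R * ((R⁻¹ : ℝ) : ℂ) * R := by push_cast; field_simp
  generalize w R * ((R⁻¹ : ℝ) : ℂ) = v at a1 e3 ⊢
  rw [e3]
  push_cast
  field_simp
  ring

theorem exists_lim (h : Sym.Inv C Λ R₀ cc Y) (h2 : Sym.Tip2 Λ κ Y) : ∃ sig : ℂ → ℂ,
    TendstoLocallyUniformlyOn (fun (R : ℝ) (s : ℂ) => (R : ℂ) ^ 2 / 4 * Y R (cOf R s)) sig atTop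
      {s | Λ < s.re} ∧ TipChar Λ sig := by
  choose! sig hs using fun s hs => (h2 s hs).2
  have lip : ∀ R, R₀ ≤ R → ∀ c ∈ Sym.Om (2 * Λ) R, ∀ c' ∈ Sym.Om (2 * Λ) R,
      ‖(R : ℂ) ^ 2 / 4 * Y R c - (R : ℂ) ^ 2 / 4 * Y R c'‖ ≤ R ^ 4 / 2 * ‖c - c'‖ := by
    intro R hR c hc c' hc'
    rw [← mul_sub, norm_mul]
    calc _ ≤ R ^ 2 / 4 * (2 * R ^ 2 * ‖c - c'‖) := by
          gcongr
          · simp
          · exact h.lip R hR c hc c' hc'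
      _ = _ := by ring
  have mem : ∀ s : ℂ, Λ < s.re → ∀ᶠ q : ℝ × ℂ in atTop ×ˢ 𝓝 s,
      (R₀ ≤ q.1 ∧ 0 < q.1) ∧ cOf q.1 q.2 ∈ Sym.Om (2 * Λ) q.1 := by
    intro s hs
    filter_upwards [eventually_cOf_mem hs (by norm_num : (2 : ℝ) < 4), tendsto_fst.eventually
      ((eventually_ge_atTop R₀).and (eventually_gt_atTop 0))] with q a1 a2
    exact ⟨a2, om_sub a2.2.ne' a1⟩
  have pt : ∀ s : ℂ, Λ < s.re →
      Tendsto (fun R : ℝ => (R : ℂ) ^ 2 / 4 * Y R (cOf R s)) atTop (𝓝 (sig s)) := by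
    intro s hs'
    refine (hs s hs').1.congr_dist (squeeze_zero' (Eventually.of_forall fun _ => dist_nonneg) ?_
      (tendsto_cOf_cs s))
    filter_upwards [(h2 s hs').1, (tendsto_id.prodMk tendsto_const_nhds).eventually (mem s hs')]
      with R a1 a2
    rw [dist_comm, dist_eq_norm, mul_div_right_comm]
    exact lip R a2.1.1 _ a2.2 _ a1
  refine ⟨sig, Metric.tendstoLocallyUniformlyOn_iff.2 fun ε hε s₀ hs₀ => ?_,
    1 - κ, fun s hs' => ?_⟩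
  · obtain ⟨pa, ha, pb, hb, H⟩ := eventually_prod_iff.1 (mem s₀ hs₀)
    have L : ∀ᶠ R : ℝ in atTop, ∀ s, pb s → ‖(R : ℂ) ^ 2 / 4 * Y R (cOf R s) -
        (R : ℂ) ^ 2 / 4 * Y R (cOf R s₀)‖ ≤ 4 * ‖s - s₀‖ := by
      filter_upwards [ha] with R hR s hs
      have a1 := H hR hs
      refine (lip R a1.1.1 _ a1.2 _ (H hR hb.self_of_nhds).2).trans_eq ?_
      have := a1.1.2
      rw [cOf_sub this.ne', norm_mul, norm_div, norm_pow, Complex.norm_real,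
        Real.norm_of_nonneg this.le, Complex.norm_ofNat]
      field_simp
      ring
    refine ⟨{s | Λ < s.re} ∩ ({s | pb s} ∩ ball s₀ (ε / 16)), inter_mem_nhdsWithin _
      (inter_mem hb (ball_mem_nhds _ (by positivity))), ?_⟩
    filter_upwards [L, (pt s₀ hs₀).eventually (ball_mem_nhds _ (half_pos hε))] with R a1 a2 s a3
    have b1 : ‖sig s - sig s₀‖ ≤ 4 * ‖s - s₀‖ :=
      le_of_tendsto ((pt s a3.1).sub (pt s₀ hs₀)).norm (L.mono fun R hR => hR s a3.2.1)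
    have b2 := a1 s a3.2.1
    have b3 := mem_ball_iff_norm.1 a3.2.2
    rw [← dist_eq_norm] at b1 b2
    have b4 := dist_triangle4 (sig s) (sig s₀) ((R : ℂ) ^ 2 / 4 * Y R (cOf R s₀))
      ((R : ℂ) ^ 2 / 4 * Y R (cOf R s))
    rw [dist_comm (sig s₀), dist_comm ((R : ℂ) ^ 2 / 4 * Y R (cOf R s₀)) (_ * _)] at b4
    linarith
  · obtain ⟨sg, u, a1, a2, a3, a4⟩ := (hs s hs').2
    exact ⟨sg, u, a1, a2, a3, by simpa using a4⟩

/-- **the bridge from SYM to K** -/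
theorem symK (hC : 1 ≤ C) (hΛ : 1 ≤ Λ) (h : Sym.Inv C Λ R₀ cc Y) (h1 : Sym.Tip1 C Λ R₀ κ cc)
    (h2 : Sym.Tip2 Λ κ Y) : ∃ (R₁ : ℝ) (sig : ℂ → ℂ), R₀ ≤ R₁ ∧ TipChar Λ sig ∧
      ∀ R₂, R₁ ≤ R₂ → SymData R₂ Λ Y sig := by
  obtain ⟨sig, hs, ht⟩ := exists_lim h h2
  obtain ⟨K, hK⟩ := asy hC hΛ h h1
  obtain ⟨R₁, H⟩ := eventually_atTop.1 (hK.and ((eventually_ge_atTop R₀).and
    (eventually_gt_atTop 0)))
  refine ⟨R₁, sig, (H R₁ le_rfl).2.1, ht, fun R₂ hR => SymData.mono ?_ hR⟩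
  have yb := fun R hR c (hc : c ∈ Om Λ 4 R) =>
    y_bd h (by linarith) (H R hR).2.1 (om_sub (H R hR).2.2.ne' hc)
  refine ⟨hΛ, fun R hR => (h.hol R (H R hR).2.1).mono (om_sub (H R hR).2.2.ne'),
    y_cont (by linarith) h (H R₁ le_rfl).2.2 (H R₁ le_rfl).2.1,
    fun R hR c hc => lt_of_le_of_lt (by positivity) (yb R hR c hc).2.1,
    ⟨8, fun R hR c hc => (yb R hR c hc).2.2⟩, ⟨K / 4, fun R hR c hc => ?_⟩,
    ⟨3 - κ, K, fun R => K * (Real.log R / R ^ (1 / 2 : ℝ)), ?_, fun R hR c hc => ?_⟩, hs⟩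
  · refine ((H R hR).1 c hc).1.trans_eq ?_
    simp only [norm_mul, norm_div, norm_pow, Complex.norm_real, Real.norm_eq_abs, sq_abs,
      Complex.norm_ofNat]
    ring
  · simpa using (isLittleO_log_rpow_atTop (by norm_num : (0 : ℝ) < 1 / 2)
      ).tendsto_div_nhds_zero.const_mul K
  · refine ((H R hR).1 c hc).2.trans_eq ?_
    beta_reduce
    rw [← Real.sqrt_eq_rpow, mul_div_assoc, div_div, Real.mul_self_sqrt (H R hR).2.2.le]

end Vale.Agent.P218F.SymK
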