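import Vale.Agent.P218F.Norm4
import Vale.Agent.P218F.SymK

/-!
# P218, block NORMAL, part 5: transfer of the Lojasiewicz inequality, bridge to block K
-/

noncomputable section

namespace Vale.Agent.P218F.Nm

open Set Metric Filter Topology Asymptotics
open Vale.Agent.P218F.Core

theorem ev_exp_le {c : ℝ} (hc : 0 < c) (L : ℕ) :
    ∀ᶠ R : ℝ in atTop, Real.exp (-R ^ 2 / c) ≤ 1 / R ^ L := by
  filter_upwards [(Real.tendsto_pow_mul_exp_neg_atTop_nhds_zero L).eventually_lt_const one_pos,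
    eventually_ge_atTop c] with R h1 h2
  have h0 : 0 < R := hc.trans_le h2
  have h3 : Real.exp (-R ^ 2 / c) ≤ Real.exp (-R) := by
    rw [Real.exp_le_exp, div_le_iff₀ hc]; nlinarith
  rw [le_div_iff₀ (by positivity)]
  calc _ ≤ Real.exp (-R) * R ^ L := by gcongr
    _ ≤ 1 := by linarith

theorem kl_proof : KLStmt := by
  intro q m T _ _ _ d C₀ Λ R0 r C cc Y S hd hd1 hΛ hR0 hI hS hK
  obtain ⟨R1, r1, C1, F, h1, -, hF, hT⟩ :=
    norm_proof q m T d C₀ Λ R0 r C cc Y S hd hd1 hΛ hR0 hI hS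
  obtain ⟨M, β, rk, δk, fs, hβ, hrk, hδk, hfs, hL⟩ := hK q m R1 r1 C1 F h1 hF
  have hN := (nest_of_inv hI hR0 (L := 4 * Λ) (by linarith) (by linarith)).mono h1
  have hr1 := hF.rpos
  have hC1 : 0 ≤ C1 := (norm_nonneg _).trans (hF.bdd R1 le_rfl 0 (hN.zero_mem le_rfl hr1))
  have h4 : ∀ R, R1 ≤ R → C1 * R ^ (-4 - d) ≤ C1 / R ^ 4 := fun R hR => by
    rw [div_eq_mul_one_div]
    exact mul_le_mul_of_nonneg_left (rpow_le_inv_pow (hN.one.trans hR) 4 (by push_cast; linarith))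
      hC1
  refine ⟨M, β, min rk r1, min (δk / 2) (1 / 2), fs, hβ, lt_min hrk hr1,
    lt_min (half_pos hδk) (by norm_num), ?_, fun δ hδ hδ' L => ?_⟩
  · refine hfs.congr_dist (squeeze_zero' (Eventually.of_forall fun _ => dist_nonneg) ?_
      (tendsto_inv_pow (2 * C1 * C1) two_ne_zero))
    filter_upwards [eventually_ge_atTop R1,
      (tendsto_inv_pow 1 two_ne_zero).eventually_lt_const hr1,
      (tendsto_inv_pow C1 two_ne_zero).eventually_lt_const one_pos] with R a1 a2 a3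
    have a0 : 0 < R := by linarith [hN.one]
    obtain ⟨w, -, b2, b3, -⟩ := hT R a1 0 ⟨fun _ => rfl, fun _ => rfl⟩ (by simpa using hr1)
      (by simp; positivity)
    have b4 : ball (0 : X q m) (1 / R ^ 2) ⊆ dom q m r1 (Sym.Om (4 * Λ) R) :=
      (ball_subset_W (by simpa using a2.le) (by simp)).trans (hN.W_sub a1 r1)
    have b5 : ‖((0, w) : X q m) - 0‖ ≤ C1 / R ^ 4 := by simpa using b2.trans (h4 R a1)
    have b6 := sub_le ((hF.hol R a1).mono b4) (fun z hz => hF.bdd R a1 z (b4 hz)) (q := (0, w))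
      (mem_ball_iff_norm.2 (b5.trans_lt (by
        rw [show C1 / R ^ 4 = C1 / R ^ 2 * (1 / R ^ 2) by field_simp]
        exact mul_lt_of_lt_one_left (by positivity) a3)))
    rw [dist_comm, dist_eq_norm, ← b3]
    refine b6.trans ((mul_le_mul_of_nonneg_left b5 (by positivity)).trans (le_of_eq ?_))
    field_simp
  obtain ⟨C2, R2, h2⟩ := hL (L + (2 * M + 1))
  set C3 := |C2| * (C1 + 1) with hC3
  have hC30 : 0 ≤ C3 := by positivity
  have hγ : 0 < (δ / 4) ^ M := by positivity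
  obtain ⟨R3, h3⟩ := eventually_atTop.1 ((eventually_ge_atTop R1).and ((eventually_ge_atTop R2).and
    ((ev_exp_le four_pos (L + (2 * M + 1))).and
    (((tendsto_inv_pow C1 two_ne_zero).eventually_lt_const (show 0 < δ / 4 by positivity)).and
    (eventually_ge_atTop (2 * C3 / (δ / 4) ^ M))))))
  refine ⟨C3 + 2 * C3 / (δ / 4) ^ M, R3, fun R hR x hx hx1 hx2 => ?_⟩
  obtain ⟨a1, a2, a3, a4, a5⟩ := h3 R hR
  have a6 : 1 ≤ R := hN.one.trans a1
  have a0 : 0 < R := by linarith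
  obtain ⟨d1, d2⟩ := le_min_iff.1 hδ'
  obtain ⟨w, b1, b2, b3, b4⟩ := hT R a1 x hx (hx1.trans_le (min_le_right _ _))
    (hx2.trans (by rw [← div_div]; gcongr))
  have b5 : ‖w - x.2‖ ≤ δ / R ^ 2 / 4 := by
    refine (b2.trans (h4 R a1)).trans ?_
    rw [show C1 / R ^ 4 = C1 / R ^ 2 / R ^ 2 by field_simp, div_right_comm δ]
    gcongr
  have b6 : 0 < δ / R ^ 2 := by positivity
  have b7 : 2 * (δ / R ^ 2) ≤ δk / R ^ 2 := by rw [← mul_div_assoc]; gcongr; linarith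
  obtain ⟨c1, c2⟩ := h2 R a2 (x.1, w) b1 (hx1.trans_le (min_le_left _ _))
    (by have := norm_sub_norm_le w x.2; dsimp only; linarith)
  have g0 : 0 ≤ ‖S.kap R x‖ + ‖S.mu R x‖ := by positivity
  rw [b3] at c2
  generalize ‖S.kap R x‖ + ‖S.mu R x‖ = g at *
  have e0 : 0 < 1 / R ^ (L + (2 * M + 1)) := by positivity
  have c3 : C2 * (‖fderiv ℂ (F R) (x.1, w)‖ + 1 / R ^ (L + (2 * M + 1))) ≤
      C3 * (g + 1 / R ^ (L + (2 * M + 1))) := by
    rw [hC3, mul_assoc]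
    refine mul_le_mul (le_abs_self _) ?_ (by positivity) (abs_nonneg _)
    linarith [mul_le_mul_of_nonneg_left a3 hC1]
  have c4 : 1 / R ^ (L + (2 * M + 1)) ≤ 1 / R ^ L :=
    one_div_le_one_div_of_le (by positivity) (pow_le_pow_right₀ a6 (by omega))
  have c5 : 1 / R ^ (L + (2 * M + 1)) ≤ 1 / R ^ (2 * M + 1) :=
    one_div_le_one_div_of_le (by positivity) (pow_le_pow_right₀ a6 (by omega))
  have c6 : 0 ≤ 2 * C3 / (δ / 4) ^ M := by positivity
  refine ⟨(c2.trans c3).trans (by gcongr; linarith), fun hc => ?_⟩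
  have c7 : δ / 4 / R ^ 2 ≤ ‖w‖ := by
    have := norm_sub_norm_le x.2 w
    rw [norm_sub_rev] at this
    rw [mul_comm, ← div_div] at hc
    rw [div_right_comm]
    linarith
  have c8 : (δ / 4) ^ M * (1 / R ^ (2 * M)) ≤ C3 * (g + 1 / R ^ (2 * M + 1)) :=
    calc _ = (δ / 4 / R ^ 2) ^ M := by rw [div_pow (δ / 4), ← pow_mul, mul_one_div]
      _ ≤ ‖w‖ ^ M := by gcongr
      _ ≤ _ := (c1.trans c3).trans (by gcongr)
  have c9 : C3 * (1 / R ^ (2 * M + 1)) ≤ (δ / 4) ^ M / 2 * (1 / R ^ (2 * M)) := by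
    rw [div_le_iff₀ hγ] at a5
    rw [pow_succ, show C3 * (1 / (R ^ (2 * M) * R)) = C3 / R * (1 / R ^ (2 * M)) by field_simp]
    refine mul_le_mul_of_nonneg_right ?_ (by positivity)
    rw [div_le_iff₀ a0]
    linarith
  calc 1 / R ^ (2 * M) ≤ 2 * C3 / (δ / 4) ^ M * g := by
        rw [div_mul_eq_mul_div, le_div_iff₀ hγ]
        linarith
    _ ≤ _ := by gcongr; linarith

variable {q m : ℕ} {d C₀ Λ R0 R1 r C : ℝ} {cc Y : ℝ → ℂ → ℂ} {F : ℝ → X q m → ℂ}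

theorem KN.inc_le (h : KN d (4 * Λ) R1 r C Y F) (hd : 0 < d) (hI : Sym.Inv C₀ Λ R0 cc Y)
    (hΛ : 1 ≤ Λ) (hR0 : 1 ≤ R0) (h1 : R0 ≤ R1) {a b : ℝ} (ha : R1 ≤ a) (hab : a ≤ b) {x : X q m}
    (hx : x ∈ dom q m r (Sym.Om (4 * Λ) b)) :
    ‖F b x - F a x‖ ≤ m * (24 + |C|) * (b - a) * Real.exp (-a ^ 2 / 4) := by
  have hN := nest_of_inv hI hR0 (L := 4 * Λ) (by linarith) (by linarith)
  have hy : ∀ s ∈ uIoc a b, 1 ≤ s ∧ Real.exp (-s ^ 2 / 4) ≤ Real.exp (-a ^ 2 / 4) ∧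
      ∀ j, 4 / s ^ 2 < (Y s (x.2 j)).re ∧ ‖Y s (x.2 j)‖ ≤ 8 := fun s hs => by
    rw [uIoc_of_le hab] at hs
    have a1 : R0 ≤ s := h1.trans (ha.trans hs.1.le)
    have a2 : a ^ 2 ≤ s ^ 2 := by gcongr; linarith; exact hs.1.le
    exact ⟨hR0.trans a1, Real.exp_le_exp.2 (by linarith), fun j => y_facts hI hΛ a1 (by linarith)
      (om_mono (by linarith) s ((hN.dom_sub a1 hs.2 r hx).2 j))⟩
  have i1 := intervalIntegral.norm_integral_le_of_norm_le_const (a := a) (b := b)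
    (C := Real.exp (-a ^ 2 / 4) * (m * 24))
    (f := fun s => ((Real.exp (-s ^ 2 / 4) : ℝ) : ℂ) * ∑ j, bet (Y s (x.2 j))) fun s hs => by
      obtain ⟨a1, a2, a3⟩ := hy s hs
      rw [norm_mul, Complex.norm_real, Real.norm_of_nonneg (Real.exp_pos _).le]
      refine mul_le_mul a2 ((norm_sum_le_of_le _ (n := fun _ => 24) fun j _ => ?_).trans (by simp))
        (norm_nonneg _) (Real.exp_pos _).le
      refine (K.norm_bd_le (lt_trans (by positivity) (a3 j).1)).trans ?_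
      have b1 : √‖Y s (x.2 j)‖ ≤ 3 := Real.sqrt_le_iff.2 ⟨by norm_num, by linarith [(a3 j).2]⟩
      calc 2 * Real.pi * √‖Y s (x.2 j)‖ ≤ 2 * 4 * 3 := by gcongr; exact Real.pi_le_four
        _ = 24 := by norm_num
  have i2 := intervalIntegral.norm_integral_le_of_norm_le_const (a := a) (b := b)
    (C := Real.exp (-a ^ 2 / 4) * m) (f := fun s => Real.exp (-s ^ 2 / 4) * s ^ (-2 - d) *
      ∑ j, ‖Y s (x.2 j)‖ ^ (-(1 / 2) : ℝ)) fun s hs => by
      obtain ⟨a1, a2, a3⟩ := hy s hs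
      have a0 : 0 < s := by linarith
      rw [Real.norm_of_nonneg (by positivity), mul_assoc, Finset.mul_sum]
      refine mul_le_mul a2 ((Finset.sum_le_sum (g := fun _ => (1 : ℝ)) fun j _ => ?_).trans
        (by simp)) (by positivity) (Real.exp_pos _).le
      have b1 : ‖Y s (x.2 j)‖ ^ (-(1 / 2) : ℝ) ≤ (s ^ (-2 : ℝ)) ^ (-(1 / 2) : ℝ) := by
        refine Real.rpow_le_rpow_of_nonpos (by positivity) ?_ (by norm_num)
        refine (rpow_le_inv_pow a1 2 (by norm_num)).trans (le_trans ?_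
          ((a3 j).1.le.trans (Complex.re_le_norm _)))
        gcongr; norm_num
      rw [← Real.rpow_mul a0.le] at b1
      calc _ ≤ s ^ (-2 - d) * s ^ (-2 * -(1 / 2) : ℝ) := by gcongr
        _ = s ^ (-2 - d + -2 * -(1 / 2)) := (Real.rpow_add a0 _ _).symm
        _ ≤ 1 := Real.rpow_le_one_of_one_le_of_nonpos a1 (by linarith)
  have i3 := h.inc a b ha hab x hx
  rw [abs_of_nonneg (sub_nonneg.2 hab)] at i1 i2
  generalize (∫ s in a..b, ((Real.exp (-s ^ 2 / 4) : ℝ) : ℂ) * ∑ j, bet (Y s (x.2 j))) = I at *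
  generalize (∫ s in a..b, Real.exp (-s ^ 2 / 4) * s ^ (-2 - d) *
      ∑ j, ‖Y s (x.2 j)‖ ^ (-(1 / 2) : ℝ)) = J at *
  have i4 := norm_add_le (F b x - F a x - I) I
  rw [sub_add_cancel] at i4
  have i5 : C * J ≤ |C| * ‖J‖ := by rw [Real.norm_eq_abs, ← abs_mul]; exact le_abs_self _
  linarith [mul_le_mul_of_nonneg_left i2 (abs_nonneg C)]

/-- the identification of the parameter spaces of K and NORMAL -/
def toX (q m : ℕ) : (Fin q ⊕ Fin m → ℂ) →L[ℂ] X q m :=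
  (ContinuousLinearMap.pi fun i => ContinuousLinearMap.proj (Sum.inl i)).prod
    (ContinuousLinearMap.pi fun j => ContinuousLinearMap.proj (Sum.inr j))

theorem toX_apply (x : Fin q ⊕ Fin m → ℂ) :
    toX q m x = (fun i => x (Sum.inl i), fun j => x (Sum.inr j)) := rfl

theorem norm_toX_le (x : Fin q ⊕ Fin m → ℂ) : ‖toX q m x‖ ≤ ‖x‖ := by
  rw [toX_apply, Prod.norm_def, max_le_iff]
  exact ⟨(pi_norm_le_iff_of_nonneg (norm_nonneg _)).2 fun i => norm_le_pi_norm x _,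
    (pi_norm_le_iff_of_nonneg (norm_nonneg _)).2 fun i => norm_le_pi_norm x _⟩

theorem toX_ball {x y : Fin q ⊕ Fin m → ℂ} {s : ℝ} (h : y ∈ ball x s) :
    toX q m y ∈ ball (toX q m x) s := by
  rw [mem_ball_iff_norm, ← map_sub]
  exact (norm_toX_le _).trans_lt (mem_ball_iff_norm.1 h)

theorem opNorm_le_pi {σ : Type} [Fintype σ] [DecidableEq σ] (L : (σ → ℂ) →L[ℂ] ℂ) :
    ‖L‖ ≤ Fintype.card σ * ‖fun j => L (Pi.single j 1)‖ := by
  refine L.opNorm_le_bound (by positivity) fun v => ?_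
  conv_lhs => rw [pi_eq_sum_univ' v, map_sum]
  refine (norm_sum_le_of_le _ (n := fun _ => ‖fun j => L (Pi.single j 1)‖ * ‖v‖)
    fun j _ => ?_).trans (by simp [mul_assoc])
  rw [map_smul, norm_smul, mul_comm]
  exact mul_le_mul (norm_le_pi_norm (fun j => L (Pi.single j 1)) j) (norm_le_pi_norm v j)
    (norm_nonneg _) (norm_nonneg _)

theorem pi_le_opNorm {σ : Type} [Fintype σ] [DecidableEq σ] (L : (σ → ℂ) →L[ℂ] ℂ) :
    ‖fun j => L (Pi.single j 1)‖ ≤ ‖L‖ :=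
  (pi_norm_le_iff_of_nonneg (norm_nonneg _)).2 fun j => by
    simpa [Pi.norm_single] using L.le_opNorm (Pi.single j 1)

theorem rs_im : RS {z : ℂ | z.im = 0} where
  closed := isClosed_eq Complex.continuous_im continuous_const
  zero := rfl
  sub := fun u hu v hv => by simp_all
  smul := fun t v hv => by simp_all

theorem kdata (h : KN d (4 * Λ) R1 r C Y F) (hd : 1 / 2 < d) (hI : Sym.Inv C₀ Λ R0 cc Y)
    (hΛ : 1 ≤ Λ) (hR0 : 1 ≤ R0) (h1 : R0 ≤ R1) {sig : ℂ → ℂ} (ht : K.TipChar Λ sig) {R3 K1 : ℝ}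
    (h3 : R1 ≤ R3) (hs : K.SymData R3 Λ Y sig) (hb : K.Big (3 * Λ) R3) (hK1 : 0 ≤ K1)
    (hl : ∀ R, R3 ≤ R → ∀ x₀ ∈ dom q m (r / 2) (Sym.Om (4 * Λ + 1) R),
      ball x₀ (2 * (1 / R ^ 4)) ⊆ dom q m r (Sym.Om (4 * Λ) R) ∧ ∀ x ∈ ball x₀ (1 / R ^ 4),
        ∀ y ∈ ball x₀ (1 / R ^ 4), ‖F R x - F R y‖ ≤ K1 * ‖x - y‖) :
    K.KData (r / 2) (3 * Λ) Λ R3 (fun R x => F R (toX q m x))
      (fun R x j => fderiv ℂ (fun x => F R (toX q m x)) x (Pi.single j 1))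
      (fun i x => x (Sum.inr i)) Y sig := by
  have hr := h.rpos
  have hN := nest_of_inv hI hR0 (L := 4 * Λ) (by linarith) (by linarith)
  have m1 : ∀ R, R3 ≤ R → ∀ x ∈ K.Dom (Fin q) (Fin m) (r / 2) (3 * Λ) R,
      toX q m x ∈ dom q m (r / 2) (Sym.Om (4 * Λ + 1) R) := fun R hR x hx =>
    ⟨(pi_norm_lt_iff (half_pos hr)).2 hx.1, fun j => om_mono (by linarith) R
      (SymK.om_sub (hb.pos hR).ne' (hx.2 j))⟩
  have m2 : ∀ R, R3 ≤ R → ∀ x ∈ K.Dom (Fin q) (Fin m) (r / 2) (3 * Λ) R,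
      toX q m x ∈ dom q m r (Sym.Om (4 * Λ) R) := fun R hR x hx =>
    dom_mono (by linarith) (om_mono (by linarith) R) (m1 R hR x hx)
  have m3 : ∀ R, R3 ≤ R → DifferentiableOn ℂ (fun x => F R (toX q m x))
      (K.Dom (Fin q) (Fin m) (r / 2) (3 * Λ) R) := fun R hR =>
    (h.hol R (h3.trans hR)).comp (toX q m).differentiable.differentiableOn (m2 R hR)
  refine ⟨half_pos hr, hb, by linarith, hs, ht, ⟨fun R hR => differentiableOn_pi.2 fun j =>
    P281.MF.differentiableOn_fderiv_apply (K.isOpen_Dom _ _ _) (m3 R hR) _,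
    ⟨K1, fun R hR x hx => (pi_le_opNorm _).trans (norm_fderiv_le_of_lip' ℂ hK1 ?_)⟩,
    ⟨32 * (m * (24 + |C|)), 4, fun ρ R hρ hR hR' x hx hx' => ?_⟩⟩, fun R hR x hx hre j => ?_, m3,
    ⟨C, fun R hR x hx => h.bdd R (h3.trans hR) _ (m2 R hR x hx)⟩,
    ⟨Fintype.card (Fin q ⊕ Fin m), 0, fun R hR x hx => by
      rw [pow_zero, mul_one]; exact opNorm_le_pi _⟩,
    fun i => (ContinuousLinearMap.proj (R := ℂ) (φ := fun _ : Fin q ⊕ Fin m => ℂ)
      (Sum.inr i)).analyticAt 0, fun i => Eventually.of_forall fun x hx => hx _,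
    fun i => by simpa using isBigO_zero _ _,
    fun R hR x hx i => K.Om_mono (by linarith) (by norm_num) R (hx.2 i),
    ⟨C, d, hd, fun R R' hR hR' _ x hx => h.inc R R' (h3.trans hR) hR' _ (m2 R' (hR.trans hR') x hx)⟩⟩
  · have a0 := hb.pos hR
    have a1 : 0 < 1 / R ^ 4 := by positivity
    filter_upwards [ball_mem_nhds x a1] with y hy
    refine ((hl R hR _ (m1 R hR x hx)).2 _ (toX_ball hy) _ (mem_ball_self a1)).trans ?_
    rw [← map_sub]
    exact mul_le_mul_of_nonneg_left (norm_toX_le _) hK1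
  · have a0 := hb.pos hρ
    have a00 := hb.one_le hρ
    have a01 : 0 < R := a0.trans_le hR
    have a1 : 0 < 1 / R ^ 4 := by positivity
    have a2 : ∀ y ∈ ball x (1 / R ^ 4), toX q m y ∈ dom q m r (Sym.Om (4 * Λ) R) := fun y hy =>
      (hl R (hρ.trans hR) _ (m1 R (hρ.trans hR) x hx)).1
        (ball_subset_ball (by linarith) (toX_ball hy))
    have a3 := (h.hol R (h3.trans (hρ.trans hR))).comp
      (toX q m).differentiable.differentiableOn a2
    have a4 := (h.hol ρ (h3.trans hρ)).comp (toX q m).differentiable.differentiableOn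
      fun y hy => hN.dom_sub (h1.trans (h3.trans hρ)) hR r (a2 y hy)
    have a5 := fderiv_le a1 (f := fun y => F R (toX q m y) - F ρ (toX q m y)) (a3.sub a4)
      fun y hy => h.inc_le (by linarith) hI hΛ hR0 h1 (h3.trans hρ) hR (a2 y hy)
    have a6 := fderiv_fun_sub (a3.differentiableAt (ball_mem_nhds x a1))
      (a4.differentiableAt (ball_mem_nhds x a1))
    have a7 := (pi_le_opNorm _).trans a5
    simp only [Function.comp_def] at a6
    rw [a6] at a7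
    refine le_trans (le_of_eq rfl) (a7.trans ?_)
    have a8 : R ^ 4 ≤ (2 * ρ) ^ 4 := by gcongr; linarith
    calc _ = 2 * (m * (24 + |C|) * (R - ρ) * Real.exp (-ρ ^ 2 / 4)) * R ^ 4 := by field_simp
      _ ≤ 2 * (m * (24 + |C|) * 1 * Real.exp (-ρ ^ 2 / 4)) * (2 * ρ) ^ 4 := by gcongr; linarith
      _ = _ := by ring
  · have a1 : HasDerivAt (fun t : ℂ => x + t • (Pi.single j 1 : Fin q ⊕ Fin m → ℂ))
        (Pi.single j 1) ((0 : ℝ) : ℂ) := by
      simpa using ((hasDerivAt_id ((0 : ℝ) : ℂ)).smul_const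
        (Pi.single j 1 : Fin q ⊕ Fin m → ℂ)).const_add x
    have a0 := (K.isOpen_Dom _ _ _).mem_nhds hx
    refine rs_im.deriv_mem (HasFDerivAt.comp_hasDerivAt_of_eq ((0 : ℝ) : ℂ)
      ((m3 R hR).differentiableAt a0).hasFDerivAt a1 (by simp)) ?_
    have a3 : ContinuousAt
        (fun t : ℝ => x + (t : ℂ) • (Pi.single j 1 : Fin q ⊕ Fin m → ℂ)) 0 := by fun_prop
    filter_upwards [a3.preimage_mem_nhds (by
      rwa [Complex.ofReal_zero, zero_smul, add_zero])] with t ht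
    have a4 : ∀ k, ((x + (t : ℂ) • (Pi.single j 1 : Fin q ⊕ Fin m → ℂ)) k).im = 0 := fun k => by
      by_cases e : k = j
      · subst e; simp [hre k]
      · simp [hre k, e]
    exact h.real R (h3.trans hR) _ (m2 R hR _ ht) ⟨fun i => a4 _, fun i => a4 _⟩

theorem of_kout {R3 : ℝ} (h : K.KOut R3 (fun R x => F R (toX q m x))
    fun R x j => fderiv ℂ (fun x => F R (toX q m x)) x (Pi.single j 1)) :
    ∃ (N : ℕ) (θ C δ : ℝ) (F₀ : ℂ), 0 < θ ∧ θ < 1 ∧ 0 < δ ∧ 0 ≤ C ∧ ∀ R, R3 ≤ R → ∀ p : X q m,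
      IsRe p → ‖p‖ < δ → ‖p.2‖ * R ^ 2 ≤ 1 / 2 → DifferentiableAt ℂ (F R) p →
        ‖p.2‖ ^ N ≤ C * (‖fderiv ℂ (F R) p‖ + Real.exp (-R ^ 2 / 10)) ∧
        ‖F R p - F₀‖ ^ θ ≤ C * (‖fderiv ℂ (F R) p‖ + Real.exp (-R ^ 2 / 10)) := by
  obtain ⟨N, θ, C, δ, F₀, h1, h2, h3, h4⟩ := h
  refine ⟨N, θ, |C|, δ, F₀, h1, h2, h3, abs_nonneg C, fun R hR p hp hp1 hp2 hp3 => ?_⟩
  let x : Fin q ⊕ Fin m → ℝ := Sum.elim (fun i => (p.1 i).re) fun j => (p.2 j).re
  have e1 : toX q m (K.ofRe x) = p := by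
    rw [toX_apply]
    ext i
    · exact Complex.ext rfl (by simp [K.ofRe, hp.1 i])
    · exact Complex.ext rfl (by simp [K.ofRe, hp.2 i])
  have e2 : K.cp (K.ofRe x) = p.2 := congrArg Prod.snd e1
  have e3 : ‖x‖ ≤ ‖p‖ := (pi_norm_le_iff_of_nonneg (norm_nonneg _)).2 fun k => by
    rcases k with i | i
    · exact (Complex.abs_re_le_norm _).trans ((norm_le_pi_norm p.1 i).trans (norm_fst_le p))
    · exact (Complex.abs_re_le_norm _).trans ((norm_le_pi_norm p.2 i).trans (norm_snd_le p))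
  obtain ⟨a1, a2⟩ := h4 R hR x (e3.trans_lt hp1) (by rwa [e2])
  have a3 : ‖fderiv ℂ (fun x => F R (toX q m x)) (K.ofRe x)‖ ≤ ‖fderiv ℂ (F R) p‖ := by
    have b0 : HasFDerivAt (F R) (fderiv ℂ (F R) p) (toX q m (K.ofRe x)) := by
      rw [e1]; exact hp3.hasFDerivAt
    have b1 := (b0.comp (K.ofRe x) (toX q m).hasFDerivAt).fderiv
    simp only [Function.comp_def] at b1
    rw [b1]
    refine ContinuousLinearMap.opNorm_le_bound _ (norm_nonneg _) fun v => ?_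
    exact ((fderiv ℂ (F R) p).le_opNorm _).trans
      (mul_le_mul_of_nonneg_left (norm_toX_le v) (norm_nonneg _))
  have a4 : C * (‖fun j => fderiv ℂ (fun x => F R (toX q m x)) (K.ofRe x) (Pi.single j 1)‖ +
      Real.exp (-R ^ 2 / 10)) ≤ |C| * (‖fderiv ℂ (F R) p‖ + Real.exp (-R ^ 2 / 10)) :=
    mul_le_mul (le_abs_self C) (add_le_add_left ((pi_le_opNorm _).trans a3) _) (by positivity)
      (abs_nonneg C)
  simp only [e1, e2] at a1 a2
  exact ⟨a1.trans a4, a2.trans a4⟩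

theorem kfor_of_K (hK : K.KStmt) (hd : 1 / 2 < d) (hd1 : d ≤ 1) (hI : Sym.Inv C₀ Λ R0 cc Y)
    (hΛ : 1 ≤ Λ) (hR0 : 1 ≤ R0) {sig : ℂ → ℂ} (ht : K.TipChar Λ sig) {Rs : ℝ}
    (hs : ∀ R, Rs ≤ R → K.SymData R Λ Y sig) : KFor d Λ R0 Y := by
  intro q m R1 r C F h1 h
  have hd0 : 0 < d := by linarith
  have hr := h.rpos
  obtain ⟨R2, h2⟩ := eventually_atTop.1 ((eventually_ge_atTop R1).and (ev_exp_le four_pos 6))
  have hN := (nest_of_inv hI hR0 (L := 4 * Λ) (by linarith) (by linarith)).mono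
    (h1.trans (h2 R2 le_rfl).1)
  have hF : PFam d (4 * Λ) R2 r (|C| + m * (24 + |C|)) F := by
    refine ⟨hr, fun R hR => h.hol R (h2 R hR).1, fun R hR x hx => (h.bdd R (h2 R hR).1 x hx).trans
      ((le_abs_self C).trans (le_add_of_nonneg_right (by positivity))),
      fun R R' hR a1 _ x hx => (h.inc_le hd0 hI hΛ hR0 h1 (h2 R hR).1 a1 hx).trans ?_⟩
    have a2 : 1 ≤ R := hN.one.trans hR
    have a3 := Real.rpow_le_rpow_of_exponent_le a2 (show (0 : ℝ) - (6 : ℕ) ≤ -5 - d by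
      push_cast; linarith)
    rw [rpow_split (by linarith), Real.rpow_zero] at a3
    have a4 : 0 ≤ R' - R := by linarith
    gcongr
    · exact le_add_of_nonneg_left (abs_nonneg C)
    · exact (h2 R hR).2.trans a3
  obtain ⟨T, C', hT⟩ := hF.exists_lim hd0 hd1 hN
  obtain ⟨K1, hK1, hl⟩ := hT.lip hF hd0 hN
  obtain ⟨R3, h3⟩ := eventually_atTop.1 ((eventually_ge_atTop R2).and ((eventually_ge_atTop Rs).and
    ((K.eventually_big (show 0 ≤ 3 * Λ by linarith)).and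
    ((tendsto_inv_pow 1 four_ne_zero).eventually_lt_const
      (show 0 < min (r / 4) (1 / 2) from lt_min (by positivity) (by norm_num))))))
  obtain ⟨N, θ, C1, δ, F₀, hθ, hθ1, hδ, hC1, ho⟩ := of_kout (hK _ _ _ _ _ _ _ _ _ _ _ _
    (kdata h hd hI hΛ hR0 h1 ht (h2 R3 (h3 R3 le_rfl).1).1 (hs R3 (h3 R3 le_rfl).2.1)
      (h3 R3 le_rfl).2.2.1 hK1 fun R hR => hl R (h3 R hR).1 (h3 R hR).2.2.2.le))
  have hlim : Tendsto (fun R => F R 0) atTop (𝓝 (T 0)) := hT.tendsto hd0 hN (b := 0) (by simpa)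
  have hdf : ∀ R, R2 ≤ R → ∀ p ∈ W q m r (1 / R ^ 2), DifferentiableAt ℂ (F R) p :=
    fun R hR p hp => ((hF.hol R hR).mono (hN.W_sub hR r)).differentiableAt
      ((isOpen_W _ _).mem_nhds hp)
  have key : ∃ C2 s : ℝ, 0 ≤ C2 ∧ 0 < s ∧ ∀ᶠ R in atTop, ∀ p ∈ W q m (r / 2) (1 / R ^ 2 / 2),
      ‖p‖ < s → ‖F R p - F₀‖ ^ θ ≤ C1 * (‖fderiv ℂ (F R) p‖ + Real.exp (-R ^ 2 / 10)) →
        ‖F R p - T 0‖ ^ θ ≤ C2 * (‖fderiv ℂ (F R) p‖ + Real.exp (-R ^ 2 / 10)) := by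
    by_cases e : fderiv ℂ T 0 = 0
    · have a1 : Tendsto (fun R : ℝ => Real.exp (-R ^ 2 / 10)) atTop (𝓝 0) :=
        squeeze_zero' (Eventually.of_forall fun _ => (Real.exp_pos _).le)
          (ev_exp_le (by norm_num) 1) (tendsto_inv_pow 1 one_ne_zero)
      have a2 := ((hT.tendsto_fderiv hF hd0 hN).norm.add a1).const_mul C1
      have a3 := (hlim.sub_const F₀).norm.rpow_const (Or.inr hθ.le)
      have a4 := le_of_tendsto_of_tendsto a3 a2 (by
        filter_upwards [eventually_ge_atTop R3] with R hR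
        have b0 : 0 < R := by linarith [hN.one, (h3 R hR).1]
        exact (ho R hR 0 ⟨fun _ => rfl, fun _ => rfl⟩ (by simpa using hδ) (by simp)
          (hdf R (h3 R hR).1 0 ⟨by simpa using hr, by simpa using pow_pos b0 2⟩)).2)
      rw [e, norm_zero, add_zero, mul_zero] at a4
      have a5 : T 0 = F₀ := by
        by_contra hne
        exact absurd a4 (not_le.2 (Real.rpow_pos_of_pos (norm_pos_iff.2 (sub_ne_zero.2 hne)) θ))
      exact ⟨C1, 1, hC1, one_pos, Eventually.of_forall fun R p _ _ hp => a5 ▸ hp⟩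
    · have a0 : (0 : X q m) ∈ W q m r 7 := ⟨by simpa using hr, by simp⟩
      have a1 : 0 < ‖fderiv ℂ T 0‖ / 3 := by have := norm_pos_iff.2 e; positivity
      have a2 := (P281.MF.analyticAt_of_differentiableOn (isOpen_W r 7) hT.hol
        a0).fderiv.continuousAt
      obtain ⟨s, hs0, hs1⟩ := Metric.continuousAt_iff.1 a2 _ a1
      refine ⟨(|C| + m * (24 + |C|) + C') ^ θ / (‖fderiv ℂ T 0‖ / 3), s,
        by have := hT.nonneg; positivity, hs0, ?_⟩
      filter_upwards [eventually_ge_atTop R2,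
        (tendsto_inv_pow 1 two_ne_zero).eventually_lt_const hr,
        (tendsto_inv_pow (4 * C') two_ne_zero).eventually_lt_const a1] with R b1 b2 b3 p hp b4 _
      have b0 : 0 < R := by linarith [hN.one]
      have b5 := hT.fderiv_sub_le hF hd0 hN b1 b2.le hp
      have b6 := hs1 (x := p) (by simpa using b4)
      rw [dist_eq_norm, norm_sub_rev] at b6
      rw [norm_sub_rev] at b5
      have b7 : ‖fderiv ℂ T 0‖ / 3 ≤ ‖fderiv ℂ (F R) p‖ + Real.exp (-R ^ 2 / 10) := by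
        linarith [norm_sub_norm_le (fderiv ℂ T 0) (fderiv ℂ T p),
          norm_sub_norm_le (fderiv ℂ T p) (fderiv ℂ (F R) p), Real.exp_pos (-R ^ 2 / 10)]
      have b8 := (norm_sub_le _ _).trans (add_le_add (hF.bdd R b1 p (hN.W_sub b1 r
        ⟨by linarith [hp.1], by
          have : 0 < 1 / R ^ 2 := by positivity
          linarith [hp.2]⟩)) (hT.bdd 0 a0))
      have b9 : 0 ≤ (|C| + m * (24 + |C|) + C') ^ θ := by have := hT.nonneg; positivity
      calc _ ≤ (|C| + m * (24 + |C|) + C') ^ θ := by gcongr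
        _ = _ / (‖fderiv ℂ T 0‖ / 3) * (‖fderiv ℂ T 0‖ / 3) := (div_mul_cancel₀ _ a1.ne').symm
        _ ≤ _ := by gcongr
  obtain ⟨C2, s, hC2, hs0, hk⟩ := key
  have hm : 0 < min (min δ s) (r / 2) := lt_min (lt_min hδ hs0) (half_pos hr)
  refine ⟨N, 1 / θ, min (min δ s) (r / 2), 1 / 4, T 0, one_lt_one_div hθ hθ1, hm, by norm_num, hlim,
    fun L => ?_⟩
  obtain ⟨R4, h4⟩ := eventually_atTop.1 (hk.and ((eventually_ge_atTop R3).and
    ((ev_exp_le (show (0 : ℝ) < 10 by norm_num) L).and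
    ((tendsto_inv_pow (1 / 4) two_ne_zero).eventually_lt_const hm))))
  refine ⟨C1 + C2, R4, fun R hR p hp hp1 hp2 => ?_⟩
  obtain ⟨a1, a2, a3, a4⟩ := h4 R hR
  have b0 : 0 < R := by linarith [hN.one, (h3 R a2).1]
  have b1 : ‖p‖ < min δ s := by
    rw [Prod.norm_def, max_lt_iff]
    exact ⟨hp1.trans_le (min_le_left _ _), (hp2.trans_lt a4).trans_le (min_le_left _ _)⟩
  have b2 : 0 < 1 / R ^ 2 := by positivity
  have b3 : 1 / 4 / R ^ 2 = 1 / R ^ 2 / 4 := by ring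
  have b4 : ‖p.1‖ < r / 2 := hp1.trans_le (min_le_right _ _)
  obtain ⟨c1, c2⟩ := ho R a2 p hp (b1.trans_le (min_le_left _ _))
    (by rw [le_div_iff₀ (by positivity)] at hp2; linarith)
    (hdf R (h3 R a2).1 p ⟨by linarith, by linarith⟩)
  have c3 := a1 p ⟨b4, by linarith⟩ (b1.trans_le (min_le_right _ _)) c2
  rw [one_div_one_div]
  exact ⟨c1.trans (by gcongr; linarith), c3.trans (by gcongr; linarith)⟩

/-- **NORMAL + K + SYM** -/
theorem klint (hK : K.KStmt) {T : Type} [NormedAddCommGroup T] [NormedSpace ℂ T] [CompleteSpace T]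
    {S : LSF q m T} {κ R2 : ℝ} (hd : 1 / 2 < d) (hd1 : d ≤ 1) (hC₀ : 1 ≤ C₀) (hΛ : 1 ≤ Λ)
    (hR0 : 1 ≤ R0) (hI : Sym.Inv C₀ Λ R0 cc Y) (h1 : Sym.Tip1 C₀ Λ R0 κ cc) (h2 : Sym.Tip2 Λ κ Y)
    (hR2 : R0 ≤ R2) (hS : LSN d Λ R2 r C Y S) : KLInt S := by
  obtain ⟨Rs, sig, -, ht, hs⟩ := SymK.symK hC₀ hΛ hI h1 h2
  have hI' : Sym.Inv C₀ Λ R2 cc Y :=
    ⟨fun R hR => hI.approx R (hR2.trans hR), fun R hR => hI.mem R (hR2.trans hR), hI.room,
      fun R hR => hI.right R (hR2.trans hR), fun R hR => hI.hol R (hR2.trans hR),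
      fun R hR => hI.real R (hR2.trans hR), fun R hR => hI.zero R (hR2.trans hR),
      fun R hR => hI.close R (hR2.trans hR), fun R hR => hI.lip R (hR2.trans hR),
      fun R R' hR => hI.lipR R R' (hR2.trans hR), fun R R' hR => hI.nest R R' (hR2.trans hR),
      fun R hR => hI.small R (hR2.trans hR)⟩
  exact kl_proof q m T d C₀ Λ R2 r C cc Y S (by linarith) hd1 hΛ (hR0.trans hR2) hI' hS
    (kfor_of_K hK hd hd1 hI' hΛ (hR0.trans hR2) ht hs)

end Vale.Agent.P218F.Nm
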