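import Vale.Agent.P218F.LSSpec
import Vale.Agent.P218F.Norm5

/-!
# The statements `PLimStmt` and `KLAll`
-/

noncomputable section

namespace Vale.Agent.P218F.LS

theorem plim_proof : PLimStmt := by
  intro q m V _ _ _ C₀ Λ R₀ R0 r C cc Y g hI hΛ h1 h2 hg
  have hN := (Nm.nest_of_inv hI h1 (L := 2 * Λ) (by linarith) (by linarith)).mono h2
  obtain ⟨T, C', hT⟩ := hg.exists_lim (by norm_num) (by norm_num) hN
  exact ⟨T, fderiv ℂ T 0, fun b hb => hT.tendsto (by norm_num) hN hb,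
    hT.tendsto_fderiv hg (by norm_num) hN,
    fun δ hδ hδ1 => hT.strict hg (by norm_num) hN hδ hδ1⟩

theorem klAll_of (hK : K.KStmt) : KLAll := fun _ =>
  ⟨1, fun _ _ _ _ _ _ _ _ _ h _ _ _ _ _ _ hR hL =>
    Nm.klint hK (by norm_num) (by norm_num) h.one h.lam (by linarith [h.fam.big.1, h.zpos]) h.inv
      h.tip1 h.tip2 hR hL⟩

end Vale.Agent.P218F.LS
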