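import Vale.Agent.P218F.LSChart
import Vale.Agent.P218F.CoreOp
import Vale.Agent.P218F.CorePar

/-! The real family: the ends, the area density and the Lojasiewicz inequality. -/

open MeasureTheory Set Filter Topology Metric Matrix
open scoped ContDiff RealInnerProductSpace Real

set_option maxSynthPendingDepth 3

noncomputable section

namespace Vale.Agent.P218F.LS.RB

open Vale.Agent.P218FT hiding P2
open Vale.Agent.P218F.Core Vale.Agent.P218F.Ends Vale.Agent.P218F.Ft Vale.Agent.P218F.Mesh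

/-! ### Real parameters, real parts -/

section par

variable {q m : ℕ}

theorem norm_ofR1 (x : XR q m) : ‖(ofR x).1‖ = ‖x.1‖ := by simp [ofR, Pi.norm_def]

theorem norm_ofR2 (x : XR q m) : ‖(ofR x).2‖ = ‖x.2‖ := by simp [ofR, Pi.norm_def]

theorem isRe_ofR (x : XR q m) : Nm.IsRe (ofR x) :=
  ⟨fun _ => Complex.ofReal_im _, fun _ => Complex.ofReal_im _⟩

theorem tendsto_ofR : Tendsto (ofR : XR q m → Nm.X q m) (𝓝 0) (𝓝 0) := by
  simpa using (LinearMap.continuous_of_finiteDimensional (ofR (q := q) (m := m))).tendsto 0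

end par

theorem re_eq {z : ℂ} (h : z.im = 0) : (z.re : ℂ) = z := Complex.ext rfl h.symm

theorem norm_map_re (a : J2 P2 ℂ) : ‖a.map Complex.reCLM‖ ≤ ‖a‖ := by
  have h1 : ‖a.2.1‖ ≤ ‖a‖ := (norm_fst_le a.2).trans (norm_snd_le a)
  have h2 : ‖a.2.2‖ ≤ ‖a‖ := (norm_snd_le a.2).trans (norm_snd_le a)
  refine norm_prod_le_iff.2 ⟨(Complex.abs_re_le_norm _).trans (norm_fst_le a),
    norm_prod_le_iff.2 ⟨ContinuousLinearMap.opNorm_le_bound _ (norm_nonneg _) fun u => ?_,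
      ContinuousLinearMap.opNorm_le_bound₂ _ (norm_nonneg _) fun u v => ?_⟩⟩
  · exact (Complex.abs_re_le_norm _).trans (a.2.1.le_of_opNorm_le h1 u)
  · exact (Complex.abs_re_le_norm _).trans ((a.2.2.le_opNorm₂ u v).trans (by gcongr))

theorem cd_re {e : P2 → ℂ} {v : P2} (h : ContDiffAt ℝ 2 e v) :
    ContDiffAt ℝ 2 (fun t => (e t).re) v := Complex.reCLM.contDiff.contDiffAt.comp v h

theorem jet2_re {e : P2 → ℂ} {v : P2} (h : ContDiffAt ℝ 2 e v) :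
    ‖jet2 (fun t => (e t).re) v‖ ≤ ‖jet2 e v‖ :=
  (congrArg _ (jet2_clm Complex.reCLM h)).trans_le (norm_map_re _)

theorem cE_rotR (a x : E3) : cE (rotR a x) = rot (cE a) (cE x) := by
  rw [rotR, rot, map_add, map_smul, map_add, cE_crs, cE_crs, cE_crs, cE_dot,
    real_inner_self_eq_norm_sq, ← Complex.coe_smul]
  push_cast
  rfl

theorem rotR_zero (x : E3) : rotR 0 x = x := by
  apply cE_injective
  rw [cE_rotR]
  simp [rot]

/-- the real part of a complex vector -/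
def rE : C3 →L[ℝ] E3 := (PiLp.continuousLinearEquiv 2 ℝ fun _ : Fin 3 => ℝ).symm.toContinuousLinearMap.comp
  (ContinuousLinearMap.pi fun i => Complex.reCLM.comp (ContinuousLinearMap.proj i))

theorem rE_cE (x : E3) : rE (cE x) = x := by
  ext i
  simp [rE]

/-- the Lagrangian of a surface which is real near `v` -/
theorem lag_real {X : P2 → C3} {Y : P2 → E3} {v : P2} (hX : DifferentiableAt ℝ X v)
    (h : ∀ᶠ t in 𝓝 v, cE (Y t) = X t) : lag (jet1 X v) = (lagR Y v : ℝ) := by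
  have h1 : DifferentiableAt ℝ Y v :=
    (rE.differentiableAt.comp v hX).congr_of_eventuallyEq (h.mono fun t ht => by
      simp only [Function.comp, ← ht, rE_cE])
  rw [← jet1_congr h, lag_jet1 h1]
  rfl

variable {S : Set E3}

/-! ### Real ends -/

/-- the real graph -/
def YR (D : EndData S) (j : JJ D) (e : P2 → ℂ) (t : P2) : E3 := Bs D j t + (e t).re • Wd D j t

theorem cylY_eq (D : EndData S) (j : Fin D.m) (e : P2 → ℂ) :
    cylY (D.a j) (D.b j) (D.c j) (fun v => (e v).re) = YR D (.inl j) e := by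
  funext v
  simp only [cylY, YR, Bs, Wd, cylPt, smul_add, smul_smul]
  abel

theorem coneY_eq (D : EndData S) (i : Fin D.k) (e : P2 → ℂ) :
    coneY (D.γ i) (D.n i) (fun v => (scl e v).re) = YR D (.inr i) e := by
  funext v
  simp only [coneY, YR, Bs, Wd, conePt, smul_add, smul_smul, scl, Complex.re_ofReal_mul,
    ← mul_assoc, ← Real.exp_add, add_neg_cancel, Real.exp_zero, one_mul]

/-- `e` is a real exact end on `O` -/
structure EndOn (D : EndData S) (j : JJ D) (O : Set ℝ) (e : P2 → ℂ) : Prop where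
  opn : IsOpen O
  per : ∀ p : P2, e (p.1, p.2 + 2 * π) = e p
  c2 : ∀ p : P2, p.1 ∈ O → ContDiffAt ℝ 2 e p
  re : ∀ p : P2, p.1 ∈ O → (e p).im = 0
  eq : ∀ p : P2, p.1 ∈ O → shrE D j p (jet2 e p) = 0

section endon

variable {D : EndData S} {j : JJ D} {O : Set ℝ} {e : P2 → ℂ} (h : EndOn D j O e)
include h

theorem EndOn.ev {v : P2} (hv : v.1 ∈ O) : ∀ᶠ t in 𝓝 v, cE (YR D j e t) = Ye D j e t := by
  filter_upwards [continuous_fst.continuousAt.eventually (h.opn.mem_nhds hv)] with t ht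
  rw [YR, Ye, map_add, map_smul, ← Complex.coe_smul, re_eq (h.re t ht)]

theorem EndOn.shrR (hC : Charts S D) {v : P2} (hv : v.1 ∈ O) : ShrR (YR D j e) (Wd D j) v := by
  have hB : ContDiffAt ℝ 2 (Bx D j) v :=
    ((cE.contDiff.comp (hC.smooth j).1).of_le (WithTop.coe_le_coe.2 le_top)).contDiffAt
  have hW : ContDiffAt ℝ 2 (Wx D j) v :=
    ((cE.contDiff.comp (hC.smooth j).2.1).of_le (WithTop.coe_le_coe.2 le_top)).contDiffAt
  have h1 : jet2 (Ye D j e) v = jet2 (Bx D j) v + (jet2 e v).smul (jet2 (Wx D j) v) := by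
    rw [← jet2_smul (h.c2 v hv) hW]
    exact jet2_add hB ((h.c2 v hv).smul hW)
  rw [ShrR, Shr, jet2_congr (h.ev hv), h1]
  exact h.eq v hv

theorem EndOn.area (hC : Charts S D) :
    ∫ v in O ×ˢ Ioc 0 (2 * π), lag (jet1 (Ye D j e) v) =
      (∫ v in O ×ˢ Ioc 0 (2 * π), lagR (YR D j e) v : ℝ) := by
  rw [← integral_complex_ofReal]
  refine setIntegral_congr_fun (h.opn.measurableSet.prod measurableSet_Ioc) fun v hv => ?_
  refine lag_real ?_ (h.ev hv.1)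
  exact (cE.differentiableAt.comp v ((hC.smooth j).1.differentiable (by simp) v)).add
    (((h.c2 v hv.1).differentiableAt (by simp)).smul
      (cE.differentiableAt.comp v ((hC.smooth j).2.1.differentiable (by simp) v)))

end endon

theorem cylSm_re {ε : ℝ} {e : P2 → ℂ} {v : P2} (h : ContDiffAt ℝ 2 e v) (hs : CylSm ε e v) :
    ‖jet2 (fun t => (e t).re - √2) v‖ ≤ ε ∧ |v.1 * fderiv ℝ (fun t => (e t).re) v (1, 0)| ≤ ε := by
  refine ⟨le_trans ?_ hs.1, le_trans ?_ hs.2⟩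
  · simpa using jet2_re (h.sub (contDiffAt_const (c := ((√2 : ℝ) : ℂ))))
  · have h1 := (Complex.reCLM.hasFDerivAt.comp v
      (h.differentiableAt (by simp)).hasFDerivAt).fderiv
    rw [show fderiv ℝ (fun t => (e t).re) v = _ from h1]
    refine le_trans (le_of_eq ?_) (Complex.abs_re_le_norm _)
    simp

/-! ### One real parameter -/

variable {F : Frm S} {q : ℕ} {Z : Type} [NormedAddCommGroup Z] [NormedSpace ℂ Z] {H : EF F}
  {χ : Fin q ⊕ Fin F.D.m → E3 → ℝ} {val : Z →ₗ[ℂ] E3 → ℂ} {tr : Un F q Z →L[ℂ] JJ F.D → AA}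
  {ρ R0 r C δ : ℝ} {s : ℝ → Nm.X q F.D.m → Un F q Z} {si : (Fin q → ℂ) → Un F q Z}
  {T : Nm.X q F.D.m → Un F q Z}

/-- the real tilts -/
def bR (u : Un F q Z) : Tilt F.D.m ℝ := fun j i => (F.tl u.2 j i).re

/-- the real surface over the core -/
def Φ (val : Z →ₗ[ℂ] E3 → ℂ) (u : Un F q Z) (p : E3) : E3 :=
  rotR (F.omR (bR u) p) p + (val u.1 p).re • rotR (F.omR (bR u) p) (F.V p)

theorem Φ_eq (u : Un F q Z) (p : E3) :
    Φ val u p = rotR (F.omR (bR u) p) (p + (val u.1 p).re • F.V p) := by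
  have h1 := (rotE (F.omR (bR u) p)).map_add p ((val u.1 p).re • F.V p)
  rw [map_smul] at h1
  exact h1.symm

theorem cE_Φ {u : Un F q Z} (hu : ReU val u) {p : E3} (hp : p ∈ Mo F.C0 F.Kc) :
    cE (Φ val u p) = F.Y (val u.1) (F.tl u.2) p := by
  rw [Φ_eq, cE_rotR, Frm.Y, map_add, map_smul, ← Complex.coe_smul, re_eq (hu.2 p hp)]
  congr 1
  simp only [Frm.omR, Frm.om, map_sum, map_smul, map_add, ← Complex.coe_smul, bR]
  refine Finset.sum_congr rfl fun j _ => ?_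
  rw [Frm.tl, Frm.tl, re_eq (hu.1 _), re_eq (hu.1 _)]

theorem R0_pos (D : EndData S) : 0 < D.R₀ := by
  by_contra h
  nlinarith [D.big, D.δpos]

theorem st_le (h : F.OK) (j : JJ F.D) : st F.D j ≤ F.s1 j := by
  have h0 := R0_pos F.D
  have := h.z_big
  rcases j with j | i
  · simp only [st, Frm.s1]; linarith
  · have := Real.log_lt_log h0 (show F.D.R₀ < F.z₀ + 8 by linarith)
    simp only [st, Frm.s1]; linarith [h.y_big]

theorem chi_other (h : F.OK) (hC : Charts S F.D) {j : JJ F.D} {p : P2} (hp : st F.D j ≤ p.1)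
    {j' : Fin F.D.m} (hj : j ≠ .inl j') : F.χ j' (Kd F.D j p) = 0 :=
  h.chi_out j' _ (hC.mem j p hp) fun p' hq e => hj (hC.inj j (.inl j') p p' hp
    (show F.D.R₀ ≤ p'.1 by linarith [R0_pos F.D, h.z_big]) e).1

theorem omR_cyl (h : F.OK) (hC : Charts S F.D) (β : Tilt F.D.m ℝ) (j : Fin F.D.m) {p : P2}
    (hp : F.z₀ + 11 ≤ p.1) :
    F.omR β (Kd F.D (.inl j) p) = β j 0 • F.D.a j + β j 1 • F.D.b j := by
  have h1 : st F.D (.inl j) ≤ p.1 := (st_le h (.inl j)).trans hp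
  rw [Frm.omR, Finset.sum_eq_single j (fun j' _ hj => by
    rw [chi_other h hC h1 (by simpa using hj.symm), zero_smul]) (by simp), h.chi_end j p h1,
    Real.smoothTransition.one_of_one_le (by linarith), one_smul]

theorem omR_cone (h : F.OK) (hC : Charts S F.D) (β : Tilt F.D.m ℝ) (i : Fin F.D.k) {p : P2}
    (hp : F.ya ≤ p.1) : F.omR β (Kd F.D (.inr i) p) = 0 :=
  Finset.sum_eq_zero fun j _ => by
    rw [chi_other h hC ((st_le h (.inr i)).trans hp) (by simp), zero_smul]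

theorem glue_pt (h : F.OK) {U : E3 → ℂ} {e : JJ F.D → P2 → ℂ} (hg : F.Glue U e) (j : JJ F.D)
    {p : P2} (hp : p.1 ∈ Ioo (F.s1 j) (F.s1 j + 3)) :
    Kd F.D j p + (U (Kd F.D j p)).re • F.V (Kd F.D j p) = YR F.D j (e j) p := by
  rw [h.ends j p (by linarith [hp.1]), YR, ← hg j p (Ioo_subset_Icc_self hp), Frm.e,
    Complex.add_re, Complex.ofReal_re, Complex.re_ofReal_mul, add_smul, smul_smul, mul_comm, Kd,
    add_assoc]

/-- the solution `u` with ends `e`, cut at the height `1 / ε` -/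
structure Pt (H : EF F) (χ : Fin q ⊕ Fin F.D.m → E3 → ℝ) (val : Z →ₗ[ℂ] E3 → ℂ)
    (tr : Un F q Z →L[ℂ] JJ F.D → AA) (ρ R1 : ℝ) (b : Fin q → ℂ) (u : Un F q Z)
    (e : JJ F.D → P2 → ℂ) (ε : ℝ) : Prop where
  sol : Sol χ val tr ρ b u e
  re : ReU val u
  alt : (ε = 0 ∧ e = H.eI (tr u)) ∨ ∃ R c, R1 ≤ R ∧ H.R0 ≤ R ∧ ε = R⁻¹ ∧ 0 < R ∧
    e = H.eR R c (tr u) ∧
    ∀ j, c j ∈ Sym.Om (2 * H.Λ) R ∧ (c j).im = 0 ∧ ‖c j‖ ≤ H.δ₁ / R ^ 2

/-- the standing hypotheses -/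
structure Ctx (H : EF F) (χ : Fin q ⊕ Fin F.D.m → E3 → ℝ) (val : Z →ₗ[ℂ] E3 → ℂ)
    (tr : Un F q Z →L[ℂ] JJ F.D → AA) (ρ R0 r C : ℝ) (s : ℝ → Nm.X q F.D.m → Un F q Z)
    (si : (Fin q → ℂ) → Un F q Z) (T : Nm.X q F.D.m → Un F q Z) (δ : ℝ) : Prop where
  ok : F.OK
  ch : Charts S F.D
  geo : Core.Geo S F.C0 F.Kc
  cr : F.Cr 0 = Ft.core F.D (F.z₀ + 11) F.ya 0
  hok : H.OK
  sp : Sp χ val tr
  good : GoodAt (F := F) (q := q) val ρ
  red : Red H χ val tr ρ R0 r C s si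
  lim : ∀ b, ‖b‖ < r → Tendsto (fun R => s R (b, 0)) atTop (𝓝 (T (b, 0)))
  cont : ContinuousAt (Nm.glue δ s T) 0
  δ0 : 0 < δ
  δ1 : δ ≤ 1 / 2
  δ2 : δ ≤ H.δ₁

theorem norm_σ (h : F.OK) (j : JJ F.D) : ‖(F.σ j : ℂ)‖ = 1 := by
  rcases h.sign j with e | e <;> simp [e]

theorem g_sub (h : F.OK) (t : JJ F.D → AA) (j : JJ F.D) : ‖H.g t j - H.g0 j‖ ≤ ‖t‖ := by
  rw [EF.g, add_sub_cancel_left, norm_smul, norm_σ h, one_mul]
  exact norm_le_pi_norm t j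

theorem ev_g0 (h : H.OK) (j : JJ F.D) (θ : ℝ) : (Wien.ev 2 ℂ θ (H.g0 j)).im = 0 := by
  rcases j with j | i
  · rw [(h.cyl j).ev0, Complex.ofReal_im]
  · rw [(h.cone i).ev0, Complex.ofReal_im]

section pt

variable (c : Ctx H χ val tr ρ R0 r C s si T δ) {R1 ε : ℝ} {b : Fin q → ℂ} {u : Un F q Z}
  {e : JJ F.D → P2 → ℂ} (h : Pt H χ val tr ρ R1 b u e ε)
include c h

theorem Pt.mem (j : JJ F.D) : H.g (tr u) j ∈ ball (H.g0 j) H.δ :=
  mem_ball_iff_norm.2 (((g_sub c.ok _ j).trans h.sol.trn).trans_lt c.red.rho)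

theorem Pt.reA (j : JJ F.D) : ReA (H.g (tr u) j) := fun θ => by
  have h1 := h.re.2 _ (Or.inl ((c.geo.mem j (0, θ) ⟨by norm_num, by norm_num⟩).2 le_rfl))
  rw [EF.g, map_add, map_smul, c.sp.tr, Complex.add_im, ev_g0 c.hok, smul_eq_mul,
    Complex.im_ofReal_mul, h1]
  simp

theorem Pt.cyl (j : Fin F.D.m) :
    EndOn F.D (.inl j) {z | F.z₀ + 11 < z ∧ ε * z < 1} (e (.inl j)) ∧
      ∀ p : P2, F.z₀ + 11 < p.1 → ε * p.1 < 1 → CylSm H.ε (e (.inl j)) p := by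
  have ho : IsOpen {z : ℝ | F.z₀ + 11 < z ∧ ε * z < 1} :=
    isOpen_Ioi.inter (isOpen_lt (continuous_const.mul continuous_id) continuous_const)
  have hm := h.mem c (.inl j)
  have hr := h.reA c (.inl j)
  have k := c.hok.cyl j
  rcases h.alt with ⟨-, rfl⟩ | ⟨R, v, -, h1, rfl, h2, rfl, h3⟩
  · exact ⟨⟨ho, k.per _ hm, fun p hp => (k.c2 _ hm).contDiffAt
      (prod_mem_nhds (Ioi_mem_nhds hp.1) univ_mem), fun p hp => (k.real _ hm hr).1 p hp.1.le,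
      fun p hp => k.eq _ hm p hp.1⟩, fun p hp _ => k.smalli _ hm p hp⟩
  · have h4 : ∀ z : ℝ, R⁻¹ * z < 1 → z < R := fun z hz => by
      rwa [inv_mul_lt_iff₀ h2, mul_one] at hz
    exact ⟨⟨ho, k.fper R h1 _ hm _ (h3 j).1, fun p hp => (k.fc2 R h1 _ hm _ (h3 j).1).contDiffAt
      (prod_mem_nhds (Icc_mem_nhds hp.1 (h4 _ hp.2)) univ_mem),
      fun p hp => (k.freal R h1 _ hm _ (h3 j).1 hr (h3 j).2.1).1 p hp.1.le (h4 _ hp.2).le,
      fun p hp => (k.feq R h1 _ hm _ (h3 j).1 p hp.1 (h4 _ hp.2)).2.1⟩,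
      fun p hp hp' => k.x6 R h1 _ hm _ (h3 j).1 (h3 j).2.2 p hp (h4 _ hp')⟩

omit c in
theorem Pt.e_inr (i : Fin F.D.k) : e (.inr i) = H.ei (.inr i) (H.g (tr u) (.inr i)) := by
  rcases h.alt with ⟨-, rfl⟩ | ⟨R, v, -, -, -, -, rfl, -⟩ <;> rfl

theorem Pt.cone (i : Fin F.D.k) : EndOn F.D (.inr i) (Ioi F.ya) (e (.inr i)) ∧
    ∀ p : P2, F.ya < p.1 → ConeSm H.ε (scl (e (.inr i))) p := by
  have hm := h.mem c (.inr i)
  have k := c.hok.cone i
  rw [h.e_inr i]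
  exact ⟨⟨isOpen_Ioi, k.per _ hm, fun p hp => (k.c2 _ hm).contDiffAt
    (prod_mem_nhds (Ioi_mem_nhds hp) univ_mem),
    fun p hp => (k.real _ hm (h.reA c _)).1 p (le_of_lt hp), fun p hp => k.eq _ hm p hp⟩,
    k.small _ hm⟩

theorem Pt.den_eq {φ : P2 → E3} {y : P2} (hP : Par S φ y) (hy : φ y ∈ F.C0) :
    den S (lagD (F.Y (val u.1) (F.tl u.2))) (φ y) =
      (lagR (fun t => Φ val u (φ t)) y / ael φ y : ℝ) := by
  have h1 := (c.good u h.sol.norm _ hy).1.mono one_le_two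
  rw [LS.den_eq (inv_lag par_proof c.geo.surf h1) hP, lagD, lag_real (h1.diff hP rfl)
    ((OpP.par_mo par_proof c.geo hP (Or.inl hy)).mono fun t ht => cE_Φ h.re ht)]
  push_cast
  rfl

omit h in
theorem Ctx.core_eq : Ft.core F.D (F.z₀ + 11) F.ya 0 = F.C0 := by
  rw [← c.cr]
  simp [Frm.Cr, Frm.C0]

omit h in
theorem Ctx.restrict : (area S).restrict F.C0 = (μHE[2] : Measure E3).restrict F.C0 := by
  rw [area, Measure.restrict_restrict c.geo.cpt.measurableSet, inter_eq_left.2 c.geo.sub]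

theorem Pt.den :
    IntegrableOn (fun p => (den S (lagD (F.Y (val u.1) (F.tl u.2))) p).re) F.C0 (area S) ∧
    ∀ p ∈ F.C0, ∃ φ y, Par S φ y ∧ φ y = p ∧ (den S (lagD (F.Y (val u.1) (F.tl u.2))) p).re *
      ‖rn (fderiv ℝ φ y)‖ = lagR (fun t => Φ val u (φ t)) y := by
  refine ⟨?_, fun p hp => ?_⟩
  · rw [IntegrableOn, c.restrict]
    exact integrableOn_core par_proof c.geo.surf c.geo.sub c.geo.cpt
      (Complex.continuous_re.comp_continuousOn (cont_lag par_proof c.geo.surf c.geo.sub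
        fun x hx => ⟨(c.good u h.sol.norm x hx).1.mono one_le_two, (c.good u h.sol.norm x hx).2⟩))
  · obtain ⟨φ, y, hP, rfl⟩ := (par_proof S c.geo.surf).1 p (c.geo.sub hp)
    refine ⟨φ, y, hP, rfl, ?_⟩
    rw [h.den_eq c hP hp, Complex.ofReal_re]
    exact div_mul_cancel₀ _ (ael_pos hP).ne'

theorem Pt.en : (F.en ε (val u.1) (F.tl u.2) e).re =
    (∫ p in F.C0, (LS.den S (lagD (F.Y (val u.1) (F.tl u.2))) p).re ∂(area S)) +
      (∑ j, ∫ v in {z | F.z₀ + 11 < z ∧ ε * z < 1} ×ˢ Ioc 0 (2 * π),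
        lagR (YR F.D (.inl j) (e (.inl j))) v) +
      ∑ i, ∫ v in Ioi F.ya ×ˢ Ioc 0 (2 * π), lagR (YR F.D (.inr i) (e (.inr i))) v := by
  have h1 : Ec S F.C0 (F.Y (val u.1) (F.tl u.2)) =
      (∫ p in F.C0, (LS.den S (lagD (F.Y (val u.1) (F.tl u.2))) p).re ∂(area S) : ℝ) := by
    rw [c.restrict, ← integral_complex_ofReal]
    refine setIntegral_congr_fun c.geo.cpt.measurableSet fun p hp => (re_eq ?_).symm
    obtain ⟨φ, y, hP, rfl⟩ := (par_proof S c.geo.surf).1 p (c.geo.sub hp)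
    rw [h.den_eq c hP hp, Complex.ofReal_im]
  have h2 : {z : ℝ | F.ya < z ∧ 0 * z < 1} = Ioi F.ya := by ext; simp
  simp only [Frm.en, Estr, h1, h2, fun j => (h.cyl c j).1.area c.ch,
    fun i => (h.cone c i).1.area c.ch, Complex.add_re, Complex.re_sum, Complex.ofReal_re]

end pt

/-! ### The family -/

section fam

variable (c : Ctx H χ val tr ρ R0 r C s si T δ)
include c

theorem Ctx.T_eq {b : Fin q → ℂ} (hb : ‖b‖ < r) : T (b, 0) = si b :=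
  tendsto_nhds_unique (c.lim b hb) (c.red.lim b hb)

theorem Ctx.tends : Tendsto (fun x : XR q F.D.m => Nm.glue δ s T (ofR x)) (𝓝 0) (𝓝 0) := by
  have h : Nm.glue δ s T 0 = 0 := by
    rw [Nm.glue, if_pos Prod.snd_zero]
    exact (c.T_eq (b := 0) (by simpa using c.red.fam.rpos)).trans c.red.zero
  exact h ▸ c.cont.tendsto.comp tendsto_ofR

/-- the two cases `c = 0` and `c ≠ 0` -/
theorem Ctx.alt (R1 r1 : ℝ) (hr : 0 < r1) : ∀ᶠ x : XR q F.D.m in 𝓝 0,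
    ‖(ofR x).1‖ < r ∧ ‖(ofR x).1‖ < r1 ∧
    ((x.2 = 0 ∧ Nm.glue δ s T (ofR x) = si (ofR x).1 ∧ H.eG δ (ofR x) = H.eI) ∨
      ∃ R, R1 ≤ R ∧ R0 ≤ R ∧ 1 ≤ R ∧ ‖(ofR x).2‖ = δ / R ^ 2 ∧ √(‖x.2‖ / δ) = R⁻¹ ∧
        ofR x ∈ Nm.dom q F.D.m r (Sym.Om (2 * H.Λ) R) ∧ Nm.glue δ s T (ofR x) = s R (ofR x) ∧
        H.eG δ (ofR x) = H.eR R (ofR x).2) := by
  obtain ⟨C₀, R₀, cc, hI, h1, h2⟩ := c.hok.inv
  have hδ := c.δ0
  have hR0 : 1 ≤ R0 := h1.trans (h2.trans c.red.big)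
  set R2 := max R1 R0 with hR2
  have hR2' : 0 < R2 := by linarith [le_max_right R1 R0]
  filter_upwards [ball_mem_nhds (0 : XR q F.D.m)
    (lt_min (lt_min c.red.fam.rpos hr) (show 0 < δ / R2 ^ 2 by positivity))] with x hx
  rw [mem_ball_zero_iff, lt_min_iff, lt_min_iff] at hx
  have hb : ‖(ofR x).1‖ < r := by rw [norm_ofR1]; exact (norm_fst_le x).trans_lt hx.1.1
  refine ⟨hb, by rw [norm_ofR1]; exact (norm_fst_le x).trans_lt hx.1.2, ?_⟩
  by_cases h0 : (ofR x).2 = 0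
  · refine Or.inl ⟨norm_eq_zero.1 (by rw [← norm_ofR2, h0, norm_zero]), ?_, ?_⟩
    · rw [Nm.glue, if_pos h0, ← c.T_eq hb, ← h0]
    · funext t
      rw [EF.eG, if_pos h0]
  · have h3 := norm_pos_iff.2 h0
    have h4 : R2 ≤ Nm.Rof δ (ofR x) := by
      refine Real.le_sqrt_of_sq_le ?_
      have := ((norm_snd_le x).trans_lt hx.2).le
      rw [le_div_iff₀ h3, norm_ofR2, mul_comm]
      rwa [le_div_iff₀ (by positivity)] at this
    have h5 : R0 ≤ Nm.Rof δ (ofR x) := (le_max_right _ _).trans h4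
    have h6 : ‖(ofR x).2‖ = δ / Nm.Rof δ (ofR x) ^ 2 := by
      rw [Nm.Rof, Real.sq_sqrt (by positivity)]
      field_simp
    refine Or.inr ⟨Nm.Rof δ (ofR x), (le_max_left _ _).trans h4, h5, hR0.trans h5, h6, ?_,
      ⟨hb, fun j => ?_⟩, if_neg h0, funext fun t => if_neg h0⟩
    · rw [Nm.Rof, ← Real.sqrt_inv, inv_div, norm_ofR2]
    · have h7 : (ofR x).2 j ∈ Sym.Om (8 * H.Λ) (Nm.Rof δ (ofR x)) := by
        refine hI.small _ (h2.trans (c.red.big.trans h5)) (mem_ball_zero_iff.2 ?_)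
        refine ((norm_le_pi_norm _ j).trans_eq h6).trans_lt ?_
        have : 0 < Nm.Rof δ (ofR x) := by linarith
        gcongr
        linarith [c.δ1]
      refine ball_subset_ball ?_ h7
      have := c.hok.lam
      gcongr
      norm_num

theorem Ctx.pt (R1 : ℝ) : ∀ᶠ x : XR q F.D.m in 𝓝 0, Pt H χ val tr ρ R1 (ofR x).1
    (Nm.glue δ s T (ofR x)) (H.eG δ (ofR x) (tr (Nm.glue δ s T (ofR x)))) √(‖x.2‖ / δ) := by
  filter_upwards [c.alt R1 1 one_pos] with x ⟨hb, _, hx⟩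
  rcases hx with ⟨h0, h1, h2⟩ | ⟨R, h1, h2, h3, h4, h5, h6, h7, h8⟩
  · rw [h1, h2]
    obtain ⟨k1, k2⟩ := c.red.soli _ hb (isRe_ofR x).1
    exact ⟨k1, k2, Or.inl ⟨by simp [h0], rfl⟩⟩
  · rw [h7, h8]
    refine ⟨c.red.sol R h2 _ h6, c.red.real R h2 _ h6 (isRe_ofR x), Or.inr ⟨R, _, h1,
      c.red.big.trans h2, h5, by linarith, rfl, fun j => ⟨h6.2 j, (isRe_ofR x).2 j, ?_⟩⟩⟩
    refine ((norm_le_pi_norm _ j).trans_eq h4).trans ?_
    gcongr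
    exact c.δ2

theorem Ctx.tr_small {η : ℝ} (hη : 0 < η) :
    ∀ᶠ x : XR q F.D.m in 𝓝 0, |H.C| * ‖tr (Nm.glue δ s T (ofR x))‖ < η := by
  have h := (((tr.continuous.tendsto 0).comp c.tends).norm).const_mul |H.C|
  rw [map_zero, norm_zero, mul_zero] at h
  exact h.eventually (gt_mem_nhds hη)

variable (Dz : Nm.X q F.D.m →L[ℂ] Un F q Z)

theorem Ctx.cyl : let d := famData H χ val tr δ (Nm.glue δ s T) Dz
    ∀ᶠ x in 𝓝 (0 : XR q F.D.m), ∀ j, (∀ v : P2, d.e x j (v.1, v.2 + 2 * π) = d.e x j v) ∧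
    ∀ v : P2, d.z₁ < v.1 → d.ε x * v.1 < 1 → ContDiffAt ℝ 2 (d.e x j) v ∧
      ‖jet2 (fun t => d.e x j t - √2) v‖ ≤ 1 / 10 ∧ |v.1 * fderiv ℝ (d.e x j) v (1, 0)| ≤ 1 ∧
      ShrR (cylY (F.D.a j) (F.D.b j) (F.D.c j) (d.e x j)) (cylV (F.D.a j) (F.D.b j)) v := by
  filter_upwards [c.pt 0] with x hx j
  obtain ⟨h1, h2⟩ := hx.cyl c j
  refine ⟨fun v => congrArg Complex.re (h1.per v), fun v k1 k2 => ?_⟩
  obtain ⟨h3, h4⟩ := cylSm_re (h1.c2 v ⟨k1, k2⟩) (h2 v k1 k2)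
  have h5 := c.hok.eps.2
  exact ⟨cd_re (h1.c2 v ⟨k1, k2⟩), h3.trans h5, h4.trans (by linarith),
    (cylY_eq F.D j _).symm ▸ h1.shrR c.ch ⟨k1, k2⟩⟩

theorem Ctx.cyl0 : let d := famData H χ val tr δ (Nm.glue δ s T) Dz
    ∀ A η : ℝ, 0 < η → ∀ᶠ x in 𝓝 (0 : XR q F.D.m), ∀ j (v : P2), d.z₁ < v.1 → v.1 ≤ A →
      |d.e x j v - F.D.r j v| ≤ η := by
  intro d A η hη
  refine eventually_all.2 fun j => ?_
  have k := c.hok.cyl j
  obtain ⟨R₁, hR⟩ := k.x7 (A + 1) (η / 2) (half_pos hη)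
  filter_upwards [c.pt R₁, c.tr_small (half_pos hη)] with x hx hs v h1 h2
  have hm := hx.mem c (.inl j)
  have h3 := (norm_fst_le _).trans (k.lipi _ (mem_ball_self k.δpos) _ hm v h1)
  have h4 : H.C * ‖H.g (tr (Nm.glue δ s T (ofR x))) (.inl j) - H.g0 (.inl j)‖ ≤
      |H.C| * ‖tr (Nm.glue δ s T (ofR x))‖ :=
    mul_le_mul (le_abs_self _) (g_sub c.ok _ _) (norm_nonneg _) (abs_nonneg _)
  simp only [jet1, Prod.fst_sub, k.base v h1.le] at h3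
  have h5 : ‖H.eG δ (ofR x) (tr (Nm.glue δ s T (ofR x))) (.inl j) v -
      H.ei (.inl j) (H.g (tr (Nm.glue δ s T (ofR x))) (.inl j)) v‖ ≤ η / 2 := by
    rcases hx.alt with ⟨-, e⟩ | ⟨R, w, k1, -, -, -, e, k2⟩ <;> rw [e]
    · simp only [EF.eI, sub_self, norm_zero]; linarith
    · exact (norm_fst_le _).trans ((hR R k1 _ hm _ (k2 j).1).2 v h1 (by linarith))
  have h6 := norm_sub_le_norm_sub_add_norm_sub
    (H.eG δ (ofR x) (tr (Nm.glue δ s T (ofR x))) (.inl j) v)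
    (H.ei (.inl j) (H.g (tr (Nm.glue δ s T (ofR x))) (.inl j)) v) (gS F.D (.inl j) v)
  have h7 := Complex.abs_re_le_norm
    (H.eG δ (ofR x) (tr (Nm.glue δ s T (ofR x))) (.inl j) v - gS F.D (.inl j) v)
  rw [Complex.sub_re, Complex.ofReal_re] at h7
  exact h7.trans (by linarith)

theorem Ctx.cylGlue : let d := famData H χ val tr δ (Nm.glue δ s T) Dz
    ∀ᶠ x in 𝓝 (0 : XR q F.D.m), ∀ j (v : P2), v.1 ∈ Ioo d.z₁ (d.z₁ + 3) →
      d.Φ x (cylY (F.D.a j) (F.D.b j) (F.D.c j) (F.D.r j) v) =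
        d.Q x j (cylY (F.D.a j) (F.D.b j) (F.D.c j) (d.e x j) v) := by
  filter_upwards [c.pt 0] with x hx j v hv
  have h1 := Φ_eq (val := val) (Nm.glue δ s T (ofR x)) (Kd F.D (.inl j) v)
  rw [glue_pt c.ok hx.sol.glue (.inl j) hv, omR_cyl c.ok c.ch _ j hv.1.le, ← cylY_eq,
    Kd_inl] at h1
  exact h1

theorem Ctx.cone : let d := famData H χ val tr δ (Nm.glue δ s T) Dz
    ∀ᶠ x in 𝓝 (0 : XR q F.D.m), ∀ i, (∀ v : P2, d.g x i (v.1, v.2 + 2 * π) = d.g x i v) ∧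
    ∀ v : P2, d.y₁ < v.1 → ContDiffAt ℝ 2 (d.g x i) v ∧ ‖jet2 (d.g x i) v‖ ≤ H.ε ∧
      ShrR (coneY (F.D.γ i) (F.D.n i) (d.g x i)) (fun t => F.D.n i t.2) v := by
  filter_upwards [c.pt 0] with x hx i
  obtain ⟨h1, h2⟩ := hx.cone c i
  refine ⟨fun v => congrArg Complex.re (congrArg (HMul.hMul _) (h1.per v)), fun v k => ?_⟩
  have h3 : ContDiffAt ℝ 2 (scl (H.eG δ (ofR x) (tr (Nm.glue δ s T (ofR x))) (.inr i))) v :=
    ContDiffAt.mul (Complex.ofRealCLM.contDiff.comp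
      (Real.contDiff_exp.comp contDiff_fst.neg)).contDiffAt (h1.c2 v k)
  exact ⟨cd_re h3, (jet2_re h3).trans (h2 v k).1, (coneY_eq F.D i _).symm ▸ h1.shrR c.ch k⟩

theorem Ctx.cone0 : let d := famData H χ val tr δ (Nm.glue δ s T) Dz
    ∀ A η : ℝ, 0 < η → ∀ᶠ x in 𝓝 (0 : XR q F.D.m), ∀ i (v : P2), d.y₁ < v.1 → v.1 ≤ A →
      |d.g x i v - F.D.ψ i v| ≤ η := by
  intro d A η hη
  filter_upwards [c.pt 0, c.tr_small hη] with x hx hs i v h1 _
  have k := c.hok.cone i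
  have h3 := (norm_fst_le _).trans (k.lip _ (mem_ball_self k.δpos) _ (hx.mem c (.inr i)) v h1)
  have h4 : H.C * ‖H.g (tr (Nm.glue δ s T (ofR x))) (.inr i) - H.g0 (.inr i)‖ ≤
      |H.C| * ‖tr (Nm.glue δ s T (ofR x))‖ :=
    mul_le_mul (le_abs_self _) (g_sub c.ok _ _) (norm_nonneg _) (abs_nonneg _)
  have h5 : scl (H.ei (.inr i) (H.g0 (.inr i))) v = F.D.ψ i v := by
    rw [scl, k.base v h1.le, gS, ← Complex.ofReal_mul, ← mul_assoc, ← Real.exp_add,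
      neg_add_cancel, Real.exp_zero, one_mul]
  simp only [jet1, Prod.fst_sub, h5, ← hx.e_inr i] at h3
  have h7 := Complex.abs_re_le_norm
    (scl (H.eG δ (ofR x) (tr (Nm.glue δ s T (ofR x))) (.inr i)) v - F.D.ψ i v)
  rw [Complex.sub_re, Complex.ofReal_re] at h7
  exact h7.trans (by linarith)

theorem Ctx.coneGlue : let d := famData H χ val tr δ (Nm.glue δ s T) Dz
    ∀ᶠ x in 𝓝 (0 : XR q F.D.m), ∀ i (v : P2), v.1 ∈ Ioo d.y₁ (d.y₁ + 3) →
      d.Φ x (coneY (F.D.γ i) (F.D.n i) (F.D.ψ i) v) = coneY (F.D.γ i) (F.D.n i) (d.g x i) v := by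
  filter_upwards [c.pt 0] with x hx i v hv
  have h1 := Φ_eq (val := val) (Nm.glue δ s T (ofR x)) (Kd F.D (.inr i) v)
  rw [glue_pt c.ok hx.sol.glue (.inr i) hv, omR_cone c.ok c.ch _ i hv.1.le, rotR_zero,
    ← coneY_eq, Kd_inr] at h1
  exact h1

theorem Ctx.den : let d := famData H χ val tr δ (Nm.glue δ s T) Dz
    ∀ᶠ x in 𝓝 (0 : XR q F.D.m), IntegrableOn (d.den x) (core F.D d.z₁ d.y₁ 0) (area S) ∧
    ∀ p ∈ core F.D d.z₁ d.y₁ 0, ∃ φ y, Par S φ y ∧ φ y = p ∧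
      d.den x p * ‖rn (fderiv ℝ φ y)‖ = lagR (fun t => d.Φ x (φ t)) y := by
  filter_upwards [c.pt 0] with x hx
  have h := hx.den c
  rw [← c.core_eq] at h
  exact h

theorem Ctx.act : let d := famData H χ val tr δ (Nm.glue δ s T) Dz
    ∀ᶠ x in 𝓝 (0 : XR q F.D.m), d.act x = (F.en (d.ε x) (val (Nm.glue δ s T (ofR x)).1)
      (F.tl (Nm.glue δ s T (ofR x)).2) (H.eG δ (ofR x) (tr (Nm.glue δ s T (ofR x))))).re := by
  filter_upwards [c.pt 0] with x hx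
  have h := hx.en c
  simp only [← cylY_eq, ← coneY_eq] at h
  rw [← c.core_eq] at h
  exact h.symm

end fam

/-! ### The Lojasiewicz inequality -/

theorem kap_le {u : Un F q Z} (hu : ReU val u) :
    ‖fun i => -u.2 (.inl (.inl i))‖ + ‖fun j => -u.2 (.inl (.inr j))‖ ≤
      2 * ‖fun i => -(u.2 (.inl i)).re‖ := by
  have h : ∀ i, ‖-u.2 (.inl i)‖ ≤ ‖fun i => -(u.2 (.inl i)).re‖ := fun i => by
    refine le_trans (le_of_eq ?_) (norm_le_pi_norm (fun i => -(u.2 (.inl i)).re) i)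
    rw [norm_neg, norm_neg, ← Complex.norm_real, re_eq (hu.1 _)]
  have h1 := (pi_norm_le_iff_of_nonneg (norm_nonneg _)).2 fun i => h (.inl i)
  have h2 := (pi_norm_le_iff_of_nonneg (norm_nonneg _)).2 fun j => h (.inr j)
  linarith

theorem re_le_of_rpow {z : ℂ} {a β K k : ℝ} (hβ : 1 < β) (hK : 0 ≤ K) (hk : 0 ≤ k)
    (h : ‖z - a‖ ^ (1 / β) ≤ K * k) : z.re - a ≤ K ^ β * k ^ β := by
  have h1 := Real.rpow_le_rpow (by positivity) h (by linarith : 0 ≤ β)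
  rw [one_div, Real.rpow_inv_rpow (norm_nonneg _) (by linarith), Real.mul_rpow hK hk] at h1
  simpa using (Complex.re_le_norm (z - a)).trans h1

theorem loj (hF : F.OK) (hne : S.Nonempty) (hH : H.OK) (hsp : Sp χ val tr)
    (hg : GoodAt (F := F) (q := q) val ρ) (hred : Red H χ val tr ρ R0 r C s si)
    {Dz : Nm.X q F.D.m →L[ℂ] Un F q Z} (hP : PLim r s T Dz)
    {tau : ℝ → Nm.X q F.D.m → Fin F.D.m → (Fin 2 → ℂ) →L[ℂ] ℂ}
    {main : ℝ → Nm.X q F.D.m → Fin F.D.m → ℂ} {C' : ℝ}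
    (hE : EnOut H.Λ R0 r C' H.Y (lsf H χ val tr s tau main)
      (fun b => F.en 0 (val (si b).1) (F.tl (si b).2) (H.eI (tr (si b)))) (∫ p, gw p ∂(area S)))
    (hK : Nm.KLInt (lsf H χ val tr s tau main)) :
    ∃ (δ₀ : ℝ) (M : ℕ) (β : ℝ), 0 < δ₀ ∧ δ₀ ≤ 1 / 4 ∧ δ₀ ≤ H.δ₁ ∧ 1 < β ∧ ∀ δ, 0 < δ → δ ≤ δ₀ →
      Ctx H χ val tr ρ R0 r C s si T δ ∧ ∃ L : ℝ,
      (∀ᶠ x in 𝓝 (0 : XR q F.D.m), 0 ≤ (famData H χ val tr δ (Nm.glue δ s T) Dz).ε x ∧
        (famData H χ val tr δ (Nm.glue δ s T) Dz).ε x ^ M ≤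
          L * ‖(famData H χ val tr δ (Nm.glue δ s T) Dz).kap x‖) ∧
      ∀ᶠ x in 𝓝 (0 : XR q F.D.m), (famData H χ val tr δ (Nm.glue δ s T) Dz).act x -
        ∫ p, P218.H313.rho p ∂(area S) ≤
          L * ‖(famData H χ val tr δ (Nm.glue δ s T) Dz).kap x‖ ^ β := by
  obtain ⟨M, β, r₁, δ₀, fs, hβ, hr₁, hδ₀, hfs, hK⟩ := hK
  have hfs' : fs = (∫ p, gw p ∂(area S) : ℝ) := (tendsto_nhds_unique hfs
    (hE.lim 0 (by simpa using hred.fam.rpos) fun _ => rfl)).trans hE.base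
  subst hfs'
  refine ⟨min (min (1 / 4) H.δ₁) δ₀, 2 * M + 1, β, lt_min (lt_min (by norm_num) hH.δ₁pos) hδ₀,
    (min_le_left _ _).trans (min_le_left _ _), (min_le_left _ _).trans (min_le_right _ _), hβ,
    fun δ h0 h1 => ?_⟩
  obtain ⟨⟨h2, h3⟩, h4⟩ : (δ ≤ 1 / 4 ∧ δ ≤ H.δ₁) ∧ δ ≤ δ₀ := by simpa only [le_min_iff] using h1
  have hG := geo_proof S F hF hne
  have c : Ctx H χ val tr ρ R0 r C s si T δ := ⟨hF, chart_proof S F.D hG.1.surf, hG.1, hG.2.2.1 0,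
    hH, hsp, hg, hred, hP.lim, (hP.strict δ h0 (by linarith)).continuousAt, h0, by linarith, h3⟩
  obtain ⟨K, R1, hK⟩ := hK δ h0 h4 (2 * M + 1)
  refine ⟨c, 2 * |K| + (2 * |K| * (1 + |K|)) ^ β, ?_⟩
  rw [← eventually_and]
  filter_upwards [c.alt R1 r₁ hr₁, c.pt 0, c.act Dz] with x ⟨hb, hb1, hx⟩ hp ha
  have k1 := kap_le hp.re
  rw [ha]
  change (0 ≤ √(‖x.2‖ / δ) ∧ √(‖x.2‖ / δ) ^ (2 * M + 1) ≤
      _ * ‖fun i => -((Nm.glue δ s T (ofR x)).2 (.inl i)).re‖) ∧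
    (F.en √(‖x.2‖ / δ) _ _ _).re - ∫ p, gw p ∂(area S) ≤
      _ * ‖fun i => -((Nm.glue δ s T (ofR x)).2 (.inl i)).re‖ ^ β
  generalize hk : ‖fun i => -((Nm.glue δ s T (ofR x)).2 (.inl i)).re‖ = k at k1 ⊢
  have k0 : 0 ≤ k := hk ▸ norm_nonneg _
  have p1 : 0 ≤ (2 * |K| * (1 + |K|)) ^ β * k := by positivity
  have p2 : 0 ≤ 2 * |K| * k ^ β := by positivity
  have p3 : 0 ≤ |K| * k := by positivity
  have p4 : 0 ≤ |K| * (|K| * k) := by positivity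
  suffices h : √(‖x.2‖ / δ) ^ (2 * M + 1) ≤ 2 * |K| * k ∧
      ‖F.en √(‖x.2‖ / δ) (val (Nm.glue δ s T (ofR x)).1) (F.tl (Nm.glue δ s T (ofR x)).2)
        (H.eG δ (ofR x) (tr (Nm.glue δ s T (ofR x)))) - (∫ p, gw p ∂(area S) : ℝ)‖ ^ (1 / β) ≤
          2 * |K| * (1 + |K|) * k by
    have := re_le_of_rpow hβ (by positivity) k0 h.2
    exact ⟨⟨Real.sqrt_nonneg _, by linarith [h.1]⟩, by linarith⟩
  rcases hx with ⟨e0, e1, e2⟩ | ⟨R, r1, -, r2, r3, r4, -, e1, e2⟩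
  · rw [e1] at k1
    rw [e1, e2, e0, norm_zero, zero_div, Real.sqrt_zero, zero_pow (Nat.succ_ne_zero _)]
    refine ⟨by positivity, ?_⟩
    have t0 := (continuous_snd.tendsto _).comp (hred.lim _ hb)
    have t1 : Tendsto (fun R => (lsf H χ val tr s tau main).kap R ((ofR x).1, 0)) atTop
        (𝓝 fun i => -(si (ofR x).1).2 (.inl (.inl i))) :=
      tendsto_pi_nhds.2 fun i => (tendsto_pi_nhds.1 t0 _).neg
    have t2 : Tendsto (fun R => (lsf H χ val tr s tau main).mu R ((ofR x).1, 0)) atTop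
        (𝓝 fun j => -(si (ofR x).1).2 (.inl (.inr j))) :=
      tendsto_pi_nhds.2 fun j => (tendsto_pi_nhds.1 t0 _).neg
    have t3 : Tendsto (fun R : ℝ => 1 / R ^ (2 * M + 1)) atTop (𝓝 0) :=
      tendsto_const_nhds.div_atTop (tendsto_pow_atTop (Nat.succ_ne_zero _))
    have t4 := le_of_tendsto_of_tendsto ((((hE.lim _ hb (isRe_ofR x).1).sub_const
      ((∫ p, gw p ∂(area S) : ℝ) : ℂ)).norm).rpow_const (p := 1 / β) (Or.inr (by positivity)))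
      (((t1.norm.add t2.norm).add t3).const_mul K) ((eventually_ge_atTop R1).mono fun R hR =>
        (hK R hR ((ofR x).1, 0) ⟨(isRe_ofR x).1, fun _ => rfl⟩ hb1
          (by rw [norm_zero]; positivity)).1)
    rw [add_zero] at t4
    have t5 := t4.trans (mul_le_mul (le_abs_self K) k1 (by positivity) (abs_nonneg K))
    linarith
  · rw [e1] at k1
    rw [e1, e2, r4]
    obtain ⟨t1, t2⟩ := hK R r1 (ofR x) (isRe_ofR x) hb1 r3.le
    have t3 := (t2 (by rw [r3]; gcongr; linarith [sq_nonneg R])).trans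
      (mul_le_mul (le_abs_self K) k1 (by positivity) (abs_nonneg K))
    have t4 : 1 / R ^ (2 * M + 1) ≤ 1 / R ^ (2 * M) :=
      one_div_le_one_div_of_le (by positivity) (pow_le_pow_right₀ r2 (Nat.le_succ _))
    have t5 := t1.trans (mul_le_mul (le_abs_self K) (add_le_add k1 (t4.trans t3))
      (by positivity) (abs_nonneg K))
    refine ⟨by rw [inv_pow, ← one_div]; linarith, le_trans t5 (le_of_eq (by ring))⟩

end Vale.Agent.P218F.LS.RB
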