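import Vale.Agent.P218F.LSRealA
import Vale.Agent.P218F.LSRealB

/-! Block REAL of the reduction. -/

namespace Vale.Agent.P218F.LS

theorem real_proof : RealStmt := by
  intro S F hF hne H hH q χ hχ Z _ _ val tr hsp ρ R0 r C s si hg hred T Dz hP hN tau main C' hE hK
  obtain ⟨δ, M, β, h0, h1, h2, hβ, h3⟩ := RB.loj hF hne hH hsp hg hred hP hE hK
  obtain ⟨-, L, h4, h5⟩ := h3 δ h0 le_rfl
  exact ⟨δ, L, M, β, AdIn.fam ⟨hF, hne, hH, hχ, hsp, hred, hP, hN, h0, h1, h2⟩ hβ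
    (h4.mono fun _ hx => hx.2) h5⟩

end Vale.Agent.P218F.LS
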