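import Vale.Agent.P218F.LSSpec
import Vale.Agent.P218F.DynStatic

/-!
# The reduction near a shrinker: assembly
-/

open MeasureTheory Set Filter Topology Metric Matrix
open scoped ContDiff RealInnerProductSpace Real

set_option maxSynthPendingDepth 3

noncomputable section

namespace Vale.Agent.P218F.LS

open Vale.Agent.P218FT hiding P2
open Vale.Agent.P218F.Core Vale.Agent.P218F.Ends Vale.Agent.P218F.Ft Vale.Agent.P218F.Mesh

section mono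

variable {B W : P2 → C3} {gr : P2 → ℝ} {s δ δ' C C' : ℝ} {g0 : AA} {ei : AA → P2 → ℂ}
  {lowi : AA → Fin 3 → ℂ} {e' : AA →ₗ[ℂ] P2 → ℂ} {low' : AA →L[ℂ] Fin 3 → ℂ}

theorem InfFam.mono (h : InfFam B W gr s δ C g0 ei lowi e' low') (h0 : 0 < δ') (hδ : δ' ≤ δ)
    (hC : C ≤ C') : InfFam B W gr s δ' C' g0 ei lowi e' low' :=
  have hb : ball g0 δ' ⊆ ball g0 δ := ball_subset_ball hδ
  { h with
    δpos := h0
    c2 := fun g hg => h.c2 g (hb hg)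
    cont := fun g hg => h.cont g (hb hg)
    per := fun g hg => h.per g (hb hg)
    eq := fun g hg => h.eq g (hb hg)
    pos := fun g hg => h.pos g (hb hg)
    mat := fun g hg => h.mat g (hb hg)
    real := fun g hg => h.real g (hb hg)
    hol := fun p h1 h2 => (h.hol p h1 h2).mono hb
    hlow := h.hlow.mono hb
    bd' := fun g p h1 h2 => (h.bd' g p h1 h2).trans (by gcongr)
    dev := fun g hg p h1 h2 => (h.dev g (hb hg) p h1 h2).trans (by gcongr)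
    devlow := fun g hg => (h.devlow g (hb hg)).trans (by gcongr) }

theorem ConeFam.mono {ε η η' : ℝ} (h : ConeFam B W gr ε s δ C η g0 ei e') (h0 : 0 < δ')
    (hδ : δ' ≤ δ) (hC : C ≤ C') (h1 : 0 < η') (hη : η' ≤ η) :
    ConeFam B W gr ε s δ' C' η' g0 ei e' :=
  have hb : ball g0 δ' ⊆ ball g0 δ := ball_subset_ball hδ
  { toInfFam := h.toInfFam.mono h0 hδ hC
    ηpos := h1
    small := fun g hg => h.small g (hb hg)
    marg := fun g hg p hp => le_trans (by gcongr) (h.marg g (hb hg) p hp)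
    lip := fun g hg g' hg' p hp => (h.lip g (hb hg) g' (hb hg') p hp).trans (by gcongr)
    glob' := fun g p hp => (h.glob' g p hp).trans (by gcongr) }

theorem CylFam.mono {Λ ε δ₁ δ₁' R0 R0' : ℝ} {Y : ℝ → ℂ → ℂ} {u : P2 → ℝ}
    {e : ℝ → AA → ℂ → P2 → ℂ} {low : ℝ → AA → ℂ → Fin 3 → ℂ}
    (h : CylFam B W gr Λ Y ε s δ δ₁ C R0 g0 ei lowi e' low' u e low) (h0 : 0 < δ') (hδ : δ' ≤ δ)
    (hC : C ≤ C') (h1 : 0 < δ₁') (hδ₁ : δ₁' ≤ δ₁) (hR : R0 ≤ R0') (hp : 0 ≤ R0') :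
    CylFam B W gr Λ Y ε s δ' δ₁' C' R0' g0 ei lowi e' low' u e low :=
  have hb : ball g0 δ' ⊆ ball g0 δ := ball_subset_ball hδ
  { toInfFam := h.toInfFam.mono h0 hδ hC
    δ₁pos := h1
    big := h.big.trans hR
    smalli := fun g hg => h.smalli g (hb hg)
    lipi := fun g hg g' hg' p hp => (h.lipi g (hb hg) g' (hb hg') p hp).trans (by gcongr)
    glob' := fun g p hp => (h.glob' g p hp).trans (by gcongr)
    jac := h.jac
    fc2 := fun R a g hg => h.fc2 R (hR.trans a) g (hb hg)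
    fper := fun R a g hg => h.fper R (hR.trans a) g (hb hg)
    feq := fun R a g hg c hc p b b' =>
      let ⟨x, y, z⟩ := h.feq R (hR.trans a) g (hb hg) c hc p b b'
      ⟨x, y, z.trans hC⟩
    neu := fun R a g hg => h.neu R (hR.trans a) g (hb hg)
    fmat := fun R a g hg => h.fmat R (hR.trans a) g (hb hg)
    freal := fun R a g hg => h.freal R (hR.trans a) g (hb hg)
    fhol := fun R a => ⟨fun p b b' => ((h.fhol R (hR.trans a)).1 p b b').mono (prod_mono_left hb),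
      (h.fhol R (hR.trans a)).2.mono (prod_mono_left hb)⟩
    x3 := fun R R' a b b' g hg c hc => by
      obtain ⟨x, y⟩ := h.x3 R R' (hR.trans a) b b' g (hb hg) c hc
      have e : C * (R' - R) * R ^ (-5 - 3 / 5 : ℝ) ≤ C' * (R' - R) * R ^ (-5 - 3 / 5 : ℝ) :=
        mul_le_mul_of_nonneg_right (mul_le_mul_of_nonneg_right hC (by linarith))
          (Real.rpow_nonneg (hp.trans a) _)
      exact ⟨x.trans e, fun p d d' => (y p d d').trans e⟩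
    x4 := fun R₁ a g₁ hg c₁ hc => by
      obtain ⟨M, η, ε₁, x, y, z⟩ := h.x4 R₁ (hR.trans a) g₁ (hb hg) c₁ hc
      refine ⟨M, η, ε₁, x, y, fun R b b' g d d' c f f' => ?_⟩
      obtain ⟨z1, z2⟩ := z R (hR.trans b) b' g (hb d) d' c f f'
      exact ⟨z1, fun R' k k' g' l => z2 R' k k' g' (hb l)⟩
    x5 := fun R a g hg c hc => (h.x5 R (hR.trans a) g (hb hg) c hc).trans
      (mul_le_mul_of_nonneg_right (mul_le_mul_of_nonneg_right hC (Real.rpow_nonneg (hp.trans a) _))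
        (Real.rpow_nonneg (norm_nonneg _) _))
    x6 := fun R a g hg c hc b => h.x6 R (hR.trans a) g (hb hg) c hc (b.trans (by gcongr))
    x7 := fun Z ε' a => by
      obtain ⟨R₁, x⟩ := h.x7 Z ε' a
      exact ⟨R₁, fun R b g hg => x R b g (hb hg)⟩
    x7W := h.x7W }

end mono

theorem exists_lower {ι : Type} [Finite ι] {f : ι → ℝ} (h : ∀ i, 0 < f i) :
    ∃ a, 0 < a ∧ ∀ i, a ≤ f i := by
  have : ∀ᶠ a in 𝓝[>] (0 : ℝ), ∀ i, a ≤ f i :=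
    eventually_all.2 fun i => nhdsWithin_le_nhds (ge_mem_nhds (h i))
  exact (eventually_mem_nhdsWithin.and this).exists

theorem exists_upper {ι : Type} [Finite ι] (f : ι → ℝ) (b : ℝ) : ∃ a, b ≤ a ∧ ∀ i, f i ≤ a :=
  ((eventually_ge_atTop b).and (eventually_all.2 fun i => eventually_ge_atTop (f i))).exists

theorem exists_EF {S : Set E3} (F : Frm S) {C₀ Λ R₀ ε : ℝ} {cc Y : ℝ → ℂ → ℂ}
    (hI : Sym.Inv C₀ Λ R₀ cc Y) (hΛ : 1 ≤ Λ) (hR : 1 ≤ R₀) (h0 : 0 < ε) (h1 : ε ≤ 1 / 10)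
    (hc : ∀ j, ∃ (δ δ₁ C R0 : ℝ) (g0 : AA) (ei : AA → P2 → ℂ) (lowi : AA → Fin 3 → ℂ)
      (e' : AA →ₗ[ℂ] P2 → ℂ) (low' : AA →L[ℂ] Fin 3 → ℂ) (u : P2 → ℝ)
      (e : ℝ → AA → ℂ → P2 → ℂ) (low : ℝ → AA → ℂ → Fin 3 → ℂ),
      CylFam (Bx F.D (.inl j)) (Wx F.D (.inl j)) (gS F.D (.inl j)) Λ Y ε (F.z₀ + 11) δ δ₁ C R0 g0 ei
        lowi e' low' u e low)
    (hk : ∀ i, ∃ (δ C η : ℝ) (g0 : AA) (ei : AA → P2 → ℂ) (e' : AA →ₗ[ℂ] P2 → ℂ),
      ConeFam (Bx F.D (.inr i)) (Wx F.D (.inr i)) (gS F.D (.inr i)) ε F.ya δ C η g0 ei e') :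
    ∃ H : EF F, H.OK ∧ H.Λ = Λ ∧ H.Y = Y ∧ H.ε = ε ∧ R₀ ≤ H.R0 := by
  choose δ δ₁ C R0 g0 ei lowi e' low' u e low hc using hc
  choose δk Ck η g0k eik e'k hk using hk
  obtain ⟨a, a0, ha⟩ := exists_lower fun j => (hc j).δpos
  obtain ⟨a', a0', ha'⟩ := exists_lower fun j => (hk j).δpos
  obtain ⟨a1, a1p, ha1⟩ := exists_lower fun j => (hc j).δ₁pos
  obtain ⟨a2, a2p, ha2⟩ := exists_lower fun j => (hk j).ηpos
  obtain ⟨M', -, hM'⟩ := exists_upper Ck 0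
  obtain ⟨M, hM0, hM⟩ := exists_upper C M'
  obtain ⟨R, hR0, hR1⟩ := exists_upper R0 R₀
  refine ⟨⟨Λ, Y, ε, min a a', a1, M, a2, R, Sum.elim g0 g0k, Sum.elim ei eik, Sum.elim e' e'k, lowi,
    low', u, e, low⟩, ⟨⟨C₀, R₀, cc, hI, hR, hR0⟩, hΛ, ⟨h0, h1⟩, fun j => ?_, fun i => ?_,
    lt_min a0 a0', a1p⟩, rfl, rfl, rfl, hR0⟩
  · exact (hc j).mono (lt_min a0 a0') ((min_le_left _ _).trans (ha j)) (hM j) a1p (ha1 j) (hR1 j)
      (by linarith)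
  · exact (hk i).mono (lt_min a0 a0') ((min_le_right _ _).trans (ha' i)) ((hM' i).trans hM0) a2p
      (ha2 i)

theorem fam_mono {S : Set E3} {D : EndData S} {P : Type} [NormedAddCommGroup P] [NormedSpace ℝ P]
    {ι : Type} [Fintype ι] {B : Type} [NormedAddCommGroup B] [NormedSpace ℝ B] {V₀ : E3 → ℝ}
    {d : FamData D P ι B} {η η' R₁ L β : ℝ} {M : ℕ} (h : Fam V₀ d η R₁ L M β) (hη : η ≤ η') :
    Fam V₀ d η' R₁ L M β :=
  { h with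
    cone := h.cone.mono fun _ hx i => ⟨(hx i).1, fun v hv =>
      ⟨((hx i).2 v hv).1, ((hx i).2 v hv).2.1.trans hη, ((hx i).2 v hv).2.2⟩⟩ }

theorem isEq0_of {S : Set E3} {V₀ : E3 → ℝ} {c₀ K₀ : ℝ} (hS : IsShr S)
    (h : Dyn.TubeOf S V₀ c₀ K₀) : IsEq0 S V₀ where
  shr := hS
  smooth := h.smooth
  zero x := by rw [← h.zero]; rfl
  unit x hx := by
    have e : gradient V₀ x = Vale.Agent.P218.H313.grad V₀ x := rfl
    rcases h.normal x hx with a | a <;> rw [e, a] <;> simp [hS.1.norm_nu hx]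

/-- **The reduction** -/
theorem ls_of (hE : EndsStmt) (hFt : FtStmt) (hSym : Sym.SymStmt) (hCyl : CylFamStmt)
    (hCone : ConeFamStmt) (hFr : FrameStmt) (hGeo : GeoStmt) (hKer : KerStmt) (hDat : DatStmt)
    (hLin : LinIdStmt) (hEn : EnergyStmt) (hN : NStmt) (hP : PLimStmt) (hKL : KLAll)
    (hR : RealStmt) : Dyn.LSStmt := by
  intro D₀ G₀ S hS hC hne V₀ c₀ K₀ hT
  obtain ⟨D⟩ := hE D₀ G₀ S hS hC
  obtain ⟨η₀, r, C, K, hη, hr, hft⟩ := hFt S D hS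
  obtain ⟨R₂, hK⟩ := hKer D₀ G₀ S hS hC hne
  refine ⟨r, C, K, R₂, hr, fun R hR₂ => ?_⟩
  obtain ⟨r₂, h0, -, hK⟩ := hK R hR₂
  refine ⟨r₂, h0, fun ρ hρ hρ' P hM => ?_⟩
  obtain ⟨C₀, Λ₀, hC₀, hΛ₀, hsym⟩ := hSym
  obtain ⟨Λ₁, hcyl⟩ := hCyl C₀
  obtain ⟨Λ₂, hkl⟩ := hKL C₀
  obtain ⟨Λ, l0, l1, l2⟩ : ∃ Λ, Λ₀ ≤ Λ ∧ Λ₁ ≤ Λ ∧ Λ₂ ≤ Λ :=
    ⟨max Λ₀ (max Λ₁ Λ₂), by simp, by simp, by simp⟩
  have l3 : 1 ≤ Λ := hΛ₀.trans l0
  have z1 : 0 < 2 * Λ := by linarith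
  have z2 : 2 * Λ ≤ (2 * Λ) ^ 2 := by nlinarith
  obtain ⟨R₀, κ, V, Q, cc, Y, s1, s2, s3, s4, s5⟩ := hsym Λ (2 * Λ) l0 z1 z2
  have hso : SymOut C₀ Λ (2 * Λ) R₀ κ V Q cc Y := ⟨hC₀, l3, z1, z2, s1, s2, s3, s4, s5⟩
  have r1 : 1 ≤ R₀ := by linarith [s1.big.1]
  have e0 : 0 < min η₀ (1 / 10) := lt_min hη (by norm_num)
  obtain ⟨Z, hfr⟩ := hFr S D V₀ (isEq0_of hS hT)
  choose Zc hZc using fun j => hcyl Λ _ R₀ κ V Q cc Y l1 hso S D hS j _ e0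
  choose Zk hZk using fun i => hCone S D hS i _ e0
  obtain ⟨z₀, hz, hz'⟩ := exists_upper Zc (max Z (R + 1))
  obtain ⟨ya, hy, hy'⟩ := exists_upper Zk (Real.log (z₀ + 8) + 3)
  obtain ⟨F, rfl, rfl, rfl, rfl, hF⟩ := hfr z₀ ya ((le_max_left _ _).trans hz) hy
  choose _ _ _ _ _ _ _ _ _ u₀ _ _ hu using fun j => hZc j F.z₀ (hz' j)
  obtain ⟨ψ, hsrc, hker⟩ := hK ρ hρ hρ' P hM P.card P.equivFin.symm F hF
    ((le_max_right _ _).trans hz) u₀ fun j => (hu j).jac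
  obtain ⟨H, hH, rfl, rfl, he, hR0⟩ := exists_EF F s3 l3 r1 e0 (min_le_right _ _)
    (fun j => hZc j _ (by linarith [hz' j])) fun i => hZk i _ (hy' i)
  obtain ⟨Zs, i1, i2, val, tr, i3, hsp, ρ0, p0, hred⟩ := hDat S F hF hne H hH _ _ hsrc hker
  obtain ⟨ρ₁, p1, hgd, hen⟩ := hEn S F hF hne H hH _ _ hsrc Zs val tr hsp
  obtain ⟨R0, r0, C1, s, si, hred⟩ := hred (min ρ0 ρ₁) (lt_min p0 p1) (min_le_left _ _)
  obtain ⟨tau, main, C', hen⟩ := hen _ (min_le_right _ _) R0 r0 C1 s si hred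
  obtain ⟨T, Dz, hlim⟩ := hP _ _ _ C₀ H.Λ R₀ R0 r0 C1 cc H.Y s s3 l3 r1 (hR0.trans hred.big) hred.fam
  have hnd := hLin S F hF hne H hH _ _ hsrc hker Zs val tr hsp _ R0 r0 C1 s si hred Dz hlim.der
  obtain ⟨R1, C2, hR1, hlsn⟩ := hN S F H hH _ _ Zs val tr (hGeo S F hF hne).1 hsp _ R0 r0 C1 s si
    hred Dz hlim.der hnd tau main C' _ _ hen
  have hint := hkl H.Λ _ R₀ κ V Q cc H.Y l2 hso _ _ R1 r0 C2 _
    ((hR0.trans hred.big).trans hR1) hlsn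
  obtain ⟨δ, L, M, β, hfam⟩ := hR S F hF hne H hH _ _ hsrc Zs val tr hsp _ R0 r0 C1 s si
    (fun z hz => hgd z (hz.trans (min_le_right _ _))) hred T Dz hlim hnd tau main C' hen hint
  obtain ⟨Sx, L', q, hgeo⟩ := hft F.V₀ c₀ K₀ hT.tube hT.zero _ _ _ _ _ L M β
    (fam_mono hfam (he.le.trans (min_le_left _ _)))
  refine ⟨XR P.card F.D.m, inferInstance, inferInstance, inferInstance, _, inferInstance,
    fun p => .inl (P.equivFin p), Sx, _, _, _, _, L', _, q, β,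
    Sum.inl_injective.comp P.equivFin.injective, fun p => ?_, hgeo⟩
  simp [famData, chis]

end Vale.Agent.P218F.LS
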