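import Vale.Agent.P218F.SymSpec2
import Vale.Agent.P218F.EndWt

/-! Block SYM: dependence of the symmetric solution on the end point at fixed `c`. -/

open Set Filter Topology Metric

namespace Vale.Agent.P218F.Sym

open Vale.Agent.P218F.End

namespace Lip

/-- comparison to the right -/
lemma fence_fwd {a b : ℝ} {y y' : ℝ → ℂ} {Y Y' : ℝ → ℝ} (hy : Der a b y y') (hY : Der a b Y Y')
    (h : ∀ z ∈ Icc a b, ‖y' z‖ ≤ Y' z) (ha : ‖y a‖ ≤ Y a) {z : ℝ} (hz : z ∈ Icc a b) :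
    ‖y z‖ ≤ Y z := by
  obtain ⟨θ, hθ, hθz⟩ := exists_rot (y z)
  have h1 : Der a b (fun s => Y s - (θ * y s).re) (fun s => Y' s - (θ * y' s).re) :=
    fun s hs => (hY s hs).sub (hy.re_mul θ s hs)
  have h2 := h1.mono_of_nonneg (fun s hs => sub_nonneg.2 ((re_mul_le hθ _).trans (h s hs)))
    (left_mem_Icc.2 (hz.1.trans hz.2)) hz hz.1
  have h3 := re_mul_le hθ (y a)
  simp only [hθz, Complex.ofReal_re] at h2
  linarith

/-- the nonlinear term of the equation of `q` -/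
noncomputable def NN (z : ℝ) (v p : ℂ) : ℂ :=
  p ^ 2 / (4 * v) * (((z : ℂ) ^ 2 - 2) * (4 - v + z * p / 2))

lemma norm_g {z : ℝ} (hz : 2 ≤ z ^ 2) : ‖(z : ℂ) ^ 2 - 2‖ = z ^ 2 - 2 := by
  have : (z : ℂ) ^ 2 - 2 = ((z ^ 2 - 2 : ℝ) : ℂ) := by push_cast; ring
  rw [this, Complex.norm_real, Real.norm_eq_abs, abs_of_nonneg (by linarith)]

lemma NN_sub {C γ κ μ z : ℝ} {v v' p p' : ℂ} (hC : 1 ≤ C) (hγ : 0 ≤ γ) (hz0 : 0 < z)
    (hz : 64 ≤ z ^ 2) (hv : v ≠ 0) (hv' : v' ≠ 0) (hp : ‖p‖ ≤ C * γ * z) (hp' : ‖p'‖ ≤ C * γ * z)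
    (hγz : γ * z ^ 2 ≤ 7) (h1 : γ ≤ κ * ‖v‖) (h2 : γ ≤ κ * ‖v'‖) (hb : ‖v'‖ ≤ 16)
    (hκ0 : 0 ≤ κ) (hκ : C ^ 2 * κ ≤ 1 / 10000) (hμ : 0 ≤ μ) (dv : ‖v' - v‖ ≤ 32 * μ)
    (dp : ‖p' - p‖ ≤ 3 * z * μ) : ‖NN z v' p' - NN z v p‖ ≤ μ * z ^ 4 / 32 := by
  have e : NN z v' p' - NN z v p =
      (1 / 4) * (((p' + p) / v' * (p' - p) - p / v * (p / v') * (v' - v)) *
        (((z : ℂ) ^ 2 - 2) * (4 - v' + z * p' / 2)) +
      p * (p / v) * (((z : ℂ) ^ 2 - 2) * (-(v' - v) + z * (p' - p) / 2))) := by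
    simp only [NN]; field_simp; ring
  have hnv := norm_pos_iff.2 hv
  have hnv' := norm_pos_iff.2 hv'
  have hC0 : 0 ≤ C := by linarith
  have q : ∀ {x w : ℂ} {k : ℝ}, w ≠ 0 → 0 ≤ k → γ ≤ κ * ‖w‖ → ‖x‖ ≤ k * (C * γ * z) →
      ‖x / w‖ ≤ k * (C * κ * z) := fun {x w k} hw hk h3 h4 => by
    rw [norm_div, div_le_iff₀ (norm_pos_iff.2 hw)]
    refine h4.trans ?_
    calc k * (C * γ * z) ≤ k * (C * (κ * ‖w‖) * z) := by gcongr
      _ = _ := by ring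
  have a1 : ‖(p' + p) / v'‖ ≤ 2 * (C * κ * z) :=
    q hv' (by norm_num) h2 ((norm_add_le _ _).trans (by linarith))
  have a2 : ‖p / v‖ ≤ 1 * (C * κ * z) := q hv (by norm_num) h1 (by linarith)
  have a3 : ‖p / v'‖ ≤ 1 * (C * κ * z) := q hv' (by norm_num) h2 (by linarith)
  have g : ‖(z : ℂ) ^ 2 - 2‖ ≤ z ^ 2 := by rw [norm_g (by linarith)]; linarith
  have nz : ‖(z : ℂ)‖ = z := by rw [Complex.norm_real, Real.norm_eq_abs, abs_of_pos hz0]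
  have a4 : ‖4 - v' + z * p' / 2‖ ≤ 24 * C := by
    have b1 : ‖(z : ℂ) * p' / 2‖ ≤ 7 * C / 2 := by
      rw [norm_div, norm_mul, nz, Complex.norm_two]
      have : z * ‖p'‖ ≤ z * (C * γ * z) := by gcongr
      nlinarith
    have b2 : ‖(4 : ℂ) - v'‖ ≤ 20 := (norm_sub_le _ _).trans (by simp; linarith)
    exact (norm_add_le _ _).trans (by linarith)
  have a5 : ‖-(v' - v) + z * (p' - p) / 2‖ ≤ 2 * z ^ 2 * μ := by
    have b1 : ‖(z : ℂ) * (p' - p) / 2‖ ≤ 3 * z ^ 2 * μ / 2 := by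
      rw [norm_div, norm_mul, nz, Complex.norm_two]
      have : z * ‖p' - p‖ ≤ z * (3 * z * μ) := by gcongr
      nlinarith
    refine (norm_add_le _ _).trans ?_
    rw [norm_neg]
    nlinarith
  have a6 : ‖(p' + p) / v' * (p' - p) - p / v * (p / v') * (v' - v)‖ ≤
      2 * (C * κ * z) * (3 * z * μ) + 1 * (C * κ * z) * (1 * (C * κ * z)) * (32 * μ) := by
    refine (norm_sub_le _ _).trans ?_
    rw [norm_mul, norm_mul, norm_mul]
    gcongr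
  have a7 : ‖p * (p / v)‖ ≤ 7 * (C ^ 2 * κ) := by
    rw [norm_mul]
    calc ‖p‖ * ‖p / v‖ ≤ (C * γ * z) * (1 * (C * κ * z)) := by gcongr
      _ = (γ * z ^ 2) * (C ^ 2 * κ) := by ring
      _ ≤ _ := by gcongr
  rw [e, norm_mul]
  have a8 := norm_add_le (((p' + p) / v' * (p' - p) - p / v * (p / v') * (v' - v)) *
        (((z : ℂ) ^ 2 - 2) * (4 - v' + z * p' / 2)))
      (p * (p / v) * (((z : ℂ) ^ 2 - 2) * (-(v' - v) + z * (p' - p) / 2)))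
  have a9 : ‖((p' + p) / v' * (p' - p) - p / v * (p / v') * (v' - v)) *
        (((z : ℂ) ^ 2 - 2) * (4 - v' + z * p' / 2))‖ ≤ (2 * (C * κ * z) * (3 * z * μ) +
        1 * (C * κ * z) * (1 * (C * κ * z)) * (32 * μ)) * (z ^ 2 * (24 * C)) := by
    rw [norm_mul, norm_mul ((z : ℂ) ^ 2 - 2)]
    gcongr
  have a10 : ‖p * (p / v) * (((z : ℂ) ^ 2 - 2) * (-(v' - v) + z * (p' - p) / 2))‖ ≤
      7 * (C ^ 2 * κ) * (z ^ 2 * (2 * z ^ 2 * μ)) := by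
    rw [norm_mul, norm_mul ((z : ℂ) ^ 2 - 2)]
    gcongr
  have n4 : ‖(1 / 4 : ℂ)‖ = 1 / 4 := by simp
  have hX : 0 ≤ μ * z ^ 4 := by positivity
  have b1 : C ^ 3 * κ ^ 2 ≤ 1 / 10000 * (1 / 10000) := by
    calc C ^ 3 * κ ^ 2 ≤ C ^ 4 * κ ^ 2 := by gcongr <;> norm_num
      _ = (C ^ 2 * κ) * (C ^ 2 * κ) := by ring
      _ ≤ _ := by gcongr
  have b2 : (2 * (C * κ * z) * (3 * z * μ) + 1 * (C * κ * z) * (1 * (C * κ * z)) * (32 * μ)) *
      (z ^ 2 * (24 * C)) + 7 * (C ^ 2 * κ) * (z ^ 2 * (2 * z ^ 2 * μ)) =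
      (158 * (C ^ 2 * κ) + 768 * (C ^ 3 * κ ^ 2)) * (μ * z ^ 4) := by ring
  have b3 : (158 * (C ^ 2 * κ) + 768 * (C ^ 3 * κ ^ 2)) * (μ * z ^ 4) ≤ 1 / 8 * (μ * z ^ 4) := by
    gcongr
    linarith
  rw [n4]
  linarith

lemma ex_pos (R z : ℝ) : 0 < ex R z := Real.exp_pos _

lemma ex_self (R : ℝ) : ex R R = 1 := by simp [ex]

lemma ex_le_one {R z : ℝ} (h0 : 0 ≤ z) (h : z ≤ R) : ex R z ≤ 1 := by
  rw [ex, Real.exp_le_one_iff]
  nlinarith

lemma hasDerivAt_ex (R z : ℝ) : HasDerivAt (ex R) (z / 4 * ex R z) z := by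
  have h : HasDerivAt (fun s : ℝ => -(R ^ 2 - s ^ 2) / 8) (z / 4) z := by
    have := (((hasDerivAt_pow 2 z).const_sub (R ^ 2)).neg).div_const 8
    refine this.congr_deriv ?_
    simp; ring
  have := h.exp
  rw [mul_comm] at this
  exact this

variable {C Λ Z₀ R : ℝ} {y c : ℂ} {v p : ℝ → ℂ}

lemma ne_zero (h : Sol C Λ Z₀ R y c v p) {z : ℝ} (hz : z ∈ Icc Z₀ R) : v z ≠ 0 := by
  intro h0
  have := h.re_inv z hz
  rw [h0] at this
  norm_num at this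

lemma norm_le (h : Sol C Λ Z₀ R y c v p) {z : ℝ} (hz : z ∈ Icc Z₀ R) : ‖v z‖ ≤ 16 := by
  have h1 := (h.re_inv z hz).trans (Complex.re_le_norm _)
  have h2 := norm_pos_iff.2 (ne_zero h hz)
  rw [norm_inv, le_inv_comm₀ (by norm_num) h2] at h1
  linarith

lemma c_mul (h : Sol C Λ Z₀ R y c v p) (h0 : 0 < Z₀) {z : ℝ} (hz : z ∈ Icc Z₀ R) :
    ‖c‖ * z ^ 2 ≤ 7 := by
  have hz0 : 0 < z := h0.trans_le hz.1
  have hR : 0 < R := hz0.trans_le hz.2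
  have h1 := h.c_le
  rw [le_div_iff₀ (by positivity)] at h1
  refine le_trans ?_ h1
  gcongr
  exact hz.2

lemma lam_le (h : Sol C Λ Z₀ R y c v p) {z : ℝ} (hz : z ∈ Icc Z₀ R) : Λ ≤ z ^ 2 * ‖v z‖ :=
  (h.re_ge z hz).trans (by gcongr; exact Complex.re_le_norm _)

lemma c_le_v (h : Sol C Λ Z₀ R y c v p) (h0 : 0 < Z₀) (hΛ : 0 < Λ) {z : ℝ} (hz : z ∈ Icc Z₀ R) :
    ‖c‖ ≤ 7 / Λ * ‖v z‖ := by
  rw [div_mul_eq_mul_div, le_div_iff₀ hΛ]
  calc ‖c‖ * Λ ≤ ‖c‖ * (z ^ 2 * ‖v z‖) := by gcongr; exact lam_le h hz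
    _ = ‖c‖ * z ^ 2 * ‖v z‖ := by ring
    _ ≤ _ := by gcongr; exact c_mul h h0 hz

/-- the derivative of the far solution at the near end point -/
lemma norm_p_le {R' : ℝ} (h : Sol C Λ Z₀ R' y c v p) (hC : 1 ≤ C) (hΛ : 1 ≤ Λ) (h0 : 0 < Z₀)
    (hZ : Z₀ ≤ R) (h1 : 1 ≤ R) (hR : R ≤ R') (hR' : R' ≤ R + 1) :
    ‖p R‖ ≤ 9 * C * ‖c‖ * R ^ 2 * (R' - R) := by
  have hs : Icc R R' ⊆ Icc Z₀ R' := Icc_subset_Icc_left hZ
  have h2 := (convex_Icc R R').norm_image_sub_le_of_norm_hasDerivWithin_le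
    (C := 9 * C * ‖c‖ * R ^ 2) (fun z hz => (h.d1 z (hs hz)).mono hs) (fun z hz => ?_)
    (right_mem_Icc.2 hR) (left_mem_Icc.2 hR)
  · rwa [h.neu, sub_zero, Real.norm_eq_abs, abs_sub_comm, abs_of_nonneg (sub_nonneg.2 hR)] at h2
  · refine (h.b2 z (hs hz)).trans ?_
    have hz0 : 0 < z := by linarith [hz.1]
    have a1 := lam_le h (hs hz)
    have a2 : 1 / (R' ^ 2 * ‖v z‖) ≤ 1 := by
      have : z ^ 2 * ‖v z‖ ≤ R' ^ 2 * ‖v z‖ := by gcongr; exact hz.2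
      rw [div_le_one (by linarith)]
      linarith
    have a3 := ex_le_one hz0.le hz.2
    have a4 : z ^ 2 ≤ (2 * R) ^ 2 := by gcongr; linarith [hz.2]
    calc C * ‖c‖ * (1 + z ^ 2 * (1 / (R' ^ 2 * ‖v z‖) + ex R' z))
        ≤ C * ‖c‖ * (R ^ 2 + (2 * R) ^ 2 * (1 + 1)) := by
          have := (ex_pos R' z).le
          gcongr
          nlinarith
      _ = _ := by ring

lemma der_q (h : Sol C Λ Z₀ R y c v p) {R₁ : ℝ} (hR : R₁ ≤ R) :
    Der Z₀ R₁ (fun z => ((z : ℂ) ^ 2 - 2) * p z - 2 * z * (v z - 2))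
      (fun z => (z / 2 : ℝ) * (((z : ℂ) ^ 2 - 2) * p z - 2 * z * (v z - 2)) +
        NN z (v z) (p z)) := by
  intro z hz
  have hs : Icc Z₀ R₁ ⊆ Icc Z₀ R := Icc_subset_Icc_right hR
  have h0 : HasDerivWithinAt (fun s : ℝ => (s : ℂ)) 1 (Icc Z₀ R₁) z :=
    Complex.ofRealCLM.hasDerivAt.hasDerivWithinAt
  have h1 := (((h0.pow 2).sub_const 2).mul ((h.d1 z (hs hz)).mono hs)).sub
    ((h0.const_mul 2).mul (((h.d0 z (hs hz)).mono hs).sub_const 2))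
  refine h1.congr_deriv ?_
  have := ne_zero h (hs hz)
  simp only [Fv, NN, Pi.pow_apply]
  push_cast
  field_simp
  ring

lemma der_Y (h : Sol C Λ Z₀ R y c v p) {R₁ : ℝ} (hR : R₁ ≤ R)
    (hZ : ∀ z ∈ Icc Z₀ R₁, (z : ℂ) ^ 2 - 2 ≠ 0) :
    Der Z₀ R₁ (fun z => (v z - 2) / ((z : ℂ) ^ 2 - 2))
      (fun z => (((z : ℂ) ^ 2 - 2) * p z - 2 * z * (v z - 2)) / ((z : ℂ) ^ 2 - 2) ^ 2) := by
  intro z hz
  have hs : Icc Z₀ R₁ ⊆ Icc Z₀ R := Icc_subset_Icc_right hR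
  have h0 : HasDerivWithinAt (fun s : ℝ => (s : ℂ)) 1 (Icc Z₀ R₁) z :=
    Complex.ofRealCLM.hasDerivAt.hasDerivWithinAt
  have h1 := (((h.d0 z (hs hz)).mono hs).sub_const 2).div ((h0.pow 2).sub_const 2) (hZ z hz)
  refine h1.congr_deriv ?_
  simp only [Pi.pow_apply]
  push_cast
  ring

end Lip

open Lip in
/-- **Dependence on the end point** -/
theorem lipR_proof : LipRStmt := by
  intro C hC
  refine ⟨384 * C, 70000 * C ^ 2, ?_⟩
  intro Λ Z₀ R R' y y' c v p v' p' hΛ h0 hZ hR hRR hR' h h'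
  have hC2 : 1 ≤ C ^ 2 := one_le_pow₀ hC
  have hΛ0 : 0 < Λ := by linarith
  have hZR : Z₀ ≤ R := by linarith
  have hs : Icc Z₀ R ⊆ Icc Z₀ R' := Icc_subset_Icc_right hRR
  have zpos : ∀ z ∈ Icc Z₀ R, 0 < z := fun z hz => h0.trans_le hz.1
  have zsq : ∀ z ∈ Icc Z₀ R, 256 ≤ z ^ 2 := fun z hz => by
    have : Z₀ ^ 2 ≤ z ^ 2 := by gcongr; exact hz.1
    linarith
  have ng : ∀ z ∈ Icc Z₀ R, ‖(z : ℂ) ^ 2 - 2‖ = z ^ 2 - 2 := fun z hz =>
    norm_g (by linarith [zsq z hz])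
  have g0 : ∀ z ∈ Icc Z₀ R, (z : ℂ) ^ 2 - 2 ≠ 0 := fun z hz => by
    rw [← norm_pos_iff, ng z hz]; linarith [zsq z hz]
  set dq : ℝ → ℂ := fun z => (((z : ℂ) ^ 2 - 2) * p' z - 2 * z * (v' z - 2)) -
    (((z : ℂ) ^ 2 - 2) * p z - 2 * z * (v z - 2)) with hdq
  have Dq : Der Z₀ R dq (fun z => (z / 2 : ℝ) * dq z + (NN z (v' z) (p' z) - NN z (v z) (p z))) :=
    fun z hz => ((der_q h' hRR z hz).sub (der_q h le_rfl z hz)).congr_deriv (by
      simp only [hdq]; ring)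
  have DY : Der Z₀ R (fun z => (v' z - v z) / ((z : ℂ) ^ 2 - 2))
      (fun z => dq z / ((z : ℂ) ^ 2 - 2) ^ 2) := fun z hz => by
    have := ((der_Y h' hRR g0 z hz).sub (der_Y h le_rfl g0 z hz)).congr_deriv
      (sub_div _ _ _).symm
    refine this.congr (fun s _ => ?_) ?_ <;> simp only [Pi.sub_apply] <;> ring
  have wpos : ∀ z ∈ Icc Z₀ R, 0 < z ^ 3 * ex R z := fun z hz =>
    mul_pos (pow_pos (zpos z hz) 3) (ex_pos R z)
  have cex : Continuous (ex R) := continuous_iff_continuousAt.2 fun z =>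
    (hasDerivAt_ex R z).continuousAt
  obtain ⟨z₀, hz₀, hmax⟩ := isCompact_Icc.exists_isMaxOn (nonempty_Icc.2 hZR)
    (f := fun z => ‖dq z‖ / (z ^ 3 * ex R z))
    (Dq.cont.norm.div (by fun_prop) fun z hz => (wpos z hz).ne')
  set m := ‖dq z₀‖ / (z₀ ^ 3 * ex R z₀) with hm
  have m0 : 0 ≤ m := div_nonneg (norm_nonneg _) (wpos z₀ hz₀).le
  have bq : ∀ z ∈ Icc Z₀ R, ‖dq z‖ ≤ m * (z ^ 3 * ex R z) := fun z hz =>
    (div_le_iff₀ (wpos z hz)).1 (hmax hz)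
  have bY : ∀ z ∈ Icc Z₀ R, ‖(v' z - v z) / ((z : ℂ) ^ 2 - 2)‖ ≤ 32 * m * (ex R z / z ^ 2) := by
    intro z hz
    refine fence_fwd DY (Y := fun z => 32 * m * (ex R z / z ^ 2))
      (Y' := fun z => 32 * m * (ex R z * (z ^ 2 / 4 - 2) / z ^ 3)) (fun s hs => ?_)
      (fun s hs => ?_) ?_ hz
    · have h1 := zpos s hs
      refine ((((hasDerivAt_ex R s).div (hasDerivAt_pow 2 s) (by positivity)).const_mul
        (32 * m)).congr_deriv ?_).hasDerivWithinAt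
      simp only [Nat.cast_ofNat]
      field_simp
      ring
    · have h1 := zpos s hs
      have h2 := zsq s hs
      have h3 := ex_pos R s
      rw [norm_div, norm_pow, ng s hs, div_le_iff₀ (by nlinarith)]
      refine (bq s hs).trans ?_
      have h4 : s ^ 6 ≤ 32 * ((s ^ 2 / 4 - 2) * (s ^ 2 - 2) ^ 2) := by
        calc s ^ 6 = 32 * (s ^ 2 / 8 * (s ^ 2 / 2) ^ 2) := by ring
          _ ≤ _ := by gcongr <;> linarith
      calc m * (s ^ 3 * ex R s) = m * ex R s * s ^ 6 / s ^ 3 := by field_simp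
        _ ≤ m * ex R s * (32 * ((s ^ 2 / 4 - 2) * (s ^ 2 - 2) ^ 2)) / s ^ 3 := by gcongr
        _ = _ := by ring
    · have := ex_pos R Z₀
      rw [h'.par, h.par, sub_self, zero_div, norm_zero]
      positivity
  have bv : ∀ z ∈ Icc Z₀ R, ‖v' z - v z‖ ≤ 32 * (m * ex R z) := fun z hz => by
    have h1 := bY z hz
    have h2 := zpos z hz
    have h3 := zsq z hz
    have h4 := ex_pos R z
    rw [norm_div, ng z hz, div_le_iff₀ (by linarith)] at h1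
    refine h1.trans ?_
    calc 32 * m * (ex R z / z ^ 2) * (z ^ 2 - 2) ≤ 32 * m * (ex R z / z ^ 2) * z ^ 2 := by
          gcongr; linarith
      _ = _ := by field_simp
  have bp : ∀ z ∈ Icc Z₀ R, ‖p' z - p z‖ ≤ 3 * z * (m * ex R z) := fun z hz => by
    have h2 := zpos z hz
    have h3 := zsq z hz
    have h4 := mul_nonneg m0 (ex_pos R z).le
    have e : ((z : ℂ) ^ 2 - 2) * (p' z - p z) = dq z + 2 * z * (v' z - v z) := by
      simp only [hdq]; ring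
    have h5 := congrArg norm e
    have h6 := norm_add_le (dq z) (2 * z * (v' z - v z))
    rw [norm_mul, ng z hz] at h5
    rw [norm_mul, norm_mul, Complex.norm_two, Complex.norm_real, Real.norm_eq_abs,
      abs_of_pos h2] at h6
    have h7 : 2 * z * ‖v' z - v z‖ ≤ 2 * z * (32 * (m * ex R z)) := by gcongr; exact bv z hz
    have h8 := bq z hz
    refine le_of_mul_le_mul_left ?_ (by linarith : 0 < z ^ 2 - 2)
    have h9 : 0 ≤ (2 * z ^ 2 - 70) * (z * (m * ex R z)) := mul_nonneg (by linarith) (by positivity)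
    nlinarith
  have bN : ∀ z ∈ Icc Z₀ R,
      ‖NN z (v' z) (p' z) - NN z (v z) (p z)‖ ≤ m * ex R z * z ^ 4 / 32 := fun z hz =>
    NN_sub hC (norm_nonneg c) (zpos z hz) (by linarith [zsq z hz]) (ne_zero h hz)
      (ne_zero h' (hs hz)) (h.b1 z hz) (h'.b1 z (hs hz)) (c_mul h h0 hz) (c_le_v h h0 hΛ0 hz)
      (c_le_v h' h0 hΛ0 (hs hz)) (norm_le h' (hs hz)) (by positivity)
      (by rw [← mul_div_assoc, div_le_iff₀ hΛ0]; linarith)
      (mul_nonneg m0 (ex_pos R z).le) (bv z hz) (bp z hz)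
  have hRm : R ∈ Icc Z₀ R := right_mem_Icc.2 hZR
  have R0 := zpos R hRm
  have R2 := zsq R hRm
  set a := ‖p' R‖ / R + m / 4 with ha
  have a0 : 0 ≤ ‖p' R‖ / R := by positivity
  have fq := fence1 Dq (Y := fun z => a * (z ^ 3 * ex R z))
    (Y' := fun z => a * ((3 * z ^ 2 + z ^ 4 / 4) * ex R z)) (A := fun z => z / 2)
    (B := fun z => z ^ 2 / 4) (fun s _ => ?_) (fun s _ => ?_) (fun s hs => ?_) ?_ hz₀
  · have hma : m ≤ a := (div_le_iff₀ (wpos z₀ hz₀)).2 fq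
    have h1 := norm_p_le h' hC (by linarith) h0 hZR (by nlinarith) hRR hR'
    have h2 : ‖p' R‖ / R ≤ 9 * C * ‖c‖ * R * (R' - R) := by
      rw [div_le_iff₀ R0]; linarith
    have h3 : m ≤ 12 * C * ‖c‖ * R * (R' - R) := by linarith
    intro z hz
    have h4 := ex_pos R z
    have h5 : m * ex R z ≤ 12 * C * ‖c‖ * R * (R' - R) * ex R z := by gcongr
    have h6 : 0 ≤ 12 * C * ‖c‖ * R * (R' - R) * ex R z := (mul_nonneg m0 h4.le).trans h5
    refine ⟨(bv z hz).trans (by linarith), (bp z hz).trans ?_⟩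
    calc 3 * z * (m * ex R z) ≤ 3 * R * (12 * C * ‖c‖ * R * (R' - R) * ex R z) := by
          have := mul_nonneg m0 h4.le
          gcongr
          exact hz.2
      _ ≤ 32 * R * (12 * C * ‖c‖ * R * (R' - R) * ex R z) := by gcongr; norm_num
      _ = _ := by ring
  · refine ((((hasDerivAt_pow 3 s).mul (hasDerivAt_ex R s)).const_mul a).congr_deriv
      ?_).hasDerivWithinAt
    simp only [Nat.cast_ofNat]
    ring
  · refine (((hasDerivAt_pow 2 s).div_const 4).congr_deriv ?_).hasDerivWithinAt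
    simp only [Nat.cast_ofNat]
    ring
  · have h1 := bN s hs
    have h2 := zsq s hs
    have h3 := ex_pos R s
    rw [add_sub_cancel_left]
    have h4 : 0 ≤ a * ((s ^ 2 / 8 - 3) * s ^ 2 * ex R s) :=
      mul_nonneg (by positivity) (mul_nonneg (mul_nonneg (by linarith) (sq_nonneg _)) h3.le)
    have h5 : 0 ≤ ‖p' R‖ / R * (s ^ 4 * ex R s) := by positivity
    have h6 : a * (s ^ 4 * ex R s) = ‖p' R‖ / R * (s ^ 4 * ex R s) + m / 4 * (s ^ 4 * ex R s) := by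
      rw [ha]; ring
    nlinarith
  · have e : dq R = ((R : ℂ) ^ 2 - 2) * p' R - 2 * R * (v' R - v R) := by
      simp only [hdq, h.neu]; ring
    have h1 := bv R hRm
    rw [ex_self, mul_one] at h1
    rw [e, ex_self, mul_one]
    refine (norm_sub_le _ _).trans ?_
    rw [norm_mul, norm_mul, norm_mul, ng R hRm, Complex.norm_two, Complex.norm_real,
      Real.norm_eq_abs, abs_of_pos R0]
    have h2 : a * R ^ 3 = ‖p' R‖ * R ^ 2 + m / 4 * R ^ 3 := by rw [ha]; field_simp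
    have h3 : 2 * R * ‖v' R - v R‖ ≤ 2 * R * (32 * m) := by gcongr
    have h4 : 0 ≤ (R ^ 2 - 256) * (m * R) := mul_nonneg (by linarith) (by positivity)
    nlinarith [norm_nonneg (p' R)]

end Vale.Agent.P218F.Sym
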