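import Vale.Agent.P218F.SymSpec3
import Vale.Agent.P218F.SymLip
import Mathlib.Analysis.Calculus.InverseFunctionTheorem.Deriv
import Mathlib.Analysis.Calculus.Deriv.Inverse
import Mathlib.Analysis.Real.Pi.Bounds
import Mathlib.Analysis.Complex.ExponentialBounds

/-! Block SYM: the inverse of the map `y ↦ c`. -/

open Set Filter Topology Metric

namespace Vale.Agent.P218F.Sym

namespace IV

/-- the remainder of the expansion -/
noncomputable def Fc (Z₀ R : ℝ) (y : ℂ) : ℂ := cc Z₀ R y - (Y0 R y + Y0 R y ^ 2 * ell Z₀ R y)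

/-- standing assumptions -/
structure Cx (E Λ Z₀ R : ℝ) : Prop where
  hE : 0 ≤ E
  hΛ : 10000000000 ≤ Λ
  hEΛ : 100 * E ≤ Λ
  hZ : 0 < Z₀
  hZ2 : 2 * Λ ≤ Z₀ ^ 2
  hR : Z₀ ^ 2 ≤ R
  exp : ∀ y ∈ D (Λ / 2) R, ‖Fc Z₀ R y‖ ≤ E / R ^ 4

theorem mem_Om_iff {L R : ℝ} (hR : 0 < R) {c : ℂ} :
    c ∈ Om L R ↔ ‖c * (R : ℂ) ^ 2 - 2‖ < 4 - (16 * Real.log R + 4 * L) / R ^ 2 := by
  have h1 : (R : ℂ) ≠ 0 := by exact_mod_cast hR.ne'
  have h2 : c * (R : ℂ) ^ 2 - 2 = (c - ((2 / R ^ 2 : ℝ) : ℂ)) * (R : ℂ) ^ 2 := by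
    push_cast
    field_simp
  rw [Om, mem_ball_iff_norm, lt_div_iff₀ (by positivity), h2, norm_mul, norm_pow, Complex.norm_real,
    Real.norm_of_nonneg hR.le]

theorem Om_mono {L L' R : ℝ} (hR : 0 < R) (h : L ≤ L') : Om L' R ⊆ Om L R := by
  intro c hc
  rw [mem_Om_iff hR] at hc ⊢
  have : (16 * Real.log R + 4 * L) / R ^ 2 ≤ (16 * Real.log R + 4 * L') / R ^ 2 := by gcongr
  linarith

theorem D_mono {L L' R : ℝ} (h : L ≤ L') : D L' R ⊆ D L R := by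
  refine ball_subset_ball ?_
  have : 4 * L / R ^ 2 ≤ 4 * L' / R ^ 2 := by gcongr
  linarith

theorem re_key (t : ℂ) (ht : ‖t‖ ≤ 4) : -4 * ‖t‖ ≤ ((t + 2) ^ 2 * (starRingEnd ℂ) t).re := by
  have h1 : ((t + 2) ^ 2 * (starRingEnd ℂ) t).re = (‖t‖ ^ 2 + 4) * t.re + 4 * ‖t‖ ^ 2 := by
    rw [Complex.sq_norm, Complex.normSq_apply]
    simp [pow_two]
    ring
  have h2 : -‖t‖ ≤ t.re := (abs_le.1 (Complex.abs_re_le_norm t)).1
  have h0 := norm_nonneg t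
  have h3 : (‖t‖ ^ 2 + 4) * -‖t‖ ≤ (‖t‖ ^ 2 + 4) * t.re :=
    mul_le_mul_of_nonneg_left h2 (by positivity)
  rw [h1]
  nlinarith [mul_nonneg (sq_nonneg ‖t‖) (sub_nonneg.2 ht)]

theorem cc_star {Λ Z₀ R : ℝ} {y : ℂ} (h : Par Λ Z₀ R y) (h' : Par Λ Z₀ R (star y)) :
    cc Z₀ R (star y) = star (cc Z₀ R y) := by
  have hB : star (BB Z₀ R y) = BB Z₀ R (star y) := by
    obtain ⟨ζ, -, hζ⟩ := h'.exists_local
    obtain ⟨-, -, h3⟩ := hζ (star y) (mem_ball_self (by linarith [h'.re_pos]))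
    obtain ⟨h1, h2⟩ := h.BB_spec
    obtain ⟨h1', h2'⟩ := h'.BB_spec
    have hb : ∀ z, be R (star y) z = be R y z := fun z => by simp [be, lm, dd]
    rw [h3 (star (BB Z₀ R y)) (fun z hz => by
      rw [BoundedContinuousFunction.star_apply, norm_star, hb]
      linarith [h1 z hz, h.be_pos hz]) (by rw [← star_Bn, h2]),
      ← h3 (BB Z₀ R (star y)) (fun z hz => by linarith [h1' z hz, h'.be_pos hz]) h2']
  rw [cc, cc, star_mul', star_Y0, ← hB, ← star_Af, BoundedContinuousFunction.star_apply]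

namespace Cx

variable {E Λ Z₀ R : ℝ} {y : ℂ}

theorem ΛR (h : Cx E Λ Z₀ R) : 2 * Λ ≤ R := h.hZ2.trans h.hR

theorem big (h : Cx E Λ Z₀ R) : 20000000000 ≤ R := by linarith [h.ΛR, h.hΛ]

theorem pos (h : Cx E Λ Z₀ R) : 0 < R := by linarith [h.big]

theorem Z10 (h : Cx E Λ Z₀ R) : Z₀ + 10 ≤ R := by
  have h1 := h.hZ
  have h2 : 20000000000 ≤ Z₀ ^ 2 := by linarith [h.hZ2, h.hΛ]
  have h3 : 11 ≤ Z₀ := by nlinarith
  nlinarith [h.hR]

theorem ZR (h : Cx E Λ Z₀ R) : Z₀ ≤ R := by linarith [h.Z10]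

theorem log_le (h : Cx E Λ Z₀ R) : Real.log R ≤ R :=
  (Real.log_le_sub_one_of_pos h.pos).trans (by linarith)

theorem one_le_log (h : Cx E Λ Z₀ R) : 1 ≤ Real.log R := by
  rw [Real.le_log_iff_exp_le h.pos]
  linarith [Real.exp_one_lt_d9, h.big]

theorem sq_ge (h : Cx E Λ Z₀ R) : 20000000000 * R ≤ R ^ 2 := by nlinarith [h.big]

theorem par (h : Cx E Λ Z₀ R) (hy : y ∈ D Λ R) : Par Λ Z₀ R y :=
  par_of_mem (by linarith [h.hΛ]) h.hZ h.hZ2 h.ZR hy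

theorem par' (h : Cx E Λ Z₀ R) (hy : y ∈ D (Λ / 2) R) : Par (Λ / 2) Z₀ R y :=
  par_of_mem (by linarith [h.hΛ]) h.hZ (by linarith [h.hΛ, h.hZ2]) h.ZR hy

theorem sub (h : Cx E Λ Z₀ R) : D Λ R ⊆ D (Λ / 2) R := D_mono (by linarith [h.hΛ])

theorem hol (h : Cx E Λ Z₀ R) : DifferentiableOn ℂ (cc Z₀ R) (D (Λ / 2) R) :=
  (Par.differentiable_Y0 R).differentiableOn.mul
    (differentiableOn_A (by linarith [h.hΛ]) h.hZ (by linarith [h.hΛ, h.hZ2]) h.ZR Z₀)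

theorem g_ne (h : Cx E Λ Z₀ R) : (R : ℂ) ^ 2 - 2 ≠ 0 := by
  have h1 : (0 : ℝ) < R ^ 2 - 2 := by linarith [h.sq_ge, h.big]
  exact_mod_cast h1.ne'

theorem norm_g (h : Cx E Λ Z₀ R) : ‖(R : ℂ) ^ 2 - 2‖ = R ^ 2 - 2 := by
  have h1 : (0 : ℝ) ≤ R ^ 2 - 2 := by linarith [h.sq_ge, h.big]
  rw [show (R : ℂ) ^ 2 - 2 = ((R ^ 2 - 2 : ℝ) : ℂ) by push_cast; ring, Complex.norm_real,
    Real.norm_of_nonneg h1]

theorem norm_sq (h : Cx E Λ Z₀ R) : ‖(R : ℂ) ^ 2‖ = R ^ 2 := by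
  rw [norm_pow, Complex.norm_real, Real.norm_of_nonneg h.pos.le]

theorem normY (h : Cx E Λ Z₀ R) (hy : y ∈ D Λ R) : ‖Y0 R y‖ ≤ 6.5 / R ^ 2 :=
  (h.par hy).norm_Y0 (by rw [sub_self, norm_zero]; linarith [(h.par hy).re_pos])

theorem ell_re (h : Cx E Λ Z₀ R) (hy : y ∈ D Λ R) :
    0 ≤ (ell Z₀ R y).re ∧ (ell Z₀ R y).re ≤ 4 * Real.log R := by
  have hp := h.par hy
  have hR := h.pos
  have h1 : (ell Z₀ R y).re = Real.log (2 * (R ^ 2 - 2) / (Z₀ ^ 2 - 2)) - Real.log ‖y‖ := by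
    rw [ell, Complex.sub_re, Complex.ofReal_re, Complex.log_re]
  have hz : 2 ≤ Z₀ ^ 2 - 2 := by linarith [h.hZ2, h.hΛ]
  have hy0 : 0 < ‖y‖ := hp.re_pos.trans_le (Complex.re_le_norm y)
  have h2 : ‖y‖ ≤ 2 * (R ^ 2 - 2) / (Z₀ ^ 2 - 2) := by
    refine hp.norm_le.trans ?_
    rw [le_div_iff₀ (by linarith)]
    linarith [h.sq_ge, h.hR, h.big]
  have h3 : 2 * (R ^ 2 - 2) / (Z₀ ^ 2 - 2) ≤ R ^ 2 := by
    rw [div_le_iff₀ (by linarith)]
    nlinarith [sq_nonneg R]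
  have h4 : (R ^ 2)⁻¹ ≤ ‖y‖ := by
    rw [inv_le_iff_one_le_mul₀' (by positivity)]
    linarith [hp.T_ge, h.hΛ]
  have h5 := Real.log_le_log hy0 h2
  have h6 := Real.log_le_log (hy0.trans_le h2) h3
  have h7 := Real.log_le_log (by positivity) h4
  rw [Real.log_inv] at h7
  rw [Real.log_pow] at h6 h7
  push_cast at h6 h7
  rw [h1]
  constructor <;> linarith

theorem ell_im (Z₀ R : ℝ) (y : ℂ) : |(ell Z₀ R y).im| ≤ 4 := by
  rw [ell, Complex.sub_im, Complex.ofReal_im, Complex.log_im, zero_sub, abs_neg]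
  linarith [Complex.abs_arg_le_pi y, Real.pi_lt_four]

theorem norm_ell (h : Cx E Λ Z₀ R) (hy : y ∈ D Λ R) : ‖ell Z₀ R y‖ ≤ 8 * Real.log R := by
  have h1 := Complex.norm_le_abs_re_add_abs_im (ell Z₀ R y)
  rw [abs_of_nonneg (h.ell_re hy).1] at h1
  linarith [(h.ell_re hy).2, ell_im Z₀ R y, h.one_le_log]

theorem hasDerivAt_Y0 (R : ℝ) (y : ℂ) : HasDerivAt (Y0 R) (1 / ((R : ℂ) ^ 2 - 2)) y :=
  ((hasDerivAt_id y).sub_const 2).div_const _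

theorem hasDerivAt_ell (Z₀ R : ℝ) (hy : 0 < y.re) : HasDerivAt (ell Z₀ R) (-y⁻¹) y :=
  (Complex.hasDerivAt_log (Or.inl hy)).const_sub _

theorem holF (h : Cx E Λ Z₀ R) : DifferentiableOn ℂ (Fc Z₀ R) (D (Λ / 2) R) := by
  intro y hy
  have h1 := (hasDerivAt_Y0 R y).differentiableAt
  have h2 := (hasDerivAt_ell Z₀ R (h.par' hy).re_pos).differentiableAt
  exact (h.hol y hy).fun_sub (h1.fun_add ((h1.fun_pow 2).fun_mul h2)).differentiableWithinAt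

theorem deriv_F (h : Cx E Λ Z₀ R) (hy : y ∈ D Λ R) : ‖deriv (Fc Z₀ R) y‖ * R ^ 2 ≤ 1 / 100 := by
  have hR := h.pos
  have hΛ : 0 < Λ := by linarith [h.hΛ]
  have hs : ball y (2 * Λ / R ^ 2) ⊆ D (Λ / 2) R := ball_subset_ball' (by
    have h1 : dist y 4 < 4 - 4 * Λ / R ^ 2 := hy
    have h2 : 4 * Λ / R ^ 2 = 2 * Λ / R ^ 2 + 4 * (Λ / 2) / R ^ 2 := by ring
    linarith)
  have h1 := Core.fderiv_le (f := Fc Z₀ R) (a := y) (r := 2 * Λ / R ^ 2) (M := E / R ^ 4)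
    (by positivity) (h.holF.mono hs) fun q hq => h.exp q (hs hq)
  rw [← norm_deriv_eq_norm_fderiv] at h1
  have h2 : 2 * (E / R ^ 4) / (2 * Λ / R ^ 2) * R ^ 2 = E / Λ := by field_simp
  have h3 : E / Λ ≤ 1 / 100 := by rw [div_le_iff₀ hΛ]; linarith [h.hEΛ]
  have h4 := mul_le_mul_of_nonneg_right h1 (sq_nonneg R)
  linarith

theorem deriv_cc (h : Cx E Λ Z₀ R) (hy : y ∈ D Λ R) :
    ∃ d : ℂ, HasDerivAt (cc Z₀ R) d y ∧ ‖(R : ℂ) ^ 2 * d - 1‖ ≤ 1 / 4 := by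
  have hp := h.par hy
  have hR := h.pos
  have hF := (h.holF.differentiableAt (isOpen_ball.mem_nhds (h.sub hy))).hasDerivAt
  have h1 := hasDerivAt_Y0 R y
  have h2 := (h1.fun_add ((h1.fun_mul h1).fun_mul (hasDerivAt_ell Z₀ R hp.re_pos))).fun_add hF
  refine ⟨_, h2.congr_of_eventuallyEq (Eventually.of_forall fun z => by simp [Fc]; ring), ?_⟩
  have hg := h.g_ne
  have hy0 : 0 < ‖y‖ := hp.re_pos.trans_le (Complex.re_le_norm y)
  have e : (R : ℂ) ^ 2 * (1 / ((R : ℂ) ^ 2 - 2) + ((1 / ((R : ℂ) ^ 2 - 2) * Y0 R y +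
      Y0 R y * (1 / ((R : ℂ) ^ 2 - 2))) * ell Z₀ R y + Y0 R y * Y0 R y * -y⁻¹) +
      deriv (Fc Z₀ R) y) - 1 = 2 / ((R : ℂ) ^ 2 - 2) +
      2 * ((R : ℂ) ^ 2 * Y0 R y) * ell Z₀ R y / ((R : ℂ) ^ 2 - 2) -
      ((R : ℂ) ^ 2 * Y0 R y) ^ 2 / ((R : ℂ) ^ 2 * y) + deriv (Fc Z₀ R) y * (R : ℂ) ^ 2 := by
    have hR' : (R : ℂ) ≠ 0 := by exact_mod_cast hR.ne'
    have hy' : y ≠ 0 := norm_pos_iff.1 hy0
    field_simp
    ring
  rw [e]
  have hgp : 0 < R ^ 2 - 2 := by linarith [h.sq_ge, h.big]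
  have q0 : ‖(R : ℂ) ^ 2 * Y0 R y‖ ≤ 6.5 := by
    rw [norm_mul, h.norm_sq, mul_comm, ← le_div_iff₀ (by positivity)]
    exact h.normY hy
  have q1 : ‖2 / ((R : ℂ) ^ 2 - 2)‖ ≤ 1 / 100 := by
    rw [norm_div, h.norm_g, div_le_iff₀ hgp, Complex.norm_ofNat]
    linarith [h.sq_ge, h.big]
  have q2 : ‖2 * ((R : ℂ) ^ 2 * Y0 R y) * ell Z₀ R y / ((R : ℂ) ^ 2 - 2)‖ ≤ 1 / 100 := by
    rw [norm_div, h.norm_g, div_le_iff₀ hgp, norm_mul, norm_mul, Complex.norm_ofNat]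
    have : 2 * ‖(R : ℂ) ^ 2 * Y0 R y‖ * ‖ell Z₀ R y‖ ≤ 2 * 6.5 * (8 * Real.log R) :=
      mul_le_mul (by linarith) (h.norm_ell hy) (norm_nonneg _) (by norm_num)
    linarith [h.sq_ge, h.big, h.log_le]
  have q3 : ‖((R : ℂ) ^ 2 * Y0 R y) ^ 2 / ((R : ℂ) ^ 2 * y)‖ ≤ 1 / 100 := by
    rw [norm_div, norm_pow, norm_mul ((R : ℂ) ^ 2) y, h.norm_sq, div_le_iff₀ (by positivity)]
    have : ‖(R : ℂ) ^ 2 * Y0 R y‖ ^ 2 ≤ 6.5 ^ 2 := pow_le_pow_left₀ (norm_nonneg _) q0 2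
    linarith [hp.T_ge, h.hΛ]
  have q4 : ‖deriv (Fc Z₀ R) y * (R : ℂ) ^ 2‖ ≤ 1 / 100 := by
    rw [norm_mul, h.norm_sq]
    exact h.deriv_F hy
  refine (norm_add_le _ _).trans ((add_le_add ((norm_sub_le _ _).trans
    (add_le_add ((norm_add_le _ _).trans (add_le_add q1 q2)) q3)) q4).trans (by norm_num))

theorem deriv_ne {d : ℂ} (hd : ‖(R : ℂ) ^ 2 * d - 1‖ ≤ 1 / 4) : d ≠ 0 := by
  rintro rfl
  norm_num at hd

theorem approx (h : Cx E Λ Z₀ R) (hy : y ∈ D Λ R) {y' : ℂ} (hy' : y' ∈ D Λ R) :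
    ‖(R : ℂ) ^ 2 * (cc Z₀ R y - cc Z₀ R y') - (y - y')‖ ≤ ‖y - y'‖ / 4 := by
  choose! d hd hd' using fun z (hz : z ∈ D Λ R) => h.deriv_cc hz
  have key := (convex_ball (4 : ℂ) _).norm_image_sub_le_of_norm_hasDerivWithin_le
    (f := fun z => (R : ℂ) ^ 2 * cc Z₀ R z - z) (f' := fun z => (R : ℂ) ^ 2 * d z - 1) (C := 1 / 4)
    (fun z hz => (((hd z hz).const_mul _).fun_sub (hasDerivAt_id' z)).hasDerivWithinAt) hd' hy' hy
  have e : (R : ℂ) ^ 2 * (cc Z₀ R y - cc Z₀ R y') - (y - y') =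
      (R : ℂ) ^ 2 * cc Z₀ R y - y - ((R : ℂ) ^ 2 * cc Z₀ R y' - y') := by ring
  rw [e]
  linarith

theorem lip (h : Cx E Λ Z₀ R) (hy : y ∈ D Λ R) {y' : ℂ} (hy' : y' ∈ D Λ R) :
    ‖y - y'‖ ≤ 2 * R ^ 2 * ‖cc Z₀ R y - cc Z₀ R y'‖ := by
  have h1 := h.approx hy hy'
  have h2 := norm_le_norm_add_norm_sub ((R : ℂ) ^ 2 * (cc Z₀ R y - cc Z₀ R y')) (y - y')
  rw [norm_mul, h.norm_sq] at h2
  have h3 : 0 ≤ R ^ 2 * ‖cc Z₀ R y - cc Z₀ R y'‖ := by positivity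
  linarith

theorem inj (h : Cx E Λ Z₀ R) : InjOn (cc Z₀ R) (D Λ R) := fun y hy y' hy' e => by
  have := h.lip hy hy'
  rw [e, sub_self, norm_zero, mul_zero] at this
  exact sub_eq_zero.1 (norm_le_zero_iff.1 this)

theorem expand (h : Cx E Λ Z₀ R) (y : ℂ) : cc Z₀ R y * (R : ℂ) ^ 2 - 2 = (y - 4) +
    (2 * Y0 R y + (R : ℂ) ^ 2 * Fc Z₀ R y) +
    (R : ℂ) ^ 2 / ((R : ℂ) ^ 2 - 2) ^ 2 * ((y - 4 + 2) ^ 2 * ell Z₀ R y) := by
  have hg := h.g_ne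
  rw [Fc, Y0]
  field_simp
  ring

theorem err_le (h : Cx E Λ Z₀ R) (hy : y ∈ D Λ R) :
    ‖2 * Y0 R y + (R : ℂ) ^ 2 * Fc Z₀ R y‖ ≤ (13 + E) / R ^ 2 := by
  have hR := h.pos
  have h1 := h.normY hy
  have h2 := mul_le_mul_of_nonneg_left (h.exp y (h.sub hy)) (sq_nonneg R)
  have h3 : R ^ 2 * (E / R ^ 4) = E / R ^ 2 := by field_simp
  have h4 : (13 + E) / R ^ 2 = 2 * (6.5 / R ^ 2) + E / R ^ 2 := by ring
  refine (norm_add_le _ _).trans ?_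
  rw [norm_mul, norm_mul, h.norm_sq, Complex.norm_ofNat]
  linarith

theorem coef_le (h : Cx E Λ Z₀ R) : R ^ 2 / (R ^ 2 - 2) ^ 2 ≤ (1 + 5 / R ^ 2) / R ^ 2 := by
  have hR := h.pos
  have h1 : 100 ≤ R ^ 2 := by linarith [h.sq_ge, h.big]
  have hgp : 0 < R ^ 2 - 2 := by linarith
  have e : (1 + 5 / R ^ 2) / R ^ 2 = (R ^ 2 + 5) / (R ^ 2) ^ 2 := by field_simp
  rw [e, div_le_div_iff₀ (by positivity) (by positivity)]
  nlinarith

/-- the a priori bound for the preimages -/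
theorem apriori (h : Cx E Λ Z₀ R) (hy : y ∈ D Λ R) {L : ℝ} (hc : cc Z₀ R y ∈ Om L R) :
    y ∈ D (L - (E + 200) / 4) R := by
  have hR := h.pos
  have hp := h.par hy
  rw [mem_Om_iff hR] at hc
  set t := y - 4 with ht
  have t4 : ‖t‖ ≤ 4 := hp.hy.le
  have hre := h.ell_re hy
  have him := ell_im Z₀ R y
  set w := (t + 2) ^ 2 * (starRingEnd ℂ) t with hw
  have w1 : -4 * ‖t‖ ≤ w.re := re_key t t4
  have w2 : |w.im| ≤ 36 * ‖t‖ := by
    refine (Complex.abs_im_le_norm w).trans ?_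
    rw [hw, norm_mul, norm_pow, Complex.norm_conj]
    have : ‖t + 2‖ ≤ 6 := (norm_add_le _ _).trans (by rw [Complex.norm_ofNat]; linarith)
    exact mul_le_mul_of_nonneg_right
      ((pow_le_pow_left₀ (norm_nonneg _) this 2).trans (by norm_num)) (norm_nonneg _)
  have w3 : -(16 * Real.log R + 144) * ‖t‖ ≤ (w * ell Z₀ R y).re := by
    rw [Complex.mul_re]
    have p1 : -4 * ‖t‖ * (ell Z₀ R y).re ≤ w.re * (ell Z₀ R y).re :=
      mul_le_mul_of_nonneg_right w1 hre.1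
    have p2 : ‖t‖ * (ell Z₀ R y).re ≤ ‖t‖ * (4 * Real.log R) :=
      mul_le_mul_of_nonneg_left hre.2 (norm_nonneg _)
    have p3 : w.im * (ell Z₀ R y).im ≤ 36 * ‖t‖ * 4 := by
      refine (le_abs_self _).trans ?_
      rw [abs_mul]
      exact mul_le_mul w2 him (abs_nonneg _) (by positivity)
    linarith
  set u := 2 * Y0 R y + (R : ℂ) ^ 2 * Fc Z₀ R y with hu
  have e : ((cc Z₀ R y * (R : ℂ) ^ 2 - 2) * (starRingEnd ℂ) t).re =
      ‖t‖ ^ 2 + (u * (starRingEnd ℂ) t).re + R ^ 2 / (R ^ 2 - 2) ^ 2 * (w * ell Z₀ R y).re := by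
    have e1 : (cc Z₀ R y * (R : ℂ) ^ 2 - 2) * (starRingEnd ℂ) t = ((‖t‖ ^ 2 : ℝ) : ℂ) +
        u * (starRingEnd ℂ) t + ((R ^ 2 / (R ^ 2 - 2) ^ 2 : ℝ) : ℂ) * (w * ell Z₀ R y) := by
      rw [h.expand y, Complex.sq_norm, ← Complex.mul_conj, hw]
      push_cast
      ring
    rw [e1, Complex.add_re, Complex.add_re, Complex.ofReal_re, Complex.re_ofReal_mul]
  have u1 : -((13 + E) / R ^ 2 * ‖t‖) ≤ (u * (starRingEnd ℂ) t).re := by
    refine le_trans ?_ (abs_le.1 (Complex.abs_re_le_norm _)).1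
    rw [norm_mul, Complex.norm_conj, neg_le_neg_iff]
    exact mul_le_mul_of_nonneg_right (h.err_le hy) (norm_nonneg _)
  have l0 := h.one_le_log
  have u2 : -((16 * Real.log R + 150) / R ^ 2 * ‖t‖) ≤
      R ^ 2 / (R ^ 2 - 2) ^ 2 * (w * ell Z₀ R y).re := by
    have p1 := mul_le_mul_of_nonneg_left w3 (show 0 ≤ R ^ 2 / (R ^ 2 - 2) ^ 2 by positivity)
    have p2 : R ^ 2 / (R ^ 2 - 2) ^ 2 * (16 * Real.log R + 144) ≤
        (16 * Real.log R + 150) / R ^ 2 := by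
      refine (mul_le_mul_of_nonneg_right h.coef_le (by positivity)).trans ?_
      rw [div_mul_eq_mul_div]
      refine div_le_div_of_nonneg_right ?_ (by positivity)
      have p3 : 5 / R ^ 2 * (16 * Real.log R + 144) ≤ 6 := by
        rw [div_mul_eq_mul_div, div_le_iff₀ (by positivity)]
        linarith [h.sq_ge, h.big, h.log_le]
      linarith
    have p4 := mul_le_mul_of_nonneg_right p2 (norm_nonneg t)
    linarith
  have u3 : ((cc Z₀ R y * (R : ℂ) ^ 2 - 2) * (starRingEnd ℂ) t).re ≤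
      ‖cc Z₀ R y * (R : ℂ) ^ 2 - 2‖ * ‖t‖ := by
    refine (Complex.re_le_norm _).trans (le_of_eq ?_)
    rw [norm_mul, Complex.norm_conj]
  have u4 : ‖t‖ ≤ ‖cc Z₀ R y * (R : ℂ) ^ 2 - 2‖ + (13 + E) / R ^ 2 +
      (16 * Real.log R + 150) / R ^ 2 := by
    rcases (norm_nonneg t).eq_or_lt with h0 | h0
    · rw [← h0]
      have := h.hE
      positivity
    · refine le_of_mul_le_mul_right ?_ h0
      nlinarith
  have u5 : (13 + E) / R ^ 2 + (16 * Real.log R + 150) / R ^ 2 -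
      (16 * Real.log R + 4 * L) / R ^ 2 ≤ -(4 * (L - (E + 200) / 4) / R ^ 2) := by
    rw [← add_div, ← sub_div, ← neg_div]
    exact div_le_div_of_nonneg_right (by linarith) (by positivity)
  rw [D, mem_ball_iff_norm]
  linarith

theorem room (h : Cx E Λ Z₀ R) {L : ℝ} (hL : L ≤ 8 * Λ) :
    (16 * Real.log R + 4 * L) / R ^ 2 ≤ 1 := by
  rw [div_le_one (by have := h.pos; positivity)]
  linarith [h.sq_ge, h.big, h.log_le, h.ΛR]

theorem small (h : Cx E Λ Z₀ R) : ball 0 (1 / R ^ 2) ⊆ Om (8 * Λ) R := by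
  intro c hc
  have hR := h.pos
  rw [mem_ball_zero_iff, lt_div_iff₀ (by positivity)] at hc
  rw [mem_Om_iff hR]
  have h1 := norm_sub_le (c * (R : ℂ) ^ 2) 2
  rw [norm_mul, h.norm_sq, Complex.norm_ofNat] at h1
  linarith [h.room le_rfl]

theorem nest (h : Cx E Λ Z₀ R) {R' L : ℝ} (hR' : R ≤ R') (hL : L ≤ 8 * Λ) :
    Om L R' ⊆ Om L R := by
  have hR := h.pos
  have hR2 : 0 < R' := by linarith
  refine ball_subset_ball' ?_
  have h1 : 1 / R' ^ 2 ≤ 1 / R ^ 2 := by gcongr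
  have h2 : dist ((2 / R' ^ 2 : ℝ) : ℂ) ((2 / R ^ 2 : ℝ) : ℂ) = 2 * (1 / R ^ 2 - 1 / R' ^ 2) := by
    rw [Complex.dist_eq, ← Complex.ofReal_sub, Complex.norm_real, Real.norm_eq_abs, abs_sub_comm,
      show 2 / R ^ 2 - 2 / R' ^ 2 = 2 * (1 / R ^ 2 - 1 / R' ^ 2) by ring,
      abs_of_nonneg (by linarith)]
  have h3 : Real.log R ≤ Real.log R' := Real.log_le_log hR hR'
  have h4 := h.room hL
  have e : ∀ m s : ℝ, (4 - m / s ^ 2) / s ^ 2 = 4 * (1 / s ^ 2) - m * (1 / s ^ 2) ^ 2 := by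
    intro m s
    ring
  rw [h2, e, e]
  rw [div_eq_mul_one_div] at h4
  have h5 : 0 < 1 / R' ^ 2 := by positivity
  set a := 1 / R ^ 2
  set b := 1 / R' ^ 2
  set m := 16 * Real.log R + 4 * L
  have h6 : m * b ^ 2 ≤ (16 * Real.log R' + 4 * L) * b ^ 2 :=
    mul_le_mul_of_nonneg_right (by linarith) (sq_nonneg b)
  have h7 : m * (a + b) ≤ 2 := by
    rcases le_total m 0 with hm | hm
    · nlinarith
    · nlinarith
  nlinarith [mul_le_mul_of_nonneg_right h7 (sub_nonneg.2 h1)]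

theorem two_mem (h : Cx E Λ Z₀ R) : (2 : ℂ) ∈ D Λ R := by
  rw [D, mem_ball_iff_norm, show (2 : ℂ) - 4 = -2 by norm_num, norm_neg, Complex.norm_ofNat]
  have : 4 * Λ / R ^ 2 ≤ 1 := by
    rw [div_le_one (by have := h.pos; positivity)]
    linarith [h.sq_ge, h.big, h.ΛR]
  linarith

theorem cc_two (Z₀ R : ℝ) : cc Z₀ R 2 = 0 := by simp [cc, Y0]

theorem zero_mem (h : Cx E Λ Z₀ R) : (0 : ℂ) ∈ Om (2 * Λ) R :=
  Om_mono h.pos (by linarith [h.hΛ]) (h.small (mem_ball_self (by have := h.pos; positivity)))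

theorem surj (h : Cx E Λ Z₀ R) : Om (2 * Λ) R ⊆ cc Z₀ R '' D Λ R := by
  have hR := h.pos
  have ho : IsOpen (cc Z₀ R '' D Λ R) := by
    refine isOpen_iff_mem_nhds.2 ?_
    rintro _ ⟨y, hy, rfl⟩
    obtain ⟨d, hd, hd'⟩ := h.deriv_cc hy
    have h1 := (h.hol.analyticAt (isOpen_ball.mem_nhds (h.sub hy))).hasStrictDerivAt
    rw [← h1.map_nhds_eq (hd.deriv ▸ deriv_ne hd')]
    exact image_mem_map (isOpen_ball.mem_nhds hy)
  have hK : closedBall (4 : ℂ) (4 - 4 * (2 * Λ - (E + 200) / 4) / R ^ 2) ⊆ D Λ R := by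
    refine closedBall_subset_ball ?_
    have : 4 * Λ / R ^ 2 < 4 * (2 * Λ - (E + 200) / 4) / R ^ 2 :=
      div_lt_div_of_pos_right (by linarith [h.hΛ, h.hEΛ]) (by positivity)
    linarith
  have hc : IsClosed (cc Z₀ R '' closedBall (4 : ℂ) (4 - 4 * (2 * Λ - (E + 200) / 4) / R ^ 2)) :=
    ((isCompact_closedBall _ _).image_of_continuousOn
      (h.hol.continuousOn.mono (hK.trans h.sub))).isClosed
  have key := (convex_ball _ _).isPreconnected.subset_of_closure_inter_subset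
    (s := Om (2 * Λ) R) (u := Om (2 * Λ) R ∩ cc Z₀ R '' D Λ R) (isOpen_ball.inter ho)
    ⟨0, h.zero_mem, h.zero_mem, 2, h.two_mem, cc_two Z₀ R⟩ (by
      rintro c ⟨h1, h2⟩
      refine ⟨h2, image_mono hK (closure_minimal ?_ hc h1)⟩
      rintro _ ⟨h3, y, hy, rfl⟩
      exact ⟨y, ball_subset_closedBall (h.apriori hy h3), rfl⟩)
  exact fun c hc => (key hc).2

end Cx

/-- the inverse map -/
noncomputable def YY (Λ Z₀ R : ℝ) (c : ℂ) : ℂ := Function.invFunOn (cc Z₀ R) (D Λ R) c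

namespace Cx

variable {E Λ Z₀ R : ℝ} {c : ℂ}

theorem Y_mem (h : Cx E Λ Z₀ R) (hc : c ∈ Om (2 * Λ) R) : YY Λ Z₀ R c ∈ D Λ R :=
  Function.invFunOn_mem (h.surj hc)

theorem right (h : Cx E Λ Z₀ R) (hc : c ∈ Om (2 * Λ) R) : cc Z₀ R (YY Λ Z₀ R c) = c :=
  Function.invFunOn_eq (h.surj hc)

theorem Y_lip (h : Cx E Λ Z₀ R) (hc : c ∈ Om (2 * Λ) R) {c' : ℂ} (hc' : c' ∈ Om (2 * Λ) R) :
    ‖YY Λ Z₀ R c - YY Λ Z₀ R c'‖ ≤ 2 * R ^ 2 * ‖c - c'‖ := by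
  have := h.lip (h.Y_mem hc) (h.Y_mem hc')
  rwa [h.right hc, h.right hc'] at this

theorem Y_hol (h : Cx E Λ Z₀ R) : DifferentiableOn ℂ (YY Λ Z₀ R) (Om (2 * Λ) R) := by
  intro c hc
  have hn : Om (2 * Λ) R ∈ 𝓝 c := isOpen_ball.mem_nhds hc
  obtain ⟨d, hd, hd'⟩ := h.deriv_cc (h.Y_mem hc)
  have h1 : LipschitzOnWith (2 * R ^ 2).toNNReal (YY Λ Z₀ R) (Om (2 * Λ) R) :=
    LipschitzOnWith.of_dist_le' fun x hx z hz => by
      rw [dist_eq_norm, dist_eq_norm]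
      exact h.Y_lip hx hz
  exact (hd.of_local_left_inverse (h1.continuousOn.continuousAt hn) (deriv_ne hd')
    (mem_of_superset hn fun z hz => h.right hz)).differentiableAt.differentiableWithinAt

theorem Y_real (h : Cx E Λ Z₀ R) (hc : c ∈ Om (2 * Λ) R) (him : c.im = 0) :
    (YY Λ Z₀ R c).im = 0 := by
  have hy := h.Y_mem hc
  have hs : star (YY Λ Z₀ R c) ∈ D Λ R := by
    rw [D, mem_ball_iff_norm] at hy ⊢
    rwa [show star (YY Λ Z₀ R c) - 4 = star (YY Λ Z₀ R c - 4) by simp, norm_star]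
  have h1 : star c = c := Complex.conj_eq_iff_im.2 him
  exact Complex.conj_eq_iff_im.1 (h.inj hs hy (by
    rw [cc_star (h.par hy) (h.par hs), h.right hc, h1]))

theorem Y_close (h : Cx E Λ Z₀ R) (hc : c ∈ Om (2 * Λ) R) :
    ‖YY Λ Z₀ R c - (2 + c * (R : ℂ) ^ 2)‖ ≤ (E + 1000) * Real.log R / R ^ 2 := by
  have hy := h.Y_mem hc
  have hR := h.pos
  have e := h.expand (YY Λ Z₀ R c)
  rw [h.right hc] at e
  set y := YY Λ Z₀ R c
  have e2 : y - (2 + c * (R : ℂ) ^ 2) = -((2 * Y0 R y + (R : ℂ) ^ 2 * Fc Z₀ R y) +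
      (R : ℂ) ^ 2 / ((R : ℂ) ^ 2 - 2) ^ 2 * ((y - 4 + 2) ^ 2 * ell Z₀ R y)) := by
    linear_combination -e
  rw [e2, norm_neg]
  have l0 := h.one_le_log
  have h1 : ‖(R : ℂ) ^ 2 / ((R : ℂ) ^ 2 - 2) ^ 2‖ ≤ 2 / R ^ 2 := by
    rw [norm_div, norm_pow ((R : ℂ) ^ 2 - 2), h.norm_sq, h.norm_g]
    refine h.coef_le.trans (div_le_div_of_nonneg_right ?_ (by positivity))
    have : 5 / R ^ 2 ≤ 1 := by
      rw [div_le_one (by positivity)]
      linarith [h.sq_ge, h.big]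
    linarith
  have h2 : ‖(y - 4 + 2) ^ 2 * ell Z₀ R y‖ ≤ 36 * (8 * Real.log R) := by
    rw [norm_mul, norm_pow, show y - 4 + 2 = y - 2 by ring]
    exact mul_le_mul ((pow_le_pow_left₀ (norm_nonneg _) (h.par hy).norm_sub_two 2).trans
      (by norm_num)) (h.norm_ell hy) (norm_nonneg _) (by norm_num)
  refine (norm_add_le _ _).trans ((add_le_add (h.err_le hy) ((norm_mul_le _ _).trans
    (mul_le_mul h1 h2 (norm_nonneg _) (by positivity)))).trans ?_)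
  rw [div_mul_eq_mul_div, ← add_div]
  refine div_le_div_of_nonneg_right ?_ (by positivity)
  nlinarith [h.hE]

end Cx

end IV

open IV in
theorem inv_proof (hE : EStmt) : InvStmt := by
  obtain ⟨E, hE⟩ := hE
  obtain ⟨CL, Λ₁, hL⟩ := lipR_proof 200000000 (by norm_num)
  refine ⟨|E| + 1000 + 7 * (|CL| + 200000000), max (max 10000000000 (100 * |E|)) Λ₁,
    fun C Λ Z₀ hC hCΛ hΛ hZ hZ2 => ⟨Z₀ ^ 2, YY Λ Z₀, fun R₀ hR₀ => ?_⟩⟩
  have hΛ1 : 10000000000 ≤ Λ := (le_max_left _ _).trans ((le_max_left _ _).trans hΛ)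
  have hΛ2 : 100 * |E| ≤ Λ := (le_max_right _ _).trans ((le_max_left _ _).trans hΛ)
  have hΛ3 : Λ₁ ≤ Λ := (le_max_right _ _).trans hΛ
  have hE0 := abs_nonneg E
  have hL0 := abs_nonneg CL
  have cx : ∀ R, R₀ ≤ R → Cx |E| Λ Z₀ R := fun R hR => by
    have h1 : Z₀ ^ 2 ≤ R := hR₀.trans hR
    have h2 : Z₀ ≤ R := by nlinarith
    refine ⟨hE0, hΛ1, hΛ2, hZ, hZ2, h1, fun y hy => ?_⟩
    exact (hE (Λ / 2) Z₀ R y (par_of_mem (by linarith) hZ (by linarith) h2 hy) h1).trans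
      (div_le_div_of_nonneg_right (le_abs_self E) (by positivity))
  refine ⟨fun R hR y hy y' hy' => (cx R hR).approx hy hy', fun R hR L hL c hc => ?_, hCΛ,
    fun R hR c hc => (cx R hR).right hc, fun R hR => (cx R hR).Y_hol,
    fun R hR c hc => (cx R hR).Y_real hc, fun R hR => ?_, fun R hR c hc => ?_,
    fun R hR c hc c' hc' => (cx R hR).Y_lip hc hc', fun R R' hR h1 h2 c hc => ?_,
    fun R R' hR h1 L _ h3 => (cx R hR).nest h1 h3, fun R hR => (cx R hR).small⟩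
  · have h := cx R hR
    have hc' := Om_mono h.pos hL hc
    exact D_mono (by linarith) (h.apriori (L := L) (h.Y_mem hc') (by rwa [h.right hc']))
  · have h := cx R hR
    exact h.inj (h.Y_mem h.zero_mem) h.two_mem (by rw [h.right h.zero_mem, Cx.cc_two])
  · have h := cx R hR
    refine (h.Y_close hc).trans (div_le_div_of_nonneg_right
      (mul_le_mul_of_nonneg_right (by linarith) (by linarith [h.one_le_log])) (by positivity))
  · have h := cx R hR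
    have h' := cx R' (hR.trans h1)
    have hp := h.pos
    have hc0 := h.nest h1 (show 2 * Λ ≤ 8 * Λ by linarith) hc
    have s := (h.par (h.Y_mem hc0)).sol
    have s' := (h'.par (h'.Y_mem hc)).sol
    rw [h.right hc0] at s
    rw [h'.right hc] at s'
    have q1 := (hL Λ Z₀ R R' _ _ c _ _ _ _ hΛ3 hZ hZ2 h.Z10 h1 h2 s s' R ⟨h.ZR, le_rfl⟩).1
    rw [ex_self, mul_one, s.tip] at q1
    have hsub : Icc R R' ⊆ Icc Z₀ R' := Icc_subset_Icc h.ZR le_rfl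
    have q2 := (convex_Icc R R').norm_image_sub_le_of_norm_hasDerivWithin_le
      (f := VV Z₀ R' (YY Λ Z₀ R' c)) (f' := PP Z₀ R' (YY Λ Z₀ R' c))
      (C := 200000000 * ‖c‖ * R') (fun z hz => (s'.d0 z (hsub hz)).mono hsub)
      (fun z hz => (s'.b1 z (hsub hz)).trans (mul_le_mul_of_nonneg_left hz.2 (by positivity)))
      (left_mem_Icc.2 h1) (right_mem_Icc.2 h1)
    rw [s'.tip, Real.norm_of_nonneg (sub_nonneg.2 h1)] at q2
    have q3 : ‖c‖ * R' ≤ 7 / R := by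
      have p1 := mul_le_mul_of_nonneg_right s'.c_le h'.pos.le
      have p2 : 7 / R' ^ 2 * R' = 7 / R' := by have := h'.pos; field_simp
      have p3 : 7 / R' ≤ 7 / R := by gcongr
      linarith
    have q4 : ‖c‖ * R ≤ 7 / R := (mul_le_mul_of_nonneg_left h1 (norm_nonneg c)).trans q3
    have d0 : 0 ≤ R' - R := sub_nonneg.2 h1
    have q5 : CL * ‖c‖ * (R' - R) * R ≤ |CL| * (R' - R) * (7 / R) := by
      calc CL * ‖c‖ * (R' - R) * R = CL * ((R' - R) * (‖c‖ * R)) := by ring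
        _ ≤ |CL| * ((R' - R) * (7 / R)) := mul_le_mul (le_abs_self _)
            (mul_le_mul_of_nonneg_left q4 d0) (by positivity) hL0
        _ = _ := by ring
    have q6 : 200000000 * ‖c‖ * R' * (R' - R) ≤ 200000000 * (R' - R) * (7 / R) := by
      have := mul_le_mul_of_nonneg_left q3 d0
      linarith
    have q7 := norm_sub_le_norm_sub_add_norm_sub (YY Λ Z₀ R' c) (VV Z₀ R' (YY Λ Z₀ R' c) R)
      (YY Λ Z₀ R c)
    have q8 : 7 * (|CL| + 200000000) * (R' - R) / R ≤ C * (R' - R) / R :=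
      div_le_div_of_nonneg_right (mul_le_mul_of_nonneg_right (by linarith) d0) hp.le
    have q9 : 7 * (|CL| + 200000000) * (R' - R) / R =
        |CL| * (R' - R) * (7 / R) + 200000000 * (R' - R) * (7 / R) := by ring
    linarith

end Vale.Agent.P218F.Sym
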