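import Vale.Agent.P218F.SymSpec2
import Mathlib.Analysis.ODE.ExistUnique
import Mathlib.Analysis.Calculus.ContDiff.RCLike
import Mathlib.Analysis.Calculus.Deriv.Prod
import Mathlib.Analysis.SpecialFunctions.Pow.Asymptotics

/-! The inner limit at the tip of the symmetric solutions (helper69). -/

open Set Filter Topology Metric
open scoped BoundedContinuousFunction

namespace Vale.Agent.P218F.Sym

namespace T2

/-- limits along an ultrafilter of approximate solutions of an autonomous equation -/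
lemma lim_ode {E ι : Type*} [NormedAddCommGroup E] [NormedSpace ℝ E] [ProperSpace E]
    (U : Ultrafilter ι) {X X' : ι → ℝ → E} {G : E → E} {S : Set E} (hS : IsClosed S)
    (hG : ContinuousOn G S) {x0 : E} (h0 : Tendsto (fun i => X i 0) U (𝓝 x0))
    (h : ∀ T, ∃ B, 0 < B ∧ ∀ ε, 0 < ε → ∀ᶠ i in U, ∀ t ∈ Icc 0 T,
      HasDerivWithinAt (X i) (X' i t) (Icc 0 T) t ∧ X i t ∈ S ∧ ‖X' i t‖ ≤ B ∧
        ‖X' i t - G (X i t)‖ ≤ ε * (1 + ‖X i t‖)) :
    ∃ x : ℝ → E, ∀ t, 0 ≤ t → Tendsto (fun i => X i t) U (𝓝 (x t)) ∧ x t ∈ S ∧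
      HasDerivWithinAt x (G (x t)) (Ici 0) t := by
  have ex : ∀ t, 0 ≤ t → ∃ z, Tendsto (fun i => X i t) U (𝓝 z) := fun t ht => by
    obtain ⟨B, B0, hB⟩ := h t
    have : ∀ᶠ i in U, X i t ∈ closedBall x0 (B * t + 1) := by
      filter_upwards [hB 1 one_pos, h0.eventually (ball_mem_nhds x0 one_pos)] with i h1 h2
      have := (convex_Icc 0 t).norm_image_sub_le_of_norm_hasDerivWithin_le
        (fun r hr => (h1 r hr).1) (fun r hr => (h1 r hr).2.2.1) (left_mem_Icc.2 ht)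
        (right_mem_Icc.2 ht)
      rw [sub_zero, Real.norm_of_nonneg ht, ← dist_eq_norm] at this
      have h3 := dist_triangle (X i t) (X i 0) x0
      rw [mem_closedBall]
      linarith [mem_ball.1 h2]
    obtain ⟨z, -, hz⟩ := (isCompact_closedBall x0 (B * t + 1)).ultrafilter_le_nhds
      (U.map fun i => X i t) (le_principal_iff.2 this)
    exact ⟨z, hz⟩
  choose! x hx using ex
  have mem : ∀ t, 0 ≤ t → x t ∈ S := fun t ht => by
    obtain ⟨B, -, hB⟩ := h t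
    exact hS.mem_of_tendsto (hx t ht) ((hB 1 one_pos).mono fun i hi =>
      (hi t (right_mem_Icc.2 ht)).2.1)
  refine ⟨x, fun t ht => ⟨hx t ht, mem t ht, ?_⟩⟩
  obtain ⟨B, B0, hB⟩ := h (t + 1)
  rw [hasDerivWithinAt_iff_isLittleO, Asymptotics.isLittleO_iff]
  intro ε e0
  obtain ⟨δ, d0, hδ⟩ := Metric.continuousWithinAt_iff.1 (hG _ (mem t ht)) (ε / 2) (by positivity)
  set ρ := min 1 (min δ 1 / (2 * B)) with hρ
  have r0 : 0 < ρ := by positivity
  have r1 : ρ ≤ 1 := min_le_left _ _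
  have r2 : B * ρ ≤ min δ 1 / 2 := by
    have := mul_le_mul_of_nonneg_left (min_le_right 1 (min δ 1 / (2 * B))) B0.le
    rwa [show B * (min δ 1 / (2 * B)) = min δ 1 / 2 by field_simp] at this
  have cv : Convex ℝ (Ici (0 : ℝ) ∩ closedBall t ρ) := (convex_Ici 0).inter (convex_closedBall _ _)
  have sub : Ici (0 : ℝ) ∩ closedBall t ρ ⊆ Icc 0 (t + 1) := fun r hr =>
    ⟨hr.1, by have := abs_le.1 (Real.dist_eq r t ▸ mem_closedBall.1 hr.2); linarith [this.2]⟩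
  have tm : t ∈ Ici (0 : ℝ) ∩ closedBall t ρ := ⟨ht, mem_closedBall_self r0.le⟩
  filter_upwards [inter_mem_nhdsWithin (Ici (0 : ℝ)) (closedBall_mem_nhds t r0)] with τ hτ
  have lim : Tendsto (fun i => ‖X i τ - τ • G (x t) - (X i t - t • G (x t))‖) U
      (𝓝 ‖x τ - τ • G (x t) - (x t - t • G (x t))‖) :=
    (((hx τ hτ.1).sub_const _).sub ((hx t ht).sub_const _)).norm
  rw [show x τ - x t - (τ - t) • G (x t) = x τ - τ • G (x t) - (x t - t • G (x t)) by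
    rw [sub_smul]; abel]
  refine le_of_tendsto lim ?_
  filter_upwards [hB (ε / 2 / (2 + ‖x t‖)) (by positivity),
    (hx t ht).eventually (ball_mem_nhds (x t) (show 0 < min δ 1 / 2 by positivity))] with i h1 h2
  refine cv.norm_image_sub_le_of_norm_hasDerivWithin_le (f := fun r => X i r - r • G (x t))
    (f' := fun r => X' i r - G (x t)) (fun r hr => ?_) (fun r hr => ?_) tm hτ
  · simpa using ((h1 r (sub hr)).1.mono sub).fun_sub
      ((hasDerivWithinAt_id r _).smul_const (G (x t)))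
  · have h3 := cv.norm_image_sub_le_of_norm_hasDerivWithin_le
      (fun r hr => (h1 r (sub hr)).1.mono sub) (fun r hr => (h1 r (sub hr)).2.2.1) tm hr
    have h4 : ‖r - t‖ ≤ ρ := by simpa [dist_eq_norm] using hr.2
    have h5 : dist (X i r) (x t) < min δ 1 := by
      have := dist_triangle (X i r) (X i t) (x t)
      rw [← dist_eq_norm] at h3
      nlinarith [mem_ball.1 h2]
    have h6 := hδ (h1 r (sub hr)).2.1 (h5.trans_le (min_le_left _ _))
    have h7 : ‖X i r‖ ≤ ‖x t‖ + 1 := by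
      have := norm_sub_norm_le (X i r) (x t)
      rw [← dist_eq_norm] at this
      linarith [min_le_right δ 1]
    have h8 : ε / 2 / (2 + ‖x t‖) * (1 + ‖X i r‖) ≤ ε / 2 := by
      calc _ ≤ ε / 2 / (2 + ‖x t‖) * (2 + ‖x t‖) :=
            mul_le_mul_of_nonneg_left (by linarith) (by positivity)
        _ = _ := by field_simp
    have h9 := norm_sub_le_norm_sub_add_norm_sub (X' i r) (G (X i r)) (G (x t))
    rw [dist_eq_norm] at h6
    linarith [(h1 r (sub hr)).2.2.2]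

/-- the tip vector field -/
noncomputable def G (x : ℂ × ℂ) : ℂ × ℂ := (2 * x.2, 1 - x.2 + x.2 ^ 2 * (2 - x.2) / x.1)

/-- the region of the trajectories -/
def S : Set (ℂ × ℂ) := {x | 1 / 4 ≤ x.1.re}

lemma ne_of_S {x : ℂ × ℂ} (h : x ∈ S) : x.1 ≠ 0 := fun e => by
  simp only [S, mem_ofPred_eq, e, Complex.zero_re] at h
  norm_num at h

lemma S_closed : IsClosed S := isClosed_le continuous_const (by fun_prop)

lemma S_convex : Convex ℝ S := by
  intro x hx y hy a b ha hb hab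
  simp only [S, mem_ofPred_eq, Prod.fst_add, Prod.smul_fst, Complex.add_re, Complex.smul_re,
    smul_eq_mul] at hx hy ⊢
  nlinarith

lemma G_cd : ContDiffOn ℝ 1 G S := by
  refine ContDiffOn.restrict_scalars (𝕜' := ℂ) ℝ
    (ContDiffOn.prodMk (by fun_prop) (ContDiffOn.add (by fun_prop) ?_))
  exact ContDiffOn.div (by fun_prop) (by fun_prop) fun x hx => ne_of_S hx

/-- trajectories in the region -/
def Tr (σ η : ℂ) : Prop :=
  ∃ x : ℝ → ℂ × ℂ, x 0 = (σ, 0) ∧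
    (∀ t, 0 ≤ t → x t ∈ S ∧ HasDerivWithinAt x (G (x t)) (Ici 0) t) ∧
    Tendsto (fun t : ℝ => (x t).1 - Complex.log (x t).1 - 2 * t) atTop (𝓝 η)

lemma Tr.traj {σ η : ℂ} (h : Tr σ η) : Traj σ η := by
  obtain ⟨x, h0, h1, h2⟩ := h
  refine ⟨fun t => (x t).1, fun t => (x t).2, by simp [h0], by simp [h0], fun t ht =>
    ⟨ne_of_S (h1 t ht).1, ?_, ?_⟩, h2⟩
  · exact (ContinuousLinearMap.fst ℝ ℂ ℂ).hasFDerivAt.comp_hasDerivWithinAt t (h1 t ht).2
  · exact (ContinuousLinearMap.snd ℝ ℂ ℂ).hasFDerivAt.comp_hasDerivWithinAt t (h1 t ht).2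

lemma Tr.unique {σ η η' : ℂ} (h : Tr σ η) (h' : Tr σ η') : η = η' := by
  obtain ⟨x, h0, h1, h2⟩ := h
  obtain ⟨x', h0', h1', h2'⟩ := h'
  refine tendsto_nhds_unique h2 (h2'.congr' ?_)
  filter_upwards [eventually_ge_atTop (0 : ℝ)] with T hT
  have c : ContinuousOn x (Icc 0 T) := fun t ht =>
    (h1 t ht.1).2.continuousWithinAt.mono Icc_subset_Ici_self
  have c' : ContinuousOn x' (Icc 0 T) := fun t ht =>
    (h1' t ht.1).2.continuousWithinAt.mono Icc_subset_Ici_self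
  obtain ⟨M, hM⟩ := isCompact_Icc.exists_bound_of_continuousOn c
  obtain ⟨M', hM'⟩ := isCompact_Icc.exists_bound_of_continuousOn c'
  obtain ⟨K, hK⟩ := (G_cd.mono (inter_subset_left (t := closedBall 0 (max M M')))).exists_lipschitzOnWith
    one_ne_zero (S_convex.inter (convex_closedBall _ _))
    ((isCompact_closedBall _ _).inter_left S_closed)
  have := ODE_solution_unique_of_mem_Icc_right (v := fun _ => G)
    (s := fun _ => S ∩ closedBall 0 (max M M')) (fun _ _ => hK) c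
    (fun t ht => (h1 t ht.1).2.mono (Ici_subset_Ici.2 ht.1))
    (fun t ht => ⟨(h1 t ht.1).1, mem_closedBall_zero_iff.2
      ((hM t (Ico_subset_Icc_self ht)).trans (le_max_left _ _))⟩) c'
    (fun t ht => (h1' t ht.1).2.mono (Ici_subset_Ici.2 ht.1))
    (fun t ht => ⟨(h1' t ht.1).1, mem_closedBall_zero_iff.2
      ((hM' t (Ico_subset_Icc_self ht)).trans (le_max_right _ _))⟩) (h0.trans h0'.symm)
    (right_mem_Icc.2 hT)
  rw [this]

/-- the rescaled variable -/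
noncomputable def zz (R t : ℝ) : ℝ := R - 2 * t / R

/-- the rescaled solution -/
noncomputable def Xr (R : ℝ) (v p : ℝ → ℂ) (t : ℝ) : ℂ × ℂ :=
  ((R : ℂ) ^ 2 / 4 * v (zz R t), -(R : ℂ) / 4 * p (zz R t))

/-- its derivative -/
noncomputable def Xd (R : ℝ) (v p : ℝ → ℂ) (t : ℝ) : ℂ × ℂ :=
  (2 * (Xr R v p t).2, Fv (zz R t) (v (zz R t)) (p (zz R t)) / 2)

lemma zz_mem {Z₀ R T t : ℝ} (hR : 0 < R) (hT : 2 * T / R ≤ R - Z₀) (ht : t ∈ Icc 0 T) :
    zz R t ∈ Icc Z₀ R := by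
  have h1 : 2 * t / R ≤ 2 * T / R := by gcongr; exact ht.2
  have h2 : 0 ≤ 2 * t / R := by have := ht.1; positivity
  constructor <;> simp only [zz] <;> linarith

lemma resc {C Λ Z₀ R T : ℝ} {y c : ℂ} {v p : ℝ → ℂ} (h : Sol C Λ Z₀ R y c v p) (hC : 1 ≤ C)
    (hΛ : 1 ≤ Λ) (hZ : 0 < Z₀) (hR : 1 ≤ R) (hT : 2 * T / R ≤ R - Z₀) {t : ℝ} (ht : t ∈ Icc 0 T) :
    HasDerivWithinAt (Xr R v p) (Xd R v p t) (Icc 0 T) t ∧ Xr R v p t ∈ S ∧
      ‖Xd R v p t‖ ≤ 11 * C ∧ ‖Xd R v p t - G (Xr R v p t)‖ ≤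
        (2 + 8 * C ^ 2 + 4 * T * C * (1 + 16 * C ^ 2)) * (R ^ 2)⁻¹ * (1 + ‖Xr R v p t‖) := by
  have R0 : 0 < R := by linarith
  have Rc : (R : ℂ) ≠ 0 := by exact_mod_cast R0.ne'
  have hz := zz_mem R0 hT ht
  have dz : HasDerivWithinAt (zz R) (-(2 / R)) (Icc 0 T) t :=
    ((((hasDerivWithinAt_id t (Icc 0 T)).const_mul 2).div_const R).const_sub R).congr_deriv
      (by simp)
  have mz : MapsTo (zz R) (Icc 0 T) (Icc Z₀ R) := fun r hr => zz_mem R0 hT hr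
  set z := zz R t with hzd
  have z0 : 0 < z := hZ.trans_le hz.1
  have zR : z ^ 2 ≤ R ^ 2 := by gcongr; exact hz.2
  have r0 : 0 ≤ (v z).re := by
    by_contra hh
    nlinarith [h.re_ge z hz, sq_nonneg z]
  have r1 : 1 ≤ R ^ 2 * (v z).re := by nlinarith [h.re_ge z hz]
  have mS : Xr R v p t ∈ S := by
    simp only [S, Xr, mem_ofPred_eq, ← hzd]
    rw [show (R : ℂ) ^ 2 / 4 = ((R ^ 2 / 4 : ℝ) : ℂ) by push_cast; ring, Complex.re_ofReal_mul]
    linarith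
  have cR : ‖c‖ * R ^ 2 ≤ 7 := (le_div_iff₀ (by positivity)).1 h.c_le
  have hu : ‖(Xr R v p t).2‖ ≤ 2 * C := by
    simp only [Xr, ← hzd, norm_mul, norm_div, norm_neg, Complex.norm_real, Complex.norm_ofNat,
      Real.norm_of_nonneg R0.le]
    have h1 : ‖p z‖ ≤ C * ‖c‖ * R := (h.b1 z hz).trans (by gcongr; exact hz.2)
    have h2 : R / 4 * ‖p z‖ ≤ R / 4 * (C * ‖c‖ * R) := by gcongr
    nlinarith
  have v0 : v z ≠ 0 := fun e => by rw [e] at r1; norm_num at r1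
  refine ⟨?_, mS, ?_, ?_⟩
  · refine HasDerivWithinAt.prodMk ?_ ?_
    · refine (((h.d0 z hz).scomp t dz mz).const_mul ((R : ℂ) ^ 2 / 4)).congr_deriv ?_
      simp only [Xr, ← hzd, Complex.real_smul]
      push_cast
      field_simp
    · refine (((h.d1 z hz).scomp t dz mz).const_mul (-(R : ℂ) / 4)).congr_deriv ?_
      simp only [← hzd, Complex.real_smul]
      push_cast
      field_simp
      ring
  · rw [Xd, Prod.norm_mk, ← hzd]
    refine max_le (by rw [norm_mul, Complex.norm_two]; linarith) ?_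
    have h1 : 1 / (R ^ 2 * ‖v z‖) ≤ 1 := by
      have := Complex.re_le_norm (v z)
      rw [div_le_one (by have := norm_pos_iff.2 v0; positivity)]
      nlinarith [sq_nonneg R]
    have h2 : ex R z ≤ 1 := Real.exp_le_one_iff.2 (by linarith)
    have h3 : ‖Fv z (v z) (p z)‖ ≤ C * ‖c‖ * (R ^ 2 + R ^ 2 * (1 + 1)) := by
      refine (h.b2 z hz).trans ?_
      have : 0 ≤ ex R z := (Real.exp_pos _).le
      gcongr
      nlinarith
    rw [norm_div, Complex.norm_two]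
    nlinarith
  · have s1 : 1 / 4 ≤ ‖(Xr R v p t).1‖ := mS.trans (Complex.re_le_norm _)
    have s2 : ‖(Xr R v p t).1‖ ≤ ‖Xr R v p t‖ := norm_fst_le _
    have e : Xd R v p t - G (Xr R v p t) = (0, (-2 * (Xr R v p t).1 - 2 * (Xr R v p t).2 ^ 2 +
        2 * t * (Xr R v p t).2 * (1 + (Xr R v p t).2 ^ 2 / (Xr R v p t).1)) * ((R : ℂ) ^ 2)⁻¹) := by
      simp only [Xd, G, Prod.mk_sub_mk, sub_self, Xr, ← hzd, Fv, Prod.mk.injEq, true_and]
      rw [show (z : ℂ) = R - 2 * t / R by simp [hzd, zz]]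
      field_simp
      ring
    rw [e, Prod.norm_mk, norm_zero, max_eq_right (norm_nonneg _), norm_mul, norm_inv, norm_pow,
      Complex.norm_real, Real.norm_of_nonneg R0.le, mul_right_comm _ (R ^ 2)⁻¹]
    refine mul_le_mul_of_nonneg_right ?_ (by positivity)
    generalize (Xr R v p t).1 = s at *
    generalize (Xr R v p t).2 = u at *
    have u2 : ‖u ^ 2‖ ≤ 4 * C ^ 2 := by
      rw [norm_pow]
      nlinarith [norm_nonneg u]
    have u3 : ‖1 + u ^ 2 / s‖ ≤ 1 + 16 * C ^ 2 := by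
      refine (norm_add_le _ _).trans ?_
      rw [norm_one, norm_div]
      gcongr
      rw [div_le_iff₀ (by linarith)]
      nlinarith [sq_nonneg C]
    have u4 : ‖2 * (t : ℂ) * u * (1 + u ^ 2 / s)‖ ≤ 2 * T * (2 * C) * (1 + 16 * C ^ 2) := by
      rw [norm_mul, norm_mul, norm_mul, Complex.norm_two, Complex.norm_real,
        Real.norm_of_nonneg ht.1]
      have := ht.1.trans ht.2
      gcongr
      exact ht.2
    have u5 := (norm_add_le _ _).trans (add_le_add (norm_sub_le (-2 * s) (2 * u ^ 2)) u4)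
    rw [norm_mul, norm_mul, norm_neg, Complex.norm_two] at u5
    have u6 : 0 ≤ (8 * C ^ 2 + 4 * T * C * (1 + 16 * C ^ 2)) * ‖Xr R v p t‖ := by
      have := ht.1.trans ht.2
      positivity
    nlinarith

/-- `(z² - 2) / R²` with `e = R⁻²` -/
noncomputable def aa (t e : ℝ) : ℝ := 1 - (4 * t + 2) * e + 4 * t ^ 2 * e ^ 2

/-- the rescaled tip function -/
noncomputable def Ph (κ t e : ℝ) (s : ℂ) : ℂ :=
  ((-2 * t + 2 * t ^ 2 * e - 1 + κ + Real.log (aa t e) : ℝ) : ℂ) +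
    s * (aa t e * (2 / (2 - 4 * s * e))) - Complex.log s

/-- the rescaled parameter -/
noncomputable def hh (R : ℝ) (c : ℂ) : ℂ := -1 / c - ((R ^ 2 / 2 + 4 * Real.log R : ℝ) : ℂ)

lemma ident {R t κ : ℝ} {v : ℂ} (c : ℂ) (hR : 0 < R) (ha : 0 < aa t (R ^ 2)⁻¹) (hv : 0 < v.re)
    (h2 : v ≠ 2) :
    -1 / c - ((((zz R t : ℝ) : ℂ) ^ 2 - 2) / (2 - v) +
      Complex.log ((((zz R t : ℝ) : ℂ) ^ 2 - 2) / v) + (κ + Real.log 4 : ℝ)) =
      hh R c - Ph κ t (R ^ 2)⁻¹ ((R : ℂ) ^ 2 / 4 * v) := by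
  have Rc : (R : ℂ) ≠ 0 := by exact_mod_cast hR.ne'
  have v0 : v ≠ 0 := fun e => by simp [e] at hv
  have e1 : ((zz R t : ℝ) : ℂ) ^ 2 - 2 = ((aa t (R ^ 2)⁻¹ * R ^ 2 : ℝ) : ℂ) := by
    simp only [zz, aa]
    push_cast
    field_simp
    ring
  have e2 : Complex.log ((((zz R t : ℝ) : ℂ) ^ 2 - 2) / v) =
      (Real.log (aa t (R ^ 2)⁻¹) + 2 * Real.log R : ℝ) - Complex.log v := by
    rw [e1, div_eq_mul_inv, Complex.log_ofReal_mul (by positivity) (inv_ne_zero v0),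
      Complex.log_inv _ (Complex.slitPlane_arg_ne_pi (Or.inl hv)), Real.log_mul ha.ne' (by positivity),
      Real.log_pow]
    push_cast
    ring
  have e3 : Complex.log ((R : ℂ) ^ 2 / 4 * v) =
      (2 * Real.log R - Real.log 4 : ℝ) + Complex.log v := by
    rw [show (R : ℂ) ^ 2 / 4 = ((R ^ 2 / 4 : ℝ) : ℂ) by push_cast; ring,
      Complex.log_ofReal_mul (by positivity) v0, Real.log_div (by positivity) (by norm_num),
      Real.log_pow]
    push_cast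
    ring
  have h3 : 2 - v ≠ 0 := sub_ne_zero.2 h2.symm
  rw [e2, e1, hh, Ph, e3, show 4 * ((R : ℂ) ^ 2 / 4 * v) * (((R ^ 2)⁻¹ : ℝ) : ℂ) = v by
    push_cast; field_simp]
  generalize Real.log (aa t (R ^ 2)⁻¹) = l
  generalize Real.log R = l'
  generalize Real.log 4 = l''
  simp only [aa]
  push_cast
  field_simp
  ring

lemma t_e : Tendsto (fun R : ℝ => (R ^ 2)⁻¹) atTop (𝓝 0) :=
  (tendsto_pow_atTop two_ne_zero).inv_tendsto_atTop

lemma t_aa (t : ℝ) : Tendsto (fun R : ℝ => aa t (R ^ 2)⁻¹) atTop (𝓝 1) := by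
  have c : Continuous (aa t) := by unfold aa; fun_prop
  have := (c.tendsto 0).comp t_e
  rwa [show aa t 0 = 1 by simp [aa]] at this

lemma t_Ph (κ t : ℝ) {l : Filter ℝ} (hl : l ≤ atTop) {s : ℝ → ℂ} {σ : ℂ} (hσ : 0 < σ.re)
    (hs : Tendsto s l (𝓝 σ)) : Tendsto (fun R => Ph κ t (R ^ 2)⁻¹ (s R)) l
      (𝓝 (σ - Complex.log σ - 2 * t - (1 - κ))) := by
  have e := t_e.mono_left hl
  have a := (t_aa t).mono_left hl
  have h1 := ((((e.const_mul (2 * t ^ 2)).const_add (-2 * t)).sub_const 1).add_const κ).add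
    (a.log one_ne_zero)
  have h2 := (hs.mul (a.ofReal.mul ((tendsto_const_nhds (x := (2 : ℂ))).div
    (((hs.const_mul 4).mul e.ofReal).const_sub 2) (by simp))))
  have h3 := (h1.ofReal.add h2).sub (hs.clog (Or.inl hσ))
  refine Tendsto.congr (fun _ => rfl) (h3.trans (le_of_eq (congrArg 𝓝 ?_)))
  simp
  ring

lemma norm_four (w : ℂ) : ‖w - 4‖ ≤ 4 - w.re + ‖w‖ ^ 2 / 8 := by
  have h1 := Complex.re_le_norm w
  refine abs_le_of_sq_le_sq' ?_ (by nlinarith [sq_nonneg (‖w‖ - 4)]) |>.2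
  have h2 : ‖w - 4‖ ^ 2 = 16 - 8 * w.re + ‖w‖ ^ 2 := by
    simp only [Complex.sq_norm, Complex.normSq_apply, Complex.sub_re, Complex.sub_im,
      Complex.re_ofNat, Complex.im_ofNat]
    ring
  nlinarith [sq_nonneg (w.re - ‖w‖ ^ 2 / 8)]

lemma re_of_D {L R : ℝ} {y : ℂ} (hR : 0 < R) (h : y ∈ D L R) : L < ((R : ℂ) ^ 2 * y / 4).re := by
  have h1 := Complex.abs_re_le_norm (y - 4)
  have h2 : ‖y - 4‖ < 4 - 4 * L / R ^ 2 := mem_ball_iff_norm.1 h
  have h3 : 4 * L / R ^ 2 < y.re := by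
    simp only [Complex.sub_re, Complex.re_ofNat] at h1
    linarith [neg_abs_le (y.re - 4)]
  rw [div_lt_iff₀ (by positivity)] at h3
  rw [show (R : ℂ) ^ 2 * y / 4 = ((R ^ 2 / 4 : ℝ) : ℂ) * y by push_cast; ring,
    Complex.re_ofReal_mul]
  linarith

lemma mem_D {Λ : ℝ} {σ : ℂ} (hσ : Λ < σ.re) :
    ∀ᶠ R : ℝ in atTop, 4 * σ / (R : ℂ) ^ 2 ∈ D Λ R := by
  have := (t_e.const_mul (‖σ‖ ^ 2 / 2)).eventually
    (gt_mem_nhds (show ‖σ‖ ^ 2 / 2 * 0 < σ.re - Λ by linarith))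
  filter_upwards [this, eventually_gt_atTop 0] with R h R0
  refine mem_ball_iff_norm.2 ((norm_four _).trans_lt ?_)
  have e0 : 0 < (R ^ 2)⁻¹ := by positivity
  rw [show 4 * σ / (R : ℂ) ^ 2 = ((4 * (R ^ 2)⁻¹ : ℝ) : ℂ) * σ by push_cast; ring,
    Complex.re_ofReal_mul, norm_mul, Complex.norm_real, Real.norm_of_nonneg (by positivity),
    div_eq_mul_inv (4 * Λ)]
  nlinarith [mul_lt_mul_of_pos_left h e0]

lemma t_log : Tendsto (fun R : ℝ => Real.log R / R) atTop (𝓝 0) :=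
  Real.isLittleO_log_id_atTop.tendsto_div_nhds_zero

lemma t_d (s : ℂ) : Tendsto (fun R : ℝ => (8 * (Real.log R : ℂ) + 4 * s) / R) atTop (𝓝 0) := by
  have := (t_log.ofReal.const_mul 8).add
    ((tendsto_inv_atTop_zero (𝕜 := ℝ)).ofReal.const_mul (4 * s))
  refine Tendsto.congr (fun R => ?_) (this.trans (le_of_eq (congrArg 𝓝 (by simp))))
  push_cast
  ring

lemma t_d' (s : ℂ) :
    Tendsto (fun R : ℝ => (8 * (Real.log R : ℂ) + 4 * s) / R * (R : ℂ)⁻¹) atTop (𝓝 0) := by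
  simpa using (t_d s).mul (tendsto_inv_atTop_zero (𝕜 := ℝ)).ofReal

lemma cs_eq {R : ℝ} (s : ℂ) (hR : 0 < R) : cs R s * (R : ℂ) ^ 2 =
    -2 / (1 + (8 * (Real.log R : ℂ) + 4 * s) / R * (R : ℂ)⁻¹) := by
  have Rc : (R : ℂ) ≠ 0 := by exact_mod_cast hR.ne'
  rw [cs, show (((R ^ 2 / 2 + 4 * Real.log R : ℝ) : ℂ) + 2 * s) = (R : ℂ) ^ 2 / 2 *
    (1 + (8 * (Real.log R : ℂ) + 4 * s) / R * (R : ℂ)⁻¹) by push_cast; field_simp; ring]
  generalize 1 + (8 * (Real.log R : ℂ) + 4 * s) / R * (R : ℂ)⁻¹ = a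
  rcases eq_or_ne a 0 with rfl | ha
  · simp
  · field_simp

lemma t_cs (s : ℂ) : Tendsto (fun R : ℝ => 2 + cs R s * (R : ℂ) ^ 2) atTop (𝓝 0) := by
  have := ((tendsto_const_nhds (x := (-2 : ℂ))).div ((t_d' s).const_add 1) (by simp)).const_add 2
  refine Tendsto.congr' ?_ (this.trans (le_of_eq (congrArg 𝓝 (by norm_num))))
  filter_upwards [eventually_gt_atTop 0] with R hR
  rw [cs_eq s hR]
  rfl

lemma mem_Om {L : ℝ} {s : ℂ} (hs : L < 2 * s.re) : ∀ᶠ R : ℝ in atTop, cs R s ∈ Om L R := by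
  have h1 := (((t_d s).norm.pow 2).const_mul 6).eventually
    (gt_mem_nhds (show 6 * ‖(0 : ℂ)‖ ^ 2 < 8 * s.re - 4 * L by simp; linarith))
  have h2 := (t_d' s).norm.eventually (gt_mem_nhds (show ‖(0 : ℂ)‖ < 1 / 2 by simp))
  filter_upwards [h1, h2, eventually_gt_atTop 0] with R h1 h2 R0
  have Rc : (R : ℂ) ≠ 0 := by exact_mod_cast R0.ne'
  have e := cs_eq s R0
  have hre : ((8 * (Real.log R : ℂ) + 4 * s) / R * (R : ℂ)⁻¹).re =
      (8 * Real.log R + 4 * s.re) / R ^ 2 := by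
    rw [show (8 * (Real.log R : ℂ) + 4 * s) / R * (R : ℂ)⁻¹ =
      ((R ^ 2)⁻¹ : ℝ) * ((8 * Real.log R : ℝ) + (4 : ℝ) * s) by push_cast; ring,
      Complex.re_ofReal_mul, Complex.add_re, Complex.re_ofReal_mul, Complex.ofReal_re]
    ring
  have hn : 6 * ‖(8 * (Real.log R : ℂ) + 4 * s) / R * (R : ℂ)⁻¹‖ ^ 2 <
      (8 * s.re - 4 * L) / R ^ 2 := by
    rw [norm_mul, norm_inv, Complex.norm_real, Real.norm_of_nonneg R0.le, mul_pow, inv_pow,
      ← mul_assoc, ← div_eq_mul_inv]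
    gcongr
  generalize (8 * (Real.log R : ℂ) + 4 * s) / R * (R : ℂ)⁻¹ = d at *
  have n1 : 1 / 2 ≤ ‖1 + d‖ := by
    have := norm_sub_le (1 + d) d
    simp only [add_sub_cancel_right, norm_one] at this
    linarith
  have d1 : 1 + d ≠ 0 := norm_pos_iff.1 (by linarith)
  have n2 : ‖2 * d / (1 + d)‖ ≤ 4 * ‖d‖ := by
    rw [norm_div, norm_mul, Complex.norm_two, div_le_iff₀ (by linarith)]
    nlinarith [norm_nonneg d]
  have n3 : ‖2 * d - 2 * d / (1 + d)‖ ≤ 4 * ‖d‖ ^ 2 := by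
    rw [show 2 * d - 2 * d / (1 + d) = 2 * d / (1 + d) * d by field_simp; ring, norm_mul]
    nlinarith [norm_nonneg d]
  have n4 := (Complex.re_le_norm _).trans n3
  have n5 := norm_four (2 * d / (1 + d))
  have n6 : ‖2 * d / (1 + d)‖ ^ 2 ≤ (4 * ‖d‖) ^ 2 := by gcongr
  rw [Complex.sub_re, show (2 * d).re = 2 * d.re by simp, hre] at n4
  refine mem_ball_iff_norm.2 ?_
  rw [show cs R s - ((2 / R ^ 2 : ℝ) : ℂ) = (2 * d / (1 + d) - 4) / (R : ℂ) ^ 2 by
    rw [eq_div_of_mul_eq (pow_ne_zero 2 Rc) e]; push_cast; field_simp; ring, norm_div, norm_pow,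
    Complex.norm_real, Real.norm_of_nonneg R0.le]
  refine div_lt_div_of_pos_right ?_ (by positivity)
  have : (16 * Real.log R + 4 * L) / R ^ 2 =
      2 * ((8 * Real.log R + 4 * s.re) / R ^ 2) - (8 * s.re - 4 * L) / R ^ 2 := by ring
  linarith

lemma hh_cs (R : ℝ) (s : ℂ) : hh R (cs R s) = 2 * s := by
  simp [hh, cs]

lemma ev_T (T : ℝ) : ∀ᶠ R : ℝ in atTop, 2 * T / R ≤ 1 :=
  ((tendsto_const_nhds (x := 2 * T)).div_atTop tendsto_id).eventually (ge_mem_nhds one_pos)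

variable {C Λ Z₀ R₀ κ : ℝ} {V P : ℝ → ℂ → BC} {cc Y : ℝ → ℂ → ℂ}

lemma tipz (hΛ : 1 ≤ Λ) (hF : Fam C Λ Z₀ R₀ V P cc) (hT : TipZ C Λ Z₀ R₀ κ V cc) {t : ℝ}
    (ht : 0 ≤ t) : ∀ᶠ R : ℝ in atTop, ∀ y ∈ D Λ R, ‖y‖ ≤ 1 → V R y (zz R t) ≠ 2 →
      ‖hh R (cc R y) - Ph κ t (R ^ 2)⁻¹ (Xr R (V R y) (P R y) t).1‖ ≤
        C / (R ^ 2 * ‖y‖ + (4 * t - 4 * t ^ 2 * (R ^ 2)⁻¹)) +
          C * Real.exp (-(4 * t - 4 * t ^ 2 * (R ^ 2)⁻¹) / 8) + C / R := by
  filter_upwards [ev_T t, eventually_ge_atTop R₀, eventually_ge_atTop 2,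
    (t_aa t).eventually (lt_mem_nhds one_pos)] with R h1 h2 h3 h4 y hy y1 h5
  have R0 : 0 < R := by linarith
  have hz := zz_mem (Z₀ := Z₀) R0 (by linarith [hF.big.1]) (right_mem_Icc.2 ht)
  have hz' := zz_mem (Z₀ := R / 2) R0 (by linarith) (right_mem_Icc.2 ht)
  have := hT R h2 y hy y1 _ hz' hz.1
  have r0 : 0 < (V R y (zz R t)).re := by
    by_contra hh
    nlinarith [(hF.sol R h2 y hy).re_ge _ hz, sq_nonneg (zz R t)]
  rwa [ident _ R0 h4 r0 h5, ex, show R ^ 2 - zz R t ^ 2 = 4 * t - 4 * t ^ 2 * (R ^ 2)⁻¹ by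
    rw [zz]; field_simp; ring] at this

lemma limit (hC : 1 ≤ C) (hΛ : 1 ≤ Λ) (hZ : 0 < Z₀) (hF : Fam C Λ Z₀ R₀ V P cc)
    (hT : TipZ C Λ Z₀ R₀ κ V cc) (U : Ultrafilter ℝ) (hU : (U : Filter ℝ) ≤ atTop) {y : ℝ → ℂ}
    (hy : ∀ᶠ R in U, y R ∈ D Λ R) {σ : ℂ}
    (hσ : Tendsto (fun R : ℝ => (R : ℂ) ^ 2 * y R / 4) U (𝓝 σ)) :
    ∃ η, Tendsto (fun R => hh R (cc R (y R))) U (𝓝 η) ∧ Tr σ (η + (1 - κ)) := by
  have h0 : Tendsto (fun R => Xr R (V R (y R)) (P R (y R)) 0) U (𝓝 (σ, 0)) := by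
    refine (hσ.prodMk_nhds (tendsto_const_nhds (x := (0 : ℂ)))).congr' ?_
    filter_upwards [hy, hU (eventually_ge_atTop R₀)] with R h1 h2
    have := hF.sol R h2 _ h1
    simp only [Xr, zz, mul_zero, zero_div, sub_zero, this.tip, this.neu]
    rw [div_mul_eq_mul_div]
  obtain ⟨x, hx⟩ := lim_ode U (X' := fun R => Xd R (V R (y R)) (P R (y R))) S_closed
    G_cd.continuousOn h0 fun T => ⟨11 * C, by positivity, fun ε e0 => by
      have := (t_e.const_mul (2 + 8 * C ^ 2 + 4 * T * C * (1 + 16 * C ^ 2))).eventually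
        (ge_mem_nhds (show _ * 0 < ε by simpa using e0))
      filter_upwards [hy, hU (eventually_ge_atTop R₀), hU (eventually_ge_atTop 1), hU (ev_T T),
        hU this] with R h1 h2 h3 h4 h5 t ht
      obtain ⟨a1, a2, a3, a4⟩ := resc (hF.sol R h2 _ h1) hC hΛ hZ h3 (by linarith [hF.big.1]) ht
      exact ⟨a1, a2, a3, a4.trans (by gcongr)⟩⟩
  have small : ∀ {w : ℝ → ℂ} {s : ℂ}, Tendsto (fun R : ℝ => (R : ℂ) ^ 2 / 4 * w R) U (𝓝 s) →
      ∀ᶠ R in U, ‖w R‖ ≤ 1 := fun {w s} h => by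
    have h1 := ((h.const_mul 4).mul (t_e.mono_left hU).ofReal).norm
    filter_upwards [h1.eventually (ge_mem_nhds (show _ < (1 : ℝ) by simp)),
      hU (eventually_gt_atTop 0)] with R h2 R0
    have Rc : (R : ℂ) ≠ 0 := by exact_mod_cast (ne_of_gt R0)
    rwa [show 4 * ((R : ℂ) ^ 2 / 4 * w R) * (((R ^ 2)⁻¹ : ℝ) : ℂ) = w R by
      push_cast; field_simp] at h2
  have y1 := small (hσ.congr fun R => (div_mul_eq_mul_div _ _ _).symm)
  have bd : ∀ t, 0 < t → ∃ b : ℝ → ℝ, Tendsto b U (𝓝 (C / (4 * t) + C * Real.exp (-(4 * t) / 8))) ∧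
      ∀ᶠ R in U, ‖hh R (cc R (y R)) - Ph κ t (R ^ 2)⁻¹ (Xr R (V R (y R)) (P R (y R)) t).1‖ ≤ b R :=
    fun t ht => by
    have d : Tendsto (fun R : ℝ => 4 * t - 4 * t ^ 2 * (R ^ 2)⁻¹) U (𝓝 (4 * t)) := by
      simpa using ((t_e.mono_left hU).const_mul (4 * t ^ 2)).const_sub (4 * t)
    refine ⟨fun R => C / (4 * t - 4 * t ^ 2 * (R ^ 2)⁻¹) +
      C * Real.exp (-(4 * t - 4 * t ^ 2 * (R ^ 2)⁻¹) / 8) + C / R, ?_, ?_⟩
    · simpa using ((tendsto_const_nhds.div d (by positivity)).add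
        ((d.neg.div_const 8).rexp.const_mul C)).add
        (((tendsto_const_nhds (x := C)).div_atTop tendsto_id).mono_left hU)
    · filter_upwards [hU (tipz (P := P) hΛ hF hT ht.le), hy, y1,
        small ((continuous_fst.tendsto _).comp (hx t ht.le).1),
        d.eventually (lt_mem_nhds (show 0 < 4 * t by positivity))] with R h1 h2 h3 h4 h5
      refine (h1 _ h2 h3 fun e => ?_).trans ?_
      · rw [e] at h4
        norm_num at h4
      · gcongr
        exact le_add_of_nonneg_left (by positivity)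
  have ph : ∀ t, 0 ≤ t → Tendsto (fun R => Ph κ t (R ^ 2)⁻¹ (Xr R (V R (y R)) (P R (y R)) t).1) U
      (𝓝 ((x t).1 - Complex.log (x t).1 - 2 * t - (1 - κ))) := fun t ht =>
    t_Ph κ t hU (lt_of_lt_of_le (by norm_num) (hx t ht).2.1)
      ((continuous_fst.tendsto _).comp (hx t ht).1)
  obtain ⟨η, hη⟩ : ∃ η, Tendsto (fun R => hh R (cc R (y R))) U (𝓝 η) := by
    obtain ⟨b, b1, b2⟩ := bd 1 one_pos
    generalize C / (4 * 1) + C * Real.exp (-(4 * 1) / 8) = β at b1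
    have p := ph 1 zero_le_one
    generalize (x 1).1 - Complex.log (x 1).1 - 2 * ((1 : ℝ) : ℂ) - (1 - κ) = l at p
    have : ∀ᶠ R in U, hh R (cc R (y R)) ∈ closedBall l (β + 2) := by
      filter_upwards [b2, b1.eventually (ge_mem_nhds (lt_add_one β)),
        p.eventually (ball_mem_nhds l one_pos)] with R h1 h2 h3
      rw [← dist_eq_norm] at h1
      exact (dist_triangle _ _ _).trans ((add_le_add h1 (mem_ball.1 h3).le).trans (by linarith))
    obtain ⟨z, -, hz⟩ := (isCompact_closedBall l (β + 2)).ultrafilter_le_nhds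
      (U.map fun R => hh R (cc R (y R))) (le_principal_iff.2 this)
    exact ⟨z, hz⟩
  refine ⟨η, hη, x, tendsto_nhds_unique (hx 0 le_rfl).1 h0, fun t ht => (hx t ht).2, ?_⟩
  rw [tendsto_iff_norm_sub_tendsto_zero]
  have t4 : Tendsto (fun t : ℝ => 4 * t) atTop atTop := tendsto_id.const_mul_atTop (by norm_num)
  have lim : Tendsto (fun t : ℝ => C / (4 * t) + C * Real.exp (-(4 * t) / 8)) atTop (𝓝 0) := by
    simpa using ((tendsto_const_nhds (x := C)).div_atTop t4).add ((Real.tendsto_exp_atBot.comp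
      ((tendsto_neg_atTop_atBot.comp t4).atBot_div_const (by norm_num : (0 : ℝ) < 8))).const_mul C)
  refine squeeze_zero' (Eventually.of_forall fun _ => norm_nonneg _) ?_ lim
  filter_upwards [eventually_gt_atTop 0] with t ht
  obtain ⟨b, b1, b2⟩ := bd t ht
  have := le_of_tendsto_of_tendsto (hη.sub (ph t ht.le)).norm b1 b2
  rwa [norm_sub_rev, show (x t).1 - Complex.log (x t).1 - 2 * t - (1 - κ) - η =
    (x t).1 - Complex.log (x t).1 - 2 * t - (η + (1 - κ)) by ring] at this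

lemma ne_of_hh {l : Filter ℝ} (hl : l ≤ atTop) {c : ℝ → ℂ} {η : ℂ}
    (h : Tendsto (fun R => hh R (c R)) l (𝓝 η)) : ∀ᶠ R in l, c R ≠ 0 := by
  filter_upwards [h.norm.eventually (ge_mem_nhds (lt_add_one ‖η‖)), hl (eventually_ge_atTop 3),
    hl (eventually_ge_atTop (‖η‖ + 1))] with R h1 (h2 : 3 ≤ R) (h3 : ‖η‖ + 1 ≤ R) e
  have := Real.log_nonneg (show 1 ≤ R by linarith)
  rw [e, hh, div_zero, zero_sub, norm_neg, Complex.norm_real,
    Real.norm_of_nonneg (by positivity)] at h1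
  nlinarith

lemma norm_log_le {σ : ℂ} (h : 1 ≤ ‖σ‖) : ‖Complex.log σ‖ ≤ ‖σ‖ / 2 + Real.pi := by
  refine (Complex.norm_le_abs_re_add_abs_im _).trans ?_
  rw [Complex.log_re, Complex.log_im, abs_of_nonneg (Real.log_nonneg h)]
  have h1 := Real.log_le_sub_one_of_pos (show 0 < ‖σ‖ / 2 by linarith)
  have h2 := Real.log_le_sub_one_of_pos (show (0 : ℝ) < 2 by norm_num)
  rw [Real.log_div (by linarith) (by norm_num)] at h1
  linarith [Complex.abs_arg_le_pi σ]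

lemma bounded (hC : 1 ≤ C) (hΛ : 1 ≤ Λ) (hF : Fam C Λ Z₀ R₀ V P cc)
    (hT : TipZ C Λ Z₀ R₀ κ V cc) {y : ℝ → ℂ} (hy : ∀ᶠ R in atTop, y R ∈ D Λ R)
    (y0 : Tendsto y atTop (𝓝 0)) {η : ℂ} (hη : ∀ᶠ R in atTop, hh R (cc R (y R)) = η) :
    ∃ M, ∀ᶠ R : ℝ in atTop, (R : ℂ) ^ 2 * y R / 4 ∈ closedBall 0 M := by
  have a := t_aa 0
  have h1 := ((((t_e.const_mul (2 * 0 ^ 2)).const_add (-2 * 0)).sub_const 1).add_const κ).add
    (a.log one_ne_zero)
  generalize -2 * 0 + 2 * 0 ^ 2 * 0 - 1 + κ + Real.log 1 = A at h1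
  have h2 := (a.ofReal.mul ((tendsto_const_nhds (x := (2 : ℂ))).div (y0.const_sub 2)
    (by simp))).norm
  refine ⟨4 * (‖η‖ + 3 * C + (|A| + 1) + Real.pi), ?_⟩
  filter_upwards [tipz (P := P) hΛ hF hT le_rfl, hy, hη, eventually_ge_atTop R₀,
    eventually_ge_atTop 1, y0.norm.eventually (ge_mem_nhds (show _ < (1 : ℝ) by simp)),
    h1.abs.eventually (ge_mem_nhds (lt_add_one |A|)),
    h2.eventually (le_mem_nhds (show (3 / 4 : ℝ) < _ by norm_num))] with R t1 t2 t3 t4 t5 t6 t7 t8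
  have R0 : 0 < R := by linarith
  have Rc : (R : ℂ) ≠ 0 := by exact_mod_cast R0.ne'
  have z0 : zz R 0 = R := by simp [zz]
  have tp := (hF.sol R t4 _ t2).tip
  have s1 : 1 ≤ ‖(R : ℂ) ^ 2 * y R / 4‖ :=
    (hΛ.trans (re_of_D R0 t2).le).trans (Complex.re_le_norm _)
  have := t1 _ t2 t6 (by
    rw [z0, tp]
    intro e
    rw [e] at t6
    norm_num at t6)
  rw [t3, Xr, z0, tp, div_mul_eq_mul_div, Ph, show 4 * ((R : ℂ) ^ 2 * y R / 4) *
    (((R ^ 2)⁻¹ : ℝ) : ℂ) = y R by push_cast; field_simp] at this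
  have b1 : C / (R ^ 2 * ‖y R‖ + (4 * 0 - 4 * 0 ^ 2 * (R ^ 2)⁻¹)) ≤ C := by
    refine div_le_self (by linarith) ?_
    rw [norm_div, norm_mul, norm_pow, Complex.norm_real, Real.norm_of_nonneg R0.le,
      Complex.norm_ofNat] at s1
    linarith
  have b2 : C / R ≤ C := div_le_self (by linarith) t5
  have b3 : Real.exp (-(4 * 0 - 4 * 0 ^ 2 * (R ^ 2)⁻¹) / 8) = 1 := by simp
  have b4 := norm_log_le s1
  rw [b3] at this
  rw [mem_closedBall_zero_iff]
  simp only [Pi.div_apply] at t8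
  generalize (R : ℂ) ^ 2 * y R / 4 = σ at *
  generalize (aa 0 (R ^ 2)⁻¹ : ℂ) * (2 / (2 - y R)) = w at *
  generalize -2 * 0 + 2 * 0 ^ 2 * (R ^ 2)⁻¹ - 1 + κ + Real.log (aa 0 (R ^ 2)⁻¹) = B at *
  have b5 : ‖σ * w‖ ≤ ‖η‖ + ‖η - (B + σ * w - Complex.log σ)‖ + ‖(B : ℂ)‖ + ‖Complex.log σ‖ := by
    calc _ = ‖η - (η - (B + σ * w - Complex.log σ)) - B + Complex.log σ‖ := by congr 1; ring
      _ ≤ _ := (norm_add_le _ _).trans (by
        gcongr
        exact (norm_sub_le _ _).trans (by gcongr; exact norm_sub_le _ _))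
  rw [norm_mul, Complex.norm_real, Real.norm_eq_abs] at b5
  nlinarith

end T2

open T2 in
theorem tip2_proof : Tip2Stmt := by
  intro C Λ Z₀ R₀ κ V P cc Y hC hZ hF hI hT s hs
  have hr := hI.room
  have hΛ : 1 ≤ Λ := hC.trans hr
  have m1 := mem_Om (L := 2 * Λ) (s := s) (by linarith)
  have m2 : ∀ᶠ R in atTop, Y R (cs R s) ∈ D (Λ + s.re - C) R := by
    filter_upwards [mem_Om (L := Λ + s.re) (s := s) (by linarith), eventually_ge_atTop R₀]
      with R h1 h2 using hI.mem R h2 _ (by linarith) _ h1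
  have hy : ∀ᶠ R in atTop, Y R (cs R s) ∈ D Λ R := m2.mono fun R h =>
    ball_subset_ball (by gcongr; linarith) h
  have hc : ∀ᶠ R in atTop, hh R (cc R (Y R (cs R s))) = 2 * s := by
    filter_upwards [m1, eventually_ge_atTop R₀] with R h1 h2
    rw [hI.right R h2 _ h1, hh_cs]
  have y0 : Tendsto (fun R => Y R (cs R s)) atTop (𝓝 0) := by
    have h1 : Tendsto (fun R : ℝ => C * Real.log R / R ^ 2) atTop (𝓝 0) := by
      have := (t_log.mul (tendsto_inv_atTop_zero (𝕜 := ℝ))).const_mul C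
      exact Tendsto.congr (fun R => by ring) (this.trans (le_of_eq (congrArg 𝓝 (by simp))))
    have h2 := squeeze_zero_norm' (by
      filter_upwards [m1, eventually_ge_atTop R₀] with R h1 h2 using hI.close R h2 _ h1) h1
    simpa using h2.add (t_cs s)
  obtain ⟨M, hM⟩ := bounded hC hΛ hF hT hy y0 hc
  have hU := Ultrafilter.of_le (atTop : Filter ℝ)
  obtain ⟨σ, -, hσ⟩ := (isCompact_closedBall (0 : ℂ) M).ultrafilter_le_nhds
    ((Ultrafilter.of atTop).map fun R : ℝ => (R : ℂ) ^ 2 * Y R (cs R s) / 4)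
    (le_principal_iff.2 (hU hM))
  have re : Λ + s.re - C ≤ σ.re := ge_of_tendsto ((Complex.continuous_re.tendsto σ).comp hσ) (hU (by
    filter_upwards [m2, eventually_gt_atTop 0] with R h1 h2 using (re_of_D h2 h1).le))
  obtain ⟨η, h1, h2⟩ := limit hC hΛ hZ hF hT _ hU (hU hy) hσ
  rw [tendsto_nhds_unique h1 (tendsto_const_nhds.congr' (hU (hc.mono fun _ h => h.symm)))] at h2
  refine ⟨m1, σ, (tendsto_iff_ultrafilter _ _ _).2 fun U hU => ?_, h2.traj⟩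
  have hy' := mem_D (Λ := Λ) (σ := σ) (by linarith)
  obtain ⟨η', h3, h4⟩ := limit hC hΛ hZ hF hT U hU (hU hy') (σ := σ)
    (tendsto_const_nhds.congr' (hU (by
      filter_upwards [eventually_gt_atTop 0] with R hR
      have Rc : (R : ℂ) ≠ 0 := by exact_mod_cast (ne_of_gt hR)
      show σ = _
      field_simp)))
  rw [add_right_cancel (h4.unique h2)] at h3
  have h5 : Tendsto (fun R => hh R (cc R (Y R (cs R s)))) U (𝓝 (2 * s)) :=
    tendsto_const_nhds.congr' (hU (hc.mono fun _ h => h.symm))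
  have h6 := ((h5.sub h3).norm.const_mul 17).trans (le_of_eq (congrArg 𝓝 (show _ = 0 by simp)))
  rw [tendsto_iff_norm_sub_tendsto_zero]
  refine squeeze_zero' (Eventually.of_forall fun _ => norm_nonneg _) ?_ h6
  filter_upwards [ne_of_hh hU h3, ne_of_hh hU h5, hU hy, hU hy', hU (eventually_ge_atTop R₀),
    hU (eventually_gt_atTop 0)] with R n1 n2 a1 a2 a3 (R0 : 0 < R)
  have Rc : (R : ℂ) ≠ 0 := by exact_mod_cast R0.ne'
  have a4 := hI.approx R a3 _ a1 _ a2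
  have c1 := (le_div_iff₀ (by positivity)).1 (hF.sol R a3 _ a1).c_le
  have c2 := (le_div_iff₀ (by positivity)).1 (hF.sol R a3 _ a2).c_le
  generalize cc R (Y R (cs R s)) = c at *
  generalize cc R (4 * σ / (R : ℂ) ^ 2) = c' at *
  generalize Y R (cs R s) = y at *
  have e1 : (R : ℂ) ^ 2 * y / 4 - σ = (R : ℂ) ^ 2 / 4 * (y - 4 * σ / (R : ℂ) ^ 2) := by field_simp
  have e2 : c - c' = c * c' * (hh R c - hh R c') := by
    simp only [hh]
    field_simp
    ring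
  have a5 := norm_sub_norm_le (y - 4 * σ / (R : ℂ) ^ 2) ((R : ℂ) ^ 2 * (c - c'))
  rw [norm_sub_rev _ ((R : ℂ) ^ 2 * (c - c')), norm_mul] at a5
  rw [e2, norm_mul, norm_mul] at a5
  rw [← e2] at a5
  rw [e1, norm_mul, norm_div, Complex.norm_ofNat]
  rw [norm_pow, Complex.norm_real, Real.norm_of_nonneg R0.le] at a5 ⊢
  have b1 : ‖c‖ * R ^ 2 * (‖c'‖ * R ^ 2) * ‖hh R c - hh R c'‖ ≤ 7 * 7 * ‖hh R c - hh R c'‖ := by
    gcongr
  have b2 := mul_le_mul_of_nonneg_left (a5.trans a4) (sq_nonneg R)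
  nlinarith [norm_nonneg (hh R c - hh R c')]

end Vale.Agent.P218F.Sym
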