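import Vale.Agent.P218F.SymT
import Vale.Agent.P218F.SymLip
import Vale.Agent.P218F.SymTip2
import Vale.Agent.P218F.SymInv

/-! The symmetric end: the block statement is proved. -/

namespace Vale.Agent.P218F.Sym

theorem sym_proof : SymStmt := sym_of lipR_proof (inv_proof e_proof) tip2_proof

end Vale.Agent.P218F.Sym
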