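import Vale.Agent.P218F.Top
import Vale.Agent.P218F.LSTop
import Vale.Agent.P218F.FtAll
import Vale.Agent.P218F.SymFin
import Vale.Agent.P218F.LSCone
import Vale.Agent.P218F.LSChart
import Vale.Agent.P218F.LSEl
import Vale.Agent.P218F.LSDatB
import Vale.Agent.P218F.LSLin
import Vale.Agent.P218F.LSN
import Vale.Agent.P218F.LSPLim
import Vale.Agent.P218F.LSRealC
import Vale.Agent.P218F.InjKer
import Vale.Agent.P218F.KAll
import Vale.Agent.P218F.CoreAll
import Vale.Agent.P218F.LSEndB
import Vale.Agent.P218F.EndAll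
import Vale.Agent.P218F.EndInf7
import Vale.Agent.P218F.LSEnFin
import Vale.Agent.P218F.LSEnB
import Vale.Agent.P218F.LSEnCore
import Vale.Agent.P218F.LSEnTip
import Vale.Agent.P218F.LSEnCyl
import Vale.Agent.P218F.LSEnCone

/-! The final assembly. -/

namespace Vale.Agent.P218F.Fin

universe u

theorem cylFam : LS.CylFamStmt := LS.cylFam_of End.end_proof EndI.inf_proof EndI.base_proof

theorem energy : LS.EnergyStmt :=
  LS.energy_of LS.enB_proof LS.coreInc_proof LS.cylTip_proof LS.cylInc_proof LS.coneInc_proof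

theorem ls : Dyn.LSStmt :=
  LS.ls_of Ends.ends_proof Ft.ft_all Sym.sym_proof cylFam LS.coneFam_proof
    LS.frame_proof LS.geo_proof (LS.Ker.ker_proof LS.chart_proof) (LS.dat_proof Core.core_proof)
    (LS.linId_of LS.geo_proof (LS.el_of LS.chart_proof)) energy LS.n_proof LS.plim_proof
    (LS.klAll_of K.k_proof) LS.real_proof

theorem final : P218FS.FinalStmt.{u} := Top.final_of_LS ls

end Vale.Agent.P218F.Fin
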