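import Vale.Agent.P218F.FtSpec
import Vale.Agent.P218F.CorePar

/-!
# Block FT: the abstract gluing of a core with ends, and the statements of the pieces
-/

open MeasureTheory Set Filter Topology Metric Matrix
open scoped ContDiff RealInnerProductSpace Real

set_option maxSynthPendingDepth 3

noncomputable section

namespace Vale.Agent.P218F.Ft

open Vale.Agent.P218FT hiding P2
open Vale.Agent.P218F.Core Vale.Agent.P218F.Ends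
open Vale.Agent.P218.H313 (rho grad FA)

/-- coordinates `((height, angle), t)` about an end, `lam` being the length scale -/
structure Coord (F : P2 × ℝ → E3) (lam : ℝ → ℝ) (η s Λ : ℝ) : Prop where
  ηpos : 0 < η
  ηle : η ≤ 1 / 4
  spos : 0 < s
  Λge : 1 ≤ Λ
  smooth : ContDiff ℝ ∞ F
  per : ∀ (v : P2) (t : ℝ), F ((v.1, v.2 + 2 * π), t) = F (v, t)
  inj : ∀ q q' : P2 × ℝ, |q.2| ≤ 2 * η → |q'.2| ≤ 2 * η → F q = F q' →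
    q'.1.1 = q.1.1 ∧ q'.2 = q.2 ∧ ∃ k : ℤ, q'.1.2 = q.1.2 + k * (2 * π)
  loc : ∀ q : P2 × ℝ, 0 ≤ q.1.1 → |q.2| ≤ η → ∀ x, ‖x - F q‖ ≤ s →
    ∃ q', F q' = x ∧ lam q.1.1 * ‖q' - q‖ ≤ Λ * ‖x - F q‖
  low : ∀ q : P2 × ℝ, |q.2| ≤ η → ∀ a, lam q.1.1 * ‖a‖ ≤ Λ * ‖fderiv ℝ F q a‖
  up : ∀ q : P2 × ℝ, |q.2| ≤ 1 → ∀ k, 1 ≤ k → k ≤ 3 → ‖iteratedFDeriv ℝ k F q‖ ≤ Λ * lam q.1.1
  one : ∀ y, 0 ≤ y → 1 ≤ lam y
  three : ∀ y y', |y' - y| ≤ 1 → lam y' ≤ 3 * lam y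
  gro : ∀ q : P2 × ℝ, q.1.1 ≤ ‖F q‖ ∧ lam q.1.1 ≤ 1 + ‖F q‖

theorem Coord.mono {F : P2 × ℝ → E3} {lam : ℝ → ℝ} {η s Λ s' Λ' : ℝ} (h : Coord F lam η s Λ)
    (h0 : 0 < s') (hs : s' ≤ s) (hΛ : Λ ≤ Λ') : Coord F lam η s' Λ' := by
  refine ⟨h.ηpos, h.ηle, h0, h.Λge.trans hΛ, h.smooth, h.per, h.inj, fun q h1 h2 x h3 => ?_,
    fun q h1 a => (h.low q h1 a).trans (by gcongr), fun q h1 k h2 h3 => ?_, h.one, h.three, h.gro⟩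
  · obtain ⟨q', h4, h5⟩ := h.loc q h1 h2 x (h3.trans hs)
    exact ⟨q', h4, h5.trans (by gcongr)⟩
  · have h4 := h.up q h1 k h2 h3
    have h5 : 0 ≤ lam q.1.1 :=
      nonneg_of_mul_nonneg_right ((norm_nonneg _).trans h4) (one_pos.trans_le h.Λge)
    exact h4.trans (by gcongr)

/-- cylindrical coordinates -/
def cylF (a b c : E3) (q : P2 × ℝ) : E3 := cylPt a b c q.1.1 q.1.2 (√2 + q.2)

/-- conical coordinates -/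
def coneF (γ n : ℝ → E3) (q : P2 × ℝ) : E3 := conePt γ n q.1.1 q.1.2 q.2

/-- the graph of `g` in the coordinates `F` -/
def grf (F : P2 × ℝ → E3) (g : P2 → ℝ) (v : P2) : E3 := F (v, g v)

/-- the data of the abstract gluing -/
structure Abs (S : Set E3) (J P : Type) where
  /-- coordinates, scales, widths and heights of the ends -/
  F : J → P2 × ℝ → E3
  lam : J → ℝ → ℝ
  η : J → ℝ
  a : J → ℝ
  /-- the ends of `S` -/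
  g₀ : J → P2 → ℝ
  /-- the family -/
  Φ : P → E3 → E3
  O : P → J → E3 →L[ℝ] E3
  g : P → J → P2 → ℝ

section abs

variable {S : Set E3} {J P : Type}

/-- the core of `S` -/
def Abs.core (A : Abs S J P) (t : ℝ) : Set E3 :=
  S \ ⋃ e, grf (A.F e) (A.g₀ e) '' {v | A.a e + t < v.1}

/-- the ends of the surface -/
def Abs.Y (A : Abs S J P) (x : P) (e : J) (v : P2) : E3 := A.O x e (grf (A.F e) (A.g x e) v)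

/-- the surface -/
def Abs.Sx (A : Abs S J P) (x : P) : Set E3 :=
  A.Φ x '' A.core 0 ∪ ⋃ e, A.Y x e '' {v | A.a e < v.1}

variable [NormedAddCommGroup P]

/-- `Φ x → id` in `C²` in the chart `φ` near `u`, with bounded third derivatives -/
structure Cv (Φ : P → E3 → E3) (φ : P2 → E3) (u : P2) : Prop where
  lim : Tendsto (fun z : P × P2 => jet2 (fun t => Φ z.1 (φ t)) z.2) (𝓝 (0, u)) (𝓝 (jet2 φ u))
  reg : ∃ L : ℝ, ∀ᶠ z : P × P2 in 𝓝 (0, u), ContDiffAt ℝ ∞ (fun t => Φ z.1 (φ t)) z.2 ∧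
    ‖iteratedFDeriv ℝ 3 (fun t => Φ z.1 (φ t)) z.2‖ ≤ L

/-- the hypotheses of the abstract gluing -/
structure Abs.OK (A : Abs S J P) (s Λ L : ℝ) (q : ℕ) : Prop where
  surf : IsSurf S
  coord : ∀ e, Coord (A.F e) (A.lam e) (A.η e) s Λ
  small : ∀ e, Λ * s ≤ A.η e / 2
  a1 : ∀ e, 1 ≤ A.a e
  mem : ∀ e (z : P2 × ℝ), A.a e - 1 ≤ z.1.1 → |z.2| ≤ 2 * A.η e →
    (A.F e z ∈ S ↔ z.2 = A.g₀ e z.1)
  cont : ∀ e, Continuous (A.g₀ e)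
  per : ∀ e (v : P2), A.g₀ e (v.1, v.2 + 2 * π) = A.g₀ e v
  cover : ∃ B : ℝ, ∀ y ∈ S, B ≤ ‖y‖ → ∃ e v, 0 ≤ v.1 ∧ y = grf (A.F e) (A.g₀ e) v
  cv : ∀ φ u, Par S φ u → (∀ᶠ v in 𝓝 u, φ v ∈ A.core (5 / 2)) → Cv A.Φ φ u
  iso : ∀ᶠ x in 𝓝 (0 : P), ∀ e v, ‖A.O x e v‖ = ‖v‖
  O0 : ∀ e, Tendsto (fun x => A.O x e) (𝓝 0) (𝓝 (ContinuousLinearMap.id ℝ E3))
  gg : ∀ᶠ x in 𝓝 (0 : P), ∀ e, (∀ v : P2, A.g x e (v.1, v.2 + 2 * π) = A.g x e v) ∧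
    ∀ v : P2, A.a e < v.1 → ContDiffAt ℝ 2 (A.g x e) v ∧ |A.g x e v| ≤ A.η e / 2 ∧
      ‖jet2 (A.g x e) v‖ ≤ 1 ∧ (A.a e + 1 / 2 ≤ v.1 → ContDiffAt ℝ ∞ (A.g x e) v ∧
        ‖iteratedFDeriv ℝ 3 (A.g x e) v‖ ≤ L * (1 + ‖grf (A.F e) (A.g x e) v‖) ^ q)
  g0 : ∀ Z ε : ℝ, 0 < ε → ∀ᶠ x in 𝓝 (0 : P), ∀ e (v : P2), A.a e < v.1 → v.1 ≤ Z →
    |A.g x e v - A.g₀ e v| ≤ ε
  glue : ∀ᶠ x in 𝓝 (0 : P), ∀ e (v : P2), v.1 ∈ Ioo (A.a e) (A.a e + 3) →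
    A.Φ x (grf (A.F e) (A.g₀ e) v) = A.Y x e v
  disj : ∀ᶠ x in 𝓝 (0 : P), ∀ e e' (z z' : P2 × ℝ), e ≠ e' → A.a e - 1 ≤ z.1.1 →
    A.a e' - 1 ≤ z'.1.1 → |z.2| ≤ 2 * A.η e → |z'.2| ≤ 2 * A.η e' →
    A.O x e (A.F e z) ≠ A.O x e' (A.F e' z')

/-- the conclusions of the abstract gluing -/
structure Abs.Out (A : Abs S J P) (r C L : ℝ) (q : ℕ) : Prop where
  zero : A.Sx 0 = S
  cpt : ∀ t, 0 ≤ t → IsCompact (A.core t)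
  nhd : ∀ t t', 0 ≤ t → t < t' → ∀ p ∈ A.core t, ∀ᶠ p' in 𝓝[S] p, p' ∈ A.core t'
  cv : ∀ φ u, Par S φ u → φ u ∈ A.core (9 / 4) → Cv A.Φ φ u
  unif : ∀ ε : ℝ, 0 < ε → ∀ᶠ x in 𝓝 (0 : P), ∀ p ∈ A.core (9 / 4), ‖A.Φ x p - p‖ ≤ ε
  inj : ∀ᶠ x in 𝓝 (0 : P), InjOn (A.Φ x) (A.core (9 / 4))
  sub : ∀ᶠ x in 𝓝 (0 : P), ∀ p ∈ A.core (9 / 4), A.Φ x p ∈ A.Sx x
  cases : ∀ᶠ x in 𝓝 (0 : P), ∀ y ∈ A.Sx x, (∃ p ∈ A.core (3 / 2), y = A.Φ x p) ∨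
    ∃ e v, A.a e + 3 / 2 < v.1 ∧ y = A.Y x e v
  surf : ∀ᶠ x in 𝓝 (0 : P), IsSurf (A.Sx x)
  two : ∀ᶠ x in 𝓝 (0 : P), ∀ p ∈ A.Sx x, TwoPt (A.Sx x) p r C ∧ ‖sh (A.Sx x) p‖ ≤ 2 * C
  eqn : ∀ᶠ x in 𝓝 (0 : P), ∀ p ∈ A.Sx x, ∃ w : E3 → ℝ, IsEqn (A.Sx x) p w ∧
    ‖gradient w p‖ = 1 ∧ ‖fderiv ℝ (gradient w) p‖ ≤ 2 * C ∧
      ‖fderiv ℝ (fderiv ℝ (gradient w)) p‖ ≤ L * (1 + ‖p‖) ^ q
  near : ∀ R ε : ℝ, 0 < ε → ∀ᶠ x in 𝓝 (0 : P), ∀ p ∈ S, ‖p‖ ≤ R → ∃ y ∈ A.Sx x, ‖y - p‖ ≤ ε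

end abs

/-- the cut-off function: `1` on `(-∞, 1/2]`, `0` on `[3/4, ∞)` -/
def cut (s : ℝ) : ℝ := Real.smoothTransition (3 - 4 * s)

/-- the abstract data of the family -/
def FamData.abs {S : Set E3} {D : EndData S} {P ι B : Type} [AddCommGroup P] [Module ℝ P]
    (d : FamData D P ι B) (η : Fin D.k → ℝ) : Abs S (Fin D.m ⊕ Fin D.k) P where
  F := Sum.elim (fun j => cylF (D.a j) (D.b j) (D.c j)) fun i => coneF (D.γ i) (D.n i)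
  lam := Sum.elim (fun _ _ => 1) fun _ => Real.exp
  η := Sum.elim (fun _ => 1 / 4) η
  a := Sum.elim (fun _ => d.z₁) fun _ => d.y₁
  g₀ := Sum.elim (fun j v => D.r j v - √2) D.ψ
  Φ x p := d.PP (d.β x) p + d.w x p • d.WW (d.β x) p
  O x := Sum.elim (d.Q x) fun _ => ContinuousLinearMap.id ℝ E3
  g x := Sum.elim (fun j v => cut (d.ε x * v.1) * (d.e x j v - √2)) (d.g x)

theorem grf_cylF (a b c : E3) (e : P2 → ℝ) : grf (cylF a b c) (fun v => e v - √2) = cylY a b c e := by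
  funext v
  simp [grf, cylF, cylY]

theorem grf_coneF (γ n : ℝ → E3) (g : P2 → ℝ) : grf (coneF γ n) g = coneY γ n g := rfl

theorem FamData.abs_core {S : Set E3} {D : EndData S} {P ι B : Type} [AddCommGroup P] [Module ℝ P]
    (d : FamData D P ι B) (η : Fin D.k → ℝ) (t : ℝ) : (d.abs η).core t = core D d.z₁ d.y₁ t := by
  simp only [Abs.core, core, iUnion_sum, FamData.abs, Sum.elim_inl, Sum.elim_inr, grf_cylF,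
    grf_coneF]

theorem Abs.core_mono {S : Set E3} {J P : Type} (A : Abs S J P) {t t' : ℝ} (h : t ≤ t') :
    A.core t ⊆ A.core t' :=
  sdiff_subset_sdiff_right (iUnion_mono fun _ => image_mono fun v (hv : _ < v.1) =>
    lt_of_le_of_lt (by linarith) hv)

/-- from charts to compact sets -/
theorem ev_of_par {S K : Set E3} {P : Type} [TopologicalSpace P] {x₀ : P} (hS : IsSurf S)
    (hK : IsCompact K) (hKS : K ⊆ S) {Q : P → E3 → Prop}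
    (h : ∀ φ u, Par S φ u → φ u ∈ K → ∀ᶠ z : P × P2 in 𝓝 (x₀, u), Q z.1 (φ z.2)) :
    ∀ᶠ x in 𝓝 x₀, ∀ p ∈ K, Q x p := by
  have key := hK.eventually_forall_of_forall_eventually (x₀ := x₀)
    (P := fun x p => p ∈ S → Q x p) fun p hp => by
      obtain ⟨φ, u, h1, rfl⟩ := exists_par hS (hKS hp)
      have h2 : ∀ᶠ z : P × E3 in 𝓝 x₀ ×ˢ map φ (𝓝 u), Q z.1 z.2 := by
        have h3 := h φ u h1 hp
        rw [nhds_prod_eq] at h3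
        rw [← map_id (f := 𝓝 x₀), prod_map_map_eq, eventually_map]
        exact h3
      rw [h1.map_nhds hS, ← nhdsWithin_univ, ← nhdsWithin_prod_eq, eventually_nhdsWithin_iff] at h2
      exact h2.mono fun z hz h4 => hz ⟨mem_univ _, h4⟩
  exact key.mono fun x hx p hp => hx p hp (hKS hp)

/-! ### The pieces -/

/-- **FT-COORD** -/
def CoordStmt : Prop :=
  (∀ a b c : E3, Triple a b c → ∃ s Λ : ℝ, Coord (cylF a b c) (fun _ => 1) (1 / 4) s Λ) ∧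
    ∀ (γ n : ℝ → E3) (l δ : ℝ), 0 < δ → SphCurve γ n l δ →
      ∃ η s Λ : ℝ, 2 * η ≤ δ ∧ Coord (coneF γ n) Real.exp η s Λ

/-- **FT-EQN**: curvature from the two-point bound, and normalised local equations -/
def EqnStmt : Prop :=
  (∀ (N : Set E3) (p : E3) (r C : ℝ), IsSurf N → p ∈ N → 0 < r → TwoPt N p r C →
    ‖sh N p‖ ≤ 2 * C) ∧
  ∃ c : ℝ, ∀ (N : Set E3) (Y : P2 → E3) (u : P2) (M T K : ℝ),
    (∀ᶠ v in 𝓝 u, ContDiffAt ℝ ∞ Y v) → map Y (𝓝 u) = 𝓝[N] (Y u) →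
    (∀ a, ‖a‖ ≤ M * ‖fderiv ℝ Y u a‖) → (∀ k, 1 ≤ k → k ≤ 3 → ‖iteratedFDeriv ℝ k Y u‖ ≤ T) →
    ‖sh N (Y u)‖ ≤ K → ∃ w : E3 → ℝ, IsEqn N (Y u) w ∧ ‖gradient w (Y u)‖ = 1 ∧
      ‖fderiv ℝ (gradient w) (Y u)‖ ≤ K ∧
      ‖fderiv ℝ (fderiv ℝ (gradient w)) (Y u)‖ ≤ c * (1 + M) ^ 3 * (1 + K) * (1 + T) ^ 2

/-- **FT-ABS** -/
def AbsStmt : Prop :=
  ∀ s Λ r₀ C₀ : ℝ, 0 < s → 0 < r₀ → ∃ r C : ℝ, 0 < r ∧
    ∀ (S : Set E3) (J P : Type) [Finite J] [NormedAddCommGroup P] (A : Abs S J P) (L : ℝ) (q : ℕ),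
      A.OK s Λ L q → (∀ p ∈ S, TwoPt S p r₀ C₀) → ∃ (L' : ℝ) (q' : ℕ), A.Out r C L' q'

/-- **FT-OK** -/
def OKStmt : Prop :=
  ∀ (S : Set E3) (D : EndData S), IsSurf S → ∃ (η₀ s Λ : ℝ) (η : Fin D.k → ℝ), 0 < η₀ ∧ 0 < s ∧
    ∀ (V₀ : E3 → ℝ) (P : Type) [NormedAddCommGroup P] [NormedSpace ℝ P] (ι : Type) [Fintype ι]
      (B : Type) [NormedAddCommGroup B] [NormedSpace ℝ B] [FiniteDimensional ℝ B]
      (d : FamData D P ι B) (R₁ L : ℝ) (M : ℕ) (β : ℝ), Fam V₀ d η₀ R₁ L M β →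
      ∃ (L' : ℝ) (q : ℕ), (d.abs η).OK s Λ L' q

/-- **FT-DEF**: the defect in the shrinker equation -/
def DefStmt : Prop :=
  ∀ C : ℝ, ∃ K : ℝ, ∀ (S : Set E3) (D : EndData S) (V₀ : E3 → ℝ) (c₀ K₀ : ℝ),
    Dyn.Tube0 V₀ c₀ K₀ → Dyn.zs V₀ = S →
    ∀ (P : Type) [NormedAddCommGroup P] [NormedSpace ℝ P] (ι : Type) [Fintype ι]
      (B : Type) [NormedAddCommGroup B] [NormedSpace ℝ B] (d : FamData D P ι B)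
      (η₀ R₁ L : ℝ) (M : ℕ) (β : ℝ) (η : Fin D.k → ℝ) (s Λ L' r L'' : ℝ) (q q' : ℕ),
      Fam V₀ d η₀ R₁ L M β → (d.abs η).OK s Λ L' q → (d.abs η).Out r C L'' q' →
      (∀ᶠ x in 𝓝 (0 : P), ∀ p ∈ (d.abs η).Sx x, |⟪p, nu ((d.abs η).Sx x) p⟫| ≤ K) ∧
      ∃ q₁ : ℕ, ∀ ε : ℝ, 0 < ε → ∀ᶠ x in 𝓝 (0 : P), ∀ y ∈ (d.abs η).Sx x,
        ‖relV ((d.abs η).Sx x) 0 1 y + (∑ i, d.kap x i * d.χ i y) • grad V₀ y‖ ≤
          ε * ‖d.kap x‖ * (1 + ‖y‖) ^ q₁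

/-- **FT-LOJ**: the Gaussian area -/
def LojStmt : Prop :=
  ∀ (S : Set E3) (D : EndData S) (V₀ : E3 → ℝ) (P : Type) [NormedAddCommGroup P]
    [NormedSpace ℝ P] (ι : Type) [Fintype ι] (B : Type) [NormedAddCommGroup B] [NormedSpace ℝ B]
    (d : FamData D P ι B) (η₀ R₁ L : ℝ) (M : ℕ) (β : ℝ) (η : Fin D.k → ℝ) (s Λ L' r C L'' : ℝ)
    (q q' : ℕ), Fam V₀ d η₀ R₁ L M β → (d.abs η).OK s Λ L' q → (d.abs η).Out r C L'' q' →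
    ∃ L₁ : ℝ, ∀ᶠ x in 𝓝 (0 : P),
      FA (Dyn.hm ((d.abs η).Sx x)) - FA (Dyn.hm S) ≤ L₁ * ‖d.kap x‖ ^ β

end Vale.Agent.P218F.Ft
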