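import Vale.Agent.P218F.FtAbs
import Vale.Agent.P218F.EndsCyl
import Mathlib.Analysis.Complex.ExponentialBounds

/-!
# Block FT: cylindrical and conical coordinates
-/

open Set Filter Topology Metric Function
open scoped ContDiff RealInnerProductSpace Real

noncomputable section

namespace Vale.Agent.P218F.Ft

open Vale.Agent.P218FT hiding P2
open Vale.Agent.P218F.Core Vale.Agent.P218F.Ends Vale.Agent.P218F.Ends.Cyl

namespace Crd

variable {F : P2 × ℝ → E3}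

/-- quantitative local invertibility -/
def Good (F : P2 × ℝ → E3) (s : ℝ) (q : P2 × ℝ) : Prop :=
  (∀ a, s * ‖a‖ ≤ ‖fderiv ℝ F q a‖) ∧
    ∀ x, ‖x - F q‖ ≤ s → ∃ q', F q' = x ∧ s * ‖q' - q‖ ≤ ‖x - F q‖

theorem good_near (hF : ContDiff ℝ ∞ F) {q₀ : P2 × ℝ} (h : Injective (fderiv ℝ F q₀)) :
    ∀ᶠ z : ℝ × (P2 × ℝ) in 𝓝 (0, q₀), 0 < z.1 → Good F z.1 z.2 := by
  obtain ⟨Ψ, h1, h2, h3⟩ := exists_local_inverse (by simp) (.of_forall fun _ => hF.contDiffAt) h
  obtain ⟨L, U, hU, hL⟩ := (h1.self_of_nhds.hasStrictFDerivAt (by simp)).exists_lipschitzOnWith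
  obtain ⟨ε, hε, H⟩ := Metric.eventually_nhds_iff_ball.1 (h1.and (h3.and hU))
  have c1 : ∀ᶠ z : ℝ × (P2 × ℝ) in 𝓝 (0, q₀), z.1 < ε / 2 :=
    continuousAt_fst.eventually_lt continuousAt_const (half_pos hε)
  have c2 : ∀ᶠ z : ℝ × (P2 × ℝ) in 𝓝 (0, q₀), z.1 * L < 1 :=
    ContinuousAt.eventually_lt (by fun_prop) continuousAt_const (by simp)
  have c3 : ∀ᶠ z : ℝ × (P2 × ℝ) in 𝓝 (0, q₀), ‖F z.2 - F q₀‖ < ε / 2 :=
    ContinuousAt.eventually_lt ((hF.continuous.comp continuous_snd).sub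
      continuous_const).norm.continuousAt continuousAt_const (by simpa using hε)
  filter_upwards [c1, c2, c3, continuousAt_snd.eventually h2.eventually_nhds] with z a1 a2 a3 a4 a5
  have b1 : F z.2 ∈ ball (F q₀) ε := mem_ball_iff_norm.2 (by linarith)
  refine ⟨fun a => ?_, fun x hx => ?_⟩
  · have d1 := ((H _ b1).1.differentiableAt (by simp)).hasFDerivAt.comp z.2
      (hF.differentiable (by simp) z.2).hasFDerivAt
    have d2 := d1.unique ((hasFDerivAt_id z.2).congr_of_eventuallyEq a4)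
    have d3 : ‖fderiv ℝ Ψ (F z.2)‖ ≤ L := norm_fderiv_le_of_lipschitzOn ℝ
      (mem_of_superset (isOpen_ball.mem_nhds b1) fun y hy => (H y hy).2.2) hL
    have d4 : ‖a‖ ≤ L * ‖fderiv ℝ F z.2 a‖ := by
      have : a = fderiv ℝ Ψ (F z.2) (fderiv ℝ F z.2 a) := (congrArg (fun T => T a) d2).symm
      conv_lhs => rw [this]
      exact (fderiv ℝ Ψ (F z.2)).le_of_opNorm_le d3 _
    have := mul_le_mul_of_nonneg_left d4 a5.le
    nlinarith [norm_nonneg (fderiv ℝ F z.2 a)]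
  · have b2 : x ∈ ball (F q₀) ε := mem_ball_iff_norm.2 (by
      linarith [norm_sub_le_norm_sub_add_norm_sub x (F z.2) (F q₀)])
    refine ⟨Ψ x, (H x b2).2.1, ?_⟩
    have d1 := hL.dist_le_mul x (H x b2).2.2 _ (H _ b1).2.2
    rw [a4.self_of_nhds, dist_eq_norm, dist_eq_norm] at d1
    have := mul_le_mul_of_nonneg_left d1 a5.le
    nlinarith [norm_nonneg (x - F z.2)]

theorem exists_shift {lam : ℝ → ℝ} (per : ∀ (v : P2) (t : ℝ), F ((v.1, v.2 + 2 * π), t) = F (v, t))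
    (sym : ∀ y, ∃ w, ∀ p : P2 × ℝ, F ((p.1.1 + y, p.1.2), p.2) = w + lam y • F p) (q : P2 × ℝ) :
    ∃ θ ∈ Icc 0 (2 * π), ∃ d w, ((0, θ), q.2) + d = q ∧ ∀ p, F (p + d) = w + lam q.1.1 • F p := by
  obtain ⟨w, hw⟩ := sym q.1.1
  have h := toIcoMod_mem_Ico' Real.two_pi_pos q.1.2
  refine ⟨_, Ico_subset_Icc_self h, ((q.1.1, toIcoDiv Real.two_pi_pos 0 q.1.2 • (2 * π)), 0), w,
    ?_, fun p => ?_⟩
  · ext <;> simp
  · have hp : Periodic (fun θ => F ((p.1.1 + q.1.1, θ), p.2)) (2 * π) := fun θ => per (_, θ) _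
    rw [← hw]
    simpa [Prod.add_def] using hp.zsmul (toIcoDiv Real.two_pi_pos 0 q.1.2) p.1.2

theorem exists_bounds {lam : ℝ → ℝ} {η s : ℝ} (hF : ContDiff ℝ ∞ F) (hs : 0 < s)
    (per : ∀ (v : P2) (t : ℝ), F ((v.1, v.2 + 2 * π), t) = F (v, t))
    (sym : ∀ y, ∃ w, ∀ p : P2 × ℝ, F ((p.1.1 + y, p.1.2), p.2) = w + lam y • F p)
    (pos : ∀ y, 0 < lam y) (one : ∀ y, 0 ≤ y → 1 ≤ lam y)
    (hG : ∀ θ ∈ Icc 0 (2 * π), ∀ t, |t| ≤ η → Good F s ((0, θ), t)) :
    ∃ Λ : ℝ, 1 ≤ Λ ∧ (∀ q : P2 × ℝ, 0 ≤ q.1.1 → |q.2| ≤ η → ∀ x, ‖x - F q‖ ≤ s →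
      ∃ q', F q' = x ∧ lam q.1.1 * ‖q' - q‖ ≤ Λ * ‖x - F q‖) ∧
      (∀ q : P2 × ℝ, |q.2| ≤ η → ∀ a, lam q.1.1 * ‖a‖ ≤ Λ * ‖fderiv ℝ F q a‖) ∧
      ∀ q : P2 × ℝ, |q.2| ≤ 1 → ∀ k, 1 ≤ k → k ≤ 3 → ‖iteratedFDeriv ℝ k F q‖ ≤ Λ * lam q.1.1 := by
  have hK : IsCompact ((({0} : Set ℝ) ×ˢ Icc 0 (2 * π)) ×ˢ Icc (-1 : ℝ) 1) :=
    (isCompact_singleton.prod isCompact_Icc).prod isCompact_Icc
  choose B hB using fun k : ℕ => hK.exists_bound_of_continuousOn
    (hF.continuous_iteratedFDeriv (m := k) (by exact_mod_cast le_top)).continuousOn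
  have hsi : 0 < s⁻¹ := inv_pos.2 hs
  have hS : 0 ≤ ∑ k ∈ Finset.range 4, |B k| := Finset.sum_nonneg fun _ _ => abs_nonneg _
  have key : ∀ {u v : ℝ}, 0 ≤ v → s * u ≤ v → u ≤ (1 + s⁻¹ + ∑ k ∈ Finset.range 4, |B k|) * v :=
    fun hv h => ((le_inv_mul_iff₀ hs).2 h).trans (mul_le_mul_of_nonneg_right (by linarith) hv)
  refine ⟨1 + s⁻¹ + ∑ k ∈ Finset.range 4, |B k|, by linarith, fun q h0 h1 x hx => ?_,
    fun q h1 a => ?_, fun q h1 k h2 h3 => ?_⟩
  · obtain ⟨θ, hθ, d, w, e1, e2⟩ := exists_shift per sym q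
    have hl := pos q.1.1
    have e3 : x - F q = lam q.1.1 • ((lam q.1.1)⁻¹ • (x - w) - F ((0, θ), q.2)) := by
      rw [smul_sub, smul_inv_smul₀ hl.ne', sub_sub, ← e2, e1]
    have e4 : ‖x - F q‖ = lam q.1.1 * ‖(lam q.1.1)⁻¹ • (x - w) - F ((0, θ), q.2)‖ := by
      rw [e3, norm_smul, Real.norm_of_nonneg hl.le]
    obtain ⟨p, h4, h5⟩ := (hG θ hθ q.2 h1).2 ((lam q.1.1)⁻¹ • (x - w))
      ((le_mul_of_one_le_left (norm_nonneg _) (one _ h0)).trans (e4.ge.trans hx))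
    refine ⟨p + d, by rw [e2, h4, smul_inv_smul₀ hl.ne', add_sub_cancel], key (norm_nonneg _) ?_⟩
    rw [e4, show p + d - q = p - ((0, θ), q.2) by rw [eq_sub_of_add_eq e1]; abel, mul_left_comm]
    exact mul_le_mul_of_nonneg_left h5 hl.le
  · obtain ⟨θ, hθ, d, w, e1, e2⟩ := exists_shift per sym q
    have hl := pos q.1.1
    have e3 : fderiv ℝ F q = lam q.1.1 • fderiv ℝ F ((0, θ), q.2) := by
      conv_lhs => rw [← e1]
      rw [← fderiv_comp_add_right, funext e2, fderiv_const_add,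
        fderiv_fun_const_smul (hF.differentiable (by simp) _)]
    refine key (norm_nonneg _) ?_
    rw [e3, smul_apply, norm_smul, Real.norm_of_nonneg hl.le, mul_left_comm]
    exact mul_le_mul_of_nonneg_left ((hG θ hθ q.2 h1).1 a) hl.le
  · obtain ⟨θ, hθ, d, w, e1, e2⟩ := exists_shift per sym q
    have hl := pos q.1.1
    have hk : ContDiffAt ℝ k F ((0, θ), q.2) := hF.contDiffAt.of_le (by exact_mod_cast le_top)
    have e3 : iteratedFDeriv ℝ k F q = lam q.1.1 • iteratedFDeriv ℝ k F ((0, θ), q.2) := by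
      conv_lhs => rw [← e1]
      rw [← iteratedFDeriv_comp_add_right, funext e2,
        fun_iteratedFDeriv_add_apply contDiffAt_const (hk.const_smul _),
        iteratedFDeriv_const_of_ne (by omega), iteratedFDeriv_const_smul_apply' hk]
      simp
    rw [e3, norm_smul, Real.norm_of_nonneg hl.le, mul_comm]
    refine mul_le_mul_of_nonneg_right ((hB k ((0, θ), q.2) ⟨⟨rfl, hθ⟩, abs_le.1 h1⟩).trans ?_) hl.le
    have := Finset.single_le_sum (f := fun k => |B k|) (fun _ _ => abs_nonneg _)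
      (Finset.mem_range.2 (by omega : k < 4))
    linarith [le_abs_self (B k)]

theorem triple_zero {a b c : E3} (T : Triple a b c) {x y z : ℝ} (h : x • a + y • b + z • c = 0) :
    x = 0 ∧ y = 0 ∧ z = 0 := by
  have := Fintype.linearIndependent_iff.1 T.orthonormal.linearIndependent ![x, y, z]
    (by simpa [Fin.sum_univ_three] using h)
  exact ⟨this 0, this 1, this 2⟩

theorem inj_of_line (hF : ContDiff ℝ ∞ F) {q : P2 × ℝ}
    (h : ∀ v : P2 × ℝ, HasDerivAt (fun s : ℝ => F (q + s • v)) 0 0 → v = 0) :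
    Injective (fderiv ℝ F q) := by
  refine (injective_iff_map_eq_zero _).2 fun v hv => h v ?_
  have h1 : HasDerivAt (fun s : ℝ => q + s • v) v 0 := by
    simpa using ((hasDerivAt_id (0 : ℝ)).smul_const v).const_add q
  have h2 := (hF.differentiable (by simp) (q + (0 : ℝ) • v)).hasFDerivAt.comp_hasDerivAt 0 h1
  rwa [zero_smul, add_zero, hv] at h2

theorem line (x v : ℝ) : HasDerivAt (fun s : ℝ => x + s * v) v 0 := by
  simpa using ((hasDerivAt_id (0 : ℝ)).mul_const v).const_add x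

theorem cyl {a b c : E3} (T : Triple a b c) :
    ∃ s Λ : ℝ, Coord (cylF a b c) (fun _ => 1) (1 / 4) s Λ := by
  have hF : ContDiff ℝ ∞ (cylF a b c) := contDiff_Xi a b c
  have h2 := sqrt_two_bd.1
  have per : ∀ (v : P2) (t : ℝ), cylF a b c ((v.1, v.2 + 2 * π), t) = cylF a b c (v, t) :=
    fun v t => cylPt_per a b c _ _ _
  have hi : ∀ q : P2 × ℝ, -1 ≤ q.2 → Injective (fderiv ℝ (cylF a b c) q) := fun q hq => by
    refine inj_of_line hF fun v hv => ?_
    have d1 := (line q.2 v.2).const_add √2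
    have d2 := line q.1.2 v.1.2
    have d3 := (((d1.mul d2.cos).smul_const a).add ((d1.mul d2.sin).smul_const b)).add
      ((line q.1.1 v.1.1).smul_const c)
    have d4 := d3.unique hv
    obtain ⟨e1, e2, e3⟩ := triple_zero (triple_rot T q.1.2) (x := v.2) (y := (√2 + q.2) * v.1.2)
      (z := v.1.1) (by
        rw [← d4]
        simp only [zero_mul, add_zero]
        module)
    exact Prod.ext (Prod.ext e3 ((mul_eq_zero.1 e2).resolve_left (by linarith))) e1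
  have ev := (isCompact_Icc (a := (0 : ℝ)) (b := 2 * π)).prod (isCompact_Icc (a := (-1 : ℝ)) (b := 1))
    |>.eventually_forall_of_forall_eventually (x₀ := (0 : ℝ))
      (P := fun s y => 0 < s → Good (cylF a b c) s ((0, y.1), y.2)) fun y hy =>
        (show ContinuousAt (fun z : ℝ × ℝ × ℝ => (z.1, (((0 : ℝ), z.2.1), z.2.2))) (0, y) by
          fun_prop).eventually (good_near hF (hi _ hy.2.1))
  obtain ⟨s, h3, hs⟩ := ((ev.filter_mono nhdsWithin_le_nhds).and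
    (self_mem_nhdsWithin (s := Ioi (0 : ℝ)))).exists
  obtain ⟨Λ, b1, b2, b3, b4⟩ := exists_bounds (lam := fun _ => 1) (η := 1 / 4) hF hs per
    (fun y => ⟨y • c, fun p => by rw [one_smul, cylF, cylF, cylPt_add, add_comm y]⟩)
    (fun _ => one_pos) (fun _ _ => le_rfl) fun θ hθ t ht =>
      h3 (θ, t) ⟨hθ, by linarith [(abs_le.1 ht).1], by linarith [(abs_le.1 ht).2]⟩ hs
  refine ⟨s, Λ, by norm_num, le_rfl, hs, b1, hF, per, fun q q' a1 a2 a3 => ?_, b2, b3, b4,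
    fun _ _ => le_rfl, fun _ _ _ => by norm_num, fun q => ⟨?_, by simp⟩⟩
  · have r1 : 0 < √2 + q.2 := by linarith [(abs_le.1 a1).1]
    have r2 : 0 < √2 + q'.2 := by linarith [(abs_le.1 a2).1]
    have e1 := congrArg (fun x => ⟪c, x⟫) a3
    have e2 := congrArg (fun x => ‖pt c x‖) a3
    simp only [cylF, inner_cylPt T, norm_pt_cylPt T _ _ r1.le, norm_pt_cylPt T _ _ r2.le] at e1 e2
    obtain ⟨e3, e4, -⟩ := triple_zero T (x := (√2 + q.2) * (Real.cos q'.1.2 - Real.cos q.1.2))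
      (y := (√2 + q.2) * (Real.sin q'.1.2 - Real.sin q.1.2)) (z := 0) (by
        rw [← sub_eq_zero.2 a3.symm, cylF, cylF, cylPt, cylPt, ← e1, ← e2]
        module)
    obtain ⟨k, hk⟩ := Real.Angle.angle_eq_iff_two_pi_dvd_sub.1 (Real.Angle.cos_sin_inj
      (sub_eq_zero.1 ((mul_eq_zero.1 e3).resolve_left r1.ne'))
      (sub_eq_zero.1 ((mul_eq_zero.1 e4).resolve_left r1.ne')))
    exact ⟨e1.symm, by linarith, k, by linarith⟩
  · have := real_inner_le_norm c (cylF a b c q)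
    rwa [T.nc, one_mul, cylF, inner_cylPt T] at this

theorem cone {γ n : ℝ → E3} {l δ : ℝ} (hδ : 0 < δ) (h : SphCurve γ n l δ) :
    ∃ η s Λ : ℝ, 2 * η ≤ δ ∧ Coord (coneF γ n) Real.exp η s Λ := by
  have hγ := h.smooth
  have hn := h.smooth_n
  have hF : ContDiff ℝ ∞ (coneF γ n) := by
    unfold coneF conePt
    fun_prop
  have per : ∀ (v : P2) (t : ℝ), coneF γ n ((v.1, v.2 + 2 * π), t) = coneF γ n (v, t) :=
    fun v t => by simp only [coneF, conePt, h.per, h.per_n]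
  have hi : ∀ θ : ℝ, Injective (fderiv ℝ (coneF γ n) ((0, θ), 0)) := fun θ => by
    refine inj_of_line hF fun v hv => ?_
    have d1 := (hγ.differentiable (by simp) (θ + 0 * v.1.2)).hasDerivAt.scomp 0 (line θ v.1.2)
    have d2 := (hn.differentiable (by simp) (θ + 0 * v.1.2)).hasDerivAt.scomp 0 (line θ v.1.2)
    have d3 := (line 0 v.1.1).exp.smul (d1.add ((line 0 v.2).smul d2))
    have d4 := d3.unique hv
    obtain ⟨e1, e2, e3⟩ := triple_zero (h.tri θ) (x := v.1.1) (y := v.1.2 * l) (z := v.2) (by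
      rw [← d4, mul_smul, smul_inv_smul₀ h.lpos.ne']
      simp only [zero_mul, add_zero, Real.exp_zero, Pi.add_apply, Pi.smul_apply', comp_apply]
      module)
    exact Prod.ext (Prod.ext e1 ((mul_eq_zero.1 e2).resolve_right h.lpos.ne')) e3
  have ev := (isCompact_Icc (a := (0 : ℝ)) (b := 2 * π)).eventually_forall_of_forall_eventually
    (x₀ := ((0 : ℝ), (0 : ℝ))) (P := fun x θ => 0 < x.1 → Good (coneF γ n) x.1 ((0, θ), x.2))
    fun θ _ => (show ContinuousAt (fun z : (ℝ × ℝ) × ℝ => (z.1.1, (((0 : ℝ), z.2), z.1.2)))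
      ((0, 0), θ) by fun_prop).eventually (good_near hF (hi θ))
  obtain ⟨ε, hε, h3⟩ := Metric.eventually_nhds_iff.1 ev
  obtain ⟨η, e0, e1, e2, e3⟩ : ∃ η : ℝ, 0 < η ∧ η ≤ 1 / 4 ∧ η ≤ δ / 2 ∧ η ≤ ε / 2 :=
    ⟨min (1 / 4) (min (δ / 2) (ε / 2)), by positivity, min_le_left _ _,
      (min_le_right _ _).trans (min_le_left _ _), (min_le_right _ _).trans (min_le_right _ _)⟩
  obtain ⟨Λ, b1, b2, b3, b4⟩ := exists_bounds (lam := Real.exp) (η := η) hF e0 per
    (fun y => ⟨0, fun p => by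
      rw [zero_add, coneF, coneF, conePt, conePt, add_comm p.1.1, Real.exp_add, mul_smul]⟩)
    Real.exp_pos (fun _ => Real.one_le_exp) fun θ hθ t ht => h3 (y := (η, t)) (by
      rw [Prod.dist_eq, Real.dist_eq, Real.dist_eq, sub_zero, sub_zero, abs_of_pos e0]
      exact max_lt (by linarith) (by linarith)) θ hθ e0
  have gro : ∀ q : P2 × ℝ, Real.exp q.1.1 ≤ ‖coneF γ n q‖ := fun q => by
    have := real_inner_le_norm (γ q.1.2) (coneF γ n q)
    rwa [(h.tri _).na, one_mul, coneF, conePt, real_inner_smul_right, inner_add_right,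
      real_inner_smul_right, (h.tri _).ac, real_inner_self_eq_norm_sq, (h.tri _).na, mul_zero,
      add_zero, one_pow, mul_one] at this
  refine ⟨η, η, Λ, by linarith, e0, e1, e0, b1, hF, per, fun q q' a1 a2 a3 => ?_, b2, b3, b4,
    fun _ => Real.one_le_exp, fun y y' hy => ?_,
    fun q => ⟨by linarith [gro q, Real.add_one_le_exp q.1.1], by linarith [gro q]⟩⟩
  · obtain ⟨c1, c2, c3⟩ := h.inj _ _ _ _ _ _ (by linarith) (by linarith) a3
    exact ⟨c1.symm, c2.symm, c3⟩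
  · calc Real.exp y' ≤ Real.exp (1 + y) := Real.exp_le_exp.2 (by linarith [(abs_le.1 hy).2])
      _ ≤ _ := by
        rw [Real.exp_add]
        exact mul_le_mul_of_nonneg_right Real.exp_one_lt_three.le (Real.exp_pos y).le

end Crd

theorem coord_proof : CoordStmt :=
  ⟨fun _ _ _ T => Crd.cyl T, fun _ _ _ _ hδ h => Crd.cone hδ h⟩

end Vale.Agent.P218F.Ft
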