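import Vale.Agent.P218F.FtAbs

/-!
# Block FT: the defect in the shrinker equation
-/

open MeasureTheory Set Filter Topology Metric Matrix
open scoped ContDiff RealInnerProductSpace Real

set_option maxSynthPendingDepth 3

noncomputable section

namespace Vale.Agent.P218F.Ft

open Vale.Agent.P218FT hiding P2
open Vale.Agent.P218F.Core Vale.Agent.P218F.Ends
open Vale.Agent.P218.H313 (rho grad FA)
open Vale.Agent.P218GA (toProd)

namespace Df

variable {N : Set E3} {x : E3}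

lemma norm_Hv_le (hN : IsSurf N) (hx : x ∈ N) {C : ℝ} (h : ‖sh N x‖ ≤ 2 * C) :
    ‖Hv N x‖ ≤ 6 * |C| := by
  have h1 : |tr (sh N x)| ≤ (Module.finrank ℝ E3 : ℝ) * ‖sh N x‖ :=
    Vale.Agent.P218.H313.abs_tr_le (sh N x)
  rw [finrank_euclideanSpace_fin] at h1
  rw [hN.norm_Hv hx]
  push_cast at h1
  linarith [le_abs_self C]

lemma norm_sub_Hv (hN : IsSurf N) (hx : x ∈ N) :
    ‖relV N 0 1 x - Hv N x‖ = |⟪x, nu N x⟫| / 2 := by
  rw [relV, add_sub_cancel_left, norm_smul, hN.norm_nu hx, sub_zero, Real.norm_eq_abs, abs_mul,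
    abs_of_pos (by norm_num : (0 : ℝ) < (2 * 1)⁻¹)]
  ring

lemma inner_nu_le (hN : IsSurf N) (hx : x ∈ N) :
    |⟪x, nu N x⟫| ≤ 2 * ‖relV N 0 1 x‖ + 2 * ‖Hv N x‖ := by
  have h1 := norm_sub_Hv hN hx
  have h2 := norm_sub_le (relV N 0 1 x) (Hv N x)
  linarith

lemma norm_relV_le (hN : IsSurf N) (hx : x ∈ N) :
    ‖relV N 0 1 x‖ ≤ ‖Hv N x‖ + |⟪x, nu N x⟫| / 2 := by
  have h1 := norm_sub_Hv hN hx
  have h2 := norm_add_le (relV N 0 1 x - Hv N x) (Hv N x)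
  rw [sub_add_cancel] at h2
  linarith

lemma relV_eq_smul {Y : P2 → E3} {u : P2} {w : E3 → ℝ} (hw : IsEqn N (Y u) w)
    (hY : ContDiffAt ℝ 2 Y u) (hN : ∀ᶠ v in 𝓝 u, Y v ∈ N) (hD : rn (fderiv ℝ Y u) ≠ 0) :
    relV N 0 1 (Y u) = (⟪relV N 0 1 (Y u), rn (fderiv ℝ Y u)⟫ / ‖rn (fderiv ℝ Y u)‖ ^ 2) •
      rn (fderiv ℝ Y u) :=
  eq_smul_rn hD fun a => by
    rw [relV, Hv, inner_add_right, real_inner_smul_right, real_inner_smul_right,
      (IsEqn.param hw hY hN).1 a]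
    ring

lemma trans_ne {D : P2 →L[ℝ] E3} {W : E3} (h : ∀ (a : P2) (t : ℝ), D a + t • W = 0 → a = 0 ∧ t = 0) :
    ⟪W, rn D⟫ ≠ 0 := by
  have hi : Function.Injective D :=
    (injective_iff_map_eq_zero D).2 fun a ha => (h a 0 (by rw [ha]; simp)).1
  intro h0
  obtain ⟨x, hx⟩ := Vale.Agent.P218FS.exists_preimage
    (L := D.comp (toProd : EuclideanSpace ℝ (Fin 2) →L[ℝ] ℝ × ℝ))
    (hi.comp toProd.injective) (rn_ne_zero hi) (fun v => inner_rn D _) h0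
  have h1 := (h (toProd x) (-1) (by rw [← hx]; simp)).2
  norm_num at h1

lemma ne_of_trans {D : P2 →L[ℝ] E3} {W : E3} (h : ⟪W, rn D⟫ ≠ 0) : rn D ≠ 0 :=
  fun h0 => h (by rw [h0, inner_zero_right])

lemma inner_iso {Q : E3 →L[ℝ] E3} (hQ : ∀ v, ‖Q v‖ = ‖v‖) (u v : E3) : ⟪Q u, Q v⟫ = ⟪u, v⟫ :=
  LinearIsometry.inner_map_map (⟨Q.toLinearMap, hQ⟩ : E3 →ₗᵢ[ℝ] E3) u v

lemma rn_iso {Q : E3 →L[ℝ] E3} (hQ : ∀ v, ‖Q v‖ = ‖v‖) {D : P2 →L[ℝ] E3} (hD : rn D ≠ 0) :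
    ∃ σ : ℝ, σ ≠ 0 ∧ ∀ z, ⟪Q z, rn (Q.comp D)⟫ = σ * ⟪z, rn D⟫ := by
  have h1 : ‖rn (Q.comp D)‖ ^ 2 = ‖rn D‖ ^ 2 := by
    simp only [norm_rn_sq, ContinuousLinearMap.comp_apply, hQ, inner_iso hQ]
  have h2 : rn (Q.comp D) ≠ 0 := by
    intro h0
    rw [h0, norm_zero] at h1
    exact hD (norm_eq_zero.1 (pow_eq_zero_iff two_ne_zero |>.1 (by linarith)))
  have h3 := eq_smul_rn h2 (n := Q (rn D)) fun a => by
    rw [ContinuousLinearMap.comp_apply, inner_iso hQ, inner_rn]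
  set c := ⟪Q (rn D), rn (Q.comp D)⟫ / ‖rn (Q.comp D)‖ ^ 2
  have hc : c ≠ 0 := by
    intro h0
    rw [h0, zero_smul] at h3
    exact hD (by rw [← norm_eq_zero, ← hQ, h3, norm_zero])
  refine ⟨c⁻¹, inv_ne_zero hc, fun z => ?_⟩
  rw [← inner_iso hQ z, h3, real_inner_smul_right, inv_mul_cancel_left₀ hc]

lemma shr_iso {Q : E3 →L[ℝ] E3} (hQ : ∀ v, ‖Q v‖ = ‖v‖) (q : J2 P2 E3) (W : E3) {σ : ℝ}
    (hσ : σ ≠ 0) (h : ∀ z, ⟪Q z, rn (Q.comp q.2.1)⟫ = σ * ⟪z, rn q.2.1⟫) :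
    shr ((q.map Q).map cE) (cE (Q W)) = shr (q.map cE) (cE W) := by
  have h1 : ∀ k, gtr (cE.comp (Q.comp q.2.1)) k = gtr (cE.comp q.2.1) k := fun k => by
    simp only [gtr, gdet, t1, t2, ContinuousLinearMap.comp_apply, cE_dot, inner_iso hQ]
  have hσ' : (σ : ℂ) ≠ 0 := Complex.ofReal_ne_zero.2 hσ
  simp only [shr, J2.map, ← cE_rn, ContinuousLinearMap.comp_apply, ContinuousLinearMap.compL_apply,
    cE_dot, h, h1, Complex.ofReal_mul]
  rw [gtr_mul, mul_div_assoc (σ : ℂ), ← mul_add, mul_div_mul_left _ _ hσ']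

lemma relV_zero {Q : E3 →L[ℝ] E3} (hQ : ∀ v, ‖Q v‖ = ‖v‖) {Y : P2 → E3} {u : P2} {w : E3 → ℝ}
    (hw : IsEqn N (Q (Y u)) w) (hY : ContDiffAt ℝ 2 Y u) (hN : ∀ᶠ v in 𝓝 u, Q (Y v) ∈ N) {W : E3}
    (hW : ⟪W, rn (fderiv ℝ Y u)⟫ ≠ 0) (h0 : shr (jet2 (fun v => cE (Y v)) u) (cE W) = 0) :
    relV N 0 1 (Q (Y u)) = 0 := by
  obtain ⟨σ, hσ, h1⟩ := rn_iso hQ (ne_of_trans hW)
  have hY' : ContDiffAt ℝ 2 (fun v => Q (Y v)) u := Q.contDiff.contDiffAt.comp u hY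
  have hD : fderiv ℝ (fun v => Q (Y v)) u = Q.comp (fderiv ℝ Y u) :=
    (Q.hasFDerivAt.comp u (hY.differentiableAt (by simp)).hasFDerivAt).fderiv
  have hW' : ⟪Q W, rn (fderiv ℝ (fun v => Q (Y v)) u)⟫ ≠ 0 := by
    rw [hD, h1]; exact mul_ne_zero hσ hW
  have h2 := relV_param (Y := fun v => Q (Y v)) hw hY' hN (ne_of_trans hW') (W := cE (Q W))
    (by rw [cE_dot]; exact Complex.ofReal_ne_zero.2 hW')
  have e : shr (jet2 (fun v => cE (Q (Y v))) u) (cE (Q W)) = 0 := by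
    have e1 := jet2_clm cE hY'
    have e2 := jet2_clm Q hY
    have e3 := jet2_clm cE hY
    have e4 := shr_iso hQ (jet2 Y u) W hσ h1
    rw [e1, e2, e4, ← e3, h0]
  rw [e, zero_mul] at h2
  have h3 := relV_eq_smul (Y := fun v => Q (Y v)) hw hY' hN (ne_of_trans hW')
  rw [Complex.ofReal_eq_zero.1 h2, zero_div, zero_smul] at h3
  exact h3

lemma fderiv_of_affine {E : Type} [NormedAddCommGroup E] [NormedSpace ℝ E] {F : E → E3} {q w : E}
    {y : E3} (hF : DifferentiableAt ℝ F q) (h : ∀ t : ℝ, F (q + t • w) = F q + t • y) :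
    fderiv ℝ F q w = y := by
  have h1 : HasDerivAt (fun t : ℝ => q + t • w) w 0 := by
    simpa using ((hasDerivAt_id (0 : ℝ)).smul_const w).const_add q
  have h2 : HasFDerivAt F (fderiv ℝ F q) (q + (0 : ℝ) • w) := by simpa using hF.hasFDerivAt
  have h3 : HasDerivAt (fun t : ℝ => F (q + t • w)) _ 0 := h2.comp_hasDerivAt (0 : ℝ) h1
  have h4 : HasDerivAt (fun t : ℝ => F q + t • y) y 0 := by
    simpa using ((hasDerivAt_id (0 : ℝ)).smul_const y).const_add (F q)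
  simp only [h] at h3
  exact h3.unique h4

variable {F : P2 × ℝ → E3} {lam : ℝ → ℝ} {η s Λ : ℝ} {g : P2 → ℝ} {v : P2}

lemma contDiffAt_grf (h : Coord F lam η s Λ) (hg : ContDiffAt ℝ 2 g v) :
    ContDiffAt ℝ 2 (grf F g) v :=
  (h.smooth.of_le (by norm_cast)).contDiffAt.comp v (contDiffAt_id.prodMk hg)

lemma fderiv_grf (h : Coord F lam η s Λ) (hg : ContDiffAt ℝ 2 g v) (a : P2) :
    fderiv ℝ (grf F g) v a = fderiv ℝ F (v, g v) (a, fderiv ℝ g v a) := by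
  have h1 := (h.smooth.differentiable (by simp) (v, g v)).hasFDerivAt.comp v
    ((hasFDerivAt_id v).prodMk (hg.differentiableAt (by simp)).hasFDerivAt)
  exact congrArg (fun L : P2 →L[ℝ] E3 => L a) h1.fderiv

lemma trans_grf (h : Coord F lam η s Λ) (hg : ContDiffAt ℝ 2 g v) (h0 : 0 ≤ v.1) (h1 : |g v| ≤ η) :
    ⟪fderiv ℝ F (v, g v) (0, 1), rn (fderiv ℝ (grf F g) v)⟫ ≠ 0 := by
  refine trans_ne fun a t hat => ?_
  rw [fderiv_grf h hg, ← map_smul, ← map_add] at hat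
  have h2 := h.low (v, g v) h1 ((a, fderiv ℝ g v a) + t • ((0 : P2), (1 : ℝ)))
  rw [hat, norm_zero, mul_zero] at h2
  have h3 := h.one _ h0
  have h4 : (a, fderiv ℝ g v a) + t • ((0 : P2), (1 : ℝ)) = 0 :=
    norm_le_zero_iff.1 (le_of_mul_le_mul_left (by simpa using h2) (one_pos.trans_le h3))
  have h5 : a = 0 := by simpa using congrArg Prod.fst h4
  refine ⟨h5, ?_⟩
  simpa [h5] using congrArg Prod.snd h4

lemma cyl_two {a b c : E3} (h : Coord (cylF a b c) lam η s Λ) (q : P2 × ℝ) :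
    fderiv ℝ (cylF a b c) q (0, 1) = cylV a b q.1 :=
  fderiv_of_affine (h.smooth.differentiable (by simp) q) fun t => by
    simp only [cylF, cylPt, cylV, Prod.smul_mk, smul_zero, Prod.fst_add, add_zero, Prod.snd_add,
      smul_eq_mul, mul_one]
    module

lemma cyl_one {a b c : E3} (h : Coord (cylF a b c) lam η s Λ) (q : P2 × ℝ) (k : ℝ) :
    fderiv ℝ (cylF a b c) q ((1, 0), k) = c + k • cylV a b q.1 :=
  fderiv_of_affine (h.smooth.differentiable (by simp) q) fun t => by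
    simp only [cylF, cylPt, cylV, Prod.smul_mk, Prod.fst_add, add_zero, Prod.snd_add,
      smul_eq_mul, mul_one, mul_zero]
    module

lemma cone_two {γ n : ℝ → E3} (h : Coord (coneF γ n) lam η s Λ) (q : P2 × ℝ) :
    fderiv ℝ (coneF γ n) q (0, 1) = Real.exp q.1.1 • n q.1.2 :=
  fderiv_of_affine (h.smooth.differentiable (by simp) q) fun t => by
    simp only [coneF, conePt, Prod.smul_mk, smul_zero, Prod.fst_add, add_zero, Prod.snd_add,
      smul_eq_mul, mul_one]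
    module

lemma norm_cylV {a b c : E3} (h : Triple a b c) (v : P2) : ‖cylV a b v‖ ≤ 2 := by
  refine (norm_add_le _ _).trans ?_
  rw [norm_smul, norm_smul, h.na, h.nb, Real.norm_eq_abs, Real.norm_eq_abs]
  linarith [Real.abs_cos_le_one v.2, Real.abs_sin_le_one v.2]

/-- the support function of a polar graph -/
lemma inner_cyl {a b c : E3} (ht : Triple a b c) (h : Coord (cylF a b c) lam η s Λ)
    {Q : E3 →L[ℝ] E3} (hQ : ∀ v, ‖Q v‖ = ‖v‖) (hN : IsSurf N) (hg : ContDiffAt ℝ 2 g v)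
    (hm : ∀ᶠ v' in 𝓝 v, Q (grf (cylF a b c) g v') ∈ N) {k : ℝ} (h1 : |g v| ≤ 1)
    (h2 : |v.1 * fderiv ℝ g v (1, 0)| ≤ k) :
    |⟪Q (grf (cylF a b c) g v), nu N (Q (grf (cylF a b c) g v))⟫| ≤ 2 * (3 + k) := by
  have hY := contDiffAt_grf h hg
  have hY' : ContDiffAt ℝ 2 (fun v => Q (grf (cylF a b c) g v)) v :=
    Q.contDiff.contDiffAt.comp v hY
  have hD : fderiv ℝ (fun v => Q (grf (cylF a b c) g v)) v
      = Q.comp (fderiv ℝ (grf (cylF a b c) g) v) :=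
    (Q.hasFDerivAt.comp v (hY.differentiableAt (by simp)).hasFDerivAt).fderiv
  have h3 := (IsEqn.param (f := fun v => Q (grf (cylF a b c) g v)) (hN.isEqn hm.self_of_nhds) hY'
    hm).1 (1, 0)
  rw [hD, ContinuousLinearMap.comp_apply, fderiv_grf h hg, cyl_one h] at h3
  have hn := hN.norm_nu hm.self_of_nhds
  generalize nu N (Q (grf (cylF a b c) g v)) = n at h3 hn ⊢
  have h4 : grf (cylF a b c) g v = v.1 • (c + fderiv ℝ g v (1, 0) • cylV a b v)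
      + (√2 + g v - v.1 * fderiv ℝ g v (1, 0)) • cylV a b v := by
    simp only [grf, cylF, cylPt, cylV]
    module
  rw [h4, map_add, map_smul, map_smul, inner_add_left, real_inner_smul_left, real_inner_smul_left,
    h3, mul_zero, zero_add, abs_mul, mul_comm]
  have h5 : |⟪Q (cylV a b v), n⟫| ≤ 2 := by
    have := abs_real_inner_le_norm (Q (cylV a b v)) n
    rw [hQ, hn, mul_one] at this
    exact this.trans (norm_cylV ht v)
  have h6 : √2 ≤ 2 := by rw [Real.sqrt_le_left (by norm_num)]; norm_num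
  have h7 := Real.sqrt_nonneg 2
  refine mul_le_mul h5 ?_ (abs_nonneg _) (by norm_num)
  rw [abs_le] at h1 h2 ⊢
  constructor <;> linarith [h1.1, h1.2, h2.1, h2.2]

lemma contDiff_cut : ContDiff ℝ 1 cut :=
  Real.smoothTransition.contDiff.comp (contDiff_const.sub (contDiff_const.mul contDiff_id))

lemma cut_slope {Kc ε : ℝ} (hK : ∀ s ∈ Icc (0 : ℝ) 1, |deriv cut s| ≤ Kc) (hε : 0 ≤ ε)
    {e : P2 → ℝ} (h0 : 0 ≤ v.1)
    (he : ε * v.1 < 1 → ContDiffAt ℝ 2 e v ∧ ‖jet2 (fun t => e t - √2) v‖ ≤ 1 / 10 ∧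
      |v.1 * fderiv ℝ e v (1, 0)| ≤ 1) :
    |v.1 * fderiv ℝ (fun v : P2 => cut (ε * v.1) * (e v - √2)) v (1, 0)| ≤ |Kc| + 1 := by
  rcases lt_or_ge (ε * v.1) 1 with h | h
  · obtain ⟨h1, h2, h3⟩ := he h
    have h4 : |e v - √2| ≤ 1 / 10 := (norm_fst_le (jet2 (fun t => e t - √2) v)).trans h2
    have h5 : HasFDerivAt (fun v : P2 => ε * v.1) (ε • ContinuousLinearMap.fst ℝ ℝ ℝ) v :=
      hasFDerivAt_fst.const_mul ε
    have h6 := (contDiff_cut.differentiable one_ne_zero (ε * v.1)).hasDerivAt.comp_hasFDerivAt v h5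
    have h7 : HasFDerivAt (fun v : P2 => cut (ε * v.1) * (e v - √2)) _ v :=
      h6.mul ((h1.differentiableAt (by simp)).hasFDerivAt.sub_const √2)
    have h8 : v.1 * fderiv ℝ (fun v : P2 => cut (ε * v.1) * (e v - √2)) v (1, 0)
        = cut (ε * v.1) * (v.1 * fderiv ℝ e v (1, 0))
          + (e v - √2) * ((ε * v.1) * deriv cut (ε * v.1)) := by
      rw [h7.fderiv]; simp; ring
    have h9 : 0 ≤ ε * v.1 := mul_nonneg hε h0
    have a1 : |cut (ε * v.1)| ≤ 1 := by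
      rw [cut, abs_of_nonneg (Real.smoothTransition.nonneg _)]; exact Real.smoothTransition.le_one _
    have a2 : |cut (ε * v.1) * (v.1 * fderiv ℝ e v (1, 0))| ≤ 1 * 1 := by
      rw [abs_mul]; exact mul_le_mul a1 h3 (abs_nonneg _) zero_le_one
    have a3 : |(e v - √2) * ((ε * v.1) * deriv cut (ε * v.1))| ≤ 1 * (1 * |Kc|) := by
      rw [abs_mul, abs_mul, abs_of_nonneg h9]
      exact mul_le_mul (by linarith) (mul_le_mul h.le ((hK _ ⟨h9, h.le⟩).trans (le_abs_self _))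
        (abs_nonneg _) zero_le_one) (by positivity) zero_le_one
    rw [h8]
    linarith [abs_add_le (cut (ε * v.1) * (v.1 * fderiv ℝ e v (1, 0)))
      ((e v - √2) * ((ε * v.1) * deriv cut (ε * v.1)))]
  · have h1 : (fun v : P2 => cut (ε * v.1) * (e v - √2)) =ᶠ[𝓝 v] fun _ => 0 := by
      have : ∀ᶠ v' : P2 in 𝓝 v, 3 / 4 < ε * v'.1 :=
        (continuous_const.mul continuous_fst).continuousAt.eventually
          (lt_mem_nhds (show 3 / 4 < ε * v.1 by linarith))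
      filter_upwards [this] with v' hv'
      rw [cut, Real.smoothTransition.zero_of_nonpos (by linarith), zero_mul]
    rw [h1.fderiv_eq]
    simp only [fderiv_fun_const, Pi.zero_apply, _root_.zero_apply, mul_zero, abs_zero]
    positivity

section fam

variable {S : Set E3} {D : EndData S} {V₀ : E3 → ℝ} {c₀ K₀ : ℝ} {P : Type} [NormedAddCommGroup P]
  [NormedSpace ℝ P] {ι : Type} [Fintype ι] {B : Type} [NormedAddCommGroup B] [NormedSpace ℝ B]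
  {d : FamData D P ι B} {η₀ R₁ L : ℝ} {M : ℕ} {β : ℝ} {ηc : Fin D.k → ℝ} {L' r C L'' : ℝ}
  {q q' : ℕ}

lemma speed {Y φ : P2 → E3} {u : P2} {w : E3 → ℝ} (hw : IsEqn N (Y u) w)
    (hY : ContDiffAt ℝ 2 Y u) (hN : ∀ᶠ v in 𝓝 u, Y v ∈ N) (hφ : DifferentiableAt ℝ φ u)
    (hφ' : rn (fderiv ℝ φ u) ≠ 0) {W : E3} (hW : ⟪W, rn (fderiv ℝ Y u)⟫ ≠ 0) {σ : ℝ}
    (h : elR Y W φ u = -(σ : ℂ)) :
    relV N 0 1 (Y u) = -(σ • (lagR φ u / (lagR Y u * ⟪W, rn (fderiv ℝ Y u)⟫)) •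
      rn (fderiv ℝ Y u)) := by
  have hD := ne_of_trans hW
  have h1 := relV_param hw hY hN hD (W := cE W)
    (by rw [cE_dot]; exact Complex.ofReal_ne_zero.2 hW)
  have h2 := relV_eq_smul hw hY hN hD
  have hYd : DifferentiableAt ℝ Y u := hY.differentiableAt (by simp)
  have e1 : (jet2 (fun t => cE (Y t)) u).2.1 = cE.comp (fderiv ℝ Y u) :=
    congrArg Prod.snd (jet1_cE hYd)
  rw [elR, jet2_one, lag_jet1 hYd, lag_jet1 hφ, e1, ← cE_rn, gdet_cE, cE_dot] at h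
  rw [cE_dot] at h1
  have p1 : 0 < lagR φ u :=
    mul_pos (Vale.Agent.P218.H313.rho_pos _) (norm_pos_iff.2 hφ')
  have p2 : 0 < lagR Y u := mul_pos (Vale.Agent.P218.H313.rho_pos _) (norm_pos_iff.2 hD)
  have p3 : 0 < ‖rn (fderiv ℝ Y u)‖ := norm_pos_iff.2 hD
  change _ * ((lagR Y u : ℝ) / (lagR φ u : ℝ) : ℂ) * _ = _ at h
  set a := ⟪relV N 0 1 (Y u), rn (fderiv ℝ Y u)⟫
  set b := ⟪W, rn (fderiv ℝ Y u)⟫
  have h3 : ((b / ‖rn (fderiv ℝ Y u)‖ ^ 2 * (lagR Y u / lagR φ u) * a : ℝ) : ℂ) = ((-σ : ℝ) : ℂ) := by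
    push_cast at h h1 ⊢
    rw [h1, ← h]; ring
  have h4 := Complex.ofReal_injective h3
  rw [h2, smul_smul, ← neg_smul]
  congr 1
  field_simp at h4 ⊢
  linarith

lemma theta_zero (hT : Dyn.Tube0 V₀ c₀ K₀) (hz : Dyn.zs V₀ = S) {φ : P2 → E3} {u : P2}
    (hP : Par S φ u) (hb0 : ⟪grad V₀ (φ u), rn (fderiv ℝ φ u)⟫ ≠ 0) {l : ℝ} (hl : l ≠ 0) :
    (l / (l * ⟪grad V₀ (φ u), rn (fderiv ℝ φ u)⟫)) • rn (fderiv ℝ φ u) = grad V₀ (φ u) := by
  have hV : ∀ᶠ v in 𝓝 u, V₀ (φ v) = 0 := hP.mem.mono fun v hv => by rw [← hz] at hv; exact hv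
  have h4 : ‖grad V₀ (φ u)‖ = 1 := hT.eik _ (by rw [hV.self_of_nhds, abs_zero]; exact hT.cpos)
  have h5 := eq_smul_rn (ne_of_trans hb0) (n := grad V₀ (φ u)) fun a => by
    have e1 := ((hT.diff (φ u)).hasFDerivAt.comp u hP.differentiableAt.hasFDerivAt).fderiv
    have e2 : fderiv ℝ (V₀ ∘ φ) u = fderiv ℝ (fun _ => (0 : ℝ)) u := EventuallyEq.fderiv_eq hV
    rw [e2] at e1
    rw [Vale.Agent.P218.H313.inner_grad']
    simpa using (congrArg (fun L : P2 →L[ℝ] ℝ => L a) e1).symm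
  have h6 : (1 : ℝ) = ⟪grad V₀ (φ u), rn (fderiv ℝ φ u)⟫ / ‖rn (fderiv ℝ φ u)‖ ^ 2
      * ⟪grad V₀ (φ u), rn (fderiv ℝ φ u)⟫ := by
    rw [← real_inner_smul_right, ← h5, real_inner_self_eq_norm_sq, h4]; norm_num
  rw [div_mul_cancel_left₀ hl, ← one_div, ← (eq_div_iff hb0).2 h6.symm, ← h5]

lemma tau_lim {Z : Type} {l : Filter Z} {Y p W m m' : Z → E3} {p₀ W₀ m₀ : E3} {χ : E3 → ℝ}
    {G : E3 → E3} (hχ : Continuous χ) (hG : Continuous G) (tY : Tendsto Y l (𝓝 p₀))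
    (tp : Tendsto p l (𝓝 p₀)) (tW : Tendsto W l (𝓝 W₀)) (tm : Tendsto m l (𝓝 m₀))
    (tm' : Tendsto m' l (𝓝 m₀)) (hb : ⟪W₀, m₀⟫ ≠ 0)
    (h : χ p₀ ≠ 0 → ∀ a : ℝ, a ≠ 0 → (a / (a * ⟪W₀, m₀⟫)) • m₀ = G p₀) :
    Tendsto (fun z => ‖χ (Y z) • G (Y z) - χ (p z) •
      (rho (p z) * ‖m' z‖ / (rho (Y z) * ‖m z‖ * ⟪W z, m z⟫)) • m z‖) l (𝓝 0) := by
  have cρ := Vale.Agent.P218.H313.continuous_rho (E := E3)
  have p1 : 0 < rho p₀ * ‖m₀‖ := mul_pos (Vale.Agent.P218.H313.rho_pos _)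
    (norm_pos_iff.2 fun h0 => hb (by rw [h0, inner_zero_right]))
  have tθ := ((((cρ.tendsto _).comp tp).mul tm'.norm).div
    ((((cρ.tendsto _).comp tY).mul tm.norm).mul (tW.inner (𝕜 := ℝ) tm))
    (mul_ne_zero p1.ne' hb)).smul tm
  have h1 := ((((hχ.tendsto _).comp tY).smul ((hG.tendsto _).comp tY)).sub
    (((hχ.tendsto _).comp tp).smul tθ)).norm
  have h2 : ‖χ p₀ • G p₀ - χ p₀ • (rho p₀ * ‖m₀‖ / (rho p₀ * ‖m₀‖ * ⟪W₀, m₀⟫)) • m₀‖ = 0 := by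
    by_cases h0 : χ p₀ = 0
    · simp [h0]
    · rw [h h0 _ p1.ne', sub_self, norm_zero]
  rw [h2] at h1
  exact h1

lemma sum_le (k a a' : ι → ℝ) (G θ : E3) {ε : ℝ} (hε : 0 < ε)
    (h : ∀ i, ‖a i • G - a' i • θ‖ < ε / (Fintype.card ι + 1)) :
    ‖-((∑ i, k i * a' i) • θ) + (∑ i, k i * a i) • G‖ ≤ ε * ‖k‖ := by
  rw [neg_add_eq_sub, Finset.sum_smul, Finset.sum_smul, ← Finset.sum_sub_distrib]
  refine (norm_sum_le _ _).trans ((Finset.sum_le_card_nsmul _ _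
    (‖k‖ * (ε / (Fintype.card ι + 1))) fun i _ => ?_).trans ?_)
  · rw [mul_smul, mul_smul, ← smul_sub, norm_smul]
    exact mul_le_mul (norm_le_pi_norm k i) (h i).le (norm_nonneg _) (norm_nonneg _)
  · rw [nsmul_eq_mul, Finset.card_univ, mul_left_comm, mul_comm ε]
    refine mul_le_mul_of_nonneg_left ?_ (norm_nonneg _)
    rw [mul_div_assoc', div_le_iff₀ (by positivity)]
    nlinarith

lemma core_def (hT : Dyn.Tube0 V₀ c₀ K₀) (hz : Dyn.zs V₀ = S) (hF : Fam V₀ d η₀ R₁ L M β)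
    (hO : (d.abs ηc).OK s Λ L' q) (hU : (d.abs ηc).Out r C L'' q') {ε : ℝ} (hε : 0 < ε) :
    ∀ᶠ x in 𝓝 (0 : P), ∀ p ∈ (d.abs ηc).core (3 / 2),
      ‖relV ((d.abs ηc).Sx x) 0 1 (d.Φ x p) + (∑ i, d.kap x i * d.χ i (d.Φ x p)) •
        grad V₀ (d.Φ x p)‖ ≤ ε * ‖d.kap x‖ := by
  refine ev_of_par hO.surf (hU.cpt _ (by norm_num)) sdiff_subset fun φ u hP hu => ?_
  have hS := hO.surf
  have hu' : φ u ∈ (d.abs ηc).core (9 / 4) := (d.abs ηc).core_mono (by norm_num) hu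
  have hc5 : ∀ p ∈ (d.abs ηc).core (9 / 4), p ∈ core D d.z₁ d.y₁ (5 / 2) := fun p hp => by
    rw [← d.abs_core ηc]; exact (d.abs ηc).core_mono (by norm_num) hp
  obtain ⟨hlim, L₃, hreg⟩ : Cv d.Φ φ u := hU.cv φ u hP hu'
  have t1 : Tendsto (fun z : P × P2 => z.1) (𝓝 (0, u)) (𝓝 0) := continuous_fst.tendsto _
  have t2 : Tendsto (fun z : P × P2 => z.2) (𝓝 (0, u)) (𝓝 u) := continuous_snd.tendsto _
  have tφ : Tendsto (fun z : P × P2 => φ z.2) (𝓝 (0, u)) (𝓝 (φ u)) := hP.continuousAt.tendsto.comp t2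
  have tY : Tendsto (fun z : P × P2 => d.Φ z.1 (φ z.2)) (𝓝 (0, u)) (𝓝 (φ u)) := hlim.fst_nhds
  have tm : Tendsto (fun z : P × P2 => rn (fderiv ℝ (fun t => d.Φ z.1 (φ t)) z.2)) (𝓝 (0, u))
      (𝓝 (rn (fderiv ℝ φ u))) := (continuous_rn.tendsto _).comp hlim.snd_nhds.fst_nhds
  have tm0 : Tendsto (fun z : P × P2 => rn (fderiv ℝ φ z.2)) (𝓝 (0, u)) (𝓝 (rn (fderiv ℝ φ u))) :=
    (continuous_rn.tendsto _).comp ((hP.contDiffAt.continuousAt_fderiv (by simp)).tendsto.comp t2)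
  have tW : Tendsto (fun z : P × P2 => d.WW (d.β z.1) (φ z.2)) (𝓝 (0, u)) (𝓝 (d.V (φ u))) := by
    obtain ⟨δ, hδ, h1⟩ := hF.smooth
    have h2 := (h1.continuousOn.continuousAt ((isOpen_ball.prod isOpen_univ).mem_nhds
      (show ((0 : B), φ u) ∈ ball (0 : B) δ ×ˢ univ from ⟨mem_ball_self hδ, mem_univ _⟩))).snd
    rw [← (hF.base (φ u)).2]
    exact h2.tendsto.comp ((hF.β0.comp t1).prodMk_nhds tφ)
  have hm0 : rn (fderiv ℝ φ u) ≠ 0 := rn_ne_zero hP.inj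
  have hb0 : ⟪d.V (φ u), rn (fderiv ℝ φ u)⟫ ≠ 0 := by
    intro h0
    refine hF.trans _ (hc5 _ hu') ?_
    rw [eq_smul_rn hm0 (n := nu S (φ u)) fun a => by rw [real_inner_comm]; exact hP.inner_nu hS a,
      real_inner_smul_right, h0, mul_zero]
  have hn : (0 : ℝ) < ε / (Fintype.card ι + 1) := by positivity
  have hsm := eventually_all.2 fun i => (tau_lim (hF.chi i).1.continuous hT.grad_cd.continuous tY tφ
    tW tm tm0 hb0 fun h0 a ha => by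
      have h2 : ‖φ u‖ ≤ R₁ + 1 := by
        have := mem_ball_zero_iff.1 ((hF.chi i).2 (subset_tsupport _ h0))
        linarith
      have hβ : d.β 0 = 0 :=
        tendsto_nhds_unique (tendsto_pure_nhds d.β 0) (hF.β0.mono_left (pure_le_nhds 0))
      have h3 : d.V (φ u) = grad V₀ (φ u) := by
        rw [← (hF.base (φ u)).2, ← hβ]
        exact (hF.normal.self_of_nhds _ hP.self_mem h2).2
      rw [h3] at hb0 ⊢
      exact theta_zero hT hz hP hb0 ha).eventually (gt_mem_nhds hn)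
  have hc : ∀ᶠ v in 𝓝 u, φ v ∈ (d.abs ηc).core (9 / 4) :=
    hP.tendsto.eventually (hU.nhd _ _ (by norm_num) (by norm_num) _ hu)
  filter_upwards [hreg, t1.eventually hU.surf, t1.eventually hU.sub, t1.eventually hF.eq,
    t2.eventually hP.eventually, t2.eventually hc.eventually_nhds,
    (tW.inner (𝕜 := ℝ) tm).eventually_ne hb0, hsm] with z e1 e2 e3 e4 e5 e6 e7 e8
  have e9 : ∀ᶠ v in 𝓝 z.2, d.Φ z.1 (φ v) ∈ (d.abs ηc).Sx z.1 := e6.mono fun v hv => e3 _ hv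
  have e10 := speed (Y := fun t => d.Φ z.1 (φ t)) (e2.isEqn e9.self_of_nhds)
    (e1.1.of_le (by norm_cast)) e9 e5.differentiableAt (rn_ne_zero e5.inj) e7
    (e4 φ z.2 e5 (hc5 _ e6.self_of_nhds))
  rw [e10]
  exact sum_le _ _ _ _ _ hε e8

lemma ends_def {Kc : ℝ} (hK : ∀ s ∈ Icc (0 : ℝ) 1, |deriv cut s| ≤ Kc) (hF : Fam V₀ d η₀ R₁ L M β)
    (hO : (d.abs ηc).OK s Λ L' q) (hU : (d.abs ηc).Out r C L'' q') :
    ∀ᶠ x in 𝓝 (0 : P), ∀ e (v : P2), (d.abs ηc).a e + 3 / 2 < v.1 →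
      (∀ i, d.χ i ((d.abs ηc).Y x e v) = 0) ∧
      (relV ((d.abs ηc).Sx x) 0 1 ((d.abs ηc).Y x e v) = 0 ∨
        (1 ≤ 2 * d.ε x * ‖(d.abs ηc).Y x e v‖ ∧
          |⟪(d.abs ηc).Y x e v, nu ((d.abs ηc).Sx x) ((d.abs ηc).Y x e v)⟫|
            ≤ 2 * (3 + (|Kc| + 1)))) := by
  filter_upwards [hU.surf, hO.iso, hO.gg, hF.cyl, hF.cone, hF.εle] with x e1 e2 e3 e4 e5 e6 e v hv
  have hco := hO.coord e
  have ha := hO.a1 e
  obtain ⟨g1, g2, -⟩ := (e3 e).2 v (by linarith)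
  have hη := hco.ηpos
  have hη' := hco.ηle
  have hm : ∀ᶠ v' in 𝓝 v, (d.abs ηc).Y x e v' ∈ (d.abs ηc).Sx x := by
    have : ∀ᶠ v' : P2 in 𝓝 v, (d.abs ηc).a e < v'.1 :=
      continuous_fst.continuousAt.eventually (lt_mem_nhds (show _ < v.1 by linarith))
    exact this.mono fun v' hv' => Or.inr (mem_iUnion.2 ⟨e, v', hv', rfl⟩)
  have hw := e1.isEqn hm.self_of_nhds
  have htr := trans_grf hco g1 (by linarith) (by linarith)
  have hgro := hco.gro (v, (d.abs ηc).g x e v)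
  have hn : ‖(d.abs ηc).Y x e v‖ = ‖(d.abs ηc).F e (v, (d.abs ηc).g x e v)‖ := e2 e _
  rw [← hn] at hgro
  have hχ : R₁ - 1 ≤ ‖(d.abs ηc).Y x e v‖ → ∀ i, d.χ i ((d.abs ηc).Y x e v) = 0 := fun h i =>
    image_eq_zero_of_notMem_tsupport fun h' =>
      absurd (mem_ball_zero_iff.1 ((hF.chi i).2 h')) (not_lt.2 h)
  rcases e with j | i
  · have hv' : d.z₁ + 3 / 2 < v.1 := hv
    have ha' : 1 ≤ d.z₁ := ha
    refine ⟨hχ (by linarith [hF.big.2.2.1, hgro.1]), ?_⟩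
    rcases lt_or_ge (d.ε x * v.1) (1 / 2) with h | h
    · left
      obtain ⟨c1, -, -, c2⟩ := (e4 j).2 v (by linarith) (by linarith)
      have h1 : grf ((d.abs ηc).F (.inl j)) ((d.abs ηc).g x (.inl j))
          =ᶠ[𝓝 v] cylY (D.a j) (D.b j) (D.c j) (d.e x j) := by
        have : ∀ᶠ v' : P2 in 𝓝 v, d.ε x * v'.1 < 1 / 2 :=
          (continuous_const.mul continuous_fst).continuousAt.eventually (gt_mem_nhds h)
        filter_upwards [this] with v' hv'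
        rw [← grf_cylF]
        change cylF _ _ _ (v', cut (d.ε x * v'.1) * (d.e x j v' - √2)) = cylF _ _ _ _
        rw [cut, Real.smoothTransition.one_of_one_le (by linarith), one_mul]
      refine relV_zero (e2 (.inl j)) hw (contDiffAt_grf hco g1) hm htr ?_
      have h2 : fderiv ℝ ((d.abs ηc).F (.inl j)) (v, (d.abs ηc).g x (.inl j) v) (0, 1)
          = cylV (D.a j) (D.b j) v := cyl_two hco _
      rw [h2, jet2_congr (g := fun v => cE (cylY (D.a j) (D.b j) (D.c j) (d.e x j) v))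
          (h1.mono fun v' hv' => congrArg cE hv')]
      exact c2
    · right
      refine ⟨by nlinarith [hgro.1, e6.1], ?_⟩
      exact inner_cyl (D.cyl j).tri hco (e2 (.inl j)) e1 g1 hm (by linarith)
        (cut_slope hK e6.1 (by linarith) fun h' => by
          obtain ⟨c1, c2, c3, -⟩ := (e4 j).2 v (by linarith) h'
          exact ⟨c1, c2, c3⟩)
  · have hv' : d.y₁ + 3 / 2 < v.1 := hv
    have h1 : Real.exp v.1 ≤ 1 + ‖(d.abs ηc).Y x (.inr i) v‖ := hgro.2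
    have h2 : Real.exp d.y₁ ≤ Real.exp v.1 := Real.exp_le_exp.2 (by linarith)
    refine ⟨hχ (by linarith [hF.big.2.2.2]), Or.inl ?_⟩
    obtain ⟨-, -, c2⟩ := (e5 i).2 v (by linarith)
    have h3 : fderiv ℝ ((d.abs ηc).F (.inr i)) (v, (d.abs ηc).g x (.inr i) v) (0, 1)
        = Real.exp v.1 • D.n i v.2 := cone_two hco _
    rw [h3, real_inner_smul_left] at htr
    exact relV_zero (e2 (.inr i)) hw (contDiffAt_grf hco g1) hm (right_ne_zero_of_mul htr) c2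

end fam

end Df

open Df in
/-- **FT-DEF** -/
theorem def_proof : DefStmt := by
  intro C
  obtain ⟨Kc, hKc⟩ := isCompact_Icc.exists_bound_of_continuousOn
    (contDiff_cut.continuous_deriv le_rfl).continuousOn (s := Icc (0 : ℝ) 1)
  have hK0 := abs_nonneg Kc
  have hC0 := abs_nonneg C
  refine ⟨12 * |C| + 2 + 2 * (3 + (|Kc| + 1)),
    fun S D V₀ c₀ K₀ hT hz P _ _ ι _ B _ _ d η₀ R₁ L M β η s Λ L' r L'' q q' hF hO hU => ?_⟩
  have h1 := ends_def hKc hF hO hU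
  constructor
  · have hB : ∀ i, ∃ b : ℝ, ∀ y, ‖d.χ i y‖ ≤ b := fun i =>
      (HasCompactSupport.exists_bound_of_continuous ((isCompact_closedBall (0 : E3) (R₁ - 1)).of_isClosed_subset
        (isClosed_tsupport _) ((hF.chi i).2.trans ball_subset_closedBall)) (hF.chi i).1.continuous)
    choose b hb using hB
    have h2 : Tendsto (fun x => (1 + (∑ i, b i) * K₀) * ‖d.kap x‖) (𝓝 0) (𝓝 0) := by
      simpa using hF.kap0.norm.const_mul (1 + (∑ i, b i) * K₀)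
    filter_upwards [h1, core_def hT hz hF hO hU one_pos, hU.cases, hU.surf, hU.two,
      h2.eventually (ge_mem_nhds one_pos)] with x e1 e2 e3 e4 e5 e6 y hy
    have e7 := inner_nu_le e4 hy
    have e8 := norm_Hv_le e4 hy (e5 y hy).2
    rcases e3 y hy with ⟨p, hp, rfl⟩ | ⟨e, v, hv, rfl⟩
    · have f1 := e2 p hp
      have f2 : ‖(∑ i, d.kap x i * d.χ i (d.Φ x p)) • grad V₀ (d.Φ x p)‖
          ≤ ((∑ i, b i) * ‖d.kap x‖) * K₀ := by
        rw [norm_smul]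
        refine mul_le_mul ?_ (hT.b1 _) (norm_nonneg _) (mul_nonneg (Finset.sum_nonneg fun i _ =>
          (norm_nonneg _).trans (hb i 0)) (norm_nonneg _))
        rw [Finset.sum_mul]
        refine (norm_sum_le _ _).trans (Finset.sum_le_sum fun i _ => ?_)
        rw [norm_mul, mul_comm]
        exact mul_le_mul (hb i _) (norm_le_pi_norm (d.kap x) i) (norm_nonneg _)
          ((norm_nonneg _).trans (hb i 0))
      have f3 := norm_sub_le (relV ((d.abs η).Sx x) 0 1 (d.Φ x p)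
        + (∑ i, d.kap x i * d.χ i (d.Φ x p)) • grad V₀ (d.Φ x p))
        ((∑ i, d.kap x i * d.χ i (d.Φ x p)) • grad V₀ (d.Φ x p))
      rw [add_sub_cancel_right] at f3
      have f4 : ‖relV ((d.abs η).Sx x) 0 1 ((d.abs η).Φ x p)‖ ≤ 1 := by
        refine f3.trans ?_
        linarith
      linarith
    · rcases (e1 e v hv).2 with f1 | f1
      · rw [f1, norm_zero] at e7
        linarith
      · linarith [f1.2]
  · refine ⟨M + 1, fun ε hε => ?_⟩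
    set A : ℝ := 6 * |C| + (3 + (|Kc| + 1)) with hA
    have h2 : Tendsto (fun x => A * 2 ^ (M + 1) * |L| * d.ε x) (𝓝 0) (𝓝 0) := by
      simpa using hF.ε0.const_mul (A * 2 ^ (M + 1) * |L|)
    filter_upwards [h1, core_def hT hz hF hO hU hε, hU.cases, hU.surf, hU.two, hF.εle,
      h2.eventually (ge_mem_nhds hε)] with x e1 e2 e3 e4 e5 e6 e7 y hy
    have e8 := norm_relV_le e4 hy
    have e9 := norm_Hv_le e4 hy (e5 y hy).2
    have e10 : (1 : ℝ) ≤ (1 + ‖y‖) ^ (M + 1) := one_le_pow₀ (by linarith [norm_nonneg y])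
    rcases e3 y hy with ⟨p, hp, rfl⟩ | ⟨e, v, hv, rfl⟩
    · exact (e2 p hp).trans (le_mul_of_one_le_right (by positivity) e10)
    · obtain ⟨f0, f1⟩ := e1 e v hv
      simp only [f0, mul_zero, Finset.sum_const_zero, zero_smul, add_zero]
      rcases f1 with f1 | f1
      · rw [f1, norm_zero]; positivity
      set y := (d.abs η).Y x e v
      have f2 : ‖relV ((d.abs η).Sx x) 0 1 y‖ ≤ A := by linarith [f1.2]
      have f3 : 1 ≤ (2 * d.ε x * ‖y‖) ^ (M + 1) := one_le_pow₀ f1.1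
      have f4 : d.ε x ^ M ≤ |L| * ‖d.kap x‖ :=
        e6.2.trans (mul_le_mul_of_nonneg_right (le_abs_self L) (norm_nonneg _))
      have f5 := e6.1
      calc ‖relV ((d.abs η).Sx x) 0 1 y‖ ≤ A * (2 * d.ε x * ‖y‖) ^ (M + 1) :=
            f2.trans (le_mul_of_one_le_right (by positivity) f3)
        _ = A * 2 ^ (M + 1) * d.ε x * d.ε x ^ M * ‖y‖ ^ (M + 1) := by ring
        _ ≤ A * 2 ^ (M + 1) * d.ε x * (|L| * ‖d.kap x‖) * (1 + ‖y‖) ^ (M + 1) := by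
            gcongr; linarith
        _ = A * 2 ^ (M + 1) * |L| * d.ε x * ‖d.kap x‖ * (1 + ‖y‖) ^ (M + 1) := by ring
        _ ≤ _ := by gcongr

end Vale.Agent.P218F.Ft
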