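import Vale.Agent.P218F.FtAbs

/-! Block FT: curvature from the two-point bound, and normalised local equations. -/

open Set Filter Topology Metric Asymptotics
open scoped ContDiff RealInnerProductSpace

set_option maxSynthPendingDepth 3

noncomputable section

namespace Vale.Agent.P218F.Ft

open Vale.Agent.P218FT hiding P2
open Vale.Agent.P218F.Core

namespace Eq

theorem norm_le_of_inner {L : E3 →L[ℝ] E3} {K : ℝ} (hK : 0 ≤ K)
    (h : ∀ v v', |⟪L v, v'⟫| ≤ K * ‖v‖ * ‖v'‖) : ‖L‖ ≤ K := by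
  refine L.opNorm_le_bound hK fun v => ?_
  have h1 := (le_abs_self _).trans (h v (L v))
  rw [real_inner_self_eq_norm_sq] at h1
  rcases (norm_nonneg (L v)).eq_or_lt with h0 | h0
  · rw [← h0]; positivity
  · exact le_of_mul_le_mul_right (by nlinarith) h0

theorem norm_le_of_symm {L : E3 →L[ℝ] E3} {K : ℝ} (hK : 0 ≤ K) (hs : ∀ u v, ⟪L u, v⟫ = ⟪u, L v⟫)
    (h : ∀ v, |⟪L v, v⟫| ≤ K * ‖v‖ ^ 2) : ‖L‖ ≤ K := by
  have key : ∀ u v : E3, 2 * ⟪L u, v⟫ ≤ K * (‖u‖ ^ 2 + ‖v‖ ^ 2) := by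
    intro u v
    have h1 := (abs_le.1 (h (u + v))).2
    have h2 := (abs_le.1 (h (u - v))).1
    have h3 : ⟪L v, u⟫ = ⟪L u, v⟫ := by rw [hs v u, real_inner_comm]
    rw [map_add, inner_add_left, inner_add_right, inner_add_right, norm_add_sq_real] at h1
    rw [map_sub, inner_sub_left, inner_sub_right, inner_sub_right, norm_sub_sq_real] at h2
    linarith
  refine L.opNorm_le_bound hK fun u => ?_
  rcases (norm_nonneg (L u)).eq_or_lt with h0 | h0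
  · rw [← h0]; positivity
  · have hu : 0 < ‖u‖ := norm_pos_iff.2 fun e => by simp [e] at h0
    have h1 := key u ((‖u‖ / ‖L u‖) • L u)
    rw [inner_smul_right, real_inner_self_eq_norm_sq, norm_smul,
      Real.norm_of_nonneg (by positivity), div_mul_cancel₀ _ h0.ne'] at h1
    have h2 : ‖u‖ / ‖L u‖ * ‖L u‖ ^ 2 = ‖u‖ * ‖L u‖ := by field_simp
    rw [h2] at h1
    exact le_of_mul_le_mul_left (by nlinarith) hu

theorem quad_le {N : Set E3} {p : E3} {r C : ℝ} (hN : IsSurf N) (hp : p ∈ N) (hr : 0 < r)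
    (h : TwoPt N p r C) {a : E3} (ha : ⟪nu N p, a⟫ = 0) : |⟪sh N p a, a⟫| ≤ 2 * C * ‖a‖ ^ 2 := by
  obtain ⟨q, hq, ho⟩ := hN.jet hp ha
  set n := nu N p
  set κ := ⟪sh N p a, a⟫
  have hn : ‖n‖ = 1 := hN.norm_nu hp
  have h0 : Tendsto (fun σ : ℝ => (σ ^ 2)⁻¹ • (q σ - (p + σ • a + (σ ^ 2 / 2) • (κ • n))))
      (𝓝[>] 0) (𝓝 0) := (ho.tendsto_inv_smul_nhds_zero).mono_left nhdsWithin_le_nhds
  have hσ : Tendsto (fun σ : ℝ => σ) (𝓝[>] 0) (𝓝 0) := nhdsWithin_le_nhds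
  set e := fun σ : ℝ => (σ ^ 2)⁻¹ • (q σ - (p + σ • a + (σ ^ 2 / 2) • (κ • n)))
  have l1 : Tendsto (fun σ => |⟪e σ, n⟫ + κ / 2|) (𝓝[>] 0) (𝓝 |⟪(0 : E3), n⟫ + κ / 2|) :=
    ((h0.inner tendsto_const_nhds).add_const _).abs
  have l2 : Tendsto (fun σ : ℝ => C * ‖a + σ • ((1 / 2 : ℝ) • (κ • n) + e σ)‖ ^ 2) (𝓝[>] 0)
      (𝓝 (C * ‖a + (0 : ℝ) • ((1 / 2 : ℝ) • (κ • n) + 0)‖ ^ 2)) :=
    (((hσ.smul (h0.const_add _)).const_add _).norm.pow 2).const_mul _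
  have l3 : ∀ᶠ σ in 𝓝 (0 : ℝ), ‖q σ - p‖ ≤ r := by
    have := ((tendsto_of_jet ho).sub_const p).norm
    rw [sub_self, norm_zero] at this
    exact this.eventually (ge_mem_nhds hr)
  have key := le_of_tendsto_of_tendsto l1 l2 (by
    filter_upwards [hσ.eventually (hq.and l3), self_mem_nhdsWithin] with σ h1 h2
    have h2' : (0 : ℝ) < σ := h2
    have e1 : q σ - p = σ • (a + σ • ((1 / 2 : ℝ) • (κ • n) + e σ)) := by
      simp only [e]
      match_scalars <;> field_simp <;> ring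
    have e2 := h _ h1.1 h1.2
    rw [e1, inner_smul_left, inner_add_left, inner_smul_left, inner_add_left, inner_smul_left,
      inner_smul_left, real_inner_comm n a, ha, real_inner_self_eq_norm_sq, hn, norm_smul,
      Real.norm_of_nonneg h2'.le] at e2
    simp only [conj_trivial] at e2
    rw [show σ * (0 + σ * (1 / 2 * (κ * 1 ^ 2) + ⟪e σ, n⟫)) = σ ^ 2 * (⟪e σ, n⟫ + κ / 2) by ring,
      abs_mul, abs_of_pos (by positivity : 0 < σ ^ 2)] at e2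
    exact le_of_mul_le_mul_left (by linarith) (by positivity : 0 < σ ^ 2))
  rw [inner_zero_left, zero_add, zero_smul, add_zero, abs_div, abs_two] at key
  linarith

theorem norm_sh_le {N : Set E3} {p : E3} {r C : ℝ} (hN : IsSurf N) (hp : p ∈ N) (hr : 0 < r)
    (h : TwoPt N p r C) : ‖sh N p‖ ≤ 2 * C := by
  have hn := hN.norm_nu hp
  have hC : 0 ≤ 2 * C := by
    obtain ⟨a, b, ht⟩ := exists_triple hn
    have := quad_le hN hp hr h (a := a) (by rw [real_inner_comm]; exact ht.ac)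
    rw [ht.na, one_pow, mul_one] at this
    exact (abs_nonneg _).trans this
  refine norm_le_of_symm hC (hN.sh_symm hp) fun v => ?_
  have h1 := quad_le hN hp hr h (inner_pt_nrm hn v)
  rw [hN.sh_pt hp, hN.sh_symm hp, hN.sh_pt hp, ← hN.sh_symm hp] at h1
  exact h1.trans (mul_le_mul_of_nonneg_left
    (pow_le_pow_left₀ (norm_nonneg _) (norm_pt_le hn v) 2) hC)

section dir

variable {E V : Type} [NormedAddCommGroup E] [NormedSpace ℝ E] [NormedAddCommGroup V]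
  [NormedSpace ℝ V]

theorem comp_line {F : E → V} {γ : ℝ → E} {q c : E} (hF : DifferentiableAt ℝ F q)
    (hγ : HasDerivAt γ c 0) (h0 : γ 0 = q) : HasDerivAt (fun t => F (γ t)) (fderiv ℝ F q c) 0 :=
  hF.hasFDerivAt.comp_hasDerivAt_of_eq 0 hγ h0.symm

theorem line (q c : E) : HasDerivAt (fun t : ℝ => q + t • c) c 0 := by
  simpa using ((hasDerivAt_id (0 : ℝ)).smul_const c).const_add q

theorem dir_zero {φ : E → ℝ} {q : E} {k d : ℝ} (h : ∀ᶠ z in 𝓝 q, φ z = k) {c : E}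
    (hd : HasDerivAt (fun t : ℝ => φ (q + t • c)) d 0) : d = 0 := by
  have h1 : Tendsto (fun t : ℝ => q + t • c) (𝓝 0) (𝓝 q) := by
    simpa using (line q c).continuousAt.tendsto
  exact hd.unique ((hasDerivAt_const (0 : ℝ) k).congr_of_eventuallyEq (h1.eventually h))

end dir

/-- the thickened parametrisation -/
def Ps (Y : P2 → E3) (n : E3) (q : P2 × ℝ) : E3 := Y q.1 + q.2 • n

/-- its derivative -/
def Aa (Y : P2 → E3) (n : E3) (q a : P2 × ℝ) : E3 := fderiv ℝ Y q.1 a.1 + a.2 • n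

variable {Y : P2 → E3} {n : E3}

theorem d_Ps (hY : ContDiff ℝ ∞ Y) (n : E3) (q c : P2 × ℝ) :
    HasDerivAt (fun t : ℝ => Ps Y n (q + t • c)) (Aa Y n q c) 0 :=
  (comp_line (hY.differentiable (by simp) q.1) (line q.1 c.1) (by simp)).add
    ((line q.2 c.2).smul_const n)

theorem d_Aa (hY : ContDiff ℝ ∞ Y) (n : E3) (q c a : P2 × ℝ) :
    HasDerivAt (fun t : ℝ => Aa Y n (q + t • c) a) (fderiv ℝ (fderiv ℝ Y) q.1 c.1 a.1) 0 := by
  have h1 : ContDiff ℝ ∞ (fderiv ℝ Y) := hY.fderiv_right (by simp)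
  simpa [Aa] using ((comp_line (h1.differentiable (by simp) q.1) (line q.1 c.1)
    (by simp)).clm_apply (hasDerivAt_const (0 : ℝ) a.1)).add_const (a.2 • n)

theorem d_B (hY : ContDiff ℝ ∞ Y) (q c b a : P2 × ℝ) :
    HasDerivAt (fun t : ℝ => fderiv ℝ (fderiv ℝ Y) (q + t • c).1 b.1 a.1)
      (fderiv ℝ (fderiv ℝ (fderiv ℝ Y)) q.1 c.1 b.1 a.1) 0 := by
  have h1 : ContDiff ℝ ∞ (fderiv ℝ Y) := hY.fderiv_right (by simp)
  have h2 : ContDiff ℝ ∞ (fderiv ℝ (fderiv ℝ Y)) := h1.fderiv_right (by simp)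
  simpa using ((comp_line (h2.differentiable (by simp) q.1) (line q.1 c.1)
    (by simp)).clm_apply (hasDerivAt_const (0 : ℝ) b.1)).clm_apply (hasDerivAt_const (0 : ℝ) a.1)

/-- the derivatives of the identity `w ∘ Ψ = snd` -/
theorem ids (hY : ContDiff ℝ ∞ Y) {w : E3 → ℝ} (hw : ContDiff ℝ ∞ w) {q₀ : P2 × ℝ}
    (h : ∀ᶠ q in 𝓝 q₀, w (Ps Y n q) = q.2) :
    (∀ a, ⟪gradient w (Ps Y n q₀), Aa Y n q₀ a⟫ = a.2) ∧
    (∀ b a, ⟪gradient w (Ps Y n q₀), fderiv ℝ (fderiv ℝ Y) q₀.1 b.1 a.1⟫ +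
      ⟪fderiv ℝ (gradient w) (Ps Y n q₀) (Aa Y n q₀ b), Aa Y n q₀ a⟫ = 0) ∧
    ∀ c b a, ⟪gradient w (Ps Y n q₀), fderiv ℝ (fderiv ℝ (fderiv ℝ Y)) q₀.1 c.1 b.1 a.1⟫ +
      ⟪fderiv ℝ (gradient w) (Ps Y n q₀) (Aa Y n q₀ c), fderiv ℝ (fderiv ℝ Y) q₀.1 b.1 a.1⟫ +
      (⟪fderiv ℝ (gradient w) (Ps Y n q₀) (Aa Y n q₀ b), fderiv ℝ (fderiv ℝ Y) q₀.1 c.1 a.1⟫ +
      ⟪fderiv ℝ (fderiv ℝ (gradient w)) (Ps Y n q₀) (Aa Y n q₀ c) (Aa Y n q₀ b) +
        fderiv ℝ (gradient w) (Ps Y n q₀) (fderiv ℝ (fderiv ℝ Y) q₀.1 c.1 b.1),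
        Aa Y n q₀ a⟫) = 0 := by
  have hg : ContDiff ℝ ∞ (gradient w) := contDiff_grad hw
  have hH : ContDiff ℝ ∞ (fderiv ℝ (gradient w)) := hg.fderiv_right (by simp)
  have e1 : ∀ a : P2 × ℝ, ∀ᶠ q in 𝓝 q₀, ⟪gradient w (Ps Y n q), Aa Y n q a⟫ = a.2 := fun a => by
    filter_upwards [h.eventually_nhds] with q hq
    have h1 := (comp_line (hw.differentiable (by simp) (Ps Y n q)) (d_Ps hY n q a)
      (by simp)).fun_sub (line q.2 a.2)
    have h2 := dir_zero (φ := fun z => w (Ps Y n z) - z.2) (k := 0)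
      (hq.mono fun z hz => sub_eq_zero.2 hz) h1
    rw [inner_grad]
    exact sub_eq_zero.1 h2
  have e2 : ∀ b a : P2 × ℝ, ∀ᶠ q in 𝓝 q₀,
      ⟪gradient w (Ps Y n q), fderiv ℝ (fderiv ℝ Y) q.1 b.1 a.1⟫ +
      ⟪fderiv ℝ (gradient w) (Ps Y n q) (Aa Y n q b), Aa Y n q a⟫ = 0 := fun b a => by
    filter_upwards [(e1 a).eventually_nhds] with q hq
    have h1 := (comp_line (hg.differentiable (by simp) (Ps Y n q)) (d_Ps hY n q b)
      (by simp)).inner ℝ (d_Aa hY n q b a)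
    have h2 := dir_zero (φ := fun z => ⟪gradient w (Ps Y n z), Aa Y n z a⟫) hq h1
    simpa only [zero_smul, add_zero] using h2
  refine ⟨fun a => (e1 a).self_of_nhds, fun b a => (e2 b a).self_of_nhds, fun c b a => ?_⟩
  have h1 := (comp_line (hg.differentiable (by simp) (Ps Y n q₀)) (d_Ps hY n q₀ c)
    (by simp)).inner ℝ (d_B hY q₀ c b a)
  have h2 := ((comp_line (hH.differentiable (by simp) (Ps Y n q₀)) (d_Ps hY n q₀ c)
    (by simp)).clm_apply (d_Aa hY n q₀ c b)).inner ℝ (d_Aa hY n q₀ c a)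
  have h3 := dir_zero (φ := fun q => ⟪gradient w (Ps Y n q), fderiv ℝ (fderiv ℝ Y) q.1 b.1 a.1⟫ +
    ⟪fderiv ℝ (gradient w) (Ps Y n q) (Aa Y n q b), Aa Y n q a⟫) (e2 b a) (h1.fun_add h2)
  simpa only [zero_smul, add_zero] using h3

theorem main {N : Set E3} {u : P2} {M T K : ℝ} (hY : ContDiff ℝ ∞ Y)
    (hN : map Y (𝓝 u) = 𝓝[N] (Y u)) (hM : ∀ a, ‖a‖ ≤ M * ‖fderiv ℝ Y u a‖)
    (hT2 : ‖fderiv ℝ (fderiv ℝ Y) u‖ ≤ T) (hT3 : ‖fderiv ℝ (fderiv ℝ (fderiv ℝ Y)) u‖ ≤ T)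
    (hK : ‖sh N (Y u)‖ ≤ K) : ∃ w : E3 → ℝ, IsEqn N (Y u) w ∧ ‖gradient w (Y u)‖ = 1 ∧
      ‖fderiv ℝ (gradient w) (Y u)‖ ≤ K ∧
      ‖fderiv ℝ (fderiv ℝ (gradient w)) (Y u)‖ ≤ 3 * (1 + M) ^ 3 * (1 + K) * (1 + T) ^ 2 := by
  have hK0 : 0 ≤ K := (norm_nonneg _).trans hK
  have hT0 : 0 ≤ T := (norm_nonneg _).trans hT2
  have hM0 : 0 ≤ M := by
    by_contra hcon
    have h1 := hM (1, 0)
    have h2 : ‖((1, 0) : P2)‖ = 1 := by simp
    nlinarith [norm_nonneg (fderiv ℝ Y u (1, 0))]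
  have hinj : Function.Injective (fderiv ℝ Y u) := by
    rw [injective_iff_map_eq_zero]
    intro a ha
    have := hM a
    rwa [ha, norm_zero, mul_zero, norm_le_zero_iff] at this
  obtain ⟨w₀, hw₀⟩ := exists_isEqn (Eventually.of_forall fun v => hY.contDiffAt) (rn_ne_zero hinj) hN
  have hmem : ∀ᶠ v in 𝓝 u, Y v ∈ N := by
    rw [← eventually_map (P := fun y => y ∈ N), hN]
    exact self_mem_nhdsWithin
  obtain ⟨t1, t2⟩ := IsEqn.param hw₀ (hY.contDiffAt.of_le two_le_inf) hmem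
  have hn : ‖nu N (Y u)‖ = 1 := norm_nuw hw₀.isEqn_eqn.2.1
  set n := nu N (Y u)
  have hsq : ∀ a : P2 × ℝ, ‖Aa Y n (u, 0) a‖ ^ 2 = ‖fderiv ℝ Y u a.1‖ ^ 2 + a.2 ^ 2 := fun a => by
    rw [Aa, norm_add_sq_real, inner_smul_right, t1, norm_smul, hn, Real.norm_eq_abs, mul_one,
      sq_abs]
    ring
  have b1 : ∀ a : P2 × ℝ, ‖fderiv ℝ Y u a.1‖ ≤ ‖Aa Y n (u, 0) a‖ := fun a =>
    le_of_sq_le_sq (by rw [hsq]; linarith [sq_nonneg a.2]) (norm_nonneg _)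
  have b2 : ∀ a : P2 × ℝ, ‖a.1‖ ≤ (1 + M) * ‖Aa Y n (u, 0) a‖ := fun a =>
    (hM a.1).trans (mul_le_mul (by linarith) (b1 a) (norm_nonneg _) (by linarith))
  have hP : ContDiff ℝ ∞ (Ps Y n) := by unfold Ps; fun_prop
  have hD : ∀ a, fderiv ℝ (Ps Y n) (u, 0) a = Aa Y n (u, 0) a := fun a =>
    (comp_line (hP.differentiable (by simp) (u, 0)) (line (u, 0) a) (by simp)).unique
      (d_Ps hY n (u, 0) a)
  have hi : Function.Injective (fderiv ℝ (Ps Y n) (u, 0)) := by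
    rw [injective_iff_map_eq_zero]
    intro a ha
    rw [hD] at ha
    have h1 := b2 a
    have h2 := hsq a
    rw [ha, norm_zero] at h1 h2
    rw [mul_zero, norm_le_zero_iff] at h1
    exact Prod.ext h1 (by
      have : a.2 ^ 2 = 0 := by nlinarith [sq_nonneg ‖fderiv ℝ Y u a.1‖, sq_nonneg a.2]
      exact pow_eq_zero_iff two_ne_zero |>.1 this)
  have hrk : Module.finrank ℝ (P2 × ℝ) = Module.finrank ℝ E3 := by simp
  have hs : ∀ v : E3, ∃ a, Aa Y n (u, 0) a = v := fun v => by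
    obtain ⟨a, ha⟩ := (LinearMap.injective_iff_surjective_of_finrank_eq_finrank hrk
      (f := (fderiv ℝ (Ps Y n) (u, 0)).toLinearMap)).1 hi v
    exact ⟨a, (hD a).symm.trans ha⟩
  obtain ⟨Ξ, x1, x2, x3⟩ := exists_local_inverse hrk (Eventually.of_forall fun z => hP.contDiffAt) hi
  have hp0 : Ps Y n (u, 0) = Y u := by simp [Ps]
  obtain ⟨w, hw, hwe⟩ := Chart.exists_contDiff_eventuallyEq (k := ⊤) (f := fun y => (Ξ y).2)
    (x1.mono fun y hy => hy.snd)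
  have hid : ∀ᶠ q in 𝓝 ((u, 0) : P2 × ℝ), w (Ps Y n q) = q.2 := by
    filter_upwards [hP.continuous.continuousAt.eventually hwe, x2] with q h1 h2
    rw [h1, h2]
  obtain ⟨i1, i2, i3⟩ := ids hY hw hid
  rw [hp0] at i1 i2 i3 x3 hwe
  have hg : gradient w (Y u) = n := by
    refine ext_inner_right ℝ fun v => ?_
    obtain ⟨a, rfl⟩ := hs v
    rw [i1, Aa, inner_add_right, real_inner_comm, t1, inner_smul_right, real_inner_self_eq_norm_sq,
      hn]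
    ring
  rw [hg] at i2 i3
  have hH : ‖fderiv ℝ (gradient w) (Y u)‖ ≤ K := by
    refine norm_le_of_inner hK0 fun v v' => ?_
    obtain ⟨b, rfl⟩ := hs v
    obtain ⟨a, rfl⟩ := hs v'
    have e := i2 b a
    rw [real_inner_comm, ← t2] at e
    rw [eq_neg_of_add_eq_zero_right e, abs_neg]
    refine (abs_real_inner_le_norm _ _).trans (mul_le_mul (((sh N (Y u)).le_opNorm _).trans
      (mul_le_mul hK (b1 b) (norm_nonneg _) hK0)) (b1 a) (norm_nonneg _) (by positivity))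
  refine ⟨w, ⟨hw, by rw [hg, ← norm_ne_zero_iff, hn]; exact one_ne_zero, ?_⟩, by rw [hg, hn], hH,
    ?_⟩
  · have a1 : ∀ᶠ y in 𝓝[N] (Y u), w y = 0 := by
      rw [← hN, eventually_map]
      have : Tendsto (fun v : P2 => (v, (0 : ℝ))) (𝓝 u) (𝓝 (u, 0)) :=
        Continuous.tendsto' (by fun_prop) _ _ rfl
      filter_upwards [this.eventually hid] with v hv
      simpa [Ps] using hv
    have a2 : Tendsto (fun y => (Ξ y).1) (𝓝 (Y u)) (𝓝 u) := by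
      have := x1.self_of_nhds.continuousAt.fst.tendsto
      rwa [x2.self_of_nhds, hp0] at this
    filter_upwards [eventually_nhdsWithin_iff.1 a1, a2.eventually hmem, x3, hwe] with y h1 h2 h3 h4
    refine ⟨h1, fun h5 => ?_⟩
    rw [h4] at h5
    rw [← h3, Ps, h5, zero_smul, add_zero]
    exact h2
  · have hB : 0 ≤ 3 * (1 + M) ^ 3 * (1 + K) * (1 + T) ^ 2 := by positivity
    refine ContinuousLinearMap.opNorm_le_bound _ hB fun z => ?_
    refine norm_le_of_inner (by positivity) fun v v' => ?_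
    obtain ⟨c, rfl⟩ := hs z
    obtain ⟨b, rfl⟩ := hs v
    obtain ⟨a, rfl⟩ := hs v'
    have e := i3 c b a
    rw [inner_add_left] at e
    have c2 : ∀ b a : P2 × ℝ, ‖fderiv ℝ (fderiv ℝ Y) u b.1 a.1‖ ≤
        T * ((1 + M) * ‖Aa Y n (u, 0) b‖) * ((1 + M) * ‖Aa Y n (u, 0) a‖) := fun b a =>
      ((fderiv ℝ (fderiv ℝ Y) u).le_opNorm₂ _ _).trans (mul_le_mul
        (mul_le_mul hT2 (b2 b) (norm_nonneg _) hT0) (b2 a) (norm_nonneg _) (by positivity))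
    have c3 : ‖fderiv ℝ (fderiv ℝ (fderiv ℝ Y)) u c.1 b.1 a.1‖ ≤
        T * ((1 + M) * ‖Aa Y n (u, 0) c‖) * ((1 + M) * ‖Aa Y n (u, 0) b‖) *
          ((1 + M) * ‖Aa Y n (u, 0) a‖) :=
      (ContinuousLinearMap.le_opNorm _ _).trans (mul_le_mul
        ((ContinuousLinearMap.le_opNorm₂ _ _ _).trans (mul_le_mul
          (mul_le_mul hT3 (b2 c) (norm_nonneg _) hT0) (b2 b) (norm_nonneg _) (by positivity)))
        (b2 a) (norm_nonneg _) (by positivity))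
    have c4 : ∀ (v v' : E3) (s s' : ℝ), ‖v‖ ≤ s → ‖v'‖ ≤ s' →
        |⟪fderiv ℝ (gradient w) (Y u) v, v'⟫| ≤ K * s * s' := fun v v' s s' h1 h2 =>
      (abs_real_inner_le_norm _ _).trans (mul_le_mul ((ContinuousLinearMap.le_opNorm _ _).trans
        (mul_le_mul hH h1 (norm_nonneg _) hK0)) h2 (norm_nonneg _)
        (mul_nonneg hK0 ((norm_nonneg _).trans h1)))
    have d1 := abs_le.1 ((abs_real_inner_le_norm n _).trans
      (mul_le_mul hn.le c3 (norm_nonneg _) zero_le_one))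
    have d2 := abs_le.1 (c4 _ _ _ _ (le_refl ‖Aa Y n (u, 0) c‖) (c2 b a))
    have d3 := abs_le.1 (c4 _ _ _ _ (le_refl ‖Aa Y n (u, 0) b‖) (c2 c a))
    have d4 := abs_le.1 (c4 _ _ _ _ (c2 c b) (le_refl ‖Aa Y n (u, 0) a‖))
    have p : 0 ≤ ‖Aa Y n (u, 0) c‖ * ‖Aa Y n (u, 0) b‖ * ‖Aa Y n (u, 0) a‖ := by positivity
    have k1 : T * (1 + M) ^ 3 + 3 * (K * T * (1 + M) ^ 2) ≤
        3 * (1 + M) ^ 3 * (1 + K) * (1 + T) ^ 2 := by
      have k2 : (1 + M) ^ 2 ≤ (1 + M) ^ 3 := pow_le_pow_right₀ (by linarith) (by norm_num)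
      have k3 : K * T * (1 + M) ^ 2 ≤ K * T * (1 + M) ^ 3 :=
        mul_le_mul_of_nonneg_left k2 (by positivity)
      have k4 : T + 3 * (K * T) ≤ 3 * (1 + K) * (1 + T) ^ 2 := by
        nlinarith [mul_nonneg hK0 hT0, mul_nonneg hK0 (sq_nonneg T), sq_nonneg T]
      have k5 := mul_le_mul_of_nonneg_right k4 (show 0 ≤ (1 + M) ^ 3 by positivity)
      linarith
    have k6 := mul_le_mul_of_nonneg_right k1 p
    rw [abs_le]
    constructor <;> linarith [d1.1, d1.2, d2.1, d2.2, d3.1, d3.2, d4.1, d4.2]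

end Eq

theorem eqn_proof : EqnStmt := by
  refine ⟨fun N p r C hN hp hr h => Eq.norm_sh_le hN hp hr h, 3,
    fun N Y u M T K hY hN hM hT hK => ?_⟩
  obtain ⟨Z, hZ, hZe⟩ := Chart.exists_contDiff_eventuallyEq (k := ⊤) hY
  have h0 : Z u = Y u := hZe.eq_of_nhds
  have h2 := hT 2 (by norm_num) (by norm_num)
  have h3 := hT 3 (by norm_num) (by norm_num)
  rw [← norm_iteratedFDeriv_fderiv, ← norm_iteratedFDeriv_fderiv, norm_iteratedFDeriv_zero] at h2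
  rw [← norm_iteratedFDeriv_fderiv, ← norm_iteratedFDeriv_fderiv, ← norm_iteratedFDeriv_fderiv,
    norm_iteratedFDeriv_zero] at h3
  rw [← h0] at hK ⊢
  exact Eq.main hZ (by rw [map_congr hZe, h0, hN]) (by rw [hZe.fderiv_eq]; exact hM)
    (by rw [hZe.fderiv.fderiv_eq]; exact h2) (by rw [hZe.fderiv.fderiv.fderiv_eq]; exact h3) hK

end Vale.Agent.P218F.Ft
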