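import Vale.Agent.P218F.FtPair

/-! # Block FT: the abstract gluing -/

open MeasureTheory Set Filter Topology Metric
open scoped ContDiff RealInnerProductSpace Real

set_option maxSynthPendingDepth 3

noncomputable section

namespace Vale.Agent.P218F.Ft

open Vale.Agent.P218FT hiding P2
open Vale.Agent.P218F.Core

theorem eq_of_tendsto {X Y : Type*} [TopologicalSpace X] [TopologicalSpace Y] [T2Space Y]
    {f : X → Y} {a : X} {b : Y} (h : Tendsto f (𝓝 a) (𝓝 b)) : f a = b :=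
  tendsto_nhds_unique (tendsto_pure_nhds f a) (h.mono_left (pure_le_nhds a))

/-- the local structure of a set which is uniformly parametrised -/
theorem map_nhds_of {N : Set E3} {Y : P2 → E3} {u : P2} (hc : ContinuousAt Y u)
    (hN : ∀ᶠ v in 𝓝 u, Y v ∈ N)
    (h : ∀ U ∈ 𝓝 u, ∃ δ > 0, ∀ y ∈ N, ‖y - Y u‖ < δ → ∃ v ∈ U, y = Y v) :
    map Y (𝓝 u) = 𝓝[N] (Y u) := by
  refine le_antisymm (tendsto_nhdsWithin_iff.2 ⟨hc, hN⟩) fun V hV => ?_
  obtain ⟨δ, h0, h1⟩ := h _ hV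
  filter_upwards [nhdsWithin_le_nhds (ball_mem_nhds (Y u) h0), self_mem_nhdsWithin] with y h2 h3
  obtain ⟨v, h4, rfl⟩ := h1 y h3 (mem_ball_iff_norm.1 h2)
  exact h4

namespace Abs.OK

variable {S : Set E3} {J P : Type} [NormedAddCommGroup P] {A : Abs S J P} {s Λ L : ℝ} {q : ℕ}
  (h : A.OK s Λ L q) {e : J} {v : P2}

include h

theorem O_zero (e : J) : A.O 0 e = ContinuousLinearMap.id ℝ E3 :=
  eq_of_tendsto (f := fun x => A.O x e) (h.O0 e)

theorem g_zero (hv : A.a e < v.1) : A.g 0 e v = A.g₀ e v :=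
  eq_of_abs_sub_nonpos (le_of_forall_pos_le_add fun ε hε => by
    simpa using (h.g0 v.1 ε hε).self_of_nhds e v hv le_rfl)

theorem g₀_le (hv : A.a e < v.1) : |A.g₀ e v| ≤ A.η e / 2 :=
  h.g_zero hv ▸ ((h.gg.self_of_nhds e).2 v hv).2.1

theorem X_mem (hv : A.a e < v.1) : grf (A.F e) (A.g₀ e) v ∈ S :=
  (h.mem e (v, A.g₀ e v) (by linarith) (by linarith [h.g₀_le hv, (h.coord e).ηpos])).2 rfl

theorem S_near {z : P2 × ℝ} (h0 : A.a e ≤ z.1.1) (h1 : |z.2| ≤ A.η e) {y : E3} (hy : y ∈ S)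
    (h2 : ‖y - A.F e z‖ ≤ s) : ∃ v, y = grf (A.F e) (A.g₀ e) v ∧
      ‖v - z.1‖ ≤ Λ * ‖y - A.F e z‖ ∧ |v.1 - z.1.1| ≤ 1 / 8 := by
  have hc := h.coord e
  have h3 : 0 ≤ z.1.1 := by linarith [h.a1 e]
  obtain ⟨z', rfl, h4, h5, h6⟩ := hc.near (O := ContinuousLinearMap.id ℝ E3) (h.small e)
    (fun _ => rfl) h3 h1 h2
  refine ⟨z'.1, ?_, le_trans (le_mul_of_one_le_left (norm_nonneg _) (hc.one _ h3)) h4, h6⟩
  have := (h.mem e z' (by linarith [(abs_le.1 h6).1]) (by linarith [hc.ηpos])).1 hy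
  rw [grf, ← this]
  rfl

theorem mem_core (hv : A.a e < v.1) {t : ℝ} (ht : 0 ≤ t) (h1 : v.1 ≤ A.a e + t) :
    grf (A.F e) (A.g₀ e) v ∈ A.core t := by
  refine ⟨h.X_mem hv, fun h2 => ?_⟩
  obtain ⟨e', v', h3, h4⟩ := mem_iUnion.1 h2
  have h3 : A.a e' + t < v'.1 := h3
  have h5 := h.g₀_le hv
  have h6 := h.g₀_le ((le_add_of_nonneg_right ht).trans_lt h3)
  have h7 := (h.coord e).ηpos
  have h8 := (h.coord e').ηpos
  obtain rfl : e' = e := by
    by_contra hne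
    refine h.disj.self_of_nhds e' e (v', _) (v, _) hne (by linarith) (by linarith)
      (h6.trans (by linarith)) (h5.trans (by linarith)) ?_
    rw [h.O_zero, h.O_zero]
    exact h4
  have := ((h.coord e').eq_grf (h.per e') (z := (v', _)) (h6.trans (by linarith))
    (h5.trans (by linarith)) h4).2
  linarith

theorem cont_X (e : J) : Continuous (grf (A.F e) (A.g₀ e)) :=
  (h.coord e).smooth.continuous.comp (continuous_id.prodMk (h.cont e))

variable [Finite J]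

theorem cpt {t : ℝ} (ht : 0 ≤ t) : IsCompact (A.core t) := by
  obtain ⟨B, hB⟩ := h.cover
  obtain ⟨b, hb⟩ := (finite_range A.a).bddAbove
  refine ((isCompact_closedBall 0 B).union (isCompact_band (a := 0) (b := b + t)
    (fun e y _ => (h.cont_X e).continuousAt) fun e => (h.coord e).grf_per (h.per e))
    ).of_isClosed_subset ?_ fun y hy => ?_
  · rw [← isOpen_compl_iff, isOpen_iff_mem_nhds]
    intro p hp
    by_cases h1 : p ∈ S
    · obtain ⟨e, u, h2, rfl⟩ := mem_iUnion.1 (not_not.1 fun h2 => hp ⟨h1, h2⟩)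
      have h2 : A.a e + t < u.1 := h2
      have hc := h.coord e
      have h3 := hc.Λpos
      filter_upwards [closedBall_mem_nhds _ (lt_min hc.spos
        (by positivity [sub_pos.2 h2] : 0 < (u.1 - (A.a e + t)) / (2 * Λ)))] with y hy h4
      rw [mem_closedBall_iff_norm, le_min_iff, le_div_iff₀ (by positivity)] at hy
      obtain ⟨v, h5, h6, -⟩ := h.S_near (z := (u, A.g₀ e u)) (by linarith)
        (by linarith [h.g₀_le (e := e) (v := u) (by linarith), hc.ηpos]) h4.1 hy.1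
      have h7 : |v.1 - u.1| ≤ ‖v - u‖ := norm_fst_le (v - u)
      refine h4.2 (mem_iUnion.2 ⟨e, v, ?_, h5.symm⟩)
      have h6 : ‖v - u‖ ≤ Λ * ‖y - grf (A.F e) (A.g₀ e) u‖ := h6
      show _ < v.1
      linarith [(abs_le.1 h7).1, hy.2]
    · filter_upwards [h.surf.1.isOpen_compl.mem_nhds h1] with y hy h2 using hy h2.1
  · rcases le_total ‖y‖ B with h1 | h1
    · exact Or.inl (mem_closedBall_zero_iff.2 h1)
    · obtain ⟨e, v, h2, rfl⟩ := hB y hy.1 h1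
      refine Or.inr ⟨e, v, ⟨h2, not_lt.1 fun h3 => hy.2 (mem_iUnion.2 ⟨e, v, ?_, rfl⟩)⟩, rfl⟩
      show _ < v.1
      linarith [hb (mem_range_self e)]

theorem nhd {t t' : ℝ} (ht : t < t') {p : E3} (hp : p ∈ A.core t) :
    ∀ᶠ p' in 𝓝[S] p, p' ∈ A.core t' := by
  have h1 : IsClosed (⋃ e, grf (A.F e) (A.g₀ e) '' {v | A.a e + t' ≤ v.1}) :=
    isClosed_iUnion_of_finite fun e => isClosed_half (fun _ _ => (h.cont_X e).continuousAt)
      ((h.coord e).grf_per (h.per e)) fun v => ((h.coord e).gro (v, _)).1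
  have h0 : p ∉ ⋃ e, grf (A.F e) (A.g₀ e) '' {v | A.a e + t' ≤ v.1} := fun h2 => by
    obtain ⟨e, v, h3, h4⟩ := mem_iUnion.1 h2
    exact hp.2 (mem_iUnion.2 ⟨e, v, (add_lt_add_right ht _).trans_le h3, h4⟩)
  filter_upwards [nhdsWithin_le_nhds (h1.isOpen_compl.mem_nhds h0), self_mem_nhdsWithin]
    with y h2 h3
  refine ⟨h3, fun h4 => ?_⟩
  obtain ⟨e, v, h5, h6⟩ := mem_iUnion.1 h4
  exact h2 (mem_iUnion.2 ⟨e, v, show _ ≤ v.1 from le_of_lt h5, h6⟩)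

theorem cv' (φ : P2 → E3) (u : P2) (hφ : Par S φ u) (hu : φ u ∈ A.core (9 / 4)) : Cv A.Φ φ u :=
  h.cv φ u hφ (hφ.tendsto.eventually (h.nhd (by norm_num) hu))

theorem unif {ε : ℝ} (hε : 0 < ε) : ∀ᶠ x in 𝓝 (0 : P), ∀ p ∈ A.core (9 / 4), ‖A.Φ x p - p‖ ≤ ε :=
  unif_of_cv h.surf (h.cpt (by norm_num)) sdiff_subset h.cv' hε

omit [Finite J] in
theorem sub : ∀ᶠ x in 𝓝 (0 : P), ∀ p ∈ A.core (9 / 4), A.Φ x p ∈ A.Sx x := by
  filter_upwards [h.glue] with x hx p hp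
  by_cases h1 : p ∈ A.core 0
  · exact Or.inl (mem_image_of_mem _ h1)
  · obtain ⟨e, v, h2, rfl⟩ := mem_iUnion.1 (not_not.1 fun h2 => h1 ⟨hp.1, h2⟩)
    have h2 : A.a e < v.1 := by simpa using h2
    have h3 : v.1 ≤ A.a e + 9 / 4 := not_lt.1 fun h3 => hp.2 (mem_iUnion.2 ⟨e, v, h3, rfl⟩)
    exact Or.inr (mem_iUnion.2 ⟨e, v, h2, (hx e v ⟨h2, by linarith⟩).symm⟩)

omit [Finite J] in
theorem cases : ∀ᶠ x in 𝓝 (0 : P), ∀ t, 0 ≤ t → t < 3 → ∀ y ∈ A.Sx x,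
    (∃ p ∈ A.core t, y = A.Φ x p) ∨ ∃ e v, A.a e + t < v.1 ∧ y = A.Y x e v := by
  filter_upwards [h.glue] with x hx t h0 h1 y hy
  rcases hy with ⟨p, hp, rfl⟩ | hy
  · exact Or.inl ⟨p, A.core_mono h0 hp, rfl⟩
  · obtain ⟨e, v, h2, rfl⟩ := mem_iUnion.1 hy
    rcases le_or_gt v.1 (A.a e + t) with h3 | h3
    · exact Or.inl ⟨_, h.mem_core h2 h0 h3, (hx e v ⟨h2, by linarith⟩).symm⟩
    · exact Or.inr ⟨e, v, h3, rfl⟩

theorem ev_O {ε : ℝ} (hε : 0 < ε) (B : ℝ) :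
    ∀ᶠ x in 𝓝 (0 : P), ∀ e y, ‖y‖ ≤ B → ‖A.O x e y - y‖ ≤ ε := by
  refine eventually_all.2 fun e => ?_
  have h1 := (tendsto_iff_norm_sub_tendsto_zero.1 (h.O0 e)).mul_const B
  rw [zero_mul] at h1
  filter_upwards [h1.eventually (ge_mem_nhds hε)] with x hx y hy
  exact ((A.O x e - ContinuousLinearMap.id ℝ E3).le_opNorm y).trans
    ((mul_le_mul_of_nonneg_left hy (norm_nonneg _)).trans hx)

/-- the deformed core meets the region of an end only along the end -/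
theorem sepB (hs : 0 < s) : ∀ᶠ x in 𝓝 (0 : P), ∀ p ∈ A.core (9 / 4), ∀ e (z : P2 × ℝ),
    A.a e ≤ z.1.1 → |z.2| ≤ A.η e → A.Φ x p = A.O x e (A.F e z) →
      ∃ v, p = grf (A.F e) (A.g₀ e) v ∧ |v.1 - z.1.1| ≤ 1 / 8 := by
  obtain ⟨B, hB⟩ := (h.cpt (t := 9 / 4) (by norm_num)).isBounded.exists_norm_le
  filter_upwards [h.unif (half_pos hs), h.iso, h.ev_O (half_pos hs) (B + s / 2)]
    with x h1 h2 h3 p hp e z h4 h5 h6
  have h7 := h1 p hp
  have h8 := h3 e (A.F e z) (by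
    rw [← h2 e, ← h6]; linarith [norm_sub_norm_le (A.Φ x p) p, hB p hp])
  rw [← h6] at h8
  obtain ⟨v, h9, -, h10⟩ := h.S_near h4 h5 hp.1 (by
    linarith [norm_sub_le_norm_sub_add_norm_sub p (A.Φ x p) (A.F e z), norm_sub_rev p (A.Φ x p)])
  exact ⟨v, h9, h10⟩

/-- near an end there is only the end -/
theorem sepA (hs : 0 < s) : ∀ᶠ x in 𝓝 (0 : P), ∀ e (u : P2), A.a e + 1 / 2 ≤ u.1 → ∀ y ∈ A.Sx x,
    ‖y - A.Y x e u‖ ≤ s → ∃ v, y = A.Y x e v ∧ A.lam e u.1 * ‖v - u‖ ≤ Λ * ‖y - A.Y x e u‖ ∧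
      |v.1 - u.1| ≤ 1 / 8 := by
  filter_upwards [h.sepB hs, h.iso, h.gg, h.disj] with x h1 h2 h3 h4 e u hu y hy h5
  have hc := h.coord e
  have h6 := ((h3 e).2 u (by linarith)).2.1
  have hη := hc.ηpos
  obtain ⟨z, h7, h8, h9, h10⟩ := hc.near (z := (u, A.g x e u)) (h.small e) (h2 e)
    (by linarith [h.a1 e]) (by linarith) h5
  have h9 : |z.2| ≤ A.η e := by linarith
  have h11 : A.a e + 3 / 8 ≤ z.1.1 := by linarith [(abs_le.1 h10).1]
  rcases hy with ⟨p, hp, rfl⟩ | hy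
  · obtain ⟨v, h12, h13⟩ := h1 p (A.core_mono (by norm_num) hp) e z (by linarith) h9 h7.symm
    refine (hp.2 (mem_iUnion.2 ⟨e, v, ?_, h12.symm⟩)).elim
    show _ < v.1
    linarith [(abs_le.1 h13).1]
  · obtain ⟨e', v, hv, rfl⟩ := mem_iUnion.1 hy
    have hv : A.a e' < v.1 := hv
    have h12 := ((h3 e').2 v hv).2.1
    have h13 := (h.coord e').ηpos
    obtain rfl : e = e' := by
      by_contra hne
      exact h4 e e' z (v, _) hne (by linarith) (by linarith) (by linarith)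
        (h12.trans (by linarith)) h7
    have h14 := (hc.eq_grf (h3 e).1 (by linarith) (h12.trans (by linarith))
      (iso_injective (h2 e) h7)).1
    exact ⟨z.1, by rw [← h7, h14]; rfl, h8, h10⟩

/-- near the deformed core there is only the deformed core -/
theorem sepC (hs : 0 < s) : ∀ᶠ x in 𝓝 (0 : P), ∀ p ∈ A.core (3 / 2), ∀ y ∈ A.Sx x,
    ‖y - A.Φ x p‖ ≤ s → ∃ p' ∈ A.core 2, y = A.Φ x p' := by
  filter_upwards [h.sepA hs, h.sepB hs, h.sub, h.cases, h.gg] with x h1 h2 h3 h4 h5 p hp y hy h6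
  refine (h4 2 (by norm_num) (by norm_num) y hy).resolve_right fun ⟨e, v, h7, h8⟩ => ?_
  have hp' := A.core_mono (by norm_num : (3 / 2 : ℝ) ≤ 9 / 4) hp
  obtain ⟨u, h9, -, h10⟩ := h1 e v (by linarith) _ (h3 p hp') (by rwa [← h8, norm_sub_rev])
  have h11 := (abs_le.1 h10).1
  obtain ⟨v', h12, h13⟩ := h2 p hp' e (u, A.g x e u) (by linarith)
    (by linarith [((h5 e).2 u (by linarith)).2.1, (h.coord e).ηpos]) h9
  refine hp.2 (mem_iUnion.2 ⟨e, v', ?_, h12.symm⟩)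
  show _ < v'.1
  linarith [(abs_le.1 h13).1]

theorem zero : A.Sx 0 = S := by
  have h1 : ∀ p ∈ A.core 0, A.Φ 0 p = p := fun p hp =>
    eq_of_sub_eq_zero (norm_le_zero_iff.1 (le_of_forall_pos_le_add fun ε hε => by
      simpa using (h.unif hε).self_of_nhds p (A.core_mono (by norm_num) hp)))
  have h2 : ∀ e (v : P2), A.a e < v.1 → A.Y 0 e v = grf (A.F e) (A.g₀ e) v := fun e v hv => by
    rw [Abs.Y, h.O_zero, grf, h.g_zero hv]; rfl
  refine Subset.antisymm (union_subset ?_ (iUnion_subset fun e => ?_)) fun p hp => ?_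
  · rintro _ ⟨p, hp, rfl⟩
    rw [h1 p hp]; exact hp.1
  · rintro _ ⟨v, hv, rfl⟩
    rw [h2 e v hv]; exact h.X_mem hv
  · by_cases h3 : p ∈ A.core 0
    · exact Or.inl ⟨p, h3, h1 p h3⟩
    · obtain ⟨e, v, h4, rfl⟩ := mem_iUnion.1 (not_not.1 fun h2 => h3 ⟨hp, h2⟩)
      have h4 : A.a e < v.1 := by simpa using h4
      exact Or.inr (mem_iUnion.2 ⟨e, v, h4, h2 e v h4⟩)

theorem near (R : ℝ) {ε : ℝ} (hε : 0 < ε) :
    ∀ᶠ x in 𝓝 (0 : P), ∀ p ∈ S, ‖p‖ ≤ R → ∃ y ∈ A.Sx x, ‖y - p‖ ≤ ε := by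
  filter_upwards [h.unif hε, h.ev_O (half_pos hε) R, h.iso, h.gg,
    h.g0 R (ε / 2 / ((|Λ| + 1) * (1 + |R|))) (by positivity)] with x h1 h2 h3 h4 h5 p hp hR
  by_cases h6 : p ∈ A.core 0
  · exact ⟨_, Or.inl (mem_image_of_mem _ h6), h1 p (A.core_mono (by norm_num) h6)⟩
  obtain ⟨e, v, hv, rfl⟩ := mem_iUnion.1 (not_not.1 fun h2 => h6 ⟨hp, h2⟩)
  have hv : A.a e < v.1 := by simpa using hv
  have hc := h.coord e
  refine ⟨_, Or.inr (mem_iUnion.2 ⟨e, v, hv, rfl⟩), ?_⟩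
  obtain ⟨h7, h8⟩ := hc.gro (v, A.g₀ e v)
  have h9 := h5 e v hv (h7.trans hR)
  rw [le_div_iff₀ (by positivity)] at h9
  have h10 := (convex_Icc (-1 : ℝ) 1).norm_image_sub_le_of_norm_hasFDerivWithin_le
    (f := fun t => A.F e (v, t)) (C := Λ * A.lam e v.1) (x := A.g₀ e v) (y := A.g x e v)
    (fun t _ => ((hc.smooth.differentiable (by simp) (v, t)).hasFDerivAt.comp t
      (hasFDerivAt_prodMk_right v t)).hasFDerivWithinAt) (fun t ht => by
      refine (ContinuousLinearMap.opNorm_comp_le _ _).trans ?_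
      rw [ContinuousLinearMap.norm_inr, mul_one, ← norm_iteratedFDeriv_one]
      exact hc.up (v, t) (abs_le.2 ht) 1 le_rfl (by norm_num))
    (abs_le.1 (by linarith [h.g₀_le hv, hc.ηle])) (abs_le.1 (by
      linarith [((h4 e).2 v hv).2.1, hc.ηle]))
  have h11 : A.lam e v.1 ≤ 1 + |R| := by linarith [le_abs_self R, show ‖A.F e (v, _)‖ ≤ R from hR]
  have h12 := norm_sub_le_norm_sub_add_norm_sub (A.Y x e v) (A.O x e (grf (A.F e) (A.g₀ e) v))
    (grf (A.F e) (A.g₀ e) v)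
  rw [Abs.Y, ← map_sub, h3] at h12
  have h13 : Λ * A.lam e v.1 * ‖A.g x e v - A.g₀ e v‖ ≤
      (|Λ| + 1) * (1 + |R|) * |A.g x e v - A.g₀ e v| := by
    have := hc.one v.1 (by linarith [h.a1 e])
    rw [Real.norm_eq_abs]; gcongr; linarith [le_abs_self Λ]
  have h10 : ‖grf (A.F e) (A.g x e) v - grf (A.F e) (A.g₀ e) v‖ ≤ _ := h10
  rw [Abs.Y]
  linarith [h2 e _ hR]

theorem closed : ∀ᶠ x in 𝓝 (0 : P), IsClosed (A.Sx x) := by
  obtain ⟨T, hT⟩ := charts h.surf (h.cpt (t := 9 / 4) (by norm_num)) sdiff_subset h.cv'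
  filter_upwards [hT, h.sub, h.cases, h.gg, h.iso] with x h1 h2 h3 h4 h5
  have e : A.Sx x = A.Φ x '' A.core (9 / 4) ∪ ⋃ e, A.Y x e '' {v | A.a e + 1 ≤ v.1} := by
    refine Subset.antisymm (fun y hy => ?_) (union_subset (image_subset_iff.2 h2)
      (iUnion_subset fun e => ?_))
    · rcases h3 (9 / 4) (by norm_num) (by norm_num) y hy with ⟨p, hp, rfl⟩ | ⟨e, v, hv, rfl⟩
      · exact Or.inl (mem_image_of_mem _ hp)
      · exact Or.inr (mem_iUnion.2 ⟨e, v, show _ ≤ v.1 by linarith, rfl⟩)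
    · rintro _ ⟨v, hv, rfl⟩
      exact Or.inr (mem_iUnion.2 ⟨e, v, show _ < v.1 from (lt_add_one _).trans_le hv, rfl⟩)
  rw [e]
  refine ((h.cpt (by norm_num)).image_of_continuousOn fun p hp => ?_).isClosed.union
    (isClosed_iUnion_of_finite fun e => isClosed_half (fun v hv => ?_) (fun v => ?_) fun v => ?_)
  · obtain ⟨φ, u, h6, rfl, h7, -⟩ := h1 p hp
    refine ContinuousWithinAt.mono (t := S) ?_ sdiff_subset
    rw [ContinuousWithinAt, ← h6.map_nhds h.surf, tendsto_map'_iff]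
    exact h7.self_of_nhds.continuousAt
  · exact ((h.coord e).contDiffAt two_le_inf ((h4 e).2 v (by linarith)).1).continuousAt
  · rw [Abs.Y, (h.coord e).grf_per (h4 e).1, Abs.Y]
  · rw [Abs.Y, h5]; exact ((h.coord e).gro (v, _)).1

/-- local parametrisations with polynomial bounds -/
theorem param (hs : 0 < s) (hP : ∀ᶠ x in 𝓝 (0 : P), ∀ p ∈ A.core (9 / 4), ∀ y ∈ A.core (9 / 4),
    ‖y - p‖ ≤ 4 * ‖A.Φ x y - A.Φ x p‖) : ∃ M T : ℝ, 0 ≤ M ∧ 0 ≤ T ∧ ∀ᶠ x in 𝓝 (0 : P),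
    ∀ y ∈ A.Sx x, ∃ (Y : P2 → E3) (u : P2), Y u = y ∧ (∀ᶠ v in 𝓝 u, ContDiffAt ℝ ∞ Y v) ∧
      map Y (𝓝 u) = 𝓝[A.Sx x] (Y u) ∧ (∀ a, ‖a‖ ≤ M * ‖fderiv ℝ Y u a‖) ∧
      ∀ k, 1 ≤ k → k ≤ 3 → ‖iteratedFDeriv ℝ k Y u‖ ≤ T * (1 + ‖y‖) ^ (3 * q + 1) := by
  obtain ⟨T, hT⟩ := charts h.surf (h.cpt (t := 9 / 4) (by norm_num)) sdiff_subset h.cv'
  refine ⟨|T| + |Λ|, |T| + 6 * |Λ| * (1 + |L|) ^ 3, by positivity, by positivity, ?_⟩
  filter_upwards [hT, hP, h.sub, h.cases, h.gg, h.iso, h.sepA hs, h.sepC hs]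
    with x h1 h2 h3 h4 h5 h6 h7 h8 y hy
  have hy1 : 1 ≤ 1 + ‖y‖ := le_add_of_nonneg_right (norm_nonneg _)
  rcases h4 (3 / 2) (by norm_num) (by norm_num) y hy with ⟨p, hp, rfl⟩ | ⟨e, u, hu, rfl⟩
  · have hp' := A.core_mono (by norm_num : (3 / 2 : ℝ) ≤ 9 / 4) hp
    obtain ⟨φ, u, hφ, rfl, a1, a2, a3⟩ := h1 p hp'
    refine ⟨fun t => A.Φ x (φ t), u, rfl, a1, map_nhds_of a1.self_of_nhds.continuousAt
      ((hφ.tendsto.eventually (h.nhd (by norm_num) hp)).mono fun v hv => h3 _ hv) fun U hU => ?_,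
      fun a => (a2 a).trans ?_, fun k b1 b2 => (a3 k b1 b2).trans ?_⟩
    · have b1 := image_mem_map (m := φ) hU
      rw [hφ.map_nhds h.surf, Metric.mem_nhdsWithin_iff] at b1
      obtain ⟨δ, b2, b3⟩ := b1
      refine ⟨min s (δ / 4), by positivity, fun y hy b4 => ?_⟩
      rw [lt_min_iff] at b4
      obtain ⟨p', b5, rfl⟩ := h8 _ hp y hy b4.1.le
      have b6 := h2 _ hp' _ (A.core_mono (by norm_num) b5)
      obtain ⟨v, b7, rfl⟩ := b3 ⟨mem_ball_iff_norm.2 (by linarith [b4.2]), b5.1⟩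
      exact ⟨v, b7, rfl⟩
    · gcongr; linarith [le_abs_self T, abs_nonneg Λ]
    · refine (le_abs_self T).trans (le_trans ?_ (le_mul_of_one_le_right (by positivity)
        (one_le_pow₀ hy1)))
      exact le_add_of_nonneg_right (by positivity)
  · have hc := h.coord e
    have hΛ := hc.Λpos
    have h0 : 0 ≤ u.1 := by linarith [h.a1 e]
    have a0 := hc.one _ h0
    have a1 : ∀ᶠ v : P2 in 𝓝 u, A.a e + 1 / 2 < v.1 :=
      continuous_fst.continuousAt.eventually (lt_mem_nhds (by linarith))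
    obtain ⟨a2, a3, a4, a5⟩ := (h5 e).2 u (by linarith)
    obtain ⟨a5, a6⟩ := a5 (by linarith)
    refine ⟨A.Y x e, u, rfl, a1.mono fun v hv => hc.contDiffAt le_rfl
      (((h5 e).2 v (by linarith)).2.2.2 hv.le).1, map_nhds_of (hc.contDiffAt le_rfl a5).continuousAt
      (a1.mono fun v hv => Or.inr (mem_iUnion.2 ⟨e, v, show _ < v.1 by linarith, rfl⟩))
      fun U hU => ?_, fun a => ?_, fun k b1 b2 => ?_⟩
    · obtain ⟨δ, b2, b3⟩ := Metric.mem_nhds_iff.1 hU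
      refine ⟨min s (δ / Λ), by positivity, fun y hy b4 => ?_⟩
      rw [lt_min_iff, lt_div_iff₀ hΛ] at b4
      obtain ⟨v, b5, b6, -⟩ := h7 e u (by linarith) y hy b4.1.le
      exact ⟨v, b3 (mem_ball_iff_norm.2 (by nlinarith [b4.2, norm_nonneg (v - u)])), b5⟩
    · refine (le_mul_of_one_le_left (norm_nonneg _) a0).trans ((hc.low_grf (h6 e)
        (a2.differentiableAt (by simp)) h0 (by linarith [hc.ηpos]) a).trans ?_)
      gcongr
      · linarith [le_abs_self Λ, abs_nonneg T]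
      · exact le_rfl
    · have b3 : ‖grf (A.F e) (A.g x e) u‖ = ‖A.Y x e u‖ := (h6 e _).symm
      have b4 : A.lam e u.1 ≤ 1 + ‖A.Y x e u‖ := b3 ▸ (hc.gro (u, _)).2
      rw [b3] at a6
      set t := 1 + ‖A.Y x e u‖
      have b5 : 1 ≤ t ^ q := one_le_pow₀ hy1
      have b6 : 1 ≤ (1 + |L|) * t ^ q := by nlinarith [abs_nonneg L]
      refine (hc.up_grf (h6 e) b1 b2 (a5.of_le (by exact_mod_cast le_top))
        (by linarith [hc.ηle]) b6 fun i c1 c2 => ?_).trans ?_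
      · rcases le_or_gt i 2 with c3 | c3
        · exact (jet_le a4 i c1 c3).trans b6
        · obtain rfl : i = 3 := by omega
          nlinarith [le_abs_self L]
      · have c1 : (k.factorial : ℝ) ≤ 6 := by exact_mod_cast Nat.factorial_le b2
        have c2 := pow_le_pow_right₀ b6 b2
        calc _ ≤ 6 * (|Λ| * t) * ((1 + |L|) * t ^ q) ^ 3 := by gcongr; exact le_abs_self Λ
          _ = 6 * |Λ| * (1 + |L|) ^ 3 * t ^ (3 * q + 1) := by ring
          _ ≤ _ := by gcongr; exact le_add_of_nonneg_left (abs_nonneg T)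

/-- the two-point bound on the ends -/
theorem two_end (hs : 0 < s) : ∀ᶠ x in 𝓝 (0 : P), IsSurf (A.Sx x) → ∀ e (u : P2),
    A.a e + 3 / 2 < u.1 → TwoPt (A.Sx x) (A.Y x e u) s (6 * |Λ| ^ 3) := by
  filter_upwards [h.gg, h.iso, h.sepA hs] with x h5 h6 h7 hS e u hu y hy h1
  have hc := h.coord e
  have hΛ := hc.Λpos
  have a0 := hc.one u.1 (by linarith [h.a1 e])
  obtain ⟨v, rfl, h2, -⟩ := h7 e u (by linarith) y hy h1
  have h3 : ‖v - u‖ ≤ 1 := by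
    have := mul_le_mul_of_nonneg_left h1 hΛ.le
    nlinarith [h.small e, hc.ηle, norm_nonneg (v - u)]
  have h4 : ∀ t ∈ Icc (0 : ℝ) 1, |(u + t • (v - u)).1 - u.1| ≤ 1 := fun t ht => by
    refine (norm_fst_le (u + t • (v - u) - u)).trans ?_
    rw [add_sub_cancel_left, norm_smul, Real.norm_of_nonneg ht.1]
    nlinarith [ht.1, ht.2]
  have h8 : ∀ t ∈ Icc (0 : ℝ) 1, A.a e < (u + t • (v - u)).1 := fun t ht => by
    linarith [(abs_le.1 (h4 t ht)).1]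
  have hm : ∀ w : P2, A.a e < w.1 → A.Y x e w ∈ A.Sx x := fun w hw =>
    Or.inr (mem_iUnion.2 ⟨e, w, hw, rfl⟩)
  have hn := hS.norm_nu (hm u (by linarith))
  have h9 := taylor_normal (Y := A.Y x e) (M := 6 * Λ * A.lam e u.1 * ‖v - u‖ ^ 2)
    (fun t ht => hc.contDiffAt two_le_inf ((h5 e).2 _ (h8 t ht)).1)
    ((IsEqn.param (hS.isEqn (hm u (by linarith)))
      (hc.contDiffAt two_le_inf ((h5 e).2 u (by linarith)).1)
      ((continuous_fst.continuousAt.eventually (lt_mem_nhds (by linarith))).mono hm)).1 (v - u))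
    fun t ht => by
      obtain ⟨b1, b2, b3, -⟩ := (h5 e).2 _ (h8 t ht)
      have b4 := hc.up_grf (h6 e) (n := 2) (by norm_num) (by norm_num) b1 (by linarith [hc.ηle])
        le_rfl (jet_le b3)
      rw [norm_iter_two] at b4
      have b5 := mul_le_mul_of_nonneg_left (hc.three _ _ (h4 t ht)) hΛ.le
      refine (abs_real_inner_le_norm _ _).trans ?_
      rw [hn, mul_one, sq, ← mul_assoc]
      refine (ContinuousLinearMap.le_opNorm₂ _ _ _).trans ?_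
      gcongr
      refine le_trans b4 ?_
      rw [Nat.factorial_two, Nat.cast_ofNat]
      linarith
  rw [add_sub_cancel] at h9
  refine h9.trans ?_
  have h10 : (A.lam e u.1 * ‖v - u‖) ^ 2 ≤ (Λ * ‖A.Y x e v - A.Y x e u‖) ^ 2 := by gcongr
  have h11 : A.lam e u.1 * ‖v - u‖ ^ 2 ≤ (A.lam e u.1 * ‖v - u‖) ^ 2 := by
    rw [mul_pow]; gcongr; nlinarith
  rw [abs_of_pos hΛ]
  nlinarith [mul_le_mul_of_nonneg_left (h11.trans h10) hΛ.le]

end Abs.OK

theorem abs_proof (hE : EqnStmt) : AbsStmt := by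
  intro s Λ r₀ C₀ hs hr
  obtain ⟨hsh, c, hc⟩ := hE
  set C := 4 * (2 * |C₀| + 1) + 6 * |Λ| ^ 3 with hC
  have hr' : 0 < min s (r₀ / 4) := by positivity
  refine ⟨_, C, hr', fun S J P _ _ A L q h h2 => ?_⟩
  have hK := h.cpt (t := 9 / 4) (by norm_num)
  have hP := pairs h.surf hK sdiff_subset h.cv' h2 fun p hp => hsh S p r₀ C₀ h.surf hp hr (h2 p hp)
  obtain ⟨M, T, hM, hT, h3⟩ := h.param hs (hP.mono fun x hx p hp y hy => (hx p hp y hy).1)
  obtain ⟨T', hT'⟩ := charts h.surf hK sdiff_subset h.cv'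
  have h4 : ∀ᶠ x in 𝓝 (0 : P), IsSurf (A.Sx x) := by
    filter_upwards [h.closed, h3] with x a1 a2
    refine ⟨a1, fun y hy => ?_⟩
    obtain ⟨Y, u, rfl, a3, a4, a5, -⟩ := a2 y hy
    exact exists_isEqn a3 (rn_ne_zero (injective_of_low a5)) a4
  have h5 : ∀ᶠ x in 𝓝 (0 : P), ∀ p ∈ A.Sx x, TwoPt (A.Sx x) p (min s (r₀ / 4)) C ∧
      ‖sh (A.Sx x) p‖ ≤ 2 * C := by
    filter_upwards [h4, hP, hT', h.cases, h.sub, h.sepC hs, h.two_end hs]
      with x a1 a2 a3 a4 a5 a6 a7 y hy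
    refine and_self_iff.2 ?_ |>.imp id (hsh _ y _ C a1 hy hr')
    intro y' hy' b1
    rw [le_min_iff] at b1
    rcases a4 (3 / 2) (by norm_num) (by norm_num) y hy with ⟨p, hp, rfl⟩ | ⟨e, u, hu, rfl⟩
    · have hp' := A.core_mono (by norm_num : (3 / 2 : ℝ) ≤ 9 / 4) hp
      obtain ⟨p', b2, rfl⟩ := a6 p hp y' hy' b1.1
      obtain ⟨b3, b4⟩ := a2 p hp' p' (A.core_mono (by norm_num) b2)
      obtain ⟨φ, u, b5, rfl, b6, -⟩ := a3 p hp'
      refine (b4 (by linarith [b1.2]) _ (a1.norm_nu hy) fun φ' u' b7 b8 => ?_).trans ?_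
      · rw [← b8] at hy hp ⊢
        exact (IsEqn.param (f := fun t => A.Φ x (φ' t)) (a1.isEqn hy) (b5.contDiffAt_of h.surf b7 b8
          two_le_inf (b6.self_of_nhds.of_le two_le_inf))
          ((b7.tendsto.eventually (h.nhd (by norm_num) hp)).mono fun v hv => a5 _ hv)).1
      · gcongr; exact le_add_of_nonneg_right (by positivity)
    · refine (a7 a1 e u hu y' hy' b1.1).trans ?_
      gcongr; exact le_add_of_nonneg_left (by positivity)
  refine ⟨|c| * (1 + M) ^ 3 * (1 + 2 * C) * (1 + T) ^ 2, 2 * (3 * q + 1), h.zero,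
    fun t ht => h.cpt ht, fun t t' _ ht p hp => h.nhd ht hp, h.cv', fun ε hε => h.unif hε,
    hP.mono fun x hx p hp y hy e => ?_, h.sub,
    h.cases.mono fun x hx => hx _ (by norm_num) (by norm_num), h4, h5, ?_, fun R ε hε => h.near R hε⟩
  · have := (hx p hp y hy).1
    rw [e, sub_self, norm_zero, mul_zero, norm_le_zero_iff, sub_eq_zero] at this
    exact this.symm
  · filter_upwards [h3, h5] with x a1 a2 y hy
    obtain ⟨Y, u, rfl, a3, a4, a5, a6⟩ := a1 y hy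
    obtain ⟨w, b1, b2, b3, b4⟩ := hc _ Y u M _ _ a3 a4 a5 a6 (a2 _ hy).2
    refine ⟨w, b1, b2, b3, b4.trans ?_⟩
    have b5 : 1 ≤ (1 + ‖Y u‖) ^ (3 * q + 1) := one_le_pow₀ (le_add_of_nonneg_right (norm_nonneg _))
    rw [mul_comm 2 (3 * q + 1), pow_mul, mul_assoc _ ((1 + T) ^ 2), ← mul_pow]
    gcongr
    · exact le_abs_self c
    · nlinarith

end Vale.Agent.P218F.Ft
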