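import Vale.Agent.P218F.FtAbs
import Mathlib.Analysis.Calculus.ContDiff.Bounds

/-! # Block FT: local lemmas for parametrised surfaces and for graphs in the coordinates of an end -/

open MeasureTheory Set Filter Topology Metric
open scoped ContDiff RealInnerProductSpace Real Nat

set_option maxSynthPendingDepth 3

noncomputable section

namespace Vale.Agent.P218F.Ft

open Vale.Agent.P218FT hiding P2
open Vale.Agent.P218F.Core

/-- the normal component of a chord -/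
theorem taylor_normal {Y : P2 → E3} {u a : P2} {n : E3} {M : ℝ}
    (hY : ∀ s ∈ Icc (0 : ℝ) 1, ContDiffAt ℝ 2 Y (u + s • a)) (h0 : ⟪fderiv ℝ Y u a, n⟫ = 0)
    (hM : ∀ s ∈ Icc (0 : ℝ) 1, |⟪fderiv ℝ (fderiv ℝ Y) (u + s • a) a a, n⟫| ≤ M) :
    |⟪Y (u + a) - Y u, n⟫| ≤ M := by
  have hl : ∀ s : ℝ, HasDerivAt (fun s : ℝ => u + s • a) a s := fun s => by
    simpa using ((hasDerivAt_id s).smul_const a).const_add u
  have h1 : ∀ s ∈ Icc (0 : ℝ) 1, HasDerivAt (fun s : ℝ => ⟪fderiv ℝ Y (u + s • a) a, n⟫)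
      ⟪fderiv ℝ (fderiv ℝ Y) (u + s • a) a a, n⟫ s := fun s hs => by
    have a1 := HasFDerivAt.comp_hasDerivAt (f := fun s : ℝ => u + s • a) s
      (diff_fderiv (hY s hs)).hasFDerivAt (hl s)
    have := (a1.clm_apply (hasDerivAt_const s a)).inner ℝ (hasDerivAt_const s n)
    simpa using this
  have h2 : ∀ s ∈ Icc (0 : ℝ) 1, HasDerivAt (fun s : ℝ => ⟪Y (u + s • a), n⟫)
      ⟪fderiv ℝ Y (u + s • a) a, n⟫ s := fun s hs => by
    have a1 := HasFDerivAt.comp_hasDerivAt (f := fun s : ℝ => u + s • a) s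
      ((hY s hs).differentiableAt (by simp)).hasFDerivAt (hl s)
    simpa using a1.inner ℝ (hasDerivAt_const s n)
  have h3 := norm_image_sub_le_of_norm_deriv_le_segment'
    (fun s hs => (h1 s hs).hasDerivWithinAt) fun s hs => hM s (Ico_subset_Icc_self hs)
  have hM0 : 0 ≤ M := (abs_nonneg _).trans (hM 0 ⟨le_rfl, zero_le_one⟩)
  have h4 := norm_image_sub_le_of_norm_deriv_le_segment_01' (C := M)
    (fun s hs => (h2 s hs).hasDerivWithinAt) fun s hs => by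
      have := h3 s (Ico_subset_Icc_self hs)
      rw [zero_smul, add_zero, h0, sub_zero, sub_zero] at this
      exact this.trans (by nlinarith [hs.2])
  simpa [inner_sub_left] using h4

theorem exists_pre {D : P2 →L[ℝ] E3} (hD : Function.Injective D) {n : E3} (hn : ‖n‖ = 1)
    (h : ∀ a, ⟪D a, n⟫ = 0) (z : E3) : ∃ a, D a = pt n z := by
  have hn0 : n ≠ 0 := by intro h0; rw [h0, norm_zero] at hn; exact zero_ne_one hn
  obtain ⟨x, hx⟩ := Vale.Agent.P218FS.exists_preimage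
    (L := D.comp (Vale.Agent.P218GA.toProd : EuclideanSpace ℝ (Fin 2) →L[ℝ] ℝ × ℝ))
    (hD.comp Vale.Agent.P218GA.toProd.injective) hn0 (fun v => h _)
    (e := pt n z) (by rw [real_inner_comm]; exact inner_pt_nrm hn z)
  exact ⟨_, hx⟩

theorem injective_of_low {D : P2 →L[ℝ] E3} {M : ℝ} (h : ∀ a, ‖a‖ ≤ M * ‖D a‖) :
    Function.Injective D :=
  (injective_iff_map_eq_zero _).2 fun a ha => by simpa [ha] using h a

theorem exists_low {D : P2 →L[ℝ] E3} (hD : Function.Injective D) :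
    ∃ M : ℝ, 0 < M ∧ ∀ a, ‖a‖ ≤ M * ‖D a‖ := by
  obtain ⟨K, hK, h⟩ := D.toLinearMap.exists_antilipschitzWith (LinearMap.ker_eq_bot.2 hD)
  exact ⟨K, hK, fun a => ZeroHomClass.bound_of_antilipschitz D h a⟩

/-- normals of close planes are close -/
theorem tilt {A A' : P2 →L[ℝ] E3} {ν n : E3} {M : ℝ} (hM : 0 ≤ M) (hA : ∀ a, ‖a‖ ≤ M * ‖A a‖)
    (hν : ‖ν‖ = 1) (h1 : ∀ a, ⟪A a, ν⟫ = 0) (hn : ‖n‖ = 1) (h2 : ∀ a, ⟪A' a, n⟫ = 0) (z : E3) :
    |⟪z, n⟫| ≤ |⟪z, ν⟫| + ‖A' - A‖ * M * ‖z‖ := by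
  obtain ⟨a, ha⟩ := exists_pre (injective_of_low hA) hν h1 z
  have e : ⟪z, n⟫ = ⟪ν, z⟫ * ⟪ν, n⟫ - ⟪(A' - A) a, n⟫ := by
    rw [sub_apply, inner_sub_left, h2, ha, pt_apply, inner_sub_left,
      real_inner_smul_left]
    ring
  have h3 : |⟪ν, n⟫| ≤ 1 := by simpa [hν, hn] using abs_real_inner_le_norm ν n
  have h4 : |⟪(A' - A) a, n⟫| ≤ ‖A' - A‖ * ‖a‖ := by
    refine (abs_real_inner_le_norm _ _).trans ?_
    rw [hn, mul_one]
    exact ContinuousLinearMap.le_opNorm _ _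
  have h5 : ‖a‖ ≤ M * ‖z‖ := (hA a).trans (by rw [ha]; gcongr; exact norm_pt_le hν z)
  rw [e, real_inner_comm ν z, mul_assoc]
  refine (abs_sub _ _).trans (add_le_add ?_ (h4.trans (by gcongr)))
  rw [abs_mul]
  exact mul_le_of_le_one_right (abs_nonneg _) h3

theorem norm_iter_two {E F : Type} [NormedAddCommGroup E] [NormedSpace ℝ E]
    [NormedAddCommGroup F] [NormedSpace ℝ F] (f : E → F) (u : E) :
    ‖iteratedFDeriv ℝ 2 f u‖ = ‖fderiv ℝ (fderiv ℝ f) u‖ := by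
  rw [← norm_iteratedFDeriv_fderiv, norm_iteratedFDeriv_one]

theorem comp_le {E F G : Type} [NormedAddCommGroup E] [NormedSpace ℝ E] [FiniteDimensional ℝ E]
    [NormedAddCommGroup F] [NormedSpace ℝ F] [NormedAddCommGroup G] [NormedSpace ℝ G]
    {g : F → G} {f : E → F} {u : E} {n : ℕ} (hn : 1 ≤ n) (hg : ContDiff ℝ n g)
    (hf : ContDiffAt ℝ n f u) {C D : ℝ}
    (hC : ∀ i, 1 ≤ i → i ≤ n → ‖iteratedFDeriv ℝ i g (f u)‖ ≤ C)
    (hD : ∀ i, 1 ≤ i → i ≤ n → ‖iteratedFDeriv ℝ i f u‖ ≤ D ^ i) :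
    ‖iteratedFDeriv ℝ n (fun v => g (f v)) u‖ ≤ n ! * C * D ^ n := by
  obtain ⟨f', h1, h2⟩ := Chart.exists_contDiff_eventuallyEq (k := n) (hf.eventually (by simp))
  have h0 : ∀ i, i ≤ n → 1 ≤ i → ∀ {H : Type} [NormedAddCommGroup H] [NormedSpace ℝ H]
      {k : H → G} {y : H} (c : G), ContDiffAt ℝ n k y →
      iteratedFDeriv ℝ i (fun v => k v - c) y = iteratedFDeriv ℝ i k y := by
    intro i h3 h4 H _ _ k y c hk
    rw [fun_iteratedFDeriv_sub_apply (hk.of_le (by exact_mod_cast h3)) contDiffAt_const,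
      iteratedFDeriv_const_of_ne (by omega), Pi.zero_apply, sub_zero]
  have h3 := norm_iteratedFDeriv_comp_le (g := fun y => g y - g (f u)) (n := n)
    (hg.sub contDiff_const) h1 le_rfl u (C := C) (D := D) (fun i hi => by
      rw [h2.self_of_nhds]
      rcases Nat.eq_zero_or_pos i with rfl | h4
      · simpa using (norm_nonneg _).trans (hC 1 le_rfl hn)
      · rw [h0 i hi h4 _ hg.contDiffAt]; exact hC i h4 hi) fun i h4 h5 => by
      rw [(h2.iteratedFDeriv ℝ i).self_of_nhds]; exact hD i h4 h5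
  have h4 : (fun y => g y - g (f u)) ∘ f' =ᶠ[𝓝 u] fun v => g (f v) - g (f u) :=
    h2.mono fun v hv => by simp [hv]
  rwa [(h4.iteratedFDeriv ℝ n).self_of_nhds, h0 n le_rfl hn (k := fun v => g (f v)) _
    (hg.contDiffAt.comp u hf)] at h3

/-- a proper periodic map sends closed half strips to closed sets -/
theorem isClosed_half {Y : P2 → E3} {t : ℝ} (hc : ∀ v : P2, t ≤ v.1 → ContinuousAt Y v)
    (hp : ∀ v : P2, Y (v.1, v.2 + 2 * π) = Y v) (hg : ∀ v : P2, v.1 ≤ ‖Y v‖) :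
    IsClosed (Y '' {v | t ≤ v.1}) := by
  refine isClosed_of_closure_subset fun p hp' => ?_
  have h1 := (isCompact_band (J := Unit) (f := fun _ => Y) (a := t) (b := ‖p‖ + 1)
    (fun _ v hv => hc v hv.1) fun _ => hp).isClosed
  have h2 : ∀ᶠ y in 𝓝 p, ‖y‖ < ‖p‖ + 1 :=
    continuous_norm.continuousAt.eventually (gt_mem_nhds (by linarith))
  obtain ⟨_, v, hv, e⟩ := h1.mem_of_frequently_of_tendsto
    (((mem_closure_iff_frequently.1 hp').and_eventually h2).mono fun y ⟨⟨v, hv, e⟩, hy⟩ =>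
      ⟨(), v, ⟨hv, (hg v).trans (e ▸ hy.le)⟩, e⟩) tendsto_id
  exact ⟨v, hv.1, e⟩

section graph

variable {F : P2 × ℝ → E3} {lam : ℝ → ℝ} {η s Λ : ℝ} {g : P2 → ℝ} {O : E3 →L[ℝ] E3} {u : P2}

theorem iso_injective (hO : ∀ v, ‖O v‖ = ‖v‖) : Function.Injective O :=
  (injective_iff_map_eq_zero _).2 fun v hv => by rw [← norm_eq_zero, ← hO, hv, norm_zero]

theorem iso_surjective (hO : ∀ v, ‖O v‖ = ‖v‖) : Function.Surjective O :=
  LinearMap.surjective_of_injective (f := O.toLinearMap) (iso_injective hO)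

theorem Coord.Λpos (h : Coord F lam η s Λ) : 0 < Λ := one_pos.trans_le h.Λge

theorem Coord.contDiffAt (h : Coord F lam η s Λ) {k : WithTop ℕ∞} (hk : k ≤ ∞)
    (hg : ContDiffAt ℝ k g u) : ContDiffAt ℝ k (fun v => O (grf F g v)) u :=
  O.contDiff.contDiffAt.comp u ((h.smooth.of_le hk).contDiffAt.comp u (contDiffAt_id.prodMk hg))

theorem Coord.grf_per (h : Coord F lam η s Λ) (hp : ∀ v : P2, g (v.1, v.2 + 2 * π) = g v) (v : P2) :
    grf F g (v.1, v.2 + 2 * π) = grf F g v := by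
  rw [grf, hp, h.per, grf]

theorem Coord.fderiv_grf (h : Coord F lam η s Λ) (hg : DifferentiableAt ℝ g u) (a : P2) :
    fderiv ℝ (fun v => O (grf F g v)) u a = O (fderiv ℝ F (u, g u) (a, fderiv ℝ g u a)) := by
  have := O.hasFDerivAt.comp u ((h.smooth.differentiable (by simp) (u, g u)).hasFDerivAt.comp u
    ((hasFDerivAt_id u).prodMk hg.hasFDerivAt))
  exact congrArg (fun L => L a) this.fderiv

theorem Coord.low_grf (h : Coord F lam η s Λ) (hO : ∀ v, ‖O v‖ = ‖v‖)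
    (hg : DifferentiableAt ℝ g u) (h0 : 0 ≤ u.1) (h1 : |g u| ≤ η) (a : P2) :
    lam u.1 * ‖a‖ ≤ Λ * ‖fderiv ℝ (fun v => O (grf F g v)) u a‖ := by
  rw [h.fderiv_grf hg, hO]
  refine le_trans ?_ (h.low (u, g u) h1 _)
  have := h.one _ h0
  gcongr
  exact norm_fst_le (a, fderiv ℝ g u a)

theorem Coord.up_grf (h : Coord F lam η s Λ) (hO : ∀ v, ‖O v‖ = ‖v‖) {n : ℕ} (hn : 1 ≤ n)
    (hn3 : n ≤ 3) (hg : ContDiffAt ℝ n g u) (h1 : |g u| ≤ 1) {T : ℝ} (hT : 1 ≤ T)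
    (hD : ∀ i, 1 ≤ i → i ≤ n → ‖iteratedFDeriv ℝ i g u‖ ≤ T) :
    ‖iteratedFDeriv ℝ n (fun v => O (grf F g v)) u‖ ≤ n ! * (Λ * lam u.1) * T ^ n := by
  have hF : ContDiff ℝ n F := h.smooth.of_le (by exact_mod_cast le_top)
  refine comp_le (g := fun z => O (F z)) (f := fun v => (v, g v)) hn (O.contDiff.comp hF)
    (contDiffAt_id.prodMk hg) (fun i h2 h3 => ?_) fun i h2 h3 => ?_
  · refine (O.norm_iteratedFDeriv_comp_left hF.contDiffAt (by exact_mod_cast h3)).trans ?_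
    have h4 : ‖O‖ ≤ 1 := O.opNorm_le_bound zero_le_one fun v => by rw [hO, one_mul]
    exact (mul_le_of_le_one_left (norm_nonneg _) h4).trans (h.up (u, g u) h1 i h2 (h3.trans hn3))
  · rw [iteratedFDeriv_prodMk (f := fun v => v) contDiffAt_id hg (by exact_mod_cast h3),
      ContinuousMultilinearMap.opNorm_prod]
    refine (max_le ?_ (hD i h2 h3)).trans (le_self_pow₀ hT (by omega))
    obtain ⟨j, rfl⟩ := Nat.exists_eq_add_of_le' h2
    rw [← norm_iteratedFDeriv_fderiv, show fderiv ℝ (fun v : P2 => v) =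
      fun _ => ContinuousLinearMap.id ℝ P2 from funext fun _ => fderiv_fun_id]
    rcases Nat.eq_zero_or_pos j with rfl | h4
    · simpa using hT
    · rw [iteratedFDeriv_const_of_ne (by omega)]; simpa using zero_le_one.trans hT

theorem jet_le {T : ℝ} (h : ‖jet2 g u‖ ≤ T) (i : ℕ) (h1 : 1 ≤ i) (h2 : i ≤ 2) :
    ‖iteratedFDeriv ℝ i g u‖ ≤ T := by
  interval_cases i
  · rw [norm_iteratedFDeriv_one]
    exact ((norm_fst_le (jet2 g u).2).trans (norm_snd_le _)).trans h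
  · rw [norm_iter_two]
    exact ((norm_snd_le (jet2 g u).2).trans (norm_snd_le _)).trans h

/-- points near a graph have close coordinates -/
theorem Coord.near (h : Coord F lam η s Λ) (hs : Λ * s ≤ η / 2) (hO : ∀ v, ‖O v‖ = ‖v‖)
    {z : P2 × ℝ} (h0 : 0 ≤ z.1.1) (h1 : |z.2| ≤ η) {y : E3} (hy : ‖y - O (F z)‖ ≤ s) :
    ∃ z', O (F z') = y ∧ lam z.1.1 * ‖z'.1 - z.1‖ ≤ Λ * ‖y - O (F z)‖ ∧
      |z'.2| ≤ |z.2| + η / 2 ∧ |z'.1.1 - z.1.1| ≤ 1 / 8 := by
  obtain ⟨y, rfl⟩ := iso_surjective hO y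
  rw [← map_sub, hO] at hy ⊢
  obtain ⟨z', rfl, h2⟩ := h.loc z h0 h1 y hy
  have h3 := h.one _ h0
  have h4 : ‖z' - z‖ ≤ η / 2 := by
    have := mul_le_mul_of_nonneg_left hy h.Λpos.le
    nlinarith [norm_nonneg (z' - z)]
  refine ⟨z', rfl, le_trans ?_ h2, ?_, ?_⟩
  · gcongr; exact norm_fst_le (z' - z)
  · have h5 : |z'.2 - z.2| ≤ η / 2 := (norm_snd_le (z' - z)).trans h4
    linarith [abs_sub_abs_le_abs_sub z'.2 z.2]
  · have h5 : |z'.1.1 - z.1.1| ≤ η / 2 :=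
      ((norm_fst_le (z' - z).1).trans (norm_fst_le _)).trans h4
    linarith [h.ηle]

theorem Coord.eq_grf (h : Coord F lam η s Λ) (hp : ∀ v : P2, g (v.1, v.2 + 2 * π) = g v)
    {z : P2 × ℝ} {v : P2} (h1 : |z.2| ≤ 2 * η) (h2 : |g v| ≤ 2 * η) (e : F z = grf F g v) :
    F z = grf F g z.1 ∧ z.1.1 = v.1 := by
  obtain ⟨h3, h4, k, h5⟩ := h.inj (v, g v) z h2 h1 e.symm
  have h6 : g (v.1, v.2 + k * (2 * π)) = g v :=
    Function.Periodic.int_mul (f := fun θ => g (v.1, θ)) (fun θ => hp (v.1, θ)) k v.2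
  have h7 : z.1 = (v.1, v.2 + k * (2 * π)) := Prod.ext h3 h5
  refine ⟨?_, h3⟩
  rw [grf, h7, h6, ← h7]
  exact congrArg F (Prod.ext rfl h4)

end graph

end Vale.Agent.P218F.Ft
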