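import Vale.Agent.P218F.FtAbs

/-!
# Block FT: the Gaussian area of the glued surfaces
-/

open MeasureTheory Set Filter Topology Metric
open scoped ContDiff RealInnerProductSpace Real ENNReal

set_option maxSynthPendingDepth 3

noncomputable section

namespace Vale.Agent.P218F.Ft

open Vale.Agent.P218FT hiding P2
open Vale.Agent.P218F.Core Vale.Agent.P218F.Ends Vale.Agent.P218GA
open Vale.Agent.P218.H313 (rho grad FA)

namespace Lj

theorem rho_pos (x : E3) : 0 < rho x := Real.exp_pos _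

theorem continuous_rho : Continuous (rho : E3 → ℝ) := by unfold rho; fun_prop

theorem lagR_nonneg (Y : P2 → E3) (v : P2) : 0 ≤ lagR Y v :=
  mul_nonneg (rho_pos _).le (norm_nonneg _)

theorem lagR_congr {Y Y' : P2 → E3} {v : P2} (h : Y =ᶠ[𝓝 v] Y') : lagR Y v = lagR Y' v := by
  unfold lagR
  rw [h.self_of_nhds, h.fderiv_eq]

theorem norm_rn_comp (D : P2 →L[ℝ] E3) (B : P2 →L[ℝ] P2) :
    ‖rn (D.comp B)‖ = |det2 B| * ‖rn D‖ := by
  have h : rn (D.comp B) = det2 B • rn D := cE_injective (by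
    rw [cE_rn, ← ContinuousLinearMap.comp_assoc, nor_comp, map_smul, cE_rn]
    rfl)
  rw [h, norm_smul, Real.norm_eq_abs]

theorem norm_rn_iso {O : E3 →L[ℝ] E3} (hO : ∀ v, ‖O v‖ = ‖v‖) (D : P2 →L[ℝ] E3) :
    ‖rn (O.comp D)‖ = ‖rn D‖ := by
  have hi : ∀ a b, ⟪O a, O b⟫ = ⟪a, b⟫ := fun a b =>
    (LinearIsometry.mk O.toLinearMap hO).inner_map_map a b
  refine (sq_eq_sq₀ (norm_nonneg _) (norm_nonneg _)).1 ?_
  rw [norm_rn_sq, norm_rn_sq]
  simp only [ContinuousLinearMap.comp_apply, hO, hi]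

theorem norm_rn_le (D : P2 →L[ℝ] E3) : ‖rn D‖ ≤ ‖D‖ ^ 2 := by
  have h1 : ‖D (1, 0)‖ ≤ ‖D‖ := by simpa using D.le_opNorm (1, 0)
  have h2 : ‖D (0, 1)‖ ≤ ‖D‖ := by simpa using D.le_opNorm (0, 1)
  refine (sq_le_sq₀ (norm_nonneg _) (by positivity)).1 ?_
  rw [norm_rn_sq]
  have h3 : ‖D (1, 0)‖ ^ 2 * ‖D (0, 1)‖ ^ 2 ≤ ‖D‖ ^ 2 * ‖D‖ ^ 2 := by gcongr
  nlinarith [sq_nonneg ⟪D (1, 0), D (0, 1)⟫]

theorem area_pt {Y : P2 → E3} (v : P2) :
    ENNReal.ofReal ‖rn (fderiv ℝ Y v)‖ * ENNReal.ofReal (rho (Y v)) = ENNReal.ofReal (lagR Y v) := by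
  rw [← ENNReal.ofReal_mul (norm_nonneg _), lagR, mul_comm]

/-- the density does not depend on the chart -/
theorem den_chart {S : Set E3} (hS : IsSurf S) {φ φ' : P2 → E3} {y y' : P2} (h : Par S φ y)
    (h' : Par S φ' y') (he : φ' y' = φ y) {Φ : E3 → E3}
    (hΦ : DifferentiableAt ℝ (fun t => Φ (φ t)) y) {c : ℝ}
    (hc : c * ‖rn (fderiv ℝ φ' y')‖ = lagR (fun t => Φ (φ' t)) y') :
    c * ‖rn (fderiv ℝ φ y)‖ = lagR (fun t => Φ (φ t)) y := by
  obtain ⟨ψ, h1, rfl, h3, h4⟩ := h.trans hS h' he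
  have d := h1.self_of_nhds.differentiableAt (by simp)
  have h5 : (fun t => Φ (φ' t)) =ᶠ[𝓝 y'] (fun t => Φ (φ t)) ∘ ψ :=
    h4.mono fun z hz => congrArg Φ hz
  have h6 : φ' =ᶠ[𝓝 y'] φ ∘ ψ := h4
  rw [lagR_congr h5, h6.fderiv_eq, fderiv_comp y' h.differentiableAt d, norm_rn_comp, lagR,
    fderiv_comp y' hΦ d, norm_rn_comp] at hc
  refine mul_left_cancel₀ (abs_pos.2 h3).ne' ?_
  rw [lagR]
  simp only [Function.comp] at hc
  linear_combination hc

/-! ### The core -/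

theorem core_le {S K : Set E3} {P : Type} [NormedAddCommGroup P] {Φ : P → E3 → E3}
    {den : P → E3 → ℝ} (hS : IsSurf S) (hK : IsCompact K) (hKS : K ⊆ S)
    (hcv : ∀ φ u, Par S φ u → φ u ∈ K → Cv Φ φ u) (hinj : ∀ᶠ x in 𝓝 (0 : P), InjOn (Φ x) K)
    (hden : ∀ᶠ x in 𝓝 (0 : P), ∀ p ∈ K, ∃ φ y, Par S φ y ∧ φ y = p ∧
      den x p * ‖rn (fderiv ℝ φ y)‖ = lagR (fun t => Φ x (φ t)) y) :
    ∀ᶠ x in 𝓝 (0 : P), ∫⁻ y in Φ x '' K, ENNReal.ofReal (rho y) ∂(μHE[2] : Measure E3) ≤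
      ∫⁻ p in K, ENNReal.ofReal (den x p) ∂(area S) := by
  have key := hK.induction_on (p := fun T => ∃ W, MeasurableSet W ∧ T ⊆ W ∧
      ∀ᶠ x in 𝓝 (0 : P), ∀ T', MeasurableSet T' → T' ⊆ W → T' ⊆ K →
        ∫⁻ y in Φ x '' T', ENNReal.ofReal (rho y) ∂(μHE[2] : Measure E3) ≤
          ∫⁻ p in T', ENNReal.ofReal (den x p) ∂(area S))
    ⟨∅, MeasurableSet.empty, Subset.rfl, Eventually.of_forall fun x T' _ h _ => by
      simp [subset_empty_iff.1 h]⟩
    (fun s t hst ⟨W, h1, h2, h3⟩ => ⟨W, h1, hst.trans h2, h3⟩) ?_ ?_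
  · obtain ⟨W, -, h2, h3⟩ := key
    exact h3.mono fun x hx => hx K hK.measurableSet h2 Subset.rfl
  · rintro s t ⟨W, h1, h2, h3⟩ ⟨W', h1', h2', h3'⟩
    refine ⟨W ∪ W', h1.union h1', union_subset_union h2 h2', ?_⟩
    filter_upwards [h3, h3'] with x e1 e2 T hT hW hK'
    have a1 := e1 (T ∩ W) (hT.inter h1) inter_subset_right (inter_subset_left.trans hK')
    have a2 := e2 (T \ W) (hT.diff h1) (fun z hz => (hW hz.1).resolve_left hz.2)
      (sdiff_subset.trans hK')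
    rw [← lintegral_inter_add_sdiff _ T h1]
    refine le_trans ?_ (add_le_add a1 a2)
    conv_lhs => rw [← inter_union_sdiff T W, image_union]
    exact lintegral_union_le _ _ _
  · intro p hp
    obtain ⟨φ, u, hφ, rfl⟩ := exists_par hS (hKS hp)
    obtain ⟨hl, L, hr⟩ := hcv φ u hφ hp
    obtain ⟨ψ, -, hψ, -⟩ := hφ.exists_inv hS
    have c1 : Continuous fun q : J2 P2 E3 => rn q.2.1 := continuous_rn.comp (by fun_prop)
    have h1 := ((c1.tendsto _).comp hl).eventually_ne (rn_ne_zero hφ.inj)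
    have h2 : ∀ᶠ z : P × P2 in 𝓝 (0, u), Par S φ z.2 ∧ ψ (φ z.2) = z.2 :=
      (continuous_snd.tendsto ((0 : P), u)).eventually (p := fun v => Par S φ v ∧ ψ (φ v) = v)
        (hφ.eventually.and hψ)
    obtain ⟨U, hU, V, hV, hUV⟩ := mem_nhds_prod_iff.1 (h1.and (hr.and h2))
    obtain ⟨O, hOV, hO, huO⟩ := _root_.mem_nhds_iff.1 hV
    have h0 := mem_of_mem_nhds hU
    have hP : ∀ v ∈ O, Par S φ v := fun v hv => (hUV (mk_mem_prod h0 (hOV hv))).2.2.1
    have hi : InjOn φ O := fun v hv v' hv' e =>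
      (hUV (mk_mem_prod h0 (hOV hv))).2.2.2.symm.trans
        ((congrArg ψ e).trans (hUV (mk_mem_prod h0 (hOV hv'))).2.2.2)
    have hc : ContDiffOn ℝ 1 φ O := fun v hv =>
      ((hP v hv).contDiffAt.of_le (by simp)).contDiffWithinAt
    have hm : φ '' O ∈ 𝓝[S] (φ u) := by
      rw [← hφ.map_nhds hS]; exact image_mem_map (hO.mem_nhds huO)
    refine ⟨φ '' O, nhdsWithin_mono _ hKS hm, φ '' O,
      measurableSet_param hc.continuousOn hO.measurableSet Subset.rfl hi, Subset.rfl, ?_⟩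
    filter_upwards [hU, hinj, hden] with x hx e1 e2 T hT hW hK'
    have hs : MeasurableSet (O ∩ φ ⁻¹' T) := by
      have := (MeasurableEmbedding.subtype_coe hO.measurableSet).measurableSet_image.2
        (hc.continuousOn.domRestrict.measurable hT)
      convert this using 1
      ext v
      simp [and_comm]
    have hT' : φ '' (O ∩ φ ⁻¹' T) = T := by rw [image_inter_preimage, inter_eq_right.2 hW]
    have hY : ∀ v ∈ O, ContDiffAt ℝ ∞ (fun t => Φ x (φ t)) v := fun v hv =>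
      (hUV (mk_mem_prod hx (hOV hv))).2.1.1
    have a1 := lintegral_param hO (fun v hv => ((hY v hv).of_le (by simp)).contDiffWithinAt)
      (fun v hv => (hUV (mk_mem_prod hx (hOV hv))).1) hs inter_subset_left
      (fun v hv v' hv' e => hi hv.1 hv'.1 (e1 (hK' hv.2) (hK' hv'.2) e))
      fun y => ENNReal.ofReal (rho y)
    have a2 := lintegral_param hO hc (fun v hv => rn_ne_zero (hP v hv).inj) hs inter_subset_left
      (hi.mono inter_subset_left) fun y => ENNReal.ofReal (den x y)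
    rw [← image_image (Φ x) φ, hT'] at a1
    rw [hT'] at a2
    rw [a1, area, Measure.restrict_restrict hT, inter_eq_left.2 (hK'.trans hKS), a2]
    refine le_of_eq (setLIntegral_congr_fun hs fun v hv => ?_)
    obtain ⟨φ', y', b1, b2, b3⟩ := e2 _ (hK' hv.2)
    have := den_chart hS (hP v hv.1) b1 b2 ((hY v hv.1).differentiableAt (by simp)) b3
    rw [area_pt, ← this, ← ENNReal.ofReal_mul (norm_nonneg _), mul_comm]

/-! ### The ends -/

section ends

variable {F : P2 × ℝ → E3} {lam : ℝ → ℝ} {η s Λ : ℝ} {g : P2 → ℝ} {v : P2}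

theorem hasFDerivAt_grf (h : Coord F lam η s Λ) (hg : DifferentiableAt ℝ g v) :
    HasFDerivAt (grf F g) ((fderiv ℝ F (v, g v)).comp
      ((ContinuousLinearMap.id ℝ P2).prod (fderiv ℝ g v))) v :=
  HasFDerivAt.comp (g := F) (f := fun v => (v, g v)) v
    (h.smooth.differentiable (by simp) _).hasFDerivAt ((hasFDerivAt_id v).prodMk hg.hasFDerivAt)

theorem contDiffAt_grf (h : Coord F lam η s Λ) (hg : ContDiffAt ℝ 2 g v) :
    ContDiffAt ℝ 1 (grf F g) v :=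
  ContDiffAt.comp (g := F) (f := fun v => (v, g v)) v (h.smooth.contDiffAt.of_le (by simp))
    (contDiffAt_id.prodMk (hg.of_le (by norm_num)))

theorem pow_exp_le (n : ℕ) {t : ℝ} (ht : 0 ≤ t) :
    (1 + t) ^ n * Real.exp (-t ^ 2 / 4) ≤ n.factorial * Real.exp 5 * Real.exp (-t) := by
  have h1 := Real.pow_div_factorial_le_exp (1 + t) (by linarith) n
  rw [div_le_iff₀ (by positivity)] at h1
  have h2 : Real.exp (1 + t) * Real.exp (-t ^ 2 / 4) ≤ Real.exp 5 * Real.exp (-t) := by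
    rw [← Real.exp_add, ← Real.exp_add]
    exact Real.exp_le_exp.2 (by nlinarith [sq_nonneg (t / 2 - 2)])
  calc _ ≤ Real.exp (1 + t) * n.factorial * Real.exp (-t ^ 2 / 4) := by gcongr
    _ = n.factorial * (Real.exp (1 + t) * Real.exp (-t ^ 2 / 4)) := by ring
    _ ≤ n.factorial * (Real.exp 5 * Real.exp (-t)) := by gcongr
    _ = _ := by ring

theorem lagR_le (h : Coord F lam η s Λ) (hg : ContDiffAt ℝ 2 g v) (hj : ‖jet2 g v‖ ≤ 1)
    (hv : 0 ≤ v.1) (N : ℕ) :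
    v.1 ^ N * lagR (grf F g) v ≤ Λ ^ 2 * ((N + 2).factorial * Real.exp 5) * Real.exp (-v.1) := by
  have g0 : |g v| ≤ 1 := (norm_fst_le (jet2 g v)).trans hj
  have g1 : ‖fderiv ℝ g v‖ ≤ 1 :=
    ((norm_fst_le (jet2 g v).2).trans (norm_snd_le (jet2 g v))).trans hj
  have h1 := h.up (v, g v) g0 1 le_rfl (by norm_num)
  rw [← norm_iteratedFDeriv_fderiv, norm_iteratedFDeriv_zero] at h1
  obtain ⟨h2, h3⟩ := h.gro (v, g v)
  have hΛ : 0 ≤ Λ := zero_le_one.trans h.Λge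
  set t := ‖F (v, g v)‖ with ht
  have t0 : 0 ≤ t := norm_nonneg _
  have h4 : ‖(ContinuousLinearMap.id ℝ P2).prod (fderiv ℝ g v)‖ ≤ 1 := by
    rw [ContinuousLinearMap.opNorm_prod]
    exact max_le ContinuousLinearMap.norm_id_le g1
  have h5 : ‖fderiv ℝ (grf F g) v‖ ≤ Λ * (1 + t) := by
    rw [(hasFDerivAt_grf h (hg.differentiableAt (by simp))).fderiv]
    refine (ContinuousLinearMap.opNorm_comp_le _ _).trans ?_
    refine (mul_le_of_le_one_right (norm_nonneg _) h4).trans (h1.trans ?_)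
    exact mul_le_mul_of_nonneg_left h3 hΛ
  have h6 : ‖rn (fderiv ℝ (grf F g) v)‖ ≤ (Λ * (1 + t)) ^ 2 :=
    (norm_rn_le _).trans (by gcongr)
  have h7 : v.1 ^ N ≤ (1 + t) ^ N := pow_le_pow_left₀ hv (by linarith) N
  have h8 : Real.exp (-t) ≤ Real.exp (-v.1) := Real.exp_le_exp.2 (by linarith)
  have h9 := pow_exp_le (N + 2) t0
  calc v.1 ^ N * lagR (grf F g) v = v.1 ^ N * (Real.exp (-t ^ 2 / 4) *
        ‖rn (fderiv ℝ (grf F g) v)‖) := rfl
    _ ≤ (1 + t) ^ N * (Real.exp (-t ^ 2 / 4) * (Λ * (1 + t)) ^ 2) := by gcongr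
    _ = Λ ^ 2 * ((1 + t) ^ (N + 2) * Real.exp (-t ^ 2 / 4)) := by ring
    _ ≤ Λ ^ 2 * ((N + 2).factorial * Real.exp 5 * Real.exp (-v.1)) :=
        mul_le_mul_of_nonneg_left (h9.trans (mul_le_mul_of_nonneg_left h8 (by positivity)))
          (sq_nonneg _)
    _ = _ := by ring

theorem integrableOn_exp {T : Set ℝ} (hT : T ⊆ Ioi 0) :
    IntegrableOn (fun v : P2 => Real.exp (-v.1)) (T ×ˢ Ioc 0 (2 * π)) := by
  refine IntegrableOn.mono_set (t := Ioi 0 ×ˢ Ioc 0 (2 * π)) ?_ (prod_mono hT Subset.rfl)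
  rw [IntegrableOn, Measure.volume_eq_prod, ← Measure.prod_restrict]
  have := Integrable.mul_prod (integrableOn_exp_neg_Ioi 0)
    (integrableOn_const (μ := volume) (s := Ioc 0 (2 * π)) (C := (1 : ℝ)) measure_Ioc_lt_top.ne)
  simpa using this

theorem integrableOn_lagR (h : Coord F lam η s Λ) {T : Set ℝ} (hT : IsOpen T) (hT0 : T ⊆ Ioi 0)
    (hg : ∀ v : P2, v.1 ∈ T → ContDiffAt ℝ 2 g v ∧ ‖jet2 g v‖ ≤ 1) :
    IntegrableOn (lagR (grf F g)) (T ×ˢ Ioc 0 (2 * π)) := by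
  have hm : MeasurableSet (T ×ˢ Ioc 0 (2 * π)) := hT.measurableSet.prod measurableSet_Ioc
  have hc : ContinuousOn (lagR (grf F g)) (T ×ˢ Ioc 0 (2 * π)) := fun v hv => by
    have h1 := contDiffAt_grf h (hg v hv.1).1
    exact ((continuous_rho.continuousAt.comp h1.continuousAt).mul
      (continuous_rn.continuousAt.comp (h1.continuousAt_fderiv one_ne_zero)).norm).continuousWithinAt
  refine Integrable.mono' ((integrableOn_exp hT0).const_mul
    (Λ ^ 2 * ((0 + 2).factorial * Real.exp 5))) (hc.aestronglyMeasurable hm) ?_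
  refine (ae_restrict_iff' hm).2 (Eventually.of_forall fun v hv => ?_)
  have := lagR_le h (hg v hv.1).1 (hg v hv.1).2 (le_of_lt (hT0 hv.1)) 0
  rw [pow_zero, one_mul] at this
  rwa [Real.norm_of_nonneg (lagR_nonneg _ _)]

/-- the Gaussian area of an end -/
theorem end_eq (h : Coord F lam η s Λ) {a : ℝ} (ha : 0 ≤ a) {O : E3 →L[ℝ] E3}
    (hO : ∀ v, ‖O v‖ = ‖v‖) (hp : ∀ v : P2, g (v.1, v.2 + 2 * π) = g v)
    (hg : ∀ v : P2, a < v.1 → ContDiffAt ℝ 2 g v ∧ |g v| ≤ η / 2) :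
    ∫⁻ y in (fun v => O (grf F g v)) '' {v | a < v.1}, ENNReal.ofReal (rho y)
      ∂(μHE[2] : Measure E3) =
      ∫⁻ v in Ioi a ×ˢ Ioc 0 (2 * π), ENNReal.ofReal (lagR (grf F g) v) := by
  have hη := h.ηpos
  have hOi : Function.Injective O := (LinearIsometry.mk O.toLinearMap hO).injective
  have hper : ∀ z, Function.Periodic (fun θ => grf F g (z, θ)) (2 * π) := fun z θ => by
    have h1 := hp (z, θ)
    have h2 := h.per (z, θ) (g (z, θ))
    simp only [grf] at h1 h2 ⊢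
    rw [h1, h2]
  have him : (fun v => O (grf F g v)) '' {v | a < v.1} =
      (fun v => O (grf F g v)) '' (Ioi a ×ˢ Ioc 0 (2 * π)) := by
    refine Subset.antisymm ?_ (image_mono fun v hv => hv.1)
    rintro _ ⟨v, hv, rfl⟩
    obtain ⟨θ, h1, h2⟩ := (hper v.1).exists_mem_Ioc Real.two_pi_pos v.2 0
    exact ⟨(v.1, θ), ⟨hv, by simpa using h1⟩, congrArg O h2.symm⟩
  have hU : IsOpen {v : P2 | a < v.1} := isOpen_lt continuous_const continuous_fst
  have hm : MeasurableSet (Ioi a ×ˢ Ioc 0 (2 * π)) := measurableSet_Ioi.prod measurableSet_Ioc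
  have hD : ∀ v : P2, a < v.1 → fderiv ℝ (fun v => O (grf F g v)) v =
      O.comp (fderiv ℝ (grf F g) v) := fun v hv =>
    (O.hasFDerivAt.comp v
      ((contDiffAt_grf h (hg v hv).1).differentiableAt one_ne_zero).hasFDerivAt).fderiv
  rw [him, lintegral_param (Y := fun v => O (grf F g v)) hU (fun v hv =>
    (O.contDiff.contDiffAt.comp v (contDiffAt_grf h (hg v hv).1)).contDiffWithinAt) ?_ hm
    (fun v hv => hv.1) ?_]
  · refine setLIntegral_congr_fun hm fun v hv => ?_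
    rw [hD v hv.1, norm_rn_iso hO, ← area_pt, rho, rho, hO]
  · intro v hv
    rw [← norm_ne_zero_iff, hD v hv, norm_rn_iso hO, norm_ne_zero_iff,
      (hasFDerivAt_grf h ((hg v hv).1.differentiableAt (by simp))).fderiv]
    refine rn_ne_zero ((injective_iff_map_eq_zero _).2 fun u hu => ?_)
    have h1 := h.low (v, g v) ((hg v hv).2.trans (by linarith)) (u, fderiv ℝ g v u)
    have h2 : fderiv ℝ F (v, g v) (u, fderiv ℝ g v u) = 0 := hu
    have h3 := h.one v.1 (ha.trans (le_of_lt hv))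
    rw [h2, norm_zero, mul_zero] at h1
    have h4 : ‖(u, fderiv ℝ g v u)‖ ≤ 0 := by nlinarith [norm_nonneg (u, fderiv ℝ g v u)]
    exact congrArg Prod.fst (norm_le_zero_iff.1 h4)
  · intro v hv v' hv' e
    obtain ⟨h1, -, k, h2⟩ := h.inj (v, g v) (v', g v') ((hg v hv.1).2.trans (by linarith))
      ((hg v' hv'.1).2.trans (by linarith)) (hOi e)
    simp only at h1 h2
    have h3 : (k : ℝ) < 1 := by
      by_contra h3
      nlinarith [hv.2.1, hv'.2.2, Real.two_pi_pos]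
    have h4 : (-1 : ℝ) < k := by
      by_contra h4
      nlinarith [hv.2.2, hv'.2.1, Real.two_pi_pos]
    have h5 : k = 0 := by
      have : k < 1 := by exact_mod_cast h3
      have : -1 < k := by exact_mod_cast h4
      omega
    rw [h5] at h2
    exact Prod.ext h1.symm (by simpa using h2.symm)

/-- the tail -/
theorem tail_le (h : Coord F lam η s Λ) {a ε : ℝ} (ha : 0 ≤ a) (hε : 0 ≤ ε)
    (hg : ∀ v : P2, a < v.1 → ContDiffAt ℝ 2 g v ∧ ‖jet2 g v‖ ≤ 1) (N : ℕ) :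
    ∫⁻ v in {z | a < z ∧ 1 / 2 ≤ ε * z} ×ˢ Ioc 0 (2 * π), ENNReal.ofReal (lagR (grf F g) v) ≤
      ENNReal.ofReal ((2 * ε) ^ N * (Λ ^ 2 * ((N + 2).factorial * Real.exp 5) *
        ∫ v in Ioi 0 ×ˢ Ioc 0 (2 * π), Real.exp (-v.1))) := by
  have hm : MeasurableSet ({z | a < z ∧ 1 / 2 ≤ ε * z} ×ˢ Ioc 0 (2 * π)) :=
    (measurableSet_Ioi.inter (measurableSet_le (g := fun z => ε * z) measurable_const
      (by fun_prop))).prod measurableSet_Ioc
  rw [← integral_const_mul, ← integral_const_mul, ofReal_integral_eq_lintegral_ofReal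
    (((integrableOn_exp Subset.rfl).const_mul _).const_mul _)
    (Eventually.of_forall fun v => by positivity)]
  refine le_trans (setLIntegral_mono' hm fun v hv => ENNReal.ofReal_le_ofReal ?_)
    (lintegral_mono_set (prod_mono (fun z hz => ha.trans_lt hz.1) Subset.rfl))
  have h1 := lagR_le h (hg v hv.1.1).1 (hg v hv.1.1).2 (ha.trans hv.1.1.le) N
  have h2 : 1 ≤ (2 * ε) ^ N * v.1 ^ N := by
    rw [← mul_pow]; exact one_le_pow₀ (by linarith [hv.1.2])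
  calc lagR (grf F g) v ≤ (2 * ε) ^ N * v.1 ^ N * lagR (grf F g) v :=
        le_mul_of_one_le_left (lagR_nonneg _ _) h2
    _ = (2 * ε) ^ N * (v.1 ^ N * lagR (grf F g) v) := by ring
    _ ≤ _ := by gcongr

end ends

theorem cut_eq_one {s : ℝ} (h : s ≤ 1 / 2) : cut s = 1 :=
  Real.smoothTransition.one_of_one_le (by linarith)

/-- a cylindrical end -/
theorem cyl_le {a b c : E3} {s Λ z₁ ε : ℝ} {e : P2 → ℝ}
    (h : Coord (cylF a b c) (fun _ => 1) (1 / 4) s Λ) (hz : 0 ≤ z₁) (hε : 0 ≤ ε)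
    (hg : ∀ v : P2, z₁ < v.1 → ContDiffAt ℝ 2 (fun v : P2 => cut (ε * v.1) * (e v - √2)) v ∧
      ‖jet2 (fun v : P2 => cut (ε * v.1) * (e v - √2)) v‖ ≤ 1)
    (he : ∀ v : P2, z₁ < v.1 → ε * v.1 < 1 → ContDiffAt ℝ 2 e v ∧
      ‖jet2 (fun t => e t - √2) v‖ ≤ 1 / 10) (N : ℕ) :
    ∫⁻ v in Ioi z₁ ×ˢ Ioc 0 (2 * π),
      ENNReal.ofReal (lagR (grf (cylF a b c) fun v => cut (ε * v.1) * (e v - √2)) v) ≤
      ENNReal.ofReal ((∫ v in {z | z₁ < z ∧ ε * z < 1} ×ˢ Ioc 0 (2 * π), lagR (cylY a b c e) v) +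
        (2 * ε) ^ N * (Λ ^ 2 * ((N + 2).factorial * Real.exp 5) *
          ∫ v in Ioi 0 ×ˢ Ioc 0 (2 * π), Real.exp (-v.1))) := by
  have hT : ∀ r : ℝ, IsOpen {z | z₁ < z ∧ ε * z < r} := fun r =>
    isOpen_Ioi.inter (isOpen_lt (f := fun z => ε * z) (by fun_prop) continuous_const)
  have hi := integrableOn_lagR (g := fun t => e t - √2) h (hT 1) (fun z hz' => hz.trans_lt hz'.1)
    fun v hv => ⟨(he v hv.1 hv.2).1.sub contDiffAt_const, (he v hv.1 hv.2).2.trans (by norm_num)⟩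
  rw [grf_cylF] at hi
  have hn : 0 ≤ ∫ v in Ioi (0 : ℝ) ×ˢ Ioc 0 (2 * π), Real.exp (-v.1) :=
    integral_nonneg fun v => (Real.exp_pos _).le
  rw [ENNReal.ofReal_add (integral_nonneg (lagR_nonneg _)) (by positivity),
    ofReal_integral_eq_lintegral_ofReal hi (Eventually.of_forall (lagR_nonneg _))]
  have hs : Ioi z₁ ×ˢ Ioc 0 (2 * π) = {z | z₁ < z ∧ ε * z < 1 / 2} ×ˢ Ioc 0 (2 * π) ∪
      {z | z₁ < z ∧ 1 / 2 ≤ ε * z} ×ˢ Ioc 0 (2 * π) := by
    rw [← union_prod]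
    congr 1
    ext z
    simp only [mem_Ioi, mem_union, mem_ofPred_eq, ← and_or_left, lt_or_ge, and_true]
  rw [hs]
  refine (lintegral_union_le _ _ _).trans (add_le_add ?_ (tail_le h hz hε hg N))
  refine le_trans (setLIntegral_mono' ((hT _).measurableSet.prod measurableSet_Ioc)
    fun v hv => le_of_eq ?_)
    (lintegral_mono_set (prod_mono (fun z hz => ⟨hz.1, by linarith [hz.2]⟩) Subset.rfl))
  rw [← grf_cylF]
  refine congrArg _ (lagR_congr ?_)
  filter_upwards [continuous_fst.continuousAt.eventually ((hT (1 / 2)).mem_nhds hv.1)] with t ht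
  simp only [grf, cut_eq_one ht.2.le, one_mul]

end Lj

open Lj in
theorem loj_proof : LojStmt := by
  intro S D V₀ P _ _ ι _ B _ _ d η₀ R₁ L M β η s Λ L' r C L'' q q' hF hO hU
  set A := d.abs η with hA
  set n := ⌈β⌉₊ with hn
  set c : ℝ := Λ ^ 2 * ((M * n + 2).factorial * Real.exp 5) *
    ∫ v in Ioi (0 : ℝ) ×ˢ Ioc 0 (2 * π), Real.exp (-v.1) with hc
  have c0 : 0 ≤ c := mul_nonneg (by positivity) (integral_nonneg fun v => (Real.exp_pos _).le)
  have hK : A.core 0 ⊆ A.core (9 / 4) := A.core_mono (by norm_num)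
  have hcore := core_le (den := d.den) hO.surf (hU.cpt 0 le_rfl) sdiff_subset
    (fun φ u h1 h2 => hU.cv φ u h1 (hK h2)) (hU.inj.mono fun x hx => hx.mono hK)
    (hF.den.mono fun x hx => by rw [hA, d.abs_core]; exact hx.2)
  refine ⟨cH 2 * (L + D.m * (2 ^ (M * n) * |L| ^ n * c)), ?_⟩
  filter_upwards [hcore, hF.den, hF.loj, hF.εle, hO.iso, hO.gg, hF.cyl,
    hF.kap0.eventually (closedBall_mem_nhds 0 one_pos)] with x e1 e2 e3 e4 e5 e6 e7 e8
  have a0 : ∀ e, 0 ≤ A.a e := fun e => zero_le_one.trans (hO.a1 e)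
  have hFA : ∀ N : Set E3, FA (Dyn.hm N) = cH 2 * ∫ y, rho y ∂(area N) := fun N => by
    have e : (μH[2] : Measure E3) = cH 2 • μHE[2] := by simpa using hausdorff_eq_smul (X := E3) 2
    rw [FA, Dyn.hm, e, Measure.restrict_smul, integral_smul_nnreal_measure, area]
    rfl
  have k0 := norm_nonneg (d.kap x)
  have ht : (2 * d.ε x) ^ (M * n) * c ≤ 2 ^ (M * n) * |L| ^ n * c * ‖d.kap x‖ ^ β := by
    have h1 : d.ε x ^ (M * n) ≤ |L| ^ n * ‖d.kap x‖ ^ n := by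
      rw [pow_mul, ← mul_pow]
      exact pow_le_pow_left₀ (pow_nonneg e4.1 _)
        (e4.2.trans (mul_le_mul_of_nonneg_right (le_abs_self L) k0)) n
    have h2 : ‖d.kap x‖ ^ n ≤ ‖d.kap x‖ ^ β := by
      rw [← Real.rpow_natCast]
      exact Real.rpow_le_rpow_of_exponent_ge' k0 (mem_closedBall_zero_iff.1 e8)
        (by linarith [hF.beta]) (Nat.le_ceil β)
    calc _ = 2 ^ (M * n) * d.ε x ^ (M * n) * c := by rw [mul_pow]
      _ ≤ 2 ^ (M * n) * (|L| ^ n * ‖d.kap x‖ ^ β) * c := by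
          gcongr
          exact h1.trans (by gcongr)
      _ = _ := by ring
  have hd : ∀ p ∈ core D d.z₁ d.y₁ 0, 0 ≤ d.den x p := fun p hp => by
    obtain ⟨φ, y, h1, -, h2⟩ := e2.2 p hp
    exact nonneg_of_mul_nonneg_left (h2 ▸ lagR_nonneg _ _) (norm_pos_iff.2 (rn_ne_zero h1.inj))
  have hm : MeasurableSet (core D d.z₁ d.y₁ 0) := by
    rw [← d.abs_core η]; exact (hU.cpt 0 le_rfl).measurableSet
  have hd' := (ae_restrict_iff' (μ := area S) hm).2 (Eventually.of_forall hd)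
  have b1 : ∫⁻ y in A.Φ x '' A.core 0, ENNReal.ofReal (rho y) ∂(μHE[2] : Measure E3) ≤
      ENNReal.ofReal (∫ p in core D d.z₁ d.y₁ 0, d.den x p ∂(area S)) := by
    rw [ofReal_integral_eq_lintegral_ofReal e2.1 hd', ← d.abs_core η]
    exact e1
  have b2 : ∀ e, ∫⁻ y in A.Y x e '' {v | A.a e < v.1}, ENNReal.ofReal (rho y)
      ∂(μHE[2] : Measure E3) =
      ∫⁻ v in Ioi (A.a e) ×ˢ Ioc 0 (2 * π), ENNReal.ofReal (lagR (grf (A.F e) (A.g x e)) v) :=
    fun e => end_eq (hO.coord e) (a0 e) (e5 e) (e6 e).1 fun v hv =>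
      ⟨((e6 e).2 v hv).1, ((e6 e).2 v hv).2.1⟩
  have b3 := fun j => (b2 (Sum.inl j)).trans_le (cyl_le (hO.coord (Sum.inl j)) (a0 (Sum.inl j)) e4.1
    (fun v hv => ⟨((e6 (Sum.inl j)).2 v hv).1, ((e6 (Sum.inl j)).2 v hv).2.2.1⟩)
    (fun v h1 h2 => ⟨((e7 j).2 v h1 h2).1, ((e7 j).2 v h1 h2).2.1⟩) (M * n))
  have b4 := fun i => (b2 (Sum.inr i)).trans (ofReal_integral_eq_lintegral_ofReal
    (integrableOn_lagR (hO.coord (Sum.inr i)) isOpen_Ioi (Ioi_subset_Ioi (a0 (Sum.inr i)))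
      fun v hv => ⟨((e6 (Sum.inr i)).2 v hv).1, ((e6 (Sum.inr i)).2 v hv).2.2.1⟩)
    (Eventually.of_forall (lagR_nonneg _))).symm
  have t0 : 0 ≤ (2 * d.ε x) ^ (M * n) * c := by have := e4.1; positivity
  have n1 : 0 ≤ ∫ p in core D d.z₁ d.y₁ 0, d.den x p ∂(area S) := integral_nonneg_of_ae hd'
  have n2 : ∀ j, 0 ≤ (∫ v in {z | d.z₁ < z ∧ d.ε x * z < 1} ×ˢ Ioc 0 (2 * π),
      lagR (cylY (D.a j) (D.b j) (D.c j) (d.e x j)) v) + (2 * d.ε x) ^ (M * n) * c := fun j =>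
    add_nonneg (integral_nonneg (lagR_nonneg _)) t0
  have n3 : ∀ i, 0 ≤ ∫ v in Ioi d.y₁ ×ˢ Ioc 0 (2 * π),
      lagR (coneY (D.γ i) (D.n i) (d.g x i)) v := fun i => integral_nonneg (lagR_nonneg _)
  have m2 := Finset.sum_nonneg (s := Finset.univ) fun j _ => n2 j
  have m3 := Finset.sum_nonneg (s := Finset.univ) fun i _ => n3 i
  have main : ∫ y, rho y ∂(area (A.Sx x)) ≤ d.act x + D.m * ((2 * d.ε x) ^ (M * n) * c) := by
    have e : d.act x + D.m * ((2 * d.ε x) ^ (M * n) * c) =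
        ∫ p in core D d.z₁ d.y₁ 0, d.den x p ∂(area S) +
        (∑ j, ((∫ v in {z | d.z₁ < z ∧ d.ε x * z < 1} ×ˢ Ioc 0 (2 * π),
          lagR (cylY (D.a j) (D.b j) (D.c j) (d.e x j)) v) + (2 * d.ε x) ^ (M * n) * c) +
        ∑ i, ∫ v in Ioi d.y₁ ×ˢ Ioc 0 (2 * π), lagR (coneY (D.γ i) (D.n i) (d.g x i)) v) := by
      rw [FamData.act, Finset.sum_add_distrib]
      simp only [Finset.sum_const, Finset.card_univ, Fintype.card_fin, nsmul_eq_mul]
      ring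
    rw [e, integral_eq_lintegral_of_nonneg_ae (Eventually.of_forall fun y => (rho_pos y).le)
      continuous_rho.aestronglyMeasurable]
    refine ENNReal.toReal_le_of_le_ofReal (by positivity) ?_
    rw [ENNReal.ofReal_add n1 (by positivity), ENNReal.ofReal_add m2 m3,
      ENNReal.ofReal_sum_of_nonneg fun j _ => n2 j, ENNReal.ofReal_sum_of_nonneg fun i _ => n3 i]
    refine (lintegral_union_le _ _ _).trans (add_le_add b1 ((lintegral_iUnion_le _ _).trans ?_))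
    rw [tsum_fintype, Fintype.sum_sum_type]
    exact add_le_add (Finset.sum_le_sum fun j _ => b3 j) (Finset.sum_le_sum fun i _ => (b4 i).le)
  rw [hFA, hFA, ← mul_sub, mul_assoc]
  refine mul_le_mul_of_nonneg_left ?_ (cH_pos' 2).le
  have := mul_le_mul_of_nonneg_left ht (Nat.cast_nonneg (α := ℝ) D.m)
  linarith

end Vale.Agent.P218F.Ft
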