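import Vale.Agent.P218F.FtAbs
import Vale.Agent.P218F.EndsCyl

/-! Block FT: the family satisfies the hypotheses of the abstract gluing. -/

open MeasureTheory Set Filter Topology Metric Matrix
open scoped ContDiff RealInnerProductSpace Real

set_option maxSynthPendingDepth 3

noncomputable section

namespace Vale.Agent.P218F.Ft.Ok

open Vale.Agent.P218FT hiding P2
open Vale.Agent.P218F.Core Vale.Agent.P218F.Ends Vale.Agent.P218FT.Conv
open Vale.Agent.P218.H313 (rho grad)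

/-! ### Jets and iterated derivatives -/

section jets

variable {V : Type} [NormedAddCommGroup V] [NormedSpace ℝ V]

theorem jet2_le_iff {f : P2 → V} {v : P2} {c : ℝ} :
    ‖jet2 f v‖ ≤ c ↔ ∀ i ≤ 2, ‖iteratedFDeriv ℝ i f v‖ ≤ c := by
  have e0 : ‖iteratedFDeriv ℝ 0 f v‖ = ‖f v‖ := norm_iteratedFDeriv_zero
  have e1 : ‖iteratedFDeriv ℝ 1 f v‖ = ‖fderiv ℝ f v‖ := by
    rw [← norm_iteratedFDeriv_fderiv, norm_iteratedFDeriv_zero]
  have e2 : ‖iteratedFDeriv ℝ 2 f v‖ = ‖fderiv ℝ (fderiv ℝ f) v‖ := by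
    rw [← norm_iteratedFDeriv_fderiv, ← norm_iteratedFDeriv_fderiv, norm_iteratedFDeriv_zero]
  rw [jet2, norm_prod_le_iff, norm_prod_le_iff]
  refine ⟨fun h i hi => ?_, fun h => ⟨e0 ▸ h 0 (by norm_num), e1 ▸ h 1 (by norm_num),
    e2 ▸ h 2 le_rfl⟩⟩
  interval_cases i
  exacts [e0 ▸ h.1, e1 ▸ h.2.1, e2 ▸ h.2.2]

theorem leib {f : P2 → ℝ} {g : P2 → V} {v : P2} {n : ℕ} {a b : ℝ} (hf : ContDiffAt ℝ n f v)
    (hg : ContDiffAt ℝ n g v) (ha : ∀ i ≤ n, ‖iteratedFDeriv ℝ i f v‖ ≤ a)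
    (hb : ∀ i ≤ n, ‖iteratedFDeriv ℝ i g v‖ ≤ b) :
    ‖iteratedFDeriv ℝ n (fun t => f t • g t) v‖ ≤ 2 ^ n * (a * b) := by
  obtain ⟨W, h1, hW, hx⟩ := _root_.eventually_nhds_iff.1
    ((hf.eventually (by simp)).and (hg.eventually (by simp)))
  have a0 : 0 ≤ a := (norm_nonneg _).trans (ha 0 (Nat.zero_le _))
  rw [← iteratedFDerivWithin_of_isOpen n hW hx]
  refine (norm_iteratedFDerivWithin_smul_le (𝕜' := ℝ)
    (fun y hy => (h1 y hy).1.contDiffWithinAt) (fun y hy => (h1 y hy).2.contDiffWithinAt)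
    hW.uniqueDiffOn hx le_rfl).trans ?_
  calc _ ≤ ∑ i ∈ Finset.range (n + 1), (n.choose i : ℝ) * (a * b) :=
        Finset.sum_le_sum fun i hi => by
          rw [iteratedFDerivWithin_of_isOpen _ hW hx, iteratedFDerivWithin_of_isOpen _ hW hx,
            mul_assoc]
          have := Finset.mem_range.1 hi
          exact mul_le_mul_of_nonneg_left (mul_le_mul (ha i (by omega))
            (hb _ (by omega)) (norm_nonneg _) a0) (Nat.cast_nonneg _)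
    _ = 2 ^ n * (a * b) := by
        rw [← Finset.sum_mul, ← Nat.cast_sum, Nat.sum_range_choose]
        push_cast
        rfl

theorem jet2_smul_le {f : P2 → ℝ} {g : P2 → V} {v : P2} {a b : ℝ} (hf : ContDiffAt ℝ 2 f v)
    (hg : ContDiffAt ℝ 2 g v) (ha : ‖jet2 f v‖ ≤ a) (hb : ‖jet2 g v‖ ≤ b) :
    ‖jet2 (fun t => f t • g t) v‖ ≤ 4 * (a * b) := by
  have a0 : 0 ≤ a := (norm_nonneg _).trans ha
  have b0 : 0 ≤ b := (norm_nonneg _).trans hb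
  refine jet2_le_iff.2 fun i hi => ?_
  have hi' : (i : WithTop ℕ∞) ≤ 2 := by exact_mod_cast hi
  refine (leib (hf.of_le hi') (hg.of_le hi') (fun k hk => jet2_le_iff.1 ha k (hk.trans hi))
    fun k hk => jet2_le_iff.1 hb k (hk.trans hi)).trans ?_
  refine mul_le_mul_of_nonneg_right ?_ (mul_nonneg a0 b0)
  exact (pow_le_pow_right₀ one_le_two hi).trans (by norm_num)

variable {E P : Type} [NormedAddCommGroup E] [NormedSpace ℝ E] [FiniteDimensional ℝ E]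

/-- smooth functions of a parameter have bounded derivatives -/
theorem bd_param {G : E × P2 → V} {e₀ : E} {u : P2} (hG : ∀ᶠ q in 𝓝 (e₀, u), ContDiffAt ℝ ∞ G q) :
    ∃ ρ > 0, ∀ (U : Filter P) (p : P → E), Tendsto p U (𝓝 e₀) →
      ∀ k, Bd k U (ball u ρ) fun x t => G (p x, t) := by
  obtain ⟨O, h1, hO, hx⟩ := _root_.eventually_nhds_iff.1 hG
  obtain ⟨ρ, hρ, h2⟩ := nhds_basis_closedBall.mem_iff.1 (hO.mem_nhds hx)
  refine ⟨ρ, hρ, fun U p hp k => ?_⟩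
  have hm : ∀ᶠ x in U, p x ∈ closedBall e₀ ρ := hp.eventually (closedBall_mem_nhds _ hρ)
  refine Bd.comp_fixed (f := fun x t => (p x, t)) isOpen_ball hO (isCompact_closedBall _ ρ) h2
    (fun y hy => (h1 y hy).contDiffWithinAt) (Bd.prodMk isOpen_ball
      (Bd.const (C := ‖e₀‖ + ρ) (hm.mono fun x hx => norm_le_of_mem_closedBall hx))
      (Bd.fixed' isBounded_ball contDiff_id)) (hm.mono fun x hx t ht => ?_)
  rw [← closedBall_prod_same]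
  exact ⟨hx, ball_subset_closedBall ht⟩

theorem tendsto_jet2 [FiniteDimensional ℝ V] {G : E × P2 → V} {e₀ : E} {u : P2}
    (hG : ∀ᶠ q in 𝓝 (e₀, u), ContDiffAt ℝ ∞ G q) {U : Filter P} [U.NeBot] {p : P → E} {y : P → P2}
    (hp : Tendsto p U (𝓝 e₀)) (hy : Tendsto y U (𝓝 u)) :
    Tendsto (fun x => jet2 (fun t => G (p x, t)) (y x)) U (𝓝 (jet2 (fun t => G (e₀, t)) u)) := by
  obtain ⟨ρ, hρ, h⟩ := bd_param (P := P) hG
  obtain ⟨ρ', hρ', h'⟩ := Metric.eventually_nhds_iff_ball.1 hG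
  have hC : CInf U (ball u (min ρ ρ')) (fun x t => G (p x, t)) fun t => G (e₀, t) :=
    cinf_of_tendsto isOpen_ball (convex_ball _ _) isBounded_ball
      (fun k => (h U p hp k).mono_set (ball_subset_ball (min_le_left _ _))) fun t ht => by
        refine (h' (e₀, t) ?_).continuousAt.tendsto.comp (hp.prodMk_nhds tendsto_const_nhds)
        rw [← ball_prod_same]
        exact ⟨mem_ball_self hρ', ball_subset_ball (min_le_right _ _) ht⟩
  have hu := mem_ball_self (x := u) (lt_min hρ hρ')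
  exact (hC.tendsto_comp isOpen_ball hu hy).prodMk_nhds
    (((hC.fderiv isOpen_ball).tendsto_comp isOpen_ball hu hy).prodMk_nhds
      (((hC.fderiv isOpen_ball).fderiv isOpen_ball).tendsto_comp isOpen_ball hu hy))

end jets

/-! ### The cut-off -/

theorem cd_cut : ContDiff ℝ ∞ cut :=
  Real.smoothTransition.contDiff.comp (contDiff_const.sub (contDiff_const.mul contDiff_id))

theorem cut_one {s : ℝ} (h : s ≤ 1 / 2) : cut s = 1 :=
  Real.smoothTransition.one_of_one_le (by linarith)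

theorem cut_zero {s : ℝ} (h : 3 / 4 ≤ s) : cut s = 0 :=
  Real.smoothTransition.zero_of_nonpos (by linarith)

theorem cd_cutE (ε : ℝ) : ContDiff ℝ ∞ fun v : P2 => cut (ε * v.1) :=
  cd_cut.comp (contDiff_const.mul contDiff_fst)

theorem cut_bound : ∃ ε₀ > 0, ∀ ε, 0 ≤ ε → ε ≤ ε₀ → ∀ v : P2, 0 ≤ ε * v.1 → ε * v.1 ≤ 1 →
    ∀ i ≤ 3, ‖iteratedFDeriv ℝ i (fun v : P2 => cut (ε * v.1)) v‖ ≤ 1 := by
  obtain ⟨C, C1, hC⟩ := (Bd.fixed' (ι := Unit) (U := ⊤) (k := 3) (isBounded_Icc (0 : ℝ) 1)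
    cd_cut).bd0
  refine ⟨1 / C, by positivity, fun ε h0 h1 v h2 h3 i hi => ?_⟩
  rcases Nat.eq_zero_or_pos i with rfl | i0
  · rw [norm_iteratedFDeriv_zero, Real.norm_eq_abs, cut,
      abs_of_nonneg (Real.smoothTransition.nonneg _)]
    exact Real.smoothTransition.le_one _
  have e := (ε • ContinuousLinearMap.fst ℝ ℝ ℝ).iteratedFDeriv_comp_right cd_cut v (le_inf i)
  have hL : ‖ε • ContinuousLinearMap.fst ℝ ℝ ℝ‖ ≤ ε := by
    rw [norm_smul, Real.norm_of_nonneg h0]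
    exact mul_le_of_le_one_right h0 (ContinuousLinearMap.norm_fst_le ..)
  have hε : ε * C ≤ 1 := (le_div_iff₀ (by positivity)).1 h1
  have h4 : ε ≤ 1 := by nlinarith
  rw [show (fun v : P2 => cut (ε * v.1)) = cut ∘ (ε • ContinuousLinearMap.fst ℝ ℝ ℝ) from rfl, e]
  refine (ContinuousMultilinearMap.norm_compContinuousLinearMap_le _ _).trans ?_
  rw [Finset.prod_const, Finset.card_univ, Fintype.card_fin]
  refine (mul_le_mul (eventually_top.1 hC () i hi _ ⟨h2, h3⟩) ((pow_le_pow_left₀ (norm_nonneg _)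
    hL i).trans (pow_le_of_le_one h0 h4 i0.ne')) (by positivity) (by positivity)).trans ?_
  linarith

/-! ### Tilted cylinders -/

theorem mem_cylReg {a b c : E3} (T : Triple a b c) {δ : ℝ} (h0 : 0 < δ) (h1 : δ ≤ 1)
    {Q : E3 →L[ℝ] E3} (hQ : ‖Q - ContinuousLinearMap.id ℝ E3‖ ≤ δ / 6) {z : P2 × ℝ}
    (hz : 4 ≤ δ * z.1.1) (ht : |z.2| ≤ 1 / 2) : Q (cylF a b c z) ∈ cylReg c δ := by
  have s1 : 1 ≤ √2 := Real.one_le_sqrt.2 one_le_two
  have s2 : √2 ≤ 3 / 2 := Real.sqrt_le_iff.2 ⟨by norm_num, by norm_num⟩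
  obtain ⟨t1, t2⟩ := abs_le.1 ht
  have z0 : 0 < z.1.1 := by
    by_contra h
    nlinarith
  have z4 : 4 ≤ z.1.1 := by nlinarith
  set p := cylF a b c z with hp
  have p1 : ⟪c, p⟫ = z.1.1 := Cyl.inner_cylPt T _ _ _
  have p2 : ‖pt c p‖ = √2 + z.2 := Cyl.norm_pt_cylPt T _ _ (by linarith)
  have p3 : ‖p‖ ≤ 3 / 2 * z.1.1 := by
    refine (sq_le_sq₀ (norm_nonneg _) (by linarith)).1 ?_
    rw [hp, cylF, Cyl.norm_cylPt_sq T]
    nlinarith
  have e : Q p = p + (Q - ContinuousLinearMap.id ℝ E3) p := by simp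
  have q1 : ‖(Q - ContinuousLinearMap.id ℝ E3) p‖ ≤ δ / 4 * z.1.1 :=
    ((Q - ContinuousLinearMap.id ℝ E3).le_of_opNorm_le hQ p).trans (by nlinarith)
  set w := (Q - ContinuousLinearMap.id ℝ E3) p
  have q2 := (abs_le.1 ((abs_real_inner_le_norm c w).trans (by rw [T.nc, one_mul]; exact q1 :
    ‖c‖ * ‖w‖ ≤ δ / 4 * z.1.1))).1
  have q3 : ‖pt c (p + w)‖ ≤ √2 + z.2 + δ / 4 * z.1.1 := by
    rw [map_add, ← p2]
    exact norm_add_le_of_le le_rfl ((norm_pt_le T.nc w).trans q1)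
  have q4 : 3 / 4 * z.1.1 ≤ ⟪c, p + w⟫ := by
    rw [inner_add_right, p1]
    nlinarith
  rw [e]
  exact ⟨by linarith, q3.trans (by nlinarith)⟩

/-! ### The core -/

theorem ev_of_ball {P : Type} [TopologicalSpace P] {x₀ : P} {u : P2} {ρ : ℝ} (hρ : 0 < ρ)
    {Q : P → P2 → Prop} (h : ∀ᶠ x in 𝓝 x₀, ∀ v ∈ ball u ρ, Q x v) :
    ∀ᶠ z : P × P2 in 𝓝 (x₀, u), Q z.1 z.2 := by
  filter_upwards [continuous_fst.continuousAt.eventually h,
    continuous_snd.continuousAt.eventually (ball_mem_nhds u hρ)] with z h1 h2 using h1 _ h2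

theorem ball_of_ev {P : Type} [PseudoMetricSpace P] {x₀ : P} {u : P2} {Q : P × P2 → Prop}
    (h : ∀ᶠ z : P × P2 in 𝓝 (x₀, u), Q z) :
    ∃ ρ > 0, ∀ᶠ x in 𝓝 x₀, ∀ v ∈ ball u ρ, Q (x, v) := by
  obtain ⟨ρ, hρ, h1⟩ := Metric.eventually_nhds_iff_ball.1 h
  refine ⟨ρ, hρ, ?_⟩
  filter_upwards [ball_mem_nhds x₀ hρ] with x hx v hv
  exact h1 (x, v) (by rw [← ball_prod_same]; exact ⟨hx, hv⟩)

theorem cd_rn : ContDiff ℝ ∞ rn := by
  unfold rn crs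
  refine contDiff_euclidean.2 fun i => ?_
  fin_cases i <;> simp [cross_apply] <;> fun_prop

theorem cd_lagR {S : Set E3} {φ : P2 → E3} {u : P2} (h : Par S φ u) :
    ContDiffAt ℝ ∞ (lagR φ) u := by
  have h1 : ContDiff ℝ ∞ (rho : E3 → ℝ) :=
    Real.contDiff_exp.comp ((contDiff_norm_sq ℝ).neg.div_const 4)
  exact (h1.contDiffAt.comp u h.contDiffAt).mul ((cd_rn.contDiffAt.comp u
    (h.contDiffAt.fderiv_right (m := ∞) le_rfl)).norm ℝ (rn_ne_zero h.inj))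

theorem lagR_ne {S : Set E3} {φ : P2 → E3} {u : P2} (h : Par S φ u) : lagR φ u ≠ 0 :=
  mul_ne_zero (Real.exp_pos _).ne' (norm_ne_zero_iff.2 (rn_ne_zero h.inj))

theorem eq_of_elR {S : Set E3} {φ Y W : P2 → E3} {u : P2} {s : ℝ} (h : Par S φ u)
    (hY : DifferentiableAt ℝ Y u) (e : elR Y (W u) φ u = -(s : ℂ)) :
    ((⟪W u, rn (fderiv ℝ Y u)⟫ ^ 2 / ‖rn (fderiv ℝ Y u)‖ ^ 2 * lagR Y u : ℝ) : ℂ) *
      Shr (fun t => cE (Y t)) (fun t => cE (W t)) u = ((-s * lagR φ u : ℝ) : ℂ) := by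
  have e1 : (jet2 (fun t => cE (Y t)) u).2.1 = cE.comp (fderiv ℝ Y u) :=
    congrArg Prod.snd (jet1_cE hY)
  have h0 : ((lagR φ u : ℝ) : ℂ) ≠ 0 := Complex.ofReal_ne_zero.2 (lagR_ne h)
  rw [elR, e1, ← cE_rn, cE_dot, gdet_cE, jet2_one, lag_jet1 hY, lag_jet1 h.differentiableAt] at e
  change _ * (((lagR Y u : ℝ) : ℂ) / ((lagR φ u : ℝ) : ℂ)) *
    Shr (fun t => cE (Y t)) (fun t => cE (W t)) u = _ at e
  push_cast at e ⊢
  rw [← e]
  field_simp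

theorem inner_rn_ne {S : Set E3} (hS : IsSurf S) {φ : P2 → E3} {u : P2} (h : Par S φ u) {W : E3}
    (hW : ⟪W, nu S (φ u)⟫ ≠ 0) : ⟪W, rn (fderiv ℝ φ u)⟫ ≠ 0 := fun h0 => hW (by
  rw [eq_smul_rn (rn_ne_zero h.inj) (n := nu S (φ u)) fun a => by
    rw [real_inner_comm]; exact h.inner_nu hS a, real_inner_smul_right, h0, mul_zero])

section fam

variable {S : Set E3} {D : EndData S} {P : Type} [NormedAddCommGroup P] [NormedSpace ℝ P]
  {ι : Type} [Fintype ι] {B : Type} [NormedAddCommGroup B] [NormedSpace ℝ B]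
  [FiniteDimensional ℝ B] {d : FamData D P ι B} {V₀ : E3 → ℝ} {η₀ R₁ L β : ℝ} {M : ℕ}
  {φ : P2 → E3} {u : P2}

omit [FiniteDimensional ℝ B] in
theorem smooth_AB (h : Fam V₀ d η₀ R₁ L M β) (hp : Par S φ u) :
    ∀ᶠ q : B × P2 in 𝓝 (0, u), ContDiffAt ℝ ∞ (fun q : B × P2 => d.PP q.1 (φ q.2)) q ∧
      ContDiffAt ℝ ∞ (fun q : B × P2 => d.WW q.1 (φ q.2)) q := by
  obtain ⟨δ, hδ, hs⟩ := h.smooth
  filter_upwards [continuous_fst.continuousAt.eventually (ball_mem_nhds (0 : B) hδ),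
    continuous_snd.continuousAt.eventually hp.smooth] with q h1 h2
  have h3 := (hs.contDiffAt (x := (q.1, φ q.2)) (prod_mem_nhds (isOpen_ball.mem_nhds h1)
    univ_mem)).comp q (contDiffAt_fst.prodMk (h2.comp q contDiffAt_snd))
  exact ⟨h3.fst, h3.snd⟩

theorem tendsto_B (h : Fam V₀ d η₀ R₁ L M β) (hp : Par S φ u) :
    Tendsto (fun z : P × P2 => jet2 (fun t => d.WW (d.β z.1) (φ t)) z.2) (𝓝 (0, u))
      (𝓝 (jet2 (fun t => d.V (φ t)) u)) := by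
  have := tendsto_jet2 ((smooth_AB h hp).mono fun _ h => h.2) (U := 𝓝 ((0 : P), u))
    (h.β0.comp continuous_fst.continuousAt) continuous_snd.continuousAt
  simp only [fun p => (h.base p).2] at this
  exact this

theorem ev_AB (h : Fam V₀ d η₀ R₁ L M β) (hp : Par S φ u) : ∃ Λ : ℝ, 1 ≤ Λ ∧
    ∀ᶠ z : P × P2 in 𝓝 (0, u), ContDiffAt ℝ ∞ (fun t => d.PP (d.β z.1) (φ t)) z.2 ∧
      ContDiffAt ℝ ∞ (fun t => d.WW (d.β z.1) (φ t)) z.2 ∧
      ContDiffAt ℝ ∞ (fun t => -(∑ i, d.kap z.1 i * d.χ i (φ t)) * lagR φ t) z.2 ∧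
      ∀ k ≤ 5, ‖iteratedFDeriv ℝ k (fun t => d.PP (d.β z.1) (φ t)) z.2‖ ≤ Λ ∧
        ‖iteratedFDeriv ℝ k (fun t => d.WW (d.β z.1) (φ t)) z.2‖ ≤ Λ ∧
        ‖iteratedFDeriv ℝ k (fun t => -(∑ i, d.kap z.1 i * d.χ i (φ t)) * lagR φ t) z.2‖ ≤ Λ := by
  have hf : ∀ᶠ q : (ι → ℝ) × P2 in 𝓝 (0, u), ContDiffAt ℝ ∞
      (fun q : (ι → ℝ) × P2 => -(∑ i, q.1 i * d.χ i (φ q.2)) * lagR φ q.2) q := by
    filter_upwards [continuous_snd.continuousAt.eventually hp.eventually] with q hq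
    refine (ContDiffAt.sum fun i _ => ContDiffAt.mul (by fun_prop) ?_).neg.mul
      ((cd_lagR hq).comp q contDiffAt_snd)
    exact (h.chi i).1.contDiffAt.comp q (hq.contDiffAt.comp q contDiffAt_snd)
  obtain ⟨ρ1, r1, b1⟩ := bd_param (P := P) ((smooth_AB h hp).mono fun _ h => h.1)
  obtain ⟨ρ2, r2, b2⟩ := bd_param (P := P) ((smooth_AB h hp).mono fun _ h => h.2)
  obtain ⟨ρ3, r3, b3⟩ := bd_param (P := P) hf
  obtain ⟨C1, c1, k1⟩ := (b1 _ _ h.β0 5).bd0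
  obtain ⟨C2, c2, k2⟩ := (b2 _ _ h.β0 5).bd0
  obtain ⟨C3, c3, k3⟩ := (b3 _ _ h.kap0 5).bd0
  refine ⟨C1 + C2 + C3, by linarith, ?_⟩
  filter_upwards [
    ev_of_ball r1 ((b1 _ _ h.β0 5).sm.mono fun _ hx v hv => hx.contDiffAt (isOpen_ball.mem_nhds hv)),
    ev_of_ball r2 ((b2 _ _ h.β0 5).sm.mono fun _ hx v hv => hx.contDiffAt (isOpen_ball.mem_nhds hv)),
    ev_of_ball r3 ((b3 _ _ h.kap0 5).sm.mono fun _ hx v hv =>
      hx.contDiffAt (isOpen_ball.mem_nhds hv)),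
    ev_of_ball r1 (k1.mono fun _ hx v hv k hk => hx k hk v hv),
    ev_of_ball r2 (k2.mono fun _ hx v hv k hk => hx k hk v hv),
    ev_of_ball r3 (k3.mono fun _ hx v hv k hk => hx k hk v hv)] with z a1 a2 a3 a4 a5 a6
  exact ⟨a1, a2, a3, fun k hk => ⟨(a4 k hk).trans (by linarith), (a5 k hk).trans (by linarith),
    (a6 k hk).trans (by linarith)⟩⟩

omit [FiniteDimensional ℝ B] in
theorem ev_w (h : Fam V₀ d η₀ R₁ L M β) (hp : Par S φ u) (hc : φ u ∈ core D d.z₁ d.y₁ (5 / 2))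
    {η : ℝ} (hη : 0 < η) : ∀ᶠ z : P × P2 in 𝓝 (0, u),
      ContDiffAt ℝ 2 (fun t => d.w z.1 (φ t)) z.2 ∧ ‖jet2 (fun t => d.w z.1 (φ t)) z.2‖ ≤ η :=
  let ⟨_, hρ, hw⟩ := h.wc φ u hp hc
  ev_of_ball hρ (hw η hη)

theorem cv_lim (h : Fam V₀ d η₀ R₁ L M β) (hp : Par S φ u) (hc : φ u ∈ core D d.z₁ d.y₁ (5 / 2)) :
    Tendsto (fun z : P × P2 => jet2 (fun t => d.Φ z.1 (φ t)) z.2) (𝓝 (0, u)) (𝓝 (jet2 φ u)) := by
  have tA := tendsto_jet2 ((smooth_AB h hp).mono fun _ h => h.1) (U := 𝓝 ((0 : P), u))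
    (h.β0.comp continuous_fst.continuousAt) continuous_snd.continuousAt
  simp only [fun p => (h.base p).1] at tA
  obtain ⟨Λ, Λ1, hΛ⟩ := ev_AB h hp
  have tw : Tendsto (fun z : P × P2 => jet2 (fun t => d.w z.1 (φ t) • d.WW (d.β z.1) (φ t)) z.2)
      (𝓝 (0, u)) (𝓝 0) := by
    refine NormedAddGroup.tendsto_nhds_zero.2 fun ε hε => ?_
    filter_upwards [hΛ, ev_w h hp hc (η := ε / (8 * Λ)) (by positivity)] with z a b
    refine (jet2_smul_le b.1 (a.2.1.of_le (le_inf 2)) b.2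
      (jet2_le_iff.2 fun i hi => (a.2.2.2 i (by omega)).2.1)).trans_lt ?_
    rw [show 4 * (ε / (8 * Λ) * Λ) = ε / 2 by field_simp; norm_num]
    linarith
  have := tA.add tw
  rw [add_zero] at this
  refine this.congr' ?_
  filter_upwards [hΛ, ev_w h hp hc one_pos] with z a b
  exact (jet2_add (a.1.of_le (le_inf 2)) (b.1.smul (a.2.1.of_le (le_inf 2)))).symm

theorem cv_of (hR : RegCoreStmt) (hS : IsSurf S) (h : Fam V₀ d η₀ R₁ L M β) (hp : Par S φ u)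
    (hc : ∀ᶠ v in 𝓝 u, φ v ∈ core D d.z₁ d.y₁ (5 / 2)) : Cv d.Φ φ u := by
  have hl := cv_lim h hp hc.self_of_nhds
  refine ⟨hl, ?_⟩
  obtain ⟨Λ, Λ1, hΛ⟩ := ev_AB h hp
  have c0 := abs_pos.2 (inner_rn_ne hS hp (h.trans _ hc.self_of_nhds))
  have tc : Tendsto (fun z : P × P2 =>
      |⟪d.WW (d.β z.1) (φ z.2), rn (fderiv ℝ (fun t => d.Φ z.1 (φ t)) z.2)⟫|) (𝓝 (0, u))
      (𝓝 |⟪d.V (φ u), rn (fderiv ℝ φ u)⟫|) :=
    (((continuous_fst.tendsto _).comp (tendsto_B h hp)).inner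
      ((continuous_rn.tendsto _).comp ((continuous_snd.fst.tendsto _).comp hl))).abs
  obtain ⟨ρ, hρ, hb⟩ := ball_of_ev (hΛ.and ((ev_w h hp hc.self_of_nhds one_pos).and
    ((tc.eventually (le_mem_nhds (half_lt_self c0))).and
      (continuous_snd.continuousAt.eventually (hp.eventually.and hc)))))
  obtain ⟨L₁, hL⟩ := hR (ρ / 2) Λ _ (half_pos hρ) (half_pos c0)
  refine ⟨Λ + 2 ^ 3 * (max L₁ 1 * Λ), ev_of_ball (Q := fun x v =>
    ContDiffAt ℝ ∞ (fun t => d.Φ x (φ t)) v ∧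
      ‖iteratedFDeriv ℝ 3 (fun t => d.Φ x (φ t)) v‖ ≤ _) (half_pos hρ) ?_⟩
  filter_upwards [hb, h.eq] with x hx he v hv
  obtain ⟨w1, w2⟩ := hL (fun t => d.PP (d.β x) (φ t)) (fun t => d.WW (d.β x) (φ t))
    (fun t => -(∑ i, d.kap x i * d.χ i (φ t)) * lagR φ t) (fun t => d.w x (φ t)) v fun y hy => by
      obtain ⟨a, b, c, e, f⟩ := hx y (ball_subset_ball' (by
        have := mem_ball.1 hv; linarith) hy)
      refine ⟨a.1, a.2.1, a.2.2.1, b.1, a.2.2.2, b.2.trans Λ1, c, ?_⟩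
      exact eq_of_elR (W := fun t => d.WW (d.β x) (φ t)) e (((a.1.of_le (le_inf 2)).add
        (b.1.smul (a.2.1.of_le (le_inf 2)))).differentiableAt (by simp)) (he φ y e f)
  obtain ⟨a, b, -⟩ := hx v (ball_subset_ball (half_le_self hρ.le) hv)
  refine ⟨a.1.add (w1.smul a.2.1), ?_⟩
  have e := fun_iteratedFDeriv_add_apply (a.1.of_le (le_inf 3))
    ((w1.smul a.2.1).of_le (le_inf 3))
  refine (congrArg norm e).trans_le (norm_add_le_of_le (a.2.2.2 3 (by norm_num)).1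
    (leib (w1.of_le (le_inf 3)) (a.2.1.of_le (le_inf 3)) (fun i hi => ?_)
      fun i hi => (a.2.2.2 i (by omega)).2.1))
  rcases hi.eq_or_lt with rfl | hi
  · exact w2.trans (le_max_left _ _)
  · exact (jet2_le_iff.1 b.2 i (by omega)).trans (le_max_right _ _)

/-! ### The ends -/

omit [FiniteDimensional ℝ B] in
theorem ev_eps (h : Fam V₀ d η₀ R₁ L M β) {c : ℝ} (hc : 0 < c) :
    ∀ᶠ x in 𝓝 (0 : P), 0 ≤ d.ε x ∧ d.ε x ≤ c :=
  (h.εle.mono fun _ hx => hx.1).and (h.ε0.eventually (ge_mem_nhds hc))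

omit [FiniteDimensional ℝ B] in
theorem ev_cut (h : Fam V₀ d η₀ R₁ L M β) (Z : ℝ) :
    ∀ᶠ x in 𝓝 (0 : P), ∀ z ≤ Z, cut (d.ε x * z) = 1 := by
  have t : Tendsto (fun x => d.ε x * Z) (𝓝 0) (𝓝 0) := by simpa using h.ε0.mul_const Z
  filter_upwards [ev_eps h one_pos, t.eventually (ge_mem_nhds one_half_pos)] with x h1 h2 z hz
  exact cut_one ((mul_le_mul_of_nonneg_left hz h1.1).trans h2)

end fam

theorem R4 {S : Set E3} (D : EndData S) : 4 ≤ D.R₀ := by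
  by_contra h
  nlinarith [D.big, D.δpos, D.δle]

theorem ev_zero {ε : ℝ} {f : P2 → ℝ} {v : P2} (h : 3 / 4 < ε * v.1) :
    (fun v : P2 => cut (ε * v.1) * f v) =ᶠ[𝓝 v] fun _ => 0 := by
  have : ∀ᶠ t : P2 in 𝓝 v, 3 / 4 < ε * t.1 :=
    (continuous_const.mul continuous_fst).continuousAt.eventually (lt_mem_nhds h)
  filter_upwards [this] with t ht
  rw [cut_zero ht.le, zero_mul]

theorem gg_cyl (hR : RegCylStmt) : ∃ (L : ℝ) (q : ℕ) (ε₀ : ℝ), 0 ≤ L ∧ 0 < ε₀ ∧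
    ∀ (a b c : E3) (e : P2 → ℝ) (z₁ ε : ℝ), Triple a b c → 1 ≤ z₁ → 0 ≤ ε → ε ≤ ε₀ →
    (∀ v : P2, z₁ < v.1 → ε * v.1 < 1 → ContDiffAt ℝ 2 e v ∧
      ‖jet2 (fun t => e t - √2) v‖ ≤ 1 / 10 ∧ ShrR (cylY a b c e) (cylV a b) v) →
    ∀ v : P2, z₁ < v.1 → ContDiffAt ℝ 2 (fun v : P2 => cut (ε * v.1) * (e v - √2)) v ∧
      |cut (ε * v.1) * (e v - √2)| ≤ 1 / 4 / 2 ∧
      ‖jet2 (fun v : P2 => cut (ε * v.1) * (e v - √2)) v‖ ≤ 1 ∧ (z₁ + 1 / 2 ≤ v.1 →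
        ContDiffAt ℝ ∞ (fun v : P2 => cut (ε * v.1) * (e v - √2)) v ∧
        ‖iteratedFDeriv ℝ 3 (fun v : P2 => cut (ε * v.1) * (e v - √2)) v‖ ≤ L * v.1 ^ q) := by
  obtain ⟨L, q, hL⟩ := hR
  obtain ⟨ε₀, h0, hc⟩ := cut_bound
  refine ⟨2 ^ 3 * (|L| + 1), q, min ε₀ (1 / 4), by positivity, by positivity,
    fun a b c e z₁ ε T hz e0 e1 he v hv => ?_⟩
  have v1 : 1 ≤ v.1 := by linarith
  have hq : 1 ≤ v.1 ^ q := one_le_pow₀ v1
  rcases lt_or_ge (3 / 4) (ε * v.1) with h | h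
  · have := ev_zero (f := fun v => e v - √2) h
    refine ⟨contDiffAt_const.congr_of_eventuallyEq this, ?_, ?_, fun _ =>
      ⟨contDiffAt_const.congr_of_eventuallyEq this, ?_⟩⟩
    · rw [cut_zero h.le]; norm_num
    · rw [jet2_congr this, jet2_const]; simp
    · rw [(this.iteratedFDeriv ℝ 3).eq_of_nhds, iteratedFDeriv_const_of_ne (by norm_num)]
      simpa using by positivity
  obtain ⟨e2, e3, -⟩ := he v hv (by linarith)
  have c1 := hc ε e0 (e1.trans (min_le_left _ _)) v (by positivity) (by linarith)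
  have c2 := (cd_cutE ε).contDiffAt (x := v)
  have e4 : ContDiffAt ℝ 2 (fun t => e t - √2) v := e2.sub contDiffAt_const
  refine ⟨(c2.of_le (le_inf 2)).mul e4, ?_, (jet2_smul_le (c2.of_le (le_inf 2)) e4
    (jet2_le_iff.2 fun i hi => c1 i (by omega)) e3).trans (by norm_num), fun hv' => ?_⟩
  · have k1 := c1 0 (by norm_num)
    have k2 := jet2_le_iff.1 e3 0 (by norm_num)
    rw [norm_iteratedFDeriv_zero, Real.norm_eq_abs] at k1 k2
    rw [abs_mul]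
    nlinarith [abs_nonneg (cut (ε * v.1)), abs_nonneg (e v - √2)]
  · obtain ⟨r1, r2⟩ := hL a b c e v T v1 fun y hy => by
      have k := abs_lt.1 ((norm_fst_le (y - v)).trans_lt (mem_ball_iff_norm.1 hy))
      rw [Prod.fst_sub] at k
      exact he y (by linarith) (by nlinarith [e1.trans (min_le_right _ _)])
    have r3 : ContDiffAt ℝ ∞ (fun t => e t - √2) v := r1.sub contDiffAt_const
    refine ⟨c2.mul r3, (leib (b := (|L| + 1) * v.1 ^ q) (c2.of_le (le_inf 3))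
      (r3.of_le (le_inf 3)) c1 fun i hi => ?_).trans_eq (by ring)⟩
    rcases hi.eq_or_lt with rfl | hi
    · rw [fun_iteratedFDeriv_sub_apply (r1.of_le (le_inf 3)) contDiffAt_const,
        iteratedFDeriv_const_of_ne (by norm_num), Pi.zero_apply, sub_zero]
      exact r2.trans (mul_le_mul_of_nonneg_right (by linarith [le_abs_self L]) (by positivity))
    · refine (jet2_le_iff.1 e3 i (by omega)).trans ?_
      nlinarith [abs_nonneg L]

theorem exists_pos_le {J : Type} [Finite J] {f : J → ℝ} (h : ∀ e, 0 < f e) :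
    ∃ c > 0, ∀ e, c ≤ f e := by
  have : ∀ᶠ c in 𝓝[>] (0 : ℝ), ∀ e, c ≤ f e :=
    eventually_all.2 fun e => mem_nhdsWithin_of_mem_nhds (ge_mem_nhds (h e))
  exact (this.and self_mem_nhdsWithin).exists.imp fun c hc => ⟨hc.2, hc.1⟩

theorem pow_mono {L L' x y : ℝ} {q q' : ℕ} (hL : L ≤ L') (h0 : 0 ≤ L') (hx : 0 ≤ x)
    (hxy : x ≤ 1 + y) (hy : 0 ≤ y) (hq : q ≤ q') : L * x ^ q ≤ L' * (1 + y) ^ q' :=
  (mul_le_mul_of_nonneg_right hL (by positivity)).trans (mul_le_mul_of_nonneg_left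
    ((pow_le_pow_left₀ hx hxy q).trans (pow_le_pow_right₀ (by linarith) hq)) h0)

section fam2

variable {S : Set E3} {D : EndData S} {P : Type} [NormedAddCommGroup P] [NormedSpace ℝ P]
  {ι : Type} [Fintype ι] {B : Type} [NormedAddCommGroup B] [NormedSpace ℝ B]
  {d : FamData D P ι B} {V₀ : E3 → ℝ} {η₀ R₁ L β : ℝ} {M : ℕ} {η : Fin D.k → ℝ}

theorem a_one (h : Fam V₀ d η₀ R₁ L M β) (e : Fin D.m ⊕ Fin D.k) : 1 ≤ (d.abs η).a e := by
  have := R4 D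
  rcases e with j | i
  · exact le_trans (by linarith) h.big.1
  · exact le_trans (by linarith [Real.log_nonneg (show 1 ≤ D.R₀ by linarith)]) h.big.2.1

theorem mem_of (h : Fam V₀ d η₀ R₁ L M β) (hη : ∀ i, 2 * η i ≤ D.δ) (e : Fin D.m ⊕ Fin D.k)
    (z : P2 × ℝ) (hz : (d.abs η).a e - 1 ≤ z.1.1) (ht : |z.2| ≤ 2 * (d.abs η).η e) :
    (d.abs η).F e z ∈ S ↔ z.2 = (d.abs η).g₀ e z.1 := by
  rcases e with j | i
  · have s1 : 1 ≤ √2 := Real.one_le_sqrt.2 one_le_two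
    have s2 : √2 ≤ 3 / 2 := Real.sqrt_le_iff.2 ⟨by norm_num, by norm_num⟩
    change d.z₁ - 1 ≤ z.1.1 at hz
    change |z.2| ≤ 2 * (1 / 4) at ht
    obtain ⟨t1, t2⟩ := abs_le.1 ht
    have h1 : D.R₀ ≤ z.1.1 := by linarith [h.big.1]
    refine ((D.cyl j).mem z.1.1 z.1.2 (√2 + z.2) h1 (by linarith) ?_).trans eq_sub_iff_add_eq'.symm
    nlinarith [D.big, D.δpos]
  · change d.y₁ - 1 ≤ z.1.1 at hz
    exact (D.cone i).mem z.1.1 z.1.2 z.2 (by linarith [h.big.2.1]) (ht.trans (hη i))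

theorem disj_of (h : Fam V₀ d η₀ R₁ L M β) (hη : ∀ i, 2 * η i ≤ D.δ) :
    ∀ᶠ x in 𝓝 (0 : P), ∀ e e' (z z' : P2 × ℝ), e ≠ e' → (d.abs η).a e - 1 ≤ z.1.1 →
      (d.abs η).a e' - 1 ≤ z'.1.1 → |z.2| ≤ 2 * (d.abs η).η e → |z'.2| ≤ 2 * (d.abs η).η e' →
      (d.abs η).O x e ((d.abs η).F e z) ≠ (d.abs η).O x e' ((d.abs η).F e' z') := by
  have h1 : ∀ᶠ x in 𝓝 (0 : P), ∀ j, ‖d.Q x j - ContinuousLinearMap.id ℝ E3‖ ≤ D.δ / 6 :=
    eventually_all.2 fun j => (tendsto_iff_norm_sub_tendsto_zero.1 (h.Q0 j)).eventually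
      (ge_mem_nhds (by linarith [D.δpos]))
  filter_upwards [h1] with x hx
  have k : ∀ e (z : P2 × ℝ), (d.abs η).a e - 1 ≤ z.1.1 → |z.2| ≤ 2 * (d.abs η).η e →
      (d.abs η).O x e ((d.abs η).F e z) ∈ Sum.elim (fun j => cylReg (D.c j) D.δ)
        (fun i => coneReg (D.γ i) (D.n i) D.δ) e := by
    rintro (j | i) z hz ht
    · change d.z₁ - 1 ≤ z.1.1 at hz
      change |z.2| ≤ 2 * (1 / 4) at ht
      refine mem_cylReg (D.cyl j).tri D.δpos D.δle (hx j) ?_ (by linarith)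
      nlinarith [D.big, D.δpos, h.big.1]
    · exact ⟨z.1.1, z.1.2, z.2, ht.trans (hη i), rfl⟩
  intro e e' z z' hne a1 a2 a3 a4 he
  have k1 := k e z a1 a3
  have k2 := k e' z' a2 a4
  rw [← he] at k2
  rcases e with j | i <;> rcases e' with j' | i'
  · exact disjoint_left.1 (D.disj_cc j j' (by simpa using hne)) k1 k2
  · exact disjoint_left.1 (D.disj_ck j i') k1 k2
  · exact disjoint_left.1 (D.disj_ck j' i) k2 k1
  · exact disjoint_left.1 (D.disj_kk i i' (by simpa using hne)) k1 k2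

theorem g0_of (h : Fam V₀ d η₀ R₁ L M β) (Z ε : ℝ) (hε : 0 < ε) :
    ∀ᶠ x in 𝓝 (0 : P), ∀ e (v : P2), (d.abs η).a e < v.1 → v.1 ≤ Z →
      |(d.abs η).g x e v - (d.abs η).g₀ e v| ≤ ε := by
  filter_upwards [ev_cut h Z, h.cyl0 Z ε hε, h.cone0 Z ε hε] with x h1 h2 h3
  rintro (j | i) v a b
  · change |cut (d.ε x * v.1) * (d.e x j v - √2) - (D.r j v - √2)| ≤ ε
    rw [h1 _ b, one_mul, sub_sub_sub_cancel_right]
    exact h2 j v a b
  · exact h3 i v a b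

theorem glue_of (h : Fam V₀ d η₀ R₁ L M β) :
    ∀ᶠ x in 𝓝 (0 : P), ∀ e (v : P2), v.1 ∈ Ioo ((d.abs η).a e) ((d.abs η).a e + 3) →
      (d.abs η).Φ x (grf ((d.abs η).F e) ((d.abs η).g₀ e) v) = (d.abs η).Y x e v := by
  filter_upwards [ev_cut h (d.z₁ + 3), h.cylGlue, h.coneGlue] with x h1 h2 h3
  rintro (j | i) v a
  · change d.Φ x (grf (cylF (D.a j) (D.b j) (D.c j)) (fun v => D.r j v - √2) v) =
      d.Q x j (cylF (D.a j) (D.b j) (D.c j) (v, cut (d.ε x * v.1) * (d.e x j v - √2)))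
    rw [h1 _ a.2.le, one_mul, grf_cylF, h2 j v a, ← grf_cylF]
    rfl
  · exact h3 i v a

theorem gg_of (hR : RegCylStmt) (h : Fam V₀ d η₀ R₁ L M β) {s Λ : ℝ}
    (hc : ∀ e, Coord ((d.abs η).F e) ((d.abs η).lam e) ((d.abs η).η e) s Λ)
    (h1 : ∀ i, η₀ ≤ η i / 2) (h2 : η₀ ≤ 1) {Lc : Fin D.k → ℝ} {qc : Fin D.k → ℕ}
    (hK : ∀ i (g : P2 → ℝ) (u : P2), 0 ≤ u.1 →
      (∀ v ∈ ball u (1 / 2), ContDiffAt ℝ 2 g v ∧ ‖jet2 g v‖ ≤ η₀ ∧
        ShrR (coneY (D.γ i) (D.n i) g) (fun t => D.n i t.2) v) →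
      ContDiffAt ℝ ∞ g u ∧ ‖iteratedFDeriv ℝ 3 g u‖ ≤ Lc i * Real.exp u.1 ^ qc i) :
    ∃ (L' : ℝ) (q : ℕ), ∀ᶠ x in 𝓝 (0 : P), ∀ e,
      (∀ v : P2, (d.abs η).g x e (v.1, v.2 + 2 * π) = (d.abs η).g x e v) ∧
      ∀ v : P2, (d.abs η).a e < v.1 → ContDiffAt ℝ 2 ((d.abs η).g x e) v ∧
        |(d.abs η).g x e v| ≤ (d.abs η).η e / 2 ∧ ‖jet2 ((d.abs η).g x e) v‖ ≤ 1 ∧
        ((d.abs η).a e + 1 / 2 ≤ v.1 → ContDiffAt ℝ ∞ ((d.abs η).g x e) v ∧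
          ‖iteratedFDeriv ℝ 3 ((d.abs η).g x e) v‖ ≤
            L' * (1 + ‖grf ((d.abs η).F e) ((d.abs η).g x e) v‖) ^ q) := by
  obtain ⟨L₁, q₁, ε₀, l0, e0, hg⟩ := gg_cyl hR
  obtain ⟨L₂, l2⟩ := Finite.exists_le Lc
  obtain ⟨q₂, k2⟩ := Finite.exists_le qc
  refine ⟨max L₁ L₂, max q₁ q₂, ?_⟩
  have l3 : 0 ≤ max L₁ L₂ := l0.trans (le_max_left _ _)
  filter_upwards [ev_eps h e0, h.cyl, h.cone] with x x1 x2 x3
  intro e
  have a1 := a_one (η := η) h e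
  have gr := fun v : P2 => (hc e).gro (v, (d.abs η).g x e v)
  rcases e with j | i
  · refine ⟨fun v => congrArg (fun t => cut (d.ε x * v.1) * (t - √2)) ((x2 j).1 v), fun v hv => ?_⟩
    obtain ⟨b1, b2, b3, b4⟩ := hg _ _ _ _ _ _ (D.cyl j).tri a1 x1.1 x1.2 (fun v a b =>
      let k := (x2 j).2 v a b; ⟨k.1, k.2.1, k.2.2.2⟩) v hv
    exact ⟨b1, b2, b3, fun a => ⟨(b4 a).1, (b4 a).2.trans (pow_mono (le_max_left _ _) l3
      (by linarith) ((gr v).1.trans (le_add_of_nonneg_left zero_le_one)) (norm_nonneg _)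
      (le_max_left _ _))⟩⟩
  · refine ⟨(x3 i).1, fun v hv => ?_⟩
    obtain ⟨b1, b2, -⟩ := (x3 i).2 v hv
    refine ⟨b1, ((norm_fst_le _).trans b2).trans (h1 i), b2.trans h2, fun a => ?_⟩
    obtain ⟨c1, c2⟩ := hK i (d.g x i) v (by linarith) fun y hy => (x3 i).2 y (by
      have k := abs_lt.1 ((norm_fst_le (y - v)).trans_lt (mem_ball_iff_norm.1 hy))
      rw [Prod.fst_sub] at k
      change d.y₁ + 1 / 2 ≤ v.1 at a
      linarith)
    exact ⟨c1, c2.trans (pow_mono ((l2 i).trans (le_max_right _ _)) l3 (Real.exp_pos _).le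
      (gr v).2 (norm_nonneg _) ((k2 i).trans (le_max_right _ _)))⟩

end fam2

end Vale.Agent.P218F.Ft.Ok

namespace Vale.Agent.P218F.Ft

open Vale.Agent.P218FT hiding P2
open Vale.Agent.P218F.Core Vale.Agent.P218F.Ends Ok

/-- **FT-OK** -/
theorem ok_proof (hC : RegCoreStmt) (hY : RegCylStmt) (hK : RegConeStmt) (hX : CoordStmt) :
    OKStmt := by
  intro S D hS
  choose s₁ Λ₁ h₁ using fun j => hX.1 _ _ _ (D.cyl j).tri
  choose η s₂ Λ₂ hη h₂ using fun i => hX.2 _ _ _ _ D.δpos (D.cone i).crv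
  choose ηc Lc qc c0 hc using fun i => hK _ _ _ _ (D.cone i).crv
  obtain ⟨Λ, hΛ⟩ := Finite.exists_le (Sum.elim (Sum.elim Λ₁ Λ₂) fun _ : Unit => (1 : ℝ))
  have Λ0 : 0 < Λ := one_pos.trans_le (hΛ (.inr ()))
  obtain ⟨s, s0, hs⟩ := exists_pos_le (f := Sum.elim (Sum.elim s₁ s₂)
    fun e => Sum.elim (fun _ : Fin D.m => 1 / 4) η e / 2 / Λ) (by
      rintro ((j | i) | (j | i))
      exacts [(h₁ j).spos, (h₂ i).spos, by simp only [Sum.elim_inl, Sum.elim_inr]; positivity,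
        div_pos (half_pos (h₂ i).ηpos) Λ0])
  obtain ⟨η₀, e0, he⟩ := exists_pos_le (f := Sum.elim (Sum.elim (fun i => η i / 2) ηc)
    fun _ : Unit => (1 : ℝ)) (by
      rintro ((i | i) | i)
      exacts [half_pos (h₂ i).ηpos, c0 i, one_pos])
  refine ⟨η₀, s, Λ, η, e0, s0, fun V₀ P _ _ ι _ B _ _ _ d R₁ L M β h => ?_⟩
  have co : ∀ e, Coord ((d.abs η).F e) ((d.abs η).lam e) ((d.abs η).η e) s Λ := by
    rintro (j | i)
    · exact (h₁ j).mono s0 (hs (.inl (.inl j))) (hΛ (.inl (.inl j)))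
    · exact (h₂ i).mono s0 (hs (.inl (.inr i))) (hΛ (.inl (.inr i)))
  obtain ⟨L', q, hg⟩ := gg_of hY h co (fun i => he (.inl (.inl i))) (he (.inr ()))
    fun i g u hu hv => hc i g u hu fun v a =>
      ⟨(hv v a).1, (hv v a).2.1.trans (he (.inl (.inr i))), (hv v a).2.2⟩
  have R := R4 D
  refine ⟨L', q, hS, co, fun e => ?_, a_one h, mem_of h hη, ?_, ?_, ⟨2 * D.R₀, fun y hy hn => ?_⟩,
    fun φ u hp hv => cv_of hC hS h hp (by simpa only [d.abs_core] using hv), ?_, ?_, hg, g0_of h,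
    glue_of h, disj_of h hη⟩
  · exact (le_div_iff₀' Λ0).1 (hs (.inr e))
  · rintro (j | i)
    exacts [(D.cyl j).smooth.continuous.sub continuous_const, (D.cone i).smooth.continuous]
  · rintro (j | i) v
    exacts [congrArg (· - √2) ((D.cyl j).per v.1 v.2), (D.cone i).per v.1 v.2]
  · rcases D.cover y hy hn with ⟨j, z, θ, a, b⟩ | ⟨i, z, θ, a, b⟩
    · exact ⟨.inl j, (z, θ), by linarith, b.trans (congrFun (grf_cylF _ _ _ (D.r j)) (z, θ)).symm⟩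
    · exact ⟨.inr i, (z, θ), (Real.log_nonneg (by linarith)).trans a, b⟩
  · filter_upwards [h.iso] with x hx
    rintro (j | i) v
    exacts [hx j v, rfl]
  · rintro (j | i)
    exacts [h.Q0 j, tendsto_const_nhds]

end Vale.Agent.P218F.Ft
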