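import Vale.Agent.P218F.FtGlue
import Vale.Agent.P218F.FtCoord
import Vale.Agent.P218F.FtEqn
import Vale.Agent.P218F.FtDef
import Vale.Agent.P218F.FtLoj
import Vale.Agent.P218F.FtOK

/-! # Block FT: assembly -/

open MeasureTheory Set Filter Topology Metric
open scoped ContDiff RealInnerProductSpace Real

set_option maxSynthPendingDepth 3

noncomputable section

namespace Vale.Agent.P218F.Ft

open Vale.Agent.P218FT hiding P2
open Vale.Agent.P218F.Core Vale.Agent.P218F.Ends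
open Vale.Agent.P218.H313 (rho grad)

theorem hm_eq_smul (N : Set E3) : Dyn.hm N = Vale.Agent.P218GA.cH 2 • area N := by
  have e : (μH[2] : Measure E3) = Vale.Agent.P218GA.cH 2 • μHE[2] := by
    simpa using Vale.Agent.P218GA.hausdorff_eq_smul (X := E3) 2
  rw [Dyn.hm, e, Measure.restrict_smul, area]

theorem ft_of (hOK : OKStmt) (hA : AbsStmt) (hD : DefStmt) (hL : LojStmt) : FtStmt := by
  intro S D hS
  obtain ⟨η₀, s, Λ, η, h0, hs, h1⟩ := hOK S D hS.1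
  obtain ⟨r₀, C₀, hr₀, -, h2⟩ := D.twoPt
  obtain ⟨r, C, hr, h3⟩ := hA s Λ r₀ C₀ hs hr₀
  obtain ⟨K, h4⟩ := hD C
  refine ⟨η₀, r, C, max K (2 * C), h0, hr, fun V₀ c₀ K₀ hT hz P _ _ ι _ B _ _ _ d R₁ L M β hF => ?_⟩
  obtain ⟨L₁, q₁, ho⟩ := h1 V₀ P ι B d R₁ L M β hF
  obtain ⟨L₂, q₂, hO⟩ := h3 S _ P _ L₁ q₁ ho h2
  obtain ⟨h5, q₃, h6⟩ := h4 S D V₀ c₀ K₀ hT hz P ι B d η₀ R₁ L M β η s Λ L₁ r L₂ q₁ q₂ hF ho hO
  obtain ⟨L₃, h7⟩ := hL S D V₀ P ι B d η₀ R₁ L M β η s Λ L₁ r C L₂ q₁ q₂ hF ho hO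
  have hone : ∀ y : E3, 1 ≤ 1 + ‖y‖ := fun y => le_add_of_nonneg_right (norm_nonneg y)
  have hfar : ∀ e (z : P2 × ℝ), (d.abs η).a e < z.1.1 → R₁ + 1 < ‖(d.abs η).F e z‖ := by
    rintro (j | i) z hz
    · exact (hF.big.2.2.1.trans_lt hz).trans_le ((ho.coord (.inl j)).gro z).1
    · refine (hF.big.2.2.2.trans_lt (Real.exp_lt_exp.2 hz)).trans_le ?_
      have T := (D.cone i).crv.tri z.1.2
      have e : ‖D.γ i z.1.2 + z.2 • D.n i z.1.2‖ ^ 2 = 1 + z.2 ^ 2 := by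
        rw [norm_add_sq_real, real_inner_smul_right, T.ac, norm_smul, T.na, T.nc, mul_one,
          Real.norm_eq_abs, sq_abs]
        ring
      show _ ≤ ‖Real.exp z.1.1 • (D.γ i z.1.2 + z.2 • D.n i z.1.2)‖
      rw [norm_smul, Real.norm_of_nonneg (Real.exp_pos _).le]
      refine le_mul_of_one_le_right (Real.exp_pos _).le ?_
      exact (one_le_sq_iff₀ (norm_nonneg _)).1 (by rw [e]; nlinarith [sq_nonneg z.2])
  have hc : ∀ p ∈ S, ‖p‖ ≤ R₁ + 1 → p ∈ (d.abs η).core 0 := fun p hp h8 => ⟨hp, fun h9 => by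
    obtain ⟨e, v, h10, rfl⟩ := mem_iUnion.1 h9
    exact absurd h8 (not_le.2 (hfar e (v, _) (by simpa using h10)))⟩
  have hc' : ∀ p ∈ S, ‖p‖ ≤ R₁ + 1 → p ∈ core D d.z₁ d.y₁ (5 / 2) := fun p hp h8 =>
    d.abs_core η _ ▸ (d.abs η).core_mono (by norm_num) (hc p hp h8)
  refine ⟨(d.abs η).Sx, |L₂| + |L₃|, q₂ + q₃, hO.zero, hO.surf, hO.two.mono fun x hx p hp =>
    (hx p hp).1, hO.eqn.mono fun x hx p hp => ?_, h5.mono fun x hx p hp =>
    (hx p hp).trans (le_max_left _ _), hO.near, fun i => ⟨(hF.chi i).1.of_le one_le_inf,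
    (hF.chi i).2⟩, hF.kap0, fun ε hε => (h6 ε hε).mono fun x hx y hy => (hx y hy).trans ?_, ?_,
    fun p hp h8 => ?_, ?_, hF.ucont', hF.ustrict, fun f => ?_, hF.beta,
    h7.mono fun x hx => hx.trans ?_⟩
  · obtain ⟨w, a1, a2, a3, a4⟩ := hx p hp
    refine ⟨w, a1, a2, a3.trans (le_max_right _ _), a4.trans ?_⟩
    gcongr
    · linarith [le_abs_self L₂, abs_nonneg L₃]
    · exact hone _
    · omega
  · gcongr
    · exact hone _
    · omega
  · filter_upwards [hF.normal, hO.unif 1 one_pos, ho.iso] with x a1 a2 a3 y hy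
    refine ⟨fun h8 => ?_, fun ⟨p, h8, h9, h10⟩ => Or.inl ⟨p, hc p h8 h9, ?_⟩⟩
    · rcases h8 with ⟨p, h8, rfl⟩ | h8
      · have h9 : ‖p‖ ≤ R₁ + 1 := by
          have := a2 p ((d.abs η).core_mono (by norm_num) h8)
          linarith [norm_sub_norm_le p ((d.abs η).Φ x p), norm_sub_rev p ((d.abs η).Φ x p)]
        refine ⟨p, h8.1, h9, ?_⟩
        rw [← (a1 p h8.1 h9).2]
        exact congrArg (· + _) (a1 p h8.1 h9).1
      · obtain ⟨e, v, h9, rfl⟩ := mem_iUnion.1 h8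
        rw [Abs.Y, a3] at hy
        exact absurd (hfar e (v, _) h9) (not_lt.2 (hy.trans (by linarith)))
    · rw [h10, ← (a1 p h8 h9).2]
      exact congrArg (· + _) (a1 p h8 h9).1
  · obtain ⟨φ, u, a1, rfl⟩ := exists_par hS.1 hp
    obtain ⟨ρ, a2, a3⟩ := hF.wc φ u a1 (hc' _ hp h8)
    exact norm_le_zero_iff.1 (le_of_forall_pos_le_add fun ε hε => by
      rw [zero_add]
      exact (norm_fst_le (jet2 (fun t => d.w 0 (φ t)) u)).trans ((a3 ε hε).self_of_nhds u (mem_ball_self a2)).2)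
  · have := ev_of_par (x₀ := (0 : P)) hS.1 ((isCompact_closedBall 0 (R₁ + 1)).inter_left hS.1.1)
      inter_subset_left (Q := fun x p => ContinuousWithinAt (d.w x) S p) fun φ u a1 a2 => by
        obtain ⟨ρ, a3, a4⟩ := hF.wc φ u a1 (hc' _ a2.1 (mem_closedBall_zero_iff.1 a2.2))
        filter_upwards [(continuous_fst.tendsto' _ _ rfl).eventually (a4 1 one_pos),
          (continuous_snd.tendsto' _ _ rfl).eventually (a1.eventually.and (ball_mem_nhds u a3))]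
          with z a5 a6
        rw [ContinuousWithinAt, ← a6.1.map_nhds hS.1, tendsto_map'_iff]
        exact (a5 _ a6.2).1.continuousAt
    exact this.mono fun x hx p hp => (hx p hp).mono inter_subset_left
  · have h8 := Vale.Agent.P218GA.cH_pos' 2
    obtain ⟨b, hb⟩ := hF.onto (((Vale.Agent.P218GA.cH 2 : ℝ))⁻¹ • f)
    refine ⟨b, funext fun i => ?_⟩
    have := congrFun hb i
    simp only [hm_eq_smul, integral_smul_nnreal_measure, NNReal.smul_def, smul_eq_mul,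
      Pi.smul_apply] at this ⊢
    rw [this, mul_inv_cancel_left₀ h8.ne']
  · gcongr
    linarith [le_abs_self L₃, abs_nonneg L₂]

theorem ft_of_ok (hOK : OKStmt) : FtStmt := ft_of hOK (abs_proof eqn_proof) def_proof loj_proof

theorem ft_proof (h1 : RegCoreStmt) (h2 : RegCylStmt) (h3 : RegConeStmt) : FtStmt :=
  ft_of_ok (ok_proof h1 h2 h3 coord_proof)

end Vale.Agent.P218F.Ft
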