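import Vale.Agent.P218F.FtLoc

/-! # Block FT: a `C²` small deformation of a compact piece of a surface -/

open MeasureTheory Set Filter Topology Metric
open scoped ContDiff RealInnerProductSpace Real

set_option maxSynthPendingDepth 3

noncomputable section

namespace Vale.Agent.P218F.Ft

open Vale.Agent.P218FT hiding P2
open Vale.Agent.P218F.Core

theorem chord {Y φ : P2 → E3} {u : P2} {A : P2 →L[ℝ] E3} {B : P2 →L[ℝ] P2 →L[ℝ] E3} {ν : E3}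
    {ρ M η K : ℝ} (hM : 0 < M) (hA : ∀ a, ‖a‖ ≤ M * ‖A a‖) (hν : ‖ν‖ = 1)
    (h1 : ∀ a, ⟪A a, ν⟫ = 0) (hK : 0 ≤ K) (hB : ∀ a, |⟪B a a, ν⟫| ≤ K * ‖A a‖ ^ 2) (h0 : 0 ≤ η)
    (hη : η * M ≤ 1 / 2) (hη' : (η + η * M * ‖B‖) * M ^ 2 ≤ 1)
    (hY : ∀ v ∈ ball u ρ, ContDiffAt ℝ 2 Y v ∧ ‖fderiv ℝ Y v - A‖ ≤ η ∧
      ‖fderiv ℝ (fderiv ℝ Y) v - B‖ ≤ η ∧ DifferentiableAt ℝ φ v ∧ ‖fderiv ℝ φ v - A‖ ≤ η)
    {v v' : P2} (hv : v ∈ ball u ρ) (hv' : v' ∈ ball u ρ) :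
    ‖φ v' - φ v‖ ≤ 4 * ‖Y v' - Y v‖ ∧ ∀ n, ‖n‖ = 1 → (∀ a, ⟪fderiv ℝ Y v a, n⟫ = 0) →
      |⟪Y v' - Y v, n⟫| ≤ 4 * (K + 1) * ‖Y v' - Y v‖ ^ 2 := by
  have e1 := (convex_ball u ρ).norm_image_sub_le_of_norm_fderiv_le' (𝕜 := ℝ)
    (fun w hw => (hY w hw).1.differentiableAt (by simp)) (fun w hw => (hY w hw).2.1) hv hv'
  have e2 := (convex_ball u ρ).norm_image_sub_le_of_norm_fderiv_le' (𝕜 := ℝ)
    (fun w hw => (hY w hw).2.2.2.1) (fun w hw => (hY w hw).2.2.2.2) hv hv'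
  set a := v' - v with ha
  have e3 : η * ‖a‖ ≤ ‖A a‖ / 2 := by
    nlinarith [mul_le_mul_of_nonneg_left (hA a) h0, norm_nonneg (A a)]
  have e4 : ‖A a‖ ≤ 2 * ‖Y v' - Y v‖ := by
    linarith [norm_sub_norm_le (A a) (Y v' - Y v), norm_sub_rev (A a) (Y v' - Y v)]
  refine ⟨by linarith [norm_sub_norm_le (φ v' - φ v) (A a), norm_nonneg (Y v' - Y v)],
    fun n hn h2 => ?_⟩
  have hs : ∀ s ∈ Icc (0 : ℝ) 1, v + s • a ∈ ball u ρ := fun s hs =>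
    (convex_ball u ρ).add_smul_sub_mem hv hv' hs
  have e5 := taylor_normal (M := (K + 1) * ‖A a‖ ^ 2) (fun s h => (hY _ (hs s h)).1) (h2 a)
    fun s h => by
      have f1 := tilt hM.le hA hν h1 hn h2 (B a a)
      have f2 : ‖B a a‖ ≤ ‖B‖ * ‖a‖ ^ 2 := by simpa [sq, mul_assoc] using B.le_opNorm₂ a a
      have f3 : |⟪(fderiv ℝ (fderiv ℝ Y) (v + s • a) - B) a a, n⟫| ≤ η * ‖a‖ ^ 2 := by
        refine (abs_real_inner_le_norm _ _).trans ?_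
        rw [hn, mul_one, sq, ← mul_assoc]
        refine (ContinuousLinearMap.le_opNorm₂ _ a a).trans ?_
        gcongr
        exact (hY _ (hs s h)).2.2.1
      have f4 : ‖fderiv ℝ Y v - A‖ * M * ‖B a a‖ ≤ η * M * (‖B‖ * ‖a‖ ^ 2) := by
        gcongr; exact (hY v hv).2.1
      have f5 : ‖a‖ ^ 2 ≤ M ^ 2 * ‖A a‖ ^ 2 := by rw [← mul_pow]; gcongr; exact hA a
      have f6 : (η + η * M * ‖B‖) * ‖a‖ ^ 2 ≤ ‖A a‖ ^ 2 :=
        (mul_le_mul_of_nonneg_left f5 (by positivity)).trans (by nlinarith [sq_nonneg ‖A a‖])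
      rw [sub_apply, sub_apply, inner_sub_left] at f3
      have f7 := abs_sub_abs_le_abs_sub ⟪fderiv ℝ (fderiv ℝ Y) (v + s • a) a a, n⟫ ⟪B a a, n⟫
      linarith [hB a]
  rw [ha, add_sub_cancel] at e5
  refine e5.trans ?_
  have : ‖A a‖ ^ 2 ≤ (2 * ‖Y v' - Y v‖) ^ 2 := by gcongr
  nlinarith

/-- `n` is normal to the deformed surface at `Ψ p` -/
def Orth (S : Set E3) (Ψ : E3 → E3) (p n : E3) : Prop :=
  ∀ φ u, Par S φ u → φ u = p → ∀ a, ⟪fderiv ℝ (fun t => Ψ (φ t)) u a, n⟫ = 0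

variable {S K : Set E3} {P : Type} [NormedAddCommGroup P] {Φ : P → E3 → E3} {φ : P2 → E3} {u : P2}

theorem Cv.lim0 (h : Cv Φ φ u) : Tendsto (fun z : P × P2 => Φ z.1 (φ z.2)) (𝓝 (0, u)) (𝓝 (φ u)) :=
  h.lim.fst_nhds

theorem Cv.lim1 (h : Cv Φ φ u) : Tendsto (fun z : P × P2 => fderiv ℝ (fun t => Φ z.1 (φ t)) z.2)
    (𝓝 (0, u)) (𝓝 (fderiv ℝ φ u)) := h.lim.snd_nhds.fst_nhds

theorem Cv.lim2 (h : Cv Φ φ u) :
    Tendsto (fun z : P × P2 => fderiv ℝ (fderiv ℝ fun t => Φ z.1 (φ t)) z.2) (𝓝 (0, u))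
      (𝓝 (fderiv ℝ (fderiv ℝ φ) u)) := h.lim.snd_nhds.snd_nhds

theorem ev_close {X E : Type*} [SeminormedAddCommGroup E] {l : Filter X} {f : X → E} {a : E}
    (h : Tendsto f l (𝓝 a)) {η : ℝ} (hη : 0 < η) : ∀ᶠ x in l, ‖f x - a‖ ≤ η :=
  (tendsto_iff_norm_sub_tendsto_zero.1 h).eventually (ge_mem_nhds hη)

theorem unif_of_cv (hS : IsSurf S) (hK : IsCompact K) (hKS : K ⊆ S)
    (hcv : ∀ φ u, Par S φ u → φ u ∈ K → Cv Φ φ u) {ε : ℝ} (hε : 0 < ε) :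
    ∀ᶠ x in 𝓝 (0 : P), ∀ p ∈ K, ‖Φ x p - p‖ ≤ ε :=
  ev_of_par hS hK hKS fun φ u hφ hu => by
    have := ((hcv φ u hφ hu).lim0.sub (hφ.continuousAt.tendsto.comp
      (continuous_snd.tendsto' (0, u) u rfl))).norm
    rw [sub_self, norm_zero] at this
    exact this.eventually (ge_mem_nhds hε)

/-- the deformation is bi-Lipschitz, and satisfies a two-point bound -/
theorem pairs (hS : IsSurf S) (hK : IsCompact K) (hKS : K ⊆ S)
    (hcv : ∀ φ u, Par S φ u → φ u ∈ K → Cv Φ φ u) {r₀ C₀ : ℝ} (h2 : ∀ p ∈ S, TwoPt S p r₀ C₀)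
    (hsh : ∀ p ∈ S, ‖sh S p‖ ≤ 2 * C₀) :
    ∀ᶠ x in 𝓝 (0 : P), ∀ p ∈ K, ∀ y ∈ K, ‖y - p‖ ≤ 4 * ‖Φ x y - Φ x p‖ ∧
      (‖y - p‖ ≤ r₀ → ∀ n, ‖n‖ = 1 → Orth S (Φ x) p n →
        |⟪Φ x y - Φ x p, n⟫| ≤ 4 * (2 * |C₀| + 1) * ‖Φ x y - Φ x p‖ ^ 2) := by
  refine ev_of_par hS hK hKS fun φ u hφ hu => ?_
  have hc := hcv φ u hφ hu
  obtain ⟨M, hM, hA⟩ := exists_low hφ.inj
  obtain ⟨h3, h4⟩ := IsEqn.param (hS.isEqn hφ.self_mem) (hφ.contDiffAt.of_le two_le_inf) hφ.mem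
  have hν := hS.norm_nu hφ.self_mem
  have t0 : Tendsto (fun z : P × P2 => z.2) (𝓝 (0, u)) (𝓝 u) := continuous_snd.tendsto' _ _ rfl
  refine ev_of_par (P := P × P2) hS hK hKS (Q := fun z y => ‖y - φ z.2‖ ≤ _ ∧ _)
    fun φ' u' hφ' hu' => ?_
  by_cases e : φ' u' = φ u
  · obtain ⟨ψ, h5, h6, -, h7⟩ := hφ.trans hS hφ' e
    set B := fderiv ℝ (fderiv ℝ φ) u
    obtain ⟨η, ⟨h8, h9⟩, h0⟩ : ∃ η : ℝ, (η * M ≤ 1 / 2 ∧ (η + η * M * ‖B‖) * M ^ 2 ≤ 1) ∧ 0 < η := by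
      have a1 : ∀ᶠ η in 𝓝 (0 : ℝ), η * M ≤ 1 / 2 :=
        (Continuous.tendsto' (by fun_prop) 0 0 (by simp)).eventually (ge_mem_nhds (by norm_num))
      have a2 : ∀ᶠ η in 𝓝 (0 : ℝ), (η + η * M * ‖B‖) * M ^ 2 ≤ 1 :=
        (Continuous.tendsto' (by fun_prop) 0 0 (by simp)).eventually (ge_mem_nhds (by norm_num))
      exact (((a1.and a2).filter_mono nhdsWithin_le_nhds).and
        (self_mem_nhdsWithin (s := Ioi 0))).exists
    obtain ⟨L, hL⟩ := hc.reg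
    obtain ⟨ρ, hρ, h10⟩ := Metric.eventually_nhds_iff_ball.1 (hL.and ((ev_close hc.lim1 h0).and
      ((ev_close hc.lim2 h0).and ((t0.eventually hφ.eventually).and (ev_close
        ((hφ.contDiffAt.continuousAt_fderiv (by simp)).tendsto.comp t0) h0)))))
    have t1 : Tendsto (fun w : (P × P2) × P2 => ψ w.2) (𝓝 ((0, u), u')) (𝓝 u) :=
      (h6 ▸ h5.self_of_nhds.continuousAt.tendsto).comp (continuous_snd.tendsto' _ _ rfl)
    filter_upwards [t1.eventually (ball_mem_nhds u hρ),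
      (continuous_fst.tendsto' _ _ rfl).eventually (ball_mem_nhds ((0 : P), u) hρ),
      (continuous_snd.tendsto' _ _ rfl).eventually h7] with w a1 a2 a3
    rw [← mem_ball] at a1 a2
    rw [← ball_prod_same] at a2 h10
    obtain ⟨a4, a5⟩ := chord (Y := fun t => Φ w.1.1 (φ t)) (φ := φ) (K := 2 * |C₀|) hM hA hν h3
      (by positivity) (fun a => by
        rw [← h4]
        refine (abs_real_inner_le_norm _ _).trans ?_
        rw [sq, ← mul_assoc]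
        gcongr
        refine (ContinuousLinearMap.le_opNorm _ _).trans ?_
        gcongr
        linarith [hsh _ hφ.self_mem, le_abs_self C₀]) h0.le h8 h9 (fun v hv => by
        obtain ⟨b1, b2, b3, b4, b5⟩ := h10 (w.1.1, v) ⟨a2.1, hv⟩
        exact ⟨b1.1.of_le two_le_inf, b2, b3, b4.differentiableAt, b5⟩) a2.2 a1
    rw [a3]
    exact ⟨a4, fun _ n hn ho => a5 n hn (ho φ _ (h10 _ a2).2.2.2.1 rfl)⟩
  · have hd : 0 < ‖φ' u' - φ u‖ := norm_pos_iff.2 (sub_ne_zero.2 e)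
    have s1 : Tendsto (fun w : (P × P2) × P2 => w.1) (𝓝 ((0, u), u')) (𝓝 (0, u)) :=
      continuous_fst.tendsto' _ _ rfl
    have s2 : Tendsto (fun w : (P × P2) × P2 => (w.1.1, w.2)) (𝓝 ((0, u), u')) (𝓝 (0, u')) :=
      Continuous.tendsto' (by fun_prop) _ _ rfl
    have t1 := ((hcv φ' u' hφ' hu').lim0.comp s2).sub (hc.lim0.comp s1)
    have t2 := (hφ'.continuousAt.tendsto.comp (continuous_snd.tendsto' (((0 : P), u), u') u'
      rfl)).sub (hφ.continuousAt.tendsto.comp (t0.comp s1))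
    have t3 := tendsto_iff_norm_sub_tendsto_zero.1 (hc.lim1.comp s1)
    refine (t2.norm.eventually_lt (t1.norm.const_mul 4) (by linarith)).mono (fun w hw => hw.le)
      |>.and ?_
    rcases lt_or_ge r₀ ‖φ' u' - φ u‖ with h5 | h5
    · exact (t2.norm.eventually (lt_mem_nhds h5)).mono fun w hw h6 => absurd h6 (not_le.2 hw)
    · have h6 := h2 _ hφ.self_mem _ hφ'.self_mem h5
      have t4 := ((t1.inner (𝕜 := ℝ) (tendsto_const_nhds (x := nu S (φ u)))).abs.add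
        ((t3.mul_const M).mul t1.norm)).eventually_lt
        ((t1.norm.pow 2).const_mul (4 * (2 * |C₀| + 1)))
        (by nlinarith [le_abs_self C₀, abs_nonneg C₀, pow_pos hd 2])
      filter_upwards [t4, (t0.comp s1).eventually hφ.eventually] with w a1 a2 _ n hn ho
      exact (tilt hM.le hA hν h3 hn (ho φ _ a2 rfl) _).trans a1.le

/-- charts with uniform bounds -/
theorem charts (hS : IsSurf S) (hK : IsCompact K) (hKS : K ⊆ S)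
    (hcv : ∀ φ u, Par S φ u → φ u ∈ K → Cv Φ φ u) :
    ∃ T : ℝ, ∀ᶠ x in 𝓝 (0 : P), ∀ p ∈ K, ∃ φ u, Par S φ u ∧ φ u = p ∧
      (∀ᶠ v in 𝓝 u, ContDiffAt ℝ ∞ (fun t => Φ x (φ t)) v) ∧
      (∀ a, ‖a‖ ≤ T * ‖fderiv ℝ (fun t => Φ x (φ t)) u a‖) ∧
      ∀ k, 1 ≤ k → k ≤ 3 → ‖iteratedFDeriv ℝ k (fun t => Φ x (φ t)) u‖ ≤ T := by
  have key := ev_of_par (P := ℝ × P) (x₀ := (0, 0)) hS hK hKS (Q := fun z p => 0 < z.1 →
    ∃ φ u, Par S φ u ∧ φ u = p ∧ (∀ᶠ v in 𝓝 u, ContDiffAt ℝ ∞ (fun t => Φ z.2 (φ t)) v) ∧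
      (∀ a, ‖a‖ ≤ z.1⁻¹ * ‖fderiv ℝ (fun t => Φ z.2 (φ t)) u a‖) ∧
      ∀ k, 1 ≤ k → k ≤ 3 → ‖iteratedFDeriv ℝ k (fun t => Φ z.2 (φ t)) u‖ ≤ z.1⁻¹)
    fun φ u hφ hu => by
      have hc := hcv φ u hφ hu
      obtain ⟨M, hM, hA⟩ := exists_low hφ.inj
      obtain ⟨L, hL⟩ := hc.reg
      have s1 : Tendsto (fun w : (ℝ × P) × P2 => (w.1.2, w.2)) (𝓝 ((0, 0), u)) (𝓝 (0, u)) :=
        Continuous.tendsto' (by fun_prop) _ _ rfl
      have s2 : ∀ T : ℝ, ∀ᶠ w : (ℝ × P) × P2 in 𝓝 ((0, 0), u), 0 < w.1.1 → T ≤ w.1.1⁻¹ := fun T => by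
        have : ∀ᶠ w : (ℝ × P) × P2 in 𝓝 ((0, 0), u), T * w.1.1 ≤ 1 :=
          (Continuous.tendsto' (by fun_prop) _ 0 (by simp)).eventually (ge_mem_nhds one_pos)
        exact this.mono fun w h1 h2 => by rwa [← one_div, le_div_iff₀ h2]
      filter_upwards [s1.eventually hL.eventually_nhds, s1.eventually
        (ev_close hc.lim1 (by positivity : 0 < (2 * M)⁻¹)), s1.eventually
        (hc.lim1.norm.eventually (ge_mem_nhds (lt_add_one _))), s1.eventually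
        (hc.lim2.norm.eventually (ge_mem_nhds (lt_add_one _))), s2 (2 * M), s2 L, s2 _, s2 _,
        (continuous_snd.tendsto' _ _ rfl).eventually hφ.eventually]
        with w a1 a2 a3 a4 a5 a6 a7 a8 a9 h0
      refine ⟨φ, w.2, a9, rfl, ((Continuous.tendsto' (f := fun v : P2 => (w.1.2, v)) (by fun_prop)
        _ _ rfl).eventually a1).mono fun v hv => hv.1, fun a => ?_, fun k h1 h2 => ?_⟩
      · set D := fderiv ℝ (fun t => Φ w.1.2 (φ t)) w.2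
        have b1 : ‖D a - fderiv ℝ φ u a‖ ≤ (2 * M)⁻¹ * ‖a‖ :=
          ((D - fderiv ℝ φ u).le_opNorm a).trans (by gcongr)
        have b2 : M * ((2 * M)⁻¹ * ‖a‖) = ‖a‖ / 2 := by field_simp
        have b3 := norm_sub_norm_le (fderiv ℝ φ u a) (D a)
        rw [norm_sub_rev] at b3
        have b4 : ‖a‖ ≤ 2 * M * ‖D a‖ := by nlinarith [hA a]
        exact b4.trans (by gcongr; exact a5 h0)
      · interval_cases k
        · rw [norm_iteratedFDeriv_one]; exact a3.trans (a7 h0)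
        · rw [norm_iter_two]; exact a4.trans (a8 h0)
        · exact a1.self_of_nhds.2.trans (a6 h0)
  obtain ⟨τ, h1, h2⟩ := ((key.curry_nhds.filter_mono nhdsWithin_le_nhds).and
    (self_mem_nhdsWithin (s := Ioi 0))).exists
  exact ⟨τ⁻¹, h1.mono fun x hx p hp => hx p hp h2⟩

end Vale.Agent.P218F.Ft
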