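import Mathlib.Analysis.Matrix.Order
import Mathlib.Analysis.InnerProductSpace.PiL2
import Mathlib.Analysis.Calculus.FDeriv.Symmetric
import Mathlib.Analysis.Calculus.MeanValue
import Mathlib.Analysis.Calculus.Deriv.MeanValue
import Mathlib.Analysis.Calculus.LocalExtr.Basic
import Mathlib.Algebra.Order.Chebyshev

/-!
# Interior gradient estimate for linear parabolic equations with Lipschitz coefficients (helper69)

`key`: if `v_t = a^{ij} v_{ij} + f` on a closed backward cylinder of radius `r`, `a` symmetric,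
elliptic, bounded and `K/r`-Lipschitz in space, then `|D_x v| ≤ C (sup|v|/r + r sup|f|)` at the centre.
Proof: doubling of variables with a coupling matrix.
-/

open Set Filter Topology Metric
open scoped RealInnerProductSpace MatrixOrder

noncomputable section

namespace Vale.Agent.P218F.GI

/-- factorisation of a positive semidefinite symmetric array -/
theorem psd_factor {κ : Type*} [Fintype κ] (P : κ → κ → ℝ) (hs : ∀ i j, P i j = P j i)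
    (hp : ∀ x : κ → ℝ, 0 ≤ ∑ i, ∑ j, P i j * x i * x j) :
    ∃ B : κ → κ → ℝ, ∀ i j, ∑ k, B k i * B k j = P i j := by
  classical
  have hP : (Matrix.of P).PosSemidef := by
    rw [Matrix.posSemidef_iff_dotProduct_mulVec]
    refine ⟨?_, fun x => ?_⟩
    · ext i j
      simp [hs i j]
    · have := hp x
      simp only [dotProduct, Matrix.mulVec, Matrix.of_apply, star_trivial, Finset.mul_sum]
      refine this.trans (le_of_eq ?_)
      refine Finset.sum_congr rfl fun i _ => Finset.sum_congr rfl fun j _ => by ring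
  obtain ⟨B, hB⟩ := CStarAlgebra.nonneg_iff_eq_star_mul_self.mp hP.nonneg
  refine ⟨fun k i => B k i, fun i j => ?_⟩
  have := congrFun (congrFun hB i) j
  simp only [Matrix.of_apply, Matrix.mul_apply, Matrix.star_apply, star_trivial] at this
  exact this.symm

variable {ι : Type*} [Fintype ι]

/-- `lam`-ellipticity of an array -/
def Ell (lam : ℝ) (a : ι → ι → ℝ) : Prop :=
  (∀ i j, a i j = a j i) ∧ ∀ x : ι → ℝ, lam * ∑ i, x i ^ 2 ≤ ∑ i, ∑ j, a i j * x i * x j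

theorem coupling [DecidableEq ι] {a a' : ι → ι → ℝ} {e : ι → ℝ} {lam κ μ : ℝ} (hlam : 0 < lam)
    (ha : Ell lam a) (ha' : Ell lam a') (hκ : ∀ i j, |a i j - a' i j| ≤ κ)
    (he : ∑ i, e i ^ 2 = 1) (hμ0 : 0 ≤ μ) (hμ : (Fintype.card ι * κ) ^ 2 ≤ lam * μ)
    (hμ2 : μ ≤ lam / 2) :
    ∃ ξ η : ι ⊕ ι → ι → ℝ, (∀ i j, ∑ k, ξ k i * ξ k j = a i j) ∧
      (∀ i j, ∑ k, η k i * η k j = a' i j) ∧
      ∀ i j, ∑ k, (ξ k i - η k i) * (ξ k j - η k j) =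
        2 * ((if i = j then μ else 0) + lam / 2 * e i * e j) := by
  set nn : ι → ι → ℝ := fun i j => (if i = j then μ else 0) + lam / 2 * e i * e j with hnn
  have hnns : ∀ i j, nn i j = nn j i := by
    intro i j
    simp only [hnn, eq_comm (a := i)]
    ring
  have hq : ∀ s : ι → ℝ, ∑ i, ∑ j, nn i j * s i * s j =
      μ * ∑ i, s i ^ 2 + lam / 2 * (∑ i, e i * s i) ^ 2 := by
    intro s
    simp only [hnn, add_mul, Finset.sum_add_distrib, ite_mul, zero_mul, Finset.sum_ite_eq,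
      Finset.mem_univ, if_true]
    rw [sq (∑ i, e i * s i), Finset.sum_mul_sum, Finset.mul_sum, Finset.mul_sum]
    congr 1
    · exact Finset.sum_congr rfl fun i _ => by ring
    · refine Finset.sum_congr rfl fun i _ => ?_
      rw [Finset.mul_sum]
      exact Finset.sum_congr rfl fun j _ => by ring
  set c : ι → ι → ℝ := fun i j => (a i j + a' i j) / 2 - nn i j with hc
  let P : ι ⊕ ι → ι ⊕ ι → ℝ := fun k l =>
    Sum.elim (fun i => Sum.elim (fun j => a i j) (fun j => c i j) l)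
      (fun i => Sum.elim (fun j => c i j) (fun j => a' i j) l) k
  have hcs : ∀ i j, c i j = c j i := by
    intro i j
    simp only [hc, ha.1 i j, ha'.1 i j, hnns i j]
  obtain ⟨B, hB⟩ := psd_factor P
    (by rintro (i | i) (j | j) <;> simp [P, ha.1 i j, ha'.1 i j, hcs i j]) (by
    intro z
    set x : ι → ℝ := fun i => z (Sum.inl i)
    set y : ι → ℝ := fun i => z (Sum.inr i)
    set s : ι → ℝ := fun i => x i + y i
    set w : ι → ℝ := fun i => x i - y i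
    have h1 : ∑ k, ∑ l, P k l * z k * z l =
        1 / 2 * ∑ i, ∑ j, a i j * s i * s j + 1 / 2 * ∑ i, ∑ j, a' i j * s i * s j
          - 1 / 2 * ∑ i, ∑ j, nn i j * s i * s j + 1 / 2 * ∑ i, ∑ j, nn i j * w i * w j
          + ∑ i, ∑ j, (a i j - a' i j) / 4 * (s i * w j + w i * s j) := by
      simp only [Fintype.sum_sum_type, P, Sum.elim_inl, Sum.elim_inr, Finset.mul_sum,
        ← Finset.sum_add_distrib, ← Finset.sum_sub_distrib]
      refine Finset.sum_congr rfl fun i _ => Finset.sum_congr rfl fun j _ => ?_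
      simp only [hc, s, w, x, y]
      ring
    have hS : (∑ i, |s i|) ^ 2 ≤ Fintype.card ι * ∑ i, s i ^ 2 := by
      have := sq_sum_le_card_mul_sum_sq (s := Finset.univ) (f := fun i => |s i|)
      simpa [sq_abs] using this
    have hW : (∑ i, |w i|) ^ 2 ≤ Fintype.card ι * ∑ i, w i ^ 2 := by
      have := sq_sum_le_card_mul_sum_sq (s := Finset.univ) (f := fun i => |w i|)
      simpa [sq_abs] using this
    have hes : (∑ i, e i * s i) ^ 2 ≤ ∑ i, s i ^ 2 := by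
      have := Finset.sum_mul_sq_le_sq_mul_sq Finset.univ e s
      rwa [he, one_mul] at this
    have hcross : -(κ / 2 * ((∑ i, |s i|) * ∑ i, |w i|)) ≤
        ∑ i, ∑ j, (a i j - a' i j) / 4 * (s i * w j + w i * s j) := by
      have e1 : κ / 2 * ((∑ i, |s i|) * ∑ i, |w i|) =
          ∑ i, ∑ j, κ / 4 * (|s i| * |w j| + |w i| * |s j|) := by
        simp only [mul_add, Finset.sum_add_distrib, ← Finset.mul_sum, ← Finset.sum_mul]
        ring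
      rw [e1, ← Finset.sum_neg_distrib]
      refine Finset.sum_le_sum fun i _ => ?_
      rw [← Finset.sum_neg_distrib]
      refine Finset.sum_le_sum fun j _ => ?_
      refine neg_le_of_abs_le ?_
      rw [abs_mul, abs_div, abs_of_pos (by norm_num : (0 : ℝ) < 4)]
      refine mul_le_mul (by linarith [hκ i j]) ?_ (abs_nonneg _)
        (by linarith [hκ i j, abs_nonneg (a i j - a' i j)])
      rw [← abs_mul, ← abs_mul]
      exact abs_add_le _ _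
    set S2 := ∑ i, s i ^ 2 with hS2
    set W2 := ∑ i, w i ^ 2 with hW2
    have hS0 : 0 ≤ S2 := Finset.sum_nonneg fun i _ => sq_nonneg _
    have hW0 : 0 ≤ W2 := Finset.sum_nonneg fun i _ => sq_nonneg _
    have hcs2 : κ * ((∑ i, |s i|) * ∑ i, |w i|) ≤ lam * S2 + μ * W2 := by
      refine (abs_le_of_sq_le_sq' ?_ (by positivity)).2
      calc (κ * ((∑ i, |s i|) * ∑ i, |w i|)) ^ 2
          = κ ^ 2 * ((∑ i, |s i|) ^ 2 * (∑ i, |w i|) ^ 2) := by ring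
        _ ≤ κ ^ 2 * ((Fintype.card ι * S2) * (Fintype.card ι * W2)) := by gcongr
        _ = (Fintype.card ι * κ) ^ 2 * (S2 * W2) := by ring
        _ ≤ lam * μ * (S2 * W2) := by gcongr
        _ ≤ (lam * S2 + μ * W2) ^ 2 := by
          nlinarith [sq_nonneg (lam * S2), sq_nonneg (μ * W2), mul_nonneg (mul_nonneg hlam.le hμ0) (mul_nonneg hS0 hW0)]
    rw [h1, hq, hq]
    have h2 := ha.2 s
    have h3 := ha'.2 s
    have h4 : μ * S2 ≤ lam / 2 * S2 := by gcongr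
    have h5 : lam / 2 * (∑ i, e i * s i) ^ 2 ≤ lam / 2 * S2 := by gcongr
    have h6 : 0 ≤ lam / 2 * (∑ i, e i * w i) ^ 2 := by positivity
    rw [← hS2] at h2 h3
    rw [← hS2, ← hW2]
    linarith)
  refine ⟨fun k i => B k (Sum.inl i), fun k i => B k (Sum.inr i), fun i j => hB _ _,
    fun i j => hB _ _, fun i j => ?_⟩
  have h1 := hB (Sum.inl i) (Sum.inl j)
  have h2 := hB (Sum.inl i) (Sum.inr j)
  have h3 := hB (Sum.inr i) (Sum.inl j)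
  have h4 := hB (Sum.inr i) (Sum.inr j)
  simp only [P, Sum.elim_inl, Sum.elim_inr, hc] at h1 h2 h3 h4
  have : ∑ k, (B k (Sum.inl i) - B k (Sum.inr i)) * (B k (Sum.inl j) - B k (Sum.inr j)) =
      ∑ k, B k (Sum.inl i) * B k (Sum.inl j) - ∑ k, B k (Sum.inl i) * B k (Sum.inr j)
        - ∑ k, B k (Sum.inr i) * B k (Sum.inl j) + ∑ k, B k (Sum.inr i) * B k (Sum.inr j) := by
    simp only [← Finset.sum_add_distrib, ← Finset.sum_sub_distrib]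
    exact Finset.sum_congr rfl fun k _ => by ring
  rw [this, h1, h2, h3, h4]
  ring

variable {E : Type*} [NormedAddCommGroup E] [InnerProductSpace ℝ E]

theorem sum_bilin {κ : Type*} [Fintype κ] (b : ι → E) (T : E →L[ℝ] E →L[ℝ] ℝ) {c : κ → ι → ℝ}
    {m : ι → ι → ℝ} (h : ∀ i j, ∑ k, c k i * c k j = m i j) :
    ∑ k, T (∑ i, c k i • b i) (∑ j, c k j • b j) = ∑ i, ∑ j, m i j * T (b i) (b j) := by
  simp only [map_sum, map_smul, sum_apply, smul_apply,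
    smul_eq_mul, ← h, Finset.sum_mul, Finset.mul_sum]
  rw [Finset.sum_comm]
  simp_rw [Finset.sum_comm (s := (Finset.univ : Finset κ))]
  rw [Finset.sum_comm]
  refine Finset.sum_congr rfl fun i _ => Finset.sum_congr rfl fun j _ =>
    Finset.sum_congr rfl fun k _ => by ring

theorem trace_bound (b : OrthonormalBasis ι ℝ E) {a a' : ι → ι → ℝ} {lam Lam κ μ c1 c2 c3 : ℝ}
    (hlam : 0 < lam) (ha : Ell lam a) (ha' : Ell lam a') (hb : ∀ i j, |a i j| ≤ Lam)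
    (hκ : ∀ i j, |a i j - a' i j| ≤ κ) (hμ0 : 0 ≤ μ) (hμ : (Fintype.card ι * κ) ^ 2 ≤ lam * μ)
    (hμ2 : μ ≤ lam / 2) {e : E} (he : ‖e‖ = 1) (X Y : E →L[ℝ] E →L[ℝ] ℝ) (h1 : 0 ≤ c1)
    (h2 : 0 ≤ c2) (h3 : 0 ≤ c3)
    (h : ∀ ξ η, X ξ ξ - Y η η ≤ c1 * (‖ξ - η‖ ^ 2 - ⟪e, ξ - η⟫ ^ 2) - c2 * ‖ξ - η‖ ^ 2
      + c3 * ‖ξ‖ ^ 2) :
    ∑ i, ∑ j, a i j * X (b i) (b j) - ∑ i, ∑ j, a' i j * Y (b i) (b j) ≤
      c1 * (2 * Fintype.card ι * μ) - c2 * lam + c3 * (Fintype.card ι * Lam) := by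
  classical
  have hee : ∑ i, ⟪e, b i⟫ ^ 2 = 1 := by
    rw [b.sum_sq_inner_left, he]; norm_num
  obtain ⟨ξ, η, e1, e2, e3⟩ := coupling hlam ha ha' hκ hee hμ0 hμ hμ2
  have hon : ∀ i j, ⟪b i, b j⟫ = if i = j then (1 : ℝ) else 0 := fun i j =>
    orthonormal_iff_ite.1 b.orthonormal i j
  have f1 := sum_bilin b X e1
  have f2 := sum_bilin b Y e2
  obtain ⟨I, hI⟩ : ∃ I : E →L[ℝ] E →L[ℝ] ℝ, ∀ x y, I x y = ⟪x, y⟫ :=
    ⟨innerSL ℝ, fun _ _ => rfl⟩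
  have f3 := sum_bilin b I e3
  have f4 := sum_bilin b ((innerSL ℝ e).smulRight (innerSL ℝ e)) e3
  have f5 := sum_bilin b I e1
  simp only [hI, hon, mul_ite, mul_one, mul_zero,
    Finset.sum_ite_eq, Finset.mem_univ, if_true] at f3 f5
  simp only [real_inner_self_eq_norm_sq] at f3 f5
  simp only [ContinuousLinearMap.smulRight_apply, smul_apply,
    innerSL_apply_apply, smul_eq_mul, ← sq] at f4
  have g3 : ∑ i, 2 * (μ + lam / 2 * ⟪e, b i⟫ * ⟪e, b i⟫) = 2 * Fintype.card ι * μ + lam := by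
    have : ∀ i, 2 * (μ + lam / 2 * ⟪e, b i⟫ * ⟪e, b i⟫) = 2 * μ + lam * ⟪e, b i⟫ ^ 2 :=
      fun i => by ring
    simp only [this, Finset.sum_add_distrib, ← Finset.mul_sum, hee, Finset.sum_const,
      Finset.card_univ, nsmul_eq_mul]
    ring
  have g4 : ∑ i, ∑ j, 2 * ((if i = j then μ else 0) + lam / 2 * ⟪e, b i⟫ * ⟪e, b j⟫) *
      (⟪e, b i⟫ * ⟪e, b j⟫) = 2 * μ + lam := by
    have : ∀ i j, 2 * ((if i = j then μ else 0) + lam / 2 * ⟪e, b i⟫ * ⟪e, b j⟫) *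
        (⟪e, b i⟫ * ⟪e, b j⟫) = (if i = j then 2 * μ * ⟪e, b i⟫ ^ 2 else 0)
          + lam * (⟪e, b i⟫ ^ 2 * ⟪e, b j⟫ ^ 2) := by
      intro i j
      split_ifs with hij
      · subst hij; ring
      · ring
    simp only [this, Finset.sum_add_distrib, Finset.sum_ite_eq, Finset.mem_univ, if_true,
      ← Finset.mul_sum, ← Finset.sum_mul, hee]
    ring
  have g5 : ∑ i, a i i ≤ Fintype.card ι * Lam := by
    calc ∑ i, a i i ≤ ∑ _i : ι, Lam := Finset.sum_le_sum fun i _ => le_of_abs_le (hb i i)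
      _ = _ := by simp
  rw [g3] at f3
  rw [g4] at f4
  rw [← f1, ← f2, ← Finset.sum_sub_distrib]
  have hsub : ∀ k, ∑ i, ξ k i • b i - ∑ i, η k i • b i = ∑ i, (ξ k i - η k i) • b i := by
    intro k
    simp only [sub_smul, Finset.sum_sub_distrib]
  refine (Finset.sum_le_sum fun k _ => h _ _).trans ?_
  simp only [hsub, Finset.sum_add_distrib, Finset.sum_sub_distrib, ← Finset.mul_sum]
  rw [f3, f4, f5]
  have : 0 ≤ c2 * (2 * Fintype.card ι * μ) := by positivity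
  have : 0 ≤ c1 * (2 * μ + lam) := by positivity
  have : c3 * ∑ i, a i i ≤ c3 * (Fintype.card ι * Lam) := by gcongr
  have : 0 ≤ c1 * μ := by positivity
  nlinarith

theorem second_order {g g' : ℝ → ℝ} {g2 : ℝ} (h1 : ∀ᶠ s in 𝓝 (0 : ℝ), HasDerivAt g (g' s) s)
    (h2 : HasDerivAt g' g2 0) (hm : IsLocalMax g 0) : g2 ≤ 0 := by
  by_contra hc
  push Not at hc
  have h0 : g' 0 = 0 := hm.hasDerivAt_eq_zero h1.self_of_nhds
  have h3 : ∀ᶠ s in 𝓝[>] (0 : ℝ), 0 < g' s := by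
    have := (hasDerivAt_iff_tendsto_slope_zero.1 h2).eventually (lt_mem_nhds hc)
    have h4 : ∀ᶠ s in 𝓝[>] (0 : ℝ), 0 < s⁻¹ • (g' (0 + s) - g' 0) :=
      this.filter_mono (nhdsWithin_mono _ fun s hs => ne_of_gt hs)
    filter_upwards [h4, self_mem_nhdsWithin] with s hs hs0
    rw [h0, zero_add, sub_zero, smul_eq_mul] at hs
    exact (pos_iff_pos_of_mul_pos hs).1 (inv_pos.2 hs0)
  obtain ⟨ε, hε, hε'⟩ := Metric.eventually_nhds_iff.1
    ((h1.and hm).and (eventually_nhdsWithin_iff.1 h3))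
  have hd : ∀ s ∈ Icc 0 (ε / 2), dist s 0 < ε := fun s hs => by
    rw [Real.dist_eq, sub_zero, abs_of_nonneg hs.1]; linarith [hs.2]
  obtain ⟨c, hc1, hc2⟩ := exists_hasDerivAt_eq_slope g g' (half_pos hε)
    (fun s hs => (hε' (hd s hs)).1.1.continuousAt.continuousWithinAt)
    (fun s hs => (hε' (hd s (Ioo_subset_Icc_self hs))).1.1)
  have h5 := (hε' (hd c (Ioo_subset_Icc_self hc1))).2 hc1.1
  have h6 := (hε' (hd (ε / 2) ⟨(half_pos hε).le, le_rfl⟩)).1.2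
  rw [hc2] at h5
  have := (div_pos_iff_of_pos_right (by linarith)).1 h5
  linarith

section line
variable {P F : Type*} [NormedAddCommGroup P] [NormedSpace ℝ P] [NormedAddCommGroup F]
  [NormedSpace ℝ F]

theorem line_deriv {v : P → F} {p : P} (ζ : P) {s : ℝ} (h : DifferentiableAt ℝ v (p + s • ζ)) :
    HasDerivAt (fun s : ℝ => v (p + s • ζ)) (fderiv ℝ v (p + s • ζ) ζ) s := by
  have h1 : HasDerivAt (fun s : ℝ => p + s • ζ) ζ s := by
    simpa using ((hasDerivAt_id s).smul_const ζ).const_add p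
  exact h.hasFDerivAt.comp_hasDerivAt s h1

theorem line_deriv1 {v : P → F} {p : P} (h : ContDiffAt ℝ 2 v p) (ζ : P) :
    ∀ᶠ s in 𝓝 (0 : ℝ), HasDerivAt (fun s : ℝ => v (p + s • ζ)) (fderiv ℝ v (p + s • ζ) ζ) s := by
  have h1 : ∀ᶠ q in 𝓝 p, ContDiffAt ℝ 2 v q := h.eventually (by simp)
  have h2 : Tendsto (fun s : ℝ => p + s • ζ) (𝓝 0) (𝓝 p) := by
    have : Continuous fun s : ℝ => p + s • ζ := by fun_prop
    simpa using this.tendsto 0
  filter_upwards [h2.eventually h1] with s hs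
  exact line_deriv ζ (hs.differentiableAt (by simp))

theorem line_deriv2 {v : P → F} {p : P} (h : ContDiffAt ℝ 2 v p) (ζ : P) :
    HasDerivAt (fun s : ℝ => fderiv ℝ v (p + s • ζ) ζ) (fderiv ℝ (fderiv ℝ v) p ζ ζ) 0 := by
  have h1 : DifferentiableAt ℝ (fderiv ℝ v) (p + (0 : ℝ) • ζ) := by
    simpa using (h.fderiv_right (m := 1) (by norm_num)).differentiableAt (by simp)
  have h2 := (line_deriv ζ h1).clm_apply (hasDerivAt_const (0 : ℝ) ζ)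
  simpa using h2

/-- second order condition in doubled variables -/
theorem two_point {v : P → ℝ} {p q : P} (hp : ContDiffAt ℝ 2 v p) (hq : ContDiffAt ℝ 2 v q)
    (ζ ω : P) {β γ : ℝ}
    (h : ∀ᶠ s in 𝓝 (0 : ℝ), v (p + s • ζ) - v (q + s • ω) - (β * s + γ * s ^ 2) ≤ v p - v q) :
    fderiv ℝ (fderiv ℝ v) p ζ ζ - fderiv ℝ (fderiv ℝ v) q ω ω ≤ 2 * γ := by
  have := second_order (g := fun s => v (p + s • ζ) - v (q + s • ω) - (β * s + γ * s ^ 2))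
    (g' := fun s => fderiv ℝ v (p + s • ζ) ζ - fderiv ℝ v (q + s • ω) ω - (β + γ * (2 * s)))
    (g2 := fderiv ℝ (fderiv ℝ v) p ζ ζ - fderiv ℝ (fderiv ℝ v) q ω ω - 2 * γ) ?_ ?_ ?_
  · linarith
  · filter_upwards [line_deriv1 hp ζ, line_deriv1 hq ω] with s h1 h2
    refine (h1.sub h2).sub ?_
    have h3 := ((hasDerivAt_id s).const_mul β).fun_add ((hasDerivAt_pow 2 s).const_mul γ)
    simpa using h3
  · refine ((line_deriv2 hp ζ).sub (line_deriv2 hq ω)).sub ?_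
    have h3 := (((hasDerivAt_id (0 : ℝ)).const_mul 2).const_mul γ).const_add β
    simpa [mul_comm] using h3
  · filter_upwards [h] with s hs
    simpa using hs

end line

theorem left_max {g : ℝ → ℝ} {g' : ℝ} (h : HasDerivAt g g' 0)
    (hm : ∀ᶠ s in 𝓝[<] (0 : ℝ), g s ≤ g 0) : 0 ≤ g' := by
  have h1 := (hasDerivAt_iff_tendsto_slope_zero.1 h).mono_left
    (nhdsWithin_mono (0 : ℝ) (fun s (hs : s < 0) => ne_of_lt hs) : 𝓝[<] (0 : ℝ) ≤ 𝓝[≠] 0)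
  refine ge_of_tendsto h1 ?_
  filter_upwards [hm, self_mem_nhdsWithin] with s hs hs0
  rw [zero_add, smul_eq_mul]
  exact mul_nonneg_of_nonpos_of_nonpos (inv_nonpos.2 (le_of_lt hs0)) (by linarith)

theorem norm_line_le {z w : E} {s : ℝ} (hz : z ≠ 0)
    (hs : ‖z‖ / 2 ≤ ‖z‖ + s * ⟪‖z‖⁻¹ • z, w⟫) :
    ‖z + s • w‖ ≤ ‖z‖ + s * ⟪‖z‖⁻¹ • z, w⟫ +
      s ^ 2 * ((‖w‖ ^ 2 - ⟪‖z‖⁻¹ • z, w⟫ ^ 2) / ‖z‖) := by
  have hd : 0 < ‖z‖ := norm_pos_iff.2 hz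
  set a := ⟪‖z‖⁻¹ • z, w⟫ with ha
  have h1 : ⟪z, w⟫ = ‖z‖ * a := by
    rw [ha, real_inner_smul_left]; field_simp
  have h2 : a ^ 2 ≤ ‖w‖ ^ 2 := by
    have := abs_real_inner_le_norm (‖z‖⁻¹ • z) w
    rw [norm_smul, norm_inv, norm_norm, inv_mul_cancel₀ hd.ne', one_mul] at this
    exact sq_le_sq' (neg_le_of_abs_le this) (le_of_abs_le this)
  set c := (‖w‖ ^ 2 - a ^ 2) / ‖z‖ with hc
  have hc0 : 0 ≤ c := div_nonneg (by linarith) hd.le
  have hc1 : ‖w‖ ^ 2 = a ^ 2 + c * ‖z‖ := by rw [hc]; field_simp; ring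
  refine (abs_le_of_sq_le_sq' ?_ (by nlinarith [sq_nonneg s])).2
  rw [norm_add_sq_real, real_inner_smul_right, norm_smul, mul_pow, Real.norm_eq_abs, sq_abs, h1,
    hc1]
  have h3 : 0 ≤ s ^ 2 * c := by positivity
  nlinarith [mul_nonneg h3 (sub_nonneg.2 hs), sq_nonneg (s ^ 2 * c)]

/-- the closed backward parabolic cylinder of radius `r` with top centre `p` -/
def cyl {E : Type*} [PseudoMetricSpace E] (p : E × ℝ) (r : ℝ) : Set (E × ℝ) :=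
  closedBall p.1 r ×ˢ Icc (p.2 - r ^ 2) p.2

theorem mem_cyl {E : Type*} [SeminormedAddCommGroup E] {p q : E × ℝ} {r : ℝ} :
    q ∈ cyl p r ↔ ‖q.1 - p.1‖ ≤ r ∧ p.2 - r ^ 2 ≤ q.2 ∧ q.2 ≤ p.2 := by
  simp [cyl, dist_eq_norm]

theorem self_mem_cyl {E : Type*} [SeminormedAddCommGroup E] (p : E × ℝ) {r : ℝ} (hr : 0 ≤ r) :
    p ∈ cyl p r := mem_cyl.2 ⟨by simpa using hr, by nlinarith [sq_nonneg r], le_rfl⟩

theorem isCompact_cyl {E : Type*} [PseudoMetricSpace E] [ProperSpace E] (p : E × ℝ) (r : ℝ) :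
    IsCompact (cyl p r) := (isCompact_closedBall _ _).prod isCompact_Icc

theorem cyl_subset {E : Type*} [SeminormedAddCommGroup E] {p q : E × ℝ} {r s t : ℝ}
    (hq : q ∈ cyl p s) (hs : 0 ≤ s) (ht : 0 ≤ t) (h : s + t ≤ r) : cyl q t ⊆ cyl p r := by
  intro z hz
  rw [mem_cyl] at *
  refine ⟨?_, ?_, hz.2.2.trans hq.2.2⟩
  · have : z.1 - p.1 = (z.1 - q.1) + (q.1 - p.1) := by abel
    rw [this]
    linarith [norm_add_le (z.1 - q.1) (q.1 - p.1), hz.1, hq.1]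
  · have : (s + t) ^ 2 ≤ r ^ 2 := by gcongr
    nlinarith [mul_nonneg hs ht, hz.2.1, hq.2.1]

theorem two_point_psi {v : E × ℝ → ℝ} {x z x0 : E} {t δ A L : ℝ} (hδ : 0 < δ)
    (hp1 : ContDiffAt ℝ 2 v (x, t)) (hp2 : ContDiffAt ℝ 2 v (x - z, t)) (hz : z ≠ 0) (hL0 : 0 ≤ L)
    (hmax : ∀ᶠ q : E × E in 𝓝 (x, z), v (q.1, t) - v (q.1 - q.2, t)
      - L * (‖q.2‖ - ‖q.2‖ ^ 2 / (4 * δ)) - A * ‖q.1 - x0‖ ^ 2 ≤
      v (x, t) - v (x - z, t) - L * (‖z‖ - ‖z‖ ^ 2 / (4 * δ)) - A * ‖x - x0‖ ^ 2) (ξ η : E) :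
    fderiv ℝ (fderiv ℝ v) (x, t) (ξ, 0) (ξ, 0) - fderiv ℝ (fderiv ℝ v) (x - z, t) (η, 0) (η, 0) ≤
      2 * L / ‖z‖ * (‖ξ - η‖ ^ 2 - ⟪‖z‖⁻¹ • z, ξ - η⟫ ^ 2) - L / (2 * δ) * ‖ξ - η‖ ^ 2
        + 2 * A * ‖ξ‖ ^ 2 := by
  have hd : 0 < ‖z‖ := norm_pos_iff.2 hz
  set e : E := ‖z‖⁻¹ • z with he
  set w := ξ - η with hw
  have := two_point hp1 hp2 (ξ, 0) (η, 0)
    (β := L * (⟪e, w⟫ - 2 * ⟪z, w⟫ / (4 * δ)) + A * (2 * ⟪x - x0, ξ⟫))
    (γ := L * ((‖w‖ ^ 2 - ⟪e, w⟫ ^ 2) / ‖z‖ - ‖w‖ ^ 2 / (4 * δ)) + A * ‖ξ‖ ^ 2) ?_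
  · refine this.trans (le_of_eq ?_)
    field_simp
    ring
  have t1 : Tendsto (fun s : ℝ => (x + s • ξ, z + s • w)) (𝓝 0) (𝓝 (x, z)) := by
    have : Continuous fun s : ℝ => (x + s • ξ, z + s • w) := by fun_prop
    simpa using this.tendsto 0
  have t3 : ∀ᶠ s in 𝓝 (0 : ℝ), ‖z‖ / 2 < ‖z‖ + s * ⟪e, w⟫ := by
    have : Continuous fun s : ℝ => ‖z‖ + s * ⟪e, w⟫ := by fun_prop
    exact (this.tendsto 0).eventually (lt_mem_nhds (by simpa using hd))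
  filter_upwards [t1.eventually hmax, t3] with s h1 s3
  have h2 := norm_line_le hz s3.le
  have h3 : x + s • ξ - (z + s • w) = x - z + s • η := by
    rw [hw, smul_sub]; abel
  have h4 : ‖z + s • w‖ ^ 2 = ‖z‖ ^ 2 + 2 * (s * ⟪z, w⟫) + s ^ 2 * ‖w‖ ^ 2 := by
    rw [norm_add_sq_real, real_inner_smul_right, norm_smul, mul_pow, Real.norm_eq_abs, sq_abs]
  have h5 : ‖x + s • ξ - x0‖ ^ 2 =
      ‖x - x0‖ ^ 2 + 2 * (s * ⟪x - x0, ξ⟫) + s ^ 2 * ‖ξ‖ ^ 2 := by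
    rw [add_sub_right_comm, norm_add_sq_real, real_inner_smul_right, norm_smul, mul_pow,
      Real.norm_eq_abs, sq_abs]
  simp only [h3, h4, h5] at h1
  simp only [Prod.smul_mk, smul_zero, Prod.mk_add_mk, add_zero]
  have h6 := mul_le_mul_of_nonneg_left h2 hL0
  rw [← he] at h6
  have h7 : (L * (⟪e, w⟫ - 2 * ⟪z, w⟫ / (4 * δ)) + A * (2 * ⟪x - x0, ξ⟫)) * s +
      (L * ((‖w‖ ^ 2 - ⟪e, w⟫ ^ 2) / ‖z‖ - ‖w‖ ^ 2 / (4 * δ)) + A * ‖ξ‖ ^ 2) * s ^ 2 =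
      L * (‖z‖ + s * ⟪e, w⟫ + s ^ 2 * ((‖w‖ ^ 2 - ⟪e, w⟫ ^ 2) / ‖z‖))
        - L * ((‖z‖ ^ 2 + 2 * (s * ⟪z, w⟫) + s ^ 2 * ‖w‖ ^ 2) / (4 * δ))
        - L * (‖z‖ - ‖z‖ ^ 2 / (4 * δ))
        + A * (2 * (s * ⟪x - x0, ξ⟫) + s ^ 2 * ‖ξ‖ ^ 2) := by ring
  rw [h7]
  linarith

theorem space_trace (b : OrthonormalBasis ι ℝ E) {lam Lam K r δ A L : ℝ} (hlam : 0 < lam)
    (hδ : 0 < δ) (hr : 0 < r)
    (hsm : 16 * (Fintype.card ι : ℝ) ^ 3 * K ^ 2 * δ ^ 2 ≤ lam ^ 2 * r ^ 2)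
    (hA0 : 0 ≤ A) (hL0 : 0 ≤ L) {v : E × ℝ → ℝ} {x z x0 : E} {t : ℝ} {a a' : ι → ι → ℝ}
    (hp1 : ContDiffAt ℝ 2 v (x, t)) (hp2 : ContDiffAt ℝ 2 v (x - z, t)) (hz : z ≠ 0)
    (hzδ : ‖z‖ ≤ δ) (ha : Ell lam a) (ha' : Ell lam a') (hb : ∀ i j, |a i j| ≤ Lam)
    (hκ : ∀ i j, |a i j - a' i j| ≤ K / r * ‖z‖)
    (hmax : ∀ᶠ q : E × E in 𝓝 (x, z), v (q.1, t) - v (q.1 - q.2, t)
      - L * (‖q.2‖ - ‖q.2‖ ^ 2 / (4 * δ)) - A * ‖q.1 - x0‖ ^ 2 ≤
      v (x, t) - v (x - z, t) - L * (‖z‖ - ‖z‖ ^ 2 / (4 * δ)) - A * ‖x - x0‖ ^ 2) :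
    ∑ i, ∑ j, a i j * fderiv ℝ (fderiv ℝ v) (x, t) (b i, 0) (b j, 0) -
      ∑ i, ∑ j, a' i j * fderiv ℝ (fderiv ℝ v) (x - z, t) (b i, 0) (b j, 0) ≤
      -(L * lam / (4 * δ)) + 2 * A * (Fintype.card ι * Lam) := by
  have hd : 0 < ‖z‖ := norm_pos_iff.2 hz
  have he1 : ‖‖z‖⁻¹ • z‖ = 1 := by rw [norm_smul, norm_inv, norm_norm, inv_mul_cancel₀ hd.ne']
  have hn3 : (Fintype.card ι : ℝ) ^ 2 ≤ (Fintype.card ι : ℝ) ^ 3 := by
    rcases Nat.eq_zero_or_pos (Fintype.card ι) with h | h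
    · simp [h]
    · exact pow_le_pow_right₀ (by exact_mod_cast h) (by norm_num)
  obtain ⟨μ, hμ⟩ : ∃ μ : ℝ, μ = ((Fintype.card ι : ℝ) * (K / r * ‖z‖)) ^ 2 / lam := ⟨_, rfl⟩
  have hμ1 : μ = (Fintype.card ι : ℝ) ^ 2 * K ^ 2 * ‖z‖ ^ 2 / (lam * r ^ 2) := by
    rw [hμ]; field_simp
  have hspace := trace_bound b (μ := μ) (κ := K / r * ‖z‖) (c1 := 2 * L / ‖z‖)
    (c2 := L / (2 * δ)) (c3 := 2 * A) hlam ha ha' hb hκ (by rw [hμ]; positivity)
    (by rw [hμ, mul_div_cancel₀ _ hlam.ne']) (by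
      rw [hμ1, div_le_iff₀ (by positivity)]
      have : (Fintype.card ι : ℝ) ^ 2 * K ^ 2 * ‖z‖ ^ 2 ≤
        (Fintype.card ι : ℝ) ^ 3 * K ^ 2 * δ ^ 2 := by gcongr
      nlinarith [sq_nonneg (lam * r)]) he1
    ((fderiv ℝ (fderiv ℝ v) (x, t)).bilinearComp (ContinuousLinearMap.inl ℝ E ℝ)
      (ContinuousLinearMap.inl ℝ E ℝ))
    ((fderiv ℝ (fderiv ℝ v) (x - z, t)).bilinearComp (ContinuousLinearMap.inl ℝ E ℝ)
      (ContinuousLinearMap.inl ℝ E ℝ)) (by positivity) (by positivity) (by positivity)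
    (fun ξ η => two_point_psi hδ hp1 hp2 hz hL0 hmax ξ η)
  simp only [ContinuousLinearMap.bilinearComp_apply, ContinuousLinearMap.inl_apply] at hspace
  have hn0 : 0 ≤ (Fintype.card ι : ℝ) := by positivity
  generalize (Fintype.card ι : ℝ) = n at *
  have h3 : 2 * L / ‖z‖ * (2 * n * μ) ≤ L * lam / (4 * δ) := by
    have e1 : 2 * L / ‖z‖ * (2 * n * μ) = L * (4 * n ^ 3 * K ^ 2 * ‖z‖ / (lam * r ^ 2)) := by
      rw [hμ1]; field_simp; ring
    rw [e1, mul_div_assoc L lam]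
    refine mul_le_mul_of_nonneg_left ?_ hL0
    rw [div_le_div_iff₀ (by positivity) (by positivity)]
    have : 4 * n ^ 3 * K ^ 2 * ‖z‖ * (4 * δ) ≤ 4 * n ^ 3 * K ^ 2 * δ * (4 * δ) := by gcongr
    nlinarith
  have h4 : L / (2 * δ) * lam = 2 * (L * lam / (4 * δ)) := by field_simp; ring
  linarith

variable [FiniteDimensional ℝ E]

theorem key_core (b : OrthonormalBasis ι ℝ E) {lam Lam K r δ A L M S : ℝ} (hlam : 0 < lam)
    (hδ : 0 < δ) (hδr : δ ≤ r / 2)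
    (hsm : 16 * (Fintype.card ι : ℝ) ^ 3 * K ^ 2 * δ ^ 2 ≤ lam ^ 2 * r ^ 2)
    (hA0 : 0 ≤ A) (hL0 : 0 ≤ L) (hA : 8 * M ≤ A * r ^ 2) (hL : 8 * M ≤ 3 * L * δ)
    (hL2 : A * (2 * Fintype.card ι * Lam + 1) + 2 * S < L * lam / (4 * δ))
    {v : E × ℝ → ℝ} {α : E × ℝ → ι → ι → ℝ} {p0 : E × ℝ}
    (hv : ∀ p ∈ cyl p0 r, ContDiffAt ℝ 2 v p) (hell : ∀ p ∈ cyl p0 r, Ell lam (α p))
    (hbd : ∀ p ∈ cyl p0 r, ∀ i j, |α p i j| ≤ Lam)
    (hlip : ∀ x y t, (x, t) ∈ cyl p0 r → (y, t) ∈ cyl p0 r → ∀ i j,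
      |α (x, t) i j - α (y, t) i j| ≤ K / r * ‖x - y‖)
    (hM : ∀ p ∈ cyl p0 r, |v p| ≤ M)
    (hS : ∀ p ∈ cyl p0 r, |fderiv ℝ v p (0, 1) -
      ∑ i, ∑ j, α p i j * fderiv ℝ (fderiv ℝ v) p (b i, 0) (b j, 0)| ≤ S)
    {y0 : E} (hy0 : ‖p0.1 - y0‖ ≤ δ) : v p0 - v (y0, p0.2) ≤ L * ‖p0.1 - y0‖ := by
  have hr : 0 < r := by linarith
  have : ProperSpace E := FiniteDimensional.proper ℝ E
  obtain ⟨x0, t0⟩ := p0
  set D : Set (E × E × ℝ) := closedBall x0 (r / 2) ×ˢ closedBall 0 δ ×ˢ Icc (t0 - r ^ 2) t0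
  have hD : IsCompact D :=
    (isCompact_closedBall _ _).prod ((isCompact_closedBall _ _).prod isCompact_Icc)
  have hmem : ∀ x z t, (x, z, t) ∈ D ↔
      ‖x - x0‖ ≤ r / 2 ∧ ‖z‖ ≤ δ ∧ t0 - r ^ 2 ≤ t ∧ t ≤ t0 := by
    intro x z t
    simp [D, dist_eq_norm]
  have hc1 : ∀ q ∈ D, (q.1, q.2.2) ∈ cyl (x0, t0) r := by
    rintro ⟨x, z, t⟩ hq
    rw [hmem] at hq
    exact mem_cyl.2 ⟨by linarith [hq.1], hq.2.2⟩
  have hc2 : ∀ q ∈ D, (q.1 - q.2.1, q.2.2) ∈ cyl (x0, t0) r := by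
    rintro ⟨x, z, t⟩ hq
    rw [hmem] at hq
    refine mem_cyl.2 ⟨?_, hq.2.2⟩
    have : x - z - x0 = (x - x0) - z := by abel
    simp only [this]
    linarith [norm_sub_le (x - x0) z, hq.1, hq.2.1]
  set Z : E × E × ℝ → ℝ := fun q => v (q.1, q.2.2) - v (q.1 - q.2.1, q.2.2)
    - L * (‖q.2.1‖ - ‖q.2.1‖ ^ 2 / (4 * δ)) - A * (‖q.1 - x0‖ ^ 2 + (t0 - q.2.2)) with hZ
  have hvc : ContinuousOn v (cyl (x0, t0) r) := fun p hp =>
    (hv p hp).continuousAt.continuousWithinAt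
  have hZc : ContinuousOn Z D := by
    refine ((ContinuousOn.sub (hvc.comp (by fun_prop) hc1) (hvc.comp (by fun_prop) hc2)).sub
      (by fun_prop)).sub (by fun_prop)
  have h0D : (x0, x0 - y0, t0) ∈ D :=
    (hmem _ _ _).2 ⟨by simp; linarith, hy0, by nlinarith [sq_nonneg r], le_rfl⟩
  obtain ⟨⟨x, z, t⟩, hq, hmax⟩ := hD.exists_isMaxOn ⟨_, h0D⟩ hZc
  suffices hle : Z (x, z, t) ≤ 0 by
    have h1 : Z (x0, x0 - y0, t0) ≤ 0 := le_trans (hmax h0D) hle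
    simp only [hZ, sub_sub_cancel, sub_self, norm_zero] at h1
    have : 0 ≤ L * (‖x0 - y0‖ ^ 2 / (4 * δ)) := by positivity
    nlinarith
  by_contra hpos
  push Not at hpos
  have hp1 := hc1 _ hq
  have hp2 := hc2 _ hq
  obtain ⟨q1, q2, q3, q4⟩ := (hmem _ _ _).1 hq
  simp only at hp1 hp2
  have hψ : 3 / 4 * ‖z‖ ≤ ‖z‖ - ‖z‖ ^ 2 / (4 * δ) := by
    have : ‖z‖ ^ 2 / (4 * δ) ≤ ‖z‖ / 4 := by
      rw [div_le_iff₀ (by positivity)]
      nlinarith [norm_nonneg z]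
    linarith
  have hosc : v (x, t) - v (x - z, t) ≤ 2 * M := by
    linarith [le_of_abs_le (hM _ hp1), neg_le_of_abs_le (hM _ hp2)]
  have hpos' : L * (‖z‖ - ‖z‖ ^ 2 / (4 * δ)) + A * (‖x - x0‖ ^ 2 + (t0 - t)) <
      v (x, t) - v (x - z, t) := by
    simp only [hZ] at hpos
    linarith
  have hA1 : 0 ≤ A * (‖x - x0‖ ^ 2 + (t0 - t)) :=
    mul_nonneg hA0 (by nlinarith [sq_nonneg ‖x - x0‖])
  have hL1 : L * (3 / 4 * ‖z‖) ≤ L * (‖z‖ - ‖z‖ ^ 2 / (4 * δ)) := by gcongr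
  have hL1' : 0 ≤ L * (3 / 4 * ‖z‖) := by positivity
  have hz : z ≠ 0 := by
    rintro rfl
    simp only [sub_zero, sub_self] at hpos'
    linarith
  have hzδ : ‖z‖ < δ := by
    by_contra hh
    have : L * (3 / 4 * δ) ≤ L * (3 / 4 * ‖z‖) := by gcongr; exact not_lt.1 hh
    linarith
  have hin : ‖x - x0‖ ^ 2 + (t0 - t) < (r / 2) ^ 2 := by
    by_contra hh
    have : A * (r / 2) ^ 2 ≤ A * (‖x - x0‖ ^ 2 + (t0 - t)) := by gcongr; exact not_lt.1 hh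
    linarith
  have hxr : ‖x - x0‖ < r / 2 := lt_of_pow_lt_pow_left₀ 2 (by linarith) (by linarith)
  have htr : t0 - r ^ 2 < t := by nlinarith [sq_nonneg ‖x - x0‖]
  have hd : 0 < ‖z‖ := norm_pos_iff.2 hz
  -- time direction
  have htime : 0 ≤ fderiv ℝ v (x, t) (0, 1) - fderiv ℝ v (x - z, t) (0, 1) + A := by
    have d1 := (line_deriv1 (hv _ hp1) (0, 1)).self_of_nhds
    have d2 := (line_deriv1 (hv _ hp2) (0, 1)).self_of_nhds
    have d3 := (d1.fun_sub d2).fun_add ((hasDerivAt_id (0 : ℝ)).const_mul A)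
    simp only [zero_smul, add_zero, mul_one] at d3
    refine left_max d3 ?_
    filter_upwards [Ioo_mem_nhdsLT (show t0 - r ^ 2 - t < 0 by linarith)] with s hs
    have : Z (x, z, t + s) ≤ Z (x, z, t) :=
      hmax ((hmem _ _ _).2 ⟨q1, q2, by linarith [hs.1], by linarith [hs.2]⟩)
    simp only [hZ] at this
    simp only [Prod.smul_mk, smul_zero, smul_eq_mul, mul_one, Prod.mk_add_mk, add_zero, id,
      mul_zero]
    linarith
  -- space directions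
  have hspace := space_trace b (x0 := x0) hlam hδ hr hsm hA0 hL0 (hv _ hp1) (hv _ hp2) hz q2
    (hell _ hp1) (hell _ hp2) (hbd _ hp1) (fun i j => by simpa using hlip x (x - z) t hp1 hp2 i j)
    (by
      have t1 : ∀ᶠ q : E × E in 𝓝 (x, z), ‖q.1 - x0‖ < r / 2 :=
        (show Continuous fun q : E × E => ‖q.1 - x0‖ by fun_prop).continuousAt.eventually
          (gt_mem_nhds hxr)
      have t2 : ∀ᶠ q : E × E in 𝓝 (x, z), ‖q.2‖ < δ :=
        (show Continuous fun q : E × E => ‖q.2‖ by fun_prop).continuousAt.eventually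
          (gt_mem_nhds hzδ)
      filter_upwards [t1, t2] with q s1 s2
      have h1 : Z (q.1, q.2, t) ≤ Z (x, z, t) := hmax ((hmem _ _ _).2 ⟨s1.le, s2.le, q3, q4⟩)
      simp only [hZ] at h1
      linarith)
  have h1 := le_of_abs_le (hS _ hp1)
  have h2 := neg_le_of_abs_le (hS _ hp2)
  linarith

/-- **Interior gradient estimate** for `v_t = a^{ij} v_{ij} + f`. -/
theorem key (b : OrthonormalBasis ι ℝ E) {lam : ℝ} (hlam : 0 < lam) (Lam K : ℝ) :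
    ∃ C : ℝ, 0 ≤ C ∧ ∀ (r M S : ℝ) (v : E × ℝ → ℝ) (α : E × ℝ → ι → ι → ℝ) (p0 : E × ℝ), 0 < r →
      (∀ p ∈ cyl p0 r, ContDiffAt ℝ 2 v p) → (∀ p ∈ cyl p0 r, Ell lam (α p)) →
      (∀ p ∈ cyl p0 r, ∀ i j, |α p i j| ≤ Lam) →
      (∀ x y t, (x, t) ∈ cyl p0 r → (y, t) ∈ cyl p0 r → ∀ i j,
        |α (x, t) i j - α (y, t) i j| ≤ K / r * ‖x - y‖) →
      (∀ p ∈ cyl p0 r, |v p| ≤ M) →
      (∀ p ∈ cyl p0 r, |fderiv ℝ v p (0, 1) -
        ∑ i, ∑ j, α p i j * fderiv ℝ (fderiv ℝ v) p (b i, 0) (b j, 0)| ≤ S) →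
      ∀ ξ : E, |fderiv ℝ v p0 (ξ, 0)| ≤ C * (M / r + r * S) * ‖ξ‖ := by
  set n : ℝ := (Fintype.card ι : ℝ) with hn
  have hn0 : 0 ≤ n := by positivity
  obtain ⟨θ, hθ0, hθ1, hθ2⟩ : ∃ θ : ℝ, 0 < θ ∧ θ ≤ 1 / 2 ∧
      16 * n ^ 3 * K ^ 2 * θ ^ 2 ≤ lam ^ 2 := by
    have h1 : Tendsto (fun θ : ℝ => 16 * n ^ 3 * K ^ 2 * θ ^ 2) (𝓝[>] 0) (𝓝 0) := by
      have : Continuous fun θ : ℝ => 16 * n ^ 3 * K ^ 2 * θ ^ 2 := by fun_prop
      simpa using (this.tendsto 0).mono_left nhdsWithin_le_nhds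
    obtain ⟨θ, h2, h3⟩ := ((h1.eventually (ge_mem_nhds (show 0 < lam ^ 2 by positivity))).and
      (Ioc_mem_nhdsGT (show (0 : ℝ) < 1 / 2 by norm_num))).exists
    exact ⟨θ, h3.1, h3.2, h2⟩
  set N : ℝ := 2 * n * |Lam| + 1 with hN
  have hN0 : 0 ≤ N := by positivity
  refine ⟨8 / (3 * θ) + 32 * θ * N / lam + 8 * θ / lam, by positivity, ?_⟩
  intro r M S v α p0 hr hv hell hbd hlip hM hS
  have hp0 := self_mem_cyl p0 hr.le
  have hM0 : 0 ≤ M := (abs_nonneg _).trans (hM _ hp0)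
  have hS0 : 0 ≤ S := (abs_nonneg _).trans (hS _ hp0)
  set L0 := (8 / (3 * θ) + 32 * θ * N / lam + 8 * θ / lam) * (M / r + r * S) with hL0
  have hL00 : 0 ≤ L0 := by positivity
  have main : ∀ ε > 0, ∀ y0, ‖p0.1 - y0‖ ≤ θ * r →
      v p0 - v (y0, p0.2) ≤ (L0 + ε) * ‖p0.1 - y0‖ := by
    intro ε hε y0 hy0
    refine key_core b (Lam := |Lam|) (A := 8 * M / r ^ 2) hlam (by positivity) (by nlinarith) ?_
      (by positivity) (by positivity) (le_of_eq (by field_simp)) ?_ ?_ hv hell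
      (fun p hp i j => (hbd p hp i j).trans (le_abs_self _)) hlip hM hS hy0
    · rw [mul_pow, ← mul_assoc]
      gcongr
    · have : 8 / (3 * θ) * (M / r) ≤ L0 := by
        rw [hL0]
        gcongr
        · rw [add_assoc]; exact le_add_of_nonneg_right (by positivity)
        · exact le_add_of_nonneg_right (by positivity)
      calc 8 * M = 3 * (8 / (3 * θ) * (M / r)) * (θ * r) := by field_simp
        _ ≤ 3 * (L0 + ε) * (θ * r) := by gcongr; linarith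
    · have h1 : 32 * θ * N / lam * (M / r) + 8 * θ / lam * (r * S) ≤ L0 := by
        rw [hL0]
        have a1 : 0 ≤ 8 / (3 * θ) * (M / r + r * S) := by positivity
        have a2 : 0 ≤ 32 * θ * N / lam * (r * S) := by positivity
        have a3 : 0 ≤ 8 * θ / lam * (M / r) := by positivity
        linarith
      rw [← hn, ← hN, lt_div_iff₀ (by positivity)]
      calc (8 * M / r ^ 2 * N + 2 * S) * (4 * (θ * r))
          = (32 * θ * N / lam * (M / r) + 8 * θ / lam * (r * S)) * lam := by field_simp; ring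
        _ < (L0 + ε) * lam := mul_lt_mul_of_pos_right (by linarith) hlam
  have one : ∀ ξ : E, fderiv ℝ v p0 (ξ, 0) ≤ L0 * ‖ξ‖ := by
    intro ξ
    refine le_of_forall_pos_le_add fun ε hε => ?_
    have d1 := (line_deriv1 (hv _ hp0) (ξ, 0)).self_of_nhds
    have d2 := d1.fun_neg.fun_add
      ((hasDerivAt_id (0 : ℝ)).const_mul ((L0 + ε / (‖ξ‖ + 1)) * ‖ξ‖))
    have t1 : ∀ᶠ s in 𝓝 (0 : ℝ), ‖s • ξ‖ < θ * r := by
      have : Continuous fun s : ℝ => ‖s • ξ‖ := by fun_prop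
      exact (this.tendsto 0).eventually (gt_mem_nhds (by simpa using by positivity))
    have := left_max d2 (by
      filter_upwards [nhdsWithin_le_nhds t1, self_mem_nhdsWithin] with s s1 s2
      have h1 := main (ε / (‖ξ‖ + 1)) (by positivity) (p0.1 + s • ξ) (by simpa using s1.le)
      have h2 : p0 + s • (ξ, (0 : ℝ)) = (p0.1 + s • ξ, p0.2) := by
        ext <;> simp
      have h3 : ‖s • ξ‖ = -s * ‖ξ‖ := by
        rw [norm_smul, Real.norm_eq_abs, abs_of_neg s2]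
      rw [sub_add_cancel_left, norm_neg, h3] at h1
      simp only [h2, zero_smul, add_zero, id, mul_zero]
      linarith)
    simp only [zero_smul, add_zero, mul_one] at this
    have h4 : ε / (‖ξ‖ + 1) * ‖ξ‖ ≤ ε := by
      rw [div_mul_eq_mul_div, div_le_iff₀ (by positivity)]
      nlinarith
    linarith
  intro ξ
  refine abs_le.2 ⟨?_, one ξ⟩
  have := one (-ξ)
  have h2 : ((-ξ, 0) : E × ℝ) = -(ξ, 0) := by simp
  rw [h2, map_neg, norm_neg] at this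
  linarith

end Vale.Agent.P218F.GI
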