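import Vale.Agent.P218F.GI1
import Mathlib.Analysis.Calculus.ContDiff.Bounds
import Mathlib.Analysis.Normed.Module.HahnBanach
import Mathlib.Analysis.Calculus.TangentCone.Prod
import Mathlib.Analysis.Calculus.TangentCone.Real

/-!
# Interior estimates of all derivatives for quasilinear parabolic systems (helper69)

`keySys`: gradient bound for vector valued `W` with `|W_t - a^{ij} W_{ij}| ≤ C (1 + |∇W|)`.
`sys1`: `V_t = a^{ij}(V) V_{ij} + G(V, ∇V)`, `V` and `∇V` bounded: all derivatives are bounded.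
`sys2`: `V_t = a^{ij}(V, ∇V) V_{ij} + G(V, ∇V)`, `V`, `∇V`, `∇²V` bounded: the same.
-/

open Set Filter Topology Metric
open scoped RealInnerProductSpace ContDiff

noncomputable section

namespace Vale.Agent.P218F.GI

section pd
variable {P F F' : Type*} [NormedAddCommGroup P] [NormedSpace ℝ P] [NormedAddCommGroup F]
  [NormedSpace ℝ F] [NormedAddCommGroup F'] [NormedSpace ℝ F']

/-- the derivative in the direction `ζ` -/
def pd (ζ : P) (f : P → F) : P → F := fun p => fderiv ℝ f p ζ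

theorem contDiffAt_pd {f : P → F} {p : P} {m n : WithTop ℕ∞} (h : ContDiffAt ℝ n f p)
    (hmn : m + 1 ≤ n) (ζ : P) : ContDiffAt ℝ m (pd ζ f) p :=
  (h.fderiv_right hmn).clm_apply contDiffAt_const

theorem contDiffAt_pd_top {f : P → F} {p : P} (h : ContDiffAt ℝ ∞ f p) (ζ : P) :
    ContDiffAt ℝ ∞ (pd ζ f) p := contDiffAt_pd h (by simp) ζ

theorem two_le_top : (2 : WithTop ℕ∞) ≤ ∞ := WithTop.coe_le_coe.2 (le_top (a := (2 : ℕ∞)))

theorem three_le_top : (3 : WithTop ℕ∞) ≤ ∞ := WithTop.coe_le_coe.2 (le_top (a := (3 : ℕ∞)))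

theorem pd_congr {f g : P → F} {p : P} (h : f =ᶠ[𝓝 p] g) (ζ : P) : pd ζ f p = pd ζ g p := by
  simp only [pd, h.fderiv_eq]

theorem pd_pd {f : P → F} {p : P} (h : ContDiffAt ℝ 2 f p) (ζ η : P) :
    pd ζ (pd η f) p = fderiv ℝ (fderiv ℝ f) p ζ η := by
  have h1 : DifferentiableAt ℝ (fderiv ℝ f) p :=
    (h.fderiv_right (m := 1) (by norm_num)).differentiableAt (by simp)
  change fderiv ℝ (fun q => fderiv ℝ f q η) p ζ = _
  rw [fderiv_clm_apply h1 (differentiableAt_const η)]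
  simp

theorem pd_comm {f : P → F} {p : P} (h : ContDiffAt ℝ 2 f p) (ζ η : P) :
    pd ζ (pd η f) p = pd η (pd ζ f) p := by
  rw [pd_pd h, pd_pd h]
  exact h.isSymmSndFDerivAt (by simp) ζ η

theorem pd_comm3 {f : P → F} {p : P} (h : ContDiffAt ℝ 3 f p) (ζ η θ : P) :
    pd ζ (pd η (pd θ f)) p = pd η (pd θ (pd ζ f)) p := by
  rw [pd_comm (contDiffAt_pd h (by norm_num) θ)]
  refine pd_congr ?_ η
  filter_upwards [(h.of_le (show (2 : WithTop ℕ∞) ≤ 3 by norm_num)).eventually (by simp)] with q hq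
  exact pd_comm hq ζ θ

theorem pd_clm (l : F →L[ℝ] F') {f : P → F} {p : P} (h : DifferentiableAt ℝ f p) (ζ : P) :
    pd ζ (fun q => l (f q)) p = l (pd ζ f p) := by
  exact DFunLike.congr_fun (l.hasFDerivAt.comp p h.hasFDerivAt).fderiv ζ

theorem pd_pd_clm (l : F →L[ℝ] F') {f : P → F} {p : P} (h : ContDiffAt ℝ 2 f p) (ζ η : P) :
    pd ζ (pd η fun q => l (f q)) p = l (pd ζ (pd η f) p) := by
  rw [← pd_clm l ((contDiffAt_pd h (m := 1) (by norm_num) η).differentiableAt (by simp))]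
  refine pd_congr ?_ ζ
  filter_upwards [h.eventually (by simp)] with q hq
  exact pd_clm l (hq.differentiableAt (by simp)) η

theorem pd_comp {g : F → F'} {f : P → F} {p : P} (hg : DifferentiableAt ℝ g (f p))
    (h : DifferentiableAt ℝ f p) (ζ : P) :
    pd ζ (fun q => g (f q)) p = fderiv ℝ g (f p) (pd ζ f p) := by
  exact DFunLike.congr_fun (hg.hasFDerivAt.comp p h.hasFDerivAt).fderiv ζ

/-- the family of derivatives in the directions `d k` -/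
def pr {κ : Type*} (d : κ → P) (f : P → F) (p : P) : κ → F := fun k => pd (d k) f p

theorem contDiffAt_pr {κ : Type*} [Fintype κ] (d : κ → P) {f : P → F} {p : P}
    (h : ContDiffAt ℝ ∞ f p) : ContDiffAt ℝ ∞ (pr d f) p :=
  contDiffAt_pi.2 fun k => contDiffAt_pd_top h (d k)

end pd

variable {ι : Type*} [Fintype ι] {E : Type*} [NormedAddCommGroup E] [InnerProductSpace ℝ E]
  {F : Type*} [NormedAddCommGroup F] [NormedSpace ℝ F]

/-- the spatial gradient in the basis `b` -/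
def gr (b : ι → E) (V : E × ℝ → F) : E × ℝ → ι → F := pr (fun i => (b i, 0)) V

/-- the operator `a^{ij} ∂_i ∂_j` -/
def op (b : ι → E) (a : ι → ι → ℝ) (V : E × ℝ → F) (p : E × ℝ) : F :=
  ∑ i, ∑ j, a i j • pd (b i, 0) (pd (b j, 0) V) p

theorem uniqueDiffOn_cyl (p : E × ℝ) {r : ℝ} (hr : 0 < r) : UniqueDiffOn ℝ (cyl p r) := by
  refine UniqueDiffOn.prod ?_ (uniqueDiffOn_Icc (by nlinarith [sq_pos_of_pos hr]))
  refine uniqueDiffOn_convex (convex_closedBall _ _) ⟨p.1, ?_⟩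
  exact mem_interior_iff_mem_nhds.2 (closedBall_mem_nhds _ hr)

theorem pd_congr_cyl {f g : E × ℝ → F} {p0 p : E × ℝ} {r : ℝ} (hr : 0 < r) (hp : p ∈ cyl p0 r)
    (hf : DifferentiableAt ℝ f p) (hg : DifferentiableAt ℝ g p) (h : ∀ q ∈ cyl p0 r, f q = g q)
    (ζ : E × ℝ) : pd ζ f p = pd ζ g p := by
  have hu := uniqueDiffOn_cyl p0 hr p hp
  simp only [pd]
  rw [← hf.fderivWithin hu, ← hg.fderivWithin hu, fderivWithin_congr h (h p hp)]

variable [FiniteDimensional ℝ E]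

/-- vector valued form of `key` -/
theorem keyVec (b : OrthonormalBasis ι ℝ E) {lam : ℝ} (hlam : 0 < lam) (Lam K : ℝ) :
    ∃ C : ℝ, 0 ≤ C ∧ ∀ (r M S : ℝ) (W : E × ℝ → F) (α : E × ℝ → ι → ι → ℝ) (p0 : E × ℝ), 0 < r →
      (∀ p ∈ cyl p0 r, ContDiffAt ℝ 2 W p) → (∀ p ∈ cyl p0 r, Ell lam (α p)) →
      (∀ p ∈ cyl p0 r, ∀ i j, |α p i j| ≤ Lam) →
      (∀ x y t, (x, t) ∈ cyl p0 r → (y, t) ∈ cyl p0 r → ∀ i j,
        |α (x, t) i j - α (y, t) i j| ≤ K / r * ‖x - y‖) →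
      (∀ p ∈ cyl p0 r, ‖W p‖ ≤ M) →
      (∀ p ∈ cyl p0 r, ‖pd (0, 1) W p - op b (α p) W p‖ ≤ S) →
      ‖gr b W p0‖ ≤ C * (M / r + r * S) := by
  obtain ⟨C1, hC1, hkey⟩ := key b hlam Lam K
  refine ⟨C1, hC1, fun r M S W α p0 hr hW hell hbd hlip hM hS => ?_⟩
  have hp0 := self_mem_cyl p0 hr.le
  have hM0 : 0 ≤ M := (norm_nonneg _).trans (hM _ hp0)
  have hS0 : 0 ≤ S := (norm_nonneg _).trans (hS _ hp0)
  refine (pi_norm_le_iff_of_nonneg (by positivity)).2 fun i => ?_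
  obtain ⟨l, hl1, hl2⟩ := exists_dual_vector'' ℝ (gr b W p0 i)
  have hl : ∀ y, |l y| ≤ ‖y‖ := fun y =>
    (l.le_opNorm y).trans (mul_le_of_le_one_left (norm_nonneg _) hl1)
  have hv : ∀ p ∈ cyl p0 r, ContDiffAt ℝ 2 (fun q => l (W q)) p := fun p hp =>
    l.contDiff.contDiffAt.comp p (hW p hp)
  have := hkey r M S (fun q => l (W q)) α p0 hr hv hell hbd hlip
    (fun p hp => (hl _).trans (hM p hp))
    (fun p hp => by
      have e1 : fderiv ℝ (fun q => l (W q)) p (0, 1) - ∑ i, ∑ j, α p i j *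
          fderiv ℝ (fderiv ℝ fun q => l (W q)) p (b i, 0) (b j, 0) =
          l (pd (0, 1) W p - op b (α p) W p) := by
        simp only [op, map_sub, map_sum, map_smul, smul_eq_mul]
        rw [← pd_clm l ((hW p hp).differentiableAt (by simp))]
        simp only [← pd_pd_clm l (hW p hp), ← pd_pd (hv p hp)]
        rfl
      rw [e1]
      exact (hl _).trans (hS p hp)) (b i)
  rw [b.orthonormal.1 i, mul_one] at this
  have e2 : fderiv ℝ (fun q => l (W q)) p0 (b i, 0) = ‖gr b W p0 i‖ :=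
    (pd_clm l ((hW p0 hp0).differentiableAt (by simp)) _).trans hl2
  rw [e2] at this
  exact (le_abs_self _).trans this

omit [InnerProductSpace ℝ E] [FiniteDimensional ℝ E] in
/-- the parabolic distance to the boundary of a cylinder, as a weight -/
theorem exists_weight (p0 : E × ℝ) {r : ℝ} (hr : 0 < r) : ∃ d : E × ℝ → ℝ, Continuous d ∧
    d p0 = r ∧ ∀ p1 ∈ cyl p0 r, d p1 ≤ r ∧ ∀ ρ, 0 ≤ ρ → ρ ≤ d p1 / 2 → ∀ p ∈ cyl p1 ρ,
      p ∈ cyl p0 r ∧ d p1 / 2 ≤ d p := by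
  refine ⟨fun p => min (r - ‖p.1 - p0.1‖) (Real.sqrt (p.2 - (p0.2 - r ^ 2))), by fun_prop,
    by simp [hr.le], fun p1 hp1 => ?_⟩
  obtain ⟨m1, m2, m3⟩ := mem_cyl.1 hp1
  obtain ⟨d1, hd1⟩ : ∃ d1, d1 = min (r - ‖p1.1 - p0.1‖) (Real.sqrt (p1.2 - (p0.2 - r ^ 2))) :=
    ⟨_, rfl⟩
  simp only [← hd1]
  have a1 : d1 ≤ r - ‖p1.1 - p0.1‖ := hd1 ▸ min_le_left _ _
  refine ⟨by linarith [norm_nonneg (p1.1 - p0.1)], fun ρ h0 hρ p hp => ?_⟩
  have a2 : d1 ^ 2 ≤ p1.2 - (p0.2 - r ^ 2) :=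
    (Real.le_sqrt (by linarith) (by linarith)).1 (hd1 ▸ min_le_right _ _)
  obtain ⟨n1, n2, n3⟩ := mem_cyl.1 hp
  have b1 : ‖p.1 - p0.1‖ ≤ ‖p.1 - p1.1‖ + ‖p1.1 - p0.1‖ := norm_sub_le_norm_sub_add_norm_sub _ _ _
  have b2 : ρ ^ 2 ≤ (d1 / 2) ^ 2 := by gcongr
  refine ⟨mem_cyl.2 ⟨by linarith, by nlinarith, by linarith⟩, le_min (by linarith) ?_⟩
  exact Real.le_sqrt_of_sq_le (by nlinarith)

theorem keySys (b : OrthonormalBasis ι ℝ E) {lam : ℝ} (hlam : 0 < lam) (Lam Kl C0 M : ℝ) {r : ℝ}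
    (hr : 0 < r) : ∃ C : ℝ, ∀ (W : E × ℝ → F) (α : E × ℝ → ι → ι → ℝ) (p0 : E × ℝ),
      (∀ p ∈ cyl p0 r, ContDiffAt ℝ 2 W p) → (∀ p ∈ cyl p0 r, Ell lam (α p)) →
      (∀ p ∈ cyl p0 r, ∀ i j, |α p i j| ≤ Lam) →
      (∀ x y t, (x, t) ∈ cyl p0 r → (y, t) ∈ cyl p0 r → ∀ i j,
        |α (x, t) i j - α (y, t) i j| ≤ Kl * ‖x - y‖) →
      (∀ p ∈ cyl p0 r, ‖W p‖ ≤ M) →
      (∀ p ∈ cyl p0 r, ‖pd (0, 1) W p - op b (α p) W p‖ ≤ C0 * (1 + ‖gr b W p‖)) →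
      ‖gr b W p0‖ ≤ C := by
  have : ProperSpace E := FiniteDimensional.proper ℝ E
  obtain ⟨C1, hC1, hkey⟩ := keyVec (F := F) b hlam Lam (|Kl| * r)
  obtain ⟨θ, hθ0, hθ1, hθ2⟩ : ∃ θ : ℝ, 0 < θ ∧ θ ≤ 1 / 2 ∧
      θ * (4 * (C1 * |C0| * r) + 1) ≤ 1 :=
    ⟨min (1 / 2) (1 / (4 * (C1 * |C0| * r) + 1)), by positivity, min_le_left _ _, by
      rw [← le_div_iff₀ (by positivity)]; exact min_le_right _ _⟩
  refine ⟨2 * (C1 * |M| / θ + C1 * |C0| * r ^ 2) / r, ?_⟩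
  intro W α p0 hW hell hbd hlip hM hS
  obtain ⟨d, hdc, hd0, hd⟩ := exists_weight p0 hr
  have hgc : ContinuousOn (gr b W) (cyl p0 r) := fun p hp =>
    (continuousAt_pi.2 fun i =>
      (contDiffAt_pd (m := 0) (hW p hp) (by norm_num) _).continuousAt).continuousWithinAt
  obtain ⟨p1, hp1, hmax⟩ := (isCompact_cyl p0 r).exists_isMaxOn ⟨_, self_mem_cyl p0 hr.le⟩
    (f := fun p => d p * ‖gr b W p‖) (hdc.continuousOn.mul hgc.norm)
  have hmax' : ∀ p ∈ cyl p0 r, d p * ‖gr b W p‖ ≤ d p1 * ‖gr b W p1‖ := fun p hp => hmax hp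
  have h0 := hmax' _ (self_mem_cyl p0 hr.le)
  rw [hd0] at h0
  rw [le_div_iff₀ hr, mul_comm]
  refine h0.trans ?_
  rcases le_or_gt (d p1) 0 with hneg | hpos
  · exact (mul_nonpos_of_nonpos_of_nonneg hneg (norm_nonneg _)).trans (by positivity)
  obtain ⟨a3, hsub⟩ := hd p1 hp1
  generalize d p1 = d1 at *
  obtain ⟨N, hN⟩ : ∃ N, N = d1 * ‖gr b W p1‖ := ⟨_, rfl⟩
  rw [← hN] at hmax' ⊢
  have hN0 : 0 ≤ N := by rw [hN]; positivity
  have hρ : 0 < θ * d1 := by positivity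
  have hρ1 : θ * d1 ≤ d1 / 2 := by nlinarith
  replace hsub := hsub _ hρ.le hρ1
  have hgb : ∀ p ∈ cyl p1 (θ * d1), ‖gr b W p‖ ≤ 2 * N / d1 := by
    intro p hp
    have h1 := hmax' p (hsub p hp).1
    rw [le_div_iff₀ hpos]
    nlinarith [(hsub p hp).2, norm_nonneg (gr b W p)]
  have hfin := hkey (θ * d1) |M| (|C0| * (1 + 2 * N / d1)) W α p1 hρ
      (fun p hp => hW p (hsub p hp).1)
      (fun p hp => hell p (hsub p hp).1) (fun p hp => hbd p (hsub p hp).1)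
      (fun x y t hx hy i j => (hlip x y t (hsub _ hx).1 (hsub _ hy).1 i j).trans (by
        gcongr
        rw [le_div_iff₀ hρ]
        calc Kl * (θ * d1) ≤ |Kl| * (θ * d1) := by gcongr; exact le_abs_self _
          _ ≤ |Kl| * r := by gcongr; linarith))
      (fun p hp => (hM p (hsub p hp).1).trans (le_abs_self _))
      (fun p hp => by
        refine (hS p (hsub p hp).1).trans ?_
        calc C0 * (1 + ‖gr b W p‖) ≤ |C0| * (1 + ‖gr b W p‖) := by gcongr; exact le_abs_self _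
          _ ≤ _ := by gcongr; exact hgb p hp)
  have e3 : d1 * (C1 * (|M| / (θ * d1) + θ * d1 * (|C0| * (1 + 2 * N / d1)))) =
      C1 * |M| / θ + C1 * |C0| * (θ * d1 ^ 2) + 2 * (θ * (C1 * |C0| * d1)) * N := by
    field_simp
    ring
  have e4 : N ≤ C1 * |M| / θ + C1 * |C0| * (θ * d1 ^ 2) + 2 * (θ * (C1 * |C0| * d1)) * N := by
    rw [← e3]
    exact hN.le.trans (mul_le_mul_of_nonneg_left hfin hpos.le)
  have e5 : θ * (C1 * |C0| * d1) ≤ 1 / 4 := by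
    have : θ * (C1 * |C0| * d1) ≤ θ * (C1 * |C0| * r) := by gcongr
    linarith
  have e6 : C1 * |C0| * (θ * d1 ^ 2) ≤ C1 * |C0| * r ^ 2 := by
    gcongr
    have : d1 ^ 2 ≤ r ^ 2 := by gcongr
    nlinarith
  have e7 : 2 * (θ * (C1 * |C0| * d1)) * N ≤ 2 * (1 / 4) * N := by gcongr
  linarith

end Vale.Agent.P218F.GI
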