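import Vale.Agent.P218F.GI2

/-!
# Interior estimates of all derivatives for quasilinear parabolic systems (helper69)

`sys1`: `V_t = a^{ij}(V) V_{ij} + G(V, ∇V)`, `V` and `∇V` bounded: all derivatives are bounded.
`sys2`: `V_t = a^{ij}(V, ∇V) V_{ij} + G(V, ∇V)`, `V`, `∇V`, `∇²V` bounded: the same.
Proof: prolongation `W = (V, DV)` and `keySys`.
-/

open Set Filter Topology Metric
open scoped RealInnerProductSpace ContDiff

noncomputable section

namespace Vale.Agent.P218F.GI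

section pd
variable {P F F' : Type*} [NormedAddCommGroup P] [NormedSpace ℝ P] [NormedAddCommGroup F]
  [NormedSpace ℝ F] [NormedAddCommGroup F'] [NormedSpace ℝ F']

theorem pd_add {f g : P → F} {p : P} (hf : DifferentiableAt ℝ f p) (hg : DifferentiableAt ℝ g p)
    (ζ : P) : pd ζ (fun q => f q + g q) p = pd ζ f p + pd ζ g p := by
  simp only [pd]
  rw [fderiv_fun_add hf hg]
  rfl

theorem pd_smul {c : P → ℝ} {f : P → F} {p : P} (hc : DifferentiableAt ℝ c p)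
    (hf : DifferentiableAt ℝ f p) (ζ : P) :
    pd ζ (fun q => c q • f q) p = c p • pd ζ f p + pd ζ c p • f p := by
  simp only [pd]
  rw [fderiv_fun_smul hc hf]
  rfl

theorem pd_sum {κ : Type*} [Fintype κ] {f : κ → P → F} {p : P}
    (hf : ∀ k, DifferentiableAt ℝ (f k) p) (ζ : P) :
    pd ζ (fun q => ∑ k, f k q) p = ∑ k, pd ζ (f k) p := by
  simp only [pd]
  rw [fderiv_fun_sum fun k _ => hf k]
  simp

theorem pd_prod {f : P → F} {g : P → F'} {p : P} (hf : DifferentiableAt ℝ f p)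
    (hg : DifferentiableAt ℝ g p) (ζ : P) :
    pd ζ (fun q => (f q, g q)) p = (pd ζ f p, pd ζ g p) := by
  simp only [pd]
  rw [hf.fderiv_prodMk hg]
  rfl

theorem pd_pi {κ : Type*} [Fintype κ] {f : P → κ → F} {p : P} (hf : DifferentiableAt ℝ f p)
    (ζ : P) (k : κ) : pd ζ f p k = pd ζ (fun q => f q k) p :=
  (pd_clm (ContinuousLinearMap.proj k : (κ → F) →L[ℝ] F) hf ζ).symm

end pd

variable {ι : Type*} [Fintype ι] {E : Type*} [NormedAddCommGroup E] [InnerProductSpace ℝ E]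
  {F : Type*} [NormedAddCommGroup F] [NormedSpace ℝ F] {κ : Type*} [Fintype κ]

/-- the quasilinear system `V_t = a^{ij}(V, ∇V) V_{ij} + G(V, ∇V)` at the point `p` -/
def Eqn (b : ι → E) (a : F × (ι → F) → ι → ι → ℝ) (G : F × (ι → F) → F) (V : E × ℝ → F)
    (p : E × ℝ) : Prop :=
  pd (0, 1) V p = op b (a (V p, gr b V p)) V p + G (V p, gr b V p)

/-- the prolonged unknown -/
def prV (d : κ → E × ℝ) (V : E × ℝ → F) (p : E × ℝ) : F × (κ → F) := (V p, pr d V p)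

/-- value and spatial gradient, read off from the prolonged unknown -/
def low (j : ι → κ) (w : F × (κ → F)) : F × (ι → F) := (w.1, fun i => w.2 (j i))

/-- the lower order term of the prolonged system -/
def prG (a : F × (ι → F) → ι → ι → ℝ) (G : F × (ι → F) → F) (j : ι → κ)
    (z : (F × (κ → F)) × (ι → F × (κ → F))) : F × (κ → F) :=
  (G (low j z.1), fun k =>
    ∑ i, ∑ i', fderiv ℝ a (low j z.1) (z.1.2 k, fun l => (z.2 l).2 k) i i' • (z.2 i).2 (j i') +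
      fderiv ℝ G (low j z.1) (z.1.2 k, fun l => (z.2 l).2 k))

omit [Fintype ι] [Fintype κ] in
theorem low_prV {b : ι → E} {d : κ → E × ℝ} {j : ι → κ} (hj : ∀ i, d (j i) = (b i, 0))
    (V : E × ℝ → F) (p : E × ℝ) : low j (prV d V p) = (V p, gr b V p) := by
  simp only [low, prV, pr, hj]
  rfl

theorem contDiffAt_prV (d : κ → E × ℝ) {V : E × ℝ → F} {p : E × ℝ} (h : ContDiffAt ℝ ∞ V p) :
    ContDiffAt ℝ ∞ (prV d V) p := h.prodMk (contDiffAt_pr d h)

theorem contDiffAt_gr (b : ι → E) {V : E × ℝ → F} {p : E × ℝ} (h : ContDiffAt ℝ ∞ V p) :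
    ContDiffAt ℝ ∞ (gr b V) p := contDiffAt_pr _ h

omit [Fintype ι] in
theorem gr_prV (b : ι → E) (d : κ → E × ℝ) {V : E × ℝ → F} {p : E × ℝ} (h : ContDiffAt ℝ ∞ V p)
    (l : ι) : gr b (prV d V) p l = (pd (b l, 0) V p, fun k => pd (b l, 0) (pd (d k) V) p) := by
  change pd (b l, 0) (fun q => (V q, pr d V q)) p = _
  rw [pd_prod (h.differentiableAt (by simp)) ((contDiffAt_pr d h).differentiableAt (by simp))]
  congr 1
  ext k
  exact pd_pi ((contDiffAt_pr d h).differentiableAt (by simp)) _ k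

theorem op_clm {F' : Type*} [NormedAddCommGroup F'] [NormedSpace ℝ F'] (l : F →L[ℝ] F')
    (b : ι → E) (α : ι → ι → ℝ) {V : E × ℝ → F} {p : E × ℝ} (h : ContDiffAt ℝ 2 V p) :
    op b α (fun q => l (V q)) p = l (op b α V p) := by
  simp only [op, map_sum, map_smul, pd_pd_clm l h]

theorem eqn_prV {b : ι → E} {d : κ → E × ℝ} {j : ι → κ} (hj : ∀ i, d (j i) = (b i, 0))
    {a : F × (ι → F) → ι → ι → ℝ} {G : F × (ι → F) → F} {V : E × ℝ → F} {p0 : E × ℝ} {r : ℝ}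
    (hr : 0 < r) (hV : ∀ p ∈ cyl p0 r, ContDiffAt ℝ ∞ V p)
    (ha : ∀ p ∈ cyl p0 r, DifferentiableAt ℝ a (V p, gr b V p))
    (hG : ∀ p ∈ cyl p0 r, DifferentiableAt ℝ G (V p, gr b V p))
    (hE : ∀ p ∈ cyl p0 r, Eqn b a G V p) {p : E × ℝ} (hp : p ∈ cyl p0 r) :
    Eqn b (fun z => a (low j z.1)) (prG a G j) (prV d V) p := by
  have h := hV p hp
  have hW := contDiffAt_prV d h
  have hWd := hW.differentiableAt (by simp)
  have hy : DifferentiableAt ℝ (fun q => (V q, gr b V q)) p :=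
    (h.prodMk (contDiffAt_gr b h)).differentiableAt (by simp)
  simp only [Eqn, low_prV hj]
  refine Prod.ext ?_ (funext fun k => ?_)
  · have e1 := pd_clm (ContinuousLinearMap.fst ℝ F (κ → F)) hWd (0, 1)
    have e2 := op_clm (ContinuousLinearMap.fst ℝ F (κ → F)) b (a (V p, gr b V p))
      (hW.of_le two_le_top)
    simp only [ContinuousLinearMap.coe_fst'] at e1 e2
    simp only [Prod.fst_add, prG, low_prV hj, ← e1, ← e2]
    exact hE p hp
  · obtain ⟨l, hl⟩ : ∃ l : (F × (κ → F)) →L[ℝ] F, ∀ x, l x = x.2 k :=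
      ⟨(ContinuousLinearMap.proj k).comp (ContinuousLinearMap.snd ℝ F (κ → F)), fun _ => rfl⟩
    have hfun : (fun q => l (prV d V q)) = pd (d k) V := funext fun q => hl _
    have e1 := pd_clm l hWd (0, 1)
    have e2 := op_clm l b (a (V p, gr b V p)) (hW.of_le two_le_top)
    rw [hfun, hl] at e1 e2
    have hu : ∀ i i', DifferentiableAt ℝ (pd (b i, 0) (pd (b i', 0) V)) p := fun i i' =>
      (contDiffAt_pd_top (contDiffAt_pd_top h _) _).differentiableAt (by simp)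
    have hα : DifferentiableAt ℝ (fun q => a (V q, gr b V q)) p := (ha p hp).comp p hy
    have hα' : ∀ i i', DifferentiableAt ℝ (fun q => a (V q, gr b V q) i i') p := fun i i' =>
      differentiableAt_pi.1 (differentiableAt_pi.1 hα i) i'
    have hg : DifferentiableAt ℝ (fun q => G (V q, gr b V q)) p := (hG p hp).comp p hy
    have hop : DifferentiableAt ℝ (fun q => op b (a (V q, gr b V q)) V q) p :=
      DifferentiableAt.fun_sum fun i _ => DifferentiableAt.fun_sum fun i' _ =>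
        (hα' i i').fun_smul (hu i i')
    have e3 : pd (d k) (fun q => (V q, gr b V q)) p =
        (pd (d k) V p, fun l => pd (b l, 0) (pd (d k) V) p) := by
      rw [pd_prod (h.differentiableAt (by simp)) ((contDiffAt_gr b h).differentiableAt (by simp))]
      congr 1
      ext l
      rw [pd_pi ((contDiffAt_gr b h).differentiableAt (by simp)), pd_comm (h.of_le two_le_top)]
      rfl
    have e4 : ∀ i i', pd (d k) (fun q => a (V q, gr b V q) i i') p =
        fderiv ℝ a (V p, gr b V p) (pd (d k) V p, fun l => pd (b l, 0) (pd (d k) V) p) i i' := by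
      intro i i'
      rw [← pd_pi (differentiableAt_pi.1 hα i), ← pd_pi hα, pd_comp (f := fun q => (V q, gr b V q)) (ha p hp) hy, e3]
    simp only [Prod.snd_add, Pi.add_apply, prG, low_prV hj, ← e1, ← e2, gr_prV b d h, hj]
    rw [pd_comm (h.of_le two_le_top), pd_congr_cyl hr hp
      ((contDiffAt_pd_top h _).differentiableAt (by simp)) (hop.fun_add hg) hE, pd_add hop hg,
      pd_comp (f := fun q => (V q, gr b V q)) (hG p hp) hy, e3, ← add_assoc]
    congr 1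
    simp only [op]
    rw [pd_sum fun i => DifferentiableAt.fun_sum fun i' _ => (hα' i i').fun_smul (hu i i'),
      ← Finset.sum_add_distrib]
    refine Finset.sum_congr rfl fun i _ => ?_
    rw [pd_sum fun i' => (hα' i i').fun_smul (hu i i'), ← Finset.sum_add_distrib]
    refine Finset.sum_congr rfl fun i' _ => ?_
    rw [pd_smul (hα' i i') (hu i i'), e4, pd_comm3 (h.of_le three_le_top)]
    rfl

theorem contDiff_low (j : ι → κ) : ContDiff ℝ ∞ (low j : F × (κ → F) → F × (ι → F)) := by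
  unfold low
  fun_prop

theorem contDiffAt_prG {a : F × (ι → F) → ι → ι → ℝ} {G : F × (ι → F) → F} (j : ι → κ)
    {z : (F × (κ → F)) × (ι → F × (κ → F))} (ha : ContDiffAt ℝ ∞ a (low j z.1))
    (hG : ContDiffAt ℝ ∞ G (low j z.1)) : ContDiffAt ℝ ∞ (prG a G j) z := by
  have hl : ContDiffAt ℝ ∞ (fun z : (F × (κ → F)) × (ι → F × (κ → F)) => low j z.1) z :=
    ((contDiff_low j).comp contDiff_fst).contDiffAt
  have h1 := ContDiffAt.comp z (ha.fderiv_right (m := ∞) (by simp)) hl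
  have h2 := ContDiffAt.comp z (hG.fderiv_right (m := ∞) (by simp)) hl
  refine (ContDiffAt.comp z hG hl).prodMk (contDiffAt_pi.2 fun k => ?_)
  have h3 : ContDiffAt ℝ ∞ (fun z : (F × (κ → F)) × (ι → F × (κ → F)) =>
      (z.1.2 k, fun l => (z.2 l).2 k)) z := by fun_prop
  refine ContDiffAt.add (ContDiffAt.sum fun i _ => ContDiffAt.sum fun i' _ => ?_) (h2.clm_apply h3)
  exact (contDiffAt_pi.1 (contDiffAt_pi.1 (h1.clm_apply h3) i) i').smul (by fun_prop)

theorem norm_pd_inl_le (b : OrthonormalBasis ι ℝ E) (V : E × ℝ → F) (p : E × ℝ) (ξ : E) :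
    ‖pd (ξ, 0) V p‖ ≤ Fintype.card ι * ‖gr b V p‖ * ‖ξ‖ := by
  have h1 : ((ξ, 0) : E × ℝ) = ∑ i, ⟪b i, ξ⟫ • ((b i, 0) : E × ℝ) := by
    ext
    · simp [Prod.fst_sum, b.sum_repr']
    · simp [Prod.snd_sum]
  simp only [pd]
  rw [h1, map_sum]
  refine (norm_sum_le _ _).trans ?_
  calc _ ≤ ∑ _i : ι, ‖gr b V p‖ * ‖ξ‖ := Finset.sum_le_sum fun i _ => by
        rw [map_smul, norm_smul, mul_comm]
        refine mul_le_mul (norm_le_pi_norm (gr b V p) i) ?_ (norm_nonneg _) (norm_nonneg _)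
        simpa [b.orthonormal.1 i] using norm_inner_le_norm (𝕜 := ℝ) (b i) ξ
    _ = _ := by simp [mul_assoc]

theorem lip_of_pd {f : E × ℝ → F} {p0 : E × ℝ} {r L : ℝ}
    (hf : ∀ p ∈ cyl p0 r, DifferentiableAt ℝ f p)
    (hL : ∀ p ∈ cyl p0 r, ∀ ξ, ‖pd (ξ, 0) f p‖ ≤ L * ‖ξ‖) (hL0 : 0 ≤ L) {x y : E} {t : ℝ}
    (hx : (x, t) ∈ cyl p0 r) (hy : (y, t) ∈ cyl p0 r) :
    ‖f (x, t) - f (y, t)‖ ≤ L * ‖x - y‖ := by
  have hm : ∀ z ∈ closedBall p0.1 r, (z, t) ∈ cyl p0 r := fun z hz => ⟨hz, hx.2⟩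
  refine (convex_closedBall p0.1 r).norm_image_sub_le_of_norm_hasFDerivWithin_le
    (f := fun z => f (z, t))
    (f' := fun z => (fderiv ℝ f (z, t)).comp (ContinuousLinearMap.inl ℝ E ℝ))
    (fun z hz => ?_) (fun z hz => ?_) hy.1 hx.1
  · exact ((hf _ (hm z hz)).hasFDerivAt.comp z (hasFDerivAt_prodMk_left z t)).hasFDerivWithinAt
  · exact ContinuousLinearMap.opNorm_le_bound _ hL0 fun ξ => hL _ (hm z hz) ξ

theorem norm_op_le (b : ι → E) {α : ι → ι → ℝ} {V : E × ℝ → F} {p : E × ℝ} {Lam B : ℝ}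
    (hα : ∀ i j, |α i j| ≤ Lam) (hB : ∀ i j, ‖pd (b i, 0) (pd (b j, 0) V) p‖ ≤ B) :
    ‖op b α V p‖ ≤ Fintype.card ι * (Fintype.card ι * (Lam * B)) := by
  refine (norm_sum_le _ _).trans ?_
  calc _ ≤ ∑ _i : ι, ∑ _j : ι, Lam * B := Finset.sum_le_sum fun i _ =>
        (norm_sum_le _ _).trans (Finset.sum_le_sum fun j _ => by
          rw [norm_smul]
          exact mul_le_mul (hα i j) (hB i j) (norm_nonneg _) ((abs_nonneg _).trans (hα i j)))
    _ = _ := by simp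

theorem exists_bounds {X Y : Type*} [NormedAddCommGroup X] [NormedSpace ℝ X] [NormedAddCommGroup Y]
    [NormedSpace ℝ Y] {f : X → Y} {K : Set X} (hK : IsCompact K)
    (hf : ∀ v ∈ K, ContDiffAt ℝ ∞ f v) :
    ∃ A, 0 ≤ A ∧ ∀ v ∈ K, ‖f v‖ ≤ A ∧ ‖fderiv ℝ f v‖ ≤ A := by
  obtain ⟨A1, h1⟩ := hK.exists_bound_of_continuousOn (f := f) fun v hv =>
    (hf v hv).continuousAt.continuousWithinAt
  obtain ⟨A2, h2⟩ := hK.exists_bound_of_continuousOn (f := fderiv ℝ f) fun v hv =>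
    ((hf v hv).fderiv_right (m := 0) (by simp)).continuousAt.continuousWithinAt
  exact ⟨max 0 (max A1 A2), le_max_left _ _, fun v hv =>
    ⟨(h1 v hv).trans (le_max_of_le_right (le_max_left _ _)),
      (h2 v hv).trans (le_max_of_le_right (le_max_right _ _))⟩⟩

theorem norm_prG_le {a : F → ι → ι → ℝ} {G : F × (ι → F) → F} (j : ι → κ)
    {z : (F × (κ → F)) × (ι → F × (κ → F))} {A B : ℝ} (hA0 : 0 ≤ A) (hB0 : 0 ≤ B)
    (ha : DifferentiableAt ℝ a z.1.1) (ha1 : ‖fderiv ℝ a z.1.1‖ ≤ A)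
    (hG0 : ‖G (low j z.1)‖ ≤ A) (hG1 : ‖fderiv ℝ G (low j z.1)‖ ≤ A) (hB : ‖z.1.2‖ ≤ B) :
    ‖prG (fun y => a y.1) G j z‖ ≤
      (Fintype.card ι * (Fintype.card ι * (A * B)) + A * (B + 1)) * (1 + ‖z.2‖) := by
  have h0 := norm_nonneg z.2
  have hn : 0 ≤ (Fintype.card ι : ℝ) * (Fintype.card ι * (A * B)) := by positivity
  have hAB : 0 ≤ A * B := by positivity
  refine norm_prod_le_iff.2 ⟨hG0.trans (by nlinarith [mul_nonneg hA0 h0, mul_nonneg hAB h0, mul_nonneg hn h0]),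
    (pi_norm_le_iff_of_nonneg (by positivity)).2 fun k => ?_⟩
  have hk : ‖z.1.2 k‖ ≤ B := (norm_le_pi_norm _ k).trans hB
  have hq : ∀ i m, ‖(z.2 i).2 m‖ ≤ ‖z.2‖ := fun i m =>
    (norm_le_pi_norm _ m).trans ((norm_snd_le _).trans (norm_le_pi_norm z.2 i))
  have e1 : ∀ Δ, fderiv ℝ (fun y : F × (ι → F) => a y.1) (low j z.1) Δ = fderiv ℝ a z.1.1 Δ.1 :=
    fun Δ => by
      have h := (HasFDerivAt.comp (low j z.1) (g := a) ha.hasFDerivAt
        (hasFDerivAt_fst (𝕜 := ℝ) (p := low j z.1))).fderiv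
      exact DFunLike.congr_fun h Δ
  refine (norm_add_le _ _).trans ?_
  have e2 : ‖fderiv ℝ G (low j z.1) (z.1.2 k, fun l => (z.2 l).2 k)‖ ≤ A * (B + ‖z.2‖) := by
    refine (ContinuousLinearMap.le_opNorm _ _).trans (mul_le_mul hG1 ?_ (norm_nonneg _) hA0)
    exact norm_prod_le_iff.2 ⟨by linarith,
      (pi_norm_le_iff_of_nonneg (by positivity)).2 fun l => by linarith [hq l k]⟩
  have e3 : ‖∑ i, ∑ i', fderiv ℝ (fun y : F × (ι → F) => a y.1) (low j z.1)
      (z.1.2 k, fun l => (z.2 l).2 k) i i' • (z.2 i).2 (j i')‖ ≤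
      Fintype.card ι * (Fintype.card ι * (A * B * ‖z.2‖)) := by
    refine (norm_sum_le _ _).trans ?_
    calc _ ≤ ∑ _i : ι, ∑ _j : ι, A * B * ‖z.2‖ := Finset.sum_le_sum fun i _ =>
          (norm_sum_le _ _).trans (Finset.sum_le_sum fun i' _ => by
            rw [norm_smul, e1]
            refine mul_le_mul ?_ (hq _ _) (norm_nonneg _) hAB
            refine (norm_le_pi_norm _ i').trans ((norm_le_pi_norm _ i).trans ?_)
            exact (ContinuousLinearMap.le_opNorm _ _).trans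
              (mul_le_mul ha1 hk (norm_nonneg _) hA0))
      _ = _ := by simp
  nlinarith [mul_nonneg hA0 h0, mul_nonneg hAB h0]

variable [FiniteDimensional ℝ E]

theorem step [FiniteDimensional ℝ F] (b : OrthonormalBasis ι ℝ E) {lam : ℝ} (hlam : 0 < lam)
    {a : F → ι → ι → ℝ} {G : F × (ι → F) → F} {K : Set F} (hK : IsCompact K)
    (h : ∀ v ∈ K, ContDiffAt ℝ ∞ a v ∧ Ell lam (a v) ∧ ∀ q, ContDiffAt ℝ ∞ G (v, q))
    {d : κ → E × ℝ} {j : ι → κ} (hj : ∀ i, d (j i) = (b i, 0)) (B B2 : ℝ) {r : ℝ} (hr : 0 < r) :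
    ∃ C : ℝ, ∀ (V : E × ℝ → F) (p0 : E × ℝ),
      (∀ p ∈ cyl p0 r, ContDiffAt ℝ ∞ V p ∧ V p ∈ K ∧ ‖gr b V p‖ ≤ B ∧
        Eqn b (fun y => a y.1) G V p) → (∀ p ∈ cyl p0 r, ‖pr d V p‖ ≤ B2) →
      ‖gr b (prV d V) p0‖ ≤ C := by
  have : ProperSpace (ι → F) := FiniteDimensional.proper ℝ _
  obtain ⟨A1, hA1, h1⟩ := exists_bounds hK fun v hv => (h v hv).1
  obtain ⟨A2, hA2, h2⟩ := exists_bounds (f := G) (hK.prod (isCompact_closedBall 0 B))
    fun y hy => (h y.1 hy.1).2.2 y.2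
  obtain ⟨M, hM⟩ := hK.isBounded.exists_norm_le
  obtain ⟨C, hC⟩ := keySys (F := F × (κ → F)) b hlam A1 (A1 * (Fintype.card ι * B))
    (Fintype.card ι * (Fintype.card ι * (max A1 A2 * B2)) + max A1 A2 * (B2 + 1)) (max M B2) hr
  refine ⟨C, fun V p0 hV hB2 => ?_⟩
  have hp0 := self_mem_cyl p0 hr.le
  have hB0 : 0 ≤ B := (norm_nonneg _).trans (hV _ hp0).2.2.1
  have hB20 : 0 ≤ B2 := (norm_nonneg _).trans (hB2 _ hp0)
  have had : ∀ p ∈ cyl p0 r, DifferentiableAt ℝ a (V p) := fun p hp =>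
    (h _ (hV p hp).2.1).1.differentiableAt (by simp)
  have hVd : ∀ p ∈ cyl p0 r, DifferentiableAt ℝ V p := fun p hp =>
    (hV p hp).1.differentiableAt (by simp)
  refine hC (prV d V) (fun p => a (V p)) p0
    (fun p hp => (contDiffAt_prV d (hV p hp).1).of_le two_le_top)
    (fun p hp => (h _ (hV p hp).2.1).2.1)
    (fun p hp i i' => (norm_le_pi_norm _ i').trans
      ((norm_le_pi_norm _ i).trans (h1 _ (hV p hp).2.1).1))
    (fun x y t hx hy i i' => ?_)
    (fun p hp => norm_prod_le_iff.2 ⟨le_max_of_le_left (hM _ (hV p hp).2.1),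
      le_max_of_le_right (hB2 p hp)⟩) (fun p hp => ?_)
  · have := lip_of_pd (f := fun p => a (V p)) (L := A1 * (Fintype.card ι * B))
      (fun p hp => (had p hp).comp p (hVd p hp)) (fun p hp ξ => ?_) (by positivity) hx hy
    · exact (norm_le_pi_norm (a (V (x, t)) i - a (V (y, t)) i) i').trans
        ((norm_le_pi_norm (a (V (x, t)) - a (V (y, t))) i).trans this)
    rw [pd_comp (had p hp) (hVd p hp), mul_assoc]
    refine (ContinuousLinearMap.le_opNorm _ _).trans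
      (mul_le_mul (h1 _ (hV p hp).2.1).2 ?_ (norm_nonneg _) hA1)
    refine (norm_pd_inl_le b V p ξ).trans ?_
    gcongr
    exact (hV p hp).2.2.1
  · have hE := eqn_prV hj hr (fun p hp => (hV p hp).1)
      (fun p hp => (had p hp).comp (V p, gr b V p) differentiableAt_fst)
      (fun p hp => ((h _ (hV p hp).2.1).2.2 _).differentiableAt (by simp))
      (fun p hp => (hV p hp).2.2.2) hp
    have hE' : pd (0, 1) (prV d V) p - op b (a (V p)) (prV d V) p =
        prG (fun y => a y.1) G j (prV d V p, gr b (prV d V) p) := sub_eq_of_eq_add' hE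
    have hy : low j (prV d V p) ∈ K ×ˢ closedBall (0 : ι → F) B := by
      rw [low_prV hj]
      exact ⟨(hV p hp).2.1, mem_closedBall_zero_iff.2 (hV p hp).2.2.1⟩
    rw [hE']
    exact norm_prG_le j (le_max_of_le_left hA1) hB20 (had p hp)
      (le_max_of_le_left (h1 _ (hV p hp).2.1).2) (le_max_of_le_right (h2 _ hy).1)
      (le_max_of_le_right (h2 _ hy).2) (hB2 p hp)

/-- the space-time directions -/
def dirs (b : ι → E) : Option ι → E × ℝ := fun k => k.elim (0, 1) fun i => (b i, 0)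

omit [FiniteDimensional ℝ E] in
theorem exists_recon (b : OrthonormalBasis ι ℝ E) :
    ∃ Λ : (F × (Option ι → F)) →L[ℝ] (E × ℝ) →L[ℝ] F, ∀ (V : E × ℝ → F) (p : E × ℝ),
      fderiv ℝ V p = Λ (prV (dirs b) V p) := by
  refine ⟨(∑ i, (ContinuousLinearMap.smulRightL ℝ (E × ℝ) F
      ((innerSL ℝ (b i)).comp (ContinuousLinearMap.fst ℝ E ℝ))).comp
        (ContinuousLinearMap.proj (some i)) +
      (ContinuousLinearMap.smulRightL ℝ (E × ℝ) F (ContinuousLinearMap.snd ℝ E ℝ)).comp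
        (ContinuousLinearMap.proj none)).comp (ContinuousLinearMap.snd ℝ F _), fun V p => ?_⟩
  refine ContinuousLinearMap.ext fun ζ => ?_
  have h1 : ζ = ∑ i, ⟪b i, ζ.1⟫ • ((b i, 0) : E × ℝ) + ζ.2 • ((0, 1) : E × ℝ) := by
    ext
    · simp [Prod.fst_sum, b.sum_repr']
    · simp [Prod.snd_sum]
  conv_lhs => rw [h1, map_add, map_sum]
  simp only [map_smul]
  simp [prV, pr, pd, dirs]

theorem iter_clm_bound {P X Y : Type*} [NormedAddCommGroup P] [NormedSpace ℝ P]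
    [NormedAddCommGroup X] [NormedSpace ℝ X] [NormedAddCommGroup Y] [NormedSpace ℝ Y]
    (Λ : X →L[ℝ] Y) : ∃ c : ℝ, 0 ≤ c ∧ ∀ (f : P → X) (p : P) (k : ℕ), ContDiffAt ℝ ∞ f p →
      ‖iteratedFDeriv ℝ k (Λ ∘ f) p‖ ≤ c * ‖iteratedFDeriv ℝ k f p‖ :=
  ⟨‖Λ‖, norm_nonneg _, fun _ _ _ hf =>
    Λ.norm_iteratedFDeriv_comp_left hf (by exact_mod_cast le_top)⟩

omit [FiniteDimensional ℝ E] in
theorem exists_recon_bound (b : OrthonormalBasis ι ℝ E) :
    ∃ c : ℝ, 0 ≤ c ∧ ∀ (V : E × ℝ → F) (p : E × ℝ) (k : ℕ), ContDiffAt ℝ ∞ V p →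
      ‖iteratedFDeriv ℝ (k + 1) V p‖ ≤ c * ‖iteratedFDeriv ℝ k (prV (dirs b) V) p‖ := by
  obtain ⟨Λ, hΛ⟩ := exists_recon (F := F) b
  obtain ⟨c, hc, h⟩ := iter_clm_bound (P := E × ℝ) (X := F × (Option ι → F))
    (Y := (E × ℝ) →L[ℝ] F) Λ
  refine ⟨c, hc, fun V p k hV => ?_⟩
  rw [← norm_iteratedFDeriv_fderiv, show fderiv ℝ V = Λ ∘ prV (dirs b) V from funext (hΛ V)]
  exact h _ _ _ (contDiffAt_prV _ hV)

universe u

/-- **All derivatives** of a solution of `V_t = a^{ij}(V) V_{ij} + G(V, ∇V)`. -/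
theorem sys1 {ι : Type} [Fintype ι] (b : OrthonormalBasis ι ℝ E) {lam : ℝ} (hlam : 0 < lam)
    (k : ℕ) : ∀ (F : Type u) [NormedAddCommGroup F] [NormedSpace ℝ F] [FiniteDimensional ℝ F]
      (a : F → ι → ι → ℝ) (G : F × (ι → F) → F) (K : Set F), IsCompact K →
      (∀ v ∈ K, ContDiffAt ℝ ∞ a v ∧ Ell lam (a v) ∧ ∀ q, ContDiffAt ℝ ∞ G (v, q)) →
      ∀ B r : ℝ, 0 < r → ∃ C : ℝ, ∀ (V : E × ℝ → F) (p0 : E × ℝ),
        (∀ p ∈ cyl p0 r, ContDiffAt ℝ ∞ V p ∧ V p ∈ K ∧ ‖gr b V p‖ ≤ B ∧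
          Eqn b (fun y => a y.1) G V p) → ‖iteratedFDeriv ℝ k V p0‖ ≤ C := by
  induction k with
  | zero =>
    intro F _ _ _ a G K hK _ B r hr
    obtain ⟨M, hM⟩ := hK.isBounded.exists_norm_le
    refine ⟨M, fun V p0 hV => ?_⟩
    rw [norm_iteratedFDeriv_zero]
    exact hM _ (hV _ (self_mem_cyl p0 hr.le)).2.1
  | succ k ih =>
    intro F _ _ _ a G K hK h B r hr
    have : ProperSpace (ι → F) := FiniteDimensional.proper ℝ _
    have : ProperSpace (Option ι → F) := FiniteDimensional.proper ℝ _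
    have hr4 : 0 < r / 4 := by positivity
    obtain ⟨A1, hA1, h1⟩ := exists_bounds hK fun v hv => (h v hv).1
    obtain ⟨A2, hA2, h2⟩ := exists_bounds (f := G) (hK.prod (isCompact_closedBall 0 B))
      fun y hy => (h y.1 hy.1).2.2 y.2
    obtain ⟨C1, hC1⟩ := step b hlam hK h (d := fun i => (b i, 0)) (j := id) (fun _ => rfl) B B hr4
    set B2 := max |B| (Fintype.card ι * (Fintype.card ι * (A1 * C1)) + A2) with hB2
    obtain ⟨C2, hC2⟩ := step b hlam hK h (d := dirs b) (j := some) (fun _ => rfl) B B2 hr4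
    obtain ⟨C3, hC3⟩ := ih (F × (Option ι → F)) (fun w => a w.1)
      (prG (fun y => a y.1) G some) (K ×ˢ closedBall 0 B2) (hK.prod (isCompact_closedBall _ _))
      (fun w hw => ⟨(h _ hw.1).1.comp w contDiffAt_fst, (h _ hw.1).2.1, fun q =>
        contDiffAt_prG some ((h _ hw.1).1.comp (low some w) contDiffAt_fst) ((h _ hw.1).2.2 _)⟩)
      C2 (r / 2) (by positivity)
    obtain ⟨c, hc, hΛ⟩ := exists_recon_bound (F := F) b
    refine ⟨c * C3, fun V p0 hV => ?_⟩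
    have s1 : ∀ p ∈ cyl p0 (3 * r / 4), cyl p (r / 4) ⊆ cyl p0 r := fun p hp =>
      cyl_subset hp (by positivity) hr4.le (by linarith)
    have s2 : ∀ p ∈ cyl p0 (r / 2), cyl p (r / 4) ⊆ cyl p0 (3 * r / 4) := fun p hp =>
      cyl_subset hp (by positivity) hr4.le (by linarith)
    have s3 : cyl p0 (3 * r / 4) ⊆ cyl p0 r := fun p hp => s1 p hp (self_mem_cyl p hr4.le)
    have s4 : cyl p0 (r / 2) ⊆ cyl p0 (3 * r / 4) := fun p hp => s2 p hp (self_mem_cyl p hr4.le)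
    have b1 : ∀ p ∈ cyl p0 (3 * r / 4), ‖pr (dirs b) V p‖ ≤ B2 := by
      intro p hp
      have hp' := hV p (s3 hp)
      have c1 := hC1 V p (fun q hq => hV q (s1 p hp hq)) fun q hq => (hV q (s1 p hp hq)).2.2.1
      refine (pi_norm_le_iff_of_nonneg (le_max_of_le_left (abs_nonneg _))).2 ?_
      rintro (_ | i)
      · refine le_max_of_le_right ?_
        change ‖pd (0, 1) V p‖ ≤ _
        rw [hp'.2.2.2]
        refine (norm_add_le _ _).trans (add_le_add (norm_op_le b (fun i i' =>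
          (norm_le_pi_norm _ i').trans ((norm_le_pi_norm _ i).trans (h1 _ hp'.2.1).1))
          fun i i' => ?_) (h2 _ ⟨hp'.2.1, mem_closedBall_zero_iff.2 hp'.2.2.1⟩).1)
        have c2 := (norm_le_pi_norm _ i).trans c1
        rw [gr_prV b _ hp'.1] at c2
        exact (norm_le_pi_norm _ i').trans ((norm_snd_le _).trans c2)
      · exact le_max_of_le_left
          ((norm_le_pi_norm (gr b V p) i).trans (hp'.2.2.1.trans (le_abs_self _)))
    have b2 := hC3 (prV (dirs b) V) p0 fun p hp => ⟨contDiffAt_prV _ (hV p (s3 (s4 hp))).1,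
      ⟨(hV p (s3 (s4 hp))).2.1, mem_closedBall_zero_iff.2 (b1 p (s4 hp))⟩,
      hC2 V p (fun q hq => hV q (s3 (s2 p hp hq))) fun q hq => b1 q (s2 p hp hq),
      eqn_prV (j := some) (fun _ => rfl) hr (fun p hp => (hV p hp).1)
        (fun p hp => ((h _ (hV p hp).2.1).1.differentiableAt (by simp)).comp (V p, gr b V p)
          differentiableAt_fst)
        (fun p hp => ((h _ (hV p hp).2.1).2.2 _).differentiableAt (by simp))
        (fun p hp => (hV p hp).2.2.2) (s3 (s4 hp))⟩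
    exact (hΛ V p0 k (hV _ (self_mem_cyl p0 hr.le)).1).trans (mul_le_mul_of_nonneg_left b2 hc)

/-- **All derivatives** of a solution of `V_t = a^{ij}(V, ∇V) V_{ij} + G(V, ∇V)`. -/
theorem sys2 {ι : Type} [Fintype ι] (b : OrthonormalBasis ι ℝ E) {lam : ℝ} (hlam : 0 < lam)
    (k : ℕ) [FiniteDimensional ℝ F] {a : F × (ι → F) → ι → ι → ℝ} {G : F × (ι → F) → F}
    {K : Set (F × (ι → F))} (hK : IsCompact K)
    (h : ∀ y ∈ K, ContDiffAt ℝ ∞ a y ∧ Ell lam (a y) ∧ ContDiffAt ℝ ∞ G y) (B : ℝ) {r : ℝ}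
    (hr : 0 < r) : ∃ C : ℝ, ∀ (V : E × ℝ → F) (p0 : E × ℝ),
      (∀ p ∈ cyl p0 r, ContDiffAt ℝ ∞ V p ∧ (V p, gr b V p) ∈ K ∧
        (∀ i j, ‖pd (b i, 0) (pd (b j, 0) V) p‖ ≤ B) ∧ Eqn b a G V p) →
      ‖iteratedFDeriv ℝ k V p0‖ ≤ C := by
  obtain ⟨M, hM⟩ := hK.isBounded.exists_norm_le
  obtain ⟨C, hC⟩ := sys1 b hlam k (F × (ι → F)) a (prG a G id) K hK
    (fun w hw => ⟨(h w hw).1, (h w hw).2.1, fun q => contDiffAt_prG id (h w hw).1 (h w hw).2.2⟩)
    (max |M| |B|) r hr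
  obtain ⟨c, hc, hΛ⟩ := iter_clm_bound (P := E × ℝ) (ContinuousLinearMap.fst ℝ F (ι → F))
  refine ⟨c * C, fun V p0 hV => ?_⟩
  have b2 := hC (prV (fun i => (b i, 0)) V) p0 fun p hp => ⟨contDiffAt_prV _ (hV p hp).1,
    (hV p hp).2.1, by
      refine (pi_norm_le_iff_of_nonneg (le_max_of_le_left (abs_nonneg _))).2 fun i => ?_
      rw [gr_prV b _ (hV p hp).1]
      refine norm_prod_le_iff.2 ⟨le_max_of_le_left ?_, le_max_of_le_right ?_⟩
      · exact (norm_le_pi_norm (gr b V p) i).trans ((norm_snd_le (V p, gr b V p)).trans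
          ((hM _ (hV p hp).2.1).trans (le_abs_self _)))
      · exact (pi_norm_le_iff_of_nonneg (abs_nonneg _)).2 fun i' =>
          ((hV p hp).2.2.1 i i').trans (le_abs_self _),
    eqn_prV (j := id) (fun _ => rfl) hr (fun p hp => (hV p hp).1)
      (fun p hp => (h _ (hV p hp).2.1).1.differentiableAt (by simp))
      (fun p hp => (h _ (hV p hp).2.1).2.2.differentiableAt (by simp))
      (fun p hp => (hV p hp).2.2.2) hp⟩
  exact (hΛ _ p0 k (contDiffAt_prV (fun i => (b i, 0)) (hV _ (self_mem_cyl p0 hr.le)).1)).trans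
    (mul_le_mul_of_nonneg_left b2 hc)

end Vale.Agent.P218F.GI
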