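import Vale.Agent.P218F.GI3

/-!
# Interior estimates for graphical mean curvature flow (helper69)

`mcf`: `u_t = (δ_ij - u_i u_j / (1 + |∇u|²)) u_ij`, first and second spatial derivatives bounded on a
closed backward cylinder: all space-time derivatives are bounded at its centre.
-/

open Set Filter Topology Metric
open scoped RealInnerProductSpace ContDiff

noncomputable section

namespace Vale.Agent.P218F.GI

section affine
variable {P Q F : Type*} [NormedAddCommGroup P] [NormedSpace ℝ P] [NormedAddCommGroup Q]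
  [NormedSpace ℝ Q] [NormedAddCommGroup F] [NormedSpace ℝ F]

theorem iter_affine {f : P → F} (g : Q →L[ℝ] P) (c : P) {x : Q} {k : ℕ}
    (hf : ContDiffAt ℝ k f (c + g x)) :
    iteratedFDeriv ℝ k (fun y => f (c + g y)) x =
      (iteratedFDeriv ℝ k f (c + g x)).compContinuousLinearMap fun _ => g := by
  have h1 : ContDiffAt ℝ k (fun z => f (c + z)) (g x) :=
    ContDiffAt.comp (g x) (g := f) hf (by fun_prop)
  obtain ⟨s, hs, hs'⟩ := h1.contDiffOn le_rfl (by simp)
  obtain ⟨t, hts, ht, hx⟩ := _root_.mem_nhds_iff.1 hs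
  have ht' : IsOpen (g ⁻¹' t) := ht.preimage g.continuous
  have h2 := g.iteratedFDerivWithin_comp_right (hs'.mono hts) ht.uniqueDiffOn ht'.uniqueDiffOn
    hx (i := k) le_rfl
  rw [iteratedFDerivWithin_of_isOpen k ht' hx, iteratedFDerivWithin_of_isOpen k ht hx,
    iteratedFDeriv_comp_add_left] at h2
  exact h2

theorem norm_iter_affine {f : P → F} (g : Q →L[ℝ] P) (c : P) {x : Q} {k : ℕ}
    (hf : ContDiffAt ℝ k f (c + g x)) :
    ‖iteratedFDeriv ℝ k (fun y => f (c + g y)) x‖ ≤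
      ‖iteratedFDeriv ℝ k f (c + g x)‖ * ‖g‖ ^ k := by
  rw [iter_affine g c hf]
  simpa using (iteratedFDeriv ℝ k f (c + g x)).norm_compContinuousLinearMap_le fun _ => g

/-- spatial derivatives are bounded by space-time derivatives -/
theorem norm_iter_slice {f : Q × ℝ → F} {x : Q} {t : ℝ} {k : ℕ} (hf : ContDiffAt ℝ k f (x, t)) :
    ‖iteratedFDeriv ℝ k (fun y => f (y, t)) x‖ ≤ ‖iteratedFDeriv ℝ k f (x, t)‖ := by
  have e : ∀ y, ((0, t) : Q × ℝ) + ContinuousLinearMap.inl ℝ Q ℝ y = (y, t) := fun y => by simp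
  have h := norm_iter_affine (f := f) (ContinuousLinearMap.inl ℝ Q ℝ) (0, t) (x := x) (k := k)
    (by rwa [e])
  simp only [e] at h
  refine h.trans (mul_le_of_le_one_right (norm_nonneg _) (pow_le_one₀ (norm_nonneg _) ?_))
  exact ContinuousLinearMap.norm_inl_le_one ℝ Q ℝ

end affine

variable {ι : Type} [Fintype ι] [DecidableEq ι] {E : Type*} [NormedAddCommGroup E]
  [InnerProductSpace ℝ E]

/-- the coefficients of graphical mean curvature flow -/
def mcfA (q : ι → ℝ) (i j : ι) : ℝ := (if i = j then 1 else 0) - q i * q j / (1 + ∑ l, q l ^ 2)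

theorem contDiff_mcfA : ContDiff ℝ ∞ (mcfA : (ι → ℝ) → ι → ι → ℝ) := by
  refine contDiff_pi.2 fun i => contDiff_pi.2 fun j => contDiff_const.sub ?_
  refine ContDiff.div (by fun_prop) (by fun_prop) fun q => ?_
  have : 0 ≤ ∑ l, q l ^ 2 := Finset.sum_nonneg fun l _ => sq_nonneg _
  positivity

theorem sum_mcfA (q : ι → ℝ) (h : ι → ι → ℝ) : ∑ i, ∑ j, mcfA q i j * h i j =
    ∑ i, h i i - (∑ i, ∑ j, q i * q j * h i j) / (1 + ∑ l, q l ^ 2) := by
  simp only [mcfA, sub_mul, Finset.sum_sub_distrib, ite_mul, one_mul, zero_mul, Finset.sum_ite_eq,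
    Finset.mem_univ, if_true, Finset.sum_div, div_mul_eq_mul_div]

theorem ell_mcfA {q : ι → ℝ} {B : ℝ} (hq : ‖q‖ ≤ B) :
    Ell (1 + Fintype.card ι * B ^ 2)⁻¹ (mcfA q) := by
  refine ⟨fun i j => by simp only [mcfA, eq_comm (a := i), mul_comm], fun x => ?_⟩
  have h0 : 0 ≤ ∑ l, q l ^ 2 := Finset.sum_nonneg fun l _ => sq_nonneg _
  have h1 : ∑ l, q l ^ 2 ≤ Fintype.card ι * B ^ 2 := by
    calc ∑ l, q l ^ 2 ≤ ∑ _l : ι, B ^ 2 := Finset.sum_le_sum fun l _ =>
          sq_le_sq' (neg_le_of_abs_le ((norm_le_pi_norm q l).trans hq))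
            (le_of_abs_le ((norm_le_pi_norm q l).trans hq))
      _ = _ := by simp
  have h2 := Finset.sum_mul_sq_le_sq_mul_sq Finset.univ q x
  have h3 : ∑ i, ∑ j, q i * q j * (x i * x j) = (∑ i, q i * x i) ^ 2 := by
    rw [sq, Finset.sum_mul_sum]
    exact Finset.sum_congr rfl fun i _ => Finset.sum_congr rfl fun j _ => by ring
  have hx : 0 ≤ ∑ i, x i ^ 2 := Finset.sum_nonneg fun l _ => sq_nonneg _
  simp only [mul_assoc]
  rw [sum_mcfA, h3]
  simp only [← sq]
  generalize ∑ l, q l ^ 2 = Q at *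
  generalize ∑ i, x i ^ 2 = X at *
  calc (1 + Fintype.card ι * B ^ 2)⁻¹ * X ≤ (1 + Q)⁻¹ * X := by gcongr
    _ = X - Q * X / (1 + Q) := by field_simp; ring
    _ ≤ _ := by gcongr

theorem abs_mcfA_le {q : ι → ℝ} {B : ℝ} (hq : ‖q‖ ≤ B) (i j : ι) : |mcfA q i j| ≤ 1 + B ^ 2 := by
  have h0 : 0 ≤ ∑ l, q l ^ 2 := Finset.sum_nonneg fun l _ => sq_nonneg _
  refine (abs_sub _ _).trans (add_le_add (by split_ifs <;> simp) ?_)
  rw [abs_div, abs_of_pos (by positivity : 0 < 1 + ∑ l, q l ^ 2), abs_mul]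
  refine (div_le_self (by positivity) (by linarith)).trans ?_
  rw [sq]
  exact mul_le_mul ((norm_le_pi_norm q i).trans hq) ((norm_le_pi_norm q j).trans hq)
    (abs_nonneg _) ((norm_nonneg _).trans hq)

omit [DecidableEq ι] in
theorem norm_fderiv_le {F : Type*} [NormedAddCommGroup F] [NormedSpace ℝ F]
    (b : OrthonormalBasis ι ℝ E) (V : E × ℝ → F) (p : E × ℝ) :
    ‖fderiv ℝ V p‖ ≤ Fintype.card ι * ‖gr b V p‖ + ‖pd (0, 1) V p‖ := by
  refine ContinuousLinearMap.opNorm_le_bound _ (by positivity) fun ζ => ?_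
  have h1 : ζ = (ζ.1, 0) + ζ.2 • ((0, 1) : E × ℝ) := by ext <;> simp
  conv_lhs => rw [h1, map_add, map_smul]
  refine (norm_add_le _ _).trans ?_
  rw [add_mul, norm_smul, mul_comm ‖ζ.2‖]
  refine add_le_add ((norm_pd_inl_le b V p ζ.1).trans ?_) ?_
  · gcongr; exact norm_fst_le ζ
  · exact mul_le_mul_of_nonneg_left (norm_snd_le ζ) (norm_nonneg _)

theorem convex_cyl (p : E × ℝ) (r : ℝ) : Convex ℝ (cyl p r) :=
  (convex_closedBall _ _).prod (convex_Icc _ _)

variable [FiniteDimensional ℝ E]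

/-- **Interior estimates for graphical mean curvature flow.** -/
theorem mcf (b : OrthonormalBasis ι ℝ E) (k : ℕ) (B : ℝ) {r : ℝ} (hr : 0 < r) :
    ∃ C : ℝ, ∀ (u : E × ℝ → ℝ) (p0 : E × ℝ),
      (∀ p ∈ cyl p0 r, ContDiffAt ℝ ∞ u p ∧ ‖gr b u p‖ ≤ B ∧
        (∀ i j, |pd (b i, 0) (pd (b j, 0) u) p| ≤ B) ∧
        pd (0, 1) u p = op b (mcfA (gr b u p)) u p) →
      ‖iteratedFDeriv ℝ (k + 1) u p0‖ ≤ C := by
  set L : ℝ := Fintype.card ι * B + Fintype.card ι * (Fintype.card ι * ((1 + B ^ 2) * B)) with hL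
  obtain ⟨C, hC⟩ := sys2 b (lam := (1 + Fintype.card ι * B ^ 2)⁻¹) (by positivity) (k + 1)
    (F := ℝ) (a := fun y => mcfA y.2) (G := fun _ => 0)
    (K := closedBall 0 (L * max r (r ^ 2)) ×ˢ closedBall 0 B)
    ((isCompact_closedBall _ _).prod (isCompact_closedBall _ _))
    (fun y hy => ⟨(contDiff_mcfA.comp contDiff_snd).contDiffAt,
      ell_mcfA (mem_closedBall_zero_iff.1 hy.2), contDiffAt_const⟩) B hr
  refine ⟨C, fun u p0 hu => ?_⟩
  have hp0 := self_mem_cyl p0 hr.le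
  have e0 : fderiv ℝ (fun p => u p - u p0) = fderiv ℝ u := funext fun p => fderiv_sub_const _
  have e1 : ∀ ζ, pd ζ (fun p => u p - u p0) = pd ζ u := fun ζ => funext fun p => by
    simp only [pd, e0]
  have e2 : gr b (fun p => u p - u p0) = gr b u := by
    ext p i
    simp only [gr, pr, e1]
  have hLb : ∀ p ∈ cyl p0 r, ‖fderiv ℝ u p‖ ≤ L := fun p hp => by
    refine (norm_fderiv_le b u p).trans (add_le_add (by gcongr; exact (hu p hp).2.1) ?_)
    rw [(hu p hp).2.2.2]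
    exact norm_op_le b (abs_mcfA_le (hu p hp).2.1) (hu p hp).2.2.1
  have := hC (fun p => u p - u p0) p0 fun p hp => ⟨(hu p hp).1.sub contDiffAt_const,
    ⟨mem_closedBall_zero_iff.2 ?_, by rw [e2]; exact mem_closedBall_zero_iff.2 (hu p hp).2.1⟩,
    by simp only [e1]; exact (hu p hp).2.2.1, by
      simp only [Eqn, e2, op, e1, add_zero]; exact (hu p hp).2.2.2⟩
  · rwa [← norm_iteratedFDeriv_fderiv, e0, norm_iteratedFDeriv_fderiv] at this
  · refine ((convex_cyl p0 r).norm_image_sub_le_of_norm_fderiv_le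
      (fun q hq => (hu q hq).1.differentiableAt (by simp)) hLb hp0 hp).trans ?_
    refine mul_le_mul_of_nonneg_left ?_ ((norm_nonneg (fderiv ℝ u p0)).trans (hLb _ hp0))
    obtain ⟨m1, m2, m3⟩ := mem_cyl.1 hp
    refine max_le_max m1 ?_
    rw [Prod.snd_sub, Real.norm_eq_abs, abs_of_nonpos (by linarith)]
    linarith

end Vale.Agent.P218F.GI
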