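import Vale.Agent.P218F.InjLin
import Vale.Agent.P218F.MeshSpec
import Vale.Agent.P218FT.NC1
import Vale.Agent.P218FT.EVMain
import Vale.Agent.P218FT.Chart
import Vale.Agent.P218FT.Gauss

/-!
# The energy inequality for the Jacobi operator on functions orthogonal to the mesh bumps
-/

open MeasureTheory Filter Topology Set Metric
open scoped ContDiff RealInnerProductSpace NNReal

noncomputable section

namespace Vale.Agent.P218F.Inj

open Vale.Agent.P218FT hiding P2
open Vale.Agent.P218F.Mesh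

variable {S : Set E3}

/-- the tangential gradient -/
def tgr (S : Set E3) (f : E3 → ℝ) (x : E3) : E3 := pt (nu S x) (gradient f x)

theorem continuous_grad {f : E3 → ℝ} (hf : ContDiff ℝ 1 f) : Continuous (gradient f) := by
  rw [gradient_eq_rz]
  exact rz.continuous.comp (hf.continuous_fderiv one_ne_zero)

theorem contOn_tgr (hS : IsSurf S) {f : E3 → ℝ} (hf : ContDiff ℝ 1 f) : ContinuousOn (tgr S f) S :=
  (NC.contOn_pt hS).clm_apply (continuous_grad hf).continuousOn

theorem divT_eq_tr (S : Set E3) (Y : E3 → E3) (x : E3) :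
    divT S Y x = tr ((pt (nu S x)).comp (fderiv ℝ Y x)) := by
  have : (pt (nu S x)).comp (fderiv ℝ Y x) =
      fderiv ℝ Y x - ((innerSL ℝ (nu S x)).comp (fderiv ℝ Y x)).smulRight (nu S x) := by
    ext1 v
    simp [pt_apply]
  rw [this, tr_sub, NC.tr_smulRight, divT, real_inner_comm]
  rfl

theorem contOn_divT (hS : IsSurf S) {Y : E3 → E3} (hY : ContDiff ℝ 1 Y) :
    ContinuousOn (divT S Y) S := by
  rw [show divT S Y = _ from funext (divT_eq_tr S Y)]
  exact continuous_tr.comp_continuousOn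
    ((NC.contOn_pt hS).clm_comp (hY.continuous_fderiv one_ne_zero).continuousOn)

theorem contOn_jacS (hS : IsSurf S) {f : E3 → ℝ} (hf : ContDiff ℝ 2 f) :
    ContinuousOn (jacS S f) S := by
  have h1 := contDiff_grad_one hf
  exact ((contOn_divT hS h1).sub ((continuousOn_id.inner h1.continuous.continuousOn).div_const 2)).add
    (((NC.contOn_a2 hS).add continuousOn_const).mul hf.continuous.continuousOn)

theorem integrable_mul (hS : IsSurf S) {φ g : E3 → ℝ} (hφ : Continuous φ)
    (hc : HasCompactSupport φ) (hg : ContinuousOn g S) :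
    Integrable (fun x => φ x * g x) (area S) := by
  have := Chart.locFin_proof S hS
  have hK : IsCompact (S ∩ tsupport φ) := hc.isCompact.inter_left hS.1
  have h1 : IntegrableOn (fun x => φ x * g x) (S ∩ tsupport φ) (area S) :=
    ((hφ.continuousOn.mul hg).mono inter_subset_left).integrableOn_compact hK
  refine h1.integrable_of_ae_notMem_eq_zero ?_
  filter_upwards [NC.ae_mem hS] with x hx hx'
  rw [image_eq_zero_of_notMem_tsupport fun h => hx' ⟨hx, h⟩, zero_mul]

theorem integrable_of_supp (hS : IsSurf S) {g : E3 → ℝ} (hg : ContinuousOn g S) {K : Set E3}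
    (hK : IsCompact K) (h0 : ∀ x ∈ S, x ∉ K → g x = 0) : Integrable g (area S) := by
  have := Chart.locFin_proof S hS
  have h1 : IntegrableOn g (S ∩ K) (area S) :=
    (hg.mono inter_subset_left).integrableOn_compact (hK.inter_left hS.1)
  refine h1.integrable_of_ae_notMem_eq_zero ?_
  filter_upwards [NC.ae_mem hS] with x hx hx' using h0 x hx fun h => hx' ⟨hx, h⟩

theorem grad_zero {φ : E3 → ℝ} {x : E3} (hx : x ∉ tsupport φ) : gradient φ x = 0 := by
  rw [gradient_eq_rz]
  simp only [image_eq_zero_of_notMem_tsupport fun h => hx (tsupport_fderiv_subset ℝ h), map_zero]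

theorem tgr_zero {φ : E3 → ℝ} {x : E3} (hx : x ∉ tsupport φ) : tgr S φ x = 0 := by
  rw [tgr, grad_zero hx, map_zero]

theorem grad_mul {f g : E3 → ℝ} {x : E3} (hf : DifferentiableAt ℝ f x)
    (hg : DifferentiableAt ℝ g x) :
    gradient (fun y => f y * g y) x = f x • gradient g x + g x • gradient f x := by
  simp only [gradient_eq_rz, fderiv_fun_mul hf hg, map_add, map_smul]

theorem tgr_mul {f g : E3 → ℝ} {x : E3} (hf : DifferentiableAt ℝ f x)
    (hg : DifferentiableAt ℝ g x) :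
    tgr S (fun y => f y * g y) x = f x • tgr S g x + g x • tgr S f x := by
  simp only [tgr, grad_mul hf hg, map_add, map_smul]

theorem contDiff_gw : ContDiff ℝ ∞ gw := by
  unfold gw
  exact ((contDiff_norm_sq ℝ).neg.div_const 4).exp

theorem grad_gw (x : E3) : gradient gw x = (-gw x / 2) • x := by
  have h : HasFDerivAt gw _ x := (((hasFDerivAt_id x).norm_sq.neg).mul_const (4⁻¹ : ℝ)).exp
  refine ext_inner_right ℝ fun v => ?_
  rw [inner_grad, h.fderiv, real_inner_smul_left]
  simp [gw, div_eq_mul_inv]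
  ring

theorem divT_smul' {φ : E3 → ℝ} {Y : E3 → E3} {x : E3} (hφ : DifferentiableAt ℝ φ x)
    (hY : DifferentiableAt ℝ Y x) :
    divT S (fun y => φ y • Y y) x = φ x * divT S Y x + ⟪tgr S φ x, Y x⟫ := by
  rw [divT, fderiv_fun_smul hφ hY, tr_add, tr_smul, NC.tr_smulRight, divT, tgr, inner_pt_left,
    inner_grad, pt_apply, map_sub, map_smul]
  simp only [_root_.add_apply, _root_.smul_apply, ContinuousLinearMap.smulRight_apply,
    inner_add_left, real_inner_smul_left, smul_eq_mul, real_inner_comm (nu S x) (Y x)]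
  ring

/-- the divergence theorem with the Gaussian weight on a shrinker -/
theorem wdiv (hS : IsShr S) {φ : E3 → ℝ} (hφ : ContDiff ℝ 1 φ) (hc : HasCompactSupport φ)
    {Y : E3 → E3} (hY : ContDiff ℝ 1 Y) :
    ∫ x, φ x * ((divT S Y x - ⟪x, Y x⟫ / 2) * gw x) ∂(area S) =
      -∫ x, ⟪tgr S φ x, Y x⟫ * gw x ∂(area S) := by
  have hg : ContDiff ℝ 1 gw := contDiff_gw.of_le one_le_inf
  obtain ⟨i1, i2, h⟩ := EV.fv_full hS.1 (X := fun y => (φ y * gw y) • Y y) ((hφ.mul hg).smul hY)
    (hc.mul_right.smul_right (f' := Y))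
  have j1 := integrable_mul hS.1 hφ.continuous hc
    (g := fun x => (divT S Y x - ⟪x, Y x⟫ / 2) * gw x) (((contOn_divT hS.1 hY).sub
      ((continuousOn_id.inner hY.continuous.continuousOn).div_const 2)).mul
      continuous_gw.continuousOn)
  have j2 := integrable_of_supp hS.1 (g := fun x => ⟪tgr S φ x, Y x⟫ * gw x)
    (((contOn_tgr hS.1 hφ).inner hY.continuous.continuousOn).mul continuous_gw.continuousOn)
    hc.isCompact fun x _ hx => by simp [tgr_zero hx]
  rw [eq_neg_iff_add_eq_zero, ← integral_add i1 i2] at h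
  rw [eq_neg_iff_add_eq_zero, ← integral_add j1 j2, ← h]
  refine integral_congr_ae ?_
  filter_upwards [NC.ae_mem hS.1] with x hx
  have a := hφ.differentiable one_ne_zero x
  have b := hg.differentiable one_ne_zero x
  have c : Hv S x = -((⟪x, nu S x⟫ / 2) • nu S x) := by
    have := hS.2 x hx
    rw [relV, sub_zero, add_eq_zero_iff_eq_neg] at this
    rw [this]
    congr 2
    ring
  rw [divT_smul' (φ := fun y => φ y * gw y) (a.mul b) (hY.differentiable one_ne_zero x),
    tgr_mul a b, c]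
  simp only [tgr, grad_gw, map_smul, pt_apply (nu S x) x, inner_add_left, inner_sub_left,
    inner_neg_right, real_inner_smul_left, real_inner_smul_right, real_inner_comm (nu S x)]
  ring

theorem inner_tgr (hS : IsSurf S) {x : E3} (hx : x ∈ S) (φ f : E3 → ℝ) :
    ⟪tgr S φ x, gradient f x⟫ = ⟪tgr S φ x, tgr S f x⟫ := by
  rw [tgr, tgr, ← inner_pt_left, pt_pt (hS.norm_nu hx)]

/-- Green's formula -/
theorem green (hS : IsShr S) {φ f : E3 → ℝ} (hφ : ContDiff ℝ 1 φ) (hc : HasCompactSupport φ)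
    (hf : ContDiff ℝ 2 f) :
    ∫ x, φ x * (jacS S f x * gw x) ∂(area S) =
      ∫ x, φ x * ((a2 S x + 1 / 2) * f x * gw x) ∂(area S) -
        ∫ x, ⟪tgr S φ x, tgr S f x⟫ * gw x ∂(area S) := by
  have hY := contDiff_grad_one hf
  have h := wdiv hS hφ hc hY
  have j1 := integrable_mul hS.1 hφ.continuous hc
    (g := fun x => (divT S (gradient f) x - ⟪x, gradient f x⟫ / 2) * gw x)
    (((contOn_divT hS.1 hY).sub ((continuousOn_id.inner hY.continuous.continuousOn).div_const 2)).mul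
      continuous_gw.continuousOn)
  have j2 := integrable_mul hS.1 hφ.continuous hc (g := fun x => (a2 S x + 1 / 2) * f x * gw x)
    ((((NC.contOn_a2 hS.1).add continuousOn_const).mul hf.continuous.continuousOn).mul
      continuous_gw.continuousOn)
  have e : ∫ x, ⟪tgr S φ x, gradient f x⟫ * gw x ∂(area S) =
      ∫ x, ⟪tgr S φ x, tgr S f x⟫ * gw x ∂(area S) := integral_congr_ae
    ((NC.ae_mem hS.1).mono fun x hx => by simp only [inner_tgr hS.1 hx])
  rw [← e, sub_eq_add_neg, ← h, ← integral_add j2 j1]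
  refine integral_congr_ae (Eventually.of_forall fun x => ?_)
  simp only [jacS]
  ring

/-- Ecker's inequality -/
theorem ecker (hS : IsShr S) {f : E3 → ℝ} (hf : ContDiff ℝ 1 f) (hc : HasCompactSupport f) :
    ∫ x, f x ^ 2 * ‖x‖ ^ 2 * gw x ∂(area S) ≤
      8 * ∫ x, f x ^ 2 * gw x ∂(area S) + 16 * ∫ x, ‖tgr S f x‖ ^ 2 * gw x ∂(area S) := by
  have hc2 : HasCompactSupport fun x => f x * f x := hc.mul_right
  have h := wdiv hS (hf.mul hf) hc2 (Y := fun x => x) contDiff_id
  have g := continuous_gw.continuousOn (s := S)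
  have t := contOn_tgr hS.1 hf
  have i1 := integrable_of_supp hS.1 (g := fun x => f x ^ 2 * ‖x‖ ^ 2 * gw x)
    (((hf.continuous.pow 2).mul (continuous_norm.pow 2)).continuousOn.mul g) hc.isCompact
    fun x _ hx => by simp [image_eq_zero_of_notMem_tsupport hx]
  have i2 := integrable_of_supp hS.1 (g := fun x => f x ^ 2 * gw x)
    ((hf.continuous.pow 2).continuousOn.mul g) hc.isCompact
    fun x _ hx => by simp [image_eq_zero_of_notMem_tsupport hx]
  have i3 := integrable_of_supp hS.1 (g := fun x => ‖tgr S f x‖ ^ 2 * gw x)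
    ((t.norm.pow 2).mul g) hc.isCompact fun x _ hx => by simp [tgr_zero hx]
  have i4 := integrable_of_supp hS.1 (g := fun x => f x * ⟪tgr S f x, x⟫ * gw x)
    ((hf.continuous.continuousOn.mul (t.inner continuousOn_id)).mul g) hc.isCompact
    fun x _ hx => by simp [tgr_zero hx]
  have e1 : ∫ x, f x * f x * ((divT S (fun x => x) x - ⟪x, x⟫ / 2) * gw x) ∂(area S) =
      2 * ∫ x, f x ^ 2 * gw x ∂(area S) - 1 / 2 * ∫ x, f x ^ 2 * ‖x‖ ^ 2 * gw x ∂(area S) := by
    rw [← integral_const_mul, ← integral_const_mul,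
      ← integral_sub (i2.const_mul _) (i1.const_mul _)]
    refine integral_congr_ae ((NC.ae_mem hS.1).mono fun x hx => ?_)
    have : divT S (fun x => x) x = 2 := by
      rw [divT, fderiv_fun_id, ContinuousLinearMap.id_apply, real_inner_self_eq_norm_sq,
        hS.1.norm_nu hx]
      simp [tr]
      norm_num
    simp only [this, real_inner_self_eq_norm_sq]
    ring
  have e2 : ∫ x, ⟪tgr S (fun x => f x * f x) x, x⟫ * gw x ∂(area S) =
      2 * ∫ x, f x * ⟪tgr S f x, x⟫ * gw x ∂(area S) := by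
    rw [← integral_const_mul]
    refine integral_congr_ae (Eventually.of_forall fun x => ?_)
    have a := hf.differentiable one_ne_zero x
    simp only [tgr_mul a a, inner_add_left, real_inner_smul_left]
    ring
  have e3 : ∫ x, f x * ⟪tgr S f x, x⟫ * gw x ∂(area S) ≤
      1 / 8 * ∫ x, f x ^ 2 * ‖x‖ ^ 2 * gw x ∂(area S) +
        2 * ∫ x, ‖tgr S f x‖ ^ 2 * gw x ∂(area S) := by
    rw [← integral_const_mul, ← integral_const_mul,
      ← integral_add (i1.const_mul _) (i3.const_mul _)]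
    refine integral_mono i4 ((i1.const_mul _).add (i3.const_mul _)) fun x => ?_
    have a : f x * ⟪tgr S f x, x⟫ ≤ (|f x| * ‖x‖) * ‖tgr S f x‖ := by
      refine (le_abs_self _).trans ?_
      rw [abs_mul, mul_assoc, mul_comm ‖x‖]
      exact mul_le_mul_of_nonneg_left (abs_real_inner_le_norm _ _) (abs_nonneg _)
    have b : f x * ⟪tgr S f x, x⟫ ≤ 1 / 8 * (f x ^ 2 * ‖x‖ ^ 2) + 2 * ‖tgr S f x‖ ^ 2 := by
      rw [← sq_abs (f x)]
      nlinarith [sq_nonneg (|f x| * ‖x‖ - 4 * ‖tgr S f x‖)]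
    have := mul_le_mul_of_nonneg_right b (gw_pos x).le
    simp only
    linarith
  rw [e1, e2] at h
  linarith

/-- coercivity on the functions which are orthogonal to the bumps -/
def Coer (S : Set E3) (P : Finset E3) (ρ A : ℝ) : Prop :=
  ∀ f : E3 → ℝ, ContDiff ℝ 1 f → HasCompactSupport f →
    (∀ p ∈ P, ∫ y, f y * bump p ρ y * gw y ∂(area S) = 0) →
    A * ∫ y, f y ^ 2 * gw y ∂(area S) ≤ ∫ y, ‖tgr S f y‖ ^ 2 * gw y ∂(area S)

theorem exists_coer (hP : PoincStmt) (hS : IsShr S) {r C : ℝ} (hr : 0 < r)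
    (h2 : ∀ x ∈ S, TwoPt S x r C) (A : ℝ) : ∃ R₂ : ℝ, ∀ R, R₂ ≤ R → ∃ r₂ : ℝ, 0 < r₂ ∧ r₂ ≤ 1 ∧
      ∀ ρ, 0 < ρ → ρ ≤ r₂ → ∀ P, IsMesh S R ρ P → Coer S P ρ A := by
  have hA := abs_nonneg A
  refine ⟨4 + 16 * |A|, fun R hR => ?_⟩
  obtain ⟨B, r₁, hB, hr₁, hr₁', H⟩ := hP R C r 1 hr one_pos
  refine ⟨min r₁ (1 / (B * (4 * |A| + 1))), by positivity, (min_le_left _ _).trans (by linarith),
    fun ρ hρ hρ' P hm f hf hc h0 => ?_⟩
  have g := continuous_gw.continuousOn (s := S)
  have i1 := integrable_of_supp hS.1 (g := fun x => f x ^ 2 * ‖x‖ ^ 2 * gw x)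
    (((hf.continuous.pow 2).mul (continuous_norm.pow 2)).continuousOn.mul g) hc.isCompact
    fun x _ hx => by simp [image_eq_zero_of_notMem_tsupport hx]
  have i2 := integrable_of_supp hS.1 (g := fun x => f x ^ 2 * gw x)
    ((hf.continuous.pow 2).continuousOn.mul g) hc.isCompact
    fun x _ hx => by simp [image_eq_zero_of_notMem_tsupport hx]
  have i3 := integrable_of_supp hS.1 (g := fun x => ‖tgr S f x‖ ^ 2 * gw x)
    (((contOn_tgr hS.1 hf).norm.pow 2).mul g) hc.isCompact fun x _ hx => by simp [tgr_zero hx]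
  have a := H ρ hρ (hρ'.trans (min_le_left _ _)) S S P hm hS.1 (fun y hy _ => h2 y hy)
    (hClose_self S R (by positivity)) f _ (gradLe_of_contDiff S _ hf)
    (by rw [one_smul]; exact i3.integrableOn)
  rw [one_smul, Finset.sum_eq_zero fun p hp => by rw [h0 p hp]; ring, mul_zero, add_zero] at a
  set X := ∫ y, f y ^ 2 * gw y ∂(area S)
  set Y := ∫ y, ‖tgr S f y‖ ^ 2 * gw y ∂(area S)
  have hX : 0 ≤ X := integral_nonneg fun y => mul_nonneg (sq_nonneg _) (gw_pos y).le
  have hY : 0 ≤ Y := integral_nonneg fun y => mul_nonneg (sq_nonneg _) (gw_pos y).le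
  have b : ∫ y in closedBall (0 : E3) (R + 1), ‖tgr S f y‖ ^ 2 * gw y ∂(area S) ≤ Y :=
    setIntegral_le_integral i3
      (Eventually.of_forall fun y => mul_nonneg (sq_nonneg _) (gw_pos y).le)
  have c : R ^ 2 * ∫ y in (closedBall (0 : E3) R)ᶜ, f y ^ 2 * gw y ∂(area S) ≤ 8 * X + 16 * Y := by
    refine le_trans ?_ (ecker hS hf hc)
    refine le_trans ?_ (setIntegral_le_integral (s := (closedBall (0 : E3) R)ᶜ) i1
      (Eventually.of_forall fun y => mul_nonneg (by positivity) (gw_pos y).le))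
    rw [← integral_const_mul]
    refine setIntegral_mono_on (i2.const_mul _).integrableOn i1.integrableOn
      measurableSet_closedBall.compl fun y hy => ?_
    have h1 : R ≤ ‖y‖ := (not_le.1 (mt mem_closedBall_zero_iff.2 hy)).le
    have h3 : R ^ 2 ≤ ‖y‖ ^ 2 := pow_le_pow_left₀ (by linarith) h1 2
    have h4 := mul_nonneg (sq_nonneg (f y)) (gw_pos y).le
    nlinarith
  have d := integral_add_compl (μ := area S) (measurableSet_closedBall (x := (0 : E3)) (ε := R)) i2
  set X1 := ∫ y in closedBall (0 : E3) R, f y ^ 2 * gw y ∂(area S)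
  set X2 := ∫ y in (closedBall (0 : E3) R)ᶜ, f y ^ 2 * gw y ∂(area S)
  have hX2 : 0 ≤ X2 := integral_nonneg fun y => mul_nonneg (sq_nonneg _) (gw_pos y).le
  have e1 : B * ρ ^ 2 * (4 * |A| + 1) ≤ 1 := by
    have h1 : ρ ≤ 1 := (hρ'.trans (min_le_left _ _)).trans (by linarith)
    have h3 := (le_div_iff₀ (by positivity)).1 (hρ'.trans (min_le_right _ _))
    have h4 : 0 ≤ ρ * (B * (4 * |A| + 1)) := by positivity
    nlinarith
  have e2 : (4 * |A| + 1) * X1 ≤ Y := by
    have h1 : X1 ≤ B * (ρ ^ 2 * Y) := a.trans (by gcongr; exact b)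
    have := mul_le_mul_of_nonneg_left h1 (by positivity : 0 ≤ 4 * |A| + 1)
    nlinarith
  have e3 : (16 + 128 * |A|) * X2 ≤ 8 * X + 16 * Y := by
    refine le_trans (mul_le_mul_of_nonneg_right ?_ hX2) c
    nlinarith
  have e4 : A * X ≤ |A| * X := mul_le_mul_of_nonneg_right (le_abs_self A) hX
  have e5 : X = X1 + X2 := d.symm
  have hX1 : 0 ≤ X1 := integral_nonneg fun y => mul_nonneg (sq_nonneg _) (gw_pos y).le
  have e6 : X2 * (8 + 128 * |A|) ≤ 8 * X1 + 16 * Y := by nlinarith
  nlinarith [mul_nonneg hA hX1, mul_nonneg hA hX2]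

/-! ### The energy inequality -/

theorem a2_le_of_eqn (hS : IsSurf S) {x : E3} (hx : x ∈ S) {w : E3 → ℝ} (hw : IsEqn S x w) {K : ℝ}
    (h1 : ‖gradient w x‖ = 1) (h2 : ‖fderiv ℝ (gradient w) x‖ ≤ K) : a2 S x ≤ 4 * K ^ 2 := by
  refine (hS.a2_le hx).trans (mul_le_mul_of_nonneg_left
    (pow_le_pow_left₀ (norm_nonneg _) ?_ 2) (by norm_num))
  obtain ⟨ε, hε, -, h⟩ := hw.nu_sh hx
  have hK := (norm_nonneg _).trans h2
  have hn := norm_nuw hw.2.1
  refine ContinuousLinearMap.opNorm_le_bound _ hK fun v => ?_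
  have e : ‖sh S x v‖ = ‖pt (nuw w x) (fderiv ℝ (gradient w) x (pt (nuw w x) v))‖ := by
    rcases hε with rfl | rfl <;> simp [h, shw, h1]
  rw [e]
  refine (norm_pt_le hn _).trans (((fderiv ℝ (gradient w) x).le_opNorm _).trans ?_)
  exact mul_le_mul h2 (norm_pt_le hn v) (norm_nonneg _) hK

theorem exists_cut : ∃ L : ℝ, ∀ r : ℝ, 0 < r → ∀ x, ‖gradient (bump 0 r) x‖ ≤ L / r := by
  obtain ⟨L, hL⟩ := (beta.hasCompactSupport.fderiv ℝ).exists_bound_of_continuous
    ((beta.contDiff (n := 1)).continuous_fderiv one_ne_zero)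
  refine ⟨L, fun r hr x => ?_⟩
  have h1 : HasFDerivAt (fun y : E3 => r⁻¹ • (y - 0)) (r⁻¹ • ContinuousLinearMap.id ℝ E3) x :=
    ((hasFDerivAt_id x).sub_const 0).const_smul r⁻¹
  have h2 := (((beta.contDiff (n := 1)).differentiable one_ne_zero _).hasFDerivAt).comp x h1
  have h3 : fderiv ℝ (bump 0 r) x = _ := h2.fderiv
  rw [norm_grad, h3]
  refine (ContinuousLinearMap.opNorm_comp_le _ _).trans ?_
  rw [norm_smul, ContinuousLinearMap.norm_id, mul_one, norm_inv, Real.norm_of_nonneg hr.le]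
  exact mul_le_mul_of_nonneg_right (hL _) (inv_nonneg.2 hr.le)

theorem tendsto_cut {g : E3 → ℝ} (hg : Integrable g (area S)) :
    Tendsto (fun n : ℕ => ∫ x, bump 0 (n + 1) x ^ 2 * g x ∂(area S)) atTop
      (𝓝 (∫ x, g x ∂(area S))) := by
  refine tendsto_integral_of_dominated_convergence (fun x => ‖g x‖)
    (fun n => ((continuous_bump _ _).pow 2).aestronglyMeasurable.mul hg.1) hg.norm
    (fun n => Eventually.of_forall fun x => ?_) (Eventually.of_forall fun x => ?_)
  · rw [norm_mul, Real.norm_of_nonneg (sq_nonneg _)]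
    exact mul_le_of_le_one_left (norm_nonneg _)
      (pow_le_one₀ (bump_nonneg _ _ _) (bump_le_one _ _ _))
  · refine tendsto_const_nhds.congr' ?_
    filter_upwards [tendsto_natCast_atTop_atTop.eventually_ge_atTop (4 * ‖x‖)] with n hn
    rw [bump_eq_one (by positivity) (by rw [sub_zero]; linarith), one_pow, one_mul]

/-- **the energy inequality**: only the growth of `f` matters -/
theorem energy (hS : IsShr S) {K : ℝ} (hK : ∀ x ∈ S, a2 S x ≤ K) {P : Finset E3} {ρ R : ℝ}
    (hc : Coer S P ρ (K + 3 / 2)) (hP : ∀ p ∈ P, ∀ y, R ≤ ‖y‖ → bump p ρ y = 0)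
    {f : E3 → ℝ} (hf : ContDiff ℝ 2 f) (i1 : Integrable (fun x => f x ^ 2 * gw x) (area S))
    (i2 : Integrable (fun x => f x * (jacS S f x * gw x)) (area S))
    (h0 : ∀ p ∈ P, ∫ y, f y * bump p ρ y * gw y ∂(area S) = 0) :
    ∫ x, f x ^ 2 * gw x ∂(area S) ≤ -∫ x, f x * (jacS S f x * gw x) ∂(area S) := by
  obtain ⟨L, hL⟩ := exists_cut
  have hf1 : ContDiff ℝ 1 f := hf.of_le one_le_two
  have t1 := tendsto_cut i1
  have t2 := (tendsto_cut i2).neg
  have t3 : Tendsto (fun n : ℕ => (L / (n + 1)) ^ 2 * ∫ x, f x ^ 2 * gw x ∂(area S)) atTop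
      (𝓝 0) := by
    have := ((tendsto_const_div_atTop_nhds_zero_nat L).comp (tendsto_add_atTop_nat 1)).pow 2
    simpa using this.mul_const (∫ x, f x ^ 2 * gw x ∂(area S))
  have t4 := t2.add t3
  rw [add_zero] at t4
  refine le_of_tendsto_of_tendsto t1 t4 ?_
  filter_upwards [tendsto_natCast_atTop_atTop.eventually_ge_atTop (4 * R)] with n hn
  have hr : (0 : ℝ) < n + 1 := by positivity
  set η := bump 0 ((n : ℝ) + 1) with hη
  have hη1 : ContDiff ℝ 1 η := (contDiff_bump _ _).of_le one_le_inf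
  have hηc : HasCompactSupport η := hasCompactSupport_bump _ hr
  have g := continuous_gw.continuousOn (s := S)
  have cf := hf.continuous.continuousOn (s := S)
  have cη := hη1.continuous.continuousOn (s := S)
  have a := hc (fun x => η x * f x) (hη1.mul hf1) hηc.mul_right fun p hp => by
    rw [← h0 p hp]
    refine integral_congr_ae (Eventually.of_forall fun y => ?_)
    rcases le_total R ‖y‖ with h | h
    · simp only [hP p hp y h, mul_zero]
    · simp only [hη, bump_eq_one hr (show ‖y - 0‖ ≤ _ by rw [sub_zero]; linarith), one_mul]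
  have b := green hS (φ := fun x => η x * (η x * f x)) (hη1.mul (hη1.mul hf1)) hηc.mul_right hf
  have j1 := integrable_mul hS.1 hη1.continuous hηc (g := fun x => η x * f x ^ 2 * gw x)
    ((cη.mul (cf.pow 2)).mul g)
  have j2 := integrable_mul hS.1 hη1.continuous hηc
    (g := fun x => η x * f x * ((a2 S x + 1 / 2) * f x * gw x))
    ((cη.mul cf).mul ((((NC.contOn_a2 hS.1).add continuousOn_const).mul cf).mul g))
  have j3 := integrable_of_supp hS.1
    (g := fun x => ⟪tgr S (fun x => η x * (η x * f x)) x, tgr S f x⟫ * gw x)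
    (((contOn_tgr hS.1 (hη1.mul (hη1.mul hf1))).inner (contOn_tgr hS.1 hf1)).mul g)
    (hηc.mul_right (f' := fun x => η x * f x)).isCompact fun x _ hx => by
      rw [tgr_zero (φ := fun x => η x * (η x * f x)) hx, inner_zero_left, zero_mul]
  have j4 := integrable_of_supp hS.1 (g := fun x => ‖tgr S (fun x => η x * f x) x‖ ^ 2 * gw x)
    (((contOn_tgr hS.1 (hη1.mul hf1)).norm.pow 2).mul g)
    (hηc.mul_right (f' := f)).isCompact fun x _ hx => by
      rw [tgr_zero (φ := fun x => η x * f x) hx]; simp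
  have e1 : ∫ x, ‖tgr S (fun x => η x * f x) x‖ ^ 2 * gw x ∂(area S) ≤
      ∫ x, ⟪tgr S (fun x => η x * (η x * f x)) x, tgr S f x⟫ * gw x ∂(area S) +
        (L / (n + 1)) ^ 2 * ∫ x, f x ^ 2 * gw x ∂(area S) := by
    rw [← integral_const_mul, ← integral_add j3 (i1.const_mul _)]
    refine integral_mono_ae j4 (j3.add (i1.const_mul _)) ((NC.ae_mem hS.1).mono fun x hx => ?_)
    have d1 := hη1.differentiable one_ne_zero x
    have d2 := hf1.differentiable one_ne_zero x
    have d3 : ‖tgr S η x‖ ^ 2 ≤ (L / (n + 1)) ^ 2 := pow_le_pow_left₀ (norm_nonneg _)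
      ((norm_pt_le (hS.1.norm_nu hx) _).trans (hL _ hr x)) 2
    have d4 := mul_le_mul_of_nonneg_right d3 (mul_nonneg (sq_nonneg (f x)) (gw_pos x).le)
    simp only
    rw [tgr_mul (g := fun x => η x * f x) d1 (d1.mul d2), tgr_mul d1 d2, norm_add_sq_real]
    simp only [inner_add_left, real_inner_smul_left, real_inner_smul_right, norm_smul, mul_pow,
      Real.norm_eq_abs, sq_abs, real_inner_self_eq_norm_sq]
    rw [real_inner_comm (tgr S f x) (tgr S η x)]
    nlinarith
  have e2 : ∫ x, η x * (η x * f x) * ((a2 S x + 1 / 2) * f x * gw x) ∂(area S) ≤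
      (K + 1 / 2) * ∫ x, η x ^ 2 * (f x ^ 2 * gw x) ∂(area S) := by
    rw [← integral_const_mul]
    refine integral_mono_ae (j2.congr (Eventually.of_forall fun x => by ring))
      ((j1.const_mul (K + 1 / 2)).congr (Eventually.of_forall fun x => by ring))
      ((NC.ae_mem hS.1).mono fun x hx => ?_)
    have := mul_le_mul_of_nonneg_right (hK x hx)
      (mul_nonneg (sq_nonneg (η x * f x)) (gw_pos x).le)
    simp only
    nlinarith
  have e3 : ∫ x, (η x * f x) ^ 2 * gw x ∂(area S) = ∫ x, η x ^ 2 * (f x ^ 2 * gw x) ∂(area S) :=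
    integral_congr_ae (Eventually.of_forall fun x => by ring)
  have e4 : ∫ x, η x * (η x * f x) * (jacS S f x * gw x) ∂(area S) =
      ∫ x, η x ^ 2 * (f x * (jacS S f x * gw x)) ∂(area S) :=
    integral_congr_ae (Eventually.of_forall fun x => by ring)
  rw [e3] at a
  rw [e4] at b
  linarith

theorem area_pos (hS : IsSurf S) {x : E3} (hx : x ∈ S) {U : Set E3} (hU : U ∈ 𝓝[S] x) :
    0 < area S U := by
  obtain ⟨r, hr, h⟩ := Metric.mem_nhdsWithin_iff.1 hU
  obtain ⟨t, h1, h2⟩ := ((Chart.lower_proof S hS x hx).and (Ioo_mem_nhdsGT hr)).exists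
  refine (ENNReal.ofReal_pos.2 (pow_pos h2.1 2)).trans_le (h1.trans (measure_mono_ae ?_))
  filter_upwards [NC.ae_mem hS] with y hy hy' using h ⟨ball_subset_ball h2.2.le hy', hy⟩

theorem eq_zero_of_integral (hS : IsSurf S) {f : E3 → ℝ} (hf : ContinuousOn f S)
    (i : Integrable (fun x => f x ^ 2 * gw x) (area S))
    (h : ∫ x, f x ^ 2 * gw x ∂(area S) ≤ 0) : ∀ x ∈ S, f x = 0 := by
  intro x hx
  by_contra h0
  have h1 : 0 ≤ fun x => f x ^ 2 * gw x := fun y => mul_nonneg (sq_nonneg _) (gw_pos y).le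
  refine h.not_gt ((integral_pos_iff_support_of_nonneg h1 i).2 (area_pos hS hx ?_))
  filter_upwards [(hf x hx).eventually_ne h0] with y hy
  exact mul_ne_zero (pow_ne_zero 2 hy) (gw_pos y).ne'

theorem tgr_congr (hS : IsSurf S) {f g : E3 → ℝ} {x : E3} (hx : x ∈ S)
    (hf : DifferentiableAt ℝ f x) (hg : DifferentiableAt ℝ g x)
    (h : ∀ᶠ y in 𝓝 x, y ∈ S → f y = g y) : tgr S f x = tgr S g x := by
  refine ext_inner_right ℝ fun v => ?_
  rw [tgr, tgr, inner_pt_left, inner_pt_left, inner_grad, inner_grad]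
  exact NC.fderiv_tangent hS hx hf hg h (inner_pt_nrm (hS.norm_nu hx) v)

/-- the weighted integral of `f L f` is negative -/
theorem energy_neg (hS : IsShr S) {K : ℝ} (hK : ∀ x ∈ S, a2 S x ≤ K) {P : Finset E3} {ρ R : ℝ}
    (hc : Coer S P ρ (K + 3 / 2)) (hP : ∀ p ∈ P, ∀ y, R ≤ ‖y‖ → bump p ρ y = 0)
    {f : E3 → ℝ} (hf : ContDiff ℝ 2 f) (i1 : Integrable (fun x => f x ^ 2 * gw x) (area S))
    (i2 : Integrable (fun x => f x * (jacS S f x * gw x)) (area S))
    (h0 : ∀ p ∈ P, ∫ y, f y * bump p ρ y * gw y ∂(area S) = 0) {x : E3} (hx : x ∈ S)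
    (hne : f x ≠ 0) : ∫ x, f x * (jacS S f x * gw x) ∂(area S) < 0 := by
  have h := energy hS hK hc hP hf i1 i2 h0
  by_contra h1
  exact hne (eq_zero_of_integral hS.1 hf.continuous.continuousOn i1 (by linarith) x hx)

/-- **no kernel**: `L f` a combination of the bumps, `f` orthogonal to the bumps -/
theorem ker_jac (hS : IsShr S) {K : ℝ} (hK : ∀ x ∈ S, a2 S x ≤ K) {P : Finset E3} {ρ R : ℝ}
    (hc : Coer S P ρ (K + 3 / 2)) (hm : IsMesh S R ρ P) (hρ : 0 < ρ) (hρ1 : ρ ≤ 1)
    {f : E3 → ℝ} (hf : ContDiff ℝ 2 f) (i1 : Integrable (fun x => f x ^ 2 * gw x) (area S))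
    (κ : P → ℝ) (he : ∀ x ∈ S, jacS S f x = ∑ p : P, κ p * bump p ρ x)
    (h0 : ∀ p ∈ P, ∫ y, f y * bump p ρ y * gw y ∂(area S) = 0) :
    (∀ x ∈ S, f x = 0) ∧ κ = 0 := by
  have g := continuous_gw.continuousOn (s := S)
  have j : ∀ p : P, Integrable (fun x => κ p * (f x * bump p ρ x * gw x)) (area S) := fun p =>
    ((integrable_mul hS.1 (continuous_bump p ρ) (hasCompactSupport_bump p hρ)
      (hf.continuous.continuousOn.mul g)).congr
        (Eventually.of_forall fun x => by simp only [Pi.mul_apply]; ring)).const_mul _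
  have e : ∀ᵐ x ∂(area S), ∑ p : P, κ p * (f x * bump p ρ x * gw x) =
      f x * (jacS S f x * gw x) := (NC.ae_mem hS.1).mono fun x hx => by
    rw [he x hx, Finset.sum_mul, Finset.mul_sum]
    exact Finset.sum_congr rfl fun p _ => by ring
  have h := energy hS hK hc (fun p hp y hy => hm.bump_far hρ hρ1 hp hy) hf i1
    ((integrable_finsetSum _ fun p _ => j p).congr e) h0
  rw [← integral_congr_ae e, integral_finsetSum _ fun p _ => j p,
    Finset.sum_eq_zero fun (p : P) _ => by rw [integral_const_mul, h0 p p.2, mul_zero],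
    neg_zero] at h
  have f0 := eq_zero_of_integral hS.1 hf.continuous.continuousOn i1 h
  refine ⟨f0, hm.indep hρ κ ?_⟩
  set φ : E3 → ℝ := fun x => ∑ p : P, κ p * bump p ρ x
  have hφ : ContDiff ℝ 1 φ := ContDiff.sum fun p _ =>
    contDiff_const.mul ((contDiff_bump p ρ).of_le one_le_inf)
  have hφc : HasCompactSupport φ := HasCompactSupport.intro (isCompact_closedBall 0 (R + 1))
    fun y hy => Finset.sum_eq_zero fun p _ => by
      rw [hm.bump_far hρ hρ1 p.2 (not_le.1 (mt mem_closedBall_zero_iff.2 hy)).le, mul_zero]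
  have b := green hS hφ hφc hf
  have e1 : ∫ x, φ x * (jacS S f x * gw x) ∂(area S) = ∫ x, φ x ^ 2 * gw x ∂(area S) :=
    integral_congr_ae ((NC.ae_mem hS.1).mono fun x hx => by simp only [he x hx]; ring)
  have e2 : ∫ x, φ x * ((a2 S x + 1 / 2) * f x * gw x) ∂(area S) = 0 :=
    integral_eq_zero_of_ae ((NC.ae_mem hS.1).mono fun x hx => by simp [f0 x hx])
  have e3 : ∫ x, ⟪tgr S φ x, tgr S f x⟫ * gw x ∂(area S) = 0 :=
    integral_eq_zero_of_ae ((NC.ae_mem hS.1).mono fun x hx => by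
      have := tgr_congr hS.1 hx (hf.differentiable (by simp) x) (differentiableAt_const (0 : ℝ))
        (Eventually.of_forall f0)
      simp only [this]
      simp [tgr])
  rw [e1, e2, e3, sub_zero] at b
  refine eq_zero_of_integral hS.1 hφ.continuous.continuousOn ?_ b.le
  exact (integrable_mul hS.1 hφ.continuous hφc (hφ.continuous.continuousOn.mul g)).congr
    (Eventually.of_forall fun x => by simp only [Pi.mul_apply]; ring)

/-- functions of polynomial growth are integrable for the Gaussian weight -/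
theorem integrable_poly (hS : IsSurf S) {D : ℝ} (hD : AreaRatio D S) {g : E3 → ℝ}
    (hg : ContinuousOn g S) {C : ℝ} {k : ℕ} (h : ∀ x ∈ S, |g x| ≤ C * (1 + ‖x‖) ^ k) :
    Integrable (fun x => g x * gw x) (area S) := by
  refine ((integrable_gk hD 0 two_pos).const_mul
    (|C| * Real.exp (2 * k ^ 2) * (4 * Real.pi * 2))).mono'
    (NC.aesm hS (hg.mul continuous_gw.continuousOn)) ((NC.ae_mem hS).mono fun x hx => ?_)
  have h1 : (1 + ‖x‖) ^ k ≤ Real.exp (k * ‖x‖) := by
    rw [Real.exp_nat_mul]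
    exact pow_le_pow_left₀ (by positivity) (by linarith [Real.add_one_le_exp ‖x‖]) k
  have h2 : Real.exp (k * ‖x‖) * gw x ≤ Real.exp (2 * k ^ 2) * Real.exp (-‖x‖ ^ 2 / (4 * 2)) := by
    rw [gw, ← Real.exp_add, ← Real.exp_add]
    exact Real.exp_le_exp.2 (by nlinarith [sq_nonneg (‖x‖ - 4 * k)])
  have h3 : |g x| ≤ |C| * Real.exp (k * ‖x‖) :=
    (h x hx).trans (mul_le_mul (le_abs_self C) h1 (by positivity) (abs_nonneg C))
  have h4 := Real.pi_pos
  rw [norm_mul, Real.norm_eq_abs, Real.norm_of_nonneg (gw_pos x).le, gk, sub_zero]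
  calc |g x| * gw x ≤ |C| * Real.exp (k * ‖x‖) * gw x :=
        mul_le_mul_of_nonneg_right h3 (gw_pos x).le
    _ ≤ |C| * (Real.exp (2 * k ^ 2) * Real.exp (-‖x‖ ^ 2 / (4 * 2))) := by
        rw [mul_assoc]; exact mul_le_mul_of_nonneg_left h2 (abs_nonneg C)
    _ = _ := by field_simp

end Vale.Agent.P218F.Inj
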