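import Vale.Agent.P218F.SymSpec
import Mathlib.Analysis.SpecialFunctions.Pow.Complex
import Mathlib.Analysis.SpecialFunctions.Pow.Real
import Mathlib.Analysis.Calculus.Deriv.Basic
import Mathlib.MeasureTheory.Integral.IntervalIntegral.Basic

/-!
# P218, block NORMAL: statements

Finite dimensional block between LS (reduced functional `f R (b, c)` in the internal
coordinates, `c j` in the disc `Sym.Om (2 * Lam) R`) and K (family `F R (b, w)` in the `R`-independent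
coordinates `w`).  Exported value of `d` : `3 / 5` (any `0 < d ≤ 1` works here).
-/

noncomputable section

namespace Vale.Agent.P218F.Nm

open Set Metric Filter Topology

/-- parameter space: `q` mesh moments and one parameter for each of the `m` cylindrical ends -/
abbrev X (q m : ℕ) : Type := (Fin q → ℂ) × (Fin m → ℂ)

/-- `B_r × U^m` -/
def dom (q m : ℕ) (r : ℝ) (U : Set ℂ) : Set (X q m) := {x | ‖x.1‖ < r ∧ ∀ j, x.2 j ∈ U}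

/-- real points -/
def IsRe {q m : ℕ} (x : X q m) : Prop := (∀ i, (x.1 i).im = 0) ∧ ∀ j, (x.2 j).im = 0

/-- `bet y = 2 π √y e^(-y/4)` -/
def bet (y : ℂ) : ℂ := 2 * Real.pi * y ^ (1 / 2 : ℂ) * Complex.exp (-y / 4)

/-- the functions exported by LS, of `R` and `x = (b, c)`; `T` is the space of tilts of one end -/
structure LSF (q m : ℕ) (T : Type) [NormedAddCommGroup T] [NormedSpace ℂ T] where
  f : ℝ → X q m → ℂ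
  a : ℝ → X q m → Fin m → ℂ
  bt : ℝ → X q m → Fin m → T
  kap : ℝ → X q m → Fin q → ℂ
  mu : ℝ → X q m → Fin m → ℂ
  tau : ℝ → X q m → Fin m → T →L[ℂ] ℂ
  main : ℝ → X q m → Fin m → ℂ

/-- what NORMAL uses of LS; `Y` is the inverse map of `Sym.Inv` -/
structure LSN {q m : ℕ} {T : Type} [NormedAddCommGroup T] [NormedSpace ℂ T]
    (d Lam R0 r C : ℝ) (Y : ℝ → ℂ → ℂ) (S : LSF q m T) : Prop where
  rpos : 0 < r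
  a_hol : ∀ R, R0 ≤ R → DifferentiableOn ℂ (S.a R) (dom q m r (Sym.Om (2 * Lam) R))
  bt_hol : ∀ R, R0 ≤ R → DifferentiableOn ℂ (S.bt R) (dom q m r (Sym.Om (2 * Lam) R))
  bdd : ∀ R, R0 ≤ R → ∀ x ∈ dom q m r (Sym.Om (2 * Lam) R),
    ‖S.f R x‖ ≤ C ∧ ‖S.a R x‖ ≤ C ∧ ‖S.bt R x‖ ≤ C
  real : ∀ R, R0 ≤ R → ∀ x ∈ dom q m r (Sym.Om (2 * Lam) R), IsRe x →
    (S.f R x).im = 0 ∧ ∀ j, (S.a R x j).im = 0
  lipR : ∀ R R', R0 ≤ R → R ≤ R' → R' ≤ R + 1 → ∀ x ∈ dom q m r (Sym.Om (2 * Lam) R'),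
    ‖S.a R' x - S.a R x‖ ≤ C * (R' - R) * R ^ (-5 - d) ∧
      ‖S.bt R' x - S.bt R x‖ ≤ C * (R' - R) * R ^ (-5 - d)
  nondeg : ∀ R, R0 ≤ R → ∀ w : Fin m → ℂ, ‖w‖ ≤ C * ‖fderiv ℂ (S.a R) 0 (0, w)‖
  /-- the increment lemma; no uniformity of `K`, `ε` -/
  incr : ∀ R₁, R0 ≤ R₁ → ∀ x₁ ∈ dom q m r (Sym.Om (2 * Lam) R₁), ∃ K ε : ℝ, 0 < ε ∧
    ∀ R R' x x', R0 ≤ R → R ≤ R' → |R - R₁| < ε → |R' - R₁| < ε →
      x ∈ dom q m r (Sym.Om (2 * Lam) R) → x' ∈ dom q m r (Sym.Om (2 * Lam) R') →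
      ‖x - x₁‖ < ε → ‖x' - x₁‖ < ε →
      ‖S.f R' x' - S.f R x - ∑ i, S.kap R x i * (x'.1 i - x.1 i)
          - ∑ j, S.mu R x j * (S.a R' x' j - S.a R x j)
          - ∑ j, S.tau R x j (S.bt R' x' j - S.bt R x j)
          - ((R' - R : ℝ) : ℂ) * ∑ j, S.main R x j‖ ≤ K * ((R' - R) ^ 2 + ‖x' - x‖ ^ 2)
  tau_le : ∀ R, R0 ≤ R → ∀ x ∈ dom q m r (Sym.Om (2 * Lam) R), ∀ j,
    ‖S.tau R x j‖ ≤ C * Real.exp (-R ^ 2 / 4)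
  main_le : ∀ R, R0 ≤ R → ∀ x ∈ dom q m r (Sym.Om (2 * Lam) R), ∀ j,
    ‖S.main R x j - (Real.exp (-R ^ 2 / 4) : ℝ) * bet (Y R (x.2 j))‖ ≤
      C * Real.exp (-R ^ 2 / 4) * R ^ (-2 - d) * ‖Y R (x.2 j)‖ ^ (-(1 / 2) : ℝ)

/-- the hypotheses (K1), (K2) of block K, on `B_r × (Sym.Om L R)^m` -/
structure KN {q m : ℕ} (d L R0 r C : ℝ) (Y : ℝ → ℂ → ℂ) (F : ℝ → X q m → ℂ) : Prop where
  rpos : 0 < r
  hol : ∀ R, R0 ≤ R → DifferentiableOn ℂ (F R) (dom q m r (Sym.Om L R))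
  bdd : ∀ R, R0 ≤ R → ∀ x ∈ dom q m r (Sym.Om L R), ‖F R x‖ ≤ C
  real : ∀ R, R0 ≤ R → ∀ x ∈ dom q m r (Sym.Om L R), IsRe x → (F R x).im = 0
  inc : ∀ R₁ R₂, R0 ≤ R₁ → R₁ ≤ R₂ → ∀ x ∈ dom q m r (Sym.Om L R₂),
    ‖F R₂ x - F R₁ x -
        ∫ s in R₁..R₂, ((Real.exp (-s ^ 2 / 4) : ℝ) : ℂ) * ∑ j, bet (Y s (x.2 j))‖ ≤
      C * ∫ s in R₁..R₂,
        Real.exp (-s ^ 2 / 4) * s ^ (-2 - d) * ∑ j, ‖Y s (x.2 j)‖ ^ (-(1 / 2) : ℝ)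

/-- every small real internal point is a point in the true coordinates -/
def Transfer {q m : ℕ} {T : Type} [NormedAddCommGroup T] [NormedSpace ℂ T]
    (d R1 r C : ℝ) (S : LSF q m T) (F : ℝ → X q m → ℂ) : Prop :=
  ∀ R, R1 ≤ R → ∀ x : X q m, IsRe x → ‖x.1‖ < r → ‖x.2‖ ≤ 1 / (2 * R ^ 2) →
    ∃ w : Fin m → ℂ, IsRe (x.1, w) ∧ ‖w - x.2‖ ≤ C * R ^ (-4 - d) ∧
      F R (x.1, w) = S.f R x ∧
      ‖fderiv ℂ (F R) (x.1, w)‖ ≤ C * (‖S.kap R x‖ + ‖S.mu R x‖ + Real.exp (-R ^ 2 / 4))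

/-- **NORMAL** -/
def NormStmt : Prop :=
  ∀ (q m : ℕ) (T : Type) [NormedAddCommGroup T] [NormedSpace ℂ T] [CompleteSpace T]
    (d C₀ Lam R0 r C : ℝ) (cc Y : ℝ → ℂ → ℂ) (S : LSF q m T), 0 < d → d ≤ 1 → 1 ≤ Lam → 1 ≤ R0 →
    Sym.Inv C₀ Lam R0 cc Y → LSN d Lam R0 r C Y S →
      ∃ (R1 r1 C1 : ℝ) (F : ℝ → X q m → ℂ), R0 ≤ R1 ∧ r1 ≤ r ∧
        KN d (4 * Lam) R1 r1 C1 Y F ∧ Transfer d R1 r1 C1 S F

/-- output of K + ALG + LOJ in the true coordinates -/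
def KLOut {q m : ℕ} (F : ℝ → X q m → ℂ) : Prop :=
  ∃ (M : ℕ) (β r δ : ℝ) (fs : ℂ), 1 < β ∧ 0 < r ∧ 0 < δ ∧
    Tendsto (fun R => F R 0) atTop (𝓝 fs) ∧
    ∀ L : ℕ, ∃ C R1 : ℝ, ∀ R, R1 ≤ R → ∀ x : X q m, IsRe x → ‖x.1‖ < r → ‖x.2‖ ≤ δ / R ^ 2 →
      ‖x.2‖ ^ M ≤ C * (‖fderiv ℂ (F R) x‖ + 1 / R ^ L) ∧
      ‖F R x - fs‖ ^ (1 / β) ≤ C * (‖fderiv ℂ (F R) x‖ + 1 / R ^ L)

/-- output for FT, in the internal coordinates -/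
def KLInt {q m : ℕ} {T : Type} [NormedAddCommGroup T] [NormedSpace ℂ T] (S : LSF q m T) : Prop :=
  ∃ (M : ℕ) (β r δ₀ : ℝ) (fs : ℂ), 1 < β ∧ 0 < r ∧ 0 < δ₀ ∧
    Tendsto (fun R => S.f R 0) atTop (𝓝 fs) ∧
    ∀ δ, 0 < δ → δ ≤ δ₀ → ∀ L : ℕ, ∃ C R1 : ℝ, ∀ R, R1 ≤ R →
      ∀ x : X q m, IsRe x → ‖x.1‖ < r → ‖x.2‖ ≤ δ / R ^ 2 →
        ‖S.f R x - fs‖ ^ (1 / β) ≤ C * (‖S.kap R x‖ + ‖S.mu R x‖ + 1 / R ^ L) ∧
        (δ / (2 * R ^ 2) ≤ ‖x.2‖ → 1 / R ^ (2 * M) ≤ C * (‖S.kap R x‖ + ‖S.mu R x‖))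

/-- block K (with ALG, LOJ, TIP) for the universal function `Y` of SYM -/
def KFor (d Lam R0 : ℝ) (Y : ℝ → ℂ → ℂ) : Prop :=
  ∀ (q m : ℕ) (R1 r C : ℝ) (F : ℝ → X q m → ℂ), R0 ≤ R1 → KN d (4 * Lam) R1 r C Y F → KLOut F

/-- **NORMAL + K**: the finite dimensional Lojasiewicz inequality for the reduced functional -/
def KLStmt : Prop :=
  ∀ (q m : ℕ) (T : Type) [NormedAddCommGroup T] [NormedSpace ℂ T] [CompleteSpace T]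
    (d C₀ Lam R0 r C : ℝ) (cc Y : ℝ → ℂ → ℂ) (S : LSF q m T), 0 < d → d ≤ 1 → 1 ≤ Lam → 1 ≤ R0 →
    Sym.Inv C₀ Lam R0 cc Y → LSN d Lam R0 r C Y S → KFor d Lam R0 Y → KLInt S

/-- a family of holomorphic maps with values in a Banach space which converges like
`R ^ (-4 - d)` -/
structure PFam {q m : ℕ} {V : Type*} [NormedAddCommGroup V] [NormedSpace ℂ V]
    (d L R0 r C : ℝ) (g : ℝ → X q m → V) : Prop where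
  rpos : 0 < r
  hol : ∀ R, R0 ≤ R → DifferentiableOn ℂ (g R) (dom q m r (Sym.Om L R))
  bdd : ∀ R, R0 ≤ R → ∀ x ∈ dom q m r (Sym.Om L R), ‖g R x‖ ≤ C
  lipR : ∀ R R', R0 ≤ R → R ≤ R' → R' ≤ R + 1 → ∀ x ∈ dom q m r (Sym.Om L R'),
    ‖g R' x - g R x‖ ≤ C * (R' - R) * R ^ (-5 - d)

/-- the radius attached to a parameter -/
def Rof {q m : ℕ} (δ : ℝ) (x : X q m) : ℝ := √(δ / ‖x.2‖)

open Classical in
/-- the global family `x ↦ g (R x) x`, equal to the limit `T` for `c = 0` -/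
def glue {q m : ℕ} {V : Type*} (δ : ℝ) (g : ℝ → X q m → V) (T : X q m → V) (x : X q m) : V :=
  if x.2 = 0 then T x else g (Rof δ x) x

end Vale.Agent.P218F.Nm
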