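import Vale.Agent.P218F.Wien4
import Vale.Agent.P218F.CoreSpec

/-!
# Traces of `C^{2,α}` functions lie compactly in the Wiener space of order two
-/

noncomputable section

namespace Vale.Agent.P218F.Wien

open Filter Topology Set
open scoped Real

set_option maxSynthPendingDepth 3

theorem isCompactOperator_finset_sum {ι Z W : Type*} [NormedAddCommGroup Z] [NormedSpace ℂ Z]
    [NormedAddCommGroup W] [NormedSpace ℂ W] (B : Finset ι) (T : ι → Z →L[ℂ] W)
    (h : ∀ i, IsCompactOperator (T i)) : IsCompactOperator (∑ i ∈ B, T i : Z →L[ℂ] W) := by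
  classical
  induction B using Finset.induction_on with
  | empty => simpa using isCompactOperator_zero
  | insert i B hi ih =>
    rw [Finset.sum_insert hi]
    exact (h i).add ih

/-- The projection to finitely many modes is compact. -/
theorem isCompactOperator_proj {s : ℕ} {P : Set ℤ} (hP : P.Finite) :
    IsCompactOperator (proj ℤ s ℂ P) := by
  have e : proj ℤ s ℂ P = ∑ k ∈ hP.toFinset, (single s k).comp (cfL s ℂ k) := by
    refine ContinuousLinearMap.ext fun u => ?_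
    have := proj_finset hP.toFinset u
    rw [hP.coe_toFinset] at this
    rw [this]
    simp
  rw [e]
  exact isCompactOperator_finset_sum _ _ fun k =>
    (isCompactOperator_of_locallyCompactSpace_dom (cfL s ℂ k)).clm_comp (single s k)

/-- An operator into a Wiener space with uniformly small tails is compact. -/
theorem isCompactOperator_of_tail {Z : Type*} [NormedAddCommGroup Z] [NormedSpace ℂ Z] {s : ℕ}
    (T : Z →L[ℂ] WA ℤ s ℂ) {e : ℕ → ℝ} (he : Tendsto e atTop (𝓝 0)) (he0 : ∀ N, 0 ≤ e N)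
    (h : ∀ N z, ‖proj ℤ s ℂ {k | (2 : ℝ) ^ N ≤ |(k : ℝ)|} (T z)‖ ≤ e N * ‖z‖) :
    IsCompactOperator T := by
  refine isCompactOperator_of_tendsto (l := atTop)
    (F := fun N : ℕ => (proj ℤ s ℂ {k | (2 : ℝ) ^ N ≤ |(k : ℝ)|}ᶜ).comp T) ?_
    (Eventually.of_forall fun N => (isCompactOperator_proj (finite_low N)).comp_clm T)
  rw [tendsto_iff_norm_sub_tendsto_zero]
  refine squeeze_zero (fun _ => norm_nonneg _) (fun N => ?_) he
  refine ContinuousLinearMap.opNorm_le_bound _ (he0 N) fun z => ?_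
  have := proj_add_compl {k : ℤ | (2 : ℝ) ^ N ≤ |(k : ℝ)|} (T z)
  have e1 : ((proj ℤ s ℂ {k | (2 : ℝ) ^ N ≤ |(k : ℝ)|}ᶜ).comp T - T) z =
      -proj ℤ s ℂ {k | (2 : ℝ) ^ N ≤ |(k : ℝ)|} (T z) := by
    change proj ℤ s ℂ _ (T z) - T z = _
    rw [eq_neg_iff_add_eq_zero, sub_add_eq_add_sub, add_comm, this, sub_self]
  rw [e1, norm_neg]
  exact h N z

/-- The inclusion into the next weaker space is compact. -/
theorem isCompactOperator_incl (s : ℕ) : IsCompactOperator (incl ℤ ℂ (Nat.le_succ s)) := by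
  refine isCompactOperator_of_tail _ (e := fun N => ((2 : ℝ) ^ N)⁻¹)
    (tendsto_inv_atTop_zero.comp (tendsto_pow_atTop_atTop_of_one_lt one_lt_two))
    (fun N => by positivity) fun N u => ?_
  have e : proj ℤ s ℂ {k | (2 : ℝ) ^ N ≤ |(k : ℝ)|} (incl ℤ ℂ (Nat.le_succ s) u) =
      incl ℤ ℂ (Nat.le_succ s) (proj ℤ (s + 1) ℂ {k | (2 : ℝ) ^ N ≤ |(k : ℝ)|} u) := by
    ext k
    by_cases hk : k ∈ {k : ℤ | (2 : ℝ) ^ N ≤ |(k : ℝ)|}
    · simp [cf_proj_of_mem hk]
    · simp [cf_proj_of_notMem hk]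
  rw [e]
  refine norm_incl_proj_le (by positivity) (fun k hk => ?_) u
  rw [norm_int]
  exact le_trans hk (by linarith)

theorem exists_trace {α : ℝ} (hα : 1 / 2 < α) {Z : Type*} [NormedAddCommGroup Z] [NormedSpace ℂ Z]
    (τ : Z →ₗ[ℂ] ℝ → ℂ) (C : ℝ)
    (h : ∀ z, ContDiff ℝ 2 (τ z) ∧ Function.Periodic (τ z) (2 * π) ∧ ∀ θ,
      ‖τ z θ‖ ≤ C * ‖z‖ ∧
      ∀ θ', ‖deriv (deriv (τ z)) θ - deriv (deriv (τ z)) θ'‖ ≤ C * ‖z‖ * |θ - θ'| ^ α) :
    ∃ T : Z →L[ℂ] WA ℤ 2 ℂ, IsCompactOperator T ∧ ∀ z θ, ev 2 ℂ θ (T z) = τ z θ := by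
  have key : ∀ z, ∃ u : WA ℤ 2 ℂ, (∀ θ, ev 2 ℂ θ u = τ z θ) ∧
      ‖u‖ ≤ C * ‖z‖ + 2 ^ 2 * bC α * (C * ‖z‖) ∧
      ∀ N : ℕ, ‖proj ℤ 2 ℂ {k | (2 : ℝ) ^ N ≤ |(k : ℝ)|} u‖ ≤
        2 ^ 2 * bC α * (C * ‖z‖) * bq α ^ N := by
    intro z
    obtain ⟨h1, h2, h3⟩ := h z
    have d1 : ContDiff ℝ 1 (deriv (τ z)) := ((contDiff_succ_iff_deriv (n := 1)).1 h1).2.2
    have d2 : Continuous (deriv (deriv (τ z))) := d1.continuous_deriv le_rfl
    refine exists_of_holder (s := 2) (f := fun j => deriv^[j] (τ z)) (fun j hj θ => ?_) d2 h2 hα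
      ((norm_nonneg _).trans (h3 0).1) (fun θ => (h3 θ).1) fun x y => (h3 x).2 y
    rw [Function.iterate_succ_apply']
    interval_cases j
    · exact (h1.differentiable (by norm_num) θ).hasDerivAt
    · exact (d1.differentiable (by norm_num) θ).hasDerivAt
  choose u hu hn ht using key
  have hb := bC_pos hα
  have hC : ∀ z : Z, C * ‖z‖ ≤ |C| * ‖z‖ := fun z =>
    mul_le_mul_of_nonneg_right (le_abs_self C) (norm_nonneg _)
  let T : Z →L[ℂ] WA ℤ 2 ℂ := LinearMap.mkContinuous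
    { toFun := u
      map_add' := fun x y => ext_ev fun θ => by simp [hu]
      map_smul' := fun c x => ext_ev fun θ => by simp [hu] } (|C| + 2 ^ 2 * bC α * |C|) fun z => by
        refine (hn z).trans ?_
        have := hC z
        calc _ ≤ |C| * ‖z‖ + 2 ^ 2 * bC α * (|C| * ‖z‖) := by gcongr
          _ = _ := by ring
  refine ⟨T, ?_, hu⟩
  refine isCompactOperator_of_tail T (e := fun N => 2 ^ 2 * bC α * |C| * bq α ^ N) ?_
    (fun N => by have := bq_pos α; positivity) fun N z => (ht z N).trans ?_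
  · simpa using (tendsto_pow_atTop_nhds_zero_of_lt_one (bq_pos α).le (bq_lt_one hα)).const_mul
      (2 ^ 2 * bC α * |C|)
  · have := hC z
    have := bq_pos α
    calc _ ≤ 2 ^ 2 * bC α * (|C| * ‖z‖) * bq α ^ N := by gcongr
      _ = _ := by ring

/-- Evaluation of a family of elements of the Wiener space. -/
def evJ (J : Type) : (J → WA ℤ 2 ℂ) →ₗ[ℂ] J → ℝ → ℂ where
  toFun g j θ := ev 2 ℂ θ (g j)
  map_add' _ _ := by funext j θ; simp
  map_smul' _ _ := by funext j θ; simp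

@[simp] theorem evJ_apply {J : Type} (g : J → WA ℤ 2 ℂ) (j : J) (θ : ℝ) :
    evJ J g j θ = ev 2 ℂ θ (g j) := rfl

theorem traceOK {α : ℝ} (hα : 1 / 2 < α) (J : Type) [Fintype J] : Core.TraceOK α (evJ J) := by
  classical
  refine ⟨fun g g' h => funext fun j => ext_ev fun θ => congrFun (congrFun h j) θ,
    fun Z _ _ τ C h => ?_⟩
  have key := fun j => exists_trace hα ((LinearMap.proj j).comp τ) C fun z =>
    ⟨(h z j).1, (h z j).2.1, fun θ => ⟨((h z j).2.2 θ).1, ((h z j).2.2 θ).2.2.2⟩⟩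
  choose T hT hev using key
  refine ⟨∑ j, (ContinuousLinearMap.single ℂ (fun _ : J => WA ℤ 2 ℂ) j).comp (T j),
    isCompactOperator_finset_sum _ _ fun j =>
      (hT j).clm_comp (ContinuousLinearMap.single ℂ (fun _ : J => WA ℤ 2 ℂ) j), fun z => ?_⟩
  funext j θ
  have : (∑ j, (ContinuousLinearMap.single ℂ (fun _ : J => WA ℤ 2 ℂ) j).comp (T j)) z j =
      T j z := by
    simp [Finset.sum_apply, Pi.single_apply]
  rw [evJ_apply, this, hev]
  rfl

end Vale.Agent.P218F.Wien
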