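import Vale.Agent.P218F.LSDefs
import Vale.Agent.P218F.NormSpec
import Vale.Agent.P218F.EndSpec
import Vale.Agent.P218F.FtSpec
import Vale.Agent.P218F.WienTr

/-!
# The reduction near a shrinker: statements of the blocks
-/

open MeasureTheory Set Filter Topology Metric Matrix
open scoped ContDiff RealInnerProductSpace Real

set_option maxSynthPendingDepth 3

noncomputable section

namespace Vale.Agent.P218F.LS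

open Vale.Agent.P218FT hiding P2
open Vale.Agent.P218F.Core Vale.Agent.P218F.Ends Vale.Agent.P218F.Ft Vale.Agent.P218F.Mesh

/-! ### What the end solvers deliver -/

/-- traces on a circle -/
abbrev AA : Type := Wien.WA ℤ 2 ℂ

/-- real traces -/
def ReA (g : AA) : Prop := ∀ θ, (Wien.ev 2 ℂ θ g).im = 0

/-- Solutions `B + ei g • W` on `[s, ∞) × S¹` near the graph of `gr`; `g` is the full trace of the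
graph function, `lowi g = 0` is the matching condition; `e'`, `low'` are the linearisations. -/
structure InfFam (B W : P2 → C3) (gr : P2 → ℝ) (s δ C : ℝ) (g0 : AA) (ei : AA → P2 → ℂ)
    (lowi : AA → Fin 3 → ℂ) (e' : AA →ₗ[ℂ] P2 → ℂ) (low' : AA →L[ℂ] Fin 3 → ℂ) : Prop where
  δpos : 0 < δ
  ev0 : ∀ θ, Wien.ev 2 ℂ θ g0 = gr (s, θ)
  c2 : ∀ g ∈ ball g0 δ, ContDiffOn ℝ 2 (ei g) (Ioi s ×ˢ univ)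
  cont : ∀ g ∈ ball g0 δ, ContinuousOn (ei g) (Ici s ×ˢ univ)
  per : ∀ g ∈ ball g0 δ, ∀ p : P2, ei g (p.1, p.2 + 2 * π) = ei g p
  eq : ∀ g ∈ ball g0 δ, ∀ p : P2, s < p.1 → shrG B W p (jet2 (ei g) p) = 0
  pos : ∀ g ∈ ball g0 δ, ∀ p : P2, s < p.1 →
    W p ⬝ᵥ nor (fderiv ℝ (fun η => B η + ei g η • W η) p) ≠ 0 ∧
      0 < (gdet (fderiv ℝ (fun η => B η + ei g η • W η) p)).re
  mat : ∀ g ∈ ball g0 δ, lowi g = 0 → ∀ θ, ei g (s, θ) = Wien.ev 2 ℂ θ g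
  real : ∀ g ∈ ball g0 δ, ReA g → (∀ p : P2, s ≤ p.1 → (ei g p).im = 0) ∧ IsRe (lowi g)
  hol : ∀ p : P2, s < p.1 → p.1 < s + 6 →
    DifferentiableOn ℂ (fun g => jet1 (ei g) p) (ball g0 δ)
  hlow : DifferentiableOn ℂ lowi (ball g0 δ)
  base : ∀ p : P2, s ≤ p.1 → ei g0 p = gr p
  low0 : lowi g0 = 0
  c2' : ∀ h, ContDiffOn ℝ 2 (e' h) (Ioi s ×ˢ univ)
  cont' : ∀ h, ContinuousOn (e' h) (Ici s ×ˢ univ)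
  per' : ∀ h (p : P2), e' h (p.1, p.2 + 2 * π) = e' h p
  eq' : ∀ h (p : P2), s < p.1 →
    fderiv ℂ (shrG B W p) (jet2 (fun η => (gr η : ℂ)) p) (jet2 (e' h) p) = 0
  mat' : ∀ h, low' h = 0 → ∀ θ, e' h (s, θ) = Wien.ev 2 ℂ θ h
  real' : ∀ h, ReA h → (∀ p : P2, s ≤ p.1 → (e' h p).im = 0) ∧ IsRe (low' h)
  bd' : ∀ h (p : P2), s < p.1 → p.1 < s + 6 → ‖jet2 (e' h) p‖ ≤ C * ‖h‖
  dev : ∀ g ∈ ball g0 δ, ∀ p : P2, s < p.1 → p.1 < s + 6 →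
    ‖jet2 (ei g) p - jet2 (fun η => (gr η : ℂ)) p - jet2 (e' (g - g0)) p‖ ≤ C * ‖g - g0‖ ^ 2
  devlow : ∀ g ∈ ball g0 δ, ‖lowi g - low' (g - g0)‖ ≤ C * ‖g - g0‖ ^ 2

/-- the polar graph `e` is `ε`-close to the cylinder at `p` -/
def CylSm (ε : ℝ) (e : P2 → ℂ) (p : P2) : Prop :=
  ‖jet2 (fun η => e η - (√2 : ℝ)) p‖ ≤ ε ∧ ‖(p.1 : ℂ) * fderiv ℝ e p (1, 0)‖ ≤ ε

/-- the graph `u` over the cone is `ε`-small at `p` -/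
def ConeSm (ε : ℝ) (u : P2 → ℂ) (p : P2) : Prop :=
  ‖jet2 u p‖ ≤ ε ∧ ‖((Real.exp p.1 : ℝ) : ℂ) * fderiv ℝ u p (1, 0)‖ ≤ ε

/-- conical ends -/
structure ConeFam (B W : P2 → C3) (gr : P2 → ℝ) (ε s δ C η : ℝ) (g0 : AA) (ei : AA → P2 → ℂ)
    (e' : AA →ₗ[ℂ] P2 → ℂ) : Prop extends InfFam B W gr s δ C g0 ei 0 e' 0 where
  ηpos : 0 < η
  small : ∀ g ∈ ball g0 δ, ∀ p : P2, s < p.1 → ConeSm ε (scl (ei g)) p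
  marg : ∀ g ∈ ball g0 δ, ∀ p : P2, s < p.1 →
    η * Real.exp (4 * p.1) ≤ (gdet (fderiv ℝ (fun η => B η + ei g η • W η) p)).re
  lip : ∀ g ∈ ball g0 δ, ∀ g' ∈ ball g0 δ, ∀ p : P2, s < p.1 →
    ‖jet1 (scl (ei g')) p - jet1 (scl (ei g)) p‖ ≤ C * ‖g' - g‖
  glob' : ∀ h (p : P2), s < p.1 → ‖jet1 (scl (e' h)) p‖ ≤ C * ‖h‖

/-- cylindrical ends: `e R g c` solves on `[s, R] × S¹` with the Neumann condition at `R` and tip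
value `Y R c`; `ei g` is the limit `R → ∞`; `u` is the derivative with respect to `c` -/
structure CylFam (B W : P2 → C3) (r : P2 → ℝ) (Λ : ℝ) (Y : ℝ → ℂ → ℂ) (ε s δ δ₁ C R0 : ℝ)
    (g0 : AA) (ei : AA → P2 → ℂ) (lowi : AA → Fin 3 → ℂ) (e' : AA →ₗ[ℂ] P2 → ℂ)
    (low' : AA →L[ℂ] Fin 3 → ℂ) (u : P2 → ℝ) (e : ℝ → AA → ℂ → P2 → ℂ)
    (low : ℝ → AA → ℂ → Fin 3 → ℂ) : Prop extends InfFam B W r s δ C g0 ei lowi e' low' where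
  δ₁pos : 0 < δ₁
  big : 2 * s + 20 ≤ R0
  smalli : ∀ g ∈ ball g0 δ, ∀ p : P2, s < p.1 → CylSm ε (ei g) p
  lipi : ∀ g ∈ ball g0 δ, ∀ g' ∈ ball g0 δ, ∀ p : P2, s < p.1 →
    ‖jet1 (ei g') p - jet1 (ei g) p‖ ≤ C * ‖g' - g‖
  glob' : ∀ h (p : P2), s < p.1 → ‖jet1 (e' h) p‖ ≤ C * ‖h‖
  jac : IsJac B W r s u
  fc2 : ∀ R, R0 ≤ R → ∀ g ∈ ball g0 δ, ∀ c ∈ Sym.Om (2 * Λ) R,
    ContDiffOn ℝ 2 (e R g c) (Icc s R ×ˢ univ)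
  fper : ∀ R, R0 ≤ R → ∀ g ∈ ball g0 δ, ∀ c ∈ Sym.Om (2 * Λ) R, ∀ p : P2,
    e R g c (p.1, p.2 + 2 * π) = e R g c p
  feq : ∀ R, R0 ≤ R → ∀ g ∈ ball g0 δ, ∀ c ∈ Sym.Om (2 * Λ) R, ∀ p : P2, s < p.1 → p.1 < R →
    e R g c p ≠ 0 ∧ shrG B W p (jet2 (e R g c) p) = 0 ∧ ‖jet1 (e R g c) p‖ ≤ C
  neu : ∀ R, R0 ≤ R → ∀ g ∈ ball g0 δ, ∀ c ∈ Sym.Om (2 * Λ) R, ∀ θ,
    fderivWithin ℝ (e R g c) (Icc s R ×ˢ univ) (R, θ) (1, 0) = 0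
  fmat : ∀ R, R0 ≤ R → ∀ g ∈ ball g0 δ, ∀ c ∈ Sym.Om (2 * Λ) R, low R g c = 0 →
    ∀ θ, e R g c (s, θ) = Wien.ev 2 ℂ θ g
  freal : ∀ R, R0 ≤ R → ∀ g ∈ ball g0 δ, ∀ c ∈ Sym.Om (2 * Λ) R, ReA g → c.im = 0 →
    (∀ p : P2, s ≤ p.1 → p.1 ≤ R → (e R g c p).im = 0) ∧ IsRe (low R g c)
  fhol : ∀ R, R0 ≤ R → (∀ p : P2, s < p.1 → p.1 < s + 6 → DifferentiableOn ℂ
      (fun q : AA × ℂ => jet1 (e R q.1 q.2) p) (ball g0 δ ×ˢ Sym.Om (2 * Λ) R)) ∧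
    DifferentiableOn ℂ (fun q : AA × ℂ => low R q.1 q.2) (ball g0 δ ×ˢ Sym.Om (2 * Λ) R)
  /-- (X3) -/
  x3 : ∀ R R', R0 ≤ R → R ≤ R' → R' ≤ R + 1 → ∀ g ∈ ball g0 δ, ∀ c ∈ Sym.Om (2 * Λ) R',
    ‖low R' g c - low R g c‖ ≤ C * (R' - R) * R ^ (-5 - 3 / 5 : ℝ) ∧
      ∀ p : P2, s < p.1 → p.1 < s + 6 →
        ‖jet2 (e R' g c) p - jet2 (e R g c) p‖ ≤ C * (R' - R) * R ^ (-5 - 3 / 5 : ℝ)
  /-- (X4): local bounds, margins and Lipschitz estimates, no uniformity -/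
  x4 : ∀ R₁, R0 ≤ R₁ → ∀ g₁ ∈ ball g0 δ, ∀ c₁ ∈ Sym.Om (2 * Λ) R₁, ∃ M η ε₁ : ℝ, 0 < η ∧ 0 < ε₁ ∧
    ∀ R, R0 ≤ R → |R - R₁| < ε₁ → ∀ g ∈ ball g0 δ, ‖g - g₁‖ < ε₁ → ∀ c ∈ Sym.Om (2 * Λ) R,
      ‖c - c₁‖ < ε₁ →
      (∀ p ∈ Icc s R ×ˢ (univ : Set ℝ), ‖jw2 (Icc s R ×ˢ univ) (e R g c) p‖ ≤ M ∧
        η ≤ (gC (jw1 (Icc s R ×ˢ univ) (e R g c) p)).re) ∧
      ∀ R', R ≤ R' → |R' - R₁| < ε₁ → ∀ g' ∈ ball g0 δ, ‖g' - g₁‖ < ε₁ →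
        ∀ c' ∈ Sym.Om (2 * Λ) R', ‖c' - c₁‖ < ε₁ → ∀ p : P2, s < p.1 → p.1 < R →
          ‖jet1 (e R' g' c') p - jet1 (e R g c) p‖ ≤ M * (R' - R + ‖g' - g‖ + ‖c' - c‖)
  /-- (X5): the length of the boundary circle -/
  x5 : ∀ R, R0 ≤ R → ∀ g ∈ ball g0 δ, ∀ c ∈ Sym.Om (2 * Λ) R,
    ‖(∫ θ in (0 : ℝ)..2 * π, Complex.exp (-e R g c (R, θ) ^ 2 / 4) *
        Complex.sqrt (e R g c (R, θ) ^ 2 + deriv (fun t => e R g c (R, t)) θ ^ 2)) -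
      Nm.bet (Y R c)‖ ≤ C * R ^ (-2 - 3 / 5 : ℝ) * ‖Y R c‖ ^ (-(1 / 2) : ℝ)
  /-- (X6) -/
  x6 : ∀ R, R0 ≤ R → ∀ g ∈ ball g0 δ, ∀ c ∈ Sym.Om (2 * Λ) R, ‖c‖ ≤ δ₁ / R ^ 2 →
    ∀ p : P2, s < p.1 → p.1 < R → CylSm ε (e R g c) p
  /-- (X7), (X8): the limit `R → ∞` -/
  x7 : ∀ Z ε' : ℝ, 0 < ε' → ∃ R₁, ∀ R, R₁ ≤ R → ∀ g ∈ ball g0 δ, ∀ c ∈ Sym.Om (2 * Λ) R,
    ‖low R g c - lowi g‖ ≤ ε' ∧
      ∀ p : P2, s < p.1 → p.1 < Z → ‖jet2 (e R g c) p - jet2 (ei g) p‖ ≤ ε'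
  x7W : ∀ p : P2, s < p.1 → p.1 < s + 6 →
    Tendsto (fun q : ℝ × AA => deriv (fun c : ℂ => e q.1 q.2 c p) 0) (atTop ×ˢ 𝓝 g0) (𝓝 (u p))

/-- the output of SYM -/
structure SymOut (C Λ Z₀ R₀ κ : ℝ) (V P : ℝ → ℂ → Sym.BC) (cc Y : ℝ → ℂ → ℂ) : Prop where
  one : 1 ≤ C
  lam : 1 ≤ Λ
  zpos : 0 < Z₀
  zlam : 2 * Λ ≤ Z₀ ^ 2
  fam : Sym.Fam C Λ Z₀ R₀ V P cc
  lip : Sym.LipR C Λ Z₀ R₀ V P cc
  inv : Sym.Inv C Λ R₀ cc Y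
  tip1 : Sym.Tip1 C Λ R₀ κ cc
  tip2 : Sym.Tip2 Λ κ Y

/-- **END-CYL** -/
def CylFamStmt : Prop :=
  ∀ C₀ : ℝ, ∃ Λ₁ : ℝ, ∀ (Λ Z₀ R₀ κ : ℝ) (V P : ℝ → ℂ → Sym.BC) (cc Y : ℝ → ℂ → ℂ), Λ₁ ≤ Λ →
    SymOut C₀ Λ Z₀ R₀ κ V P cc Y → ∀ (S : Set E3) (D : EndData S), IsShr S → ∀ (j : Fin D.m)
    (ε : ℝ), 0 < ε → ∃ Z : ℝ, ∀ s, Z ≤ s →
    ∃ (δ δ₁ C R0 : ℝ) (g0 : AA) (ei : AA → P2 → ℂ) (lowi : AA → Fin 3 → ℂ)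
      (e' : AA →ₗ[ℂ] P2 → ℂ) (low' : AA →L[ℂ] Fin 3 → ℂ) (u : P2 → ℝ)
      (e : ℝ → AA → ℂ → P2 → ℂ) (low : ℝ → AA → ℂ → Fin 3 → ℂ),
      CylFam (Bx D (.inl j)) (Wx D (.inl j)) (gS D (.inl j)) Λ Y ε s δ δ₁ C R0 g0 ei lowi e' low'
        u e low

/-- **END-CONE** -/
def ConeFamStmt : Prop :=
  ∀ (S : Set E3) (D : EndData S), IsShr S → ∀ (i : Fin D.k) (ε : ℝ), 0 < ε → ∃ a0 : ℝ, ∀ a, a0 ≤ a →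
    ∃ (δ C η : ℝ) (g0 : AA) (ei : AA → P2 → ℂ) (e' : AA →ₗ[ℂ] P2 → ℂ),
      ConeFam (Bx D (.inr i)) (Wx D (.inr i)) (gS D (.inr i)) ε a δ C η g0 ei e'

/-! ### Frames and charts -/

variable {S : Set E3}

/-- the charts of the ends -/
structure Charts (S : Set E3) (D : EndData S) : Prop where
  smooth : ∀ j, ContDiff ℝ ∞ (Bs D j) ∧ ContDiff ℝ ∞ (Wd D j) ∧ ContDiff ℝ ∞ (gS D j)
  per : ∀ j (p : P2), Bs D j (p.1, p.2 + 2 * π) = Bs D j p ∧ Wd D j (p.1, p.2 + 2 * π) = Wd D j p ∧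
    gS D j (p.1, p.2 + 2 * π) = gS D j p
  mem : ∀ j (p : P2), st D j ≤ p.1 → Kd D j p ∈ S
  inj : ∀ j j' (p p' : P2), st D j ≤ p.1 → st D j' ≤ p'.1 → Kd D j p = Kd D j' p' →
    j = j' ∧ p'.1 = p.1 ∧ ∃ k : ℤ, p'.2 = p.2 + k * (2 * π)
  imm : ∀ j (p : P2), rn (fderiv ℝ (Kd D (.inl j)) p) ≠ 0 ∧
    ⟪Wd D (.inl j) p, rn (fderiv ℝ (Kd D (.inl j)) p)⟫ ≠ 0
  closed : ∀ j t, st D j ≤ t → IsClosed (Kd D j '' {p | t ≤ p.1})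
  par : ∀ j (p : P2), st D j < p.1 → rn (fderiv ℝ (Kd D j) p) ≠ 0 → Par S (Kd D j) p
  isOpen : ∀ j t, st D j ≤ t → ∀ p : P2, t < p.1 → rn (fderiv ℝ (Kd D j) p) ≠ 0 →
    ∀ᶠ x in 𝓝 (Kd D j p), x ∈ S → ∃ p' : P2, t < p'.1 ∧ x = Kd D j p'
  cpt : ∀ t : JJ D → ℝ, (∀ j, st D j ≤ t j) →
    (∀ j (p : P2), t j < p.1 → rn (fderiv ℝ (Kd D j) p) ≠ 0) →
    IsCompact {x | x ∈ S ∧ ∀ j (p : P2), t j < p.1 → x ≠ Kd D j p}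
  height : ∀ j (p : P2), ⟪D.c j, Kd D (.inl j) p⟫ = p.1
  norm_cyl : ∀ j (p : P2), 0 ≤ p.1 → p.1 ≤ ‖Kd D (.inl j) p‖ ∧ ‖Kd D (.inl j) p‖ ≤ p.1 + 2
  norm_cone : ∀ i (p : P2), Real.exp p.1 ≤ ‖Kd D (.inr i) p‖ ∧ ‖Kd D (.inr i) p‖ ≤ 2 * Real.exp p.1

/-- **CHARTS** -/
def ChartStmt : Prop := ∀ (S : Set E3) (D : EndData S), IsSurf S → Charts S D

/-- **FRAME** -/
def FrameStmt : Prop :=
  ∀ (S : Set E3) (D : EndData S) (V₀ : E3 → ℝ), IsEq0 S V₀ → ∃ Z : ℝ, ∀ z₀ ya : ℝ, Z ≤ z₀ →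
    Real.log (z₀ + 8) + 3 ≤ ya →
    ∃ F : Frm S, F.D = D ∧ F.V₀ = V₀ ∧ F.z₀ = z₀ ∧ F.ya = ya ∧ F.OK

/-- **GEO**: the geometry of the core problem -/
def GeoStmt : Prop :=
  ∀ (S : Set E3) (F : Frm S), F.OK → S.Nonempty → Core.Geo S F.C0 F.Kc ∧
    (∀ t, 0 ≤ t → t < 6 → ∀ x ∈ F.Cr t, x ∈ F.C0 ∨ ∃ j y, y.1 ∈ Ioc 0 t ∧ F.Kc j y = x) ∧
    (∀ t, F.Cr t = Ft.core F.D (F.z₀ + 11) F.ya t) ∧ ∀ x ∈ S, ‖x‖ ≤ F.z₀ + 8 → x ∈ F.C0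

/-- **EL**: the operator of the core problem, and its form on the collars -/
def ElStmt : Prop :=
  ∀ (S : Set E3) (F : Frm S), F.OK → S.Nonempty → ∀ (κ : Type) [Fintype κ] (χ : κ → E3 → ℝ),
    F.Src χ → ElOK S F.C0 F.Kc F.V (fun a x => rot (F.om (F.tl a) x) (cE x))
      (fun a x => F.W (F.tl a) x) (Sum.elim χ 0 : F.Ix κ → E3 → ℝ) (3 / 4) (1 / 100) ∧
    ∀ j (y : P2), y.1 ∈ Ioo (0 : ℝ) 6 → ∀ q : J2 P2 ℂ,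
      (shrE F.D j (F.s1 j + y.1, y.2) (jS F.D j (F.s1 j + y.1, y.2) + (F.σ j : ℂ) • q) = 0 →
        F.op χ 0 (F.Kc j) y q = 0) ∧
      (fderiv ℂ (shrE F.D j (F.s1 j + y.1, y.2)) (jS F.D j (F.s1 j + y.1, y.2)) q = 0 →
        lin (F.op χ) (F.Kc j) y (0, q) = 0)

/-! ### The kernel of the linearised problem -/

/-- the linearised problem has no kernel -/
def NoKer (F : Frm S) {q : ℕ} (χ : Fin q ⊕ Fin F.D.m → E3 → ℝ) : Prop :=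
  ∀ u₁ : Fin F.D.m → P2 → ℝ,
    (∀ j, IsJac (Bx F.D (.inl j)) (Wx F.D (.inl j)) (gS F.D (.inl j)) (F.z₀ + 11) (u₁ j)) →
    ∀ cd w a u, F.LinSol χ u₁ cd w a u → (∀ i, mo F.C0 (χ (.inl i)) w = 0) →
      (cd = 0 ∨ ∀ j, mo F.C0 (χ (.inr j)) w = 0) → (∀ x ∈ F.C0, w x = 0) ∧ a = 0 ∧ cd = 0

/-- **KER**: sources on the cylindrical ends, and the energy argument -/
def KerStmt : Prop :=
  ∀ (D₀ G₀ : ℝ) (S : Set E3), IsShr S → InC D₀ G₀ (ssFlow S) (Iio 0) → S.Nonempty →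
    ∃ R₂ : ℝ, ∀ R, R₂ ≤ R → ∃ r₂ : ℝ, 0 < r₂ ∧ r₂ ≤ 1 ∧ ∀ r, 0 < r → r ≤ r₂ → ∀ P : Finset E3,
      IsMesh S R r P → ∀ (q : ℕ) (en : Fin q ≃ P) (F : Frm S), F.OK → R + 1 ≤ F.z₀ →
      ∀ u₀ : Fin F.D.m → P2 → ℝ,
      (∀ j, IsJac (Bx F.D (.inl j)) (Wx F.D (.inl j)) (gS F.D (.inl j)) F.z₀ (u₀ j)) →
      ∃ ψ : Fin F.D.m → E3 → ℝ, F.Src (chis (fun i => (en i : E3)) r ψ) ∧
        NoKer F (chis (fun i => (en i : E3)) r ψ)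

/-! ### The reduction -/

/-- the end solvers of a frame -/
structure EF (F : Frm S) where
  Λ : ℝ
  Y : ℝ → ℂ → ℂ
  ε : ℝ
  δ : ℝ
  δ₁ : ℝ
  C : ℝ
  η : ℝ
  R0 : ℝ
  g0 : JJ F.D → AA
  ei : JJ F.D → AA → P2 → ℂ
  e' : JJ F.D → AA →ₗ[ℂ] P2 → ℂ
  lowi : Fin F.D.m → AA → Fin 3 → ℂ
  low' : Fin F.D.m → AA →L[ℂ] Fin 3 → ℂ
  u : Fin F.D.m → P2 → ℝ
  e : Fin F.D.m → ℝ → AA → ℂ → P2 → ℂ
  low : Fin F.D.m → ℝ → AA → ℂ → Fin 3 → ℂ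

variable {F : Frm S}

/-- the properties of the end solvers -/
structure EF.OK (H : EF F) : Prop where
  inv : ∃ (C₀ R₀ : ℝ) (cc : ℝ → ℂ → ℂ), Sym.Inv C₀ H.Λ R₀ cc H.Y ∧ 1 ≤ R₀ ∧ R₀ ≤ H.R0
  lam : 1 ≤ H.Λ
  eps : 0 < H.ε ∧ H.ε ≤ 1 / 10
  cyl : ∀ j, CylFam (Bx F.D (.inl j)) (Wx F.D (.inl j)) (gS F.D (.inl j)) H.Λ H.Y H.ε (F.z₀ + 11)
    H.δ H.δ₁ H.C H.R0 (H.g0 (.inl j)) (H.ei (.inl j)) (H.lowi j) (H.e' (.inl j)) (H.low' j) (H.u j)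
    (H.e j) (H.low j)
  cone : ∀ i, ConeFam (Bx F.D (.inr i)) (Wx F.D (.inr i)) (gS F.D (.inr i)) H.ε F.ya H.δ H.C H.η
    (H.g0 (.inr i)) (H.ei (.inr i)) (H.e' (.inr i))
  δpos : 0 < H.δ
  δ₁pos : 0 < H.δ₁

/-- the trace of the graph function -/
def EF.g (H : EF F) (t : JJ F.D → AA) (j : JJ F.D) : AA := H.g0 j + (F.σ j : ℂ) • t j

/-- the end solutions for finite `R` -/
def EF.eR (H : EF F) (R : ℝ) (c : Fin F.D.m → ℂ) (t : JJ F.D → AA) : JJ F.D → P2 → ℂ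
  | .inl j => H.e j R (H.g t (.inl j)) (c j)
  | .inr i => H.ei (.inr i) (H.g t (.inr i))

/-- the end solutions for `R = ∞` -/
def EF.eI (H : EF F) (t : JJ F.D → AA) (j : JJ F.D) : P2 → ℂ := H.ei j (H.g t j)

section red

variable {q : ℕ} {Z : Type} [NormedAddCommGroup Z] [NormedSpace ℂ Z]

/-- the unknowns -/
abbrev Un (F : Frm S) (q : ℕ) (Z : Type) : Type := Z × (F.Ix (Fin q ⊕ Fin F.D.m) → ℂ)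

/-- the function space -/
structure Sp (χ : Fin q ⊕ Fin F.D.m → E3 → ℝ) (val : Z →ₗ[ℂ] E3 → ℂ)
    (tr : Un F q Z →L[ℂ] JJ F.D → AA) : Prop where
  jet : ∀ φ y, Par S φ y → φ y ∈ Mo F.C0 F.Kc → ∃ r > 0, ∃ C : ℝ, ∀ z, ∀ y' ∈ ball y r,
    ContDiffAt ℝ 2 (fun t => val z (φ t)) y' ∧ ‖jet2 (fun t => val z (φ t)) y'‖ ≤ C * ‖z‖
  tr : ∀ s j θ, Wien.ev 2 ℂ θ (tr s j) = val s.1 (F.Kc j (0, θ))
  sup : ∃ C : ℝ, ∀ z, ∀ x ∈ F.C0, ‖val z x‖ ≤ C * ‖z‖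
  cont : ∀ z, ContinuousOn (val z) F.C0
  mom : ∀ i, ∃ L : Z →L[ℂ] ℂ, ∀ z, L z = mo F.C0 (χ i) (val z)

/-- a solution with moments `b`, glued to the end solutions `e` -/
structure Sol (χ : Fin q ⊕ Fin F.D.m → E3 → ℝ) (val : Z →ₗ[ℂ] E3 → ℂ)
    (tr : Un F q Z →L[ℂ] JJ F.D → AA) (ρ : ℝ) (b : Fin q → ℂ) (s : Un F q Z)
    (e : JJ F.D → P2 → ℂ) : Prop where
  norm : ‖s‖ ≤ ρ
  trn : ‖tr s‖ ≤ ρ
  eq : F.Eqn χ (val s.1) s.2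
  mom : ∀ i, mo F.C0 (χ (.inl i)) (val s.1) = b i
  glue : F.Glue (val s.1) e

/-- real unknowns -/
def ReU (val : Z →ₗ[ℂ] E3 → ℂ) (s : Un F q Z) : Prop :=
  IsRe s.2 ∧ ∀ x ∈ Mo F.C0 F.Kc, (val s.1 x).im = 0

/-- **the reduction**: `s R (b, c)` for finite `R`, `si b` for `R = ∞` -/
structure Red (H : EF F) (χ : Fin q ⊕ Fin F.D.m → E3 → ℝ) (val : Z →ₗ[ℂ] E3 → ℂ)
    (tr : Un F q Z →L[ℂ] JJ F.D → AA) (ρ R0 r C : ℝ) (s : ℝ → Nm.X q F.D.m → Un F q Z)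
    (si : (Fin q → ℂ) → Un F q Z) : Prop where
  big : H.R0 ≤ R0
  rho : ρ < H.δ
  fam : Nm.PFam (3 / 5) (2 * H.Λ) R0 r C s
  sol : ∀ R, R0 ≤ R → ∀ x ∈ Nm.dom q F.D.m r (Sym.Om (2 * H.Λ) R),
    Sol χ val tr ρ x.1 (s R x) (H.eR R x.2 (tr (s R x)))
  real : ∀ R, R0 ≤ R → ∀ x ∈ Nm.dom q F.D.m r (Sym.Om (2 * H.Λ) R), Nm.IsRe x → ReU val (s R x)
  soli : ∀ b, ‖b‖ < r → IsRe b → Sol χ val tr ρ b (si b) (H.eI (tr (si b))) ∧ ReU val (si b)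
  zero : si 0 = 0
  lim : ∀ b, ‖b‖ < r → Tendsto (fun R => s R (b, 0)) atTop (𝓝 (si b))

/-- the functions exported to NORMAL -/
def lsf (H : EF F) (χ : Fin q ⊕ Fin F.D.m → E3 → ℝ) (val : Z →ₗ[ℂ] E3 → ℂ)
    (tr : Un F q Z →L[ℂ] JJ F.D → AA) (s : ℝ → Nm.X q F.D.m → Un F q Z)
    (tau : ℝ → Nm.X q F.D.m → Fin F.D.m → (Fin 2 → ℂ) →L[ℂ] ℂ)
    (main : ℝ → Nm.X q F.D.m → Fin F.D.m → ℂ) : Nm.LSF q F.D.m (Fin 2 → ℂ) where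
  f R x := F.en R⁻¹ (val (s R x).1) (F.tl (s R x).2) (H.eR R x.2 (tr (s R x)))
  a R x j := mo F.C0 (χ (.inr j)) (val (s R x).1)
  bt R x := F.tl (s R x).2
  kap R x i := -(s R x).2 (.inl (.inl i))
  mu R x j := -(s R x).2 (.inl (.inr j))
  tau := tau
  main := main

/-- the properties of the Gaussian area; `fi b` is the area for `R = ∞` -/
structure EnOut {m : ℕ} (Λ R0 r C : ℝ) (Y : ℝ → ℂ → ℂ) (L : Nm.LSF q m (Fin 2 → ℂ))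
    (fi : (Fin q → ℂ) → ℂ) (fS : ℝ) : Prop where
  bdd : ∀ R, R0 ≤ R → ∀ x ∈ Nm.dom q m r (Sym.Om (2 * Λ) R), ‖L.f R x‖ ≤ C
  real : ∀ R, R0 ≤ R → ∀ x ∈ Nm.dom q m r (Sym.Om (2 * Λ) R), Nm.IsRe x → (L.f R x).im = 0
  incr : ∀ R₁, R0 ≤ R₁ → ∀ x₁ ∈ Nm.dom q m r (Sym.Om (2 * Λ) R₁), ∃ K ε : ℝ, 0 < ε ∧
    ∀ R R' x x', R0 ≤ R → R ≤ R' → |R - R₁| < ε → |R' - R₁| < ε →
      x ∈ Nm.dom q m r (Sym.Om (2 * Λ) R) → x' ∈ Nm.dom q m r (Sym.Om (2 * Λ) R') →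
      ‖x - x₁‖ < ε → ‖x' - x₁‖ < ε →
      ‖L.f R' x' - L.f R x - ∑ i, L.kap R x i * (x'.1 i - x.1 i)
          - ∑ j, L.mu R x j * (L.a R' x' j - L.a R x j)
          - ∑ j, L.tau R x j (L.bt R' x' j - L.bt R x j)
          - ((R' - R : ℝ) : ℂ) * ∑ j, L.main R x j‖ ≤ K * ((R' - R) ^ 2 + ‖x' - x‖ ^ 2)
  tau_le : ∀ R, R0 ≤ R → ∀ x ∈ Nm.dom q m r (Sym.Om (2 * Λ) R), ∀ j,
    ‖L.tau R x j‖ ≤ C * Real.exp (-R ^ 2 / 4)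
  main_le : ∀ R, R0 ≤ R → ∀ x ∈ Nm.dom q m r (Sym.Om (2 * Λ) R), ∀ j,
    ‖L.main R x j - (Real.exp (-R ^ 2 / 4) : ℝ) * Nm.bet (Y R (x.2 j))‖ ≤
      C * Real.exp (-R ^ 2 / 4) * R ^ (-2 - 3 / 5 : ℝ) * ‖Y R (x.2 j)‖ ^ (-(1 / 2) : ℝ)
  lim : ∀ b, ‖b‖ < r → IsRe b → Tendsto (fun R => L.f R (b, 0)) atTop (𝓝 (fi b))
  base : fi 0 = fS

/-- the limit `R → ∞` of a family, and the strict differentiability of the glued family -/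
structure PLim {m : ℕ} {V : Type} [NormedAddCommGroup V] [NormedSpace ℂ V] (r : ℝ)
    (g : ℝ → Nm.X q m → V) (T : Nm.X q m → V) (Dz : Nm.X q m →L[ℂ] V) : Prop where
  lim : ∀ b, ‖b‖ < r → Tendsto (fun R => g R (b, 0)) atTop (𝓝 (T (b, 0)))
  der : Tendsto (fun R => fderiv ℂ (g R) 0) atTop (𝓝 Dz)
  strict : ∀ δ : ℝ, 0 < δ → δ ≤ 1 / 4 → HasStrictFDerivAt (Nm.glue δ g T) Dz 0

/-- the moments of the derivative -/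
structure Nondeg (χ : Fin q ⊕ Fin F.D.m → E3 → ℝ) (val : Z →ₗ[ℂ] E3 → ℂ)
    (Dz : Nm.X q F.D.m →L[ℂ] Un F q Z) : Prop where
  mom : ∀ x i, mo F.C0 (χ (.inl i)) (val (Dz x).1) = x.1 i
  inj : ∀ x : Nm.X q F.D.m, x.1 = 0 → (∀ j, mo F.C0 (χ (.inr j)) (val (Dz x).1) = 0) → x.2 = 0

/-- small unknowns give good surfaces -/
def GoodAt (val : Z →ₗ[ℂ] E3 → ℂ) (ρ : ℝ) : Prop :=
  ∀ s : Un F q Z, ‖s‖ ≤ ρ → ∀ p ∈ F.C0,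
    Reg S 2 (F.Y (val s.1) (F.tl s.2)) p ∧ Gd S (F.Y (val s.1) (F.tl s.2)) p

end red

/-- **PLIM** -/
def PLimStmt : Prop :=
  ∀ (q m : ℕ) (V : Type) [NormedAddCommGroup V] [NormedSpace ℂ V] [CompleteSpace V]
    (C₀ Λ R₀ R0 r C : ℝ) (cc Y : ℝ → ℂ → ℂ) (g : ℝ → Nm.X q m → V), Sym.Inv C₀ Λ R₀ cc Y → 1 ≤ Λ →
    1 ≤ R₀ → R₀ ≤ R0 → Nm.PFam (3 / 5) (2 * Λ) R0 r C g → ∃ T Dz, PLim r g T Dz

/-- **KL**: the Lojasiewicz inequality for the reduced functional -/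
def KLAll : Prop :=
  ∀ C₀ : ℝ, ∃ Λ₂ : ℝ, ∀ (Λ Z₀ R₀ κ : ℝ) (V P : ℝ → ℂ → Sym.BC) (cc Y : ℝ → ℂ → ℂ), Λ₂ ≤ Λ →
    SymOut C₀ Λ Z₀ R₀ κ V P cc Y → ∀ (q m : ℕ) (R0 r C : ℝ) (L : Nm.LSF q m (Fin 2 → ℂ)),
      R₀ ≤ R0 → Nm.LSN (3 / 5) Λ R0 r C Y L → Nm.KLInt L

/-- **DAT**: the core theorem applied to the data of the ends -/
def DatStmt : Prop :=
  ∀ (S : Set E3) (F : Frm S), F.OK → S.Nonempty → ∀ H : EF F, H.OK →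
    ∀ (q : ℕ) (χ : Fin q ⊕ Fin F.D.m → E3 → ℝ), F.Src χ → NoKer F χ →
    ∃ (Z : Type) (_ : NormedAddCommGroup Z) (_ : NormedSpace ℂ Z) (val : Z →ₗ[ℂ] E3 → ℂ)
      (tr : Un F q Z →L[ℂ] JJ F.D → AA), CompleteSpace Z ∧ Sp χ val tr ∧
      ∃ ρ0 > 0, ∀ ρ, 0 < ρ → ρ ≤ ρ0 → ∃ R0 r C s si, Red H χ val tr ρ R0 r C s si

/-- **LINID**: the derivative at `0` solves the linearised problem -/
def LinIdStmt : Prop :=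
  ∀ (S : Set E3) (F : Frm S), F.OK → S.Nonempty → ∀ H : EF F, H.OK →
    ∀ (q : ℕ) (χ : Fin q ⊕ Fin F.D.m → E3 → ℝ), F.Src χ → NoKer F χ →
    ∀ (Z : Type) [NormedAddCommGroup Z] [NormedSpace ℂ Z] (val : Z →ₗ[ℂ] E3 → ℂ)
      (tr : Un F q Z →L[ℂ] JJ F.D → AA), Sp χ val tr → ∀ ρ R0 r C s si,
      Red H χ val tr ρ R0 r C s si → ∀ Dz : Nm.X q F.D.m →L[ℂ] Un F q Z,
      Tendsto (fun R => fderiv ℂ (s R) 0) atTop (𝓝 Dz) → Nondeg χ val Dz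

/-- **ENERGY** -/
def EnergyStmt : Prop :=
  ∀ (S : Set E3) (F : Frm S), F.OK → S.Nonempty → ∀ H : EF F, H.OK →
    ∀ (q : ℕ) (χ : Fin q ⊕ Fin F.D.m → E3 → ℝ), F.Src χ →
    ∀ (Z : Type) [NormedAddCommGroup Z] [NormedSpace ℂ Z] [CompleteSpace Z]
      (val : Z →ₗ[ℂ] E3 → ℂ) (tr : Un F q Z →L[ℂ] JJ F.D → AA), Sp χ val tr →
      ∃ ρ₁ > 0, GoodAt (F := F) (q := q) val ρ₁ ∧ ∀ ρ, ρ ≤ ρ₁ → ∀ R0 r C s si,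
        Red H χ val tr ρ R0 r C s si → ∃ tau main C', EnOut H.Λ R0 r C' H.Y
          (lsf H χ val tr s tau main)
          (fun b => F.en 0 (val (si b).1) (F.tl (si b).2) (H.eI (tr (si b))))
          (∫ p, gw p ∂(area S))

/-- **N**: the export to NORMAL -/
def NStmt : Prop :=
  ∀ (S : Set E3) (F : Frm S) (H : EF F), H.OK → ∀ (q : ℕ) (χ : Fin q ⊕ Fin F.D.m → E3 → ℝ)
    (Z : Type) [NormedAddCommGroup Z] [NormedSpace ℂ Z] (val : Z →ₗ[ℂ] E3 → ℂ)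
    (tr : Un F q Z →L[ℂ] JJ F.D → AA), Core.Geo S F.C0 F.Kc → Sp χ val tr → ∀ ρ R0 r C s si,
    Red H χ val tr ρ R0 r C s si → ∀ Dz : Nm.X q F.D.m →L[ℂ] Un F q Z,
    Tendsto (fun R => fderiv ℂ (s R) 0) atTop (𝓝 Dz) → Nondeg χ val Dz →
    ∀ tau main C' fi fS, EnOut H.Λ R0 r C' H.Y (lsf H χ val tr s tau main) fi fS →
    ∃ R1 C1, R0 ≤ R1 ∧ Nm.LSN (3 / 5) H.Λ R1 r C1 H.Y (lsf H χ val tr s tau main)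

/-! ### The real family -/

section real

variable {q : ℕ} {Z : Type} [NormedAddCommGroup Z] [NormedSpace ℂ Z]

/-- real parameters -/
abbrev XR (q m : ℕ) : Type := (Fin q → ℝ) × (Fin m → ℝ)

/-- the inclusion of the real parameters -/
def ofR {m : ℕ} : XR q m →ₗ[ℝ] Nm.X q m where
  toFun x := (fun i => x.1 i, fun j => x.2 j)
  map_add' x y := by ext <;> simp
  map_smul' c x := by ext <;> simp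

open Classical in
/-- the end solutions of the glued family -/
def EF.eG (H : EF F) (δ : ℝ) (x : Nm.X q F.D.m) (t : JJ F.D → AA) : JJ F.D → P2 → ℂ :=
  if x.2 = 0 then H.eI t else H.eR (Nm.Rof δ x) x.2 t

/-- the data for FT, `g = Nm.glue δ s T` -/
def famData (H : EF F) (χ : Fin q ⊕ Fin F.D.m → E3 → ℝ) (val : Z →ₗ[ℂ] E3 → ℂ)
    (tr : Un F q Z →L[ℂ] JJ F.D → AA) (δ : ℝ) (g : Nm.X q F.D.m → Un F q Z)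
    (Dz : Nm.X q F.D.m →L[ℂ] Un F q Z) :
    FamData F.D (XR q F.D.m) (Fin q ⊕ Fin F.D.m) (Tilt F.D.m ℝ) where
  z₁ := F.z₀ + 11
  y₁ := F.ya
  V := F.V
  PP β p := rotR (F.omR β p) p
  WW β p := rotR (F.omR β p) (F.V p)
  β x j i := (F.tl (g (ofR x)).2 j i).re
  w x p := (val (g (ofR x)).1 p).re
  w' :=
    { toFun := fun x p => (val (Dz (ofR x)).1 p).re
      map_add' := fun x y => by ext p; simp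
      map_smul' := fun c x => by
        ext p
        rw [map_smul, ← Complex.coe_smul, map_smul]
        simp }
  ε x := √(‖x.2‖ / δ)
  Q x j := rotE ((F.tl (g (ofR x)).2 j 0).re • F.D.a j + (F.tl (g (ofR x)).2 j 1).re • F.D.b j)
  e x j v := (H.eG δ (ofR x) (tr (g (ofR x))) (.inl j) v).re
  g x i v := (scl (H.eG δ (ofR x) (tr (g (ofR x))) (.inr i)) v).re
  χ := χ
  kap x i := -((g (ofR x)).2 (.inl i)).re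
  den x p := (den S (lagD (F.Y (val (g (ofR x)).1) (F.tl (g (ofR x)).2))) p).re

end real

/-- **REAL**: the hypotheses of FT -/
def RealStmt : Prop :=
  ∀ (S : Set E3) (F : Frm S), F.OK → S.Nonempty → ∀ H : EF F, H.OK →
    ∀ (q : ℕ) (χ : Fin q ⊕ Fin F.D.m → E3 → ℝ), F.Src χ →
    ∀ (Z : Type) [NormedAddCommGroup Z] [NormedSpace ℂ Z] (val : Z →ₗ[ℂ] E3 → ℂ)
      (tr : Un F q Z →L[ℂ] JJ F.D → AA), Sp χ val tr → ∀ ρ R0 r C s si,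
      GoodAt (F := F) (q := q) val ρ → Red H χ val tr ρ R0 r C s si → ∀ T Dz, PLim r s T Dz →
      Nondeg χ val Dz → ∀ tau main C', EnOut H.Λ R0 r C' H.Y (lsf H χ val tr s tau main)
        (fun b => F.en 0 (val (si b).1) (F.tl (si b).2) (H.eI (tr (si b))))
        (∫ p, gw p ∂(area S)) → Nm.KLInt (lsf H χ val tr s tau main) →
      ∃ (δ L : ℝ) (M : ℕ) (β : ℝ),
        Fam F.V₀ (famData H χ val tr δ (Nm.glue δ s T) Dz) H.ε (F.z₀ + 5) L M β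

end Vale.Agent.P218F.LS
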