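import Vale.Agent.P218F.InjReg
import Vale.Agent.P218F.LSSpec
import Vale.Agent.P218F.EndsCyl

/-!
# The kernel of the linearised problem: the ends and the sources
-/

open MeasureTheory Set Filter Topology Metric Matrix
open scoped ContDiff RealInnerProductSpace Real

set_option maxSynthPendingDepth 3

noncomputable section

namespace Vale.Agent.P218F.LS.Ker

open Vale.Agent.P218FT hiding P2
open Vale.Agent.P218F.Core Vale.Agent.P218F.Ends Vale.Agent.P218F.Mesh Vale.Agent.P218F.Inj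

variable {S : Set E3} {V₀ : E3 → ℝ} {D : EndData S}

theorem isEqn (h0 : IsEq0 S V₀) {x : E3} (hx : x ∈ S) : IsEqn S x V₀ :=
  ⟨h0.smooth, fun e => by simpa [e] using h0.unit x hx, Eventually.of_forall h0.zero⟩

theorem nuw_eq (h0 : IsEq0 S V₀) {x : E3} (hx : x ∈ S) : nuw V₀ x = gradient V₀ x := by
  rw [nuw, h0.unit x hx, inv_one, one_smul]

theorem norm_N (h0 : IsEq0 S V₀) {x : E3} (hx : x ∈ S) : ‖nuw V₀ x‖ = 1 :=
  norm_nuw (isEqn h0 hx).2.1

theorem cd_N (h0 : IsEq0 S V₀) {φ : P2 → E3} {y : P2} (h : Par S φ y) :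
    ContDiffAt ℝ ∞ (fun z => nuw V₀ (φ z)) y :=
  (NC.contDiffAt_nuw h0.smooth (isEqn h0 h.self_mem).2.1).comp y h.contDiffAt

/-! ### Infinitesimal rotations -/

/-- the infinitesimal rotation -/
def crossL (o : C3) : C3 →L[ℝ] C3 :=
  (LinearMap.toContinuousLinearMap (crossProduct o : C3 →ₗ[ℂ] C3)).restrictScalars ℝ

theorem crossL_apply (o x : C3) : crossL o x = o ⨯₃ x := rfl

theorem dnum_rot (o : C3) (q : J2 P2 C3) : dnum q (q.map (crossL o)) = 0 := by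
  have h1 : ∀ a : C3, (o ⨯₃ a) ⬝ᵥ a = 0 := fun a => by
    simp [dotProduct, Fin.sum_univ_three, cross_apply]; ring
  have h2 : ∀ a b : C3, (o ⨯₃ a) ⬝ᵥ b + (o ⨯₃ b) ⬝ᵥ a = 0 := fun a b => by
    simp [dotProduct, Fin.sum_univ_three, cross_apply]; ring
  have h3 : ∀ a s t : C3,
      (o ⨯₃ a) ⬝ᵥ (s ⨯₃ t) + a ⬝ᵥ ((o ⨯₃ s) ⨯₃ t + s ⨯₃ (o ⨯₃ t)) = 0 := fun a s t => by
    simp [dotProduct, Fin.sum_univ_three, cross_apply]; ring
  simp only [dnum, dgtr, Inj.dgdet, dnor, gtr, nor, t1, t2, J2.map, ContinuousLinearMap.comp_apply,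
    ContinuousLinearMap.compL_apply, crossL_apply, h1, h2, h3]
  simp

theorem hasDerivAt_rot (o x : C3) :
    HasDerivAt (fun t : ℝ => rot (t • o) x) ((2 : ℂ) • (o ⨯₃ x)) 0 := by
  have a : HasDerivAt (fun t : ℝ => t • o) o 0 := by simpa using (hasDerivAt_id (0 : ℝ)).smul_const o
  have b := HasDerivAt.cross a (hasDerivAt_const (0 : ℝ) x)
  have c := (hasDerivAt_const (0 : ℝ) (2 : ℂ)).fun_div ((HasDerivAt.dot a a).const_add 1) (by simp)
  have d := (c.fun_smul (b.fun_add (HasDerivAt.cross a b))).const_add x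
  exact d.congr_deriv (by simp)

section cd

variable {𝕜 X : Type} [NontriviallyNormedField 𝕜] [NormedAlgebra 𝕜 ℂ] [NormedAddCommGroup X]
  [NormedSpace 𝕜 X] {n : WithTop ℕ∞} {a b : X → C3} {x : X}

theorem cda_cross (ha : ContDiffAt 𝕜 n a x) (hb : ContDiffAt 𝕜 n b x) :
    ContDiffAt 𝕜 n (fun z => a z ⨯₃ b z) x := by
  have a' := contDiffAt_pi.1 ha
  have b' := contDiffAt_pi.1 hb
  refine contDiffAt_pi.2 fun i => ?_
  fin_cases i <;> simp [cross_apply] <;> exact ((a' _).mul (b' _)).sub ((a' _).mul (b' _))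

theorem cda_dot (ha : ContDiffAt 𝕜 n a x) (hb : ContDiffAt 𝕜 n b x) :
    ContDiffAt 𝕜 n (fun z => a z ⬝ᵥ b z) x :=
  ContDiffAt.sum fun i _ => (contDiffAt_pi.1 ha i).mul (contDiffAt_pi.1 hb i)

theorem cda_rot (ha : ContDiffAt 𝕜 n a x) (hb : ContDiffAt 𝕜 n b x) (h : 1 + a x ⬝ᵥ a x ≠ 0) :
    ContDiffAt 𝕜 n (fun z => rot (a z) (b z)) x := by
  have h1 : ContDiffAt 𝕜 n (fun z => 2 / (1 + a z ⬝ᵥ a z)) x := by
    simp only [div_eq_mul_inv]
    exact contDiffAt_const.mul ((contDiffAt_const.add (cda_dot ha ha)).inv h)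
  have h2 := contDiffAt_pi.1 ((cda_cross ha hb).add (cda_cross ha (cda_cross ha hb)))
  exact hb.add (contDiffAt_pi.2 fun i => h1.mul (h2 i))

end cd

theorem norm_tilt (o : C3) (x n : E3) : ‖(o ⨯₃ cE x) ⬝ᵥ cE n‖ ≤ 6 * ‖o‖ * ‖x‖ * ‖n‖ := by
  have k : ∀ i j l, ‖o i * (x j : ℂ) * (n l : ℂ)‖ ≤ ‖o‖ * ‖x‖ * ‖n‖ := fun i j l => by
    rw [norm_mul, norm_mul, Complex.norm_real, Complex.norm_real]
    gcongr
    exacts [norm_le_pi_norm o i, PiLp.norm_apply_le x j, PiLp.norm_apply_le n l]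
  have e : (o ⨯₃ cE x) ⬝ᵥ cE n = (o 1 * x 2 * n 0 - o 2 * x 1 * n 0) +
      (o 2 * x 0 * n 1 - o 0 * x 2 * n 1) + (o 0 * x 1 * n 2 - o 1 * x 0 * n 2) := by
    simp [dotProduct, Fin.sum_univ_three, cross_apply]; ring
  rw [e]
  refine norm_add₃_le.trans ?_
  linarith [norm_sub_le (o 1 * x 2 * n 0) (o 2 * x 1 * n 0),
    norm_sub_le (o 2 * x 0 * n 1) (o 0 * x 2 * n 1), norm_sub_le (o 0 * x 1 * n 2) (o 1 * x 0 * n 2),
    k 1 2 0, k 2 1 0, k 2 0 1, k 0 2 1, k 0 1 2, k 1 0 2]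

/-! ### The charts of the ends -/

theorem R0_ge (D : EndData S) : 4 ≤ D.R₀ := by
  have h1 := D.big
  have h2 := D.δpos
  have h3 := D.δle
  have h4 : 0 < D.R₀ := (mul_pos_iff_of_pos_left h2).1 (by linarith)
  nlinarith

theorem cd_Kd (hC : Charts S D) (j : JJ D) : ContDiff ℝ ∞ (Kd D j) :=
  (hC.smooth j).1.add ((hC.smooth j).2.2.smul (hC.smooth j).2.1)

theorem norm_Wd (D : EndData S) (j : JJ D) (p : P2) : ‖Wd D j p‖ = 1 := by
  rcases j with j | i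
  · exact (Cyl.triple_rot (D.cyl j).tri p.2).na
  · exact ((D.cone i).crv.tri p.2).nc

theorem jet_Kd (hC : Charts S D) (j : JJ D) (p : P2) :
    jet2 (Bx D j) p + (jS D j p).smul (jet2 (Wx D j) p) = jet2 (fun z => cE (Kd D j z)) p := by
  have a : ContDiffAt ℝ 2 (Bx D j) p := (cE.contDiff.comp ((hC.smooth j).1.of_le two_le_inf)).contDiffAt
  have b : ContDiffAt ℝ 2 (Wx D j) p :=
    (cE.contDiff.comp ((hC.smooth j).2.1.of_le two_le_inf)).contDiffAt
  have c : ContDiffAt ℝ 2 (fun η => (gS D j η : ℂ)) p :=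
    (Complex.ofRealCLM.contDiff.comp ((hC.smooth j).2.2.of_le two_le_inf)).contDiffAt
  have d : ContDiffAt ℝ 2 (fun η => (gS D j η : ℂ) • Wx D j η) p := c.smul b
  rw [← jet2_smul c b, ← jet2_add a d]
  simp only [Kd, map_add, map_smul, Complex.coe_smul]

theorem end_dnum (h0 : IsEq0 S V₀) (hC : Charts S D) {j : JJ D} {p : P2} (hP : Par S (Kd D j) p)
    (ht : ⟪Wd D j p, nuw V₀ (Kd D j p)⟫ ≠ 0) {u : P2 → ℂ} (hu : ContDiffAt ℝ 2 u p)
    (e : fderiv ℂ (shrE D j p) (jS D j p) (jet2 u p) = 0) :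
    dnum (jet2 (fun z => cE (Kd D j z)) p) (jet2 (fun z => u z • Wx D j z) p) = 0 := by
  have hw := isEqn h0 hP.self_mem
  have t : Wx D j p ⬝ᵥ nor (jet2 (fun z => cE (Kd D j z)) p).2.1 ≠ 0 :=
    (nor_dot h0.shr hP.ch hw (Wd D j p)).symm ▸
      mul_ne_zero (hP.ch.nor h0.shr hw).nor_ne (Complex.ofReal_ne_zero.2 ht)
  have k := fderiv_graph (jet2 (Bx D j) p) (jet2 (Wx D j) p) (Wx D j p) (jS D j p) (jet2 u p)
    (by rw [jet_Kd hC]; exact hP.ch.imm) (by rw [jet_Kd hC]; exact hP.ch.num_zero h0.shr)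
    (by rw [jet_Kd hC]; exact t)
  rw [jet_Kd hC] at k
  rw [jet2_smul (f := Wx D j) hu
    (cE.contDiff.comp ((hC.smooth j).2.1.of_le two_le_inf)).contDiffAt]
  exact (div_eq_zero_iff.1 (k.symm.trans e)).resolve_right t

theorem jacC_end (h0 : IsEq0 S V₀) (hC : Charts S D) {j : JJ D} {p : P2} (hP : Par S (Kd D j) p)
    (ht : ⟪Wd D j p, nuw V₀ (Kd D j p)⟫ ≠ 0) {u : P2 → ℝ} (hu : ContDiffAt ℝ 2 u p)
    (e : fderiv ℂ (shrE D j p) (jS D j p) (jet2 (fun z => (u z : ℂ)) p) = 0) :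
    jacC S (Kd D j) (fun z => u z * ⟪Wd D j z, nuw V₀ (Kd D j z)⟫) p = 0 := by
  have hw := isEqn h0 hP.self_mem
  have c : ContDiffAt ℝ 2 (fun z => (u z : ℂ)) p := Complex.ofRealCLM.contDiff.contDiffAt.comp p hu
  have k := end_dnum h0 hC hP ht c e
  have hN := hP.ch.nor h0.shr hw
  rw [hN.dnum_jac (Z := fun z => (u z : ℂ) • Wx D j z)
    (c.smul (cE.contDiff.comp ((hC.smooth j).2.1.of_le two_le_inf)).contDiffAt), hP.ch.sqA hw] at k
  have k2 := (mul_eq_zero.1 k).resolve_left hN.nor_ne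
  simp only [smul_dotProduct, Inj.cE_dot, smul_eq_mul] at k2
  rw [jacC, ← k2]
  push_cast
  rfl

open Classical in
/-- the function on the end `j` which is given by `g` above the height `t` -/
def gl (D : EndData S) (j : JJ D) (t : ℝ) {G : Type} [Zero G] (g : P2 → G) (x : E3) : G :=
  if h : ∃ p : P2, t < p.1 ∧ x = Kd D j p then g h.choose else 0

theorem gl_end (hC : Charts S D) {j : JJ D} {t : ℝ} (ht : st D j ≤ t) {G : Type} [Zero G]
    {g : P2 → G} (hg : ∀ p : P2, g (p.1, p.2 + 2 * π) = g p) {p : P2} (hp : t < p.1) :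
    gl D j t g (Kd D j p) = g p := by
  have h : ∃ q : P2, t < q.1 ∧ Kd D j p = Kd D j q := ⟨p, hp, rfl⟩
  rw [gl, dif_pos h]
  obtain ⟨-, h1, k, h2⟩ := hC.inj j j p h.choose (by linarith) (by linarith [h.choose_spec.1])
    h.choose_spec.2
  rw [show h.choose = (p.1, p.2 + k * (2 * π)) from Prod.ext h1 h2]
  exact (Function.Periodic.int_mul (f := fun θ => g (p.1, θ)) (fun θ => hg (p.1, θ)) k) p.2

theorem gl_out {j : JJ D} {t : ℝ} {G : Type} [Zero G] {g : P2 → G} {x : E3}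
    (h : ∀ p : P2, t < p.1 → x = Kd D j p → g p = 0) : gl D j t g x = 0 := by
  unfold gl
  split_ifs with h1
  exacts [h _ h1.choose_spec.1 h1.choose_spec.2, rfl]

/-! ### The normal of a cylindrical end -/

theorem fderiv_cyl (D : EndData S) (j : Fin D.m) (p v : P2) : fderiv ℝ (Kd D (.inl j)) p v =
    v.1 • D.c j + fderiv ℝ (D.r j) p v • Wd D (.inl j) p +
      (D.r j p * v.2) • ((-Real.sin p.2) • D.a j + Real.cos p.2 • D.b j) := by
  have h0 : HasFDerivAt (Prod.snd : P2 → ℝ) (ContinuousLinearMap.snd ℝ ℝ ℝ) p := hasFDerivAt_snd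
  have h1 : HasFDerivAt (Wd D (.inl j)) _ p :=
    (((Real.hasDerivAt_cos p.2).comp_hasFDerivAt p h0).smul_const (D.a j)).add
      (((Real.hasDerivAt_sin p.2).comp_hasFDerivAt p h0).smul_const (D.b j))
  have h2 : HasFDerivAt (Kd D (.inl j)) _ p := (hasFDerivAt_fst.smul_const (D.c j)).add
    ((((D.cyl j).smooth.differentiable (by simp)) p).hasFDerivAt.smul h1)
  rw [h2.fderiv]
  simp only [_root_.add_apply, ContinuousLinearMap.smulRight_apply,
    _root_.smul_apply, ContinuousLinearMap.coe_fst', ContinuousLinearMap.coe_snd',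
    smul_eq_mul]
  module

/-- the normal with radial component one -/
def MM (D : EndData S) (j : Fin D.m) (p : P2) : E3 :=
  Wd D (.inl j) p - (fderiv ℝ (D.r j) p (0, 1) * (D.r j p)⁻¹) •
    ((-Real.sin p.2) • D.a j + Real.cos p.2 • D.b j) - fderiv ℝ (D.r j) p (1, 0) • D.c j

theorem par_cyl (hC : Charts S D) (j : Fin D.m) {p : P2} (hp : D.R₀ < p.1) :
    Par S (Kd D (.inl j)) p := hC.par _ p hp (hC.imm j p).1

theorem nuw_cyl (h0 : IsEq0 S V₀) (hC : Charts S D) (j : Fin D.m) {p : P2} (hp : D.R₀ < p.1) :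
    nuw V₀ (Kd D (.inl j) p) = ⟪Wd D (.inl j) p, nuw V₀ (Kd D (.inl j) p)⟫ • MM D j p := by
  have hP := par_cyl hC j hp
  have t := tangent (isEqn h0 hP.self_mem) hP.differentiableAt hP.mem
  have a := t (1, 0)
  have b := t (0, 1)
  have r : D.r j p ≠ 0 := by linarith [((D.cyl j).bd p).1]
  have e := (Cyl.triple_rot (D.cyl j).tri p.2).expand (nuw V₀ (Kd D (.inl j) p))
  rw [fderiv_cyl] at a b
  change _ = ⟪Wd D (.inl j) p, _⟫ • Wd D (.inl j) p + _ + _ at e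
  unfold MM
  generalize nuw V₀ (Kd D (.inl j) p) = n at *
  generalize (-Real.sin p.2) • D.a j + Real.cos p.2 • D.b j = T at *
  generalize Wd D (.inl j) p = W at *
  rw [real_inner_comm] at a b
  simp only [inner_add_left, real_inner_smul_left] at a b
  have a' : ⟪D.c j, n⟫ = -(fderiv ℝ (D.r j) p (1, 0) * ⟪W, n⟫) := by linarith
  have b' : ⟪T, n⟫ = -(fderiv ℝ (D.r j) p (0, 1) * (D.r j p)⁻¹ * ⟪W, n⟫) := by
    field_simp
    linarith
  rw [a', b'] at e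
  refine e.trans ?_
  module

theorem nu_ne (h0 : IsEq0 S V₀) (hC : Charts S D) (j : Fin D.m) {p : P2} (hp : D.R₀ < p.1) :
    ⟪Wd D (.inl j) p, nuw V₀ (Kd D (.inl j) p)⟫ ≠ 0 := fun h => by
  have a := nuw_cyl h0 hC j hp
  have b := norm_N h0 (hC.mem (.inl j) p hp.le)
  rw [h, zero_smul] at a
  simp [a] at b

theorem tendsto_MM (D : EndData S) (j : Fin D.m) (θ : ℝ) :
    Tendsto (fun z => MM D j (z, θ)) atTop (𝓝 (Wd D (.inl j) (0, θ))) := by
  have h1 : Tendsto (fun z => fderiv ℝ (D.r j) (z, θ)) atTop (𝓝 0) := by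
    refine NormedAddGroup.tendsto_nhds_zero.2 fun ε hε => ?_
    obtain ⟨Z, hZ⟩ := (D.cyl j).lim 1 (ε / 2) (by positivity)
    filter_upwards [eventually_ge_atTop Z] with z hz
    have := hZ z θ hz
    rw [norm_iteratedFDeriv_one, fderiv_sub_const] at this
    linarith
  have h2 : ∀ v, Tendsto (fun z => fderiv ℝ (D.r j) (z, θ) v) atTop (𝓝 0) := fun v => by
    exact ((ContinuousLinearMap.apply ℝ ℝ v).continuous.tendsto' 0 0 (map_zero _)).comp h1
  have h3 : Tendsto (fun z => fderiv ℝ (D.r j) (z, θ) (0, 1) * (D.r j (z, θ))⁻¹) atTop (𝓝 0) :=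
    (h2 _).zero_mul_isBoundedUnder_le (isBoundedUnder_of ⟨1, fun z => by
      have := ((D.cyl j).bd (z, θ)).1
      rw [Function.comp, norm_inv, Real.norm_of_nonneg (by linarith)]
      exact inv_le_one_of_one_le₀ this.le⟩)
  have := ((tendsto_const_nhds (x := Wd D (.inl j) (0, θ))).sub
    (h3.smul_const ((-Real.sin θ) • D.a j + Real.cos θ • D.b j))).sub ((h2 (1, 0)).smul_const (D.c j))
  rw [zero_smul, zero_smul, sub_zero, sub_zero] at this
  exact this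

theorem tendsto_Kd (D : EndData S) (j : Fin D.m) (θ : ℝ) :
    Tendsto (fun z : ℝ => z⁻¹ • Kd D (.inl j) (z, θ)) atTop (𝓝 (D.c j)) := by
  have h3 : Tendsto (fun z : ℝ => z⁻¹ * D.r j (z, θ)) atTop (𝓝 0) :=
    tendsto_inv_atTop_zero.zero_mul_isBoundedUnder_le (isBoundedUnder_of ⟨2, fun z => by
      have := (D.cyl j).bd (z, θ)
      rw [Function.comp, Real.norm_of_nonneg (by linarith)]
      exact this.2.le⟩)
  have := (h3.smul_const (Wd D (.inl j) (0, θ))).const_add (D.c j)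
  rw [zero_smul, add_zero] at this
  refine this.congr' ((eventually_ne_atTop 0).mono fun z hz => ?_)
  simp only [Kd, Bs, gS, Wd, smul_add, smul_smul, inv_mul_cancel₀ hz, one_smul, mul_assoc]

theorem quad_zero {c : ℂ} {u : P2 → ℝ} {θ : ℝ}
    (low : ∃ c₀ Z : ℝ, 0 < c₀ ∧ ∀ p : P2, Z ≤ p.1 → c₀ * p.1 ^ 2 ≤ |u p|)
    (h : Tendsto (fun z : ℝ => z⁻¹ • z⁻¹ • (c * u (z, θ))) atTop (𝓝 0)) : c = 0 := by
  obtain ⟨c₀, Z, h0, h1⟩ := low
  have : ‖c‖ * c₀ ≤ ‖(0 : ℂ)‖ := ge_of_tendsto h.norm (by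
    filter_upwards [eventually_ge_atTop Z, eventually_gt_atTop 0] with z a b
    rw [norm_smul, norm_smul, norm_mul, Complex.norm_real, Real.norm_eq_abs (u _), norm_inv,
      Real.norm_of_nonneg b.le]
    calc ‖c‖ * c₀ = z⁻¹ * (z⁻¹ * (‖c‖ * (c₀ * z ^ 2))) := by field_simp
      _ ≤ _ := by gcongr; exact h1 (z, θ) a)
  rw [norm_zero] at this
  exact norm_le_zero_iff.1 (by nlinarith [norm_nonneg c])

/-- the comparison of the rates of growth along a cylindrical end -/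
theorem growth (D : EndData S) (j : Fin D.m) {u : P2 → ℂ} {u₀ u₁ : P2 → ℝ} {μ cd β₀ β₁ : ℂ}
    (l0 : ∃ c₀ Z : ℝ, 0 < c₀ ∧ ∀ p : P2, Z ≤ p.1 → c₀ * p.1 ^ 2 ≤ |u₀ p|)
    (l1 : ∃ c₀ Z : ℝ, 0 < c₀ ∧ ∀ p : P2, Z ≤ p.1 → c₀ * p.1 ^ 2 ≤ |u₁ p|) {Z C : ℝ}
    (b : ∀ p : P2, Z ≤ p.1 → ‖u p - cd * u₁ p‖ ≤ C)
    (e : ∀ p : P2, Z ≤ p.1 → u p - μ * u₀ p = -2 * (((β₀ • cE (D.a j) + β₁ • cE (D.b j)) ⨯₃
      cE (Kd D (.inl j) p)) ⬝ᵥ cE (MM D j p))) (h : cd = 0 ∨ μ = 0) :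
    cd = 0 ∧ μ = 0 ∧ β₀ = 0 ∧ β₁ = 0 := by
  set o := β₀ • cE (D.a j) + β₁ • cE (D.b j) with ho
  have t : ∀ θ, Tendsto (fun z : ℝ => z⁻¹ • (cd * u₁ (z, θ) - μ * u₀ (z, θ))) atTop
      (𝓝 (-2 * ((o ⨯₃ cE (D.c j)) ⬝ᵥ cE (Wd D (.inl j) (0, θ))))) := fun θ => by
    have c : Continuous fun v : E3 × E3 => -2 * ((o ⨯₃ cE v.1) ⬝ᵥ cE v.2) :=
      continuous_const.mul (((crossL o).continuous.comp (cE.continuous.comp continuous_fst)).dotProduct
        (cE.continuous.comp continuous_snd))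
    have t1 := (c.tendsto _).comp ((tendsto_Kd D j θ).prodMk_nhds (tendsto_MM D j θ))
    have t2 : Tendsto (fun z : ℝ => z⁻¹ • (u (z, θ) - cd * u₁ (z, θ))) atTop (𝓝 0) :=
      NormedField.tendsto_zero_smul_of_tendsto_zero_of_bounded tendsto_inv_atTop_zero
        ⟨C, (eventually_ge_atTop Z).mono fun z hz => b (z, θ) hz⟩
    have t3 := t1.sub t2
    rw [sub_zero] at t3
    refine t3.congr' ((eventually_ge_atTop Z).mono fun z hz => ?_)
    have := e (z, θ) hz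
    simp only [Function.comp, map_smul, ← Complex.coe_smul, smul_dotProduct, smul_eq_mul]
    linear_combination (-((z⁻¹ : ℝ) : ℂ)) * this
  have t0 := tendsto_inv_atTop_zero.smul (t 0)
  rw [zero_smul] at t0
  have k : cd = 0 ∧ μ = 0 := by
    rcases h with h | h
    · refine ⟨h, neg_eq_zero.1 (quad_zero l0 (θ := 0) ?_)⟩
      simpa [h] using t0
    · refine ⟨quad_zero l1 (θ := 0) ?_, h⟩
      simpa [h] using t0
  have z : ∀ θ, (o ⨯₃ cE (D.c j)) ⬝ᵥ cE (Wd D (.inl j) (0, θ)) = 0 := fun θ => by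
    have := t θ
    simp only [k.1, k.2, zero_mul, sub_zero, smul_zero] at this
    simpa using tendsto_nhds_unique this tendsto_const_nhds
  have n := (isOr_frame (D.cyl j).tri).2
  have z0 := z 0
  have z1 := z (π / 2)
  simp only [Wd, Real.cos_zero, Real.sin_zero, Real.cos_pi_div_two, Real.sin_pi_div_two, one_smul,
    zero_smul, add_zero, zero_add, ho] at z0 z1
  generalize cE (D.a j) = A, cE (D.b j) = B, cE (D.c j) = C at *
  refine ⟨k.1, k.2, (mul_eq_zero.1 (?_ : β₀ * _ = 0)).resolve_right n,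
    (mul_eq_zero.1 (?_ : β₁ * _ = 0)).resolve_right n⟩
  · rw [← neg_eq_zero, ← z1]
    simp [dotProduct, Fin.sum_univ_three, cross_apply]; ring
  · rw [← z0]
    simp [dotProduct, Fin.sum_univ_three, cross_apply]; ring

/-! ### The sources -/

/-- the function `Ψ`, a Jacobi field far out on the end `j`, and the source `ψ = L Ψ` -/
structure Psi (F : Frm S) (j : Fin F.D.m) (u₀ : P2 → ℝ) (Ψ ψ : E3 → ℝ) : Prop where
  c : ContDiff ℝ ∞ Ψ
  poly : Poly S Ψ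
  far : ∀ p : P2, F.z₀ + 2 ≤ p.1 → Ψ (Kd F.D (.inl j) p) =
    u₀ p * ⟪Wd F.D (.inl j) p, nuw F.V₀ (Kd F.D (.inl j) p)⟫
  out : ∀ x ∈ S, (∀ p : P2, F.z₀ + 1 ≤ p.1 → x ≠ Kd F.D (.inl j) p) → Ψ x = 0
  cψ : ContDiff ℝ ∞ ψ
  supp : tsupport ψ ⊆ ball 0 (F.z₀ + 4)
  eq : ∀ x ∈ S, ψ x = jacS S Ψ x

theorem exists_psi {F : Frm S} (hF : F.OK) (hC : Charts S F.D) (j : Fin F.D.m) {u₀ : P2 → ℝ}
    (hu : IsJac (Bx F.D (.inl j)) (Wx F.D (.inl j)) (gS F.D (.inl j)) F.z₀ u₀) :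
    ∃ Ψ ψ, Psi F j u₀ Ψ ψ := by
  have h0 := hF.eq0
  have hS := h0.shr
  have z1 := R0_ge F.D
  have z2 := hF.z_big
  set h : P2 → ℝ := fun z => u₀ z * ⟪Wd F.D (.inl j) z, nuw F.V₀ (Kd F.D (.inl j) z)⟫ with hh
  have ev : ∀ {t : ℝ} {p : P2}, t < p.1 → ∀ᶠ q : P2 in 𝓝 p, t < q.1 := fun hp =>
    continuous_fst.continuousAt.eventually (lt_mem_nhds hp)
  have c2 : ∀ p : P2, F.z₀ < p.1 → ContDiffAt ℝ 2 u₀ p := fun p hp =>
    hu.c2.contDiffAt ((ev hp).mono fun q hq => ⟨hq, trivial⟩)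
  have j0 : ∀ p : P2, F.z₀ < p.1 → jacC S (Kd F.D (.inl j)) h p = 0 := fun p hp =>
    jacC_end h0 hC (par_cyl hC j (by linarith)) (nu_ne h0 hC j (by linarith)) (c2 p hp) (hu.eq p hp)
  have sm : ∀ p : P2, F.z₀ < p.1 → ContDiffAt ℝ ∞ h p := fun p hp =>
    smooth_of_jacC hS.1 (par_cyl hC j (by linarith)) ((c2 p hp).mul
      (((hC.smooth _).2.1.contDiffAt.inner ℝ (cd_N h0 (par_cyl hC j (by linarith)))).of_le
        two_le_inf)) ((ev hp).mono j0)
  set g : P2 → ℝ := fun z => Real.smoothTransition (2 * (z.1 - (F.z₀ + 1))) * h z with hg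
  have g0 : ∀ p : P2, p.1 ≤ F.z₀ + 1 → g p = 0 := fun p hp => by
    simp only [hg, Real.smoothTransition.zero_of_nonpos (show 2 * (p.1 - (F.z₀ + 1)) ≤ 0 by linarith),
      zero_mul]
  have g1 : ∀ p : P2, F.z₀ + 3 / 2 ≤ p.1 → g p = h p := fun p hp => by
    simp only [hg, Real.smoothTransition.one_of_one_le (show 1 ≤ 2 * (p.1 - (F.z₀ + 1)) by linarith),
      one_mul]
  have ge : ∀ p : P2, F.z₀ < p.1 → gl F.D (.inl j) F.z₀ g (Kd F.D (.inl j) p) = g p := fun p hp =>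
    gl_end hC (show F.D.R₀ ≤ F.z₀ by linarith) (fun q => by
      have := hC.per (.inl j) q
      simp only [hg, hh, hu.per, Kd, this.1, this.2.1, this.2.2]) hp
  have go : ∀ x, x ∉ Kd F.D (.inl j) '' {p | F.z₀ + 1 ≤ p.1} → gl F.D (.inl j) F.z₀ g x = 0 :=
    fun x hx => gl_out fun p _ e => g0 p (not_lt.1 fun a => hx ⟨p, a.le, e.symm⟩)
  have cl := (hC.closed (.inl j) (F.z₀ + 1) (show F.D.R₀ ≤ _ by linarith)).isOpen_compl
  obtain ⟨Ψ, c, eΨ⟩ := exists_ext hS.1 (n := ⊤) (u := gl F.D (.inl j) F.z₀ g) fun x hx => by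
    by_cases h1 : x ∈ Kd F.D (.inl j) '' {p | F.z₀ + 1 ≤ p.1}
    · obtain ⟨p, hp, rfl⟩ := h1
      have hp' : F.z₀ < p.1 := by linarith [show F.z₀ + 1 ≤ p.1 from hp]
      refine ⟨_, p, par_cyl hC j (by linarith), rfl, (ev hp').mono fun q hq => ?_⟩
      exact (((Real.smoothTransition.contDiff.comp (contDiff_const.mul
        (contDiff_fst.sub contDiff_const))).contDiffAt).mul (sm q hq)).congr_of_eventuallyEq
        ((ev hq).mono ge)
    · obtain ⟨φ, y, hP, rfl⟩ := exists_par hS.1 hx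
      refine ⟨φ, y, hP, rfl, ?_⟩
      filter_upwards [(hP.continuousAt.eventually (cl.mem_nhds h1)).eventually_nhds] with z hz
      exact contDiffAt_const.congr_of_eventuallyEq (hz.mono fun t ht => go _ ht)
  have c' : ContDiff ℝ 2 Ψ := c.of_le two_le_inf
  have eK : ∀ p : P2, F.z₀ < p.1 → Ψ (Kd F.D (.inl j) p) = g p := fun p hp =>
    (eΨ _ (hC.mem (.inl j) p (show F.D.R₀ ≤ _ by linarith))).trans (ge p hp)
  obtain ⟨ψ, d, eψ⟩ := exists_ext hS.1 (n := ⊤) (u := jacS S Ψ) fun x hx => by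
    obtain ⟨φ, y, hP, rfl⟩ := exists_par hS.1 hx
    exact ⟨φ, y, hP, rfl, hP.eventually.mono fun z hz => contDiffAt_jacS hS.1 hz c⟩
  let η : ContDiffBump (0 : E3) := ⟨F.z₀ + 7 / 2, F.z₀ + 15 / 4, by linarith, by linarith⟩
  refine ⟨Ψ, fun x => η x * ψ x, c, ?_, fun p hp => (eK p (by linarith)).trans (g1 p (by linarith)),
    fun x hx h1 => (eΨ x hx).trans (go x fun ⟨p, hp, e⟩ => h1 p hp e.symm), η.contDiff.mul d,
    (tsupport_mul_subset_left.trans η.tsupport_eq.subset).trans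
      (closedBall_subset_ball (show F.z₀ + 15 / 4 < _ by linarith)), fun x hx => ?_⟩
  · obtain ⟨C, q, hq⟩ := hu.tmp
    refine ⟨|C|, q, fun x hx => ?_⟩
    by_cases h1 : x ∈ Kd F.D (.inl j) '' {p | F.z₀ + 1 ≤ p.1}
    · obtain ⟨p, hp, rfl⟩ := h1
      have hp' : F.z₀ + 1 ≤ p.1 := hp
      have a1 : |u₀ p| ≤ C * p.1 ^ q := (norm_fst_le (jet1 u₀ p)).trans (hq p hp)
      have a2 := abs_real_inner_le_norm (Wd F.D (.inl j) p) (nuw F.V₀ (Kd F.D (.inl j) p))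
      rw [norm_Wd, norm_N h0 hx, mul_one] at a2
      have a3 := (hC.norm_cyl j p (by linarith)).1
      rw [eK p (by linarith), hg, hh]
      simp only [abs_mul, abs_of_nonneg (Real.smoothTransition.nonneg _)]
      calc _ ≤ 1 * (C * p.1 ^ q * 1) := by
            gcongr
            exacts [Real.smoothTransition.le_one _, (abs_nonneg _).trans a1]
        _ ≤ _ := by
            rw [one_mul, mul_one]
            exact mul_le_mul (le_abs_self C) (pow_le_pow_left₀ (by linarith) (by linarith) q)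
              (pow_nonneg (by linarith) q) (abs_nonneg C)
    · rw [eΨ x hx, go x h1, abs_zero]
      positivity
  · rw [eψ x hx]
    by_cases h2 : ‖x‖ ≤ F.z₀ + 7 / 2
    · rw [η.one_of_mem_closedBall (mem_closedBall_zero_iff.2 h2), one_mul]
    suffices jacS S Ψ x = 0 by rw [this, mul_zero]
    by_cases h1 : x ∈ Kd F.D (.inl j) '' {p | F.z₀ + 1 ≤ p.1}
    · obtain ⟨p, hp, rfl⟩ := h1
      have hp' : F.z₀ + 1 ≤ p.1 := hp
      have a3 := (hC.norm_cyl j p (by linarith)).2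
      have a4 : F.z₀ + 3 / 2 < p.1 := by linarith [not_le.1 h2]
      have := jacC_eq hS (par_cyl hC j (by linarith)) c'.contDiffAt (g := h)
        ((ev a4).mono fun q hq => (eK q (by linarith)).trans (g1 q hq.le))
      rw [j0 p (by linarith)] at this
      exact_mod_cast this.symm
    · rw [jacS_congr hS hx c'.contDiffAt (contDiffAt_const (c := 0)) (by
        filter_upwards [nhdsWithin_le_nhds (cl.mem_nhds h1), self_mem_nhdsWithin] with y a b
          using (eΨ y b).trans (go y a))]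
      simp [jacS, divT, tr]

end Vale.Agent.P218F.LS.Ker
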