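import Vale.Agent.P218F.InjAlg
import Vale.Agent.P218FT.Local2
import Vale.Agent.P218FT.ConvSpec
import Mathlib.Analysis.Calculus.InverseFunctionTheorem.ContDiff
import Mathlib.Geometry.Manifold.PartitionOfUnity

/-!
# The linearised shrinker operator is the Jacobi operator of the normal component
-/

open Filter Topology Matrix Set
open scoped ContDiff RealInnerProductSpace

set_option linter.unusedSectionVars false
set_option maxSynthPendingDepth 3

noncomputable section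

namespace Vale.Agent.P218F.Inj

open Vale.Agent.P218F.Core
open Vale.Agent.P218FT hiding P2

section jets

variable {E V : Type} [NormedAddCommGroup E] [NormedSpace ℝ E] [NormedAddCommGroup V]
  [NormedSpace ℝ V]

theorem hasFDerivAt_apply {f : E → V} {y : E} (hf : ContDiffAt ℝ 2 f y) (v : E) :
    HasFDerivAt (fun z => fderiv ℝ f z v) ((fderiv ℝ (fderiv ℝ f) y).flip v) y := by
  simpa using (diff_fderiv hf).hasFDerivAt.clm_apply (hasFDerivAt_const v y)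

theorem fderiv_apply {f : E → V} {y : E} (hf : ContDiffAt ℝ 2 f y) (u v : E) :
    fderiv ℝ (fun z => fderiv ℝ f z v) y u = fderiv ℝ (fderiv ℝ f) y u v := by
  rw [(hasFDerivAt_apply hf v).fderiv]; rfl

theorem contDiffAt_apply {f : E → V} {y : E} {n : ℕ} (hf : ContDiffAt ℝ (n + 1 : ℕ) f y) (v : E) :
    ContDiffAt ℝ n (fun z => fderiv ℝ f z v) y :=
  (hf.fderiv_right (m := n) (by norm_cast)).clm_apply contDiffAt_const

theorem ev_two {f : E → V} {y : E} (hf : ContDiffAt ℝ 2 f y) : ∀ᶠ z in 𝓝 y, ContDiffAt ℝ 2 f z :=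
  hf.eventually (by simp)

theorem hasDerivAt_line {f : E → V} {y : E} (hf : DifferentiableAt ℝ f y) (e : E) :
    HasDerivAt (fun t : ℝ => f (y + t • e)) (fderiv ℝ f y e) 0 := by
  have hl : HasDerivAt (fun t : ℝ => y + t • e) e 0 := by
    simpa using ((hasDerivAt_id (0 : ℝ)).smul_const e).const_add y
  exact HasFDerivAt.comp_hasDerivAt_of_eq 0 hf.hasFDerivAt hl (by simp)

theorem tendsto_line (y e : E) : Tendsto (fun t : ℝ => y + t • e) (𝓝 0) (𝓝 y) := by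
  have : Continuous fun t : ℝ => y + t • e := by fun_prop
  simpa using this.tendsto 0

end jets

/-- the jets along a line in the parameter plane -/
theorem hasJetDeriv_translate {X : P2 → C3} {y : P2} (hX : ContDiffAt ℝ 3 X y) (e : P2) :
    HasJetDeriv (fun t : ℝ => jet2 X (y + t • e)) (jet2 (fun z => fderiv ℝ X z e) y) 0 := by
  have h2 : ContDiffAt ℝ 2 X y := hX.of_le (by norm_num)
  have g : ∀ v, ContDiffAt ℝ 2 (fun z => fderiv ℝ X z v) y := fun v => contDiffAt_apply (n := 2) hX v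
  refine ⟨hasDerivAt_line (h2.differentiableAt (by simp)) e, fun u => ?_, fun u v => ?_⟩
  · refine (hasDerivAt_line ((g u).differentiableAt (by simp)) e).congr_deriv ?_
    change _ = fderiv ℝ (fun z => fderiv ℝ X z e) y u
    rw [fderiv_apply h2, fderiv_apply h2]
    exact jet2_symm h2 e u
  · have a1 := hasDerivAt_line (hasFDerivAt_apply (g v) u).differentiableAt e
    have a2 : (fun t : ℝ => (jet2 X (y + t • e)).2.2 u v) =ᶠ[𝓝 0]
        fun t : ℝ => fderiv ℝ (fun z => fderiv ℝ X z v) (y + t • e) u := by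
      filter_upwards [(tendsto_line y e).eventually (ev_two h2)] with t ht
      exact (fderiv_apply ht u v).symm
    refine (a1.congr_of_eventuallyEq a2).congr_deriv ?_
    change _ = fderiv ℝ (fderiv ℝ fun z => fderiv ℝ X z e) y u v
    have a3 : (fun z => fderiv ℝ (fun z => fderiv ℝ X z v) z e) =ᶠ[𝓝 y]
        fun z => fderiv ℝ (fun z => fderiv ℝ X z e) z v := by
      filter_upwards [ev_two h2] with z hz
      rw [fderiv_apply hz, fderiv_apply hz]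
      exact jet2_symm hz e v
    rw [fderiv_apply (g v), ← fderiv_apply (g e), ← a3.fderiv_eq, fderiv_apply (g v)]
    exact jet2_symm (g v) e u

theorem fderiv_dot {Z N : P2 → C3} {y : P2} (hZ : DifferentiableAt ℝ Z y)
    (hN : DifferentiableAt ℝ N y) (u : P2) :
    fderiv ℝ (fun z => Z z ⬝ᵥ N z) y u = fderiv ℝ Z y u ⬝ᵥ N y + Z y ⬝ᵥ fderiv ℝ N y u := by
  have h1 : DifferentiableAt ℝ (fun z => Z z ⬝ᵥ N z) y := by
    unfold dotProduct
    exact DifferentiableAt.fun_sum fun i _ =>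
      (differentiableAt_pi.1 hZ i).mul (differentiableAt_pi.1 hN i)
  have h2 := HasDerivAt.dot (hasDerivAt_line hZ u) (hasDerivAt_line hN u)
  simpa using (hasDerivAt_line h1 u).unique h2

theorem contDiffAt_dot {Z N : P2 → C3} {y : P2} {n : WithTop ℕ∞} (hZ : ContDiffAt ℝ n Z y)
    (hN : ContDiffAt ℝ n N y) : ContDiffAt ℝ n (fun z => Z z ⬝ᵥ N z) y := by
  unfold dotProduct
  exact ContDiffAt.sum fun i _ => (contDiffAt_pi.1 hZ i).mul (contDiffAt_pi.1 hN i)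

theorem fderiv2_dot {Z N : P2 → C3} {y : P2} (hZ : ContDiffAt ℝ 2 Z y) (hN : ContDiffAt ℝ 2 N y)
    (u v : P2) : (jet2 (fun z => Z z ⬝ᵥ N z) y).2.2 u v =
      (jet2 Z y).2.2 u v ⬝ᵥ N y + fderiv ℝ Z y u ⬝ᵥ fderiv ℝ N y v +
        fderiv ℝ Z y v ⬝ᵥ fderiv ℝ N y u + Z y ⬝ᵥ (jet2 N y).2.2 u v := by
  change fderiv ℝ (fderiv ℝ fun z => Z z ⬝ᵥ N z) y u v = _
  have h1 : (fun z => fderiv ℝ (fun z => Z z ⬝ᵥ N z) z v) =ᶠ[𝓝 y]
      fun z => fderiv ℝ Z z v ⬝ᵥ N z + Z z ⬝ᵥ fderiv ℝ N z v := by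
    filter_upwards [ev_diff hZ, ev_diff hN] with z h1 h2 using fderiv_dot h1 h2 v
  have a := (hasFDerivAt_apply hZ v).differentiableAt
  have b := (hasFDerivAt_apply hN v).differentiableAt
  have c := (ev_diff hZ).self_of_nhds
  have d := (ev_diff hN).self_of_nhds
  have e1 := (contDiffAt_dot (contDiffAt_apply (n := 1) hZ v) (hN.of_le (by norm_num))
    ).differentiableAt (by simp)
  have e2 := (contDiffAt_dot (hZ.of_le (by norm_num)) (contDiffAt_apply (n := 1) hN v)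
    ).differentiableAt (by simp)
  rw [← fderiv_apply (contDiffAt_dot hZ hN), h1.fderiv_eq, fderiv_fun_add e1 e2, _root_.add_apply,
    fderiv_dot a d, fderiv_dot c b, fderiv_apply hZ, fderiv_apply hN]
  simp only [jet2]
  ring

/-- `N` is a unit normal field along the immersion `X`, which solves the equation near `y` -/
structure Nor (X N : P2 → C3) (y : P2) : Prop where
  cX : ContDiffAt ℝ 3 X y
  cN : ContDiffAt ℝ 2 N y
  imm : gdet (fderiv ℝ X y) ≠ 0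
  unit : ∀ᶠ z in 𝓝 y, N z ⬝ᵥ N z = 1
  orth : ∀ᶠ z in 𝓝 y, ∀ u, N z ⬝ᵥ fderiv ℝ X z u = 0
  sol : ∀ᶠ z in 𝓝 y, num (jet2 X z) = 0

namespace Nor

variable {X N : P2 → C3} {y : P2} (h : Nor X N y)
include h

theorem cX2 : ContDiffAt ℝ 2 X y := h.cX.of_le (by norm_num)

theorem dN_N (u : P2) : fderiv ℝ N y u ⬝ᵥ N y = 0 := by
  have d := (ev_diff h.cN).self_of_nhds
  have a := fderiv_dot d d u
  rw [(show (fun z => N z ⬝ᵥ N z) =ᶠ[𝓝 y] fun _ => 1 from h.unit).fderiv_eq,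
    dotProduct_comm (N y)] at a
  simp only [fderiv_fun_const, Pi.zero_apply, _root_.zero_apply] at a
  linear_combination -a / 2

theorem dN_X (u v : P2) : fderiv ℝ N y u ⬝ᵥ fderiv ℝ X y v = -((jet2 X y).2.2 u v ⬝ᵥ N y) := by
  have a := fderiv_dot (ev_diff h.cN).self_of_nhds (hasFDerivAt_apply h.cX2 v).differentiableAt u
  rw [(show (fun z => N z ⬝ᵥ fderiv ℝ X z v) =ᶠ[𝓝 y] fun _ => 0 from
    h.orth.mono fun z hz => hz v).fderiv_eq, fderiv_apply h.cX2, dotProduct_comm (N y)] at a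
  simp only [fderiv_fun_const, Pi.zero_apply, _root_.zero_apply] at a
  simp only [jet2]
  linear_combination -a

theorem nor_ne : N y ⬝ᵥ nor (fderiv ℝ X y) ≠ 0 := fun h0 => h.imm (by
  rw [← (nor_eq h.imm h.unit.self_of_nhds h.orth.self_of_nhds).1, h0]; ring)

/-- `⟨Z, 𝓛 N⟩` -/
def _root_.Vale.Agent.P218F.Inj.lapN (X N : P2 → C3) (y : P2) (Z : C3) : ℂ :=
  gtr (fderiv ℝ X y) (fun u v => Z ⬝ᵥ (jet2 N y).2.2 u v) -
    gco (fderiv ℝ X y) (fun u => Z ⬝ᵥ fderiv ℝ N y u) (dr (jet2 X y))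

theorem dnum_eq' {Z : P2 → C3} (hZ : ContDiffAt ℝ 2 Z y) :
    dnum (jet2 X y) (jet2 Z y) = (N y ⬝ᵥ nor (fderiv ℝ X y)) *
      (drift (jet2 X y) (jet2 (fun z => Z z ⬝ᵥ N z) y) + Z y ⬝ᵥ N y / 2 - lapN X N y (Z y)) := by
  have k := dnum_eq (q := jet2 X y) (n := N y) (n' := fun u => fderiv ℝ N y u) h.imm
    h.unit.self_of_nhds h.orth.self_of_nhds h.dN_N h.dN_X (jet2_symm h.cX2) h.sol.self_of_nhds
    (jet2 Z y)
  have a := fderiv2_dot hZ h.cN
  have b : ∀ u, (jet2 (fun z => Z z ⬝ᵥ N z) y).2.1 u = _ :=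
    fderiv_dot (ev_diff hZ).self_of_nhds (ev_diff h.cN).self_of_nhds
  have c1 : (jet2 X y).2.1 = fderiv ℝ X y := rfl
  have c2 : (jet2 Z y).2.1 = fderiv ℝ Z y := rfl
  have c3 : (jet2 Z y).1 = Z y := rfl
  rw [k]
  simp only [drift, lapN, a, b, gco, gtr, c1, c2, c3]
  ring

theorem lapN_tan (e : P2) : lapN X N y (fderiv ℝ X y e) = 0 := by
  have a := (hasJetDeriv_translate h.cX e).num (by simpa [jet2] using h.imm)
  have b : (fun t : ℝ => num (jet2 X (y + t • e))) =ᶠ[𝓝 0] fun _ => 0 :=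
    (tendsto_line y e).eventually h.sol
  have c := a.unique ((hasDerivAt_const (0 : ℝ) (0 : ℂ)).congr_of_eventuallyEq b)
  have d : (fun z => fderiv ℝ X z e ⬝ᵥ N z) =ᶠ[𝓝 y] fun _ => 0 :=
    h.orth.mono fun z hz => by simp only [dotProduct_comm (fderiv ℝ X z e), hz e]
  simp only [zero_smul, add_zero] at c
  have d' : fderiv ℝ X y e ⬝ᵥ N y = 0 := d.self_of_nhds
  rw [h.dnum_eq' (contDiffAt_apply (n := 2) h.cX e), jet2_congr d, jet2_const, d'] at c
  simpa [h.nor_ne, drift, gco, gtr] using c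

/-- `|A|² = g^{ij} ⟨N_i, N_j⟩` -/
def _root_.Vale.Agent.P218F.Inj.sqA (X N : P2 → C3) (y : P2) : ℂ :=
  gtr (fderiv ℝ X y) fun u v => fderiv ℝ N y u ⬝ᵥ fderiv ℝ N y v

theorem lapN_nor : lapN X N y (N y) = -sqA X N y := by
  have a := fderiv2_dot h.cN h.cN
  rw [jet2_congr (show (fun z => N z ⬝ᵥ N z) =ᶠ[𝓝 y] fun _ => 1 from h.unit), jet2_const] at a
  have b : ∀ u v, N y ⬝ᵥ (jet2 N y).2.2 u v = -(fderiv ℝ N y u ⬝ᵥ fderiv ℝ N y v) := fun u v => by
    have := a u v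
    rw [dotProduct_comm _ (N y), dotProduct_comm (fderiv ℝ N y v)] at this
    simp only [_root_.zero_apply] at this
    linear_combination -this / 2
  simp only [lapN, sqA, b, dotProduct_comm (N y), h.dN_N, gco, gtr]
  ring

theorem lapN_eq (Z : C3) : lapN X N y Z = -(sqA X N y * (Z ⬝ᵥ N y)) := by
  set D := fderiv ℝ X y with hD
  obtain ⟨e1, e2⟩ := nor_eq h.imm h.unit.self_of_nhds h.orth.self_of_nhds
  have key : ∀ b, Z ⬝ᵥ b = ((t2 D ⬝ᵥ t2 D) * (Z ⬝ᵥ t1 D) - (t1 D ⬝ᵥ t2 D) * (Z ⬝ᵥ t2 D)) / gdet D *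
      (D (1, 0) ⬝ᵥ b) + ((t1 D ⬝ᵥ t1 D) * (Z ⬝ᵥ t2 D) - (t1 D ⬝ᵥ t2 D) * (Z ⬝ᵥ t1 D)) / gdet D *
      (D (0, 1) ⬝ᵥ b) + (Z ⬝ᵥ N y) * (N y ⬝ᵥ b) := fun b => by
    have := expand_dot Z b (t1 D) (t2 D)
    rw [show t1 D ⨯₃ t2 D = nor D from rfl, e2 Z, e2 b, dotProduct_comm b, dotProduct_comm b,
      dotProduct_comm b] at this
    have hg : gdet D ≠ 0 := h.imm
    field_simp
    unfold gdet at e1 ⊢
    simp only [t1, t2] at this e1 ⊢
    linear_combination this + (Z ⬝ᵥ N y) * (N y ⬝ᵥ b) * e1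
  have a1 := h.lapN_tan (1, 0)
  have a2 := h.lapN_tan (0, 1)
  have a3 := h.lapN_nor
  simp only [lapN, gco, gtr, ← hD] at a1 a2 a3 ⊢
  simp only [key (fderiv ℝ N y _), key ((jet2 N y).2.2 _ _)]
  linear_combination
    ((t2 D ⬝ᵥ t2 D) * (Z ⬝ᵥ t1 D) - (t1 D ⬝ᵥ t2 D) * (Z ⬝ᵥ t2 D)) / gdet D * a1 +
    ((t1 D ⬝ᵥ t1 D) * (Z ⬝ᵥ t2 D) - (t1 D ⬝ᵥ t2 D) * (Z ⬝ᵥ t1 D)) / gdet D * a2 + (Z ⬝ᵥ N y) * a3

/-- **the linearised operator is the Jacobi operator of the normal component**, in a chart -/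
theorem dnum_jac {Z : P2 → C3} (hZ : ContDiffAt ℝ 2 Z y) :
    dnum (jet2 X y) (jet2 Z y) = (N y ⬝ᵥ nor (fderiv ℝ X y)) *
      (drift (jet2 X y) (jet2 (fun z => Z z ⬝ᵥ N z) y) + (sqA X N y + 1 / 2) * (Z y ⬝ᵥ N y)) := by
  rw [h.dnum_eq' hZ, h.lapN_eq]
  ring

end Nor

/-! ### Real charts -/

theorem cE_dot (a b : E3) : cE a ⬝ᵥ cE b = ((⟪a, b⟫ : ℝ) : ℂ) := by
  simp [dotProduct, PiLp.inner_apply, Fin.sum_univ_three]
  ring

theorem gdet_ne_of_inj {D : P2 →L[ℝ] E3} (hD : Function.Injective D) : gdet (cE.comp D) ≠ 0 := by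
  intro h0
  simp only [gdet, t1, t2, ContinuousLinearMap.comp_apply, cE_dot] at h0
  have h1 : ⟪D (1, 0), D (1, 0)⟫ * ⟪D (0, 1), D (0, 1)⟫ - ⟪D (1, 0), D (0, 1)⟫ ^ 2 = 0 := by
    exact_mod_cast h0
  have h2 : D (⟪D (0, 1), D (0, 1)⟫, -⟪D (1, 0), D (0, 1)⟫) = D 0 := by
    rw [map_zero, lin_eq D, ← inner_self_eq_zero (𝕜 := ℝ)]
    simp only [inner_add_left, inner_add_right, real_inner_smul_left, real_inner_smul_right,
      real_inner_comm (D (1, 0)) (D (0, 1))]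
    linear_combination ⟪D (0, 1), D (0, 1)⟫ * h1
  have h3 : D (0, 1) = D 0 := by
    rw [map_zero, ← inner_self_eq_zero (𝕜 := ℝ)]
    exact congrArg Prod.fst (hD h2)
  simpa using hD h3

theorem inj_of_gdet_ne {D : P2 →L[ℝ] E3} (hD : gdet (cE.comp D) ≠ 0) : Function.Injective D := by
  refine (injective_iff_map_eq_zero D).2 fun v hv => ?_
  have a := congrArg (fun x => ⟪x, D (1, 0)⟫) hv
  have b := congrArg (fun x => ⟪x, D (0, 1)⟫) hv
  simp only [gdet, t1, t2, ContinuousLinearMap.comp_apply, cE_dot] at hD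
  have h1 : ⟪D (1, 0), D (1, 0)⟫ * ⟪D (0, 1), D (0, 1)⟫ - ⟪D (1, 0), D (0, 1)⟫ ^ 2 ≠ 0 := by
    exact_mod_cast hD
  rw [lin_eq D v] at a b
  simp only [inner_add_left, real_inner_smul_left, inner_zero_left,
    real_inner_comm (D (1, 0)) (D (0, 1))] at a b
  refine Prod.ext (mul_right_cancel₀ h1 ?_) (mul_right_cancel₀ h1 ?_)
  · simp only [Prod.fst_zero]
    linear_combination ⟪D (0, 1), D (0, 1)⟫ * a - ⟪D (1, 0), D (0, 1)⟫ * b
  · simp only [Prod.snd_zero]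
    linear_combination ⟪D (1, 0), D (1, 0)⟫ * b - ⟪D (1, 0), D (0, 1)⟫ * a

theorem gco_dot {D : P2 →L[ℝ] C3} {n : C3} (hg : gdet D ≠ 0) (hn : n ⬝ᵥ n = 1)
    (h1 : ∀ u, n ⬝ᵥ D u = 0) (a b : C3) :
    gco D (fun u => a ⬝ᵥ D u) (fun u => b ⬝ᵥ D u) = a ⬝ᵥ b - (a ⬝ᵥ n) * (b ⬝ᵥ n) := by
  obtain ⟨e1, e2⟩ := nor_eq hg hn h1
  have := expand_dot a b (t1 D) (t2 D)
  rw [show t1 D ⨯₃ t2 D = nor D from rfl, e2 a, e2 b] at this
  unfold gco gtr
  rw [div_eq_iff hg]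
  unfold gdet at e1 ⊢
  simp only [t1, t2] at this e1 ⊢
  linear_combination -this - (a ⬝ᵥ n) * (b ⬝ᵥ n) * e1

/-- the tangential trace -/
theorem gtr_real {D : P2 →L[ℝ] E3} {n : E3} (hg : gdet (cE.comp D) ≠ 0) (hn : ‖n‖ = 1)
    (h1 : ∀ u, ⟪n, D u⟫ = 0) (L : E3 →L[ℝ] E3) :
    gtr (cE.comp D) (fun u v => ((⟪L (D u), D v⟫ : ℝ) : ℂ)) = ((tr L - ⟪L n, n⟫ : ℝ) : ℂ) := by
  obtain ⟨a, b, ht⟩ := exists_triple hn
  have e : ∀ u, D u = ⟪a, D u⟫ • a + ⟪b, D u⟫ • b := fun u => by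
    have := ht.expand (D u)
    rwa [h1, zero_smul, add_zero] at this
  have i : ∀ u v, ⟪D u, D v⟫ = ⟪a, D u⟫ * ⟪a, D v⟫ + ⟪b, D u⟫ * ⟪b, D v⟫ := fun u v => by
    rw [ht.inner_eq, h1, zero_mul, add_zero]
  have j : ∀ u v, ⟪L (D u), D v⟫ = ⟪a, D u⟫ * ⟪a, D v⟫ * ⟪L a, a⟫ + ⟪a, D u⟫ * ⟪b, D v⟫ * ⟪L a, b⟫ +
      ⟪b, D u⟫ * ⟪a, D v⟫ * ⟪L b, a⟫ + ⟪b, D u⟫ * ⟪b, D v⟫ * ⟪L b, b⟫ := fun u v => by
    conv_lhs => rw [e u, e v]
    simp only [map_add, map_smul, inner_add_left, inner_add_right, real_inner_smul_left,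
      real_inner_smul_right]
    ring
  unfold gtr
  rw [div_eq_iff hg, ht.tr_eq]
  simp only [gdet, t1, t2, ContinuousLinearMap.comp_apply, cE_dot, i, j]
  push_cast
  ring

/-- the Jacobi operator `Δ_S f - ⟨x, ∇f⟩ / 2 + (|A|² + 1/2) f` of a shrinker -/
def jacS (S : Set E3) (f : E3 → ℝ) (x : E3) : ℝ :=
  divT S (gradient f) x - ⟪x, gradient f x⟫ / 2 + (a2 S x + 1 / 2) * f x

theorem fderiv_cE {X : P2 → E3} {y : P2} (hX : DifferentiableAt ℝ X y) :
    fderiv ℝ (fun z => cE (X z)) y = cE.comp (fderiv ℝ X y) :=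
  (cE.hasFDerivAt.comp y hX.hasFDerivAt).fderiv

theorem inner_hess' {f : E3 → ℝ} {x : E3} (hf : ContDiffAt ℝ 2 f x) (v u : E3) :
    ⟪fderiv ℝ (gradient f) x v, u⟫ = fderiv ℝ (fderiv ℝ f) x v u := by
  have h : HasFDerivAt (gradient f) _ x := rz.hasFDerivAt.comp x (diff_fderiv hf).hasFDerivAt
  rw [h.fderiv]
  exact inner_rz _ _

variable {S : Set E3} {X : P2 → E3} {y : P2} {w : E3 → ℝ} {x : E3}

theorem tangent (hw : IsEqn S (X y) w) (hX : DifferentiableAt ℝ X y) (hS : ∀ᶠ z in 𝓝 y, X z ∈ S)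
    (u : P2) : ⟪nuw w (X y), fderiv ℝ X y u⟫ = 0 := by
  have h1 : (fun z => w (X z)) =ᶠ[𝓝 y] fun _ => 0 := by
    filter_upwards [hS, hX.continuousAt.eventually hw.2.2] with z h1 h2 using h2.1 h1
  have h2 := ((hw.1.differentiable (by simp) _).hasFDerivAt.comp y hX.hasFDerivAt).unique
    ((hasFDerivAt_const (0 : ℝ) y).congr_of_eventuallyEq h1)
  have h3 := congrArg (fun L : P2 →L[ℝ] ℝ => L u) h2
  rw [nuw, real_inner_smul_left, inner_grad]
  simpa using Or.inr h3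

theorem second_form (hw : IsEqn S (X y) w) (hX : ContDiffAt ℝ 2 X y) (hS : ∀ᶠ z in 𝓝 y, X z ∈ S)
    (u v : P2) : ⟪(jet2 X y).2.2 u v, nuw w (X y)⟫ =
      ⟪shw w (X y) (fderiv ℝ X y u), fderiv ℝ X y v⟫ := by
  have h1 : (fun z => w (X z)) =ᶠ[𝓝 y] fun _ => 0 := by
    filter_upwards [hS, hX.continuousAt.eventually hw.2.2] with z h1 h2 using h2.1 h1
  have h2 := (jet2_comp hw.two.contDiffAt hX).2.2 u v
  have ht := tangent hw (hX.differentiableAt (by simp)) hS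
  rw [jet2_congr h1, jet2_const] at h2
  rw [inner_shw, pt_of_orth (ht u), pt_of_orth (ht v), inner_hess hw.two, nuw,
    real_inner_smul_right, real_inner_comm, inner_grad]
  simp only [jet2, _root_.zero_apply] at h2 ⊢
  linear_combination (-‖gradient w (X y)‖⁻¹) * h2

theorem inner_relV (hw : IsEqn S x w) (hx : x ∈ S) :
    ⟪relV S 0 1 x, nuw w x⟫ = tr (shw w x) + ⟪x, nuw w x⟫ / 2 := by
  obtain ⟨ε, hε, h1, -⟩ := hw.nu_sh hx
  have h2 : ⟪nuw w x, nuw w x⟫ = 1 := by rw [real_inner_self_eq_norm_sq, norm_nuw hw.2.1]; simp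
  rw [relV, hw.Hv_eq hx, h1, sub_zero]
  simp only [inner_add_left, real_inner_smul_left, real_inner_smul_right, h2]
  linear_combination ⟪x, nuw w x⟫ / 2 * P218FT.sign_mul_self hε

/-- **dictionary**: the numerator of the operator is the normal component of `H + x^⊥ / 2` -/
theorem num_eq (hw : IsEqn S (X y) w) (hX : ContDiffAt ℝ 2 X y)
    (hg : gdet (fderiv ℝ (fun z => cE (X z)) y) ≠ 0) (hS : ∀ᶠ z in 𝓝 y, X z ∈ S) :
    num (jet2 (fun z => cE (X z)) y) =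
      (cE (nuw w (X y)) ⬝ᵥ nor (fderiv ℝ (fun z => cE (X z)) y)) *
        ((⟪relV S 0 1 (X y), nuw w (X y)⟫ : ℝ) : ℂ) := by
  have hd := hX.differentiableAt (by simp)
  have ht := tangent hw hd hS
  have hn := norm_nuw hw.2.1
  rw [fderiv_cE hd] at hg ⊢
  obtain ⟨-, e2⟩ := nor_eq (n := cE (nuw w (X y))) hg
    (by rw [cE_dot, real_inner_self_eq_norm_sq, hn]; simp)
    (fun u => by rw [ContinuousLinearMap.comp_apply, cE_dot, ht]; simp)
  have a := gtr_real hg hn ht (shw w (X y))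
  rw [shw_nuw hw.2.1, inner_zero_left, sub_zero] at a
  rw [jet2_clm cE hX, inner_relV hw hS.self_of_nhds]
  simp only [num, J2.map, ContinuousLinearMap.comp_apply, ContinuousLinearMap.compL_apply]
  rw [show (jet2 X y).2.1 = fderiv ℝ X y from rfl, show (jet2 X y).1 = X y from rfl]
  simp only [e2 (cE (X y)), e2 (cE ((jet2 X y).2.2 _ _)), cE_dot, second_form hw hX hS, gtr_mul, a]
  push_cast
  ring

/-- `X` is a local parametrisation of `S` at `y` -/
structure Ch (S : Set E3) (X : P2 → E3) (y : P2) : Prop where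
  cX : ContDiffAt ℝ 3 X y
  imm : gdet (fderiv ℝ (fun z => cE (X z)) y) ≠ 0
  mem : ∀ᶠ z in 𝓝 y, X z ∈ S

theorem continuous_gdet : Continuous gdet := by
  unfold gdet t1 t2 dotProduct
  fun_prop

theorem Ch.eventually (h : Ch S X y) : ∀ᶠ z in 𝓝 y, Ch S X z := by
  have h1 : ContinuousAt (fun z => gdet (fderiv ℝ (fun z => cE (X z)) z)) y :=
    continuous_gdet.continuousAt.comp
      ((cE.contDiff.contDiffAt.comp y h.cX).fderiv_right (m := 0) (by norm_num)).continuousAt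
  filter_upwards [h.cX.eventually (by simp), h1.eventually_ne h.imm, h.mem.eventually_nhds]
    with z a b c using ⟨a, b, c⟩

theorem Ch.two (h : Ch S X y) : ContDiffAt ℝ 2 X y := h.cX.of_le (by norm_num)

theorem Ch.diff (h : Ch S X y) : DifferentiableAt ℝ X y := h.cX.differentiableAt (by simp)

/-- a parametrisation of a shrinker solves the equation -/
theorem Ch.num_zero (h : Ch S X y) (hS : IsShr S) : num (jet2 (fun z => cE (X z)) y) = 0 := by
  rw [num_eq (hS.1.isEqn h.mem.self_of_nhds) h.two h.imm h.mem, hS.2 _ h.mem.self_of_nhds]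
  simp

theorem Ch.nor (h : Ch S X y) (hS : IsShr S) (hw : IsEqn S (X y) w) :
    Nor (fun z => cE (X z)) (fun z => cE (nuw w (X z))) y where
  cX := cE.contDiff.contDiffAt.comp y h.cX
  cN := cE.contDiff.contDiffAt.comp y (((fderiv_nuw hw.1 hw.2.1).1.of_le two_le_inf).comp y h.two)
  imm := h.imm
  unit := by
    filter_upwards [h.cX.continuousAt.eventually hw.eventually] with z hz
    rw [cE_dot, real_inner_self_eq_norm_sq, norm_nuw hz.2.1]; simp
  orth := by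
    filter_upwards [h.cX.continuousAt.eventually hw.eventually, h.eventually] with z hz hc u
    rw [fderiv_cE hc.diff, ContinuousLinearMap.comp_apply, cE_dot, tangent hz hc.diff hc.mem]; simp
  sol := h.eventually.mono fun z hz => hz.num_zero hS

theorem Ch.sqA (h : Ch S X y) (hw : IsEqn S (X y) w) :
    sqA (fun z => cE (X z)) (fun z => cE (nuw w (X z))) y = (a2 S (X y) : ℝ) := by
  have ht := tangent hw h.diff h.mem
  obtain ⟨c, d⟩ := fderiv_nuw hw.1 hw.2.1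
  have e : ∀ u, fderiv ℝ (fun z => cE (nuw w (X z))) y u = cE (-shw w (X y) (fderiv ℝ X y u)) :=
    fun u => by
      have k : HasFDerivAt (fun z => cE (nuw w (X z))) _ y := cE.hasFDerivAt.comp y
        ((c.differentiableAt (by simp)).hasFDerivAt.comp y h.diff.hasFDerivAt)
      rw [k.fderiv, ← d _ (ht u)]
      rfl
  have hg := h.imm
  rw [fderiv_cE h.diff] at hg
  have a := gtr_real hg (norm_nuw hw.2.1) ht ((shw w (X y)).comp (shw w (X y)))
  simp only [ContinuousLinearMap.comp_apply, shw_nuw hw.2.1, map_zero, inner_zero_left,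
    sub_zero] at a
  rw [hw.a2_eq h.mem.self_of_nhds, ← a, Inj.sqA, fderiv_cE h.diff]
  refine gtr_congr _ fun u v => ?_
  rw [e, e, cE_dot, inner_neg_neg, shw_symm hw.two (X y) (shw w (X y) _)]

theorem divT_eq (hw : IsEqn S x w) (hx : x ∈ S) (Y : E3 → E3) :
    divT S Y x = tr (fderiv ℝ Y x) - ⟪fderiv ℝ Y x (nuw w x), nuw w x⟫ := by
  obtain ⟨ε, hε, h1, -⟩ := hw.nu_sh hx
  rw [divT, h1, map_smul, real_inner_smul_left, real_inner_smul_right, ← mul_assoc,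
    P218FT.sign_mul_self hε, one_mul]

theorem Ch.drift (h : Ch S X y) (hS : IsShr S) {f : E3 → ℝ} (hf : ContDiffAt ℝ 2 f (X y)) :
    drift (jet2 (fun z => cE (X z)) y) (jet2 (fun z => ((f (X z) : ℝ) : ℂ)) y) =
      ((divT S (gradient f) (X y) - ⟪X y, gradient f (X y)⟫ / 2 : ℝ) : ℂ) := by
  have hw := hS.1.isEqn h.mem.self_of_nhds
  set w := eqn S (X y)
  have hN := h.nor hS hw
  have ht := tangent hw h.diff h.mem
  have hg := h.imm
  have h0 := h.num_zero hS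
  have u1 := hN.unit.self_of_nhds
  have u2 := hN.orth.self_of_nhds
  have u3 := hN.nor_ne
  obtain ⟨-, e2⟩ := nor_eq hg u1 u2
  obtain ⟨-, c1, c2⟩ := jet2_comp hf h.two
  have hj := jet2_clm Complex.ofRealCLM (hf.comp y h.two)
  rw [show jet2 (fun z => ((f (X z) : ℝ) : ℂ)) y = _ from hj]
  rw [jet2_clm cE h.two] at h0 ⊢
  rw [fderiv_cE h.diff] at hg u2 u3 e2
  have a := gtr_real hg (norm_nuw hw.2.1) ht (fderiv ℝ (gradient f) (X y))
  set D := cE.comp (fderiv ℝ X y) with hD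
  set B : P2 → P2 → C3 := fun u v => cE ((jet2 X y).2.2 u v) with hB
  let K : C3 := (gdet D)⁻¹ • ((t2 D ⬝ᵥ t2 D) • B (1, 0) (1, 0) -
    (t1 D ⬝ᵥ t2 D) • (B (1, 0) (0, 1) + B (0, 1) (1, 0)) + (t1 D ⬝ᵥ t1 D) • B (0, 1) (0, 1)) +
    (2 : ℂ)⁻¹ • cE (X y)
  have k : ∀ v, gtr D (fun a b => B a b ⬝ᵥ v) + cE (X y) ⬝ᵥ v / 2 = K ⬝ᵥ v := fun v => by
    simp only [K, gtr, add_dotProduct, sub_dotProduct, smul_dotProduct, smul_eq_mul]
    ring
  have k1 : K ⬝ᵥ cE (nuw w (X y)) = 0 := by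
    have : K ⬝ᵥ Core.nor D = 0 := (k _).symm.trans h0
    rw [e2] at this
    exact (mul_eq_zero.1 this).resolve_left u3
  have k2 := gco_dot hg u1 u2 (cE (gradient f (X y))) K
  have k3 := k (cE (gradient f (X y)))
  have d1 : ∀ u, (((jet2 (f ∘ X) y).map Complex.ofRealCLM).2.1 u) =
      cE (gradient f (X y)) ⬝ᵥ D u := fun u => by
    rw [hD, ContinuousLinearMap.comp_apply, cE_dot, inner_grad]
    exact congrArg Complex.ofReal (c1 u)
  have d2 : ∀ u v, (((jet2 (f ∘ X) y).map Complex.ofRealCLM).2.2 u v) =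
      B u v ⬝ᵥ cE (gradient f (X y)) +
        ((⟪fderiv ℝ (gradient f) (X y) (fderiv ℝ X y u), fderiv ℝ X y v⟫ : ℝ) : ℂ) := fun u v => by
    rw [hB, cE_dot, real_inner_comm, inner_grad, inner_hess' hf, ← Complex.ofReal_add]
    exact congrArg Complex.ofReal (c2 u v)
  have d3 : dr ((jet2 X y).map cE) = fun l => K ⬝ᵥ D l := funext fun l => k _
  rw [divT_eq hw h.mem.self_of_nhds]
  simp only [Inj.drift, d1, d2, d3]
  rw [show ((jet2 X y).map cE).2.1 = D from rfl, gtr_add, a, k2, k1, dotProduct_comm _ K, ← k3,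
    cE_dot]
  push_cast
  ring

/-- **The linearised operator is the Jacobi operator of the normal component.** -/
theorem Ch.dnum_eq (h : Ch S X y) (hS : IsShr S) (hw : IsEqn S (X y) w) {Z : P2 → C3}
    (hZ : ContDiffAt ℝ 2 Z y) {f g : E3 → ℝ} (hf : ContDiffAt ℝ 2 f (X y))
    (hg : ContDiffAt ℝ 2 g (X y))
    (e : ∀ᶠ z in 𝓝 y, Z z ⬝ᵥ cE (nuw w (X z)) = (f (X z) : ℝ) + Complex.I * (g (X z) : ℝ)) :
    dnum (jet2 (fun z => cE (X z)) y) (jet2 Z y) =
      (cE (nuw w (X y)) ⬝ᵥ Core.nor (fderiv ℝ (fun z => cE (X z)) y)) *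
        ((jacS S f (X y) : ℝ) + Complex.I * (jacS S g (X y) : ℝ)) := by
  have a : ContDiffAt ℝ 2 (fun z => ((f (X z) : ℝ) : ℂ)) y :=
    Complex.ofRealCLM.contDiff.contDiffAt.comp y (hf.comp y h.two)
  have b : ContDiffAt ℝ 2 (fun z => ((g (X z) : ℝ) : ℂ)) y :=
    Complex.ofRealCLM.contDiff.contDiffAt.comp y (hg.comp y h.two)
  have c := jet2_clm (ContinuousLinearMap.mul ℝ ℂ Complex.I) b
  have d : ∀ (q : J2 P2 C3) (a b : J2 P2 ℂ), Inj.drift q (a + b.map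
      (ContinuousLinearMap.mul ℝ ℂ Complex.I)) = Inj.drift q a + Complex.I * Inj.drift q b := by
    intro q a b
    simp only [Inj.drift, gco, gtr, J2.map, Prod.fst_add, Prod.snd_add, _root_.add_apply,
      ContinuousLinearMap.comp_apply, ContinuousLinearMap.compL_apply,
      ContinuousLinearMap.mul_apply']
    ring
  rw [(h.nor hS hw).dnum_jac hZ, jet2_congr e, e.self_of_nhds, h.sqA hw,
    jet2_add a (contDiffAt_const.mul b),
    show jet2 (fun z => Complex.I * ((g (X z) : ℝ) : ℂ)) y = _ from c, d, h.drift hS hf,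
    h.drift hS hg, jacS, jacS]
  push_cast
  ring

end Vale.Agent.P218F.Inj
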