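import Vale.Agent.P272.K.R.Final
import Mathlib.Analysis.Calculus.BumpFunction.Normed
import Mathlib.Analysis.Calculus.ParametricIntegral
import Mathlib.MeasureTheory.Measure.Haar.OfBasis

/-!
# `C²` solutions of quasilinear elliptic equations are smooth

Mollification and Friedrichs' commutator estimate give `C^{2,α}`; the rest is the bootstrap.
-/

set_option maxSynthPendingDepth 3
set_option linter.unusedSectionVars false

open Set Metric Filter Topology MeasureTheory
open scoped ContDiff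
open Vale.Agent.P272.K.R

noncomputable section

namespace Vale.Agent.P218F.Reg

variable {E : Type} [NormedAddCommGroup E] [NormedSpace ℝ E] [FiniteDimensional ℝ E]

section mol

variable [MeasurableSpace E] [BorelSpace E] (μ : Measure E) [μ.IsAddHaarMeasure]
  {F G : Type} [NormedAddCommGroup F] [NormedSpace ℝ F] [NormedAddCommGroup G] [NormedSpace ℝ G]

/-- a mollifier -/
structure Mol (φ : E → ℝ) (L : ℝ) : Prop where
  cont : Continuous φ
  supp : ∀ y, 1 ≤ ‖y‖ → φ y = 0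
  nonneg : ∀ y, 0 ≤ φ y
  int : ∫ y, φ y ∂μ = 1
  L0 : 0 ≤ L
  lip : ∀ y y', |φ y - φ y'| ≤ L * ‖y - y'‖

lemma exists_mol : ∃ φ L, Mol μ φ L := by
  let b : ContDiffBump (0 : E) := ⟨1 / 2, 1, by norm_num, by norm_num⟩
  obtain ⟨L, hL⟩ := (b.contDiff_normed (μ := μ) (n := 1)).lipschitzWith_of_hasCompactSupport
    b.hasCompactSupport_normed (by simp)
  refine ⟨b.normed μ, L, b.continuous_normed, fun y hy => ?_, b.nonneg_normed, b.integral_normed,
    L.2, fun y y' => by simpa [Real.dist_eq, dist_eq_norm] using hL.dist_le_mul y y'⟩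
  by_contra h
  have : y ∈ Function.support (b.normed μ) := h
  rw [b.support_normed_eq, mem_ball_zero_iff] at this
  exact absurd hy (not_le.2 this)

/-- the mollification at scale `ε` -/
def mol (φ : E → ℝ) (ε : ℝ) (f : E → F) (x : E) : F := ∫ y, φ y • f (x - ε • y) ∂μ

variable {μ} {φ : E → ℝ} {L ε : ℝ} (h : Mol μ φ L)
include h

lemma Mol.integrable_shift {f : E → F} (hf : Continuous f) (k : E) :
    Integrable (fun y => φ (y + k) • f y) μ := by
  refine Continuous.integrable_of_hasCompactSupport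
    ((h.cont.comp (continuous_id.add continuous_const)).smul hf) ?_
  refine HasCompactSupport.intro (isCompact_closedBall (-k) 1) fun y hy => ?_
  rw [mem_closedBall, dist_eq_norm, sub_neg_eq_add, not_le] at hy
  rw [h.supp _ hy.le, zero_smul]

lemma Mol.integrable {f : E → F} (hf : Continuous f) : Integrable (fun y => φ y • f y) μ := by
  simpa using h.integrable_shift hf 0

lemma Mol.integrable' {f : E → F} (hf : Continuous f) (x : E) :
    Integrable (fun y => φ y • f (x - ε • y)) μ :=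
  h.integrable (f := fun y => f (x - ε • y)) (by fun_prop)

lemma Mol.norm_int_le {f : E → F} {M : ℝ} (hM : ∀ y, ‖y‖ ≤ 1 → ‖f y‖ ≤ M) :
    ‖∫ y, φ y • f y ∂μ‖ ≤ M := by
  have h1 : ∫ y, φ y • M ∂μ = M := by rw [integral_smul_const, h.int, one_smul]
  rw [← h1]
  refine norm_integral_le_of_norm_le (h.integrable continuous_const)
    (Eventually.of_forall fun y => ?_)
  rw [norm_smul, Real.norm_of_nonneg (h.nonneg y), smul_eq_mul]
  by_cases hy : ‖y‖ ≤ 1
  · exact mul_le_mul_of_nonneg_left (hM y hy) (h.nonneg y)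
  · simp [h.supp y (not_le.1 hy).le]

lemma Mol.sub {f g : E → F} (hf : Continuous f) (hg : Continuous g) (x x' : E) :
    mol μ φ ε f x - mol μ φ ε g x' = ∫ y, φ y • (f (x - ε • y) - g (x' - ε • y)) ∂μ := by
  rw [mol, mol, ← integral_sub (h.integrable' hf x) (h.integrable' hg x')]
  simp only [smul_sub]

lemma Mol.lip_of_lip {f : E → F} (hf : Continuous f) {K : ℝ}
    (hK : ∀ y y', ‖f y - f y'‖ ≤ K * ‖y - y'‖) (x x' : E) :
    ‖mol μ φ ε f x - mol μ φ ε f x'‖ ≤ K * ‖x - x'‖ := by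
  rw [h.sub hf hf]
  exact h.norm_int_le fun y _ => by simpa using hK (x - ε • y) (x' - ε • y)

/-- the gain of one derivative -/
lemma Mol.gain [CompleteSpace F] (hε : 0 < ε) {f : E → F} (hf : Continuous f) {x x' : E} {M : ℝ}
    (hx : ‖x' - x‖ ≤ ε) (hM : ∀ y, ‖y‖ ≤ 2 → ‖f (x - ε • y)‖ ≤ M) :
    ‖mol μ φ ε f x' - mol μ φ ε f x‖ ≤ L * μ.real (closedBall (0 : E) 2) * (M / ε) * ‖x' - x‖ := by
  set k := ε⁻¹ • (x' - x) with hk
  have hM0 : 0 ≤ M := (norm_nonneg _).trans (hM 0 (by simp))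
  have hkn : ‖k‖ = ‖x' - x‖ / ε := by
    rw [hk, norm_smul, norm_inv, Real.norm_of_nonneg hε.le, div_eq_inv_mul]
  have hk1 : ‖k‖ ≤ 1 := by rw [hkn, div_le_one hε]; exact hx
  have hc : Continuous fun y : E => f (x - ε • y) := by fun_prop
  have e1 : mol μ φ ε f x' = ∫ y, φ (y + k) • f (x - ε • y) ∂μ := by
    rw [mol, ← integral_add_right_eq_self _ k]
    congr 1
    ext1 y
    congr 2
    rw [hk, smul_add, smul_smul, mul_inv_cancel₀ hε.ne', one_smul]
    abel
  rw [e1, mol, ← integral_sub (h.integrable_shift hc k) (h.integrable hc)]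
  have e2 : ∫ y, (closedBall (0 : E) 2).indicator (fun _ => L * ‖k‖ * M) y ∂μ
      = L * μ.real (closedBall (0 : E) 2) * (M / ε) * ‖x' - x‖ := by
    rw [integral_indicator measurableSet_closedBall, setIntegral_const, hkn, smul_eq_mul]
    ring
  rw [← e2]
  refine norm_integral_le_of_norm_le ((integrable_indicator_iff measurableSet_closedBall).2
    (integrableOn_const (measure_closedBall_lt_top.ne))) (Eventually.of_forall fun y => ?_)
  rw [← sub_smul, norm_smul]
  by_cases hy : ‖y‖ ≤ 2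
  · rw [indicator_of_mem (mem_closedBall_zero_iff.2 hy)]
    have := h.lip (y + k) y
    rw [add_sub_cancel_left] at this
    exact mul_le_mul this (hM y hy) (norm_nonneg _) (mul_nonneg h.L0 (norm_nonneg _))
  · have h1 : 1 ≤ ‖y + k‖ := by
      have := norm_sub_le (y + k) k
      rw [add_sub_cancel_right] at this
      linarith [not_le.1 hy]
    rw [indicator_of_notMem (mt mem_closedBall_zero_iff.1 hy), h.supp _ h1,
      h.supp y (by linarith [not_le.1 hy])]
    simp

lemma Mol.hasFDerivAt {f : E → F} (hf : ContDiff ℝ 1 f) (hc : HasCompactSupport f) (x : E) :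
    HasFDerivAt (mol μ φ ε f) (mol μ φ ε (fderiv ℝ f) x) x := by
  have hd := hf.continuous_fderiv (by simp)
  obtain ⟨M, hM⟩ := (hc.fderiv ℝ).exists_bound_of_continuous hd
  refine hasFDerivAt_integral_of_dominated_of_fderiv_le (𝕜 := ℝ) (s := univ)
    (F := fun x y => φ y • f (x - ε • y)) (F' := fun x y => φ y • fderiv ℝ f (x - ε • y))
    (bound := fun y => φ y • M) univ_mem
    (Eventually.of_forall fun x => (h.integrable' hf.continuous x).1) (h.integrable' hf.continuous x)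
    (h.integrable' hd x).1 (Eventually.of_forall fun y x _ => ?_) (h.integrable continuous_const)
    (Eventually.of_forall fun y x _ => ?_)
  · rw [norm_smul, Real.norm_of_nonneg (h.nonneg y), smul_eq_mul]
    exact mul_le_mul_of_nonneg_left (hM _) (h.nonneg y)
  · exact ((hasFDerivAt_comp_sub (ε • y)).2
      (hf.differentiable (by simp) _).hasFDerivAt).const_smul (φ y)

lemma Mol.tendsto [CompleteSpace F] {f : E → F} (hf : Continuous f) (x : E) :
    Tendsto (fun ε => mol μ φ ε f x) (𝓝[>] 0) (𝓝 (f x)) := by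
  rw [Metric.tendsto_nhds]
  intro η hη
  obtain ⟨δ, hδ, hd⟩ := Metric.continuousAt_iff.1 (hf.continuousAt (x := x)) (η / 2) (by positivity)
  filter_upwards [Ioo_mem_nhdsGT hδ] with ε hε
  have e : f x = mol μ φ ε (fun _ => f x) x := by rw [mol, integral_smul_const, h.int, one_smul]
  rw [dist_eq_norm, e, h.sub hf continuous_const]
  refine (h.norm_int_le (M := η / 2) fun y hy => ?_).trans_lt (by linarith)
  rw [← dist_eq_norm]
  refine (hd ?_).le
  rw [dist_eq_norm, sub_sub_cancel_left, norm_neg, norm_smul, Real.norm_of_nonneg hε.1.le]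
  nlinarith [hε.1, hε.2]

end mol

lemma lip_of_cases {F : Type} [NormedAddCommGroup F] {f : E → F} {s : Set E} {K ε : ℝ} (hK : 0 ≤ K)
    (h1 : ∀ x ∈ s, ∀ x' ∈ s, ‖x' - x‖ ≤ ε → ‖f x' - f x‖ ≤ K * ‖x' - x‖)
    (h2 : ∀ x ∈ s, ‖f x‖ ≤ K * ε) : ∀ x ∈ s, ∀ x' ∈ s, ‖f x - f x'‖ ≤ 2 * K * ‖x - x'‖ := by
  intro x hx x' hx'
  rcases le_total ‖x - x'‖ ε with h | h
  · nlinarith [h1 x' hx' x hx h, norm_nonneg (x - x')]
  · nlinarith [norm_sub_le (f x) (f x'), h2 x hx, h2 x' hx']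

lemma hol_of_lip {F : Type} [NormedAddCommGroup F] {f : E → F} {x₀ : E} {r K α : ℝ} (hα1 : α ≤ 1)
    (_hα : 0 < α) (hr : r ≤ 1 / 2) (hK : 0 ≤ K)
    (h : ∀ x ∈ ball x₀ r, ∀ x' ∈ ball x₀ r, ‖f x - f x'‖ ≤ K * ‖x - x'‖) : Hol α K f (ball x₀ r) := by
  intro x hx x' hx'
  refine (h x hx x' hx').trans (mul_le_mul_of_nonneg_left ?_ hK)
  have h1 : ‖x - x'‖ ≤ 1 := by
    have := norm_sub_le_norm_sub_add_norm_sub x x₀ x'
    rw [norm_sub_rev x₀] at this
    linarith [mem_ball_iff_norm.1 hx, mem_ball_iff_norm.1 hx']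
  exact Real.self_le_rpow_of_le_one (norm_nonneg _) h1 hα1

/-- a local function is the germ of a global one with compact support -/
lemma exists_cut {F : Type} [NormedAddCommGroup F] [NormedSpace ℝ F] {f : E → F} {z : E} {k : ℕ}
    (hf : ContDiffAt ℝ k f z) : ∃ g : E → F, ContDiff ℝ k g ∧ HasCompactSupport g ∧ g =ᶠ[𝓝 z] f := by
  obtain ⟨r, hr, hb⟩ := nhds_basis_closedBall.mem_iff.1 (hf.eventually (by simp))
  let φ : ContDiffBump z := ⟨r / 2, r, half_pos hr, half_lt_self hr⟩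
  refine ⟨fun y => φ y • f y, contDiff_iff_contDiffAt.2 fun y => ?_,
    φ.hasCompactSupport.smul_right, ?_⟩
  · by_cases hy : y ∈ closedBall z r
    · exact (φ.contDiffAt (n := k)).smul (hb hy)
    · have : ∀ᶠ y' in 𝓝 y, φ y' • f y' = 0 := by
        filter_upwards [isClosed_closedBall.isOpen_compl.mem_nhds hy] with y' hy'
        have : φ y' = 0 := φ.zero_of_le_dist (not_le.1 (mt mem_closedBall.2 hy')).le
        rw [this, zero_smul]
      exact contDiffAt_const.congr_of_eventuallyEq this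
  · filter_upwards [φ.eventuallyEq_one] with y hy
    rw [hy, Pi.one_apply, one_smul]

lemma exists_lip {F : Type} [NormedAddCommGroup F] [NormedSpace ℝ F] {f : E → F}
    (hf : ContDiff ℝ 1 f) (hc : HasCompactSupport f) :
    ∃ K : ℝ, 0 ≤ K ∧ (∀ y, ‖f y‖ ≤ K) ∧ ∀ y y', ‖f y - f y'‖ ≤ K * ‖y - y'‖ := by
  obtain ⟨L, hL⟩ := hf.lipschitzWith_of_hasCompactSupport hc (by simp)
  obtain ⟨M, hM⟩ := hc.exists_bound_of_continuous hf.continuous
  refine ⟨max L M, le_max_of_le_left L.2, fun y => (hM y).trans (le_max_right _ _), fun y y' => ?_⟩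
  have := hL.dist_le_mul y y'
  rw [dist_eq_norm, dist_eq_norm] at this
  exact this.trans (by gcongr; exact le_max_left _ _)

/-- **`C²` solutions of linear equations with `C¹` coefficients are `C^{2,α}`.** -/
theorem hol_D2 {α : ℝ} (hα : 0 < α) (hα1 : α < 1) {w g : E → ℝ} {A : E → Bil E →L[ℝ] ℝ} {x₀ : E}
    (hw : ContDiffAt ℝ 2 w x₀) (hA : ContDiffAt ℝ 1 A x₀) (hg : ContDiffAt ℝ 1 g x₀)
    (hell : ∀ ℓ : E →L[ℝ] ℝ, ℓ ≠ 0 → 0 < A x₀ (ℓ.smulRight ℓ))
    (heq : ∀ᶠ x in 𝓝 x₀, A x (D2 w x) = g x) :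
    ∃ r > 0, ∃ C, 0 ≤ C ∧ Hol α C (D2 w) (ball x₀ r) := by
  borelize E
  obtain ⟨φ, L, h⟩ := exists_mol (Measure.addHaar : Measure E)
  set μ : Measure E := Measure.addHaar
  obtain ⟨C, hC, hB⟩ := allCCE E hα hα1 (A x₀) hell
  obtain ⟨v, hv, hvc, hve⟩ := exists_cut (k := 2) hw
  obtain ⟨a, ha, hac, hae⟩ := exists_cut (k := 1) hA
  obtain ⟨f, hf, hfc, hfe⟩ := exists_cut (k := 1) hg
  have hv1 : ContDiff ℝ 1 (fderiv ℝ v) := hv.fderiv_right (m := 1) (by norm_num)
  have hH : Continuous (D2 v) := hv1.continuous_fderiv (by simp)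
  have hD : D2 v =ᶠ[𝓝 x₀] D2 w := hve.fderiv.fderiv
  obtain ⟨K0, hK0, b0, l0⟩ := exists_lip (hv.of_le (by norm_num)) hvc
  obtain ⟨K1, hK1, b1, l1⟩ := exists_lip hv1 (hvc.fderiv ℝ)
  obtain ⟨Ka, hKa, -, la⟩ := exists_lip ha hac
  obtain ⟨Kf, hKf, bf, lf⟩ := exists_lip hf hfc
  obtain ⟨M, hM⟩ := ((hvc.fderiv ℝ).fderiv ℝ).exists_bound_of_continuous hH
  have hM0 : 0 ≤ M := (norm_nonneg _).trans (hM 0)
  obtain ⟨ρ, hρ, hball⟩ := Metric.eventually_nhds_iff_ball.1
    (show ∀ᶠ x in 𝓝 x₀, a x (D2 v x) = f x ∧ D2 v x = D2 w x by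
      filter_upwards [heq, hD, hae, hfe] with x h1 h2 h3 h4
      exact ⟨by rw [h2, h3, h4, h1], h2⟩)
  obtain ⟨r, hr0, hr1, hr2, hr3⟩ : ∃ r : ℝ, 0 < r ∧ r ≤ 1 / 2 ∧ 2 * r ≤ ρ ∧
      C * (Ka * r + Ka * (3 * r) ^ α) ≤ 1 / 2 := by
    have h1 : Tendsto (fun r : ℝ => C * (Ka * r + Ka * (3 * r) ^ α)) (𝓝[>] 0) (𝓝 0) := by
      have : Continuous fun r : ℝ => C * (Ka * r + Ka * (3 * r) ^ α) := by
        have := Real.continuous_rpow_const hα.le
        fun_prop
      simpa [Real.zero_rpow hα.ne'] using (this.tendsto 0).mono_left nhdsWithin_le_nhds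
    obtain ⟨r, h2, h3⟩ := ((h1.eventually (ge_mem_nhds (show (0 : ℝ) < 1 / 2 by norm_num))).and
      (Ioc_mem_nhdsGT (show 0 < min (1 / 2) (ρ / 2) by positivity))).exists
    exact ⟨r, h3.1, h3.2.trans (min_le_left _ _), by linarith [h3.2.trans (min_le_right _ _)], h2⟩
  set c := L * μ.real (closedBall (0 : E) 2) with hc
  have hc0 : 0 ≤ c := mul_nonneg h.L0 measureReal_nonneg
  have d1 : ∀ ε, fderiv ℝ (mol μ φ ε v) = mol μ φ ε (fderiv ℝ v) := fun ε =>
    funext fun x => (h.hasFDerivAt (hv.of_le (by norm_num)) hvc x).fderiv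
  have d2 : ∀ ε, D2 (mol μ φ ε v) = mol μ φ ε (D2 v) := fun ε => by
    rw [D2, d1]
    exact funext fun x => (h.hasFDerivAt hv1 (hvc.fderiv ℝ) x).fderiv
  have lipH : ∀ ε, 0 < ε → ∀ x x', ‖mol μ φ ε (D2 v) x - mol μ φ ε (D2 v) x'‖
      ≤ 2 * ((c + 1) * (M / ε)) * ‖x - x'‖ := fun ε hε x x' =>
    lip_of_cases (s := univ) (ε := ε) (by positivity) (fun x _ x' _ hx =>
      (h.gain hε hH hx fun y _ => hM _).trans (by gcongr; linarith)) (fun x _ =>
      (h.norm_int_le fun y _ => hM _).trans (by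
        rw [mul_assoc, div_mul_cancel₀ _ hε.ne']; nlinarith)) x trivial x' trivial
  obtain ⟨C', hC', H⟩ := interior_family hα hα1.le hC hB (ι := Ioc (0 : ℝ) r) (x₀ := x₀) hr0
    (A := fun _ => a) (w := fun ε => mol μ φ ε v) (ε := Ka * r) (M := Ka) (by positivity) hKa
    (fun _ x hx => by
      rw [← hae.self_of_nhds]
      exact (la x x₀).trans (by gcongr; exact (mem_ball_iff_norm.1 hx).le))
    (fun _ => hol_of_lip hα1.le hα hr1 hKa fun x _ x' _ => la x x') hr3
    (fun ε => by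
      refine ContDiff.contDiffOn ?_
      rw [show (2 : WithTop ℕ∞) = 1 + 1 from rfl, contDiff_succ_iff_fderiv, d1, contDiff_one_iff_fderiv]
      refine ⟨fun x => (h.hasFDerivAt (hv.of_le (by norm_num)) hvc x).differentiableAt, by simp,
        fun x => (h.hasFDerivAt hv1 (hvc.fderiv ℝ) x).differentiableAt, ?_⟩
      rw [← d1]
      change Continuous (D2 _)
      rw [d2]
      refine (LipschitzWith.of_dist_le_mul (K := ⟨2 * ((c + 1) * (M / ε)), ?_⟩) fun x x' => ?_).continuous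
      · have := ε.2.1; positivity
      · rw [dist_eq_norm, dist_eq_norm]; exact lipH ε ε.2.1 x x')
    (UH.mk' (A := K0) (B := K0) (fun ε x _ => h.norm_int_le fun y _ => b0 _) fun ε =>
      hol_of_lip hα1.le hα hr1 hK0 fun x _ x' _ => h.lip_of_lip hv.continuous l0 x x')
    (UH.mk' (A := K1) (B := K1) (fun ε x _ => by rw [d1]; exact h.norm_int_le fun y _ => b1 _)
      fun ε => by
        rw [d1]
        exact hol_of_lip hα1.le hα hr1 hK1 fun x _ x' _ => h.lip_of_lip hv1.continuous l1 x x')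
    (fun ε => ⟨2 * ((c + 1) * (M / ε)), by have := ε.2.1; positivity, by
      rw [d2]
      exact hol_of_lip hα1.le hα hr1 (by have := ε.2.1; positivity) fun x _ x' _ =>
        lipH ε ε.2.1 x x'⟩)
    (by
      -- the commutator
      set Gm : E → E → ℝ := fun x z => (a x - a z) (D2 v z) with hG
      have cG : ∀ x, Continuous (Gm x) := fun x =>
        (continuous_const.sub ha.continuous).clm_apply hH
      have bG : ∀ x z, ‖Gm x z‖ ≤ Ka * ‖x - z‖ * M := fun x z =>
        ((a x - a z).le_opNorm _).trans (mul_le_mul (la x z) (hM z) (norm_nonneg _) (by positivity))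
      have bG' : ∀ (ε : ℝ) (x y : E), 0 < ε → ‖y‖ ≤ 2 → ‖Gm x (x - ε • y)‖ ≤ 2 * Ka * M * ε := by
        intro ε x y hε hy
        refine (bG _ _).trans ?_
        rw [sub_sub_cancel, norm_smul, Real.norm_of_nonneg hε.le]
        calc Ka * (ε * ‖y‖) * M ≤ Ka * (ε * 2) * M := by gcongr
          _ = _ := by ring
      have dec : ∀ ε : Ioc (0 : ℝ) r, ∀ x ∈ ball x₀ r,
          mol μ φ ε f x + mol μ φ ε (Gm x) x = a x (D2 (mol μ φ ε v) x) := by
        intro ε x hx
        rw [d2, mol, mol, mol, ← (a x).integral_comp_comm (h.integrable' hH x),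
          ← integral_add (h.integrable' hf.continuous x) (h.integrable' (cG x) x)]
        congr 1
        ext1 y
        by_cases hy : 1 ≤ ‖y‖
        · simp [h.supp y hy]
        · have h1 : x - ε.1 • y ∈ ball x₀ ρ := by
            rw [mem_ball_iff_norm, sub_right_comm]
            refine (norm_sub_le _ _).trans_lt ?_
            rw [norm_smul, Real.norm_of_nonneg ε.2.1.le]
            nlinarith [mem_ball_iff_norm.1 hx, ε.2.1, ε.2.2, not_le.1 hy]
          rw [← (hball _ h1).1, ← smul_add, map_smul]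
          simp [hG]
      refine UH.congr (UH.add (f := fun ε : Ioc (0 : ℝ) r => mol μ φ ε f)
        (g := fun (ε : Ioc (0 : ℝ) r) x => mol μ φ ε (Gm x) x) ?_ ?_) dec
      · exact UH.mk' (A := Kf) (B := Kf) (fun ε x _ => h.norm_int_le fun y _ => bf _) fun ε =>
          hol_of_lip hα1.le hα hr1 hKf fun x _ x' _ => h.lip_of_lip hf.continuous lf x x'
      · have bR : ∀ (ε : Ioc (0 : ℝ) r) (x : E), ‖mol μ φ ε (Gm x) x‖ ≤ 2 * Ka * M * ε := fun ε x =>
          h.norm_int_le fun y hy => bG' ε x y ε.2.1 (by linarith)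
        refine UH.mk' (A := 2 * Ka * M * r) (B := 2 * (2 * Ka * M * (c + 1)))
          (fun ε x _ => (bR ε x).trans (by gcongr; exact ε.2.2)) fun ε =>
          hol_of_lip hα1.le hα hr1 (by positivity) (lip_of_cases (ε := ε) (by positivity)
            (fun x _ x' _ hx => ?_) fun x _ => (bR ε x).trans ?_)
        · have e1 := h.gain ε.2.1 (cG x) hx fun y hy => bG' ε x y ε.2.1 hy
          rw [mul_div_cancel_right₀ _ ε.2.1.ne'] at e1
          have e2 : ‖mol μ φ ε (Gm x') x' - mol μ φ ε (Gm x) x'‖ ≤ Ka * ‖x' - x‖ * M := by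
            rw [h.sub (cG x') (cG x)]
            refine h.norm_int_le fun y _ => ?_
            have : Gm x' (x' - ε.1 • y) - Gm x (x' - ε.1 • y) = (a x' - a x) (D2 v (x' - ε.1 • y)) := by
              simp [hG]
            rw [this]
            exact ((a x' - a x).le_opNorm _).trans
              (mul_le_mul (la _ _) (hM _) (norm_nonneg _) (by positivity))
          have e3 := norm_sub_le_norm_sub_add_norm_sub (mol μ φ ε (Gm x') x') (mol μ φ ε (Gm x) x')
            (mol μ φ ε (Gm x) x)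
          have e4 : 0 ≤ Ka * M * ‖x' - x‖ := by positivity
          rw [← hc] at e1
          nlinarith
        · have : 0 ≤ 2 * Ka * M * ε.1 * c := by have := ε.2.1; positivity
          nlinarith)
  refine ⟨r / 2, by positivity, C', hC', fun x hx x' hx' => ?_⟩
  have hs : ball x₀ (r / 2) ⊆ ball x₀ ρ := ball_subset_ball (by linarith)
  rw [← (hball x (hs hx)).2, ← (hball x' (hs hx')).2]
  refine le_of_tendsto ((h.tendsto hH x).sub (h.tendsto hH x')).norm ?_
  filter_upwards [Ioc_mem_nhdsGT hr0] with ε hε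
  have := H ⟨ε, hε⟩ x hx x' hx'
  rwa [d2] at this

/-- **Regularity of `C²` solutions of quasilinear elliptic equations.** -/
theorem reg_abs {w : E → ℝ} {A : E × ℝ × (E →L[ℝ] ℝ) → Bil E →L[ℝ] ℝ}
    {f : E × ℝ × (E →L[ℝ] ℝ) → ℝ} {x₀ : E} (hw : ContDiffAt ℝ 2 w x₀)
    (hA : ContDiffAt ℝ ∞ A (x₀, w x₀, fderiv ℝ w x₀))
    (hf : ContDiffAt ℝ ∞ f (x₀, w x₀, fderiv ℝ w x₀))
    (hell : ∀ᶠ x in 𝓝 x₀, ∀ ℓ : E →L[ℝ] ℝ, ℓ ≠ 0 → 0 < A (x, w x, fderiv ℝ w x) (ℓ.smulRight ℓ))
    (heq : ∀ᶠ x in 𝓝 x₀, A (x, w x, fderiv ℝ w x) (fderiv ℝ (fderiv ℝ w) x)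
      = f (x, w x, fderiv ℝ w x)) : ContDiffAt ℝ ∞ w x₀ := by
  have hα : (0 : ℝ) < 1 / 2 := by norm_num
  have hα1 : (1 / 2 : ℝ) < 1 := by norm_num
  have hZ : ∀ x, ContDiffAt ℝ 2 w x → ContDiffAt ℝ 1 (fun x => (x, w x, fderiv ℝ w x)) x :=
    fun x hx => contDiffAt_id.prodMk ((hx.of_le (by norm_num)).prodMk
      (hx.fderiv_right (m := 1) (by norm_num)))
  rw [contDiffAt_infty]
  intro k
  set V := {p | ContDiffAt ℝ (k + 1 + 1 : ℕ) A p ∧ ContDiffAt ℝ (k + 1 + 1 : ℕ) f p} with hV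
  have hVo : IsOpen V := isOpen_iff_mem_nhds.2 fun p hp =>
    (hp.1.eventually (by simp)).and (hp.2.eventually (by simp))
  have hV0 : (x₀, w x₀, fderiv ℝ w x₀) ∈ V := ⟨contDiffAt_infty.1 hA _, contDiffAt_infty.1 hf _⟩
  obtain ⟨r, hr, hb⟩ := Metric.eventually_nhds_iff_ball.1 ((((hw.eventually (by simp)).and hell).and
    heq).and ((hZ x₀ hw).continuousAt.eventually (hVo.mem_nhds hV0)))
  have hU : IsOpen (ball x₀ r) := isOpen_ball
  have h2 : HC (1 / 2) (ball x₀ r) 2 w := by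
    refine ⟨fun x hx => (hb x hx).1.1.1.differentiableAt (by simp), fun x hx =>
      ((hb x hx).1.1.1.fderiv_right (m := 1) (by norm_num)).differentiableAt (by simp),
      fun x hx => ?_⟩
    have h1 : (1 : WithTop ℕ∞) ≤ (k + 1 + 1 : ℕ) := by exact_mod_cast Nat.le_add_left 1 _
    obtain ⟨ρ, hρ, C, hC, H⟩ := hol_D2 hα hα1 (hb x hx).1.1.1
      (ContDiffAt.comp x ((hb x hx).2.1.of_le h1) (hZ x (hb x hx).1.1.1))
      (ContDiffAt.comp x ((hb x hx).2.2.of_le h1) (hZ x (hb x hx).1.1.1)) (hb x hx).1.1.2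
      (by filter_upwards [hU.mem_nhds hx] with y hy using (hb y hy).1.2)
    obtain ⟨ρ', hρ', hs⟩ := Metric.mem_nhds_iff.1 (hU.mem_nhds hx)
    exact ⟨min ρ ρ', lt_min hρ hρ', (ball_subset_ball (min_le_right _ _)).trans hs, C, hC,
      H.mono (ball_subset_ball (min_le_left _ _))⟩
  have step : ∀ j, j ≤ k → HC (1 / 2) (ball x₀ r) (j + 2) w := by
    intro j
    induction j with
    | zero => exact fun _ => h2
    | succ j ih =>
      intro hj
      have h3 := ih (by omega)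
      have hz : HC (1 / 2) (ball x₀ r) (j + 1) fun x => (x, w x, fderiv ℝ w x) :=
        (hc_id hα1.le hU).prodMk hα hα1.le hU ((h3.of_succ hα hα1.le hU).prodMk hα hα1.le hU h3.2)
      have hle : ((j + 1 + 1 : ℕ) : WithTop ℕ∞) ≤ (k + 1 + 1 : ℕ) := by
        exact_mod_cast (by omega : j + 1 + 1 ≤ k + 1 + 1)
      refine linear_reg hα hα1.le (allCCE E hα hα1) hU (j + 1)
        (A := fun x => A (x, w x, fderiv ℝ w x)) (c := fun _ => 0)
        (g := fun x => -f (x, w x, fderiv ℝ w x))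
        (HC.comp_smooth hα hα1.le hU hVo (fun p hp => hp.1.of_le hle) hz fun x hx => (hb x hx).2)
        (hc_const 0 hU)
        (HC.comp_smooth hα hα1.le hU hVo (φ := fun p => -f p) (fun p hp => (hp.2.of_le hle).neg) hz
          fun x hx => (hb x hx).2) (fun x hx => (hb x hx).1.1.2) h2 fun x hx => ?_
      rw [(hb x hx).1.2]; ring
  exact (((step k le_rfl).contDiffOn hα hU).contDiffAt (ball_mem_nhds x₀ hr)).of_le
    (by exact_mod_cast Nat.le_add_right k 2)

end Vale.Agent.P218F.Reg
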