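import Vale.Agent.P218F.InjOp
import Vale.Agent.P218F.InjEn
import Vale.Agent.P218F.MeshB
import Vale.Agent.P218F.Reg1

/-!
# The Jacobi operator in charts, regularity of Jacobi fields, the real kernel theorem
-/

open MeasureTheory Filter Topology Matrix Set Metric Asymptotics
open scoped ContDiff RealInnerProductSpace

set_option linter.unusedSectionVars false
set_option maxSynthPendingDepth 3

noncomputable section

namespace Vale.Agent.P218F.Inj

open Vale.Agent.P218F.Core Vale.Agent.P218F.Core.OpP Vale.Agent.P218F.Mesh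
open Vale.Agent.P218FT hiding P2

variable {S : Set E3} {φ : P2 → E3} {y : P2}

theorem cl_inf {X : Type} [NormedAddCommGroup X] [NormedSpace ℝ X] (x₀ : X) :
    Cl (fun f : X → ℂ => ContDiffAt ℝ ∞ f x₀) x₀ where
  const _ := contDiffAt_const
  add h1 h2 := h1.add h2
  mul h1 h2 := h1.mul h2
  inv h1 h2 := h1.inv h2
  exp h1 := h1.cexp
  sqrt {f} h1 h2 := by
    have h3 : AnalyticAt ℂ Complex.sqrt (f x₀) :=
      Complex.differentiableOn_sqrt.analyticAt (Complex.isOpen_slitPlane.mem_nhds (Or.inl h2))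
    exact (h3.contDiffAt.restrict_scalars ℝ).comp x₀ h1

theorem cl_gtr {X : Type} {D : (X → ℂ) → Prop} {x₀ : X} (c : Cl D x₀) {Q : X → J2 P2 C3}
    (hQ : DJ D Q) (h0 : gdet (Q x₀).2.1 ≠ 0) {h : X → P2 → P2 → ℂ}
    (hh : ∀ u v, D fun x => h x u v) : D fun x => gtr (Q x).2.1 (h x) :=
  c.div (c.add (c.sub (c.mul (c.dot (hQ.2.1 _) (hQ.2.1 _)) (hh _ _))
    (c.mul (c.dot (hQ.2.1 _) (hQ.2.1 _)) (c.add (hh _ _) (hh _ _))))
    (c.mul (c.dot (hQ.2.1 _) (hQ.2.1 _)) (hh _ _))) (c.gdet hQ) h0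

theorem dj_inf {X : Type} [NormedAddCommGroup X] [NormedSpace ℝ X] {Y : P2 → C3} {τ : X → P2}
    {x₀ : X} (hY : ContDiffAt ℝ ∞ Y (τ x₀)) (hτ : ContDiffAt ℝ ∞ τ x₀) :
    DJ (fun f : X → ℂ => ContDiffAt ℝ ∞ f x₀) fun x => jet2 Y (τ x) := by
  have h1 : ContDiffAt ℝ ∞ (fderiv ℝ Y) (τ x₀) := hY.fderiv_right le_rfl
  have h2 : ContDiffAt ℝ ∞ (fderiv ℝ (fderiv ℝ Y)) (τ x₀) := h1.fderiv_right le_rfl
  exact ⟨contDiffAt_pi.1 (hY.comp x₀ hτ),
    fun u => contDiffAt_pi.1 ((h1.comp x₀ hτ).clm_apply contDiffAt_const), fun u v =>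
      contDiffAt_pi.1 (((h2.comp x₀ hτ).clm_apply contDiffAt_const).clm_apply contDiffAt_const)⟩

theorem contDiff_tr : ContDiff ℝ ∞ tr := by
  obtain ⟨a, b, h⟩ := exists_triple (n := EuclideanSpace.single (0 : Fin 3) (1 : ℝ)) (by simp)
  rw [show tr = _ from funext fun L => h.tr_eq L]
  exact (((contDiff_id.clm_apply contDiff_const).inner ℝ contDiff_const).add
    ((contDiff_id.clm_apply contDiff_const).inner ℝ contDiff_const)).add
    ((contDiff_id.clm_apply contDiff_const).inner ℝ contDiff_const)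

theorem contDiffAt_shw {w : E3 → ℝ} (hw : ContDiff ℝ ∞ w) {x : E3} (hg : gradient w x ≠ 0) :
    ContDiffAt ℝ ∞ (shw w) x := by
  have h1 := (contDiff_grad hw).contDiffAt (x := x)
  have h2 : ContDiffAt ℝ ∞ (fderiv ℝ (gradient w)) x := h1.fderiv_right le_rfl
  have h4 := NC.contDiffAt_nuw hw hg
  have h3 : ContDiffAt ℝ ∞ (fun y => pt (nuw w y)) x :=
    contDiffAt_const.sub (((innerSL ℝ (E := E3)).contDiff.contDiffAt.comp x h4).smulRight h4)
  exact ((h1.norm ℝ hg).inv (norm_ne_zero_iff.2 hg)).neg.smul (h3.clm_comp (h2.clm_comp h3))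

theorem contDiffAt_a2 (hS : IsSurf S) (h : Par S φ y) : ContDiffAt ℝ ∞ (fun z => a2 S (φ z)) y := by
  have hw := hS.isEqn h.self_mem
  have h1 := contDiffAt_shw hw.1 hw.2.1
  refine ((contDiff_tr.contDiffAt.comp _ (h1.clm_comp h1)).comp y
    h.contDiffAt).congr_of_eventuallyEq ?_
  filter_upwards [h.mem, h.continuousAt.eventually hw.eventually] with z a b using b.a2_eq a

theorem contDiffAt_jacS (hS : IsSurf S) (h : Par S φ y) {f : E3 → ℝ} (hf : ContDiff ℝ ∞ f) :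
    ContDiffAt ℝ ∞ (fun z => jacS S f (φ z)) y := by
  have hw := hS.isEqn h.self_mem
  have h1 := (contDiff_grad hf).contDiffAt (x := φ y)
  have h2 : ContDiffAt ℝ ∞ (fderiv ℝ (gradient f)) (φ y) := h1.fderiv_right le_rfl
  have h4 := NC.contDiffAt_nuw hw.1 hw.2.1
  have h5 : ContDiffAt ℝ ∞ (fun z => divT S (gradient f) (φ z)) y := by
    refine (((contDiff_tr.contDiffAt.comp _ h2).sub ((h2.clm_apply h4).inner ℝ h4)).comp y
      h.contDiffAt).congr_of_eventuallyEq ?_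
    filter_upwards [h.mem, h.continuousAt.eventually hw.eventually] with z a b using divT_eq b a _
  exact (h5.sub ((h.contDiffAt.inner ℝ (h1.comp y h.contDiffAt)).div_const 2)).add
    (((contDiffAt_a2 hS h).add contDiffAt_const).mul (hf.contDiffAt.comp y h.contDiffAt))

/-- the Jacobi operator in the chart `φ` -/
def jacC (S : Set E3) (φ : P2 → E3) (h : P2 → ℝ) (y : P2) : ℂ :=
  drift (jet2 (fun z => cE (φ z)) y) (jet2 (fun z => (h z : ℂ)) y) +
    ((a2 S (φ y) + 1 / 2) * h y : ℝ)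

theorem jacC_eq (hS : IsShr S) (h : Par S φ y) {f : E3 → ℝ} (hf : ContDiffAt ℝ 2 f (φ y))
    {g : P2 → ℝ} (e : ∀ᶠ z in 𝓝 y, f (φ z) = g z) : jacC S φ g y = (jacS S f (φ y) : ℝ) := by
  rw [jacC, ← jet2_congr (f := fun z => ((f (φ z) : ℝ) : ℂ)) (e.mono fun z hz => by simp only [hz]),
    h.ch.drift hS hf, ← e.self_of_nhds, jacS]
  push_cast
  ring

/-- evaluation of bilinear forms -/
def evB (u v : P2) : (P2 →L[ℝ] P2 →L[ℝ] ℝ) →L[ℝ] ℝ :=
  (ContinuousLinearMap.apply ℝ ℝ v).comp (ContinuousLinearMap.apply ℝ (P2 →L[ℝ] ℝ) u)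

/-- the principal part -/
def prB (D : P2 →L[ℝ] C3) : (P2 →L[ℝ] P2 →L[ℝ] ℝ) →L[ℝ] ℝ :=
  (t2 D ⬝ᵥ t2 D / gdet D).re • evB (1, 0) (1, 0) -
    (t1 D ⬝ᵥ t2 D / gdet D).re • (evB (1, 0) (0, 1) + evB (0, 1) (1, 0)) +
    (t1 D ⬝ᵥ t1 D / gdet D).re • evB (0, 1) (0, 1)

theorem prB_apply (D : P2 →L[ℝ] C3) (h : P2 →L[ℝ] P2 →L[ℝ] ℝ) :
    prB D h = (gtr D fun u v => (h u v : ℂ)).re := by
  have : (gtr D fun u v => (h u v : ℂ)) = t2 D ⬝ᵥ t2 D / gdet D * (h (1, 0) (1, 0) : ℝ) -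
      t1 D ⬝ᵥ t2 D / gdet D * (h (1, 0) (0, 1) + h (0, 1) (1, 0) : ℝ) +
      t1 D ⬝ᵥ t1 D / gdet D * (h (0, 1) (0, 1) : ℝ) := by
    rw [gtr]; push_cast; ring
  rw [this]
  simp only [Complex.add_re, Complex.sub_re, Complex.re_mul_ofReal]
  rfl

theorem prB_pos {D : P2 →L[ℝ] E3} (hD : Function.Injective D) {l : P2 →L[ℝ] ℝ} (hl : l ≠ 0) :
    0 < prB (cE.comp D) (l.smulRight l) := by
  have h1 := quad_pos hD (s := l (0, 1)) (t := -l (1, 0)) fun h => hl (by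
    refine ContinuousLinearMap.ext fun u => ?_
    have a : l (0, 1) = 0 := congrArg Prod.fst h
    have b : -l (1, 0) = 0 := congrArg Prod.snd h
    rw [lin_eq l u, a, neg_eq_zero.1 b]
    simp)
  have h2 := rg_pos hD
  rw [prB_apply, gtr, gdet_real]
  simp only [t1, t2, ContinuousLinearMap.comp_apply, OpP.cE_dot,
    ContinuousLinearMap.smulRight_apply, _root_.smul_apply, smul_eq_mul]
  norm_cast
  refine div_pos ?_ h2
  nlinarith

/-- **Jacobi fields are smooth** -/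
theorem smooth_of_jacC (hS : IsSurf S) (h : Par S φ y) {g : P2 → ℝ} (hg : ContDiffAt ℝ 2 g y)
    (e : ∀ᶠ z in 𝓝 y, jacC S φ g z = 0) : ContDiffAt ℝ ∞ g y := by
  set x₀ : P2 × ℝ × (P2 →L[ℝ] ℝ) := (y, g y, fderiv ℝ g y) with hx₀
  have c := cl_inf x₀
  have dQ := dj_inf (Y := fun z => cE (φ z)) (τ := fun x : P2 × ℝ × (P2 →L[ℝ] ℝ) => x.1)
    (x₀ := x₀) (cE.contDiff.contDiffAt.comp y h.contDiffAt) contDiffAt_fst
  have g0 : gdet (jet2 (fun z => cE (φ z)) x₀.1).2.1 ≠ 0 := h.ch.imm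
  have re : ∀ {f : P2 × ℝ × (P2 →L[ℝ] ℝ) → ℂ}, ContDiffAt ℝ ∞ f x₀ →
      ContDiffAt ℝ ∞ (fun x => (f x).re) x₀ := fun hf =>
    Complex.reCLM.contDiff.contDiffAt.comp x₀ hf
  refine Reg.reg_abs (A := fun x => prB (jet2 (fun z => cE (φ z)) x.1).2.1)
    (f := fun x => (gco (jet2 (fun z => cE (φ z)) x.1).2.1 (fun u => (x.2.2 u : ℂ))
      (dr (jet2 (fun z => cE (φ z)) x.1))).re - (a2 S (φ x.1) + 1 / 2) * x.2.1) hg ?_ ?_ ?_ ?_
  · exact (((re (c.div (c.dot (dQ.2.1 _) (dQ.2.1 _)) (c.gdet dQ) g0)).smul contDiffAt_const).sub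
      ((re (c.div (c.dot (dQ.2.1 _) (dQ.2.1 _)) (c.gdet dQ) g0)).smul contDiffAt_const)).add
      ((re (c.div (c.dot (dQ.2.1 _) (dQ.2.1 _)) (c.gdet dQ) g0)).smul contDiffAt_const)
  · refine (re (cl_gtr c dQ g0 fun u v => c.mul ?_ (c.add (cl_gtr c dQ g0 fun a b =>
      c.dot (dQ.2.2 a b) (dQ.2.1 v)) ((c.dot dQ.1 (dQ.2.1 v)).div_const 2)))).sub
      ((((contDiffAt_a2 hS h).comp x₀ contDiffAt_fst).add contDiffAt_const).mul
        contDiffAt_snd.fst)
    exact Complex.ofRealCLM.contDiff.contDiffAt.comp x₀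
      (contDiffAt_snd.snd.clm_apply contDiffAt_const)
  · filter_upwards [h.eventually] with z hz l hl
    rw [jet_cE hz]
    exact prB_pos hz.inj hl
  · filter_upwards [e, ev_two hg] with z hz h2
    have := congrArg Complex.re hz
    rw [jacC, show jet2 (fun z => (g z : ℂ)) z = _ from jet2_clm Complex.ofRealCLM h2, drift,
      Complex.add_re, Complex.sub_re, Complex.ofReal_re, Complex.zero_re] at this
    have t : (gtr (jet2 (fun z => cE (φ z)) z).2.1
        fun u v => (fderiv ℝ (fderiv ℝ g) z u v : ℂ)).re - (gco (jet2 (fun z => cE (φ z)) z).2.1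
          (fun u => (fderiv ℝ g z u : ℂ)) (dr (jet2 (fun z => cE (φ z)) z))).re +
        (a2 S (φ z) + 1 / 2) * g z = 0 := this
    rw [prB_apply]
    linarith

theorem a2_le_of_twoPt (hS : IsSurf S) {x : E3} (hx : x ∈ S) {r C : ℝ} (hr : 0 < r)
    (h : TwoPt S x r C) : a2 S x ≤ 40 * C ^ 2 := by
  have key : ∀ a : E3, ⟪nu S x, a⟫ = 0 → |⟪sh S x a, a⟫| ≤ 2 * C * ‖a‖ ^ 2 := by
    intro a ha
    obtain ⟨p, hp, hj⟩ := hS.jet hx ha
    have h1 := hj.tendsto_inv_smul_nhds_zero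
    have h2 := (tendsto_of_jet hj).eventually (closedBall_mem_nhds x hr)
    set s := ⟪sh S x a, a⟫
    set e : ℝ → E3 := fun σ => (σ ^ 2)⁻¹ • (p σ - (x + σ • a + (σ ^ 2 / 2) • s • nu S x)) with he
    have n1 : ⟪nu S x, nu S x⟫ = 1 := by rw [real_inner_self_eq_norm_sq, hS.norm_nu hx]; simp
    have t1 : Tendsto (fun σ => |s / 2 + ⟪e σ, nu S x⟫|) (𝓝[≠] 0) (𝓝 |s / 2 + ⟪0, nu S x⟫|) :=
      ((tendsto_const_nhds.add (h1.inner tendsto_const_nhds)).abs).mono_left nhdsWithin_le_nhds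
    have t2 : Tendsto (fun σ : ℝ => C * ‖a + σ • ((s / 2) • nu S x + e σ)‖ ^ 2) (𝓝[≠] 0)
        (𝓝 (C * ‖a + (0 : ℝ) • ((s / 2) • nu S x + 0)‖ ^ 2)) :=
      (((tendsto_const_nhds.add (tendsto_id.smul (tendsto_const_nhds.add h1))).norm.pow
        2).const_mul C).mono_left nhdsWithin_le_nhds
    have k := le_of_tendsto_of_tendsto t1 t2 (by
      filter_upwards [nhdsWithin_le_nhds hp, nhdsWithin_le_nhds h2, self_mem_nhdsWithin]
        with σ a1 a2 a3
      have a4 : σ ≠ 0 := a3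
      have q : p σ - x = σ • (a + σ • ((s / 2) • nu S x + e σ)) := by
        simp only [he, smul_add, smul_smul]
        rw [show σ * (σ * (σ ^ 2)⁻¹) = 1 by field_simp, one_smul]
        module
      have := h (p σ) a1 (mem_closedBall_iff_norm.1 a2)
      rw [q, norm_smul, mul_pow, Real.norm_eq_abs, sq_abs, real_inner_smul_left, inner_add_left,
        real_inner_comm _ a, ha, real_inner_smul_left, inner_add_left, real_inner_smul_left, n1,
        zero_add, ← mul_assoc, abs_mul, abs_mul_self, mul_one] at this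
      refine le_of_mul_le_mul_left ?_ (mul_self_pos.2 a4)
      nlinarith)
    rw [inner_zero_left, add_zero, zero_smul, add_zero, abs_div, abs_two] at k
    linarith
  obtain ⟨a, b, ht⟩ := exists_triple (hS.norm_nu hx)
  have na : ⟪nu S x, a⟫ = 0 := by rw [real_inner_comm]; exact ht.ac
  have nb : ⟪nu S x, b⟫ = 0 := by rw [real_inner_comm]; exact ht.bc
  have h1 := key a na
  have h2 := key b nb
  have h3 := key (a + b) (by rw [inner_add_right, na, nb, add_zero])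
  have e : ⟪sh S x b, a⟫ = ⟪sh S x a, b⟫ := by rw [hS.sh_symm hx, real_inner_comm]
  rw [norm_add_sq_real, ht.ab, map_add, inner_add_left, inner_add_right, inner_add_right, e] at h3
  rw [ht.na] at h1 h3
  rw [ht.nb] at h2 h3
  rw [hS.a2_eq hx ht]
  obtain ⟨a1, a2⟩ := abs_le.1 h1
  obtain ⟨b1, b2⟩ := abs_le.1 h2
  obtain ⟨c1, c2⟩ := abs_le.1 h3
  have d : ⟪sh S x a, b⟫ ^ 2 ≤ (4 * C) ^ 2 := sq_le_sq' (by linarith) (by linarith)
  have d1 : ⟪sh S x a, a⟫ ^ 2 ≤ (2 * C) ^ 2 := sq_le_sq' (by linarith) (by linarith)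
  have d2 : ⟪sh S x b, b⟫ ^ 2 ≤ (2 * C) ^ 2 := sq_le_sq' (by linarith) (by linarith)
  nlinarith

/-- the hypotheses of the energy argument -/
structure En (S : Set E3) (D R ρ K : ℝ) (P : Finset E3) : Prop where
  shr : IsShr S
  ratio : AreaRatio D S
  bd : ∀ x ∈ S, a2 S x ≤ K
  coer : Coer S P ρ (K + 3 / 2)
  mesh : IsMesh S R ρ P
  pos : 0 < ρ
  le : ρ ≤ 1

theorem exists_en (hS : IsShr S) {D : ℝ} (hD : AreaRatio D S) {r C : ℝ} (hr : 0 < r)
    (h2 : ∀ x ∈ S, TwoPt S x r C) : ∃ K R₂ : ℝ, ∀ R, R₂ ≤ R → ∃ r₂ : ℝ, 0 < r₂ ∧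
      ∀ ρ, 0 < ρ → ρ ≤ r₂ → ∀ P, IsMesh S R ρ P → En S D R ρ K P := by
  obtain ⟨R₂, h⟩ := exists_coer poinc_proof hS hr h2 (40 * C ^ 2 + 3 / 2)
  refine ⟨40 * C ^ 2, R₂, fun R hR => ?_⟩
  obtain ⟨r₂, h1, h3, h4⟩ := h R hR
  exact ⟨r₂, h1, fun ρ a b P m => ⟨hS, hD, fun x hx => a2_le_of_twoPt hS.1 hx hr (h2 x hx),
    h4 ρ a b P m, m, a, b.trans h3⟩⟩

/-- polynomial growth on `S` -/
def Poly (S : Set E3) (f : E3 → ℝ) : Prop := ∃ (C : ℝ) (k : ℕ), ∀ x ∈ S, |f x| ≤ C * (1 + ‖x‖) ^ k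

theorem Poly.add {f g : E3 → ℝ} (hf : Poly S f) (hg : Poly S g) : Poly S fun x => f x + g x := by
  obtain ⟨C, k, h⟩ := hf
  obtain ⟨C', k', h'⟩ := hg
  refine ⟨|C| + |C'|, k + k', fun x hx => (abs_add_le _ _).trans ?_⟩
  have h1 : 1 ≤ 1 + ‖x‖ := by linarith [norm_nonneg x]
  have a := mul_le_mul (le_abs_self C) (pow_le_pow_right₀ h1 (Nat.le_add_right k k'))
    (by positivity) (abs_nonneg C)
  have b := mul_le_mul (le_abs_self C') (pow_le_pow_right₀ h1 (Nat.le_add_left k' k))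
    (by positivity) (abs_nonneg C')
  linarith [h x hx, h' x hx]

theorem Poly.mul {f g : E3 → ℝ} (hf : Poly S f) (hg : Poly S g) : Poly S fun x => f x * g x := by
  obtain ⟨C, k, h⟩ := hf
  obtain ⟨C', k', h'⟩ := hg
  refine ⟨C * C', k + k', fun x hx => ?_⟩
  rw [abs_mul, pow_add, mul_mul_mul_comm]
  exact mul_le_mul (h x hx) (h' x hx) (abs_nonneg _) ((abs_nonneg _).trans (h x hx))

theorem Poly.const (c : ℝ) : Poly S fun _ => c := ⟨|c|, 0, fun _ _ => by simp⟩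

theorem Poly.sum {ι : Type} (s : Finset ι) {f : ι → E3 → ℝ} (hf : ∀ i, Poly S (f i)) :
    Poly S fun x => ∑ i ∈ s, f i x := by
  classical
  induction s using Finset.induction_on with
  | empty => simpa using Poly.const 0
  | insert a s ha ih => simpa only [Finset.sum_insert ha] using (hf a).add ih

theorem Poly.integrable (hS : IsSurf S) {D : ℝ} (hD : AreaRatio D S) {f : E3 → ℝ} (h : Poly S f)
    (hf : Continuous f) : Integrable (fun x => f x ^ 2 * gw x) (area S) := by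
  obtain ⟨C, k, h⟩ := h.mul h
  exact integrable_poly hS hD (g := fun x => f x ^ 2) (hf.pow 2).continuousOn
    (by simpa only [pow_two] using h)

theorem jacS_sub_sum {m : ℕ} {f : E3 → ℝ} {Ψ : Fin m → E3 → ℝ} (hf : ContDiff ℝ 2 f)
    (hΨ : ∀ j, ContDiff ℝ 2 (Ψ j)) (μ : Fin m → ℝ) (x : E3) :
    jacS S (fun y => f y - ∑ j, μ j * Ψ j y) x = jacS S f x - ∑ j, μ j * jacS S (Ψ j) x := by
  have g : gradient (fun y => f y - ∑ j, μ j * Ψ j y) =
      fun y => gradient f y - ∑ j, μ j • gradient (Ψ j) y := funext fun y => by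
    have := (hf.differentiable (by simp) y).hasFDerivAt.fun_sub (HasFDerivAt.fun_sum
      (u := Finset.univ) fun j _ => ((hΨ j).differentiable (by simp) y).hasFDerivAt.const_mul (μ j))
    simp only [gradient_eq_rz, this.fderiv, map_sub, map_sum, map_smul]
  have d := ((contDiff_grad_one hf).differentiable one_ne_zero x).hasFDerivAt.fun_sub
    (HasFDerivAt.fun_sum (u := Finset.univ) fun j _ =>
      ((contDiff_grad_one (hΨ j)).differentiable one_ne_zero x).hasFDerivAt.fun_const_smul (μ j))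
  have t : tr (∑ j, μ j • fderiv ℝ (gradient (Ψ j)) x) =
      ∑ j, μ j * tr (fderiv ℝ (gradient (Ψ j)) x) := by simp [tr]
  simp only [jacS, divT, g, d.fderiv, tr_sub, t, _root_.sub_apply, _root_.sum_apply,
    _root_.smul_apply, inner_sub_left, inner_sub_right, sum_inner, inner_sum, real_inner_smul_left,
    real_inner_smul_right, mul_sub, mul_add, Finset.sum_add_distrib, Finset.sum_sub_distrib,
    Finset.mul_sum, div_eq_mul_inv, sub_mul, Finset.sum_mul, mul_assoc,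
    mul_left_comm (a2 S x + _)]
  ring

/-- **the real kernel theorem** -/
theorem En.ker {D R ρ K : ℝ} {P : Finset E3} (h : En S D R ρ K P) {m : ℕ} {Ψ ψ : Fin m → E3 → ℝ}
    (hΨ : ∀ j, ContDiff ℝ 2 (Ψ j)) (pΨ : ∀ j, Poly S (Ψ j))
    (oΨ : ∀ j, ∀ x ∈ S, ‖x‖ < R + 1 → Ψ j x = 0) (hψ : ∀ j, ∀ x ∈ S, ψ j x = jacS S (Ψ j) x)
    (cψ : ∀ j, Continuous (ψ j) ∧ HasCompactSupport (ψ j)) {f : E3 → ℝ} (hf : ContDiff ℝ 2 f)
    (pf : Poly S f) (κ : P → ℝ) (μ : Fin m → ℝ)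
    (he : ∀ x ∈ S, jacS S f x = ∑ p : P, κ p * bump p ρ x + ∑ j, μ j * ψ j x)
    (h0 : ∀ p ∈ P, ∫ y, f y * bump p ρ y * gw y ∂(area S) = 0) :
    κ = 0 ∧ (∀ x ∈ S, f x = ∑ j, μ j * Ψ j x) ∧
      ((∀ j, ∫ y, f y * ψ j y * gw y ∂(area S) = 0) → ∀ x ∈ S, f x = 0) := by
  have c : ContDiff ℝ 2 fun y => f y - ∑ j, μ j * Ψ j y :=
    hf.sub (ContDiff.sum fun j _ => contDiff_const.mul (hΨ j))
  have pv : Poly S fun y => f y - ∑ j, μ j * Ψ j y := by
    simpa only [neg_one_mul, ← sub_eq_add_neg] using pf.add ((Poly.const (-1)).mul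
      (Poly.sum Finset.univ fun j => (Poly.const (μ j)).mul (pΨ j)))
  obtain ⟨k1, k2⟩ := ker_jac h.shr h.bd h.coer h.mesh h.pos h.le c
    (pv.integrable h.shr.1 h.ratio c.continuous) κ (fun x hx => by
      rw [jacS_sub_sum hf hΨ, he x hx]
      simp only [hψ _ x hx, add_sub_cancel_right]) fun p hp => by
      rw [← h0 p hp]
      refine integral_congr_ae ((NC.ae_mem h.shr.1).mono fun x hx => ?_)
      rcases lt_or_ge ‖x‖ (R + 1) with a | a
      · simp [oΨ _ x hx a]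
      · simp [h.mesh.bump_far h.pos h.le hp a]
  refine ⟨k2, fun x hx => sub_eq_zero.1 (k1 x hx), fun h1 => ?_⟩
  have j : ∀ j, Integrable (fun x => μ j * (f x * ψ j x * gw x)) (area S) := fun j =>
    ((integrable_mul h.shr.1 (cψ j).1 (cψ j).2
      (hf.continuous.continuousOn.mul continuous_gw.continuousOn)).congr
        (Eventually.of_forall fun x => by simp only [Pi.mul_apply]; ring)).const_mul _
  have e : ∀ᵐ x ∂(area S), ∑ j, μ j * (f x * ψ j x * gw x) =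
      f x * (jacS S f x * gw x) := (NC.ae_mem h.shr.1).mono fun x hx => by
    rw [he x hx, k2]
    simp only [Pi.zero_apply, zero_mul, Finset.sum_const_zero, zero_add, Finset.sum_mul,
      Finset.mul_sum]
    exact Finset.sum_congr rfl fun p _ => by ring
  have i1 := pf.integrable h.shr.1 h.ratio hf.continuous
  have k := energy h.shr h.bd h.coer (fun p hp y hy => h.mesh.bump_far h.pos h.le hp hy) hf i1
    ((integrable_finsetSum _ fun p _ => j p).congr e) h0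
  rw [← integral_congr_ae e, integral_finsetSum _ fun p _ => j p,
    Finset.sum_eq_zero fun p _ => by rw [integral_const_mul, h1 p, mul_zero], neg_zero] at k
  exact eq_zero_of_integral h.shr.1 hf.continuous.continuousOn i1 k

end Vale.Agent.P218F.Inj
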