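import Vale.Agent.P218F.KBasic
import Mathlib.Analysis.Complex.Liouville
import Mathlib.Analysis.Complex.LocallyUniformLimit

/-! Block K, K-B: the limit function `sig` and Cauchy estimates for the boundary term. -/

open Filter Topology Set Metric

noncomputable section

namespace Vale.Agent.P218F.K

namespace Kb

/-- locally uniform convergence to a continuous function on an open set -/
theorem tlu_iff {ι : Type} {p : Filter ι} {F : ι → ℂ → ℂ} {f : ℂ → ℂ} {V : Set ℂ} (hV : IsOpen V)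
    (hf : ContinuousOn f V) : TendstoLocallyUniformlyOn F f p V ↔
      ∀ x ∈ V, Tendsto (fun q : ι × ℂ => F q.1 q.2) (p ×ˢ 𝓝 x) (𝓝 (f x)) := by
  rw [hV.tendstoLocallyUniformlyOn_iff_forall_tendsto]
  refine forall₂_congr fun x hx => ?_
  have h1 : Tendsto (fun q : ι × ℂ => f q.2) (p ×ˢ 𝓝 x) (𝓝 (f x)) :=
    (hf.continuousAt (hV.mem_nhds hx)).tendsto.comp tendsto_snd
  exact ⟨fun h => h1.congr_uniformity h,
    fun h => (h1.prodMk_nhds h).mono_right (nhds_le_uniformity _)⟩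

/-- the neck function in tip units -/
def sg (Y : ℝ → ℂ → ℂ) (r : ℝ) (s : ℂ) : ℂ := (r : ℂ) ^ 2 / 4 * Y r (cOf r s)

/-- the boundary term as a function of the neck function -/
def Ph (r : ℝ) (z : ℂ) : ℂ := z ^ (1 / 2 : ℂ) * Complex.exp (-z / (r : ℂ) ^ 2)

theorem bR_eq (Y : ℝ → ℂ → ℂ) {r : ℝ} (hr : 0 < r) (s : ℂ) : bR Y r s = Ph r (sg Y r s) := by
  have hr' : (r : ℂ) ≠ 0 := by exact_mod_cast hr.ne'
  have hp : (Real.pi : ℂ) ≠ 0 := by exact_mod_cast Real.pi_pos.ne'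
  unfold bR Ph sg bd
  set y := Y r (cOf r s)
  have h1 : ((r : ℂ) ^ 2 / 4 * y) ^ (1 / 2 : ℂ) = (r : ℂ) / 2 * y ^ (1 / 2 : ℂ) := by
    have h2 : (r : ℂ) ^ 2 / 4 = (((r / 2) ^ 2 : ℝ) : ℂ) := by push_cast; ring
    have h3 : (((r / 2) ^ 2 : ℝ) : ℂ) ^ (1 / 2 : ℂ) = (r : ℂ) / 2 := by
      rw [show (1 / 2 : ℂ) = ((1 / 2 : ℝ) : ℂ) by norm_num,
        ← Complex.ofReal_cpow (by positivity), ← Real.sqrt_eq_rpow,
        Real.sqrt_sq (by positivity)]
      push_cast; ring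
    rw [h2]
    rcases eq_or_ne y 0 with h0 | h0
    · rw [h0, mul_zero, Complex.zero_cpow (by norm_num), mul_zero]
    · have h5 : (0 : ℝ) < (r / 2) ^ 2 := by positivity
      have h6 : (((r / 2) ^ 2 : ℝ) : ℂ) ≠ 0 := by exact_mod_cast h5.ne'
      rw [← h3, Complex.cpow_def_of_ne_zero (mul_ne_zero h6 h0), Complex.cpow_def_of_ne_zero h6,
        Complex.cpow_def_of_ne_zero h0, Complex.log_ofReal_mul h5 h0, add_mul, Complex.exp_add,
        Complex.ofReal_log h5.le]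
  rw [h1]
  have h4 : -((r : ℂ) ^ 2 / 4 * y) / (r : ℂ) ^ 2 = -y / 4 := by field_simp
  rw [h4]
  push_cast
  field_simp
  ring

theorem mem_slit {w z : ℂ} (hw : 0 < w.re) (hz : z ∈ ball w ‖w‖) : z ∈ Complex.slitPlane := by
  by_contra h
  rw [Complex.mem_slitPlane_iff, not_or, not_lt, not_not] at h
  rw [mem_ball, dist_eq_norm] at hz
  have h1 : ‖z - w‖ ^ 2 < ‖w‖ ^ 2 := by gcongr
  rw [Complex.sq_norm, Complex.sq_norm, Complex.normSq_apply, Complex.normSq_apply, Complex.sub_re,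
    Complex.sub_im, h.2] at h1
  nlinarith [mul_nonneg (neg_nonneg.2 h.1) hw.le, sq_nonneg z.re]

theorem differentiableAt_Ph (r : ℝ) {z : ℂ} (hz : z ∈ Complex.slitPlane) :
    DifferentiableAt ℂ (Ph r) z := by
  unfold Ph
  exact (differentiableAt_id.cpow_const hz).mul (by fun_prop)

theorem norm_Ph_le {r ρ : ℝ} (hρ : ρ ≤ r ^ 2) (hρ0 : 0 < ρ) {z : ℂ} (hz : ‖z‖ ≤ 4 * ρ) :
    ‖Ph r z‖ ≤ 2 * Real.exp 4 * ρ ^ (1 / 2 : ℝ) := by
  unfold Ph
  have hr : 0 < r ^ 2 := hρ0.trans_le hρ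
  have h1 : ‖z ^ (1 / 2 : ℂ)‖ ≤ 2 * ρ ^ (1 / 2 : ℝ) := by
    rw [show (1 / 2 : ℂ) = ((1 / 2 : ℝ) : ℂ) by norm_num, Complex.norm_cpow_real,
      ← Real.sqrt_eq_rpow, ← Real.sqrt_eq_rpow]
    calc √‖z‖ ≤ √(2 ^ 2 * ρ) := Real.sqrt_le_sqrt (by linarith)
      _ = 2 * √ρ := by rw [Real.sqrt_mul (by norm_num), Real.sqrt_sq (by norm_num)]
  have h2 : ‖Complex.exp (-z / (r : ℂ) ^ 2)‖ ≤ Real.exp 4 := by
    refine (Complex.norm_exp_le_exp_norm _).trans (Real.exp_le_exp.2 ?_)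
    rw [norm_div, norm_neg, norm_pow, Complex.norm_real, Real.norm_eq_abs, sq_abs,
      div_le_iff₀ hr]
    linarith
  rw [norm_mul]
  calc _ ≤ 2 * ρ ^ (1 / 2 : ℝ) * Real.exp 4 := by gcongr
    _ = _ := by ring

/-- the two-scale Cauchy estimate -/
theorem cauchy {Φ g σ : ℂ → ℂ} {s₀ w : ℂ} {ρ M E : ℝ} (hρ : 8 ≤ ρ)
    (hΦ : DifferentiableOn ℂ Φ (ball w (2 * ρ))) (hM : ∀ z ∈ ball w (2 * ρ), ‖Φ z‖ ≤ M)
    (hg : DifferentiableOn ℂ g (closedBall s₀ (ρ / 8)))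
    (hgK : ∀ s ∈ closedBall s₀ (ρ / 8), g s ∈ closedBall w ρ)
    (hσ : DifferentiableOn ℂ σ (closedBall s₀ 1))
    (hσK : ∀ s ∈ closedBall s₀ 1, σ s ∈ closedBall w ρ)
    (hE : ∀ s ∈ closedBall s₀ 1, ‖σ s - g s‖ ≤ E) (n : ℕ) :
    ‖iteratedDeriv n (fun s => Φ (σ s)) s₀‖ ≤
      n.factorial * M / (ρ / 8) ^ n + n.factorial * (2 * M / ρ * E) := by
  have hρ0 : 0 < ρ := by linarith
  have hK : closedBall w ρ ⊆ ball w (2 * ρ) := closedBall_subset_ball (by linarith)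
  have hd : ∀ z ∈ closedBall w ρ, DifferentiableAt ℂ Φ z := fun z hz =>
    hΦ.differentiableAt (isOpen_ball.mem_nhds (hK hz))
  have hlip : ∀ z ∈ closedBall w ρ, ∀ z' ∈ closedBall w ρ,
      ‖Φ z' - Φ z‖ ≤ 2 * M / ρ * ‖z' - z‖ := by
    intro z hz z' hz'
    refine (convex_closedBall w ρ).norm_image_sub_le_of_norm_deriv_le hd (fun x hx => ?_) hz hz'
    have hsub : closedBall x (ρ / 2) ⊆ ball w (2 * ρ) :=
      closedBall_subset_ball' (by rw [mem_closedBall] at hx; linarith)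
    have := Complex.norm_deriv_le_of_forall_mem_sphere_norm_le (by positivity : 0 < ρ / 2)
      ((hΦ.mono hsub).diffContOnCl_ball subset_rfl)
      fun y hy => hM y (hsub (sphere_subset_closedBall hy))
    refine this.trans_eq ?_
    field_simp
  have h18 : closedBall s₀ 1 ⊆ closedBall s₀ (ρ / 8) := closedBall_subset_closedBall (by linarith)
  have hA : DifferentiableOn ℂ (fun s => Φ (g s)) (closedBall s₀ (ρ / 8)) := fun s hs =>
    (hd _ (hgK s hs)).comp_differentiableWithinAt s (hg s hs)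
  have hB : DifferentiableOn ℂ (fun s => Φ (σ s) - Φ (g s)) (closedBall s₀ 1) := fun s hs =>
    ((hd _ (hσK s hs)).comp_differentiableWithinAt s (hσ s hs)).sub (hA.mono h18 s hs)
  have h1 := Complex.norm_iteratedDeriv_le_of_forall_mem_sphere_norm_le n
    (by positivity : 0 < ρ / 8) (hA.diffContOnCl_ball subset_rfl)
    fun y hy => hM _ (hK (hgK y (sphere_subset_closedBall hy)))
  have hM0 : 0 ≤ M := (norm_nonneg _).trans (hM w (mem_ball_self (by linarith)))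
  have h2 := Complex.norm_iteratedDeriv_le_of_forall_mem_sphere_norm_le (C := 2 * M / ρ * E) n
    one_pos (hB.diffContOnCl_ball subset_rfl) fun y hy => by
      have hy' := sphere_subset_closedBall hy
      refine (hlip _ (hgK y (h18 hy')) _ (hσK y hy')).trans ?_
      have := hE y hy'
      gcongr
  have hA' : ContDiffAt ℂ n (fun s => Φ (g s)) s₀ :=
    (hA.analyticAt (closedBall_mem_nhds s₀ (by positivity))).contDiffAt
  have hB' : ContDiffAt ℂ n (fun s => Φ (σ s) - Φ (g s)) s₀ :=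
    (hB.analyticAt (closedBall_mem_nhds s₀ one_pos)).contDiffAt
  have h3 := iteratedDeriv_fun_add hA' hB'
  simp only [add_sub_cancel] at h3
  rw [h3]
  rw [one_pow, div_one] at h2
  exact (norm_add_le _ _).trans (add_le_add h1 h2)

variable {R₀ Λ : ℝ} {Y : ℝ → ℂ → ℂ} {sig : ℂ → ℂ}

theorem differentiableAt_sg (h : SymData R₀ Λ Y sig) {r : ℝ} (hr : R₀ ≤ r) {s : ℂ}
    (hs : cOf r s ∈ Om Λ 4 r) : DifferentiableAt ℂ (sg Y r) s := by
  unfold sg
  exact (differentiableAt_const _).mul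
    (((h.hol r hr).differentiableAt ((isOpen_Om _ _ _).mem_nhds hs)).comp s
      (differentiable_cOf r s))

/-- a small ball around a point of the half plane is eventually in the domain -/
theorem exists_ball {s₀ : ℂ} (hs : Λ < s₀.re) : ∃ ε : ℝ, 0 < ε ∧ ball s₀ ε ⊆ {s | Λ < s.re} ∧
    ∀ᶠ r : ℝ in atTop, ∀ s ∈ ball s₀ ε, cOf r s ∈ Om Λ 4 r := by
  obtain ⟨pa, ha, pb, hb, h⟩ :=
    eventually_prod_iff.1 (eventually_cOf_mem hs (by norm_num : (2 : ℝ) < 4))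
  have h1 : {s : ℂ | Λ < s.re} ∈ 𝓝 s₀ :=
    (isOpen_lt continuous_const Complex.continuous_re).mem_nhds hs
  obtain ⟨ε, hε, h2⟩ := Metric.mem_nhds_iff.1 (inter_mem h1 hb)
  exact ⟨ε, hε, fun s hs => (h2 hs).1, ha.mono fun r hr s hs => h hr (h2 hs).2⟩

theorem sig_hol (h : SymData R₀ Λ Y sig) : DifferentiableOn ℂ sig {s | Λ < s.re} := by
  intro s₀ hs
  obtain ⟨ε, hε, h1, h2⟩ := exists_ball hs
  have h3 : DifferentiableOn ℂ sig (ball s₀ ε) := by
    refine (h.lim.mono h1).differentiableOn ?_ isOpen_ball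
    filter_upwards [h2, eventually_ge_atTop R₀] with r h3 h4 s hs
    exact (differentiableAt_sg h h4 (h3 s hs)).differentiableWithinAt
  exact (h3.differentiableAt (ball_mem_nhds s₀ hε)).differentiableWithinAt

theorem tendsto_sg (h : SymData R₀ Λ Y sig) {s : ℂ} (hs : Λ < s.re) :
    Tendsto (fun q : ℝ × ℂ => sg Y q.1 q.2) (atTop ×ˢ 𝓝 s) (𝓝 (sig s)) :=
  (tlu_iff (isOpen_lt continuous_const Complex.continuous_re) (sig_hol h).continuousOn).1
    h.lim s hs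

theorem ev_mem {s : ℂ} (hs : Λ < s.re) : ∀ᶠ r : ℝ in atTop, cOf r s ∈ Om Λ 4 r := by
  obtain ⟨ε, hε, -, h2⟩ := exists_ball hs
  exact h2.mono fun r hr => hr s (mem_ball_self hε)

theorem sig_slit (h : SymData R₀ Λ Y sig) {s : ℂ} (hs : Λ < s.re) :
    sig s ∈ Complex.slitPlane := by
  have h1 : Tendsto (fun r : ℝ => sg Y r s) atTop (𝓝 (sig s)) := h.lim.tendsto_at hs
  have h2 : 0 ≤ (sig s).re := by
    refine ge_of_tendsto ((Complex.continuous_re.tendsto _).comp h1) ?_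
    filter_upwards [ev_mem hs, eventually_ge_atTop R₀] with r h3 h4
    have h5 := h.re_pos r h4 _ h3
    have h6 : sg Y r s = ((r ^ 2 / 4 : ℝ) : ℂ) * Y r (cOf r s) := by
      unfold sg; push_cast; ring
    simp only [Function.comp, h6, Complex.re_ofReal_mul]
    positivity
  obtain ⟨C, hC⟩ := h.low
  have h3 : ‖s‖ ≤ 4 * C * ‖sig s‖ := by
    refine ge_of_tendsto (h1.norm.const_mul (4 * C)) ?_
    filter_upwards [ev_mem hs, eventually_ge_atTop R₀, eventually_gt_atTop 0] with r h3 h4 h5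
    have h6 := hC r h4 _ h3
    rw [sOf_cOf h5.ne'] at h6
    refine h6.trans_eq ?_
    unfold sg
    rw [norm_mul, norm_div, norm_pow, Complex.norm_real, Real.norm_of_nonneg h5.le]
    simp only [Complex.norm_ofNat]
    ring
  have h4 : sig s ≠ 0 := by
    intro h0
    rw [h0, norm_zero, mul_zero] at h3
    have h5 := Complex.re_le_norm s
    have := h.one_le
    linarith
  rw [Complex.mem_slitPlane_iff]
  by_contra h5
  rw [not_or, not_lt, not_not] at h5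
  exact h4 (Complex.ext (le_antisymm h5.1 h2) h5.2)

theorem sig_asy (h : SymData R₀ Λ Y sig) : ∃ k₀ C : ℝ, ∀ s : ℂ, Λ < s.re →
    ‖sig s - 2 * s - Complex.log (2 * s) - k₀‖ ≤ C * ‖s‖ ^ (-3 / 4 : ℝ) := by
  obtain ⟨k₀, C, η, hη, hC⟩ := h.asy
  refine ⟨k₀, C, fun s hs => ?_⟩
  have h1 : Tendsto (fun r : ℝ => sg Y r s) atTop (𝓝 (sig s)) := h.lim.tendsto_at hs
  have h2 : Tendsto (fun r : ℝ => C * ‖s‖ ^ (-3 / 4 : ℝ) + η r / √r * (1 + ‖s‖ / r)) atTop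
      (𝓝 (C * ‖s‖ ^ (-3 / 4 : ℝ) + 0 * (1 + 0))) :=
    tendsto_const_nhds.add ((hη.div_atTop Real.tendsto_sqrt_atTop).mul
      (tendsto_const_nhds.add (tendsto_const_nhds.div_atTop tendsto_id)))
  rw [zero_mul, add_zero] at h2
  refine le_of_tendsto_of_tendsto
    (((h1.sub_const (2 * s)).sub_const (Complex.log (2 * s))).sub_const (k₀ : ℂ)).norm h2 ?_
  filter_upwards [ev_mem hs, eventually_ge_atTop R₀, eventually_gt_atTop 0] with r h3 h4 h5
  have h6 := hC r h4 _ h3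
  rwa [sOf_cOf h5.ne'] at h6

theorem differentiableAt_bR (h : SymData R₀ Λ Y sig) {r : ℝ} (hr : R₀ ≤ r) {s : ℂ}
    (hs : cOf r s ∈ Om Λ 4 r) : DifferentiableAt ℂ (bR Y r) s := by
  unfold bR
  exact (differentiableAt_const _).mul
    (((h.bd_hol hr).differentiableAt ((isOpen_Om _ _ _).mem_nhds hs)).comp s
      (differentiable_cOf r s))

theorem tendsto_bR (h : SymData R₀ Λ Y sig) {s : ℂ} (hs : Λ < s.re) :
    Tendsto (fun q : ℝ × ℂ => bR Y q.1 q.2) (atTop ×ˢ 𝓝 s) (𝓝 (sig s ^ (1 / 2 : ℂ))) := by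
  have h1 := tendsto_sg h hs
  have h2 : Tendsto (fun q : ℝ × ℂ => sg Y q.1 q.2 ^ (1 / 2 : ℂ)) (atTop ×ˢ 𝓝 s)
      (𝓝 (sig s ^ (1 / 2 : ℂ))) :=
    (continuousAt_cpow_const (sig_slit h hs)).tendsto.comp h1
  have h3 : Tendsto (fun q : ℝ × ℂ => ((q.1 ^ 2)⁻¹ : ℝ)) (atTop ×ˢ 𝓝 s) (𝓝 0) :=
    (tendsto_inv_atTop_zero.comp (tendsto_pow_atTop two_ne_zero)).comp tendsto_fst
  have h4 : Tendsto (fun q : ℝ × ℂ => -sg Y q.1 q.2 / (q.1 : ℂ) ^ 2) (atTop ×ˢ 𝓝 s) (𝓝 0) := by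
    have h5 := h1.neg.mul ((Complex.continuous_ofReal.tendsto 0).comp h3)
    rw [Complex.ofReal_zero, mul_zero] at h5
    refine h5.congr fun q => ?_
    simp [div_eq_mul_inv]
  have h6 := h2.mul ((Complex.continuous_exp.tendsto 0).comp h4)
  rw [Complex.exp_zero, mul_one] at h6
  refine h6.congr' ?_
  filter_upwards [tendsto_fst.eventually (eventually_gt_atTop (0 : ℝ))] with q hq
  rw [bR_eq Y hq]; rfl

theorem tendsto_deriv2 (h : SymData R₀ Λ Y sig) {s₀ : ℂ} (hs : Λ < s₀.re) :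
    Tendsto (fun q : ℝ × ℂ => iteratedDeriv 2 (bR Y q.1) q.2) (atTop ×ˢ 𝓝 s₀)
      (𝓝 (iteratedDeriv 2 (fun s => sig s ^ (1 / 2 : ℂ)) s₀)) := by
  obtain ⟨ε, hε, h1, h2⟩ := exists_ball hs
  have h3 : DifferentiableOn ℂ (fun s => sig s ^ (1 / 2 : ℂ)) (ball s₀ ε) := fun s hs =>
    (((sig_hol h).mono h1) s hs).cpow_const (sig_slit h (h1 hs))
  have h4 : TendstoLocallyUniformlyOn (bR Y) (fun s => sig s ^ (1 / 2 : ℂ)) atTop (ball s₀ ε) :=
    (tlu_iff isOpen_ball h3.continuousOn).2 fun s hs => tendsto_bR h (h1 hs)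
  have h5 : ∀ᶠ r : ℝ in atTop, DifferentiableOn ℂ (bR Y r) (ball s₀ ε) := by
    filter_upwards [h2, eventually_ge_atTop R₀] with r h3 h4 s hs
    exact (differentiableAt_bR h h4 (h3 s hs)).differentiableWithinAt
  have h6 := (h4.deriv h5 isOpen_ball).deriv
    (h5.mono fun r hr => hr.deriv isOpen_ball) isOpen_ball
  have h7 := (tlu_iff isOpen_ball ((h3.deriv isOpen_ball).deriv isOpen_ball).continuousOn).1 h6
    s₀ (mem_ball_self hε)
  simpa only [iteratedDeriv_succ, iteratedDeriv_zero, Function.comp] using h7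

/-- the model of the neck function -/
def gm (k₀ : ℝ) (s : ℂ) : ℂ := 2 * s + Complex.log (2 * s) + k₀

theorem gm_est (k₀ : ℝ) : ∃ L₀ : ℝ, ∀ s₀ : ℂ, 0 < s₀.re → L₀ ≤ ‖s₀‖ →
    ∀ s ∈ closedBall s₀ (‖s₀‖ / 8), DifferentiableAt ℂ (gm k₀) s ∧
      ‖gm k₀ s - 2 * s₀‖ ≤ ‖s₀‖ / 2 := by
  obtain ⟨a, ha⟩ := eventually_atTop.1
    (Real.isLittleO_log_id_atTop.bound (by norm_num : (0 : ℝ) < 1 / 32))
  refine ⟨max a (8 * (4 + |k₀|)), fun s₀ h0 hL s hs => ?_⟩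
  have h1 : a ≤ ‖s₀‖ := (le_max_left _ _).trans hL
  have h2 : 8 * (4 + |k₀|) ≤ ‖s₀‖ := (le_max_right _ _).trans hL
  have hk := abs_nonneg k₀
  rw [mem_closedBall, dist_eq_norm] at hs
  have h3 : ‖2 * s - 2 * s₀‖ ≤ ‖s₀‖ / 4 := by
    rw [← mul_sub, norm_mul, Complex.norm_two]; linarith
  have h4 : ‖2 * s₀‖ = 2 * ‖s₀‖ := by rw [norm_mul, Complex.norm_two]
  have h5 : 2 * s ∈ Complex.slitPlane := by
    refine mem_slit (w := 2 * s₀) (by simpa using h0) ?_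
    rw [mem_ball, dist_eq_norm, h4]; linarith
  refine ⟨?_, ?_⟩
  · unfold gm
    exact (((differentiableAt_const _).mul differentiableAt_id).add
      (((differentiableAt_const _).mul differentiableAt_id).clog h5)).add (differentiableAt_const _)
  · have h6 := norm_sub_norm_le (2 * s) (2 * s₀)
    have h7 := norm_sub_norm_le (2 * s₀) (2 * s)
    rw [norm_sub_rev] at h7
    have h8 := ha ‖2 * s‖ (by linarith)
    simp only [id, norm_norm] at h8
    rw [Real.norm_eq_abs] at h8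
    have h9 : ‖Complex.log (2 * s)‖ ≤ |Real.log ‖2 * s‖| + 4 := by
      refine (Complex.norm_le_abs_re_add_abs_im _).trans ?_
      rw [Complex.log_re, Complex.log_im]
      have := Complex.abs_arg_le_pi (2 * s)
      have := Real.pi_le_four
      linarith
    have h10 : gm k₀ s - 2 * s₀ = 2 * s - 2 * s₀ + Complex.log (2 * s) + k₀ := by
      unfold gm; ring
    have h11 := norm_add_le (2 * s - 2 * s₀ + Complex.log (2 * s)) (k₀ : ℂ)
    have h12 := norm_add_le (2 * s - 2 * s₀) (Complex.log (2 * s))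
    rw [Complex.norm_real, Real.norm_eq_abs] at h11
    rw [h10]
    linarith

theorem norm_le_sq : ∀ᶠ r : ℝ in atTop, ∀ (L : ℝ) (s : ℂ), cOf r s ∈ Om L 3 r → ‖s‖ ≤ r ^ 2 := by
  filter_upwards [eventually_log_le_sq 0 (by norm_num : (0 : ℝ) < 1 / 4), eventually_ge_atTop 1]
    with r h1 h2 L s hs
  have hr : 0 < r := by linarith
  have h3 := Om_norm hs
  have h4 : s = sOf r (cOf r s) := (sOf_cOf hr.ne' s).symm
  set c := cOf r s
  have h5 := Real.log_nonneg (one_le_pow₀ h2 : 1 ≤ r ^ 2)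
  have h6 : ‖(2 : ℂ) + c * (r : ℂ) ^ 2‖ ≤ 5 := by
    have := norm_add_le (2 : ℂ) (c * (r : ℂ) ^ 2)
    rw [norm_mul_sq, Complex.norm_two] at this
    linarith
  rw [h4, sOf]
  refine (norm_sub_le _ _).trans ?_
  rw [norm_mul, norm_div, norm_pow, Complex.norm_real, Complex.norm_real, Real.norm_of_nonneg hr.le,
    Real.norm_of_nonneg h5]
  simp only [Complex.norm_ofNat]
  have h7 : r ^ 2 / 8 * ‖(2 : ℂ) + c * (r : ℂ) ^ 2‖ ≤ r ^ 2 / 8 * 5 := by gcongr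
  nlinarith [sq_nonneg r]

theorem disc_mem {L r : ℝ} (hL : Λ + 1 ≤ L) (hr : 3 ≤ r) {s₀ s : ℂ} (h0 : cOf r s₀ ∈ Om L 3 r)
    (hs : s ∈ closedBall s₀ 1) : cOf r s ∈ Om Λ 4 r := by
  have hr0 : 0 < r := by linarith
  rw [mem_closedBall, dist_eq_norm] at hs
  have h1 : ‖cOf r s - cOf r s₀‖ * r ^ 4 ≤ 8 * 1 := by
    rw [cOf_sub hr0.ne', norm_mul, norm_div, norm_pow, Complex.norm_real,
      Real.norm_of_nonneg hr0.le]
    simp only [Complex.norm_ofNat]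
    calc 8 / r ^ 4 * ‖s - s₀‖ * r ^ 4 = 8 * ‖s - s₀‖ := by field_simp
      _ ≤ _ := by gcongr
  have h2 : ‖cOf r s - cOf r s₀‖ * r ^ 2 ≤ 1 := by
    have h3 : ‖cOf r s - cOf r s₀‖ * r ^ 2 * 9 ≤ ‖cOf r s - cOf r s₀‖ * r ^ 2 * r ^ 2 := by
      gcongr; nlinarith
    nlinarith
  exact Om_mono (by linarith) (by norm_num) r (mem_Om_of_near h0 h1 h2)

/-- the estimate of all derivatives of the boundary term -/
theorem bR_est (h : SymData R₀ Λ Y sig) : ∃ (L C : ℝ) (η : ℝ → ℝ), Λ + 1 ≤ L ∧ 0 ≤ C ∧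
    Tendsto η atTop (𝓝 0) ∧ (∀ r, 0 ≤ η r) ∧ ∀ᶠ r in atTop, ∀ s : ℂ, cOf r s ∈ Om L 3 r →
      8 ≤ ‖s‖ ∧ AnalyticAt ℂ (bR Y r) s ∧ ‖bR Y r s‖ ≤ 2 * Real.exp 4 * ‖s‖ ^ (1 / 2 : ℝ) ∧
      ∀ n : ℕ, ‖iteratedDeriv n (bR Y r) s‖ ≤
        n.factorial * (2 * Real.exp 4 * ‖s‖ ^ (1 / 2 : ℝ)) / (‖s‖ / 8) ^ n +
          n.factorial * (2 * (2 * Real.exp 4 * ‖s‖ ^ (1 / 2 : ℝ)) / ‖s‖ *
            (C * ‖s‖ ^ (-3 / 4 : ℝ) + η r / √r * (1 + ‖s‖ / r))) := by
  obtain ⟨k₀, C, η, hη, hC⟩ := h.asy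
  obtain ⟨L₀, hL₀⟩ := gm_est k₀
  have hη' : Tendsto (fun r => 2 * |η r|) atTop (𝓝 0) := by
    simpa using hη.abs.const_mul 2
  refine ⟨max (max (Λ + 1) L₀) (8 + 8 * |C|), 2 * |C|, fun r => 2 * |η r|,
    (le_max_left _ _).trans (le_max_left _ _), by positivity, hη', fun r => by positivity, ?_⟩
  filter_upwards [norm_le_sq, eventually_ge_atTop R₀, eventually_ge_atTop 3,
    hη'.eventually (ge_mem_nhds (by norm_num : (0 : ℝ) < 1 / 8))] with r h1 h2 h3 h4 s₀ hs₀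
  have hr : 0 < r := by linarith
  have h5 := Om_re hr.ne' hs₀
  rw [sOf_cOf hr.ne'] at h5
  have h6 := Complex.re_le_norm s₀
  have hC0 := abs_nonneg C
  have h7 : 8 + 8 * |C| ≤ s₀.re := (le_max_right _ _).trans h5.le
  have h8 : L₀ ≤ ‖s₀‖ := (((le_max_right _ _).trans (le_max_left _ _)).trans h5.le).trans h6
  have h9 := hL₀ s₀ (by linarith) h8
  have h10 : ∀ s ∈ closedBall s₀ 1, cOf r s ∈ Om Λ 4 r := fun s hs =>
    disc_mem ((le_max_left _ _).trans (le_max_left _ _)) h3 hs₀ hs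
  have hρr := h1 _ _ hs₀
  set ρ := ‖s₀‖ with hρ
  have hρ8 : 8 ≤ ρ := by linarith
  have hρ0 : 0 < ρ := by linarith
  have hsr : 1 ≤ √r := Real.one_le_sqrt.2 (by linarith)
  have hE : ∀ s ∈ closedBall s₀ 1, ‖sg Y r s - gm k₀ s‖ ≤
      2 * |C| * ρ ^ (-3 / 4 : ℝ) + 2 * |η r| / √r * (1 + ρ / r) := by
    intro s hs
    have h11 := hC r h2 _ (h10 s hs)
    rw [sOf_cOf hr.ne'] at h11
    rw [mem_closedBall, dist_eq_norm] at hs
    have h12 := norm_sub_norm_le s s₀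
    have h13 := norm_sub_norm_le s₀ s
    rw [norm_sub_rev] at h13
    have h14 : ‖s‖ ^ (-3 / 4 : ℝ) ≤ 2 * ρ ^ (-3 / 4 : ℝ) := by
      calc ‖s‖ ^ (-3 / 4 : ℝ) ≤ (ρ * 2⁻¹) ^ (-3 / 4 : ℝ) :=
            Real.rpow_le_rpow_of_nonpos (by positivity) (by linarith) (by norm_num)
        _ = ρ ^ (-3 / 4 : ℝ) * (2 : ℝ) ^ (3 / 4 : ℝ) := by
            rw [Real.mul_rpow hρ0.le (by norm_num), Real.inv_rpow (by norm_num),
              ← Real.rpow_neg (by norm_num)]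
            norm_num
        _ ≤ ρ ^ (-3 / 4 : ℝ) * (2 : ℝ) ^ (1 : ℝ) := by gcongr <;> norm_num
        _ = _ := by rw [Real.rpow_one, mul_comm]
    have h15 : 1 + ‖s‖ / r ≤ 2 * (1 + ρ / r) := by
      have h16 : ‖s‖ / r ≤ 2 * ρ / r := by gcongr; linarith
      rw [mul_div_assoc] at h16
      linarith
    have h17 : sg Y r s - gm k₀ s =
        (r : ℂ) ^ 2 / 4 * Y r (cOf r s) - 2 * s - Complex.log (2 * s) - k₀ := by
      unfold sg gm; ring
    rw [h17]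
    refine h11.trans (add_le_add ?_ ?_)
    · calc C * ‖s‖ ^ (-3 / 4 : ℝ) ≤ |C| * (2 * ρ ^ (-3 / 4 : ℝ)) := by
            gcongr; exact le_abs_self C
        _ = _ := by ring
    · calc η r / √r * (1 + ‖s‖ / r) ≤ |η r| / √r * (2 * (1 + ρ / r)) := by
            gcongr; exact le_abs_self _
        _ = _ := by ring
  have hE' : 2 * |C| * ρ ^ (-3 / 4 : ℝ) + 2 * |η r| / √r * (1 + ρ / r) ≤ ρ / 2 := by
    have h11 : ρ ^ (-3 / 4 : ℝ) ≤ 1 := Real.rpow_le_one_of_one_le_of_nonpos (by linarith)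
      (by norm_num)
    have h12 : 2 * |η r| / √r ≤ 1 / 8 := (div_le_self (by positivity) hsr).trans h4
    have h13 : ρ / r ≤ ρ := div_le_self hρ0.le (by linarith)
    have h14 : 2 * |η r| / √r * (1 + ρ / r) ≤ 1 / 8 * (1 + ρ) := by gcongr
    have h15 : 2 * |C| * ρ ^ (-3 / 4 : ℝ) ≤ 2 * |C| * 1 := by gcongr
    linarith
  have h18 : closedBall s₀ 1 ⊆ closedBall s₀ (ρ / 8) := closedBall_subset_closedBall (by linarith)
  have hw : ‖2 * s₀‖ = 2 * ρ := by rw [norm_mul, Complex.norm_two]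
  have hM : ∀ z ∈ ball (2 * s₀) (2 * ρ), ‖Ph r z‖ ≤ 2 * Real.exp 4 * ρ ^ (1 / 2 : ℝ) := by
    intro z hz
    refine norm_Ph_le hρr hρ0 ?_
    rw [mem_ball, dist_eq_norm] at hz
    have := norm_sub_norm_le z (2 * s₀)
    linarith
  have hσK : ∀ s ∈ closedBall s₀ 1, sg Y r s ∈ closedBall (2 * s₀) ρ := by
    intro s hs
    rw [mem_closedBall, dist_eq_norm]
    have h11 := norm_sub_le_norm_sub_add_norm_sub (sg Y r s) (gm k₀ s) (2 * s₀)
    have h12 := hE s hs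
    have h13 := (h9 s (h18 hs)).2
    linarith
  have hb : bR Y r = fun s => Ph r (sg Y r s) := funext (bR_eq Y hr)
  refine ⟨hρ8, ?_, ?_, fun n => ?_⟩
  · exact DifferentiableOn.analyticAt (s := closedBall s₀ 1)
      (fun s hs => (differentiableAt_bR h h2 (h10 s hs)).differentiableWithinAt)
      (closedBall_mem_nhds s₀ one_pos)
  · rw [hb]
    exact hM _ (closedBall_subset_ball (by linarith) (hσK s₀ (mem_closedBall_self one_pos.le)))
  · rw [hb]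
    refine cauchy (w := 2 * s₀) (g := gm k₀) hρ8 (fun z hz => ?_) hM
      (fun s hs => (h9 s hs).1.differentiableWithinAt) (fun s hs => ?_)
      (fun s hs => (differentiableAt_sg h h2 (h10 s hs)).differentiableWithinAt) hσK hE n
    · refine (differentiableAt_Ph r (mem_slit (w := 2 * s₀) ?_ (by rwa [hw]))).differentiableWithinAt
      have : 0 < s₀.re := by linarith
      simpa using this
    · rw [mem_closedBall, dist_eq_norm]
      have := (h9 s hs).2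
      linarith

end Kb

open Kb

theorem sig_proof : SigStmt := fun _ _ _ _ h => ⟨sig_hol h, sig_asy h⟩

theorem b_proof : BStmt := by
  intro R₀ Λ Y sig h
  obtain ⟨L, C, η, hL, hC, hη, hη0, hev⟩ := bR_est h
  have h1 := h.one_le
  have hη' : Tendsto (fun r => 8 * Real.exp 4 * η r) atTop (𝓝 0) := by
    simpa using hη.const_mul (8 * Real.exp 4)
  refine ⟨L, Real.exp 4 * (256 + 8 * C), fun r => 8 * Real.exp 4 * η r, by linarith, hη', ?_,
    fun s hs => tendsto_deriv2 h (by linarith)⟩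
  filter_upwards [hev, eventually_ge_atTop 1,
    hη.eventually (ge_mem_nhds (by norm_num : (0 : ℝ) < 1))] with r h2 h3 h4 s hs
  obtain ⟨h5, h6, h7, h8⟩ := h2 s hs
  set ρ := ‖s‖
  have hρ0 : 0 < ρ := by linarith
  have he := Real.exp_pos 4
  have hsr : 1 ≤ √r := Real.one_le_sqrt.2 h3
  have hη1 := hη0 r
  have hx : 0 ≤ ρ / r := by positivity
  have e1 : ρ ^ (1 / 2 : ℝ) = ρ ^ (-1 / 2 : ℝ) * ρ := by
    rw [← Real.rpow_add_one hρ0.ne']; norm_num
  have e2 : ρ ^ (-1 / 2 : ℝ) * ρ ^ (-3 / 4 : ℝ) = ρ ^ (-5 / 4 : ℝ) := by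
    rw [← Real.rpow_add hρ0]; norm_num
  have e3 : ρ ^ (-1 / 2 : ℝ) / ρ ≤ ρ ^ (-5 / 4 : ℝ) := by
    rw [← Real.rpow_sub_one hρ0.ne']
    exact Real.rpow_le_rpow_of_exponent_le (by linarith) (by norm_num)
  have e4 : ρ ^ (-3 / 4 : ℝ) ≤ 1 := Real.rpow_le_one_of_one_le_of_nonpos (by linarith)
    (by norm_num)
  have p1 : 0 < ρ ^ (-1 / 2 : ℝ) := Real.rpow_pos_of_pos hρ0 _
  have p2 : 0 < ρ ^ (-5 / 4 : ℝ) := Real.rpow_pos_of_pos hρ0 _
  refine ⟨h6, h7.trans ?_, ?_, ?_⟩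
  · exact mul_le_mul_of_nonneg_right (by nlinarith) (by positivity)
  · have h9 := h8 1
    rw [iteratedDeriv_one] at h9
    refine h9.trans ?_
    have h10 : η r / √r ≤ 1 := (div_le_self hη1 hsr).trans h4
    have h11 : C * ρ ^ (-3 / 4 : ℝ) + η r / √r * (1 + ρ / r) ≤ C * 1 + 1 * (1 + ρ / r) := by
      gcongr
    calc _ = Real.exp 4 * ρ ^ (-1 / 2 : ℝ) *
          (16 + 4 * (C * ρ ^ (-3 / 4 : ℝ) + η r / √r * (1 + ρ / r))) := by
          rw [e1]; simp only [Nat.factorial_one, Nat.cast_one]; field_simp; ring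
      _ ≤ Real.exp 4 * ρ ^ (-1 / 2 : ℝ) * ((256 + 8 * C) * (1 + ρ / r)) := by
          gcongr; nlinarith [mul_nonneg hC hx]
      _ = _ := by ring
  · refine (h8 2).trans ?_
    have h10 : 1 + ρ / r ≤ (1 + ρ / r) ^ 2 := by nlinarith
    calc _ = 256 * Real.exp 4 * (ρ ^ (-1 / 2 : ℝ) / ρ) +
          8 * Real.exp 4 * C * (ρ ^ (-1 / 2 : ℝ) * ρ ^ (-3 / 4 : ℝ)) +
          8 * Real.exp 4 * η r / √r * ρ ^ (-1 / 2 : ℝ) * (1 + ρ / r) := by
          rw [e1]; simp only [Nat.factorial_two, Nat.cast_ofNat]; field_simp; ring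
      _ ≤ 256 * Real.exp 4 * ρ ^ (-5 / 4 : ℝ) + 8 * Real.exp 4 * C * ρ ^ (-5 / 4 : ℝ) +
          8 * Real.exp 4 * η r / √r * ρ ^ (-1 / 2 : ℝ) * (1 + ρ / r) ^ 2 := by
          rw [e2]; gcongr
      _ = _ := by ring

end Vale.Agent.P218F.K
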