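import Mathlib.Analysis.SpecialFunctions.Pow.Complex
import Mathlib.Analysis.SpecialFunctions.Pow.Real
import Mathlib.Analysis.SpecialFunctions.Sqrt
import Mathlib.Analysis.Calculus.IteratedDeriv.Defs
import Mathlib.Analysis.Analytic.Basic
import Mathlib.MeasureTheory.Integral.IntervalIntegral.Basic
import Mathlib.Topology.UniformSpace.LocallyUniformConvergence
import Mathlib.LinearAlgebra.Matrix.Determinant.Basic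

/-! Block K (finite-dimensional part of the Lojasiewicz inequality): definitions.

Parameters are `x : ι ⊕ κ → ℂ`; `x (inl j)` are the harmless parameters `b`, `x (inr i)` is the
parameter `c_i` of the `i`-th cylindrical end (`r ^ 2 ≈ 2 + c z ^ 2`). -/

open Filter Topology Set Asymptotics

noncomputable section

namespace Vale.Agent.P218F.K

/-! ### The interface with the end solvers and the gluing -/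

/-- the tip coordinate `s = (R²/8)(2 + c R²) - log R²` -/
def sOf (R : ℝ) (c : ℂ) : ℂ := (R : ℂ) ^ 2 / 8 * (2 + c * (R : ℂ) ^ 2) - (Real.log (R ^ 2) : ℝ)

/-- the inverse of `sOf R` -/
def cOf (R : ℝ) (s : ℂ) : ℂ := (8 * (s + (Real.log (R ^ 2) : ℝ)) / (R : ℂ) ^ 2 - 2) / (R : ℂ) ^ 2

/-- the domain of the parameter `c` for the problem truncated at `z = R` -/
def Om (Λ a R : ℝ) : Set ℂ :=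
  {c | ‖c * (R : ℂ) ^ 2 - 2‖ < 4 - 8 * (Λ + Real.log (R ^ 2)) / R ^ 2 ∧ ‖c‖ * R ^ 2 < a}

/-- `R₀` is large with respect to `Λ` -/
def Big (Λ R₀ : ℝ) : Prop :=
  0 ≤ Λ ∧ 4 ≤ R₀ ∧ ∀ R, R₀ ≤ R → Λ + 2 + Real.log (R ^ 2) ≤ R ^ 2 / 16

/-- `2 π √y exp (-y/4)`: weighted length of the boundary circle, `y = r(R)²` -/
def bd (y : ℂ) : ℂ := 2 * Real.pi * y ^ (1 / 2 : ℂ) * Complex.exp (-y / 4)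

variable {ι κ τ : Type} [Fintype ι] [Fintype κ] [Fintype τ]

/-- the end parameters -/
def cp (x : ι ⊕ κ → ℂ) : κ → ℂ := fun i => x (Sum.inr i)

/-- the strip `|b| < r₀` -/
def St (ι κ : Type) (r₀ : ℝ) : Set (ι ⊕ κ → ℂ) := {x | ∀ j, ‖x (Sum.inl j)‖ < r₀}

/-- the parameter domain for the truncation radius `R` -/
def Dom (ι κ : Type) (r₀ Λ R : ℝ) : Set (ι ⊕ κ → ℂ) :=
  {x | (∀ j, ‖x (Sum.inl j)‖ < r₀) ∧ ∀ i, x (Sum.inr i) ∈ Om Λ 3 R}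

/-- all coordinates are real -/
def IsRe {σ : Type} (x : σ → ℂ) : Prop := ∀ j, (x j).im = 0

/-- a real vector as a complex one -/
def ofRe {σ : Type} (x : σ → ℝ) : σ → ℂ := fun j => (x j : ℂ)

/-- The universal function of the rotationally symmetric end: `Y R c = r(R)²` for the symmetric
solution with parameter `c` and Neumann condition at `z = R`; `sig` is its limit in tip units. -/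
structure SymData (R₀ Λ : ℝ) (Y : ℝ → ℂ → ℂ) (sig : ℂ → ℂ) : Prop where
  one_le : 1 ≤ Λ
  hol : ∀ R, R₀ ≤ R → DifferentiableOn ℂ (Y R) (Om Λ 4 R)
  cont : ContinuousOn (fun p : ℝ × ℂ => Y p.1 p.2) {p | R₀ ≤ p.1 ∧ p.2 ∈ Om Λ 4 p.1}
  re_pos : ∀ R, R₀ ≤ R → ∀ c ∈ Om Λ 4 R, 0 < (Y R c).re
  bdd : ∃ C : ℝ, ∀ R, R₀ ≤ R → ∀ c ∈ Om Λ 4 R, ‖Y R c‖ ≤ C
  low : ∃ C : ℝ, ∀ R, R₀ ≤ R → ∀ c ∈ Om Λ 4 R, ‖sOf R c‖ ≤ C * R ^ 2 * ‖Y R c‖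
  asy : ∃ (k₀ C : ℝ) (η : ℝ → ℝ), Tendsto η atTop (𝓝 0) ∧ ∀ R, R₀ ≤ R → ∀ c ∈ Om Λ 4 R,
    ‖(R : ℂ) ^ 2 / 4 * Y R c - 2 * sOf R c - Complex.log (2 * sOf R c) - k₀‖ ≤
      C * ‖sOf R c‖ ^ (-3 / 4 : ℝ) + η R / √R * (1 + ‖sOf R c‖ / R)
  lim : TendstoLocallyUniformlyOn (fun (R : ℝ) (s : ℂ) => (R : ℂ) ^ 2 / 4 * Y R (cOf R s)) sig atTop
    {s | Λ < s.re}

/-- `sig s` is the square of the neck radius of the half translating catenoid whose asymptotic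
constant is `s + k₁ / 2`: in tip units `σ = r²`, `u = r r'`. -/
def TipChar (Λ : ℝ) (sig : ℂ → ℂ) : Prop :=
  ∃ k₁ : ℝ, ∀ s : ℂ, Λ < s.re → ∃ σ u : ℝ → ℂ, σ 0 = sig s ∧ u 0 = 0 ∧
    (∀ ζ : ℝ, 0 ≤ ζ → σ ζ ≠ 0 ∧ HasDerivWithinAt σ (2 * u ζ) (Ici 0) ζ ∧
      HasDerivWithinAt u (1 - u ζ + u ζ ^ 2 * (2 - u ζ) / σ ζ) (Ici 0) ζ) ∧
    Tendsto (fun ζ : ℝ => σ ζ - Complex.log (σ ζ) - 2 * ζ) atTop (𝓝 (2 * s + k₁))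

/-- `I₀` is the Stokes constant of the tip -/
def TipConst (sig : ℂ → ℂ) (I₀ : ℂ) : Prop :=
  ∃ L : ℝ, ∀ l : ℝ, L ≤ l → (∫ t : ℝ, iteratedDeriv 2 (fun s => sig s ^ (1 / 2 : ℂ))
    (l + t * Complex.I) * Complex.exp (l + t * Complex.I)) = I₀

/-- the Stokes constant of the tip does not vanish -/
def TipNondeg (sig : ℂ → ℂ) : Prop := ∃ I₀ : ℂ, I₀ ≠ 0 ∧ TipConst sig I₀

/-- a family of holomorphic maps on the domains `Dom R` which converges like `exp (-R²/4)` -/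
structure ExpFam {V : Type} [NormedAddCommGroup V] [NormedSpace ℂ V] (r₀ Λ R₀ : ℝ)
    (F : ℝ → (ι ⊕ κ → ℂ) → V) : Prop where
  hol : ∀ R, R₀ ≤ R → DifferentiableOn ℂ (F R) (Dom ι κ r₀ Λ R)
  bdd : ∃ C : ℝ, ∀ R, R₀ ≤ R → ∀ x ∈ Dom ι κ r₀ Λ R, ‖F R x‖ ≤ C
  inc : ∃ (C : ℝ) (A : ℕ), ∀ ρ R, R₀ ≤ ρ → ρ ≤ R → R ≤ ρ + 1 → ∀ x ∈ Dom ι κ r₀ Λ R,
    x ∈ Dom ι κ r₀ Λ ρ → ‖F R x - F ρ x‖ ≤ C * ρ ^ A * Real.exp (-ρ ^ 2 / 4)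

/-- What the end solvers and the gluing deliver: reduced functions `f R`, multipliers `G R`,
tip coordinates `φ i x = c_i + O(|c|²)`. -/
structure KData (r₀ Λ Λ' R₀ : ℝ) (f : ℝ → (ι ⊕ κ → ℂ) → ℂ) (G : ℝ → (ι ⊕ κ → ℂ) → (τ → ℂ))
    (φ : κ → (ι ⊕ κ → ℂ) → ℂ) (Y : ℝ → ℂ → ℂ) (sig : ℂ → ℂ) : Prop where
  r_pos : 0 < r₀
  big : Big Λ R₀
  le : Λ' ≤ Λ
  sym : SymData R₀ Λ' Y sig
  tip : TipChar Λ' sig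
  hG : ExpFam r₀ Λ R₀ G
  G_re : ∀ R, R₀ ≤ R → ∀ x ∈ Dom ι κ r₀ Λ R, IsRe x → IsRe (G R x)
  f_hol : ∀ R, R₀ ≤ R → DifferentiableOn ℂ (f R) (Dom ι κ r₀ Λ R)
  f_bdd : ∃ C : ℝ, ∀ R, R₀ ≤ R → ∀ x ∈ Dom ι κ r₀ Λ R, ‖f R x‖ ≤ C
  grad : ∃ (C : ℝ) (A : ℕ), ∀ R, R₀ ≤ R → ∀ x ∈ Dom ι κ r₀ Λ R,
    ‖fderiv ℂ (f R) x‖ ≤ C * R ^ A * ‖G R x‖
  φ_ana : ∀ i, AnalyticAt ℂ (φ i) 0
  φ_re : ∀ i, ∀ᶠ x in 𝓝 (0 : ι ⊕ κ → ℂ), IsRe x → (φ i x).im = 0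
  φ_app : ∀ i, (fun x => φ i x - x (Sum.inr i)) =O[𝓝 0] fun x => ‖cp x‖ ^ 2
  φ_mem : ∀ R, R₀ ≤ R → ∀ x ∈ Dom ι κ r₀ Λ R, ∀ i, φ i x ∈ Om (Λ' + 1) (7 / 2) R
  inc : ∃ C d : ℝ, 1 / 2 < d ∧ ∀ R R', R₀ ≤ R → R ≤ R' → R' ≤ R + 1 → ∀ x ∈ Dom ι κ r₀ Λ R',
    ‖f R' x - f R x - ∫ r in R..R', (Real.exp (-r ^ 2 / 4) : ℝ) * ∑ i, bd (Y r (φ i x))‖ ≤
      C * ∫ r in R..R', Real.exp (-r ^ 2 / 4) * r ^ (-2 - d) *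
        ∑ i, ‖Y r (φ i x)‖ ^ (-(1 / 2) : ℝ)

/-- the end parameters are controlled by the multipliers (real points) -/
def ClaimK (R₀ : ℝ) (G : ℝ → (ι ⊕ κ → ℂ) → (τ → ℂ)) : Prop :=
  ∃ (N : ℕ) (C δ : ℝ), 0 < δ ∧ ∀ R, R₀ ≤ R → ∀ x : ι ⊕ κ → ℝ, ‖x‖ < δ →
    ‖cp (ofRe x)‖ * R ^ 2 ≤ 1 →
      ‖cp (ofRe x)‖ ^ N ≤ C * (‖G R (ofRe x)‖ + Real.exp (-R ^ 2 / 5))

/-- The output of block K. -/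
def KOut (R₀ : ℝ) (f : ℝ → (ι ⊕ κ → ℂ) → ℂ) (G : ℝ → (ι ⊕ κ → ℂ) → (τ → ℂ)) : Prop :=
  ∃ (N : ℕ) (θ C δ : ℝ) (F₀ : ℂ), 0 < θ ∧ θ < 1 ∧ 0 < δ ∧ ∀ R, R₀ ≤ R → ∀ x : ι ⊕ κ → ℝ,
    ‖x‖ < δ → ‖cp (ofRe x)‖ * R ^ 2 ≤ 1 / 2 →
      ‖cp (ofRe x)‖ ^ N ≤ C * (‖G R (ofRe x)‖ + Real.exp (-R ^ 2 / 10)) ∧
      ‖f R (ofRe x) - F₀‖ ^ θ ≤ C * (‖G R (ofRe x)‖ + Real.exp (-R ^ 2 / 10))

/-- Block K. -/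
def KStmt : Prop :=
  ∀ (ι κ τ : Type) [Fintype ι] [Fintype κ] [Fintype τ] (r₀ Λ Λ' R₀ : ℝ)
    (f : ℝ → (ι ⊕ κ → ℂ) → ℂ) (G : ℝ → (ι ⊕ κ → ℂ) → (τ → ℂ)) (φ : κ → (ι ⊕ κ → ℂ) → ℂ)
    (Y : ℝ → ℂ → ℂ) (sig : ℂ → ℂ), KData r₀ Λ Λ' R₀ f G φ Y sig → KOut R₀ f G

/-! ### Expansions, charts, formal arcs -/

/-- scaling of the end parameters -/
def sc (e : ℂ) (x : ι ⊕ κ → ℂ) : ι ⊕ κ → ℂ :=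
  Sum.elim (fun j => x (Sum.inl j)) fun i => e * x (Sum.inr i)

/-- `P n` is the part of degree `n` in `c` of the formal limit of the family `F` -/
structure IsExp (r₀ Λ R₀ : ℝ) (F : ℝ → (ι ⊕ κ → ℂ) → ℂ) (P : ℕ → (ι ⊕ κ → ℂ) → ℂ) : Prop where
  hol : ∀ n, DifferentiableOn ℂ (P n) (St ι κ r₀)
  hom : ∀ n, ∀ x ∈ St ι κ r₀, ∀ e : ℂ, P n (sc e x) = e ^ n * P n x
  app : ∀ M : ℕ, ∃ C : ℝ, ∀ R, R₀ ≤ R → ∀ x ∈ Dom ι κ r₀ Λ R,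
    ‖F R x - ∑ n ∈ Finset.range M, P n x‖ ≤ C * (‖cp x‖ ^ M + Real.exp (-R ^ 2 / 5))

/-- the form of `KData.inc` used along arcs -/
def JumpOut (r₀ Λ : ℝ) (f : ℝ → (ι ⊕ κ → ℂ) → ℂ) (φ : κ → (ι ⊕ κ → ℂ) → ℂ)
    (Y : ℝ → ℂ → ℂ) : Prop :=
  ∃ η : ℝ → ℝ, Tendsto η atTop (𝓝 0) ∧ ∀ᶠ R in atTop, 0 ≤ η R ∧ ∀ R', R ≤ R' →
    R' ≤ R + 1 / R → ∀ x ∈ Dom ι κ r₀ Λ R',
      ‖f R' x - f R x - ∑ i, ∫ r in R..R', (Real.exp (-r ^ 2 / 4) : ℝ) * bd (Y r (φ i x))‖ ≤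
        (R' - R) * Real.exp (-R ^ 2 / 4) *
          (η R / R ^ (3 / 2 : ℝ) * ∑ i, ‖sOf R (φ i x)‖ ^ (-(1 / 2) : ℝ))

/-- the shift `(b, λ) ↦ (b, λ* + λ)` -/
def shift (ls : κ → ℝ) (y : ι ⊕ κ → ℂ) : ι ⊕ κ → ℂ :=
  Sum.elim (fun j => y (Sum.inl j)) fun i => ls i + y (Sum.inr i)

/-- the blow-up chart `c = ε (λ* + λ)` -/
def chart (ls : κ → ℝ) (p : ℂ × (ι ⊕ κ → ℂ)) : ι ⊕ κ → ℂ := sc p.1 (shift ls p.2)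

/-- domains in the chart; they increase with `θ ≤ 1` -/
def UU (ι : Type) [Fintype ι] (ls : κ → ℝ) (r₁ Λ θ R : ℝ) : Set (ℂ × (ι ⊕ κ → ℂ)) :=
  {p | ‖p.2‖ < θ * r₁ ∧ ∀ i, p.1 * (ls i + p.2 (Sum.inr i)) ∈ Om (Λ + 1 - θ) (2 + θ) R}

/-- truncation of a formal series in `e` -/
def tr {σ : Type} (H : ℕ → (σ → ℂ) → ℂ) (M : ℕ) (e : ℂ) (y : σ → ℂ) : ℂ :=
  ∑ n ∈ Finset.range M, e ^ n * H n y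

/-- truncation of a real formal arc -/
def arc {σ : Type} (a : ℕ → σ → ℝ) (M : ℕ) (t : ℂ) : σ → ℂ :=
  fun i => ∑ n ∈ Finset.range M, (a n i : ℂ) * t ^ n

/-- families in the chart with an asymptotic expansion -/
structure Fam (ls : κ → ℝ) (r₁ Λ R₀ : ℝ) (A : ℕ) (F : ℝ → ℂ × (ι ⊕ κ → ℂ) → ℂ)
    (H : ℕ → (ι ⊕ κ → ℂ) → ℂ) : Prop where
  hol : ∀ R, R₀ ≤ R → DifferentiableOn ℂ (F R) (UU ι ls r₁ Λ 1 R)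
  ana : ∀ n, DifferentiableOn ℂ (H n) (Metric.ball 0 r₁)
  app : ∀ θ, θ < 1 → ∀ M : ℕ, ∃ C : ℝ, ∀ R, R₀ ≤ R → ∀ p ∈ UU ι ls r₁ Λ θ R,
    ‖F R p - tr H M p.1 p.2‖ ≤ C * R ^ A * (‖p.1‖ ^ M + Real.exp (-R ^ 2 / 5))
  inc : ∀ θ, θ < 1 → ∃ C : ℝ, ∀ ρ R, R₀ ≤ ρ → ρ ≤ R → R ≤ ρ + 1 → ∀ p ∈ UU ι ls r₁ Λ θ R,
    p ∈ UU ι ls r₁ Λ θ ρ → ‖F R p - F ρ p‖ ≤ C * ρ ^ A * Real.exp (-ρ ^ 2 / 4)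

/-- a ring with partial derivatives, mapped to formal series with real analytic coefficients -/
structure ExRing {σ : Type} [Fintype σ] [DecidableEq σ] {D : Type} [CommRing D] (d : σ → D → D)
    (ex : D → ℕ → (σ → ℂ) → ℂ) : Prop where
  ana : ∀ h n, AnalyticAt ℂ (ex h n) 0
  re : ∀ h n, ∀ᶠ y : σ → ℝ in 𝓝 0, (ex h n (ofRe y)).im = 0
  one : ∀ n, ex 1 n =ᶠ[𝓝 0] fun _ => if n = 0 then 1 else 0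
  add : ∀ h h' n, ex (h + h') n =ᶠ[𝓝 0] fun y => ex h n y + ex h' n y
  mul : ∀ h h' n, ex (h * h') n =ᶠ[𝓝 0] fun y =>
    ∑ q ∈ Finset.antidiagonal n, ex h q.1 y * ex h' q.2 y
  der : ∀ i h n, ex (d i h) n =ᶠ[𝓝 0] fun y => fderiv ℂ (ex h n) y (Pi.single i 1)

/-- the series `H` vanishes on the formal arc `(t ^ k, a)` -/
def FlatOn {σ : Type} (H : ℕ → (σ → ℂ) → ℂ) (k : ℕ) (a : ℕ → σ → ℝ) : Prop :=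
  ∀ M : ℕ, (fun t : ℂ => tr H M (t ^ k) (arc a M t)) =O[𝓝 0] fun t => t ^ M

/-- the series `H` has order exactly `N₀` on the formal arc `(t ^ k, a)` -/
def OrdOn {σ : Type} (H : ℕ → (σ → ℂ) → ℂ) (k : ℕ) (a : ℕ → σ → ℝ) (N₀ : ℕ) : Prop :=
  ∃ u : ℝ, u ≠ 0 ∧ ∀ M : ℕ, N₀ < M →
    (fun t : ℂ => tr H M (t ^ k) (arc a M t) - u * t ^ N₀) =O[𝓝 0] fun t => t ^ (N₀ + 1)

/-- the set of `t` on which the formal arc is realised for the truncation radius `R` -/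
def WW (ι : Type) [Fintype ι] (ls : κ → ℝ) (r₁ Λ : ℝ) (k : ℕ) (a : ℕ → ι ⊕ κ → ℝ) (K : ℕ)
    (R : ℝ) : Set ℂ :=
  {t | 1 / 5 < ‖t‖ ^ k * R ^ 2 ∧ (t ^ k, arc a K t) ∈ UU ι ls r₁ Λ (1 / 2) R}

/-- realisation of a formal arc -/
structure NewtonData (ls : κ → ℝ) (r₁ Λ : ℝ) (k : ℕ) (a : ℕ → ι ⊕ κ → ℝ) (K : ℕ)
    (y : ℝ → ℂ → (ι ⊕ κ → ℂ)) : Prop where
  hol : ∀ᶠ R in atTop, DifferentiableOn ℂ (y R) (WW ι ls r₁ Λ k a K R)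
  near : ∀ᶠ R in atTop, ∀ t ∈ WW ι ls r₁ Λ k a K R, ‖y R t - arc a K t‖ ≤ ‖t‖ ^ (4 * k)
  app : ∀ M : ℕ, ∀ᶠ M' in atTop, ∃ C : ℝ, ∀ᶠ R in atTop, ∀ t ∈ WW ι ls r₁ Λ k a K R,
    ‖y R t - arc a M' t‖ ≤ C / R ^ M
  inc : ∃ (C : ℝ) (A : ℕ), ∀ᶠ ρ in atTop, ∀ R, ρ ≤ R → R ≤ ρ + 1 →
    ∀ t ∈ WW ι ls r₁ Λ k a K R, t ∈ WW ι ls r₁ Λ k a K ρ →
      ‖y R t - y ρ t‖ ≤ C * ρ ^ A * Real.exp (-ρ ^ 2 / 4)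

/-! ### The Stokes argument -/

/-- the end parameters along the arc -/
structure EndArc (n : ℕ) (ls : κ → ℝ) (p : κ → ℂ → ℂ) : Prop where
  n_pos : 0 < n
  norm_ls : ‖ls‖ = 1
  ana : ∀ i, AnalyticAt ℂ (p i) 0
  re : ∀ i, ∀ᶠ t : ℝ in 𝓝 0, (p i t).im = 0
  app : ∀ i, (fun t : ℂ => p i t - ls i * t ^ n) =O[𝓝 0] fun t => t ^ (n + 1)

/-- the annular region for the radius `√j` -/
def Ann (Λ : ℝ) (n : ℕ) (p : κ → ℂ → ℂ) (j : ℕ) : Set ℂ :=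
  {t | 1 / (4 * (j : ℝ)) < ‖t‖ ^ n ∧ ‖t‖ ^ n < 3 / (j : ℝ) ∧ ∀ i, p i t ∈ Om Λ (9 / 4) √(j : ℝ)}

/-- the reduced functions along the realised arc: flat, with known jumps -/
structure StokesData (Λ : ℝ) (Y : ℝ → ℂ → ℂ) (n : ℕ) (p : κ → ℂ → ℂ) (ψ : ℕ → ℂ → ℂ) : Prop where
  hol : ∀ᶠ j in atTop, DifferentiableOn ℂ (ψ j) (Ann Λ n p j)
  flat : ∀ M : ℕ, ∃ C : ℝ, ∀ᶠ j in atTop, ∀ t ∈ Ann Λ n p j, ‖ψ j t‖ ≤ C / (j : ℝ) ^ M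
  jump : ∃ η : ℕ → ℝ, Tendsto η atTop (𝓝 0) ∧ ∀ᶠ j in atTop, ∀ t ∈ Ann Λ n p j,
    t ∈ Ann Λ n p (j + 1) →
      ‖ψ (j + 1) t - ψ j t - ∑ i, ∫ r in √(j : ℝ)..√((j : ℝ) + 1),
        (Real.exp (-r ^ 2 / 4) : ℝ) * bd (Y r (p i t))‖ ≤
        η j * Real.exp (-(j : ℝ) / 4) / (j : ℝ) ^ (3 / 2 : ℝ) *
          (1 + ∑ i, (j : ℝ) ^ (1 / 4 : ℝ) * ‖sOf √(j : ℝ) (p i t)‖ ^ (-(1 / 2) : ℝ))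

/-- a truncated sector -/
def Sec (ω₀ κ₀ : ℝ) : Set ℂ := {ω | ω₀ < ω.re ∧ |ω.im| < κ₀ * ω.re}

/-- infinity in a sector -/
def atSec (κ₀ : ℝ) : Filter ℂ := comap Complex.re atTop ⊓ 𝓟 {ω | |ω.im| < κ₀ * ω.re}

/-- an end which is tied with the winner: `P = -1 / w²`, `w = ω - i a / 2 - k / (2 ω) + o(1/ω)` -/
def Tied (κ₀ : ℝ) (P : ℂ → ℂ) (a k : ℝ) : Prop :=
  ∃ (ω₀ : ℝ) (w : ℂ → ℂ), DifferentiableOn ℂ w (Sec ω₀ κ₀) ∧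
    (∀ ω ∈ Sec ω₀ κ₀, P ω = -1 / w ω ^ 2) ∧
    Tendsto (fun ω => ω * (w ω - ω + Complex.I * a / 2)) (atSec κ₀) (𝓝 (-(k : ℂ) / 2))

/-- an end which does not contribute -/
def Lost (κ₀ : ℝ) (P : ℂ → ℂ) : Prop :=
  (∃ ω₀ : ℝ, DifferentiableOn ℂ P (Sec ω₀ κ₀)) ∧ (∀ᶠ ω in atSec κ₀, ‖P ω‖ * ‖ω‖ ^ 2 ≤ 10 / 9) ∧
    ∀ M : ℝ, ∀ᶠ ω in atSec κ₀,
      ‖P ω‖ ≤ 1 / (ω.re ^ 2 + M * Real.log ω.re) ∨ 0 ≤ (P ω).re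

/-- the abscissa of the contour for the radius `r` -/
def al (Λ₂ r : ℝ) : ℝ := √(r ^ 2 / 2 + 2 * Real.log (r ^ 2) + Λ₂)

/-- the point `α + i β` -/
def pt (α β : ℝ) : ℂ := α + β * Complex.I

/-- the kernel -/
def ker (B a : ℝ) (ω : ℂ) : ℂ := Complex.exp (ω ^ 2 / 2 - (ω - a) ^ 2 / B)

/-- the strip between two consecutive contours -/
def Rect (Λ₂ κ₁ : ℝ) (j : ℕ) : Set ℂ :=
  {ω | al Λ₂ √(j : ℝ) ≤ ω.re ∧ ω.re ≤ al Λ₂ √((j : ℝ) + 1) ∧ |ω.im| ≤ κ₁ * ω.re}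

/-- the sum over the contours: `E j β` is the jump on the `j`-th contour at height `β` -/
def cSum (Λ₂ κ₁ B : ℝ) (E : ℕ → ℝ → ℂ) (N : ℕ) : ℂ :=
  ∑ j ∈ Finset.Ico N (16 * N), ∫ β in (-(κ₁ * √(N : ℝ) / 2))..(κ₁ * √(N : ℝ) / 2),
    E j β * ker B √(2 * (N : ℝ)) (pt (al Λ₂ √((j : ℝ) + 1)) β)

/-- the jump produced by one end -/
def endJ (Y : ℝ → ℂ → ℂ) (P : ℂ → ℂ) (Λ₂ : ℝ) (j : ℕ) (β : ℝ) : ℂ :=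
  ∫ r in √(j : ℝ)..√((j : ℝ) + 1),
    (Real.exp (-r ^ 2 / 4) : ℝ) * bd (Y r (P (pt (al Λ₂ √((j : ℝ) + 1)) β)))

/-- the boundary term in tip units -/
def bR (Y : ℝ → ℂ → ℂ) (r : ℝ) (s : ℂ) : ℂ := (r / (4 * Real.pi) : ℝ) * bd (Y r (cOf r s))

/-- bounds and limit of the boundary term -/
def BOut (Y : ℝ → ℂ → ℂ) (sig : ℂ → ℂ) : Prop :=
  ∃ (L C : ℝ) (η : ℝ → ℝ), 1 ≤ L ∧ Tendsto η atTop (𝓝 0) ∧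
    (∀ᶠ r in atTop, ∀ s : ℂ, cOf r s ∈ Om L 3 r →
      AnalyticAt ℂ (bR Y r) s ∧ ‖bR Y r s‖ ≤ C * ‖s‖ ^ (1 / 2 : ℝ) ∧
      ‖deriv (bR Y r) s‖ ≤ C * ‖s‖ ^ (-1 / 2 : ℝ) * (1 + ‖s‖ / r) ∧
      ‖iteratedDeriv 2 (bR Y r) s‖ ≤
        C * ‖s‖ ^ (-5 / 4 : ℝ) + η r / √r * ‖s‖ ^ (-1 / 2 : ℝ) * (1 + ‖s‖ / r) ^ 2) ∧
    ∀ s : ℂ, L ≤ s.re → Tendsto (fun q : ℝ × ℂ => iteratedDeriv 2 (bR Y q.1) q.2)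
      (atTop ×ˢ 𝓝 s) (𝓝 (iteratedDeriv 2 (fun s => sig s ^ (1 / 2 : ℂ)) s))

/-- the integral over the contour which belongs to the radius `r` -/
def QQ (Y : ℝ → ℂ → ℂ) (P : ℂ → ℂ) (Λ₂ κ₁ B : ℝ) (N : ℕ) (r : ℝ) : ℂ :=
  (Real.exp (-r ^ 2 / 4) : ℝ) * ∫ β in (-(κ₁ * √(N : ℝ) / 2))..(κ₁ * √(N : ℝ) / 2),
    bd (Y r (P (pt (al Λ₂ r) β))) * ker B √(2 * (N : ℝ)) (pt (al Λ₂ r) β)

/-- bound and limit of the contour integrals of a tied end -/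
def JOut (Y : ℝ → ℂ → ℂ) (P : ℂ → ℂ) (a k : ℝ) (I₀ : ℂ) (Λ₂ κ₁ B : ℝ) : Prop :=
  (∃ C : ℝ, ∀ᶠ N : ℕ in atTop, ∀ r ∈ Icc √(N : ℝ) (4 * √(N : ℝ)),
    ‖QQ Y P Λ₂ κ₁ B N r‖ ≤ C * Real.exp (-(al Λ₂ r - √(2 * (N : ℝ))) ^ 2 / B)) ∧
  ∀ (r : ℕ → ℝ) (d : ℝ), Tendsto r atTop atTop →
    Tendsto (fun N : ℕ => al Λ₂ (r N) - √(2 * (N : ℝ))) atTop (𝓝 d) →
    Tendsto (fun N => QQ Y P Λ₂ κ₁ B N (r N) * Complex.exp (-(Complex.I * a * al Λ₂ (r N) / 2)))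
      atTop (𝓝 (4 * Real.pi * √2 * Real.exp (k / 2 - a ^ 2 / 8) * I₀ *
        Complex.exp (-(d + Complex.I * a / 2) ^ 2 / B)))

end Vale.Agent.P218F.K
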