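import Mathlib.Analysis.SpecialFunctions.Gaussian.GaussianIntegral
import Mathlib.Analysis.SpecialFunctions.JapaneseBracket
import Mathlib.MeasureTheory.Measure.Haar.NormedSpace

/-! Block K, leaf K-J, part 1: an oscillatory integral (two integrations by parts). -/

open Filter Topology Set MeasureTheory Metric

noncomputable section

namespace Vale.Agent.P218F.K.J

/-! ### Dominated convergence with a small error in the bound -/

theorem dct {ι : Type} {l : Filter ι} [l.IsCountablyGenerated] {F : ι → ℝ → ℂ} {f : ℝ → ℂ}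
    {D : ℝ → ℝ} {E : ι → ℝ → ℝ} (hD : Integrable D) (hD0 : ∀ t, 0 < D t)
    (hE : ∀ᶠ n in l, Integrable (E n) ∧ ∀ t, 0 ≤ E n t)
    (hE0 : Tendsto (fun n => ∫ t, E n t) l (𝓝 0))
    (hEp : ∀ᵐ t, Tendsto (fun n => E n t) l (𝓝 0))
    (hF : ∀ᶠ n in l, AEStronglyMeasurable (F n) volume)
    (hb : ∀ᶠ n in l, ∀ᵐ t, ‖F n t‖ ≤ D t + E n t)
    (hlim : ∀ᵐ t, Tendsto (fun n => F n t) l (𝓝 (f t))) :
    Tendsto (fun n => ∫ t, F n t) l (𝓝 (∫ t, f t)) := by
  set G : ι → ℝ → ℂ := fun n t => ((D t / (D t + E n t) : ℝ) : ℂ) * F n t with hG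
  have hGm : ∀ᶠ n in l, AEStronglyMeasurable (G n) volume := by
    filter_upwards [hE, hF] with n h1 h2
    refine AEStronglyMeasurable.mul ?_ h2
    refine Complex.continuous_ofReal.comp_aestronglyMeasurable ?_
    exact (hD.aemeasurable.div (hD.aemeasurable.add h1.1.aemeasurable)).aestronglyMeasurable
  have hGb : ∀ᶠ n in l, ∀ᵐ t, ‖G n t‖ ≤ D t := by
    filter_upwards [hE, hb] with n h1 h2
    filter_upwards [h2] with t ht
    have h3 : 0 < D t + E n t := by linarith [hD0 t, h1.2 t]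
    simp only [hG, norm_mul, Complex.norm_real, Real.norm_eq_abs]
    rw [abs_of_pos (div_pos (hD0 t) h3), div_mul_eq_mul_div, div_le_iff₀ h3]
    exact mul_le_mul_of_nonneg_left ht (hD0 t).le
  have hGl : ∀ᵐ t, Tendsto (fun n => G n t) l (𝓝 (f t)) := by
    filter_upwards [hEp, hlim] with t h1 h2
    have h3 : Tendsto (fun n => D t / (D t + E n t)) l (𝓝 (D t / (D t + 0))) :=
      tendsto_const_nhds.div (tendsto_const_nhds.add h1) (by simpa using (hD0 t).ne')
    rw [add_zero, div_self (hD0 t).ne'] at h3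
    have h4 := ((Complex.continuous_ofReal.tendsto _).comp h3).mul h2
    simpa [hG, Function.comp_def] using h4
  have h1 := tendsto_integral_filter_of_dominated_convergence D hGm hGb hD hGl
  have h2 : Tendsto (fun n => (∫ t, F n t) - ∫ t, G n t) l (𝓝 0) := by
    refine squeeze_zero_norm' ?_ hE0
    filter_upwards [hE, hF, hb, hGm, hGb] with n h1 h2 h3 h4 h5
    rw [← integral_sub ((hD.add h1.1).mono' h2 h3) (hD.mono' h4 h5)]
    refine norm_integral_le_of_norm_le h1.1 ?_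
    filter_upwards [h3] with t ht
    have h6 : 0 < D t + E n t := by linarith [hD0 t, h1.2 t]
    have h7 : F n t - G n t = ((E n t / (D t + E n t) : ℝ) : ℂ) * F n t := by
      have : (D t : ℂ) + E n t ≠ 0 := by exact_mod_cast h6.ne'
      simp only [hG]; push_cast; field_simp; ring
    rw [h7, norm_mul, Complex.norm_real, Real.norm_eq_abs,
      abs_of_nonneg (div_nonneg (h1.2 t) h6.le), div_mul_eq_mul_div, div_le_iff₀ h6]
    exact mul_le_mul_of_nonneg_left ht (h1.2 t)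
  simpa using h2.add h1

/-! ### The dominating functions -/

/-- the main dominating function -/
def Df (τ : ℝ) : ℝ := (1 + |τ|) ^ (-5 / 4 : ℝ)

/-- the dominating function of the errors -/
def Kf (x : ℝ) : ℝ := |x| ^ (-1 / 2 : ℝ) * Real.exp (-(1 / 8) * x ^ 2)

theorem Df_pos (τ : ℝ) : 0 < Df τ := Real.rpow_pos_of_pos (by positivity) _

theorem Kf_nonneg (x : ℝ) : 0 ≤ Kf x := by unfold Kf; positivity

theorem integrable_Df : Integrable Df := by
  have h := integrable_one_add_norm (E := ℝ) (μ := volume) (r := 5 / 4) (by simp; norm_num)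
  refine h.congr (Eventually.of_forall fun x => ?_)
  simp only [Df, Real.norm_eq_abs]; norm_num

theorem integrable_Kf : Integrable Kf := by
  have h := integrableOn_rpow_mul_exp_neg_mul_sq (b := 1 / 8) (by norm_num) (s := -1 / 2)
    (by norm_num)
  have h1 : IntegrableOn Kf (Ioi 0) :=
    h.congr_fun (fun x hx => by simp only [Kf, abs_of_pos (mem_Ioi.1 hx)]) measurableSet_Ioi
  have h2 : IntegrableOn Kf (Iic 0) := by
    rw [← Measure.map_neg_eq_self (volume : Measure ℝ)]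
    let m : MeasurableEmbedding fun x : ℝ => -x := (Homeomorph.neg ℝ).measurableEmbedding
    rw [m.integrableOn_map_iff]
    have : Kf ∘ (fun x : ℝ => -x) = Kf := by funext x; simp [Kf]
    rw [this]
    simp only [neg_preimage, neg_Iic, neg_zero]
    exact Iff.mpr integrableOn_Ici_iff_integrableOn_Ioi h1
  rw [← integrableOn_univ, ← Iic_union_Ioi (a := (0 : ℝ))]
  exact h2.union h1

theorem one_add_pow_four_le (b : ℝ) : (1 + |b|) ^ 4 * Real.exp (-(1 / 8) * b ^ 2) ≤ Real.exp 32 := by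
  have h1 : 1 + |b| ≤ Real.exp |b| := by linarith [Real.add_one_le_exp |b|]
  calc (1 + |b|) ^ 4 * Real.exp (-(1 / 8) * b ^ 2)
      ≤ Real.exp |b| ^ 4 * Real.exp (-(1 / 8) * b ^ 2) := by gcongr
    _ = Real.exp (4 * |b| - (1 / 8) * b ^ 2) := by
      rw [← Real.exp_nat_mul, ← Real.exp_add]; congr 1; push_cast; ring
    _ ≤ Real.exp 32 := by
      refine Real.exp_le_exp.2 ?_
      nlinarith [sq_nonneg (|b| - 16), sq_abs b]

/-- the constant of the Gaussian bounds -/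
def cA (a : ℝ) : ℝ := (1 + |a|) ^ 2 * Real.exp (32 + a ^ 2 / 16)

theorem cA_pos (a : ℝ) : 0 < cA a := by unfold cA; positivity

theorem one_add_shift_le (a b : ℝ) : 1 + |b - a / 2| ≤ (1 + |a|) * (1 + |b|) := by
  have h1 : |b - a / 2| ≤ |b| + |a| := by
    refine (abs_sub _ _).trans ?_
    rw [abs_div, abs_two]; linarith [abs_nonneg a]
  nlinarith [abs_nonneg a, abs_nonneg b, mul_nonneg (abs_nonneg a) (abs_nonneg b)]

theorem gauss_le {W : ℝ} (hW : 3 / 8 ≤ W) (a b : ℝ) :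
    (1 + |b - a / 2|) ^ 2 * (1 + |b|) ^ 2 * Real.exp (-W * b ^ 2) ≤
      cA a * Real.exp (-(1 / 8) * (b - a / 2) ^ 2) := by
  have h1 := one_add_shift_le a b
  have h2 : Real.exp (-W * b ^ 2) ≤ Real.exp (-(1 / 8) * b ^ 2) *
      (Real.exp (a ^ 2 / 16) * Real.exp (-(1 / 8) * (b - a / 2) ^ 2)) := by
    rw [← Real.exp_add, ← Real.exp_add]
    refine Real.exp_le_exp.2 ?_
    nlinarith [sq_nonneg (b + a / 2), sq_nonneg b, mul_nonneg (sub_nonneg.2 hW) (sq_nonneg b)]
  calc (1 + |b - a / 2|) ^ 2 * (1 + |b|) ^ 2 * Real.exp (-W * b ^ 2)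
      ≤ ((1 + |a|) * (1 + |b|)) ^ 2 * (1 + |b|) ^ 2 * (Real.exp (-(1 / 8) * b ^ 2) *
        (Real.exp (a ^ 2 / 16) * Real.exp (-(1 / 8) * (b - a / 2) ^ 2))) := by gcongr
    _ = (1 + |a|) ^ 2 * ((1 + |b|) ^ 4 * Real.exp (-(1 / 8) * b ^ 2)) *
        (Real.exp (a ^ 2 / 16) * Real.exp (-(1 / 8) * (b - a / 2) ^ 2)) := by ring
    _ ≤ (1 + |a|) ^ 2 * Real.exp 32 *
        (Real.exp (a ^ 2 / 16) * Real.exp (-(1 / 8) * (b - a / 2) ^ 2)) := by
      gcongr; exact one_add_pow_four_le b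
    _ = cA a * Real.exp (-(1 / 8) * (b - a / 2) ^ 2) := by
      rw [cA, Real.exp_add]; ring

/-! ### The oscillatory integral -/

/-- the weight `(1 + α |x|) ^ (-1/2)` -/
def wt (α x : ℝ) : ℝ := (1 + α * |x|) ^ (-1 / 2 : ℝ)

theorem wt_nonneg {α : ℝ} (hα : 0 ≤ α) (x : ℝ) : 0 ≤ wt α x := by unfold wt; positivity

theorem wt_le_one {α : ℝ} (hα : 0 ≤ α) (x : ℝ) : wt α x ≤ 1 :=
  Real.rpow_le_one_of_one_le_of_nonpos (by nlinarith [mul_nonneg hα (abs_nonneg x)]) (by norm_num)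

theorem wt_le {α x : ℝ} (hα : 0 < α) (hx : x ≠ 0) : wt α x ≤ |x| ^ (-1 / 2 : ℝ) / √α := by
  have h0 : 0 < α * |x| := mul_pos hα (abs_pos.2 hx)
  calc wt α x ≤ (α * |x|) ^ (-1 / 2 : ℝ) :=
        Real.rpow_le_rpow_of_nonpos h0 (by linarith) (by norm_num)
    _ = |x| ^ (-1 / 2 : ℝ) / √α := by
      rw [Real.mul_rpow hα.le (abs_nonneg x), Real.sqrt_eq_rpow, neg_div, Real.rpow_neg hα.le]
      ring

/-- hypotheses on the amplitude -/
structure Osc (a C c α H lam ε : ℝ) (h0 h1 h2 : ℝ → ℂ) : Prop where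
  one_le : 1 ≤ α
  lam_ge : α / 2 ≤ lam
  H_ge : c * α ≤ H
  eps : 0 ≤ ε
  d0 : ∀ β ∈ Icc (-H) H, HasDerivAt h0 (h1 β) β
  d1 : ∀ β ∈ Icc (-H) H, HasDerivAt h1 (h2 β) β
  c2 : ContinuousOn h2 (Icc (-H) H)
  b0 : ∀ β ∈ Icc (-H) H, ‖h0 β‖ ≤ C * α * (1 + |β - a / 2|) * wt α (β - a / 2)
  b1 : ∀ β ∈ Icc (-H) H, ‖h1 β‖ ≤ C * α * (1 + |β - a / 2|) * wt α (β - a / 2)
  b2 : ∀ β ∈ Icc (-H) H, ‖h2 β‖ ≤ α ^ 2 * (C * Df (α * (β - a / 2)) +
    ε / √α * (1 + |β - a / 2|) ^ 2 * wt α (β - a / 2))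

/-- Gaussian times oscillation -/
def ge (a W lam β : ℝ) : ℂ :=
  (Real.exp (-W * β ^ 2) : ℝ) * Complex.exp (Complex.I * lam * (β - a / 2))

theorem norm_ge (a W lam β : ℝ) : ‖ge a W lam β‖ = Real.exp (-W * β ^ 2) := by
  have : Complex.I * lam * (β - a / 2) = ((lam * (β - a / 2) : ℝ) : ℂ) * Complex.I := by
    push_cast; ring
  rw [ge, norm_mul, this, Complex.norm_exp_ofReal_mul_I, mul_one, Complex.norm_real,
    Real.norm_eq_abs, abs_of_pos (Real.exp_pos _)]

theorem hasDerivAt_ge (a W lam β : ℝ) :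
    HasDerivAt (ge a W lam) ((Complex.I * lam - 2 * W * β) * ge a W lam β) β := by
  have h1 : HasDerivAt (fun β : ℝ => Real.exp (-W * β ^ 2))
      (Real.exp (-W * β ^ 2) * (-W * (2 * β))) β := by
    have := ((hasDerivAt_pow 2 β).const_mul (-W)).exp
    simpa using this
  have h2 : HasDerivAt (fun β : ℝ => Complex.exp (Complex.I * lam * (β - a / 2)))
      (Complex.exp (Complex.I * lam * (β - a / 2)) * (Complex.I * lam)) β := by
    have h3 : HasDerivAt (fun β : ℝ => (β : ℂ)) 1 β := Complex.ofRealCLM.hasDerivAt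
    have := ((h3.sub_const ((a : ℂ) / 2)).const_mul (Complex.I * lam)).cexp
    simpa using this
  have := h1.ofReal_comp.mul h2
  refine this.congr_deriv ?_
  simp only [ge]; push_cast; ring

theorem continuous_ge (a W lam : ℝ) : Continuous (ge a W lam) :=
  continuous_iff_continuousAt.2 fun β => (hasDerivAt_ge a W lam β).continuousAt

/-- the oscillatory integral -/
def JJ (a W α H lam : ℝ) (h0 : ℝ → ℂ) : ℂ := α * ∫ β in (-H)..H, h0 β * ge a W lam β

/-- the integrand after two integrations by parts -/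
def G2 (a W lam : ℝ) (h0 h1 h2 : ℝ → ℂ) (β : ℝ) : ℂ :=
  -(h2 β - 4 * W * β * h1 β + (4 * W ^ 2 * β ^ 2 - 2 * W) * h0 β) / lam ^ 2 * ge a W lam β

/-- the boundary term -/
def Ph (a W lam : ℝ) (h0 h1 : ℝ → ℂ) (β : ℝ) : ℂ :=
  (-Complex.I * h0 β / lam + (h1 β - 2 * W * β * h0 β) / lam ^ 2) * ge a W lam β

/-- the rescaled integrand -/
def FF (a W α H lam : ℝ) (h0 h1 h2 : ℝ → ℂ) (τ : ℝ) : ℂ :=
  indicator (Ioc (-H) H) (G2 a W lam h0 h1 h2) (a / 2 + τ / α)

namespace Osc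

variable {a C c α H lam ε W : ℝ} {h0 h1 h2 : ℝ → ℂ}

theorem lam_pos (h : Osc a C c α H lam ε h0 h1 h2) : 0 < lam := by
  linarith [h.one_le, h.lam_ge]

theorem H_pos (h : Osc a C c α H lam ε h0 h1 h2) (hc : 0 < c) : 0 < H :=
  lt_of_lt_of_le (mul_pos hc (by linarith [h.one_le])) h.H_ge

theorem cont0 (h : Osc a C c α H lam ε h0 h1 h2) : ContinuousOn h0 (Icc (-H) H) :=
  fun β hβ => (h.d0 β hβ).continuousAt.continuousWithinAt

theorem cont1 (h : Osc a C c α H lam ε h0 h1 h2) : ContinuousOn h1 (Icc (-H) H) :=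
  fun β hβ => (h.d1 β hβ).continuousAt.continuousWithinAt

theorem contG (h : Osc a C c α H lam ε h0 h1 h2) (W : ℝ) :
    ContinuousOn (G2 a W lam h0 h1 h2) (Icc (-H) H) := by
  have e0 := h.cont0
  have e1 := h.cont1
  have e2 := h.c2
  have e3 := (continuous_ge a W lam).continuousOn (s := Icc (-H) H)
  have e4 : ContinuousOn (fun β : ℝ => (β : ℂ)) (Icc (-H) H) :=
    Complex.continuous_ofReal.continuousOn
  unfold G2
  fun_prop

theorem integral_FF (h : Osc a C c α H lam ε h0 h1 h2) (hc : 0 < c) (W : ℝ) :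
    ∫ τ, FF a W α H lam h0 h1 h2 τ = α * ∫ β in (-H)..H, G2 a W lam h0 h1 h2 β := by
  have hH := h.H_pos hc
  have hα : 0 < α := by linarith [h.one_le]
  have e1 := Measure.integral_comp_div
    (fun x => indicator (Ioc (-H) H) (G2 a W lam h0 h1 h2) (a / 2 + x)) α
  unfold FF
  rw [e1, integral_add_left_eq_self (indicator (Ioc (-H) H) (G2 a W lam h0 h1 h2)) (a / 2),
    integral_indicator measurableSet_Ioc, intervalIntegral.integral_of_le (by linarith),
    abs_of_pos hα, Complex.real_smul]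

theorem meas_FF (h : Osc a C c α H lam ε h0 h1 h2) (W : ℝ) :
    AEStronglyMeasurable (FF a W α H lam h0 h1 h2) volume := by
  have hα : 0 < α := by linarith [h.one_le]
  have e1 : Integrable (indicator (Ioc (-H) H) (G2 a W lam h0 h1 h2)) :=
    (integrable_indicator_iff measurableSet_Ioc).2
      (((h.contG W).integrableOn_Icc).mono_set Ioc_subset_Icc_self)
  exact ((e1.comp_add_left (a / 2)).comp_div hα.ne').aestronglyMeasurable

theorem ibp (h : Osc a C c α H lam ε h0 h1 h2) (hc : 0 < c) (W : ℝ) :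
    JJ a W α H lam h0 = (∫ τ, FF a W α H lam h0 h1 h2 τ) +
      α * (Ph a W lam h0 h1 H - Ph a W lam h0 h1 (-H)) := by
  have hH := h.H_pos hc
  have hl : (lam : ℂ) ≠ 0 := by exact_mod_cast h.lam_pos.ne'
  have hu : uIcc (-H) H = Icc (-H) H := uIcc_of_le (by linarith)
  have i1 : IntervalIntegrable (fun β => h0 β * ge a W lam β) volume (-H) H :=
    ContinuousOn.intervalIntegrable
      (hu ▸ h.cont0.mul (continuous_ge a W lam).continuousOn)
  have i2 : IntervalIntegrable (G2 a W lam h0 h1 h2) volume (-H) H :=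
    ContinuousOn.intervalIntegrable (hu ▸ h.contG W)
  have e1 : ∫ β in (-H)..H, (h0 β * ge a W lam β - G2 a W lam h0 h1 h2 β) =
      Ph a W lam h0 h1 H - Ph a W lam h0 h1 (-H) := by
    refine intervalIntegral.integral_eq_sub_of_hasDerivAt (fun β hβ => ?_) (i1.sub i2)
    rw [hu] at hβ
    have h3 : HasDerivAt (fun β : ℝ => (β : ℂ)) 1 β := Complex.ofRealCLM.hasDerivAt
    have d := ((((h.d0 β hβ).const_mul (-Complex.I)).div_const lam).add
      (((h.d1 β hβ).sub ((h3.const_mul (2 * (W : ℂ))).mul (h.d0 β hβ))).div_const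
        ((lam : ℂ) ^ 2))).mul (hasDerivAt_ge a W lam β)
    refine d.congr_deriv ?_
    simp only [G2, Pi.add_apply, Pi.sub_apply, Pi.mul_apply]
    field_simp
    ring_nf
    simp only [Complex.I_sq]
    ring
  rw [intervalIntegral.integral_sub i1 i2] at e1
  rw [JJ, h.integral_FF hc, ← e1]; ring

theorem norm_G2 (h : Osc a C c α H lam ε h0 h1 h2) (hC : 0 ≤ C) (hW : 3 / 8 ≤ W)
    (hW' : W ≤ 1 / 2) {β : ℝ} (hβ : β ∈ Icc (-H) H) (hx : β - a / 2 ≠ 0) :
    ‖G2 a W lam h0 h1 h2 β‖ ≤ 4 * C * Df (α * (β - a / 2)) +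
      4 * (ε + C / √α) * cA a * (Kf (β - a / 2) / α) := by
  have hα : 0 < α := by linarith [h.one_le]
  have hs : 0 < √α := Real.sqrt_pos.2 hα
  have hss : √α * √α = α := Real.mul_self_sqrt hα.le
  have hl := h.lam_pos
  set x := β - a / 2 with hxd
  set w := wt α x with hw
  have hw0 : 0 ≤ w := wt_nonneg hα.le x
  set g := Real.exp (-W * β ^ 2) with hg
  have hg0 : 0 < g := Real.exp_pos _
  have hg1 : g ≤ 1 := Real.exp_le_one_iff.2 (by nlinarith [sq_nonneg β])
  have hD := Df_pos (α * x)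
  have b0 := h.b0 β hβ
  have b1 := h.b1 β hβ
  have b2 := h.b2 β hβ
  have he := h.eps
  rw [← hxd, ← hw] at b0 b1 b2
  have n1 : ‖(4 * W * β : ℂ)‖ ≤ 2 * |β| := by
    have : (4 * W * β : ℂ) = ((4 * W * β : ℝ) : ℂ) := by push_cast; ring
    rw [this, Complex.norm_real, Real.norm_eq_abs, abs_mul, abs_of_pos (by linarith : 0 < 4 * W)]
    gcongr; linarith
  have n2 : ‖(4 * W ^ 2 * β ^ 2 - 2 * W : ℂ)‖ ≤ β ^ 2 + 1 := by
    have : (4 * W ^ 2 * β ^ 2 - 2 * W : ℂ) = ((4 * W ^ 2 * β ^ 2 - 2 * W : ℝ) : ℂ) := by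
      push_cast; ring
    rw [this, Complex.norm_real, Real.norm_eq_abs, abs_le]
    have h4 : 4 * W ^ 2 ≤ 1 := by nlinarith
    constructor <;> nlinarith [sq_nonneg β, mul_nonneg (sq_nonneg W) (sq_nonneg β),
      mul_le_mul_of_nonneg_right h4 (sq_nonneg β)]
  have n3 : ‖h2 β - 4 * W * β * h1 β + (4 * W ^ 2 * β ^ 2 - 2 * W) * h0 β‖ ≤
      α ^ 2 * (C * Df (α * x) + ε / √α * (1 + |x|) ^ 2 * w) +
        (1 + |β|) ^ 2 * (C * α * (1 + |x|) * w) := by
    refine (norm_add_le _ _).trans ((add_le_add (norm_sub_le _ _) le_rfl).trans ?_)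
    rw [norm_mul (4 * W * β : ℂ), norm_mul (4 * W ^ 2 * β ^ 2 - 2 * W : ℂ)]
    have e1 := mul_le_mul n1 b1 (norm_nonneg _) (by positivity)
    have e2 := mul_le_mul n2 b0 (norm_nonneg _) (by positivity)
    have e3 : (1 + |β|) ^ 2 = 2 * |β| + (β ^ 2 + 1) := by rw [← sq_abs β]; ring
    rw [e3]; linarith
  have n4 : 1 / lam ^ 2 ≤ 4 / α ^ 2 := by
    rw [div_le_div_iff₀ (by positivity) (by positivity)]
    nlinarith [h.lam_ge]
  have n5 : w / √α ≤ |x| ^ (-1 / 2 : ℝ) / α := by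
    have := wt_le hα hx
    rw [← hw] at this
    calc w / √α ≤ |x| ^ (-1 / 2 : ℝ) / √α / √α := by gcongr
      _ = _ := by rw [div_div, hss]
  have n6 := gauss_le hW a β
  rw [← hxd, ← hg] at n6
  have p1 : (1 : ℝ) ≤ 1 + |x| := by linarith [abs_nonneg x]
  have p2 : (1 : ℝ) ≤ (1 + |β|) ^ 2 := one_le_pow₀ (by linarith [abs_nonneg β])
  rw [G2, norm_mul, norm_div, norm_neg, norm_ge, norm_pow, Complex.norm_real, Real.norm_eq_abs,
    abs_of_pos hl, ← hg, div_eq_mul_one_div]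
  calc _ ≤ (α ^ 2 * (C * Df (α * x) + ε / √α * (1 + |x|) ^ 2 * w) +
        (1 + |β|) ^ 2 * (C * α * (1 + |x|) * w)) * (4 / α ^ 2) * g := by gcongr
    _ = 4 * C * Df (α * x) * g + 4 * (ε * ((1 + |x|) ^ 2 * 1) +
        C / √α * (((1 + |x|) * 1) * (1 + |β|) ^ 2)) * g * (w / √α) := by
      have e1 : C / √α * (w / √α) = C * w / α := by rw [div_mul_div_comm, hss]
      have e2 : (1 + |β|) ^ 2 * (C * α * (1 + |x|) * w) * (4 / α ^ 2) =
          4 * ((1 + |x|) * (1 + |β|) ^ 2) * (C * w / α) := by field_simp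
      have e3 : α ^ 2 * (C * Df (α * x) + ε / √α * (1 + |x|) ^ 2 * w) * (4 / α ^ 2) =
          4 * (C * Df (α * x) + ε / √α * (1 + |x|) ^ 2 * w) := by field_simp
      rw [add_mul, e2, e3, ← e1]; ring
    _ ≤ 4 * C * Df (α * x) * 1 + 4 * (ε * ((1 + |x|) ^ 2 * (1 + |β|) ^ 2) +
        C / √α * (((1 + |x|) * (1 + |x|)) * (1 + |β|) ^ 2)) * g *
          (|x| ^ (-1 / 2 : ℝ) / α) := by gcongr
    _ = 4 * C * Df (α * x) + 4 * (ε + C / √α) * ((1 + |x|) ^ 2 * (1 + |β|) ^ 2 * g) *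
          (|x| ^ (-1 / 2 : ℝ) / α) := by ring
    _ ≤ 4 * C * Df (α * x) + 4 * (ε + C / √α) * (cA a * Real.exp (-(1 / 8) * x ^ 2)) *
          (|x| ^ (-1 / 2 : ℝ) / α) := by gcongr
    _ = _ := by rw [Kf]; ring

theorem norm_FF (h : Osc a C c α H lam ε h0 h1 h2) (hC : 0 ≤ C) (hW : 3 / 8 ≤ W)
    (hW' : W ≤ 1 / 2) {τ : ℝ} (hτ : τ ≠ 0) :
    ‖FF a W α H lam h0 h1 h2 τ‖ ≤ (4 * C + 1) * Df τ +
      4 * (ε + C / √α) * cA a * (Kf (τ / α) / α) := by
  have hα : 0 < α := by linarith [h.one_le]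
  have e0 : 0 ≤ 4 * (ε + C / √α) * cA a * (Kf (τ / α) / α) := by
    have := h.eps; have := cA_pos a; have := Kf_nonneg (τ / α); positivity
  have hD := Df_pos τ
  unfold FF
  by_cases hm : a / 2 + τ / α ∈ Ioc (-H) H
  · rw [indicator_of_mem hm]
    have e1 : a / 2 + τ / α - a / 2 = τ / α := by ring
    have := h.norm_G2 hC hW hW' (Ioc_subset_Icc_self hm)
      (by rw [e1]; exact div_ne_zero hτ hα.ne')
    rw [e1, mul_div_cancel₀ τ hα.ne'] at this
    linarith
  · rw [indicator_of_notMem hm, norm_zero]; positivity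

theorem norm_Ph (h : Osc a C c α H lam ε h0 h1 h2) (hC : 0 ≤ C) (hc : 0 < c) (hW : 3 / 8 ≤ W)
    (hW' : W ≤ 1 / 2) {β : ℝ} (hβ : |β| = H) :
    α * ‖Ph a W lam h0 h1 β‖ ≤ 6 * C * (1 + |a|) * Real.exp 32 / c ^ 2 / α := by
  have hα1 := h.one_le
  have hα : 0 < α := by linarith
  have hl := h.lam_pos
  have hH := h.H_pos hc
  have hm : β ∈ Icc (-H) H := abs_le.1 hβ.le
  have hw := wt_le_one hα.le (β - a / 2)
  have hw0 := wt_nonneg hα.le (β - a / 2)
  have hs := one_add_shift_le a β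
  set m := C * α * ((1 + |a|) * (1 + |β|)) with hmd
  have hm0 : 0 ≤ m := by positivity
  have b0 : ‖h0 β‖ ≤ m := (h.b0 β hm).trans (by
    calc _ ≤ C * α * ((1 + |a|) * (1 + |β|)) * 1 := by gcongr
      _ = m := by ring)
  have b1 : ‖h1 β‖ ≤ m := (h.b1 β hm).trans (by
    calc _ ≤ C * α * ((1 + |a|) * (1 + |β|)) * 1 := by gcongr
      _ = m := by ring)
  have n1 : ‖(2 * W * β : ℂ)‖ ≤ |β| := by
    have : (2 * W * β : ℂ) = ((2 * W * β : ℝ) : ℂ) := by push_cast; ring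
    rw [this, Complex.norm_real, Real.norm_eq_abs, abs_mul, abs_of_pos (by linarith : 0 < 2 * W)]
    nlinarith [abs_nonneg β]
  have n2 : ‖h1 β - 2 * W * β * h0 β‖ ≤ (1 + |β|) * m := by
    refine (norm_sub_le _ _).trans ?_
    rw [norm_mul (2 * W * β : ℂ)]
    have := mul_le_mul n1 b0 (norm_nonneg _) (abs_nonneg _)
    linarith
  have n3 : 1 / lam ≤ 2 / α := by
    rw [div_le_div_iff₀ hl hα]; linarith [h.lam_ge]
  have n4 : 1 / lam ^ 2 ≤ 4 / α := by
    rw [div_le_div_iff₀ (by positivity) hα]; nlinarith [h.lam_ge]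
  have n5 : ‖-Complex.I * h0 β / lam + (h1 β - 2 * W * β * h0 β) / lam ^ 2‖ ≤
      6 / α * ((1 + |β|) * m) := by
    refine (norm_add_le _ _).trans ?_
    rw [norm_div, norm_div, norm_mul, norm_neg, Complex.norm_I, one_mul, norm_pow,
      Complex.norm_real, Real.norm_eq_abs, abs_of_pos hl, div_eq_mul_one_div,
      div_eq_mul_one_div ‖_ - _‖]
    have e1 : ‖h0 β‖ ≤ (1 + |β|) * m := b0.trans (by nlinarith [abs_nonneg β])
    calc _ ≤ (1 + |β|) * m * (2 / α) + (1 + |β|) * m * (4 / α) := by gcongr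
      _ = _ := by ring
  have n6 : Real.exp (-W * β ^ 2) ≤ Real.exp (-(1 / 8) * β ^ 2) :=
    Real.exp_le_exp.2 (by nlinarith [sq_nonneg β])
  have n7 := one_add_pow_four_le β
  have n8 : c * α ≤ 1 + |β| := by linarith [h.H_ge]
  rw [Ph, norm_mul, norm_ge, le_div_iff₀ hα, le_div_iff₀ (by positivity)]
  calc α * (‖-Complex.I * h0 β / lam + (h1 β - 2 * W * β * h0 β) / lam ^ 2‖ *
        Real.exp (-W * β ^ 2)) * α * c ^ 2
      ≤ α * (6 / α * ((1 + |β|) * m) * Real.exp (-(1 / 8) * β ^ 2)) * α * c ^ 2 := by gcongr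
    _ = 6 * C * (1 + |a|) * ((1 + |β|) ^ 2 * (c * α) ^ 2 * Real.exp (-(1 / 8) * β ^ 2)) := by
      rw [hmd]; field_simp
    _ ≤ 6 * C * (1 + |a|) * ((1 + |β|) ^ 2 * (1 + |β|) ^ 2 * Real.exp (-(1 / 8) * β ^ 2)) := by
      gcongr
    _ = 6 * C * (1 + |a|) * ((1 + |β|) ^ 4 * Real.exp (-(1 / 8) * β ^ 2)) := by ring
    _ ≤ _ := by gcongr

theorem norm_bdry (h : Osc a C c α H lam ε h0 h1 h2) (hC : 0 ≤ C) (hc : 0 < c) (hW : 3 / 8 ≤ W)
    (hW' : W ≤ 1 / 2) : ‖(α : ℂ) * (Ph a W lam h0 h1 H - Ph a W lam h0 h1 (-H))‖ ≤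
      12 * C * (1 + |a|) * Real.exp 32 / c ^ 2 / α := by
  have hα : 0 < α := by linarith [h.one_le]
  have hH := h.H_pos hc
  have e1 := h.norm_Ph hC hc hW hW' (β := H) (abs_of_pos hH)
  have e2 := h.norm_Ph hC hc hW hW' (β := -H) (by rw [abs_neg, abs_of_pos hH])
  rw [norm_mul, Complex.norm_real, Real.norm_eq_abs, abs_of_pos hα]
  calc _ ≤ α * (‖Ph a W lam h0 h1 H‖ + ‖Ph a W lam h0 h1 (-H)‖) := by
        gcongr; exact norm_sub_le _ _
    _ ≤ 2 * (6 * C * (1 + |a|) * Real.exp 32 / c ^ 2 / α) := by linarith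
    _ = _ := by ring

end Osc

theorem integrable_Kf_div {α : ℝ} (hα : 0 < α) (m : ℝ) :
    Integrable fun τ => m * (Kf (τ / α) / α) :=
  ((integrable_Kf.comp_div hα.ne').div_const α).const_mul m

theorem integral_Kf_div {α : ℝ} (hα : 0 < α) (m : ℝ) :
    ∫ τ, m * (Kf (τ / α) / α) = m * ∫ x, Kf x := by
  rw [integral_const_mul, integral_div, Measure.integral_comp_div, abs_of_pos hα, smul_eq_mul,
    mul_div_cancel_left₀ _ hα.ne']

theorem ae_ne_zero : ∀ᵐ τ : ℝ, τ ≠ 0 := by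
  simp [ae_iff]

/-- the uniform bound -/
theorem osc_bound {a C c W : ℝ} (hC : 0 ≤ C) (hc : 0 < c) (hW : 3 / 8 ≤ W) (hW' : W ≤ 1 / 2) :
    ∃ M : ℝ, ∀ (α H lam ε : ℝ) (h0 h1 h2 : ℝ → ℂ), Osc a C c α H lam ε h0 h1 h2 → ε ≤ 1 →
      ‖JJ a W α H lam h0‖ ≤ M := by
  refine ⟨(4 * C + 1) * (∫ τ, Df τ) + 4 * (1 + C) * cA a * (∫ x, Kf x) +
    12 * C * (1 + |a|) * Real.exp 32 / c ^ 2, fun α H lam ε h0 h1 h2 h hε => ?_⟩
  have hα1 := h.one_le
  have hα : 0 < α := by linarith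
  rw [h.ibp hc W]
  refine (norm_add_le _ _).trans (add_le_add ?_ ?_)
  · have i1 := integrable_Df.const_mul (4 * C + 1)
    have i2 := integrable_Kf_div hα (4 * (ε + C / √α) * cA a)
    refine (norm_integral_le_of_norm_le (i1.add i2) ?_).trans ?_
    · filter_upwards [ae_ne_zero] with τ hτ using h.norm_FF hC hW hW' hτ
    · simp only [Pi.add_apply]
      rw [integral_add i1 i2, integral_const_mul, integral_Kf_div hα]
      have e1 : 0 ≤ ∫ x, Kf x := integral_nonneg Kf_nonneg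
      have e2 : C / √α ≤ C := div_le_self hC (Real.one_le_sqrt.2 hα1)
      have := cA_pos a
      gcongr
  · exact (h.norm_bdry hC hc hW hW').trans (div_le_self (by positivity) hα1)

/-- the limit -/
theorem osc_lim {ι : Type} {l : Filter ι} [l.IsCountablyGenerated] {a C c W : ℝ} (hC : 0 ≤ C)
    (hc : 0 < c) (hW : 3 / 8 ≤ W) (hW' : W ≤ 1 / 2) {α H lam ε : ι → ℝ} {h0 h1 h2 : ι → ℝ → ℂ}
    {φ : ℝ → ℂ}
    (h : ∀ᶠ n in l, Osc a C c (α n) (H n) (lam n) (ε n) (h0 n) (h1 n) (h2 n))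
    (hα : Tendsto α l atTop) (hε : Tendsto ε l (𝓝 0))
    (hlam : Tendsto (fun n => lam n / α n) l (𝓝 1))
    (hφ : ∀ τ, Tendsto (fun n => h2 n (a / 2 + τ / α n) / (α n : ℂ) ^ 2) l (𝓝 (-φ τ))) :
    Tendsto (fun n => JJ a W (α n) (H n) (lam n) (h0 n)) l
      (𝓝 ((Real.exp (-W * (a / 2) ^ 2) : ℝ) * ∫ τ : ℝ, φ τ * Complex.exp (τ * Complex.I))) := by
  have hinv : Tendsto (fun n => (α n)⁻¹) l (𝓝 0) := hα.inv_tendsto_atTop
  have hsq : Tendsto (fun n => √(α n)) l atTop := Real.tendsto_sqrt_atTop.comp hα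
  have hm : Tendsto (fun n => 4 * (ε n + C / √(α n)) * cA a) l (𝓝 0) := by
    have := ((hε.add (tendsto_const_nhds (x := C).div_atTop hsq)).const_mul 4).mul_const (cA a)
    simpa using this
  have hb : Tendsto (fun n => (α n : ℂ) * (Ph a W (lam n) (h0 n) (h1 n) (H n) -
      Ph a W (lam n) (h0 n) (h1 n) (-H n))) l (𝓝 0) := by
    refine squeeze_zero_norm' (h.mono fun n hn => hn.norm_bdry hC hc hW hW') ?_
    exact tendsto_const_nhds.div_atTop hα
  have hF : Tendsto (fun n => ∫ τ, FF a W (α n) (H n) (lam n) (h0 n) (h1 n) (h2 n) τ) l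
      (𝓝 (∫ τ : ℝ, (Real.exp (-W * (a / 2) ^ 2) : ℝ) * (φ τ * Complex.exp (τ * Complex.I)))) := by
    refine dct (D := fun τ => (4 * C + 1) * Df τ)
      (E := fun n τ => 4 * (ε n + C / √(α n)) * cA a * (Kf (τ / α n) / α n))
      (integrable_Df.const_mul _) (fun τ => mul_pos (by linarith) (Df_pos τ)) ?_ ?_ ?_
      (h.mono fun n hn => hn.meas_FF W) ?_ (Eventually.of_forall fun τ => ?_)
    · filter_upwards [h] with n hn
      have h0 : 0 < α n := by linarith [hn.one_le]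
      refine ⟨integrable_Kf_div h0 _, fun τ => ?_⟩
      have := hn.eps; have := cA_pos a; have := Kf_nonneg (τ / α n); positivity
    · have := hm.mul_const (∫ x, Kf x)
      rw [zero_mul] at this
      refine this.congr' (h.mono fun n hn => ?_)
      exact (integral_Kf_div (by linarith [hn.one_le]) _).symm
    · filter_upwards [ae_ne_zero] with τ hτ
      have e1 := hm.mul_const (|τ| ^ (-1 / 2 : ℝ))
      rw [zero_mul] at e1
      refine squeeze_zero' ?_ ?_ e1
      · filter_upwards [h] with n hn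
        have h0 : 0 < α n := by linarith [hn.one_le]
        have := hn.eps; have := cA_pos a; have := Kf_nonneg (τ / α n); positivity
      · filter_upwards [h] with n hn
        have h1 := hn.one_le
        have h0 : 0 < α n := by linarith
        have := hn.eps; have := cA_pos a
        refine mul_le_mul_of_nonneg_left ?_ (by positivity)
        rw [div_le_iff₀ h0, Kf]
        have e2 : |τ / α n| ^ (-1 / 2 : ℝ) ≤ |τ| ^ (-1 / 2 : ℝ) * α n := by
          rw [abs_div, abs_of_pos h0, Real.div_rpow (abs_nonneg _) h0.le, neg_div,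
            Real.rpow_neg h0.le, div_inv_eq_mul]
          gcongr
          calc α n ^ (1 / 2 : ℝ) ≤ α n ^ (1 : ℝ) :=
                Real.rpow_le_rpow_of_exponent_le h1 (by norm_num)
            _ = α n := Real.rpow_one _
        have e3 : Real.exp (-(1 / 8) * (τ / α n) ^ 2) ≤ 1 :=
          Real.exp_le_one_iff.2 (by nlinarith [sq_nonneg (τ / α n)])
        calc _ ≤ |τ| ^ (-1 / 2 : ℝ) * α n * 1 := by gcongr
          _ = _ := mul_one _
    · filter_upwards [h] with n hn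
      filter_upwards [ae_ne_zero] with τ hτ using hn.norm_FF hC hW hW' hτ
    · have hx : Tendsto (fun n => τ / α n) l (𝓝 0) := tendsto_const_nhds.div_atTop hα
      have hβ : Tendsto (fun n => a / 2 + τ / α n) l (𝓝 (a / 2)) := by
        simpa using hx.const_add (a / 2)
      have hH : Tendsto H l atTop :=
        tendsto_atTop_mono' l (h.mono fun n hn => hn.H_ge) (hα.const_mul_atTop hc)
      have hmem : ∀ᶠ n in l, a / 2 + τ / α n ∈ Ioc (-H n) (H n) := by
        filter_upwards [hβ.eventually (Ioo_mem_nhds (show -(|a| + 1) < a / 2 by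
          linarith [neg_abs_le a, abs_nonneg a]) (show a / 2 < |a| + 1 by
          linarith [le_abs_self a, abs_nonneg a])), hH.eventually_ge_atTop (|a| + 1)] with n h1 h2
        exact ⟨by linarith [h1.1], by linarith [h1.2]⟩
      have hsmall : ∀ g : ι → ℝ → ℂ, (∀ᶠ n in l, ‖g n (a / 2 + τ / α n)‖ ≤
          C * α n * (1 + |a / 2 + τ / α n - a / 2|) * wt (α n) (a / 2 + τ / α n - a / 2)) →
          Tendsto (fun n => g n (a / 2 + τ / α n) / (α n : ℂ) ^ 2) l (𝓝 0) := by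
        intro g hg
        have e1 : Tendsto (fun n => C * (1 + |τ / α n|) * (α n)⁻¹) l (𝓝 (C * (1 + |0|) * 0)) :=
          ((hx.abs.const_add 1).const_mul C).mul hinv
        rw [mul_zero] at e1
        refine squeeze_zero_norm' ?_ e1
        filter_upwards [h, hg] with n hn h1
        have h0 : 0 < α n := by linarith [hn.one_le]
        rw [add_sub_cancel_left] at h1
        rw [norm_div, norm_pow, Complex.norm_real, Real.norm_eq_abs, abs_of_pos h0,
          div_le_iff₀ (by positivity)]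
        have := wt_le_one h0.le (τ / α n)
        calc _ ≤ C * α n * (1 + |τ / α n|) * wt (α n) (τ / α n) := h1
          _ ≤ C * α n * (1 + |τ / α n|) * 1 := by gcongr
          _ = _ := by field_simp
      have s0 := hsmall h0 (by
        filter_upwards [h, hmem] with n hn h1 using hn.b0 _ (Ioc_subset_Icc_self h1))
      have s1 := hsmall h1 (by
        filter_upwards [h, hmem] with n hn h1 using hn.b1 _ (Ioc_subset_Icc_self h1))
      have cβ : Tendsto (fun n => ((a / 2 + τ / α n : ℝ) : ℂ)) l (𝓝 ((a / 2 : ℝ) : ℂ)) :=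
        (Complex.continuous_ofReal.tendsto _).comp hβ
      have cl : Tendsto (fun n => ((lam n / α n : ℝ) : ℂ)) l (𝓝 ((1 : ℝ) : ℂ)) :=
        (Complex.continuous_ofReal.tendsto _).comp hlam
      have cg : Tendsto (fun n => ((Real.exp (-W * (a / 2 + τ / α n) ^ 2) : ℝ) : ℂ)) l
          (𝓝 ((Real.exp (-W * (a / 2) ^ 2) : ℝ) : ℂ)) :=
        (Complex.continuous_ofReal.tendsto _).comp (((hβ.pow 2).const_mul (-W)).rexp)
      have ce := ((cl.const_mul (τ * Complex.I)).cexp)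
      have tot := (((((hφ τ).sub ((cβ.const_mul (4 * W : ℂ)).mul s1)).add
        ((((cβ.pow 2).const_mul (4 * W ^ 2 : ℂ)).sub_const (2 * W : ℂ)).mul s0)).neg).div
        (cl.pow 2) (by simp)).mul (cg.mul ce)
      have e9 : -(-φ τ - 4 * (W : ℂ) * ((a / 2 : ℝ) : ℂ) * 0 +
          (4 * (W : ℂ) ^ 2 * ((a / 2 : ℝ) : ℂ) ^ 2 - 2 * W) * 0) / ((1 : ℝ) : ℂ) ^ 2 *
          (((Real.exp (-W * (a / 2) ^ 2) : ℝ) : ℂ) * Complex.exp (τ * Complex.I * ((1 : ℝ) : ℂ))) =
          (Real.exp (-W * (a / 2) ^ 2) : ℝ) * (φ τ * Complex.exp (τ * Complex.I)) := by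
        simp only [Complex.ofReal_one, mul_one, mul_zero, one_pow]; ring
      rw [e9] at tot
      refine tot.congr' ?_
      filter_upwards [h, hmem] with n hn h1
      have h0 : (α n : ℂ) ≠ 0 := by
        have : 0 < α n := by linarith [hn.one_le]
        exact_mod_cast this.ne'
      have h3 : (lam n : ℂ) ≠ 0 := by exact_mod_cast hn.lam_pos.ne'
      have e8 : Complex.I * lam n * (((a / 2 + τ / α n : ℝ) : ℂ) - a / 2) =
          τ * Complex.I * ((lam n / α n : ℝ) : ℂ) := by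
        push_cast; field_simp; ring
      simp only [FF, indicator_of_mem h1, G2, ge, e8, Pi.div_apply]
      congr 1
      rw [Complex.ofReal_div (lam n)]
      field_simp
  rw [integral_const_mul] at hF
  have := hF.add hb
  rw [add_zero] at this
  exact this.congr' (h.mono fun n hn => (hn.ibp hc W).symm)

end Vale.Agent.P218F.K.J
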