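import Vale.Agent.P218F.KSpec
import Vale.Agent.P218F.KBasic
import Vale.Agent.P218F.KJ1
import Mathlib.Analysis.Complex.Liouville

/-! Block K, leaf K-J: the contour integral of a tied end. -/

open Filter Topology Set MeasureTheory Metric

noncomputable section

namespace Vale.Agent.P218F.K.J

/-! ### The tip coordinate along the contour -/

theorem eventually_atSec {κ₀ : ℝ} {p : ℂ → Prop} (h : ∀ᶠ ω in atSec κ₀, p ω) :
    ∃ ω₁ : ℝ, ∀ ω ∈ Sec ω₁ κ₀, p ω := by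
  rw [atSec, eventually_inf_principal, eventually_comap, eventually_atTop] at h
  obtain ⟨ω₁, h⟩ := h
  exact ⟨ω₁, fun ω hω => h ω.re hω.1.le ω rfl hω.2⟩

theorem Sec_mono {ω₀ ω₁ κ₀ : ℝ} (h : ω₀ ≤ ω₁) : Sec ω₁ κ₀ ⊆ Sec ω₀ κ₀ :=
  fun _ hω => ⟨lt_of_le_of_lt h hω.1, hω.2⟩

/-- the square of the normal form coordinate -/
theorem tied_sq {κ₀ a k : ℝ} {P : ℂ → ℂ} (h : Tied κ₀ P a k) :
    ∃ (ω₀ : ℝ) (u : ℂ → ℂ), DifferentiableOn ℂ u (Sec ω₀ κ₀) ∧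
      (∀ ω ∈ Sec ω₀ κ₀, P ω = -1 / u ω ∧ ‖u ω - (ω - Complex.I * a / 2) ^ 2‖ ≤ |k| + 1) ∧
      Tendsto (fun ω => u ω - (ω - Complex.I * a / 2) ^ 2) (atSec κ₀) (𝓝 (-(k : ℂ))) := by
  obtain ⟨ω₀, w, hw, hP, hl⟩ := h
  have hre : Tendsto Complex.re (atSec κ₀) atTop := tendsto_comap.mono_left inf_le_left
  have hinv : Tendsto (fun ω : ℂ => ω⁻¹) (atSec κ₀) (𝓝 0) := by
    refine tendsto_inv₀_cobounded.comp (tendsto_norm_atTop_iff_cobounded.1 ?_)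
    exact tendsto_atTop_mono (fun ω => Complex.re_le_norm ω) hre
  have h1 := hl.mul hinv
  have h2 : Tendsto (fun ω => w ω ^ 2 - (ω - Complex.I * a / 2) ^ 2) (atSec κ₀) (𝓝 (-(k : ℂ))) := by
    have h3 := ((hl.const_mul 2).sub (h1.const_mul (Complex.I * a))).add (h1.pow 2)
    have h4 : 2 * (-(k : ℂ) / 2) - Complex.I * a * (-(k : ℂ) / 2 * 0) +
        (-(k : ℂ) / 2 * 0) ^ 2 = -k := by ring
    rw [h4] at h3
    refine h3.congr' ?_
    filter_upwards [hre.eventually_gt_atTop 0] with ω hω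
    have : ω ≠ 0 := fun h => by simp [h] at hω
    field_simp
    ring
  have h5 : ∀ᶠ ω in atSec κ₀, ‖w ω ^ 2 - (ω - Complex.I * a / 2) ^ 2‖ ≤ |k| + 1 := by
    have := h2.norm
    rw [norm_neg, Complex.norm_real, Real.norm_eq_abs] at this
    exact this.eventually (eventually_le_nhds (by linarith))
  obtain ⟨ω₁, h5⟩ := eventually_atSec h5
  refine ⟨max ω₀ ω₁, fun ω => w ω ^ 2, (hw.mono (Sec_mono (le_max_left _ _))).pow 2,
    fun ω hω => ⟨hP ω (Sec_mono (le_max_left _ _) hω), h5 ω (Sec_mono (le_max_right _ _) hω)⟩, h2⟩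

theorem pt_sub (α β a : ℝ) : pt α β - Complex.I * a / 2 = pt α (β - a / 2) := by
  simp only [pt]; push_cast; ring

theorem pt_re (α β : ℝ) : (pt α β).re = α := by simp [pt]

theorem pt_im (α β : ℝ) : (pt α β).im = β := by simp [pt]

theorem norm_pt_sq (α β : ℝ) : ‖pt α β‖ ^ 2 = α ^ 2 + β ^ 2 := by
  rw [Complex.sq_norm, Complex.normSq_apply, pt_re, pt_im]; ring

theorem le_norm_pt (α β : ℝ) : α ≤ ‖pt α β‖ := by
  simpa [pt_re] using Complex.re_le_norm (pt α β)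

theorem it2 (f : ℂ → ℂ) : iteratedDeriv 2 f = deriv (deriv f) := by
  rw [iteratedDeriv_succ, iteratedDeriv_one]

/-- what is needed about the tip coordinate `S` at the point `α + i β`, `x = β - a / 2` -/
structure GeoAt (S : ℂ → ℂ) (ω : ℂ) (α x Q K E L : ℝ) : Prop where
  ana : AnalyticAt ℂ S ω
  re : L ≤ (S ω).re
  lo : α * |x| / 8 - (E + 4 * K) ≤ ‖S ω‖
  hi : ‖S ω‖ ≤ α * |x| + (E + 4 * K)
  d1 : ‖deriv S ω - 2 * Q / pt α x ^ 3‖ ≤ 4 * K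
  d1' : ‖deriv S ω‖ ≤ 2 * α
  d2 : ‖deriv (deriv S) ω‖ ≤ 3 + 8 * K

theorem main_bounds {α x Q : ℝ} (hα : 0 < α) (hx : |x| ≤ α) (hQ : α ^ 4 / 8 ≤ Q)
    (hQ' : Q ≤ α ^ 4 / 2) :
    0 ≤ ((Q : ℂ) * (1 / (α : ℂ) ^ 2 - 1 / pt α x ^ 2)).re ∧
      α * |x| / 8 ≤ ‖(Q : ℂ) * (1 / (α : ℂ) ^ 2 - 1 / pt α x ^ 2)‖ ∧
      ‖(Q : ℂ) * (1 / (α : ℂ) ^ 2 - 1 / pt α x ^ 2)‖ ≤ α * |x| := by
  have hQ0 : 0 < Q := lt_of_lt_of_le (by positivity) hQ
  have hz := le_norm_pt α x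
  have hz0 : 0 < ‖pt α x‖ := by linarith
  have hz1 : pt α x ≠ 0 := norm_pos_iff.1 hz0
  have hα1 : (α : ℂ) ≠ 0 := by exact_mod_cast hα.ne'
  have e1 : (Q : ℂ) * (1 / (α : ℂ) ^ 2 - 1 / pt α x ^ 2) =
      Q * (x * Complex.I) * (pt α x + α) / (α ^ 2 * pt α x ^ 2) := by
    have : (x : ℂ) * Complex.I = pt α x - α := by simp [pt]
    rw [this]; field_simp; ring
  have e2 : ‖(Q : ℂ) * (1 / (α : ℂ) ^ 2 - 1 / pt α x ^ 2)‖ =
      Q * |x| * ‖pt α x + α‖ / (α ^ 2 * ‖pt α x‖ ^ 2) := by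
    rw [e1]
    simp [abs_of_pos hQ0]
  refine ⟨?_, ?_, ?_⟩
  · rw [Complex.re_ofReal_mul, Complex.sub_re]
    refine mul_nonneg hQ0.le (sub_nonneg.2 ?_)
    have e3 : (1 / (α : ℂ) ^ 2).re = 1 / α ^ 2 := by
      rw [← Complex.ofReal_pow, ← Complex.ofReal_one, ← Complex.ofReal_div, Complex.ofReal_re]
    rw [e3]
    refine (Complex.re_le_norm _).trans ?_
    rw [norm_div, norm_one, norm_pow]
    gcongr
  · rw [e2, le_div_iff₀ (by positivity), norm_pt_sq]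
    have e3 : 2 * α ≤ ‖pt α x + α‖ := by
      have := Complex.re_le_norm (pt α x + α)
      simp only [Complex.add_re, pt_re, Complex.ofReal_re] at this
      linarith
    have e4 : x ^ 2 ≤ α ^ 2 := by rw [← sq_abs x]; gcongr
    calc α * |x| / 8 * (α ^ 2 * (α ^ 2 + x ^ 2)) ≤ α * |x| / 8 * (α ^ 2 * (α ^ 2 + α ^ 2)) := by
          gcongr
      _ = α ^ 4 / 8 * |x| * (2 * α) := by ring
      _ ≤ _ := by gcongr
  · rw [e2, div_le_iff₀ (by positivity)]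
    have e3 : ‖pt α x + α‖ ≤ 2 * ‖pt α x‖ := by
      refine (norm_add_le _ _).trans ?_
      rw [Complex.norm_real, Real.norm_eq_abs, abs_of_pos hα]; linarith
    calc Q * |x| * ‖pt α x + α‖ ≤ α ^ 4 / 2 * |x| * (2 * ‖pt α x‖) := by gcongr
      _ = α * |x| * (α ^ 2 * (α * ‖pt α x‖)) := by ring
      _ ≤ α * |x| * (α ^ 2 * (‖pt α x‖ * ‖pt α x‖)) := by gcongr
      _ = _ := by ring

theorem geoAt {u S : ℂ → ℂ} {a α β Q K E L e : ℝ} (hK : 1 ≤ K) (hα : 4 * K ≤ α)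
    (hx : |β - a / 2| ≤ α) (hQ : α ^ 4 / 8 ≤ Q) (hQ' : Q ≤ α ^ 4 / 2) (he : L + 4 * K ≤ e)
    (he' : |e| ≤ E) (hu : DifferentiableOn ℂ u (closedBall (pt α β) 1))
    (hb : ∀ ω ∈ closedBall (pt α β) 1, ‖u ω - (ω - Complex.I * a / 2) ^ 2‖ ≤ K)
    (hS : ∀ ω ∈ closedBall (pt α β) 1, S ω = e + Q * (1 / (α : ℂ) ^ 2 - 1 / u ω)) :
    GeoAt S (pt α β) α (β - a / 2) Q K E L := by
  have hα0 : 0 < α := by linarith
  have hQ0 : 0 < Q := lt_of_lt_of_le (by positivity) hQ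
  set z : ℂ → ℂ := fun ω => ω - Complex.I * a / 2 with hz
  have hz1 : ∀ ω ∈ closedBall (pt α β) 1, α ^ 2 / 2 ≤ ‖z ω‖ ^ 2 := by
    intro ω hω
    have e1 : |(ω - pt α β).re| ≤ 1 :=
      (Complex.abs_re_le_norm _).trans (by rwa [mem_closedBall, dist_eq_norm] at hω)
    have e2 : (z ω).re = ω.re := by simp [hz]
    have e3 := Complex.re_le_norm (z ω)
    rw [Complex.sub_re, pt_re, abs_le] at e1
    have e4 : 3 / 4 * α ≤ ‖z ω‖ := by linarith [e1.1]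
    nlinarith
  have hz0 : ∀ ω ∈ closedBall (pt α β) 1, z ω ≠ 0 := fun ω hω h => by
    have := hz1 ω hω
    rw [h, norm_zero] at this
    nlinarith
  have hu1 : ∀ ω ∈ closedBall (pt α β) 1, α ^ 2 / 4 ≤ ‖u ω‖ := by
    intro ω hω
    have e1 := norm_sub_norm_le (z ω ^ 2) (u ω)
    rw [norm_sub_rev, norm_pow] at e1
    have := hb ω hω
    nlinarith [hz1 ω hω]
  have hu0 : ∀ ω ∈ closedBall (pt α β) 1, u ω ≠ 0 := fun ω hω h => by
    have := hu1 ω hω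
    rw [h, norm_zero] at this
    nlinarith
  set D : ℂ → ℂ := fun ω => Q * (1 / z ω ^ 2 - 1 / u ω) with hD
  have hzd : ∀ ω, HasDerivAt z 1 ω := fun ω => (hasDerivAt_id ω).sub_const _
  have hDd : DifferentiableOn ℂ D (closedBall (pt α β) 1) := by
    refine (DifferentiableOn.sub ?_ ?_).const_mul _
    · exact (differentiableOn_const 1).div
        (fun ω _ => ((hzd ω).differentiableAt.pow 2).differentiableWithinAt)
        fun ω hω => pow_ne_zero 2 (hz0 ω hω)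
    · exact (differentiableOn_const 1).div hu hu0
  have hDb : ∀ ω ∈ closedBall (pt α β) 1, ‖D ω‖ ≤ 4 * K := by
    intro ω hω
    have e1 : D ω = Q * (u ω - z ω ^ 2) / (z ω ^ 2 * u ω) := by
      have := hz0 ω hω; have := hu0 ω hω
      simp only [hD]; field_simp
    have e2 := hz1 ω hω
    have e3 := hu1 ω hω
    rw [e1, norm_div, norm_mul, norm_mul, norm_pow, Complex.norm_real, Real.norm_eq_abs,
      abs_of_pos hQ0, div_le_iff₀ (mul_pos (by nlinarith) (by nlinarith))]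
    calc Q * ‖u ω - z ω ^ 2‖ ≤ α ^ 4 / 2 * K := by gcongr; exact hb ω hω
      _ = 4 * K * (α ^ 2 / 2 * (α ^ 2 / 4)) := by ring
      _ ≤ _ := by gcongr
  have hDc : DiffContOnCl ℂ D (ball (pt α β) 1) := by
    refine DifferentiableOn.diffContOnCl ?_
    rwa [closure_ball _ one_ne_zero]
  have hD1 := Complex.norm_deriv_le_of_forall_mem_sphere_norm_le one_pos hDc
    fun ω hω => hDb ω (sphere_subset_closedBall hω)
  have hD2 := Complex.norm_iteratedDeriv_le_of_forall_mem_sphere_norm_le 2 one_pos hDc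
    fun ω hω => hDb ω (sphere_subset_closedBall hω)
  rw [it2] at hD2
  have hDa : AnalyticOnNhd ℂ D (ball (pt α β) 1) :=
    (hDd.mono ball_subset_closedBall).analyticOnNhd isOpen_ball
  have hSD : ∀ ω ∈ closedBall (pt α β) 1,
      S ω = e + Q * (1 / (α : ℂ) ^ 2 - 1 / z ω ^ 2) + D ω := by
    intro ω hω; rw [hS ω hω]; simp only [hD]; ring
  have hS1 : ∀ ω ∈ ball (pt α β) 1, HasDerivAt S (2 * Q / z ω ^ 3 + deriv D ω) ω := by
    intro ω hω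
    have h0 := hz0 ω (ball_subset_closedBall hω)
    have e1 := ((((((hzd ω).fun_pow 2).fun_inv (pow_ne_zero 2 h0)).const_sub
      (1 / (α : ℂ) ^ 2)).const_mul (Q : ℂ)).const_add (e : ℂ)).fun_add
      (hDa ω hω).differentiableAt.hasDerivAt
    refine (e1.congr_deriv ?_).congr_of_eventuallyEq ?_
    · simp only [Nat.cast_ofNat, Nat.add_one_sub_one, pow_one]; field_simp
    · filter_upwards [isOpen_ball.mem_nhds hω] with ω' hω'
      rw [hSD ω' (ball_subset_closedBall hω'), one_div (z ω' ^ 2)]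
  have hc : pt α β ∈ ball (pt α β) 1 := mem_ball_self one_pos
  have hzc : z (pt α β) = pt α (β - a / 2) := pt_sub α β a
  have hn := le_norm_pt α (β - a / 2)
  have hn0 : 0 < ‖pt α (β - a / 2)‖ := by linarith
  have hS2 : HasDerivAt (deriv S) (-6 * Q / z (pt α β) ^ 4 + deriv (deriv D) (pt α β)) (pt α β) := by
    have h0 := hz0 _ (ball_subset_closedBall hc)
    have e1 := ((((hzd (pt α β)).fun_pow 3).fun_inv (pow_ne_zero 3 h0)).const_mul
      (2 * (Q : ℂ))).fun_add (hDa _ hc).deriv.differentiableAt.hasDerivAt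
    refine (e1.congr_deriv ?_).congr_of_eventuallyEq ?_
    · simp only [Nat.cast_ofNat, Nat.add_one_sub_one]; field_simp; ring
    · filter_upwards [isOpen_ball.mem_nhds hc] with ω' hω'
      rw [(hS1 ω' hω').deriv, div_eq_mul_inv]
  obtain ⟨m1, m2, m3⟩ := main_bounds hα0 hx hQ hQ'
  have hSc := hSD _ (ball_subset_closedBall hc)
  rw [hzc] at hSc
  have hDc0 := hDb _ (ball_subset_closedBall hc)
  have hen : ‖(e : ℂ)‖ ≤ E := by rwa [Complex.norm_real, Real.norm_eq_abs]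
  have d1 : ‖deriv S (pt α β) - 2 * Q / pt α (β - a / 2) ^ 3‖ ≤ 4 * K := by
    rw [(hS1 _ hc).deriv, hzc, add_sub_cancel_left]; simpa using hD1
  refine ⟨?_, ?_, ?_, ?_, d1, ?_, ?_⟩
  · exact DifferentiableOn.analyticAt
      (fun ω hω => (hS1 ω hω).differentiableAt.differentiableWithinAt) (isOpen_ball.mem_nhds hc)
  · rw [hSc, Complex.add_re, Complex.add_re, Complex.ofReal_re]
    have := (Complex.abs_re_le_norm (D (pt α β))).trans hDc0
    linarith [(abs_le.1 this).1]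
  · have e1 : (Q : ℂ) * (1 / (α : ℂ) ^ 2 - 1 / pt α (β - a / 2) ^ 2) =
        S (pt α β) - e - D (pt α β) := by rw [hSc]; ring
    rw [e1] at m2
    have e2 := norm_sub_le (S (pt α β) - e) (D (pt α β))
    have e3 := norm_sub_le (S (pt α β)) e
    linarith
  · rw [hSc]
    refine (norm_add_le _ _).trans ((add_le_add (norm_add_le _ _) le_rfl).trans ?_)
    linarith
  · have e1 : ‖(2 * Q / pt α (β - a / 2) ^ 3 : ℂ)‖ ≤ α := by
      rw [norm_div, norm_mul, norm_pow, Complex.norm_real, Real.norm_eq_abs, abs_of_pos hQ0,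
        div_le_iff₀ (by positivity)]
      calc ‖(2 : ℂ)‖ * Q ≤ 2 * (α ^ 4 / 2) := by rw [Complex.norm_two]; gcongr
        _ = α * α ^ 3 := by ring
        _ ≤ _ := by gcongr
    have e2 := norm_sub_norm_le (deriv S (pt α β)) (2 * Q / pt α (β - a / 2) ^ 3)
    linarith
  · rw [hS2.deriv, hzc]
    have e1 : ‖(-6 * Q / pt α (β - a / 2) ^ 4 : ℂ)‖ ≤ 3 := by
      rw [norm_div, norm_mul, norm_pow, Complex.norm_real, Real.norm_eq_abs, abs_of_pos hQ0,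
        div_le_iff₀ (by positivity)]
      calc ‖(-6 : ℂ)‖ * Q ≤ 6 * (α ^ 4 / 2) := by
            rw [norm_neg, show ‖(6 : ℂ)‖ = 6 by simp]; gcongr
        _ = 3 * α ^ 4 := by ring
        _ ≤ _ := by gcongr
    refine (norm_add_le _ _).trans (add_le_add e1 (hD2.trans (le_of_eq ?_)))
    simp [Nat.factorial]; ring

/-! ### The amplitude -/

/-- the amplitude -/
def am0 (b S : ℂ → ℂ) (α β : ℝ) : ℂ := b (S (pt α β))

/-- its first derivative -/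
def am1 (b S : ℂ → ℂ) (α β : ℝ) : ℂ := deriv b (S (pt α β)) * deriv S (pt α β) * Complex.I

/-- its second derivative -/
def am2 (b S : ℂ → ℂ) (α β : ℝ) : ℂ :=
  -(iteratedDeriv 2 b (S (pt α β)) * deriv S (pt α β) ^ 2 +
    deriv b (S (pt α β)) * deriv (deriv S) (pt α β))

/-- the bounds of the boundary term at one point -/
def BAt (b : ℂ → ℂ) (s : ℂ) (C η r : ℝ) : Prop :=
  AnalyticAt ℂ b s ∧ ‖b s‖ ≤ C * ‖s‖ ^ (1 / 2 : ℝ) ∧
    ‖deriv b s‖ ≤ C * ‖s‖ ^ (-1 / 2 : ℝ) * (1 + ‖s‖ / r) ∧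
    ‖iteratedDeriv 2 b s‖ ≤
      C * ‖s‖ ^ (-5 / 4 : ℝ) + η / √r * ‖s‖ ^ (-1 / 2 : ℝ) * (1 + ‖s‖ / r) ^ 2

theorem hasDerivAt_pt (α β : ℝ) : HasDerivAt (pt α) Complex.I β := by
  have h3 : HasDerivAt (fun β : ℝ => (β : ℂ)) 1 β := Complex.ofRealCLM.hasDerivAt
  exact ((h3.mul_const Complex.I).const_add (α : ℂ)).congr_deriv (one_mul _)

theorem line_deriv {f : ℂ → ℂ} {f' : ℂ} {α β : ℝ} (h : HasDerivAt f f' (pt α β)) :
    HasDerivAt (fun β => f (pt α β)) (f' * Complex.I) β := by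
  simpa [Function.comp_def, mul_comm] using h.scomp β (hasDerivAt_pt α β)

theorem rpow_neg_le {A s M p : ℝ} (hA : 0 < A) (hM : 1 ≤ M) (h : A ≤ M * s)
    (hp : p ≤ 0) {n : ℕ} (hn : -p ≤ n) : s ^ p ≤ M ^ n * A ^ p := by
  have hM0 : 0 < M := by linarith
  calc s ^ p ≤ (A / M) ^ p :=
        Real.rpow_le_rpow_of_nonpos (div_pos hA hM0) (by rwa [div_le_iff₀' hM0]) hp
    _ = M ^ (-p) * A ^ p := by
      rw [Real.div_rpow hA.le hM0.le, Real.rpow_neg hM0.le]; ring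
    _ ≤ M ^ n * A ^ p := by
      gcongr
      rw [← Real.rpow_natCast]
      exact Real.rpow_le_rpow_of_exponent_le hM hn

theorem GeoAt.cmp {S : ℂ → ℂ} {ω : ℂ} {α x Q K E L r M : ℝ} (h : GeoAt S ω α x Q K E L)
    (hK : 1 ≤ K) (hE : 0 ≤ E) (hL : 1 ≤ L) (hα : 1 ≤ α) (hr : α ≤ r)
    (hM : M = 9 + 8 * (E + 4 * K)) :
    ‖S ω‖ ^ (1 / 2 : ℝ) ≤ M * α * (1 + |x|) * wt α x ∧ ‖S ω‖ ^ (-1 / 2 : ℝ) ≤ M * wt α x ∧
      ‖S ω‖ ^ (-5 / 4 : ℝ) ≤ M ^ 2 * Df (α * x) ∧ 1 + ‖S ω‖ / r ≤ 2 * M * (1 + |x|) := by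
  have hs1 : 1 ≤ ‖S ω‖ := hL.trans (h.re.trans (Complex.re_le_norm _))
  have hM1 : 1 ≤ M := by linarith
  have hx0 : 0 ≤ α * |x| := by positivity
  have hA : 0 < 1 + α * |x| := by linarith
  have e1 : 1 + α * |x| ≤ M * ‖S ω‖ := by
    have := h.lo
    nlinarith [mul_le_mul_of_nonneg_left hs1 (by linarith : 0 ≤ 1 + 8 * (E + 4 * K))]
  have e2 : ‖S ω‖ ≤ M * (1 + α * |x|) := by
    have := h.hi
    nlinarith [mul_le_mul_of_nonneg_right hM1 hx0]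
  have e3 : 1 + α * |x| ≤ α * (1 + |x|) := by linarith
  have e4 : ‖S ω‖ ^ (-1 / 2 : ℝ) ≤ M * wt α x := by
    simpa [wt] using rpow_neg_le hA hM1 e1 (p := -1 / 2) (by norm_num) (n := 1)
      (by norm_num)
  refine ⟨?_, e4, ?_, ?_⟩
  · calc ‖S ω‖ ^ (1 / 2 : ℝ) ≤ (M * (1 + α * |x|)) ^ (1 / 2 : ℝ) := by gcongr
      _ = M ^ (1 / 2 : ℝ) * ((1 + α * |x|) * wt α x) := by
        rw [Real.mul_rpow (by linarith) hA.le, wt, ← Real.rpow_one_add' hA.le (by norm_num)]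
        norm_num
      _ ≤ M * (α * (1 + |x|) * wt α x) := by
        have := wt_nonneg (by linarith : 0 ≤ α) x
        gcongr
        calc M ^ (1 / 2 : ℝ) ≤ M ^ (1 : ℝ) := Real.rpow_le_rpow_of_exponent_le hM1 (by norm_num)
          _ = M := Real.rpow_one M
      _ = _ := by ring
  · have := rpow_neg_le hA hM1 e1 (p := -5 / 4) (by norm_num) (n := 2) (by norm_num)
    rwa [Df, abs_mul, abs_of_pos (by linarith : 0 < α)]
  · have e5 : ‖S ω‖ / r ≤ M * (1 + |x|) := by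
      rw [div_le_iff₀ (by linarith)]
      calc ‖S ω‖ ≤ M * (α * (1 + |x|)) := e2.trans (by gcongr)
        _ ≤ M * (r * (1 + |x|)) := by gcongr
        _ = _ := by ring
    nlinarith [abs_nonneg x]

theorem osc_of {b S : ℂ → ℂ} {a α Q K E L r M C η c H lam : ℝ} (hK : 1 ≤ K) (hE : 0 ≤ E)
    (hL : 1 ≤ L) (hα : 1 ≤ α) (hr : α ≤ r) (hM : M = 9 + 8 * (E + 4 * K)) (hC : 0 ≤ C)
    (hη : 0 ≤ η) (hlam : α / 2 ≤ lam) (hH : c * α ≤ H)
    (hg : ∀ β ∈ Icc (-H) H, GeoAt S (pt α β) α (β - a / 2) Q K E L)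
    (hb : ∀ β ∈ Icc (-H) H, BAt b (S (pt α β)) C η r) :
    Osc a (4 * C * M ^ 2) c α H lam (16 * M ^ 3 * η + 2 * C * M ^ 2 * (3 + 8 * K) / α)
      (am0 b S α) (am1 b S α) (am2 b S α) := by
  have hM1 : 1 ≤ M := by linarith
  have hα0 : 0 < α := by linarith
  have hK0 : 0 < K := by linarith
  have hM0 : 0 < M := by linarith
  have hb1 : ∀ β ∈ Icc (-H) H, ‖deriv b (S (pt α β))‖ ≤
      C * (M * wt α (β - a / 2)) * (2 * M * (1 + |β - a / 2|)) := by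
    intro β hβ
    obtain ⟨-, c2, -, c4⟩ := (hg β hβ).cmp hK hE hL hα hr hM
    have := wt_nonneg hα0.le (β - a / 2)
    have h0 : 0 ≤ 1 + ‖S (pt α β)‖ / r := by
      have : 0 < r := by linarith
      positivity
    exact (hb β hβ).2.2.1.trans (by gcongr)
  refine ⟨hα, hlam, hH, by positivity, fun β hβ => ?_, fun β hβ => ?_, fun β hβ => ?_,
    fun β hβ => ?_, fun β hβ => ?_, fun β hβ => ?_⟩
  · exact line_deriv ((hb β hβ).1.differentiableAt.hasDerivAt.comp _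
      (hg β hβ).ana.differentiableAt.hasDerivAt)
  · have e1 := (((hb β hβ).1.deriv.differentiableAt.hasDerivAt.comp _
      (hg β hβ).ana.differentiableAt.hasDerivAt).fun_mul
      (hg β hβ).ana.deriv.differentiableAt.hasDerivAt).mul_const Complex.I
    refine (line_deriv e1).congr_deriv ?_
    simp only [am2, it2, Function.comp_apply]
    linear_combination (deriv (deriv b) (S (pt α β)) * deriv S (pt α β) ^ 2 +
      deriv b (S (pt α β)) * deriv (deriv S) (pt α β)) * Complex.I_sq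
  · have e0 := (hasDerivAt_pt α β).continuousAt
    have e1 := (hg β hβ).ana.continuousAt.comp e0
    have e2 := (hg β hβ).ana.deriv.continuousAt.comp e0
    have e3 := (hg β hβ).ana.deriv.deriv.continuousAt.comp e0
    have e4 := ContinuousAt.comp (f := S ∘ pt α) (hb β hβ).1.deriv.continuousAt e1
    have e5 := ContinuousAt.comp (f := S ∘ pt α) (hb β hβ).1.deriv.deriv.continuousAt e1
    have e6 := ((e5.mul (e2.pow 2)).add (e4.mul e3)).neg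
    refine ContinuousAt.continuousWithinAt ?_
    unfold am2
    simp only [it2]
    exact e6
  · obtain ⟨c1, -, -, -⟩ := (hg β hβ).cmp hK hE hL hα hr hM
    have := wt_nonneg hα0.le (β - a / 2)
    calc ‖am0 b S α β‖ ≤ C * (M * α * (1 + |β - a / 2|) * wt α (β - a / 2)) :=
          (hb β hβ).2.1.trans (by gcongr)
      _ = 1 * C * (M * 1) * α * (1 + |β - a / 2|) * wt α (β - a / 2) := by ring
      _ ≤ 4 * C * (M * M) * α * (1 + |β - a / 2|) * wt α (β - a / 2) := by gcongr; norm_num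
      _ = _ := by ring
  · have := wt_nonneg hα0.le (β - a / 2)
    rw [am1, norm_mul, norm_mul, Complex.norm_I, mul_one]
    calc _ ≤ C * (M * wt α (β - a / 2)) * (2 * M * (1 + |β - a / 2|)) * (2 * α) :=
          mul_le_mul (hb1 β hβ) (hg β hβ).d1' (norm_nonneg _) (by positivity)
      _ = _ := by ring
  · obtain ⟨-, c2, c3, c4⟩ := (hg β hβ).cmp hK hE hL hα hr hM
    set x := β - a / 2
    set w := wt α x
    have hw : 0 ≤ w := wt_nonneg hα0.le x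
    have hD := Df_pos (α * x)
    have hs : 0 < √α := Real.sqrt_pos.2 hα0
    have h0 : 0 ≤ 1 + ‖S (pt α β)‖ / r := by
      have : 0 < r := by linarith
      positivity
    have e1 : ‖iteratedDeriv 2 b (S (pt α β))‖ ≤
        C * (M ^ 2 * Df (α * x)) + η / √α * (M * w) * (2 * M * (1 + |x|)) ^ 2 :=
      (hb β hβ).2.2.2.trans (by gcongr)
    have e2 := (hg β hβ).d1'
    have e3 := (hg β hβ).d2
    have e4 := hb1 β hβ
    have e5 : 1 ≤ α / √α := by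
      rw [le_div_iff₀ hs, one_mul, Real.sqrt_le_left hα0.le]; nlinarith
    have e6 : (1 : ℝ) ≤ 1 + |x| := by linarith [abs_nonneg x]
    rw [am2, norm_neg]
    refine (norm_add_le _ _).trans ?_
    rw [norm_mul, norm_mul, norm_pow]
    calc _ ≤ (C * (M ^ 2 * Df (α * x)) + η / √α * (M * w) * (2 * M * (1 + |x|)) ^ 2) *
          (2 * α) ^ 2 + C * (M * w) * (2 * M * (1 + |x|)) * (3 + 8 * K) := by gcongr
      _ = α ^ 2 * (4 * C * M ^ 2 * Df (α * x) + 16 * M ^ 3 * η / √α * (1 + |x|) ^ 2 * w) +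
          2 * C * M ^ 2 * (3 + 8 * K) * 1 * ((1 + |x|) * 1) * w := by ring
      _ ≤ α ^ 2 * (4 * C * M ^ 2 * Df (α * x) + 16 * M ^ 3 * η / √α * (1 + |x|) ^ 2 * w) +
          2 * C * M ^ 2 * (3 + 8 * K) * (α / √α) * ((1 + |x|) * (1 + |x|)) * w := by gcongr
      _ = _ := by field_simp; ring

/-! ### The abscissa of the contour -/

/-- the logarithmic correction -/
def vv (Λ r : ℝ) : ℝ := 2 * Real.log (r ^ 2) + Λ

theorem vv_nonneg {Λ r : ℝ} (hΛ : 0 ≤ Λ) (hr : 1 ≤ r) : 0 ≤ vv Λ r := by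
  have := Real.log_nonneg (one_le_pow₀ hr : 1 ≤ r ^ 2)
  unfold vv; linarith

theorem al_sq {Λ r : ℝ} (hΛ : 0 ≤ Λ) (hr : 1 ≤ r) : al Λ r ^ 2 = r ^ 2 / 2 + vv Λ r := by
  have := vv_nonneg hΛ hr
  rw [al, Real.sq_sqrt (by unfold vv at this; nlinarith), vv]; ring

theorem al_nonneg (Λ r : ℝ) : 0 ≤ al Λ r := Real.sqrt_nonneg _

theorem half_le_al {Λ r : ℝ} (hΛ : 0 ≤ Λ) (hr : 1 ≤ r) : r / 2 ≤ al Λ r := by
  refine (pow_le_pow_iff_left₀ (by linarith) (al_nonneg Λ r) two_ne_zero).1 ?_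
  rw [al_sq hΛ hr]; nlinarith [vv_nonneg hΛ hr]

theorem tendsto_vv (Λ : ℝ) : Tendsto (fun r => vv Λ r / r) atTop (𝓝 0) := by
  have h1 := (Real.isLittleO_log_id_atTop.tendsto_div_nhds_zero.const_mul 4).add
    (tendsto_const_nhds (x := Λ).div_atTop tendsto_id)
  rw [mul_zero, add_zero] at h1
  refine h1.congr fun r => ?_
  simp only [vv, Real.log_pow, id]; push_cast; ring

theorem tendsto_al {Λ : ℝ} (hΛ : 0 ≤ Λ) : Tendsto (al Λ) atTop atTop :=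
  tendsto_atTop_mono' _ ((eventually_ge_atTop 1).mono fun _ hr => half_le_al hΛ hr)
    (tendsto_id.atTop_div_const two_pos)

theorem tendsto_vv_al {Λ : ℝ} (hΛ : 0 ≤ Λ) :
    Tendsto (fun r => vv Λ r / al Λ r) atTop (𝓝 0) := by
  have h1 := (tendsto_vv Λ).const_mul 2
  rw [mul_zero] at h1
  refine squeeze_zero' ?_ ?_ h1
  · filter_upwards [eventually_ge_atTop 1] with r hr
    exact div_nonneg (vv_nonneg hΛ hr) (al_nonneg _ _)
  · filter_upwards [eventually_ge_atTop 1] with r hr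
    have := vv_nonneg hΛ hr
    calc vv Λ r / al Λ r ≤ vv Λ r / (r / 2) := by gcongr; exact half_le_al hΛ hr
      _ = _ := by field_simp

theorem al_le {Λ : ℝ} (hΛ : 0 ≤ Λ) : ∀ᶠ r in atTop, al Λ r ≤ r := by
  filter_upwards [eventually_ge_atTop 1,
    (tendsto_vv Λ).eventually (eventually_le_nhds (by norm_num : (0 : ℝ) < 1 / 2))] with r hr h
  refine (pow_le_pow_iff_left₀ (al_nonneg Λ r) (by linarith) two_ne_zero).1 ?_
  rw [div_le_iff₀ (by linarith)] at h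
  rw [al_sq hΛ hr]; nlinarith

theorem tendsto_ratio_sq {Λ : ℝ} (hΛ : 0 ≤ Λ) :
    Tendsto (fun r => (r / al Λ r) ^ 2) atTop (𝓝 2) := by
  have h1 := (((tendsto_vv_al hΛ).mul (tendsto_al hΛ).inv_tendsto_atTop).const_sub 1).const_mul 2
  rw [mul_zero, sub_zero, mul_one] at h1
  refine h1.congr' ?_
  filter_upwards [eventually_ge_atTop 1] with r hr
  have h0 : 0 < al Λ r := by linarith [half_le_al hΛ hr]
  have h2 := al_sq hΛ hr
  simp only [Pi.inv_apply]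
  field_simp
  linarith

theorem tendsto_ratio {Λ : ℝ} (hΛ : 0 ≤ Λ) : Tendsto (fun r => r / al Λ r) atTop (𝓝 √2) := by
  refine (tendsto_ratio_sq hΛ).sqrt.congr' ?_
  filter_upwards [eventually_ge_atTop 0] with r hr
  exact Real.sqrt_sq (div_nonneg hr (al_nonneg _ _))

/-- the real part of the tip coordinate at the centre of the contour -/
def ee (Λ r : ℝ) : ℝ := Λ / 2 - (vv Λ r / al Λ r) ^ 2 / 2

theorem tendsto_ee {Λ : ℝ} (hΛ : 0 ≤ Λ) : Tendsto (ee Λ) atTop (𝓝 (Λ / 2)) := by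
  have := (((tendsto_vv_al hΛ).pow 2).div_const 2).const_sub (Λ / 2)
  rw [show Λ / 2 - (0 : ℝ) ^ 2 / 2 = Λ / 2 by norm_num] at this
  exact this

theorem sOf_eq {Λ r : ℝ} (hΛ : 0 ≤ Λ) (hr : 1 ≤ r) (u : ℂ) :
    sOf r (-1 / u) = ee Λ r + (r ^ 4 / 8 : ℝ) * (1 / (al Λ r : ℂ) ^ 2 - 1 / u) := by
  have h0 : 0 < al Λ r := by linarith [half_le_al hΛ hr]
  have h2 := al_sq hΛ hr
  have h3 : ee Λ r + r ^ 4 / 8 * (1 / al Λ r ^ 2) = r ^ 2 / 4 - Real.log (r ^ 2) := by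
    have h4 : Real.log (r ^ 2) = (vv Λ r - Λ) / 2 := by unfold vv; ring
    have h5 : r ^ 4 = (2 * (al Λ r ^ 2 - vv Λ r)) ^ 2 := by rw [h2]; ring
    have h6 : r ^ 2 = 2 * (al Λ r ^ 2 - vv Λ r) := by rw [h2]; ring
    rw [h4, h5, h6, ee]; field_simp; ring
  have h7 := congrArg (fun x : ℝ => (x : ℂ)) h3
  simp only [sOf] at h7 ⊢
  push_cast at h7 ⊢
  linear_combination -h7

theorem cOf_sOf' {r : ℝ} (hr : r ≠ 0) (c : ℂ) : cOf r (sOf r c) = c := by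
  have : (r : ℂ) ≠ 0 := by exact_mod_cast hr
  simp only [cOf, sOf]; field_simp; ring

theorem geo_line {κ₀ κ₁ a ω₀ K L Λ : ℝ} {P u : ℂ → ℂ} (hκ₀ : κ₀ ≤ 1 / 2) (hκ₁ : 0 < κ₁)
    (hκ : κ₁ < κ₀) (hK : 1 ≤ K) (hL : 1 ≤ L) (hΛ : 2 * (L + 4 * K + 1) ≤ Λ)
    (hu : DifferentiableOn ℂ u (Sec ω₀ κ₀))
    (hP : ∀ ω ∈ Sec ω₀ κ₀, P ω = -1 / u ω ∧ ‖u ω - (ω - Complex.I * a / 2) ^ 2‖ ≤ K) :
    ∀ᶠ r in atTop, ∀ β : ℝ, |β| ≤ κ₁ * al Λ r →
      GeoAt (fun ω => sOf r (P ω)) (pt (al Λ r) β) (al Λ r) (β - a / 2) (r ^ 4 / 8 : ℝ) K (Λ / 2) L ∧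
        P (pt (al Λ r) β) ∈ Om L 3 r := by
  have hΛ0 : 0 ≤ Λ := by linarith
  have hal := tendsto_al hΛ0
  filter_upwards [eventually_ge_atTop 1, al_le hΛ0, hal.eventually_ge_atTop (4 * K),
    hal.eventually_ge_atTop |a|, hal.eventually_gt_atTop (ω₀ + 1),
    hal.eventually_gt_atTop (2 / (κ₀ - κ₁)),
    (tendsto_ee hΛ0).eventually (eventually_ge_nhds (by linarith : Λ / 2 - 1 < Λ / 2)),
    eventually_mem_Om_of_edge L] with r hr h1 h2 h3 h4 h5 h6 h7 β hβ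
  set α := al Λ r with hα
  have hα0 : 0 < α := by linarith
  have hsq : α ^ 2 = r ^ 2 / 2 + vv Λ r := al_sq hΛ0 hr
  have hv := vv_nonneg hΛ0 hr
  have hball : closedBall (pt α β) 1 ⊆ Sec ω₀ κ₀ := by
    intro ω hω
    rw [mem_closedBall, dist_eq_norm] at hω
    have e1 := abs_le.1 ((Complex.abs_re_le_norm _).trans hω)
    have e2 := abs_le.1 ((Complex.abs_im_le_norm _).trans hω)
    rw [Complex.sub_re, pt_re] at e1
    rw [Complex.sub_im, pt_im] at e2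
    rw [div_lt_iff₀ (by linarith)] at h5
    refine ⟨by linarith [e1.1], ?_⟩
    have e3 : |ω.im| ≤ κ₁ * α + 1 := by
      rw [abs_le] at hβ ⊢
      constructor <;> linarith [e2.1, e2.2, hβ.1, hβ.2]
    have e4 : κ₀ * (α - 1) ≤ κ₀ * ω.re := by
      refine mul_le_mul_of_nonneg_left (by linarith [e1.1]) (by linarith)
    nlinarith
  have hx : |β - a / 2| ≤ α := by
    refine (abs_sub _ _).trans ?_
    rw [abs_div, abs_two]
    nlinarith
  have hle : ee Λ r ≤ Λ / 2 := by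
    unfold ee; nlinarith [sq_nonneg (vv Λ r / al Λ r)]
  refine ⟨geoAt (u := u) (e := ee Λ r) hK h2 hx ?_ ?_ (by linarith) ?_ (hu.mono hball)
    (fun ω hω => (hP ω (hball hω)).2) fun ω hω => ?_, ?_⟩
  · have : α ^ 4 ≤ r ^ 4 := by gcongr
    linarith
  · have e1 : r ^ 2 ≤ 2 * α ^ 2 := by linarith
    have e2 : (r ^ 2) ^ 2 ≤ (2 * α ^ 2) ^ 2 := by gcongr
    nlinarith
  · rw [abs_of_nonneg (by linarith)]; exact hle
  · rw [(hP ω (hball hω)).1, sOf_eq hΛ0 hr]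
  · obtain ⟨e1, e2⟩ := hP _ (hball (mem_closedBall_self zero_le_one))
    have e3 := norm_sub_norm_le ((pt α β - Complex.I * a / 2) ^ 2) (u (pt α β))
    rw [norm_sub_rev, norm_pow, pt_sub, norm_pt_sq] at e3
    rw [pt_sub] at e2
    have e4 : α ^ 2 - K ≤ ‖u (pt α β)‖ := by nlinarith [sq_nonneg (β - a / 2)]
    have e5 : 4 * K ≤ α ^ 2 := by nlinarith
    have e6 : ‖P (pt α β)‖ ≤ 1 / (α ^ 2 - K) := by
      rw [e1, norm_div, norm_neg, norm_one]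
      gcongr
      linarith
    refine h7 _ (α ^ 2 - K) 3 (by rw [hsq, vv]; linarith) (Or.inl e6) ?_ le_rfl
    refine lt_of_le_of_lt (mul_le_mul_of_nonneg_right e6 (sq_nonneg r)) ?_
    rw [div_mul_eq_mul_div, div_lt_iff₀ (by linarith)]
    linarith

/-- the limit of the tip coordinate and of its derivative near the saddle -/
theorem geo_lim {κ₀ κ₁ a k ω₀ K L Λ : ℝ} {P u : ℂ → ℂ} (hκ₁ : 0 < κ₁) (hκ : κ₁ < κ₀)
    (hΛ : 0 ≤ Λ) (hP : ∀ ω ∈ Sec ω₀ κ₀, P ω = -1 / u ω)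
    (hl : Tendsto (fun ω => u ω - (ω - Complex.I * a / 2) ^ 2) (atSec κ₀) (𝓝 (-(k : ℂ))))
    (hg : ∀ᶠ r in atTop, ∀ β : ℝ, |β| ≤ κ₁ * al Λ r → GeoAt (fun ω => sOf r (P ω))
      (pt (al Λ r) β) (al Λ r) (β - a / 2) (r ^ 4 / 8 : ℝ) K (Λ / 2) L) (τ : ℝ) :
    (∀ᶠ r in atTop, |a / 2 + τ / al Λ r| ≤ κ₁ * al Λ r) ∧
    Tendsto (fun r => sOf r (P (pt (al Λ r) (a / 2 + τ / al Λ r)))) atTop
      (𝓝 (((Λ - k) / 2 : ℝ) + τ * Complex.I)) ∧
    Tendsto (fun r => deriv (fun ω => sOf r (P ω)) (pt (al Λ r) (a / 2 + τ / al Λ r)) / al Λ r)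
      atTop (𝓝 1) := by
  have hal := tendsto_al hΛ
  have hx : Tendsto (fun r => τ / al Λ r) atTop (𝓝 0) := tendsto_const_nhds.div_atTop hal
  have hβ : Tendsto (fun r => |a / 2 + τ / al Λ r|) atTop (𝓝 |a / 2|) := by
    simpa using (hx.const_add (a / 2)).abs
  have hm : ∀ᶠ r in atTop, |a / 2 + τ / al Λ r| ≤ κ₁ * al Λ r := by
    filter_upwards [hβ.eventually (eventually_le_nhds (lt_add_one _)),
      (hal.const_mul_atTop hκ₁).eventually_ge_atTop (|a / 2| + 1)] with r h1 h2 using h1.trans h2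
  have hpos : ∀ᶠ r in atTop, 0 < al Λ r := hal.eventually_gt_atTop 0
  have hsec : Tendsto (fun r => pt (al Λ r) (a / 2 + τ / al Λ r)) atTop (atSec κ₀) := by
    refine tendsto_inf.2 ⟨tendsto_comap_iff.2 (hal.congr fun r => (pt_re _ _).symm),
      tendsto_principal.2 ?_⟩
    filter_upwards [hm, hpos] with r h1 h2
    simp only [pt_re, pt_im]
    exact lt_of_le_of_lt h1 (mul_lt_mul_of_pos_right hκ h2)
  have hin : ∀ᶠ r in atTop, pt (al Λ r) (a / 2 + τ / al Λ r) ∈ Sec ω₀ κ₀ := by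
    filter_upwards [hm, hpos, hal.eventually_gt_atTop ω₀] with r h1 h2 h3
    simp only [Sec, mem_ofPred_eq, pt_re, pt_im]
    exact ⟨h3, lt_of_le_of_lt h1 (mul_lt_mul_of_pos_right hκ h2)⟩
  have hμ := hl.comp hsec
  have c := Complex.continuous_ofReal.tendsto
  have hi : Tendsto (fun r => (((al Λ r)⁻¹ : ℝ) : ℂ)) atTop (𝓝 0) :=
    (c 0).comp hal.inv_tendsto_atTop
  have hq : Tendsto (fun r => ((((r / al Λ r) ^ 2) ^ 2 / 8 : ℝ) : ℂ)) atTop (𝓝 (1 / 2)) := by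
    have := (c _).comp (((tendsto_ratio_sq hΛ).pow 2).div_const 8)
    have e : (((2 : ℝ) ^ 2 / 8 : ℝ) : ℂ) = 1 / 2 := by norm_num
    rwa [e] at this
  have hζ : Tendsto (fun r => 1 + τ * Complex.I * (((al Λ r)⁻¹ : ℝ) : ℂ) ^ 2) atTop (𝓝 1) := by
    simpa using ((hi.pow 2).const_mul (τ * Complex.I)).const_add 1
  have hz : ∀ r, 0 < al Λ r → pt (al Λ r) (τ / al Λ r) =
      al Λ r * (1 + τ * Complex.I * (((al Λ r)⁻¹ : ℝ) : ℂ) ^ 2) := by
    intro r hr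
    have : (al Λ r : ℂ) ≠ 0 := by exact_mod_cast hr.ne'
    simp only [pt]; push_cast; field_simp
  refine ⟨hm, ?_, ?_⟩
  · have hu := (hζ.pow 2).add (hμ.mul (hi.pow 2))
    have t1 := ((c _).comp (tendsto_ee hΛ)).add (hq.mul
      ((((hζ.add_const 1).const_mul (τ * Complex.I)).add hμ).div hu (by simp)))
    have e : ((Λ / 2 : ℝ) : ℂ) + 1 / 2 * ((τ * Complex.I * (1 + 1) + -(k : ℂ)) /
        (1 ^ 2 + -(k : ℂ) * 0 ^ 2)) = ((Λ - k) / 2 : ℝ) + τ * Complex.I := by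
      push_cast; ring
    rw [e] at t1
    refine t1.congr' ?_
    filter_upwards [hin, hpos, eventually_ge_atTop 1, hu.eventually_ne (by simp : _ ≠ (0 : ℂ))]
      with r h1 h2 h3 h4
    have h5 : (al Λ r : ℂ) ≠ 0 := by exact_mod_cast h2.ne'
    simp only [Function.comp_apply, Pi.div_apply, pt_sub, add_sub_cancel_left, hz r h2] at h4 ⊢
    rw [hP _ h1, sOf_eq hΛ h3]
    set U := u (pt (al Λ r) (a / 2 + τ / al Λ r))
    set ζ := 1 + τ * Complex.I * (((al Λ r)⁻¹ : ℝ) : ℂ) ^ 2 with hζd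
    have h6 : ζ ^ 2 + (U - (al Λ r * ζ) ^ 2) * (((al Λ r)⁻¹ : ℝ) : ℂ) ^ 2 = U / al Λ r ^ 2 := by
      push_cast; field_simp; ring
    rw [h6] at h4 ⊢
    have h7 : U ≠ 0 := fun h => h4 (by rw [h, zero_div])
    have h8 : τ * Complex.I = (al Λ r : ℂ) ^ 2 * (ζ - 1) := by
      rw [hζd]; push_cast; field_simp; ring
    rw [h8]; push_cast; field_simp; ring
  · have t1 := (hq.const_mul 2).div (hζ.pow 3) (by simp)
    have e : (2 : ℂ) * (1 / 2) / 1 ^ 3 = 1 := by norm_num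
    rw [e] at t1
    have t2 : Tendsto (fun r => (deriv (fun ω => sOf r (P ω)) (pt (al Λ r) (a / 2 + τ / al Λ r)) -
        2 * (r ^ 4 / 8 : ℝ) / pt (al Λ r) (τ / al Λ r) ^ 3) / al Λ r) atTop (𝓝 0) := by
      refine squeeze_zero_norm' ?_ (tendsto_const_nhds (x := 4 * K).div_atTop hal)
      filter_upwards [hg, hm, hpos] with r h1 h2 h3
      have := (h1 _ h2).d1
      rw [add_sub_cancel_left] at this
      rw [norm_div, Complex.norm_real, Real.norm_eq_abs, abs_of_pos h3]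
      gcongr
    have t3 := t2.add t1
    rw [zero_add] at t3
    refine t3.congr' ?_
    filter_upwards [hpos, hζ.eventually_ne one_ne_zero] with r h2 h3
    have h5 : (al Λ r : ℂ) ≠ 0 := by exact_mod_cast h2.ne'
    simp only [Pi.div_apply, hz r h2]
    set ζ := 1 + τ * Complex.I * (((al Λ r)⁻¹ : ℝ) : ℂ) ^ 2
    push_cast; field_simp; ring

/-! ### The contour integral -/

theorem ker_pt {B : ℝ} (hB : B ≠ 0) (a A α β : ℝ) : ker B A (pt α β) =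
    (Real.exp (α ^ 2 / 2 - (α - A) ^ 2 / B) : ℝ) *
      Complex.exp (Complex.I * (α - 2 * (α - A) / B : ℝ) * a / 2) *
        ge a (1 / 2 - 1 / B) (α - 2 * (α - A) / B) β := by
  have : (B : ℂ) ≠ 0 := by exact_mod_cast hB
  simp only [ker, ge, pt, Complex.ofReal_exp]
  rw [← Complex.exp_add, ← Complex.exp_add, ← Complex.exp_add]
  congr 1
  push_cast
  field_simp
  ring_nf
  simp only [Complex.I_sq]
  ring

theorem QQ_eq {Y : ℝ → ℂ → ℂ} {P : ℂ → ℂ} {Λ κ₁ B r : ℝ} (a : ℝ) (N : ℕ) (hΛ : 0 ≤ Λ)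
    (hB : B ≠ 0) (hr : 1 ≤ r) : QQ Y P Λ κ₁ B N r =
    (4 * Real.pi * (r / al Λ r) * Real.exp (Λ / 2) *
      Real.exp (-(al Λ r - √(2 * (N : ℝ))) ^ 2 / B) : ℝ) *
      Complex.exp (Complex.I * (al Λ r - 2 * (al Λ r - √(2 * (N : ℝ))) / B : ℝ) * a / 2) *
      JJ a (1 / 2 - 1 / B) (al Λ r) (κ₁ * √(N : ℝ) / 2)
        (al Λ r - 2 * (al Λ r - √(2 * (N : ℝ))) / B)
        (am0 (bR Y r) (fun ω => sOf r (P ω)) (al Λ r)) := by
  have hr0 : 0 < r := by linarith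
  have h0 : 0 < al Λ r := by linarith [half_le_al hΛ hr]
  have h1 : (al Λ r : ℂ) ≠ 0 := by exact_mod_cast h0.ne'
  have h2 : (r : ℂ) ≠ 0 := by exact_mod_cast hr0.ne'
  have h3 : (Real.pi : ℂ) ≠ 0 := by exact_mod_cast Real.pi_ne_zero
  have h4 : ∀ d : ℝ, Real.exp (-r ^ 2 / 4) * Real.exp (al Λ r ^ 2 / 2 - d ^ 2 / B) =
      r ^ 2 * Real.exp (Λ / 2) * Real.exp (-d ^ 2 / B) := by
    intro d
    rw [al_sq hΛ hr, vv, ← Real.exp_add]
    conv_rhs => rw [← Real.exp_log (by positivity : 0 < r ^ 2), ← Real.exp_add, ← Real.exp_add]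
    congr 1; ring
  have h5 := congrArg (fun x : ℝ => (x : ℂ)) (h4 (al Λ r - √(2 * (N : ℝ))))
  rw [QQ, JJ, ← intervalIntegral.integral_const_mul, ← intervalIntegral.integral_const_mul,
    ← intervalIntegral.integral_const_mul]
  refine intervalIntegral.integral_congr fun β _ => ?_
  simp only [ker_pt hB a, am0, bR, cOf_sOf' hr0.ne']
  simp only [Complex.ofReal_mul, Complex.ofReal_pow, Complex.ofReal_div r,
    Complex.ofReal_ofNat] at h5 ⊢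
  generalize bd (Y r (P (pt (al Λ r) β))) = x1 at h5 ⊢
  generalize ge a _ _ β = x2 at h5 ⊢
  generalize Complex.exp (Complex.I * _ * a / 2) = x3 at h5 ⊢
  generalize ((Real.exp (-r ^ 2 / 4) : ℝ) : ℂ) = x4 at h5 ⊢
  generalize ((Real.exp (al Λ r ^ 2 / 2 - _) : ℝ) : ℂ) = x5 at h5 ⊢
  generalize ((Real.exp (Λ / 2) : ℝ) : ℂ) = x6 at h5 ⊢
  generalize ((Real.exp (-_ ^ 2 / B) : ℝ) : ℂ) = x7 at h5 ⊢
  field_simp
  linear_combination (x1 * x2 * x3) * h5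

theorem norm_cross {b S : ℂ → ℂ} {ω : ℂ} {α τ Q K E L r M C η : ℝ}
    (hg : GeoAt S ω α (τ / α) Q K E L) (hb : BAt b (S ω) C η r) (hK : 1 ≤ K) (hE : 0 ≤ E)
    (hL : 1 ≤ L) (hα : 1 ≤ α) (hr : α ≤ r) (hM : M = 9 + 8 * (E + 4 * K)) (hC : 0 ≤ C) :
    ‖deriv b (S ω) * deriv (deriv S) ω / (α : ℂ) ^ 2‖ ≤
      C * M * (2 * M * (1 + |τ|)) * (3 + 8 * K) / α := by
  obtain ⟨-, c2, -, c4⟩ := hg.cmp hK hE hL hα hr hM
  have e1 := hb.2.2.1
  have e2 := hg.d2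
  have hM0 : 0 < M := by linarith
  have h7 : 0 < α := by linarith
  have h8 : 0 < r := by linarith
  have e3 : |τ / α| ≤ |τ| := by
    rw [abs_div, abs_of_pos h7]; exact div_le_self (abs_nonneg _) hα
  have e4 := c2.trans (mul_le_of_le_one_right hM0.le (wt_le_one h7.le _))
  have e5 := c4.trans (by gcongr : 2 * M * (1 + |τ / α|) ≤ 2 * M * (1 + |τ|))
  have e6 : α ≤ α ^ 2 := by nlinarith
  rw [norm_div, norm_mul, norm_pow, Complex.norm_real, Real.norm_eq_abs, abs_of_pos h7]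
  gcongr
  exact e1.trans (by gcongr)

theorem const_eq (Λ k a d B : ℝ) (I₀ : ℂ) :
    ((4 * Real.pi * √2 * Real.exp (Λ / 2) * Real.exp (-d ^ 2 / B) : ℝ) : ℂ) *
      Complex.exp (-(Complex.I * a / B) * d) * ((Real.exp (-(1 / 2 - 1 / B) * (a / 2) ^ 2) : ℝ) *
        (Complex.exp (-((Λ - k) / 2 : ℝ)) * I₀)) =
      4 * Real.pi * √2 * Real.exp (k / 2 - a ^ 2 / 8) * I₀ *
        Complex.exp (-(d + Complex.I * a / 2) ^ 2 / B) := by
  have e3 : Complex.exp ((Λ / 2 : ℝ) + (-d ^ 2 / B : ℝ) + -(Complex.I * a / B) * d +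
      (-(1 / 2 - 1 / B) * (a / 2) ^ 2 : ℝ) + -((Λ - k) / 2 : ℝ)) =
      Complex.exp ((k / 2 - a ^ 2 / 8 : ℝ) + -(d + Complex.I * a / 2) ^ 2 / B) := by
    congr 1
    push_cast; ring_nf
    simp only [Complex.I_sq]; ring
  simp only [Complex.exp_add, ← Complex.ofReal_exp] at e3
  simp only [Complex.ofReal_mul, Complex.ofReal_ofNat]
  linear_combination (4 * Real.pi * √2 * I₀) * e3

/-- the hypotheses of the oscillatory integral hold on the contours -/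
def OscLine (Y : ℝ → ℂ → ℂ) (P : ℂ → ℂ) (a Λ κ₁ C : ℝ) (ε : ℝ → ℝ) : Prop :=
  ∀ᶠ r in atTop, ∀ H lam : ℝ, κ₁ / 8 * al Λ r ≤ H → H ≤ κ₁ * al Λ r →
    al Λ r / 2 ≤ lam → Osc a C (κ₁ / 8) (al Λ r) H lam (ε r)
      (am0 (bR Y r) (fun ω => sOf r (P ω)) (al Λ r))
      (am1 (bR Y r) (fun ω => sOf r (P ω)) (al Λ r))
      (am2 (bR Y r) (fun ω => sOf r (P ω)) (al Λ r))

theorem setup {Y : ℝ → ℂ → ℂ} {sig P : ℂ → ℂ} {κ₀ a k : ℝ} (hB : BOut Y sig) (hκ₀ : κ₀ ≤ 1 / 2)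
    (hT : Tied κ₀ P a k) : ∃ Λ₃ : ℝ, 0 ≤ Λ₃ ∧ ∀ Λ κ₁ : ℝ, Λ₃ ≤ Λ → 0 < κ₁ → κ₁ < κ₀ →
      ∃ (C : ℝ) (ε : ℝ → ℝ), 0 ≤ C ∧ Tendsto ε atTop (𝓝 0) ∧ OscLine Y P a Λ κ₁ C ε ∧ ∀ τ : ℝ,
        Tendsto (fun r => am2 (bR Y r) (fun ω => sOf r (P ω)) (al Λ r) (a / 2 + τ / al Λ r) /
          (al Λ r : ℂ) ^ 2) atTop (𝓝 (-iteratedDeriv 2 (fun s => sig s ^ (1 / 2 : ℂ))
            (((Λ - k) / 2 : ℝ) + τ * Complex.I))) := by
  obtain ⟨L, C, η, hL, hη, hb, hb2⟩ := hB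
  obtain ⟨ω₀, u, hu, hP, hl⟩ := tied_sq hT
  obtain ⟨K, hKd⟩ : ∃ K, K = |k| + 1 := ⟨_, rfl⟩
  rw [← hKd] at hP
  have hK : 1 ≤ K := by linarith [abs_nonneg k]
  refine ⟨2 * (L + 4 * K + 1), by linarith, fun Λ κ₁ hΛ hκ₁ hκ => ?_⟩
  have hΛ0 : 0 ≤ Λ := by linarith
  have hΛ2 : 0 ≤ Λ / 2 := by linarith
  have hal := tendsto_al hΛ0
  have hgeo := geo_line hκ₀ hκ₁ hκ hK hL hΛ hu hP
  obtain ⟨M, hM⟩ : ∃ M, M = 9 + 8 * (Λ / 2 + 4 * K) := ⟨_, rfl⟩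
  have hbat : ∀ᶠ r in atTop, ∀ β : ℝ, |β| ≤ κ₁ * al Λ r →
      BAt (bR Y r) (sOf r (P (pt (al Λ r) β))) |C| |η r| r := by
    filter_upwards [hgeo, hb, eventually_gt_atTop 0] with r h1 h2 hr β hβ
    obtain ⟨-, g2⟩ := h1 β hβ
    obtain ⟨b1, b2, b3, b4⟩ := h2 (sOf r (P (pt (al Λ r) β))) (by rwa [cOf_sOf' hr.ne'])
    have := le_abs_self C
    have := le_abs_self (η r)
    exact ⟨b1, b2.trans (by gcongr), b3.trans (by gcongr), b4.trans (by gcongr)⟩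
  refine ⟨4 * |C| * M ^ 2, fun r => 16 * M ^ 3 * |η r| + 2 * |C| * M ^ 2 * (3 + 8 * K) / al Λ r,
    by positivity, ?_, ?_, fun τ => ?_⟩
  · have := (hη.abs.const_mul (16 * M ^ 3)).add
      (tendsto_const_nhds (x := 2 * |C| * M ^ 2 * (3 + 8 * K)).div_atTop hal)
    rwa [abs_zero, mul_zero, add_zero] at this
  · filter_upwards [hgeo, hbat, al_le hΛ0, hal.eventually_ge_atTop 1] with r h1 h2 h3 h4 H lam
      e1 e2 e3
    exact osc_of hK hΛ2 hL h4 h3 hM (abs_nonneg C) (abs_nonneg _) e3 e1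
      (fun β hβ => (h1 β ((abs_le.2 hβ).trans e2)).1) fun β hβ => h2 β ((abs_le.2 hβ).trans e2)
  · obtain ⟨g1, g2, g3⟩ := geo_lim (K := K) (L := L) hκ₁ hκ hΛ0 (fun ω hω => (hP ω hω).1) hl
      (hgeo.mono fun r h β hβ => (h β hβ).1) τ
    have hre : L ≤ ((((Λ - k) / 2 : ℝ) : ℂ) + τ * Complex.I).re := by
      have : ((((Λ - k) / 2 : ℝ) : ℂ) + τ * Complex.I).re = (Λ - k) / 2 := pt_re _ _
      rw [this]; linarith [le_abs_self k]
    have t1 := (hb2 _ hre).comp (tendsto_id.prodMk g2)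
    have t2 : Tendsto (fun r => deriv (bR Y r) (sOf r (P (pt (al Λ r) (a / 2 + τ / al Λ r)))) *
        deriv (deriv fun ω => sOf r (P ω)) (pt (al Λ r) (a / 2 + τ / al Λ r)) /
          (al Λ r : ℂ) ^ 2) atTop (𝓝 0) := by
      refine squeeze_zero_norm' ?_ (tendsto_const_nhds
        (x := |C| * M * (2 * M * (1 + |τ|)) * (3 + 8 * K)).div_atTop hal)
      filter_upwards [hgeo, hbat, g1, al_le hΛ0, hal.eventually_ge_atTop 1]
        with r h1 h2 h3 h4 h5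
      have h6 := (h1 _ h3).1
      rw [add_sub_cancel_left] at h6
      have h7 := norm_cross h6 (h2 _ h3) hK hΛ2 hL h5 h4 hM (abs_nonneg C)
      exact h7
    have t3 := ((t1.mul (g3.pow 2)).add t2).neg
    rw [one_pow, mul_one, add_zero] at t3
    refine t3.congr fun r => ?_
    simp only [Function.comp_apply, am2, id]
    ring

theorem W_ge {B : ℝ} (hB : 8 ≤ B) : 3 / 8 ≤ 1 / 2 - 1 / B := by
  have hB1 : 1 / B ≤ 1 / 8 := by gcongr
  linarith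

theorem W_le {B : ℝ} (hB : 8 ≤ B) : 1 / 2 - 1 / B ≤ 1 / 2 := by
  have hB2 : 0 < 1 / B := by positivity
  linarith

theorem lam_ge {B α A : ℝ} (hB : 8 ≤ B) (h1 : 0 ≤ α) (h2 : 0 ≤ A) :
    α / 2 ≤ α - 2 * (α - A) / B := by
  have hB1 : 1 / B ≤ 1 / 8 := by gcongr
  have hB2 : 0 < 1 / B := by positivity
  have : 2 * (α - A) / B = 2 * (α - A) * (1 / B) := by ring
  rw [this]
  nlinarith [mul_nonneg h2 hB2.le, mul_le_mul_of_nonneg_left hB1 h1]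

theorem tendsto_sqrt_nat : Tendsto (fun N : ℕ => √(N : ℝ)) atTop atTop :=
  Real.tendsto_sqrt_atTop.comp tendsto_natCast_atTop_atTop

theorem j_bound {Y : ℝ → ℂ → ℂ} {P : ℂ → ℂ} {a Λ κ₁ B C : ℝ} {ε : ℝ → ℝ} (hΛ0 : 0 ≤ Λ)
    (hκ₁ : 0 < κ₁) (hB : 8 ≤ B) (hC : 0 ≤ C) (hε0 : Tendsto ε atTop (𝓝 0))
    (hosc : OscLine Y P a Λ κ₁ C ε) :
    ∃ C : ℝ, ∀ᶠ N : ℕ in atTop, ∀ r ∈ Icc √(N : ℝ) (4 * √(N : ℝ)),
      ‖QQ Y P Λ κ₁ B N r‖ ≤ C * Real.exp (-(al Λ r - √(2 * (N : ℝ))) ^ 2 / B) := by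
  have hB0 : 0 < B := by linarith
  obtain ⟨M₁, hM₁⟩ := osc_bound (a := a) hC (by positivity : 0 < κ₁ / 8) (W_ge hB) (W_le hB)
  obtain ⟨r₀, hr₀⟩ := eventually_atTop.1 (hosc.and ((al_le hΛ0).and ((eventually_ge_atTop 1).and
    (hε0.eventually (eventually_le_nhds one_pos)))))
  refine ⟨4 * Real.pi * 2 * Real.exp (Λ / 2) * M₁, ?_⟩
  filter_upwards [tendsto_sqrt_nat.eventually_ge_atTop r₀] with N hN r hr
  obtain ⟨h1, h2, h3, h4⟩ := hr₀ r (hN.trans hr.1)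
  have h5 := half_le_al hΛ0 h3
  have h6 := hM₁ _ _ _ _ _ _ _ (h1 (κ₁ * √(N : ℝ) / 2) _ (by nlinarith [hr.2])
    (by nlinarith [hr.1]) (lam_ge (A := √(2 * (N : ℝ))) hB (al_nonneg _ _) (Real.sqrt_nonneg _))) h4
  have h7 : r / al Λ r ≤ 2 := by rw [div_le_iff₀ (by linarith)]; linarith
  have h8 : 0 ≤ r / al Λ r := div_nonneg (by linarith) (al_nonneg _ _)
  have h9 : ∀ x : ℝ, ‖Complex.exp (Complex.I * x * a / 2)‖ = 1 := fun x => by
    rw [show Complex.I * x * a / 2 = ((x * a / 2 : ℝ) : ℂ) * Complex.I by push_cast; ring,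
      Complex.norm_exp_ofReal_mul_I]
  rw [QQ_eq a N hΛ0 hB0.ne' h3, norm_mul, norm_mul, h9, mul_one, Complex.norm_real,
    Real.norm_eq_abs, abs_of_nonneg (by positivity)]
  calc _ ≤ 4 * Real.pi * 2 * Real.exp (Λ / 2) *
      Real.exp (-(al Λ r - √(2 * (N : ℝ))) ^ 2 / B) * M₁ := by gcongr
    _ = _ := by ring

theorem j_lim {Y : ℝ → ℂ → ℂ} {P : ℂ → ℂ} {a k Λ κ₁ B C : ℝ} {ε : ℝ → ℝ} {φ : ℝ → ℂ} {I₀ : ℂ}
    (hΛ0 : 0 ≤ Λ) (hκ₁ : 0 < κ₁) (hB : 8 ≤ B) (hC : 0 ≤ C) (hε0 : Tendsto ε atTop (𝓝 0))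
    (hosc : OscLine Y P a Λ κ₁ C ε)
    (hφ : ∀ τ : ℝ, Tendsto (fun r => am2 (bR Y r) (fun ω => sOf r (P ω)) (al Λ r)
      (a / 2 + τ / al Λ r) / (al Λ r : ℂ) ^ 2) atTop (𝓝 (-φ τ)))
    (hI : ∫ τ : ℝ, φ τ * Complex.exp (((Λ - k) / 2 : ℝ) + τ * Complex.I) = I₀)
    (r : ℕ → ℝ) (d : ℝ) (hr : Tendsto r atTop atTop)
    (hd : Tendsto (fun N : ℕ => al Λ (r N) - √(2 * (N : ℝ))) atTop (𝓝 d)) :
    Tendsto (fun N => QQ Y P Λ κ₁ B N (r N) * Complex.exp (-(Complex.I * a * al Λ (r N) / 2)))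
      atTop (𝓝 (4 * Real.pi * √2 * Real.exp (k / 2 - a ^ 2 / 8) * I₀ *
        Complex.exp (-(d + Complex.I * a / 2) ^ 2 / B))) := by
  have hB0 : 0 < B := by linarith
  have hα := (tendsto_al hΛ0).comp hr
  have hJ := osc_lim (l := atTop) (a := a) hC (by positivity : 0 < κ₁ / 8) (W_ge hB) (W_le hB)
    (α := fun N => al Λ (r N)) (H := fun N : ℕ => κ₁ * √(N : ℝ) / 2)
    (lam := fun N => al Λ (r N) - 2 * (al Λ (r N) - √(2 * (N : ℝ))) / B) (ε := fun N => ε (r N))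
    (h0 := fun N => am0 (bR Y (r N)) (fun ω => sOf (r N) (P ω)) (al Λ (r N)))
    (h1 := fun N => am1 (bR Y (r N)) (fun ω => sOf (r N) (P ω)) (al Λ (r N)))
    (h2 := fun N => am2 (bR Y (r N)) (fun ω => sOf (r N) (P ω)) (al Λ (r N)))
    (φ := φ) ?_ hα (hε0.comp hr) ?_ fun τ => (hφ τ).comp hr
  · have e1 : ∫ τ : ℝ, φ τ * Complex.exp (τ * Complex.I) =
        Complex.exp (-((Λ - k) / 2 : ℝ)) * I₀ := by
      rw [← hI, ← integral_const_mul]
      refine integral_congr_ae (Eventually.of_forall fun τ => ?_)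
      simp only [Complex.exp_add, Complex.exp_neg]
      field_simp
    rw [e1] at hJ
    have c := Complex.continuous_ofReal.tendsto
    have t1 := (c _).comp (((((tendsto_ratio hΛ0).comp hr).const_mul (4 * Real.pi)).mul_const
      (Real.exp (Λ / 2))).mul ((hd.pow 2).neg.div_const B).rexp)
    have t2 := (((c _).comp hd).const_mul (-(Complex.I * a / B))).cexp
    have t3 := (t1.mul t2).mul hJ
    rw [const_eq] at t3
    refine t3.congr' ?_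
    filter_upwards [hr.eventually_ge_atTop 1] with N hN
    rw [QQ_eq a N hΛ0 hB0.ne' hN]
    have e4 : Complex.exp (-(Complex.I * a / B) * (al Λ (r N) - √(2 * (N : ℝ)) : ℝ)) =
        Complex.exp (Complex.I * (al Λ (r N) - 2 * (al Λ (r N) - √(2 * (N : ℝ))) / B : ℝ) *
          a / 2) * Complex.exp (-(Complex.I * a * al Λ (r N) / 2)) := by
      rw [← Complex.exp_add]; congr 1; push_cast; ring
    simp only [Function.comp_apply, e4]
    ring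
  · filter_upwards [hr.eventually hosc, tendsto_sqrt_nat.eventually_ge_atTop (2 * (|d| + 1)),
      hd.eventually (Ioo_mem_nhds (show -(|d| + 1) < d by linarith [neg_abs_le d])
        (show d < |d| + 1 by linarith [le_abs_self d]))] with N h1 h2 h3
    have e1 : √(N : ℝ) ≤ √(2 * (N : ℝ)) :=
      Real.sqrt_le_sqrt (by linarith [(N.cast_nonneg : (0 : ℝ) ≤ N)])
    have e2 : √(2 * (N : ℝ)) ≤ 2 * √(N : ℝ) := by
      rw [Real.sqrt_le_left (by positivity), mul_pow, Real.sq_sqrt N.cast_nonneg]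
      linarith [(N.cast_nonneg : (0 : ℝ) ≤ N)]
    have e3 := abs_nonneg d
    exact h1 _ _ (by nlinarith [h3.2]) (by nlinarith [h3.1])
      (lam_ge hB (al_nonneg _ _) (Real.sqrt_nonneg _))
  · have := (((hd.const_mul 2).div_const B).mul hα.inv_tendsto_atTop).const_sub 1
    rw [mul_zero, sub_zero] at this
    refine this.congr' ?_
    filter_upwards [hα.eventually_gt_atTop 0] with N hN
    simp only [Function.comp_apply, Pi.inv_apply] at hN ⊢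
    field_simp

/-- K-J -/
theorem j_proof : JStmt := by
  intro Y sig P I₀ κ₀ a k hB ⟨L', hI⟩ _ hκ₀ hT
  obtain ⟨Λ₃, h3, h⟩ := setup hB hκ₀ hT
  refine ⟨max Λ₃ (2 * L' + k), fun Λ κ₁ B hΛ hκ₁ hκ hB => ?_⟩
  have h1 := (le_max_left _ _).trans hΛ
  have h2 := (le_max_right _ _).trans hΛ
  obtain ⟨C, ε, hC, hε, hosc, hφ⟩ := h Λ κ₁ h1 hκ₁ hκ
  exact ⟨j_bound (h3.trans h1) hκ₁ hB hC hε hosc,
    j_lim (h3.trans h1) hκ₁ hB hC hε hosc hφ (hI _ (by linarith))⟩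

end Vale.Agent.P218F.K.J

theorem Vale.Agent.P218F.K.j_proof : Vale.Agent.P218F.K.JStmt := Vale.Agent.P218F.K.J.j_proof
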