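import Vale.Agent.P218F.KBasic

/-! Block K: compactness of the sphere of directions and the gradient inequality for the family. -/

open Filter Topology Set Metric

noncomputable section

namespace Vale.Agent.P218F.K

namespace KL

theorem norm_ofRe {σ : Type} [Fintype σ] (x : σ → ℝ) : ‖ofRe x‖ = ‖x‖ := by
  simp [ofRe, Pi.norm_def]

variable {ι κ τ : Type} [Fintype ι] [Fintype κ] [Fintype τ]

theorem mem_St {r₀ : ℝ} {x : ι ⊕ κ → ℂ} (h : ‖x‖ < r₀) : x ∈ St ι κ r₀ :=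
  fun j => (norm_le_pi_norm x (Sum.inl j)).trans_lt h

theorem norm_cp_add (x y : ι ⊕ κ → ℂ) : ‖cp y‖ ≤ ‖cp x‖ + ‖y - x‖ := by
  have h : cp y = cp x + cp (y - x) := by
    funext i; simp [cp]
  rw [h]
  exact (norm_add_le _ _).trans (by gcongr; exact norm_cp_le _)

/-- the inequality for directions in the set `S` -/
def Dir (R₀ : ℝ) (G : ℝ → (ι ⊕ κ → ℂ) → (τ → ℂ)) (S : Set (κ → ℝ)) : Prop :=
  ∃ (N : ℕ) (C δ : ℝ), 0 < δ ∧ 0 ≤ C ∧ ∀ R, R₀ ≤ R → ∀ x : ι ⊕ κ → ℝ, ‖x‖ < δ →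
    ‖cp (ofRe x)‖ * R ^ 2 ≤ 1 → ∀ l ∈ S, (∀ i, x (Sum.inr i) = ‖cp (ofRe x)‖ * l i) →
      0 < ‖cp (ofRe x)‖ →
        ‖cp (ofRe x)‖ ^ N ≤ C * (‖G R (ofRe x)‖ + Real.exp (-R ^ 2 / 5))

theorem le_one_of {Λ R₀ R e : ℝ} (hb : Big Λ R₀) (hR : R₀ ≤ R) (h0 : 0 ≤ e) (h : e * R ^ 2 ≤ 1) :
    e ≤ 1 := by
  have h1 : 1 ≤ R ^ 2 := one_le_pow₀ (hb.one_le hR)
  nlinarith

theorem dir_union {Λ R₀ : ℝ} (hb : Big Λ R₀) {G : ℝ → (ι ⊕ κ → ℂ) → (τ → ℂ)}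
    {S T : Set (κ → ℝ)} (hS : Dir R₀ G S) (hT : Dir R₀ G T) : Dir R₀ G (S ∪ T) := by
  obtain ⟨N, C, δ, hδ, hC, h⟩ := hS
  obtain ⟨N', C', δ', hδ', hC', h'⟩ := hT
  refine ⟨N + N', C + C', min δ δ', lt_min hδ hδ', by positivity,
    fun R hR x hx hc l hl hxl he => ?_⟩
  have h1 := le_one_of hb hR he.le hc
  have hp : 0 ≤ ‖G R (ofRe x)‖ + Real.exp (-R ^ 2 / 5) := by positivity
  rcases hl with hl | hl
  · have h2 := h R hR x (hx.trans_le (min_le_left _ _)) hc l hl hxl he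
    have h3 := pow_le_pow_of_le_one he.le h1 (Nat.le_add_right N N')
    nlinarith [mul_nonneg hC' hp]
  · have h2 := h' R hR x (hx.trans_le (min_le_right _ _)) hc l hl hxl he
    have h3 := pow_le_pow_of_le_one he.le h1 (Nat.le_add_left N' N)
    nlinarith [mul_nonneg hC hp]

theorem dir_local {r₀ Λ R₀ : ℝ} (hr : 0 < r₀) (hb : Big Λ R₀)
    {G : ℝ → (ι ⊕ κ → ℂ) → (τ → ℂ)} {PG : τ → ℕ → (ι ⊕ κ → ℂ) → ℂ}
    (hE : ∀ i, IsExp r₀ Λ R₀ (fun R x => G R x i) (PG i)) {ls : κ → ℝ} {M : ℕ} {C : ℝ}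
    (h : ∀ᶠ q : ℝ × (ι ⊕ κ → ℝ) in 𝓝 0, 0 < q.1 →
      q.1 ^ M ≤ C * ∑ i, ‖tr (fun n z => PG i n (shift ls z)) (M + 1) q.1 (ofRe q.2)‖) :
    ∃ ε, 0 < ε ∧ Dir R₀ G (ball ls ε) := by
  obtain ⟨ε, hε, h⟩ := Metric.eventually_nhds_iff.1 h
  choose B hB using fun i => (hE i).app (M + 1)
  set D : ℝ := |C| * ∑ i, (1 + |B i|) with hD
  have hD0 : 0 ≤ D := by positivity
  refine ⟨ε, hε, M, 2 * D, min (min ε r₀) (1 / (2 * D + 1)),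
    lt_min (lt_min hε hr) (by positivity), by positivity, fun R hR x hx hc l hl hxl he => ?_⟩
  have hx1 : ‖x‖ < ε := hx.trans_le ((min_le_left _ _).trans (min_le_left _ _))
  have hx2 : ‖x‖ < r₀ := hx.trans_le ((min_le_left _ _).trans (min_le_right _ _))
  have hx3 : ‖x‖ < 1 / (2 * D + 1) := hx.trans_le (min_le_right _ _)
  have hex : ‖cp (ofRe x)‖ ≤ ‖x‖ := (norm_cp_le _).trans_eq (norm_ofRe x)
  have hdom : ofRe x ∈ Dom ι κ r₀ Λ R :=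
    hb.mem_Dom hR (mem_St (by rwa [norm_ofRe])) (by linarith)
  set e := ‖cp (ofRe x)‖ with hedef
  set y : ι ⊕ κ → ℝ := Sum.elim (fun j => x (Sum.inl j)) fun i => l i - ls i with hy
  have hy1 : ‖y‖ < ε := by
    refine (pi_norm_lt_iff hε).2 fun j => ?_
    rcases j with j | j
    · exact (norm_le_pi_norm x (Sum.inl j)).trans_lt hx1
    · exact (norm_le_pi_norm (l - ls) j).trans_lt (mem_ball_iff_norm.1 hl)
  have h1 := h (y := (e, y)) (by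
    rw [dist_zero_right, Prod.norm_def]
    exact max_lt (by rw [Real.norm_of_nonneg he.le]; exact hex.trans_lt hx1) hy1) he
  have hst : shift ls (ofRe y) ∈ St ι κ r₀ := fun j => by
    have := (norm_le_pi_norm x (Sum.inl j)).trans_lt hx2
    simpa [shift, ofRe, hy] using this
  have hsc : sc (e : ℂ) (shift ls (ofRe y)) = ofRe x := by
    funext j
    rcases j with j | j
    · simp [sc, shift, ofRe, hy]
    · simp only [sc, shift, ofRe, hy, Sum.elim_inr, hxl j]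
      push_cast; ring
  set E := Real.exp (-R ^ 2 / 5) with hEdef
  have hE0 : 0 < E := Real.exp_pos _
  have h2 : ∀ i, ‖tr (fun n z => PG i n (shift ls z)) (M + 1) (e : ℂ) (ofRe y)‖ ≤
      (1 + |B i|) * (‖G R (ofRe x)‖ + E + e ^ (M + 1)) := by
    intro i
    have h3 : tr (fun n z => PG i n (shift ls z)) (M + 1) (e : ℂ) (ofRe y) =
        ∑ n ∈ Finset.range (M + 1), PG i n (ofRe x) := by
      refine Finset.sum_congr rfl fun n _ => ?_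
      rw [← hsc, (hE i).hom n _ hst]
    have h4 := hB i R hR _ hdom
    have h5 := norm_le_pi_norm (G R (ofRe x)) i
    have h6 := norm_sub_norm_le (∑ n ∈ Finset.range (M + 1), PG i n (ofRe x)) (G R (ofRe x) i)
    rw [norm_sub_rev] at h6
    have h7 : B i * (e ^ (M + 1) + E) ≤ |B i| * (e ^ (M + 1) + E) := by
      gcongr; exact le_abs_self _
    have h8 : 0 ≤ |B i| * ‖G R (ofRe x)‖ := by positivity
    have h9 : 0 ≤ e ^ (M + 1) := by positivity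
    rw [h3]
    simp only [← hedef, ← hEdef] at h4
    nlinarith
  have h3 : e ^ M ≤ D * (‖G R (ofRe x)‖ + E + e ^ (M + 1)) := by
    refine h1.trans ((mul_le_mul_of_nonneg_right (le_abs_self C)
      (Finset.sum_nonneg fun i _ => norm_nonneg _)).trans ?_)
    rw [hD, mul_assoc, Finset.sum_mul]
    exact mul_le_mul_of_nonneg_left (Finset.sum_le_sum fun i _ => h2 i) (abs_nonneg _)
  have h4 : e * (2 * D + 1) ≤ 1 := by
    have := (hex.trans_lt hx3).le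
    rwa [le_div_iff₀ (by positivity)] at this
  have h5 : 0 ≤ e ^ M := by positivity
  have h6 : 2 * D * e ^ (M + 1) ≤ e ^ M := by
    rw [pow_succ]
    nlinarith [mul_le_mul_of_nonneg_left h4 h5, mul_nonneg h5 he.le]
  nlinarith

end KL

open KL

theorem ck_proof : CKStmt := by
  intro ι κ τ _ _ _ r₀ Λ R₀ G PG hr hb hE h
  have key : Dir R₀ G (sphere (0 : κ → ℝ) 1) := by
    refine (isCompact_sphere (0 : κ → ℝ) 1).induction_on (p := Dir R₀ G) ?_ ?_ ?_ ?_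
    · exact ⟨0, 0, 1, one_pos, le_rfl, fun R _ x _ _ l hl => hl.elim⟩
    · rintro S T hST ⟨N, C, δ, hδ, hC, h'⟩
      exact ⟨N, C, δ, hδ, hC, fun R hR x hx hc l hl => h' R hR x hx hc l (hST hl)⟩
    · exact fun S T => dir_union hb
    · intro ls hls
      obtain ⟨M, C, h'⟩ := h ls (by simpa using hls)
      obtain ⟨ε, hε, hd⟩ := dir_local hr hb hE h'
      exact ⟨_, mem_nhdsWithin_of_mem_nhds (ball_mem_nhds ls hε), hd⟩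
  obtain ⟨N, C, δ, hδ, hC, h'⟩ := key
  refine ⟨N + 1, C, δ, hδ, fun R hR x hx hc => ?_⟩
  rcases (norm_nonneg (cp (ofRe x))).eq_or_lt with he | he
  · rw [← he, zero_pow (Nat.succ_ne_zero N)]
    positivity
  · have h1 : ‖cp (ofRe x)‖ = ‖fun i => x (Sum.inr i)‖ := norm_ofRe fun i => x (Sum.inr i)
    refine (pow_le_pow_of_le_one he.le (le_one_of hb hR he.le hc) (Nat.le_succ N)).trans
      (h' R hR x hx hc (‖cp (ofRe x)‖⁻¹ • fun i => x (Sum.inr i)) ?_ (fun i => ?_) he)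
    · rw [mem_sphere_zero_iff_norm, norm_smul, norm_inv, norm_norm, ← h1, inv_mul_cancel₀ he.ne']
    · rw [Pi.smul_apply, smul_eq_mul, ← mul_assoc, mul_inv_cancel₀ he.ne', one_mul]

namespace KL

variable {ι κ τ : Type} [Fintype ι] [Fintype κ] [Fintype τ]

theorem exists_rad {R₀ R g : ℝ} (hR : 0 ≤ R) (hg0 : 0 < g) (hg1 : g < Real.exp (-R₀ ^ 2 / 10))
    (hg2 : Real.exp (-R ^ 2 / 10) ≤ g) :
    ∃ ρ, R₀ ≤ ρ ∧ ρ ≤ R ∧ Real.exp (-(1 / 10 * ρ ^ 2)) = g ∧ Real.exp (-ρ ^ 2 / 5) = g ^ 2 := by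
  have hl1 : R₀ ^ 2 ≤ -10 * Real.log g := by
    have := (Real.log_lt_iff_lt_exp hg0).2 hg1
    linarith
  have hl2 : -10 * Real.log g ≤ R ^ 2 := by
    have := (Real.le_log_iff_exp_le hg0).2 hg2
    linarith
  have hρ3 := Real.sq_sqrt ((sq_nonneg _).trans hl1)
  have hgρ : Real.exp (-(1 / 10 * √(-10 * Real.log g) ^ 2)) = g := by
    rw [hρ3, show -(1 / 10 * (-10 * Real.log g)) = Real.log g by ring, Real.exp_log hg0]
  refine ⟨√(-10 * Real.log g), Real.le_sqrt_of_sq_le hl1, Real.sqrt_le_iff.2 ⟨hR, hl2⟩, hgρ, ?_⟩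
  conv_rhs => rw [← hgρ, ← Real.exp_nat_mul]
  congr 1; push_cast; ring

theorem app_le {N : ℕ} {C₁ C₄ e e' g E u : ℝ} (he : 0 ≤ e) (he' : 0 ≤ e') (hg0 : 0 < g)
    (he1 : e ≤ 1) (hg3 : g ≤ 1) (h2 : e' ≤ e + g) (hK : e ^ N ≤ |C₁| * g) (hE0 : 0 ≤ E)
    (hE : E ≤ g ^ 2) (h1 : u ≤ C₄ * (e' ^ (2 * N + 2) + E)) :
    u ≤ |C₄| * (2 ^ (2 * N + 1) * (|C₁| ^ 2 + 1) + 1) * g ^ 2 := by
  have h3 : e' ^ (2 * N + 2) ≤ 2 ^ (2 * N + 1) * (e ^ (2 * N + 2) + g ^ (2 * N + 2)) :=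
    (pow_le_pow_left₀ he' h2 _).trans (add_pow_le he hg0.le _)
  have h4 : e ^ (2 * N + 2) ≤ |C₁| ^ 2 * g ^ 2 := by
    calc e ^ (2 * N + 2) ≤ e ^ (N * 2) := pow_le_pow_of_le_one he he1 (by omega)
      _ = (e ^ N) ^ 2 := pow_mul _ _ _
      _ ≤ (|C₁| * g) ^ 2 := by gcongr
      _ = _ := mul_pow _ _ _
  have h7 : g ^ (2 * N + 2) ≤ g ^ 2 := pow_le_pow_of_le_one hg0.le hg3 (by omega)
  refine h1.trans ((mul_le_mul_of_nonneg_right (le_abs_self _) (by positivity)).trans ?_)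
  rw [mul_assoc]
  refine mul_le_mul_of_nonneg_left ?_ (abs_nonneg _)
  have h9 : (2 : ℝ) ^ (2 * N + 1) * (e ^ (2 * N + 2) + g ^ (2 * N + 2)) ≤
      2 ^ (2 * N + 1) * (|C₁| ^ 2 * g ^ 2 + g ^ 2) := by gcongr
  linarith

/-- Cauchy estimate for the truncated expansion -/
theorem grad_le {r₀ Λ R₀ ρ g D : ℝ} (hb : Big Λ R₀) (hρ1 : R₀ ≤ ρ) {F T : (ι ⊕ κ → ℂ) → ℂ}
    (hF : DifferentiableOn ℂ F (Dom ι κ r₀ Λ ρ)) (hT : DifferentiableOn ℂ T (St ι κ r₀))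
    {z : ι ⊕ κ → ℂ} (hz : ‖z‖ < r₀ / 2) (hc : ‖cp z‖ * ρ ^ 2 ≤ 1 / 2) (hg0 : 0 < g)
    (hg2 : g < r₀ / 2) (hg3 : g ≤ 1)
    (h : ∀ y, ‖y - z‖ ≤ g → y ∈ Dom ι κ r₀ Λ ρ → ‖F y - T y‖ ≤ D * g ^ 2) :
    ‖fderiv ℂ T z‖ ≤ ‖fderiv ℂ F z‖ + D * (ρ ^ 2 * g) := by
  have hρ := hb.one_le hρ1
  have hρs : 1 ≤ ρ ^ 2 := one_le_pow₀ hρ
  have h0 : ∀ y ∈ ball z (g / ρ ^ 2), ‖y - z‖ * ρ ^ 2 < g ∧ ‖y - z‖ ≤ g := by
    intro y hy
    rw [mem_ball_iff_norm, lt_div_iff₀ (by positivity)] at hy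
    exact ⟨hy, by nlinarith [norm_nonneg (y - z)]⟩
  have hsub : ball z (g / ρ ^ 2) ⊆ Dom ι κ r₀ Λ ρ := by
    intro y hy
    obtain ⟨h1, h2⟩ := h0 y hy
    refine hb.mem_Dom hρ1 (mem_St ?_) ?_
    · linarith [norm_le_insert' y z]
    · have h3 := mul_le_mul_of_nonneg_right (norm_cp_add z y) (sq_nonneg ρ)
      linarith
  have hzρ : z ∈ Dom ι κ r₀ Λ ρ := hsub (mem_ball_self (by positivity))
  have hd1 : ‖fderiv ℂ (fun y => F y - T y) z‖ ≤ D * g ^ 2 / (g / ρ ^ 2) :=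
    P281.MF.norm_fderiv_le_of_ball (by positivity)
      ((hF.mono hsub).sub (hT.mono (hsub.trans (Dom_subset_St _ _ _))))
      fun y hy => h y (h0 y hy).2 (hsub hy)
  rw [fderiv_fun_sub (hF.differentiableAt ((isOpen_Dom _ _ _).mem_nhds hzρ))
    (hT.differentiableAt ((isOpen_St _).mem_nhds hzρ.1)),
    show D * g ^ 2 / (g / ρ ^ 2) = D * (ρ ^ 2 * g) by field_simp] at hd1
  have h3 := norm_sub_norm_le (fderiv ℂ T z) (fderiv ℂ F z)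
  rw [norm_sub_rev] at h3
  linarith

theorem fin_le {θ θ' β ρ D₁ D₂ u v w : ℝ} (hθ0 : 0 < θ) (hθ'0 : 0 < θ') (hβ1 : β ≤ 1 / 5)
    (hβ3 : β * θ' = 1 / 10) (hD₁ : 0 ≤ D₁) (hD₂ : 0 ≤ D₂) (hu : 0 ≤ u) (hw : 0 ≤ w)
    (h1 : u ^ θ ≤ D₂ * Real.exp (-(θ * β * ρ ^ 2))) (h2 : v ≤ D₁ * Real.exp (-ρ ^ 2 / 5))
    (h3 : w ≤ v + u) : w ^ θ' ≤ (D₂ ^ θ⁻¹ + D₁) ^ θ' * Real.exp (-(1 / 10 * ρ ^ 2)) := by
  have ht1 : u ≤ D₂ ^ θ⁻¹ * Real.exp (-(β * ρ ^ 2)) := by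
    rw [show -(θ * β * ρ ^ 2) = -(β * ρ ^ 2) * θ by ring, Real.exp_mul] at h1
    have h4 := Real.rpow_le_rpow (by positivity) h1 (inv_nonneg.2 hθ0.le)
    rwa [Real.mul_rpow hD₂ (by positivity), Real.rpow_rpow_inv hu hθ0.ne',
      Real.rpow_rpow_inv (Real.exp_pos _).le hθ0.ne'] at h4
  have ht2 : v ≤ D₁ * Real.exp (-(β * ρ ^ 2)) :=
    h2.trans (mul_le_mul_of_nonneg_left (Real.exp_le_exp.2 (by nlinarith [sq_nonneg ρ])) hD₁)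
  have ht3 : w ≤ (D₂ ^ θ⁻¹ + D₁) * Real.exp (-(β * ρ ^ 2)) := by linarith
  have ht4 := Real.rpow_le_rpow hw ht3 hθ'0.le
  rwa [Real.mul_rpow (by positivity) (Real.exp_pos _).le, ← Real.exp_mul,
    show -(β * ρ ^ 2) * θ' = -(β * θ' * ρ ^ 2) by ring, hβ3] at ht4

end KL

theorem kl_proof : KLStmt := by
  intro hL ι κ τ _ _ _ r₀ Λ R₀ f G Pf hr hb hG hf hP hgrad hK
  obtain ⟨N, C₁, δ₁, hδ₁, hK⟩ := hK
  obtain ⟨C₂, A₂, hC₂, hinc⟩ := hG.inc' hb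
  obtain ⟨C₃, A, hgrad⟩ := hgrad
  obtain ⟨C₄, happ⟩ := hP.app (2 * N + 2)
  obtain ⟨B, hB⟩ := hf.bdd
  obtain ⟨T, hT⟩ : ∃ T : (ι ⊕ κ → ℂ) → ℂ, T = fun x => ∑ n ∈ Finset.range (2 * N + 2), Pf n x :=
    ⟨_, rfl⟩
  have hTd : DifferentiableOn ℂ T (St ι κ r₀) :=
    hT ▸ DifferentiableOn.fun_sum fun n _ => hP.hol n
  have happ' : ∀ R, R₀ ≤ R → ∀ x ∈ Dom ι κ r₀ Λ R,
      ‖f R x - T x‖ ≤ C₄ * (‖cp x‖ ^ (2 * N + 2) + Real.exp (-R ^ 2 / 5)) := hT ▸ happ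
  obtain ⟨θ, C₇, hθ0, hθ1, hC₇, hloj⟩ := hL _ T
    (P281.MF.analyticAt_of_differentiableOn (isOpen_St r₀) hTd (mem_St (by simpa using hr)))
  obtain ⟨ε, hε, hloj⟩ := Metric.eventually_nhds_iff.1 hloj
  obtain ⟨θ', β, hθ'0, hθ'1, hβ1, hβ2, hβ3⟩ : ∃ θ' β : ℝ, 0 < θ' ∧ θ' < 1 ∧ β ≤ 1 / 5 ∧
      θ * β < 1 / 10 ∧ β * θ' = 1 / 10 := by
    refine ⟨(1 + θ) / 2, 1 / (10 * ((1 + θ) / 2)), by positivity, by linarith,
      one_div_le_one_div_of_le (by norm_num) (by linarith), ?_, by field_simp⟩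
    rw [mul_one_div, div_lt_iff₀ (by positivity)]; linarith
  obtain ⟨C₅, hC₅, h5⟩ := exists_pow_mul_exp_le A₂ (by norm_num : (1 / 10 : ℝ) < 1 / 4)
  obtain ⟨C₆, hC₆, h6⟩ := exists_pow_mul_exp_le (A + 2) hβ2
  obtain ⟨g₀, hg₀0, hg₀1, hg₀2⟩ : ∃ g₀ : ℝ, 0 < g₀ ∧ g₀ ≤ Real.exp (-R₀ ^ 2 / 10) ∧ g₀ ≤ r₀ / 2 :=
    ⟨_, lt_min (Real.exp_pos _) (half_pos hr), min_le_left _ _, min_le_right _ _⟩
  obtain ⟨D₁, hD₁⟩ : ∃ D₁, D₁ = |C₄| * (2 ^ (2 * N + 1) * (|C₁| ^ 2 + 1) + 1) := ⟨_, rfl⟩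
  have hD₁0 : 0 ≤ D₁ := by rw [hD₁]; positivity
  obtain ⟨D₂, hD₂⟩ : ∃ D₂, D₂ = C₇ * ((|C₃| * (1 + C₂ * C₅) + D₁) * C₆) := ⟨_, rfl⟩
  have hD₂0 : 0 ≤ D₂ := by rw [hD₂]; positivity
  refine ⟨N, θ', |C₁| + (D₂ ^ θ⁻¹ + D₁) ^ θ' + (|B| + ‖T 0‖) ^ θ' / g₀,
    min (min δ₁ ε) (r₀ / 2), T 0, hθ'0, hθ'1, lt_min (lt_min hδ₁ hε) (half_pos hr),
    fun R hR x hx hc => ?_⟩
  have hx1 : ‖x‖ < δ₁ := hx.trans_le ((min_le_left _ _).trans (min_le_left _ _))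
  have hx2 : ‖ofRe x‖ < ε := by
    rw [norm_ofRe]; exact hx.trans_le ((min_le_left _ _).trans (min_le_right _ _))
  have hx3 : ‖ofRe x‖ < r₀ / 2 := by rw [norm_ofRe]; exact hx.trans_le (min_le_right _ _)
  have hdom : ofRe x ∈ Dom ι κ r₀ Λ R := hb.mem_Dom hR (mem_St (by linarith)) (by linarith)
  have hK1 := hK R hR x hx1 (by linarith)
  generalize ofRe x = z at *
  obtain ⟨g, hg⟩ : ∃ g, g = ‖G R z‖ + Real.exp (-R ^ 2 / 10) := ⟨_, rfl⟩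
  have hg0 : 0 < g := by rw [hg]; positivity
  have hR1 := hb.one_le hR
  have hK2 : ‖cp z‖ ^ N ≤ |C₁| * g := by
    refine hK1.trans ((mul_le_mul_of_nonneg_right (le_abs_self _) (by positivity)).trans ?_)
    have := Real.exp_le_exp.2 (show -R ^ 2 / 5 ≤ -R ^ 2 / 10 by linarith [sq_nonneg R])
    exact mul_le_mul_of_nonneg_left (by linarith) (abs_nonneg _)
  have hp1 : 0 ≤ (D₂ ^ θ⁻¹ + D₁) ^ θ' * g := by positivity
  have hp2 : 0 ≤ (|B| + ‖T 0‖) ^ θ' / g₀ * g := by positivity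
  have hp3 : 0 ≤ |C₁| * g := by positivity
  rw [← hg, add_mul, add_mul]
  refine ⟨by linarith, ?_⟩
  rcases le_or_gt g₀ g with hgg | hgg
  · have h1 : ‖f R z - T 0‖ ≤ |B| + ‖T 0‖ :=
      (norm_sub_le _ _).trans (by gcongr; exact (hB R hR z hdom).trans (le_abs_self _))
    have h2 : ‖f R z - T 0‖ ^ θ' ≤ (|B| + ‖T 0‖) ^ θ' :=
      Real.rpow_le_rpow (norm_nonneg _) h1 hθ'0.le
    have h3 : (|B| + ‖T 0‖) ^ θ' ≤ (|B| + ‖T 0‖) ^ θ' / g₀ * g := by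
      rw [div_mul_eq_mul_div, le_div_iff₀ hg₀0]
      gcongr
    linarith
  have hg2 : g < r₀ / 2 := hgg.trans_le hg₀2
  obtain ⟨ρ, hρ1, hρ2, hgρ, hgρ2⟩ := exists_rad (by linarith : 0 ≤ R) hg0 (hgg.trans_le hg₀1)
    (hg ▸ le_add_of_nonneg_left (norm_nonneg _))
  have hρ := hb.one_le hρ1
  have hg3 : g ≤ 1 := by
    rw [← hgρ]; exact Real.exp_le_one_iff.2 (by linarith [sq_nonneg ρ])
  have he1 : ‖cp z‖ ≤ 1 := le_one_of hb hR (norm_nonneg _) (by linarith)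
  have hball : ∀ s, ρ ≤ s → ∀ y, ‖y - z‖ ≤ g → y ∈ Dom ι κ r₀ Λ s →
      ‖f s y - T y‖ ≤ D₁ * g ^ 2 := by
    intro s hs y hy hys
    rw [hD₁]
    refine app_le (norm_nonneg _) (norm_nonneg _) hg0 he1 hg3
      ((norm_cp_add z y).trans (by gcongr)) hK2 (Real.exp_pos _).le ?_
      (happ' s (hρ1.trans hs) y hys)
    rw [← hgρ2]
    have : ρ ^ 2 ≤ s ^ 2 := by gcongr
    exact Real.exp_le_exp.2 (by linarith)
  have hzρ : z ∈ Dom ι κ r₀ Λ ρ := hb.nest_Dom hρ1 hρ2 hdom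
  have hd1 := grad_le hb hρ1 (hf.hol ρ hρ1) hTd hx3
    (le_trans (by gcongr) hc) hg0 hg2 hg3 (hball ρ le_rfl)
  have hd2 : ‖G ρ z‖ ≤ (1 + C₂ * C₅) * g := by
    have h1 := hinc ρ R hρ1 hρ2 z hdom
    have h2 := mul_le_mul_of_nonneg_left (h5 ρ hρ) hC₂
    rw [hgρ, show -(1 / 4 * ρ ^ 2) = -ρ ^ 2 / 4 by ring] at h2
    have h3 := norm_sub_norm_le (G ρ z) (G R z)
    rw [norm_sub_rev] at h3
    have h4 : ‖G R z‖ ≤ g := hg ▸ le_add_of_nonneg_right (Real.exp_pos _).le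
    linarith
  have hd3 : ‖fderiv ℂ (f ρ) z‖ ≤ |C₃| * (1 + C₂ * C₅) * (ρ ^ (A + 2) * g) := by
    have h1 : ρ ^ A ≤ ρ ^ (A + 2) := pow_le_pow_right₀ hρ (by omega)
    calc _ ≤ C₃ * ρ ^ A * ‖G ρ z‖ := hgrad ρ hρ1 z hzρ
      _ ≤ |C₃| * ρ ^ (A + 2) * ((1 + C₂ * C₅) * g) := by gcongr; exact le_abs_self _
      _ = _ := by ring
  have hd4 : ‖fderiv ℂ T z‖ ≤
      (|C₃| * (1 + C₂ * C₅) + D₁) * C₆ * Real.exp (-(θ * β * ρ ^ 2)) := by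
    have h1 := h6 ρ hρ
    rw [hgρ] at h1
    have h2 : ρ ^ 2 * g ≤ ρ ^ (A + 2) * g :=
      mul_le_mul_of_nonneg_right (pow_le_pow_right₀ hρ (by omega)) hg0.le
    have h4 := mul_le_mul_of_nonneg_left (h2.trans h1) hD₁0
    have h7 := mul_le_mul_of_nonneg_left h1 (by positivity : 0 ≤ |C₃| * (1 + C₂ * C₅))
    linarith
  have ht1 : ‖T z - T 0‖ ^ θ ≤ D₂ * Real.exp (-(θ * β * ρ ^ 2)) := by
    refine (hloj (by rwa [dist_zero_right])).trans ?_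
    rw [hD₂, mul_assoc]
    exact mul_le_mul_of_nonneg_left hd4 hC₇.le
  have ht4 := fin_le hθ0 hθ'0 hβ1 hβ3 hD₁0 hD₂0 (norm_nonneg _) (norm_nonneg _) ht1
    (hgρ2 ▸ hball R hρ2 z (by simpa using hg0.le) hdom)
    (norm_sub_le_norm_sub_add_norm_sub (f R z) (T z) (T 0))
  rw [hgρ] at ht4
  linarith

end Vale.Agent.P218F.K
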