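import Mathlib.Analysis.Complex.CauchyIntegral
import Mathlib.Analysis.SpecialFunctions.Pow.Real

/-! Block K, leaf MU, part 1: Cauchy integrals with the kernel `(t / w) ^ K / (w - t)` on the
circles `‖w‖ ^ n = s`. -/

open Filter Topology Set Metric

noncomputable section

namespace Vale.Agent.P218F.K.Mu

/-- the radius of the circle `‖w‖ ^ n = s` -/
def rt (n : ℕ) (s : ℝ) : ℝ := s ^ ((n : ℝ)⁻¹)

theorem rt_pow {n : ℕ} (hn : 0 < n) {s : ℝ} (hs : 0 ≤ s) : rt n s ^ n = s :=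
  Real.rpow_inv_natCast_pow hs hn.ne'

theorem rt_pos (n : ℕ) {s : ℝ} (hs : 0 < s) : 0 < rt n s := Real.rpow_pos_of_pos hs _

theorem rt_le_iff {n : ℕ} (hn : 0 < n) {s x : ℝ} (hs : 0 < s) (hx : 0 ≤ x) :
    rt n s ≤ x ↔ s ≤ x ^ n := by
  rw [← pow_le_pow_iff_left₀ (rt_pos n hs).le hx hn.ne', rt_pow hn hs.le]

theorem le_rt_iff {n : ℕ} (hn : 0 < n) {s x : ℝ} (hs : 0 < s) (hx : 0 ≤ x) :
    x ≤ rt n s ↔ x ^ n ≤ s := by
  rw [← pow_le_pow_iff_left₀ hx (rt_pos n hs).le hn.ne', rt_pow hn hs.le]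

theorem sphere_pow {n : ℕ} (hn : 0 < n) {s : ℝ} (hs : 0 < s) {z : ℂ}
    (hz : z ∈ sphere (0 : ℂ) (rt n s)) : ‖z‖ ^ n = s := by
  rw [mem_sphere_zero_iff_norm] at hz
  rw [hz, rt_pow hn hs.le]

/-- the kernel -/
def ker (K : ℕ) (t w : ℂ) : ℂ := (t / w) ^ K * (w - t)⁻¹

/-- the Cauchy integral over the circle of level `s` -/
def J (n K : ℕ) (t : ℂ) (f : ℂ → ℂ) (s : ℝ) : ℂ := ∮ w in C(0, rt n s), f w * ker K t w

/-- holomorphy on the annulus between the levels `lo` and `hi` -/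
def Good (n : ℕ) (f : ℂ → ℂ) (lo hi : ℝ) : Prop :=
  ∀ z : ℂ, lo < ‖z‖ ^ n → ‖z‖ ^ n < hi → DifferentiableAt ℂ f z

theorem ker_diff (K : ℕ) {t w : ℂ} (h0 : w ≠ 0) (ht : w ≠ t) :
    DifferentiableAt ℂ (ker K t) w := by
  have h1 : w - t ≠ 0 := sub_ne_zero.2 ht
  unfold ker
  fun_prop (disch := assumption)

theorem ne_zero_of_pow {n : ℕ} (hn : 0 < n) {z : ℂ} {s : ℝ} (hs : 0 < s) (h : s ≤ ‖z‖ ^ n) :
    z ≠ 0 := by
  rintro rfl
  rw [norm_zero, zero_pow hn.ne'] at h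
  exact absurd h (not_le.2 hs)

theorem ann_pow {n : ℕ} (hn : 0 < n) {s₁ s₂ : ℝ} (h1 : 0 < s₁) (h2 : 0 < s₂) {z : ℂ}
    (hz : z ∈ closedBall (0 : ℂ) (rt n s₂) \ ball 0 (rt n s₁)) :
    s₁ ≤ ‖z‖ ^ n ∧ ‖z‖ ^ n ≤ s₂ := by
  obtain ⟨ha, hb⟩ := hz
  rw [mem_closedBall_zero_iff] at ha
  rw [mem_ball_zero_iff, not_lt] at hb
  exact ⟨(rt_le_iff hn h1 (norm_nonneg _)).1 hb, (le_rt_iff hn h2 (norm_nonneg _)).1 ha⟩

theorem rt_mono {n : ℕ} (hn : 0 < n) {s₁ s₂ : ℝ} (h1 : 0 < s₁) (h : s₁ ≤ s₂) :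
    rt n s₁ ≤ rt n s₂ := by
  rw [rt_le_iff hn h1 (rt_pos n (h1.trans_le h)).le, rt_pow hn (h1.trans_le h).le]
  exact h

theorem move_le {n : ℕ} (hn : 0 < n) (K : ℕ) {t : ℂ} {f : ℂ → ℂ} {lo hi s₁ s₂ : ℝ}
    (hf : Good n f lo hi) (h0 : 0 < s₁) (h1 : lo < s₁) (h12 : s₁ ≤ s₂) (h2 : s₂ < hi)
    (ht : ‖t‖ ^ n < s₁ ∨ s₂ < ‖t‖ ^ n) : J n K t f s₂ = J n K t f s₁ := by
  have key : ∀ z ∈ closedBall (0 : ℂ) (rt n s₂) \ ball 0 (rt n s₁),
      DifferentiableAt ℂ (fun w => f w * ker K t w) z := by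
    intro z hz
    obtain ⟨ha, hb⟩ := ann_pow hn h0 (h0.trans_le h12) hz
    refine (hf z (h1.trans_le ha) (hb.trans_lt h2)).mul (ker_diff K (ne_zero_of_pow hn h0 ha) ?_)
    rintro rfl
    rcases ht with ht | ht <;> linarith
  refine Complex.circleIntegral_eq_of_differentiable_on_annulus_off_countable (rt_pos n h0)
    (rt_mono hn h0 h12) countable_empty
    (fun z hz => (key z hz).continuousAt.continuousWithinAt) fun z hz => key z ?_
  exact ⟨ball_subset_closedBall hz.1.1, fun h => hz.1.2 (ball_subset_closedBall h)⟩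

theorem cauchy {n : ℕ} (hn : 0 < n) (K : ℕ) {t : ℂ} {f : ℂ → ℂ} {lo hi s₁ s₂ : ℝ}
    (hf : Good n f lo hi) (h0 : 0 < s₁) (h1 : lo < s₁) (h2 : s₂ < hi)
    (ht1 : s₁ < ‖t‖ ^ n) (ht2 : ‖t‖ ^ n < s₂) :
    J n K t f s₂ - J n K t f s₁ = 2 * Real.pi * Complex.I * f t := by
  have h12 : s₁ ≤ s₂ := (ht1.trans ht2).le
  have h02 : 0 < s₂ := h0.trans_le h12
  have ht0 : t ≠ 0 := ne_zero_of_pow hn h0 ht1.le
  set g : ℂ → ℂ := fun w => f w * (t / w) ^ K with hg
  have hgt : g t = f t := by simp [hg, div_self ht0]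
  have key : ∀ z ∈ closedBall (0 : ℂ) (rt n s₂) \ ball 0 (rt n s₁), DifferentiableAt ℂ g z := by
    intro z hz
    obtain ⟨ha, hb⟩ := ann_pow hn h0 h02 hz
    have hz0 : z ≠ 0 := ne_zero_of_pow hn h0 ha
    refine (hf z (h1.trans_le ha) (hb.trans_lt h2)).mul ?_
    fun_prop (disch := assumption)
  have htb : t ∈ ball (0 : ℂ) (rt n s₂) := by
    rw [mem_ball_zero_iff, ← not_le, rt_le_iff hn h02 (norm_nonneg _)]
    exact not_le.2 ht2
  have htc : t ∉ closedBall (0 : ℂ) (rt n s₁) := by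
    rw [mem_closedBall_zero_iff, le_rt_iff hn h0 (norm_nonneg _)]
    exact not_le.2 ht1
  have hE : (∮ w in C(0, rt n s₂), dslope g t w) = ∮ w in C(0, rt n s₁), dslope g t w := by
    refine Complex.circleIntegral_eq_of_differentiable_on_annulus_off_countable (rt_pos n h0)
      (rt_mono hn h0 h12) (countable_singleton t) (fun z hz => ?_) fun z hz => ?_
    · by_cases hzt : z = t
      · subst hzt
        exact (continuousAt_dslope_same.2 (key z hz)).continuousWithinAt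
      · exact ((continuousAt_dslope_of_ne hzt).2 (key z hz).continuousAt).continuousWithinAt
    · refine (differentiableAt_dslope_of_ne hz.2).2 (key z ?_)
      exact ⟨ball_subset_closedBall hz.1.1, fun h => hz.1.2 (ball_subset_closedBall h)⟩
  have split : ∀ s, s₁ ≤ s → s ≤ s₂ → s ≠ ‖t‖ ^ n → (∮ w in C(0, rt n s), dslope g t w) =
      J n K t f s - f t * ∮ w in C(0, rt n s), (w - t)⁻¹ := by
    intro s ha hb hs
    have hs0 : 0 < s := h0.trans_le ha
    have hne : ∀ z ∈ sphere (0 : ℂ) (rt n s), z ≠ t := by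
      rintro z hz rfl
      exact hs (sphere_pow hn hs0 hz).symm
    have hd : ∀ z ∈ sphere (0 : ℂ) (rt n s), DifferentiableAt ℂ (fun w => f w * ker K t w) z := by
      intro z hz
      have := sphere_pow hn hs0 hz
      exact (hf z (by rw [this]; linarith) (by rw [this]; linarith)).mul
        (ker_diff K (ne_zero_of_pow hn hs0 this.ge) (hne z hz))
    have hi1 : CircleIntegrable (fun w => f w * ker K t w) 0 (rt n s) :=
      ContinuousOn.circleIntegrable (rt_pos n hs0).le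
        fun z hz => (hd z hz).continuousAt.continuousWithinAt
    have hi2 : CircleIntegrable (fun w => f t * (w - t)⁻¹) 0 (rt n s) := by
      refine ContinuousOn.circleIntegrable (rt_pos n hs0).le fun z hz => ?_
      have h1 : z - t ≠ 0 := sub_ne_zero.2 (hne z hz)
      refine ContinuousAt.continuousWithinAt ?_
      fun_prop (disch := assumption)
    rw [J, ← circleIntegral.integral_const_mul, ← circleIntegral.integral_sub hi1 hi2]
    refine circleIntegral.integral_congr (rt_pos n hs0).le fun z hz => ?_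
    rw [dslope_of_ne _ (hne z hz), slope_def_field, hgt]
    simp only [hg, ker]
    ring
  have hz : (∮ w in C(0, rt n s₁), (w - t)⁻¹) = 0 := by
    refine Complex.circleIntegral_eq_zero_of_differentiable_on_off_countable (rt_pos n h0).le
      countable_empty (fun z hz => ?_) fun z hz => ?_
    · have h1 : z - t ≠ 0 := sub_ne_zero.2 fun h => htc (h ▸ hz)
      refine ContinuousAt.continuousWithinAt ?_
      fun_prop (disch := assumption)
    · have h1 : z - t ≠ 0 := sub_ne_zero.2 fun h => htc (h ▸ ball_subset_closedBall hz.1)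
      fun_prop (disch := assumption)
  rw [split s₂ h12 le_rfl ht2.ne', split s₁ le_rfl h12 ht1.ne, hz,
    circleIntegral.integral_sub_inv_of_mem_ball htb] at hE
  linear_combination hE

theorem J_sub {n : ℕ} (hn : 0 < n) (K : ℕ) {t : ℂ} {f g : ℂ → ℂ} {lo hi lo' hi' s : ℝ}
    (hf : Good n f lo hi) (hg : Good n g lo' hi') (h0 : 0 < s) (h1 : lo < s) (h2 : s < hi)
    (h1' : lo' < s) (h2' : s < hi') (ht : s ≠ ‖t‖ ^ n) :
    J n K t f s - J n K t g s = J n K t (fun w => f w - g w) s := by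
  have hi : ∀ {u : ℂ → ℂ} {a b : ℝ}, Good n u a b → a < s → s < b →
      CircleIntegrable (fun w => u w * ker K t w) 0 (rt n s) := by
    intro u a b hu ha hb
    refine ContinuousOn.circleIntegrable (rt_pos n h0).le fun z hz => ?_
    have := sphere_pow hn h0 hz
    refine ((hu z (by rw [this]; linarith) (by rw [this]; linarith)).mul
      (ker_diff K (ne_zero_of_pow hn h0 this.ge) ?_)).continuousAt.continuousWithinAt
    rintro rfl
    exact ht this.symm
  rw [J, J, J, ← circleIntegral.integral_sub (hi hf h1 h2) (hi hg h1' h2')]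
  refine circleIntegral.integral_congr (rt_pos n h0).le fun z _ => ?_
  ring

theorem J_bound {n : ℕ} (hn : 0 < n) (m : ℕ) {t : ℂ} {f : ℂ → ℂ} {s κ B : ℝ} (h0 : 0 < s)
    (hκ0 : 0 ≤ κ) (hκ : κ < 1) (ht : ‖t‖ ^ n ≤ κ ^ n * s ∨ s ≤ κ ^ n * ‖t‖ ^ n)
    (hf : ∀ w : ℂ, ‖w‖ ^ n = s → ‖f w‖ ≤ B) :
    ‖J n (n * m) t f s‖ ≤ 2 * Real.pi * (1 - κ)⁻¹ * (B * (‖t‖ ^ n / s) ^ m) := by
  have hr := rt_pos n h0
  have hκ1 : 0 < 1 - κ := by linarith
  have key : ∀ z ∈ sphere (0 : ℂ) (rt n s), ‖f z * ker (n * m) t z‖ ≤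
      B * ((‖t‖ ^ n / s) ^ m * ((1 - κ) * rt n s)⁻¹) := by
    intro z hz
    have hzs := sphere_pow hn h0 hz
    have hzn : ‖z‖ = rt n s := mem_sphere_zero_iff_norm.1 hz
    have hB := hf z hzs
    have hd : (1 - κ) * rt n s ≤ ‖z - t‖ := by
      rw [← hzn]
      rcases ht with ht | ht
      · have h1 : ‖t‖ ≤ κ * ‖z‖ := by
          rw [← pow_le_pow_iff_left₀ (norm_nonneg _) (by positivity) hn.ne', mul_pow, hzs]
          exact ht
        have := norm_sub_norm_le z t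
        linarith
      · have h1 : ‖z‖ ≤ κ * ‖t‖ := by
          rw [← pow_le_pow_iff_left₀ (norm_nonneg _) (by positivity) hn.ne', mul_pow, hzs]
          exact ht
        have h2 := norm_sub_norm_le t z
        rw [norm_sub_rev] at h2
        have h3 : κ * ‖t‖ ≤ ‖t‖ := mul_le_of_le_one_left (norm_nonneg _) hκ.le
        nlinarith [norm_nonneg z, norm_nonneg t]
    rw [norm_mul, ker, norm_mul, norm_pow, norm_div, norm_inv, pow_mul, div_pow ‖t‖, hzs]
    refine mul_le_mul hB ?_ (by positivity) ((norm_nonneg _).trans hB)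
    exact mul_le_mul_of_nonneg_left (inv_anti₀ (by positivity) hd) (by positivity)
  refine (circleIntegral.norm_integral_le_of_norm_le_const hr.le key).trans (le_of_eq ?_)
  field_simp

theorem tele (f : ℕ → ℂ) {a b : ℕ} (hab : a ≤ b) {B : ℝ} (hB : 0 ≤ B)
    (h : ∀ i, a ≤ i → i < b → ‖f (i + 1) - f i‖ ≤ B) : ‖f b - f a‖ ≤ b * B := by
  induction b, hab using Nat.le_induction with
  | base => simp only [sub_self, norm_zero]; positivity
  | succ b hab ih =>
    have h1 := ih fun i hi hb => h i hi (by omega)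
    have h2 := h b hab (by omega)
    have h3 : f (b + 1) - f a = (f (b + 1) - f b) + (f b - f a) := by ring
    rw [h3]
    refine (norm_add_le _ _).trans ?_
    push_cast
    linarith

theorem lin_exp {a b x : ℝ} (h : a < b) :
    x * Real.exp (-b * x) ≤ (b - a)⁻¹ * Real.exp (-a * x) := by
  have h0 : 0 < b - a := by linarith
  have h1 : (b - a) * x ≤ Real.exp ((b - a) * x) := by
    linarith [Real.add_one_le_exp ((b - a) * x)]
  have h2 : Real.exp (-a * x) = Real.exp ((b - a) * x) * Real.exp (-b * x) := by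
    rw [← Real.exp_add]; congr 1; ring
  rw [h2, ← mul_assoc]
  refine mul_le_mul_of_nonneg_right ?_ (Real.exp_pos _).le
  rw [le_inv_mul_iff₀ h0]
  exact h1

theorem pow_le_exp {u : ℝ} (hu : 0 ≤ u) (m : ℕ) : u ^ m ≤ Real.exp (m * (u - 1)) := by
  rw [Real.exp_nat_mul]
  exact pow_le_pow_left₀ hu (by linarith [Real.add_one_le_exp (u - 1)]) m

end Vale.Agent.P218F.K.Mu
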