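import Vale.Agent.P218F.KSpec
import Vale.Agent.P218F.KMu1

/-! Block K, leaf MU: flat functions with exponentially small jumps are exponentially small. -/

open Filter Topology Set Metric

noncomputable section

namespace Vale.Agent.P218F.K

namespace Mu

theorem outer {n : ℕ} (hn : 0 < n) {ψ : ℕ → ℂ → ℂ} {j₁ j m : ℕ} {a a' κ C C₀ : ℝ} {t : ℂ}
    (hj₁ : 1 ≤ j₁) (hj : j₁ ≤ j) (hm : (m : ℝ) ≤ j / 4) (ha' : 1 ≤ a') (ha : a' < a)
    (hκ0 : 0 ≤ κ) (hκ : κ < 1) (hC : 0 ≤ C) (hC₀ : 0 ≤ C₀)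
    (hG : ∀ i, j₁ ≤ i → Good n (ψ i) (1 / (4 * (i : ℝ))) (a / i))
    (hJ : ∀ i, j₁ ≤ i → ∀ w : ℂ, 1 / (4 * (i : ℝ)) < ‖w‖ ^ n → ‖w‖ ^ n < a / ((i : ℝ) + 1) →
      ‖ψ (i + 1) w - ψ i w‖ ≤ C * Real.exp (-(i : ℝ) / 4))
    (h0 : ∀ w : ℂ, 1 / (4 * (j₁ : ℝ)) < ‖w‖ ^ n → ‖w‖ ^ n < a / j₁ → ‖ψ j₁ w‖ ≤ C₀)
    (ht : ‖t‖ ^ n ≤ κ ^ n * (a' / j)) :
    ‖J n (n * m) t (ψ j) (a' / j)‖ ≤ 2 * Real.pi * (1 - κ)⁻¹ *
      ((C₀ * Real.exp (j₁ / 4) + j * (C * Real.exp (1 / 4))) * Real.exp (-(m : ℝ))) := by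
  have hq : κ ^ n < 1 := pow_lt_one₀ hκ0 hκ hn.ne'
  have hq0 : 0 ≤ κ ^ n := by positivity
  have hD : 0 ≤ 2 * Real.pi * (1 - κ)⁻¹ := by
    have : 0 < 1 - κ := by linarith
    positivity
  have hj0 : (0 : ℝ) < j := by exact_mod_cast (by omega : 0 < j)
  have ha0 : 0 < a' := by linarith
  have hlev : ∀ x : ℝ, 0 < x → x ≤ j → ‖t‖ ^ n ≤ κ ^ n * (a' / x) ∧ ‖t‖ ^ n < a' / x ∧
      (‖t‖ ^ n / (a' / x)) ^ m ≤ Real.exp (x / 4 - m) := by
    intro x hx hxj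
    have h1 : a' / j ≤ a' / x := div_le_div_of_nonneg_left ha0.le hx hxj
    have h2 : 0 < a' / x := by positivity
    have h3 : ‖t‖ ^ n ≤ κ ^ n * (a' / x) := ht.trans (mul_le_mul_of_nonneg_left h1 hq0)
    refine ⟨h3, h3.trans_lt (by nlinarith), ?_⟩
    have h4 : ‖t‖ ^ n / (a' / x) ≤ x / j := by
      rw [div_le_iff₀ h2]
      have h5 : x / j * (a' / x) = a' / j := by field_simp
      have h6 : 0 < a' / j := by positivity
      rw [h5]
      nlinarith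
    refine (pow_le_pow_left₀ (by positivity) h4 m).trans
      ((pow_le_exp (by positivity) m).trans (Real.exp_le_exp.2 ?_))
    have h7 : (m : ℝ) * (x / j) ≤ j / 4 * (x / j) :=
      mul_le_mul_of_nonneg_right hm (by positivity)
    have h8 : (j : ℝ) / 4 * (x / j) = x / 4 := by field_simp
    linarith
  have hlo : ∀ x y : ℝ, 0 < x → 0 < y → y ≤ 2 * x → 1 / (4 * x) < a' / y := by
    intro x y hx hy hyx
    rw [div_lt_div_iff₀ (by positivity) hy]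
    nlinarith
  have hhi : ∀ x y : ℝ, 0 < x → x ≤ y → a' / y < a / x := by
    intro x y hx hxy
    rw [div_lt_div_iff₀ (by linarith) hx]
    nlinarith
  have hj₁0 : (0 : ℝ) < j₁ := by exact_mod_cast hj₁
  have base : ‖J n (n * m) t (ψ j₁) (a' / j₁)‖ ≤ 2 * Real.pi * (1 - κ)⁻¹ *
      (C₀ * Real.exp (j₁ / 4) * Real.exp (-(m : ℝ))) := by
    obtain ⟨h1, -, h3⟩ := hlev j₁ hj₁0 (by exact_mod_cast hj)
    refine (J_bound hn m (B := C₀) (by positivity) hκ0 hκ (Or.inl h1) fun w hw => h0 w ?_ ?_).trans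
      (mul_le_mul_of_nonneg_left ?_ hD)
    · rw [hw]; exact hlo _ _ hj₁0 hj₁0 (by linarith)
    · rw [hw]; exact hhi _ _ hj₁0 le_rfl
    · rw [mul_assoc, ← Real.exp_add]
      exact mul_le_mul_of_nonneg_left (by simpa [sub_eq_add_neg] using h3) hC₀
  have step := tele (fun i => J n (n * m) t (ψ i) (a' / i)) hj
    (B := 2 * Real.pi * (1 - κ)⁻¹ * (C * Real.exp (1 / 4) * Real.exp (-(m : ℝ))))
    (by positivity) fun i hi hij => by
      have hi1 : (1 : ℝ) ≤ i := by exact_mod_cast hj₁.trans hi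
      have hi0 : (0 : ℝ) < i := by linarith
      have hi2 : (i : ℝ) + 1 ≤ j := by exact_mod_cast hij
      obtain ⟨h1, h2, h3⟩ := hlev (i + 1) (by positivity) hi2
      have g1 : 1 / (4 * (i : ℝ)) < a' / (i + 1) := hlo _ _ hi0 (by positivity) (by linarith)
      have g2 : a' / ((i : ℝ) + 1) < a / i := hhi _ _ hi0 (by linarith)
      have g3 : 1 / (4 * ((i : ℝ) + 1)) < a' / (i + 1) :=
        hlo _ _ (by positivity) (by positivity) (by linarith)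
      have g4 : a' / ((i : ℝ) + 1) < a / (i + 1) := hhi _ _ (by positivity) le_rfl
      have hG' := hG (i + 1) (by omega)
      push_cast at hG' ⊢
      rw [move_le hn (n * m) (hG i hi) (s₁ := a' / (i + 1)) (by positivity) g1
        (div_le_div_of_nonneg_left ha0.le hi0 (by linarith)) (hhi _ _ hi0 le_rfl) (Or.inl h2),
        J_sub hn _ hG' (hG i hi) (by positivity) g3 g4 g1 g2 h2.ne']
      refine (J_bound hn m (B := C * Real.exp (-(i : ℝ) / 4)) (by positivity) hκ0 hκ (Or.inl h1)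
        fun w hw => hJ i hi w (by rw [hw]; exact g1) (by rw [hw]; exact g4)).trans
        (mul_le_mul_of_nonneg_left ?_ hD)
      rw [mul_assoc, mul_assoc, ← Real.exp_add]
      refine mul_le_mul_of_nonneg_left ((mul_le_mul_of_nonneg_left h3 (by positivity)).trans ?_) hC
      rw [← Real.exp_add]
      exact Real.exp_le_exp.2 (by linarith)
  have h9 := norm_le_insert' (J n (n * m) t (ψ j) (a' / j)) (J n (n * m) t (ψ j₁) (a' / j₁))
  nlinarith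

theorem inner {n : ℕ} (hn : 0 < n) {ψ : ℕ → ℂ → ℂ} {j m : ℕ} {a κ C μ : ℝ} {t : ℂ}
    (hj : 6 ≤ j) (hμ : μ < 1 / 4) (hm : (m : ℝ) ≤ μ * j)
    (hκ0 : 0 ≤ κ) (hκ : κ < 1) (hq9 : 9 / 10 ≤ κ ^ n) (hC : 0 ≤ C)
    (hG : ∀ i, j ≤ i → Good n (ψ i) (1 / (4 * (i : ℝ))) (a / i))
    (hJ : ∀ i, j ≤ i → ∀ w : ℂ, 1 / (4 * (i : ℝ)) < ‖w‖ ^ n → ‖w‖ ^ n < a / ((i : ℝ) + 1) →
      ‖ψ (i + 1) w - ψ i w‖ ≤ C * Real.exp (-(i : ℝ) / 4))
    (hF : ∃ C₁ : ℝ, ∀ᶠ i : ℕ in atTop, ∀ w : ℂ, 1 / (4 * (i : ℝ)) < ‖w‖ ^ n → ‖w‖ ^ n < a / i →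
      ‖ψ i w‖ ≤ C₁ / (i : ℝ) ^ (m + 1))
    (ht1 : 1 / (3 * (j : ℝ)) ≤ ‖t‖ ^ n) (ht2 : ‖t‖ ^ n < a / j) :
    ‖J n (n * m) t (ψ j) (κ ^ n * ‖t‖ ^ n)‖ ≤ 2 * Real.pi * (1 - κ)⁻¹ *
      (C * ((κ ^ n)⁻¹ ^ m * Real.exp (μ - j / 4))) / (1 - Real.exp (μ - 1 / 4)) := by
  have hq : κ ^ n < 1 := pow_lt_one₀ hκ0 hκ hn.ne'
  have hq0 : 0 < κ ^ n := by linarith
  have hD : 0 ≤ 2 * Real.pi * (1 - κ)⁻¹ := by
    have : 0 < 1 - κ := by linarith
    positivity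
  have hj6 : (6 : ℝ) ≤ j := by exact_mod_cast hj
  have hj0 : (0 : ℝ) < j := by linarith
  have hT : 0 < ‖t‖ ^ n := lt_of_lt_of_le (by positivity) ht1
  set q := κ ^ n with hqdef
  set T := ‖t‖ ^ n with hTdef
  set σ := q * T * j with hσ
  have hσ0 : 0 < σ := by positivity
  have hσ1 : 3 / 10 ≤ σ := by
    have h1 : 1 / 3 ≤ T * j := by
      rw [div_le_iff₀ (by positivity)] at ht1
      linarith
    rw [hσ, mul_assoc]
    nlinarith
  have hσ2 : σ < a := by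
    rw [lt_div_iff₀ hj0] at ht2
    have : 0 < T * j := by positivity
    rw [hσ, mul_assoc]
    nlinarith
  have hlo : ∀ x y : ℝ, 6 ≤ x → 0 < y → y ≤ x + 1 → 1 / (4 * x) < σ / y := by
    intro x y hx hy hyx
    rw [div_lt_div_iff₀ (by positivity) hy]
    nlinarith
  have hhi : ∀ x y : ℝ, 0 < x → x ≤ y → σ / y < a / x := by
    intro x y hx hxy
    rw [div_lt_div_iff₀ (by linarith) hx]
    nlinarith
  have hlev : ∀ x : ℝ, j ≤ x → σ / x ≤ q * T ∧ σ / x < T ∧ T / (σ / x) = q⁻¹ * (x / j) := by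
    intro x hx
    have hx0 : 0 < x := by linarith
    have h1 : σ / x ≤ q * T := by
      rw [div_le_iff₀ hx0, hσ]
      exact mul_le_mul_of_nonneg_left hx (by positivity)
    refine ⟨h1, h1.trans_lt (by nlinarith), ?_⟩
    rw [hσ]
    field_simp
  set f : ℕ → ℂ := fun l => J n (n * m) t (ψ (j + l)) (σ / ((j + l : ℕ) : ℝ)) with hf
  have hf0 : f 0 = J n (n * m) t (ψ j) (q * T) := by
    simp only [hf, add_zero]
    congr 1
    rw [hσ]
    field_simp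
  have hr : Real.exp (μ - 1 / 4) < 1 := Real.exp_lt_one_iff.2 (by linarith)
  have hlim : Tendsto f atTop (𝓝 0) := by
    obtain ⟨C₁, hF⟩ := hF
    have hsh : Tendsto (fun l : ℕ => j + l) atTop atTop :=
      tendsto_atTop_mono (fun l => Nat.le_add_left l j) tendsto_id
    have h1 : Tendsto (fun i : ℕ => 2 * Real.pi * (1 - κ)⁻¹ * (C₁ * (q⁻¹ / j) ^ m) / (i : ℝ))
        atTop (𝓝 0) := tendsto_const_div_atTop_nhds_zero_nat _
    refine squeeze_zero_norm' ?_ (h1.comp hsh)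
    filter_upwards [hsh.eventually hF] with l hl
    have hx : (j : ℝ) ≤ ((j + l : ℕ) : ℝ) := by exact_mod_cast Nat.le_add_right j l
    set x : ℝ := ((j + l : ℕ) : ℝ) with hxdef
    have hx0 : 0 < x := by linarith
    obtain ⟨h2, -, h4⟩ := hlev x hx
    refine (J_bound hn m (B := C₁ / x ^ (m + 1)) (by positivity) hκ0 hκ (Or.inr h2)
      fun w hw => hl w ?_ ?_).trans (le_of_eq ?_)
    · rw [hw]; exact hlo _ _ (by linarith) hx0 (by linarith)
    · rw [hw]; exact hhi _ _ hx0 le_rfl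
    · rw [← hTdef, h4, Function.comp_apply, ← hxdef, mul_pow, div_pow, div_pow]
      field_simp
      ring
  have hstep : ∀ l, dist (f l) (f (l + 1)) ≤ 2 * Real.pi * (1 - κ)⁻¹ *
      (C * (q⁻¹ ^ m * Real.exp (μ - j / 4))) * Real.exp (μ - 1 / 4) ^ l := by
    intro l
    have hi : j ≤ j + l := Nat.le_add_right j l
    have hx : (j : ℝ) ≤ ((j + l : ℕ) : ℝ) := by exact_mod_cast hi
    have hxl : ((j + l : ℕ) : ℝ) = j + l := by push_cast; ring
    have hG' := hG (j + l + 1) (by omega)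
    have hG'' := hG (j + l) hi
    have hJ' := hJ (j + l) hi
    have e1 : f (l + 1) = J n (n * m) t (ψ (j + l + 1)) (σ / (((j + l : ℕ) : ℝ) + 1)) := by
      simp only [hf, ← add_assoc, Nat.cast_add, Nat.cast_one]
    have e0 : f l = J n (n * m) t (ψ (j + l)) (σ / ((j + l : ℕ) : ℝ)) := rfl
    rw [Nat.cast_add (j + l) 1, Nat.cast_one] at hG'
    set x : ℝ := ((j + l : ℕ) : ℝ) with hxdef
    have hx0 : 0 < x := by linarith
    obtain ⟨h2, h3, h4⟩ := hlev (x + 1) (by linarith)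
    have g1 : 1 / (4 * x) < σ / (x + 1) := hlo _ _ (by linarith) (by positivity) le_rfl
    have g2 : σ / (x + 1) < a / x := hhi _ _ hx0 (by linarith)
    have g3 : 1 / (4 * (x + 1)) < σ / (x + 1) :=
      hlo _ _ (by linarith) (by positivity) (by linarith)
    have g4 : σ / (x + 1) < a / (x + 1) := hhi _ _ (by positivity) le_rfl
    rw [dist_comm, dist_eq_norm, e1, e0, move_le hn (n * m) hG'' (s₁ := σ / (x + 1))
      (by positivity) g1 (div_le_div_of_nonneg_left hσ0.le hx0 (by linarith))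
      (hhi _ _ hx0 le_rfl) (Or.inr (hlev x hx).2.1),
      J_sub hn _ hG' hG'' (by positivity) g3 g4 g1 g2 h3.ne]
    refine (J_bound hn m (B := C * Real.exp (-x / 4)) (by positivity) hκ0 hκ (Or.inr h2)
      fun w hw => hJ' w (by rw [hw]; exact g1) (by rw [hw]; exact g4)).trans ?_
    rw [mul_assoc (2 * Real.pi * (1 - κ)⁻¹)]
    refine mul_le_mul_of_nonneg_left ?_ hD
    rw [← hTdef, h4, mul_pow, mul_assoc C, mul_assoc C, mul_left_comm (Real.exp _),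
      mul_assoc (q⁻¹ ^ m), ← Real.exp_nat_mul, ← Real.exp_add]
    refine mul_le_mul_of_nonneg_left (mul_le_mul_of_nonneg_left ?_ (by positivity)) hC
    refine (mul_le_mul_of_nonneg_left (pow_le_exp (by positivity) m) (by positivity)).trans ?_
    rw [← Real.exp_add]
    refine Real.exp_le_exp.2 ?_
    have h5 : (x + 1) / j - 1 = (l + 1) / j := by
      rw [hxl]
      field_simp
      ring
    have h6 : (m : ℝ) * ((l + 1) / j) ≤ μ * j * ((l + 1) / j) :=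
      mul_le_mul_of_nonneg_right hm (by positivity)
    have h7 : μ * j * (((l : ℝ) + 1) / j) = μ * (l + 1) := by field_simp
    rw [h5, hxl]
    linarith
  have := dist_le_of_le_geometric_of_tendsto₀ _ _ hr hstep hlim
  rwa [dist_zero_right, hf0] at this

theorem step1 {n : ℕ} (hn : 0 < n) {A : ℕ → Set ℂ} {ψ : ℕ → ℂ → ℂ}
    (hA : ∀ a : ℝ, a < 2 → ∀ᶠ j : ℕ in atTop, ∀ t : ℂ, 1 / (4 * (j : ℝ)) < ‖t‖ ^ n →
      ‖t‖ ^ n < a / j → t ∈ A j)
    (hd : ∀ᶠ j in atTop, DifferentiableOn ℂ (ψ j) (A j))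
    (hF : ∀ M : ℕ, ∃ C : ℝ, ∀ᶠ j in atTop, ∀ t ∈ A j, ‖ψ j t‖ ≤ C / (j : ℝ) ^ M)
    (hJ : ∃ C : ℝ, ∀ᶠ j in atTop, ∀ t ∈ A j, t ∈ A (j + 1) →
      ‖ψ (j + 1) t - ψ j t‖ ≤ C * Real.exp (-(j : ℝ) / 4))
    {μ τ : ℝ} (hμ0 : 0 ≤ μ) (hμ : μ < 1 / 4) (hτ1 : 1 ≤ τ) (hτ : τ < 2) :
    ∃ C : ℝ, ∀ᶠ j : ℕ in atTop, ∀ t : ℂ, 1 / (3 * (j : ℝ)) ≤ ‖t‖ ^ n → ‖t‖ ^ n ≤ τ / j →
      ‖ψ j t‖ ≤ C * Real.exp (-μ * j) := by
  obtain ⟨a', ha'1, ha'2⟩ := exists_between hτ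
  obtain ⟨a, ha1, ha2⟩ := exists_between ha'2
  obtain ⟨ν, hν1, hν2⟩ := exists_between hμ
  have ha'0 : 0 < a' := by linarith
  obtain ⟨q, hq1, hq9, hqτ, hqe⟩ : ∃ q : ℝ, q < 1 ∧ 9 / 10 ≤ q ∧ τ / a' ≤ q ∧
      Real.exp (4 * μ - 1) ≤ q := by
    refine ⟨max (9 / 10) (max (τ / a') (Real.exp (4 * μ - 1))), ?_, le_max_left _ _,
      (le_max_left _ _).trans (le_max_right _ _), (le_max_right _ _).trans (le_max_right _ _)⟩
    exact max_lt (by norm_num) (max_lt ((div_lt_one ha'0).2 ha'1)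
      (Real.exp_lt_one_iff.2 (by linarith)))
  have hq0 : 0 < q := by linarith
  obtain ⟨κ, hκ0, hκ, rfl⟩ : ∃ κ : ℝ, 0 ≤ κ ∧ κ < 1 ∧ q = κ ^ n := by
    refine ⟨rt n q, (rt_pos n hq0).le, ?_, (rt_pow hn hq0.le).symm⟩
    rw [← not_le, le_rt_iff hn hq0 zero_le_one, one_pow]
    exact not_le.2 hq1
  obtain ⟨C', hJ⟩ := hJ
  obtain ⟨C₀', h0⟩ := hF 0
  obtain ⟨j₁, hj₁⟩ := eventually_atTop.1 ((hA a ha2).and (hd.and (hJ.and
    (h0.and (eventually_ge_atTop 6)))))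
  have hj6 : 6 ≤ j₁ := (hj₁ j₁ le_rfl).2.2.2.2
  have hG : ∀ i, j₁ ≤ i → Good n (ψ i) (1 / (4 * (i : ℝ))) (a / i) := by
    intro i hi z hz1 hz2
    refine (hj₁ i hi).2.1.differentiableAt ?_
    have hc : Continuous fun w : ℂ => ‖w‖ ^ n := by fun_prop
    filter_upwards [hc.continuousAt.eventually (lt_mem_nhds hz1),
      hc.continuousAt.eventually (gt_mem_nhds hz2)] with w h1 h2
    exact (hj₁ i hi).1 w h1 h2
  have hJ' : ∀ i, j₁ ≤ i → ∀ w : ℂ, 1 / (4 * (i : ℝ)) < ‖w‖ ^ n →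
      ‖w‖ ^ n < a / ((i : ℝ) + 1) →
      ‖ψ (i + 1) w - ψ i w‖ ≤ |C'| * Real.exp (-(i : ℝ) / 4) := by
    intro i hi w h1 h2
    have hi0 : (0 : ℝ) < i := by exact_mod_cast (by omega : 0 < i)
    refine ((hj₁ i hi).2.2.1 w ((hj₁ i hi).1 w h1 (h2.trans_le ?_))
      ((hj₁ (i + 1) (by omega)).1 w (lt_of_le_of_lt ?_ h1) (by exact_mod_cast h2))).trans
      (mul_le_mul_of_nonneg_right (le_abs_self _) (by positivity))
    · exact div_le_div_of_nonneg_left (by linarith) hi0 (by linarith)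
    · push_cast
      exact div_le_div_of_nonneg_left zero_le_one (by positivity) (by linarith)
  have h0' : ∀ w : ℂ, 1 / (4 * (j₁ : ℝ)) < ‖w‖ ^ n → ‖w‖ ^ n < a / j₁ → ‖ψ j₁ w‖ ≤ |C₀'| := by
    intro w h1 h2
    have := (hj₁ j₁ le_rfl).2.2.2.1 w ((hj₁ j₁ le_rfl).1 w h1 h2)
    rw [pow_zero, div_one] at this
    exact this.trans (le_abs_self _)
  set D := (1 - κ)⁻¹ with hD
  have hD0 : 0 < D := inv_pos.2 (by linarith)
  have hr : 0 < 1 - Real.exp (ν - 1 / 4) := sub_pos.2 (Real.exp_lt_one_iff.2 (by linarith))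
  refine ⟨D * (|C₀'| * Real.exp (j₁ / 4) * Real.exp 1 +
    |C'| * Real.exp (1 / 4) * Real.exp 1 * (ν - μ)⁻¹ +
    |C'| * Real.exp ν / (1 - Real.exp (ν - 1 / 4))), ?_⟩
  filter_upwards [eventually_ge_atTop j₁] with j hj t ht1 ht2
  have hj0 : (0 : ℝ) < j := by exact_mod_cast (by omega : 0 < j)
  set m : ℕ := ⌊ν * j⌋₊ with hm
  have hm1 : (m : ℝ) ≤ ν * j := Nat.floor_le (mul_nonneg (by linarith) hj0.le)
  have hm2 : ν * j < m + 1 := Nat.lt_floor_add_one _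
  have hm3 : (m : ℝ) ≤ j / 4 := by
    have := mul_le_mul_of_nonneg_right hν2.le hj0.le
    linarith
  have ht3 : ‖t‖ ^ n ≤ κ ^ n * (a' / j) := by
    refine ht2.trans ?_
    rw [div_le_iff₀ ha'0] at hqτ
    rw [← mul_div_assoc]
    exact div_le_div_of_nonneg_right hqτ hj0.le
  have ht4 : ‖t‖ ^ n < a' / j := ht2.trans_lt (div_lt_div_of_pos_right ha'1 hj0)
  have ht5 : a' / j < a / j := div_lt_div_of_pos_right ha1 hj0
  have hT : 0 < ‖t‖ ^ n := lt_of_lt_of_le (by positivity) ht1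
  have hO := outer hn (by omega) hj hm3 (by linarith) ha1 hκ0 hκ (abs_nonneg C') (abs_nonneg C₀')
    hG hJ' h0' ht3
  have hI := inner hn (by omega) hν2 hm1 hκ0 hκ hq9 (abs_nonneg C')
    (fun i hi => hG i (hj.trans hi)) (fun i hi => hJ' i (hj.trans hi)) (by
      obtain ⟨C₁, h1⟩ := hF (m + 1)
      refine ⟨C₁, ?_⟩
      filter_upwards [h1, hA a ha2] with i h2 h3 w h4 h5
      exact h2 w (h3 w h4 h5)) ht1 (ht4.trans ht5)
  have hc := cauchy hn (n * m) (hG j hj) (s₁ := κ ^ n * ‖t‖ ^ n) (s₂ := a' / j) (by positivity)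
    (by
      have h1 : 1 / (4 * (j : ℝ)) < 9 / 10 * (1 / (3 * j)) := by
        rw [← mul_div_assoc, div_lt_div_iff₀ (by positivity) (by positivity)]
        linarith
      exact h1.trans_le (mul_le_mul hq9 ht1 (by positivity) hq0.le))
    ht5 (mul_lt_of_lt_one_left hT hq1) ht4
  have hN : 2 * Real.pi * ‖ψ j t‖ ≤ ‖J n (n * m) t (ψ j) (a' / j)‖ +
      ‖J n (n * m) t (ψ j) (κ ^ n * ‖t‖ ^ n)‖ := by
    refine le_trans (le_of_eq ?_) (norm_sub_le _ _)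
    rw [hc]
    simp [abs_of_pos Real.pi_pos]
  have e1 : Real.exp (-(m : ℝ)) ≤ Real.exp 1 * Real.exp (-ν * j) := by
    rw [← Real.exp_add]
    exact Real.exp_le_exp.2 (by linarith)
  have e2 : Real.exp (-ν * j) ≤ Real.exp (-μ * j) := Real.exp_le_exp.2 (by
    have := mul_le_mul_of_nonneg_right hν1.le hj0.le
    linarith)
  have e3 : j * Real.exp (-ν * j) ≤ (ν - μ)⁻¹ * Real.exp (-μ * j) := lin_exp hν1
  have e4 : (κ ^ n)⁻¹ ^ m * Real.exp (ν - j / 4) ≤ Real.exp ν * Real.exp (-μ * j) := by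
    have h1 : (κ ^ n)⁻¹ ≤ Real.exp (1 - 4 * μ) := by
      rw [← neg_sub, Real.exp_neg]
      exact inv_anti₀ (Real.exp_pos _) hqe
    refine (mul_le_mul_of_nonneg_right (pow_le_pow_left₀ (by positivity) h1 m)
      (by positivity)).trans ?_
    rw [← Real.exp_nat_mul, ← Real.exp_add, ← Real.exp_add]
    refine Real.exp_le_exp.2 ?_
    have := mul_le_mul_of_nonneg_right hm3 (by linarith : 0 ≤ 1 - 4 * μ)
    linarith
  have f1 : (|C₀'| * Real.exp (j₁ / 4) + j * (|C'| * Real.exp (1 / 4))) * Real.exp (-(m : ℝ)) ≤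
      (|C₀'| * Real.exp (j₁ / 4) * Real.exp 1 +
        |C'| * Real.exp (1 / 4) * Real.exp 1 * (ν - μ)⁻¹) * Real.exp (-μ * j) := by
    refine (mul_le_mul_of_nonneg_left e1 (by positivity)).trans ?_
    have g1 := mul_le_mul_of_nonneg_left e2
      (by positivity : 0 ≤ |C₀'| * Real.exp (j₁ / 4) * Real.exp 1)
    have g2 := mul_le_mul_of_nonneg_left e3
      (by positivity : 0 ≤ |C'| * Real.exp (1 / 4) * Real.exp 1)
    linear_combination g1 + g2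
  have f2 : |C'| * ((κ ^ n)⁻¹ ^ m * Real.exp (ν - j / 4)) / (1 - Real.exp (ν - 1 / 4)) ≤
      |C'| * Real.exp ν / (1 - Real.exp (ν - 1 / 4)) * Real.exp (-μ * j) := by
    rw [div_mul_eq_mul_div, mul_assoc]
    exact div_le_div_of_nonneg_right (mul_le_mul_of_nonneg_left e4 (abs_nonneg _)) hr.le
  rw [← hD] at hO hI
  rw [mul_div_assoc] at hI
  have hπ : 0 < 2 * Real.pi := by positivity
  have g1 := mul_le_mul_of_nonneg_left f1 (by positivity : 0 ≤ 2 * Real.pi * D)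
  have g2 := mul_le_mul_of_nonneg_left f2 (by positivity : 0 ≤ 2 * Real.pi * D)
  refine le_of_mul_le_mul_left ?_ hπ
  linear_combination hN + hO + hI + g1 + g2

end Mu

theorem mu_proof : MuStmt := by
  intro n A ψ hn hA hN hd hF hJ μ' hμ'
  set μ := max μ' (1 / 5) with hμdef
  have hμ5 : 1 / 5 ≤ μ := le_max_right _ _
  have hμ : μ < 1 / 4 := max_lt hμ' (by norm_num)
  obtain ⟨ν, hν1, hν2⟩ := exists_between hμ
  have hν0 : 0 < ν := by linarith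
  set l := μ / ν with hl
  have hl1 : l < 1 := (div_lt_one hν0).2 hν1
  have hl2 : 4 / 5 ≤ l := by
    rw [hl, le_div_iff₀ hν0]
    linarith
  have hl0 : 0 < l := by linarith
  have hlν : l * ν = μ := div_mul_cancel₀ _ hν0.ne'
  obtain ⟨C₁, h1⟩ := Mu.step1 hn hA hd hF hJ hν0.le hν2 (τ := 1 + l) (by linarith) (by linarith)
  obtain ⟨C', hJ⟩ := hJ
  obtain ⟨j₁, hj₁⟩ := eventually_atTop.1 (h1.and (hN.and (hJ.and (eventually_ge_atTop 6))))
  have hδ0 : 0 < l⁻¹ - 1 := sub_pos.2 ((one_lt_inv₀ hl0).2 hl1)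
  have hδ1 : l⁻¹ - 1 < 1 := by
    have : l⁻¹ < 2 := by
      rw [inv_lt_comm₀ hl0 (by norm_num)]
      linarith
    linarith
  refine ⟨l⁻¹ - 1, (|C₁| + 2 * |C'| * (1 / 4 - ν)⁻¹) * Real.exp ν, hδ0, ?_⟩
  filter_upwards [eventually_ge_atTop (2 * j₁)] with j hj t ht ht1 ht2
  have hj6 : 6 ≤ j₁ := (hj₁ j₁ le_rfl).2.2.2
  have hj12 : (12 : ℝ) ≤ j := by exact_mod_cast (by omega : 12 ≤ j)
  have hj0 : (0 : ℝ) < j := by linarith
  set k : ℕ := ⌊l * j⌋₊ with hk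
  have hk1 : (k : ℝ) ≤ l * j := Nat.floor_le (by positivity)
  have hk2 : l * j < k + 1 := Nat.lt_floor_add_one _
  have hk3 : 2 * (j : ℝ) ≤ 3 * k := by nlinarith
  have hk0 : (0 : ℝ) < k := by linarith
  have hkj : k ≤ j := by
    have : (k : ℝ) ≤ j := by nlinarith
    exact_mod_cast this
  have hk₁ : j₁ ≤ k := by
    have h2 : 2 * (j₁ : ℝ) ≤ j := by exact_mod_cast hj
    have : (j₁ : ℝ) ≤ k := by linarith
    exact_mod_cast this
  have hlo : 1 / (3 * (k : ℝ)) ≤ ‖t‖ ^ n :=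
    (div_le_div_of_nonneg_left zero_le_one (by positivity) hk3).trans ht1
  have hhi : ‖t‖ ^ n ≤ (1 + l) / k := by
    refine ht2.trans ?_
    rw [div_le_div_iff₀ hj0 hk0]
    have h2 : (2 + (l⁻¹ - 1)) * l = 1 + l := by field_simp; ring
    have h3 := mul_le_mul_of_nonneg_left hk1 (by linarith : 0 ≤ 2 + (l⁻¹ - 1))
    rw [← mul_assoc, h2] at h3
    exact h3
  have hmem : ∀ i, k ≤ i → i ≤ j → t ∈ A i := by
    intro i hi hij
    have h2 : (k : ℝ) ≤ i := by exact_mod_cast hi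
    have h3 : (i : ℝ) ≤ j := by exact_mod_cast hij
    have h4 : (0 : ℝ) < i := by linarith
    refine (hj₁ i (hk₁.trans hi)).2.1 j hij t ht (lt_of_lt_of_le ?_ hlo) (ht2.trans_lt ?_)
    · exact div_lt_div_of_pos_left zero_lt_one (by positivity) (by linarith)
    · rw [div_lt_div_iff₀ hj0 h4]
      nlinarith
  have htel := Mu.tele (fun i => ψ i t) hkj (B := |C'| * Real.exp (-(1 / 4) * k))
    (by positivity) fun i hi hij => by
      have h2 : (k : ℝ) ≤ i := by exact_mod_cast hi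
      refine ((hj₁ i (hk₁.trans hi)).2.2.1 t (hmem i hi hij.le)
        (hmem (i + 1) (by omega) hij)).trans ?_
      exact mul_le_mul (le_abs_self _) (Real.exp_le_exp.2 (by linarith)) (by positivity)
        (abs_nonneg _)
  have hbase := ((hj₁ k hk₁).1 t hlo hhi).trans
    (mul_le_mul_of_nonneg_right (le_abs_self C₁) (by positivity))
  have e1 : k * Real.exp (-(1 / 4) * k) ≤ (1 / 4 - ν)⁻¹ * Real.exp (-ν * k) := Mu.lin_exp hν2
  have e2 : Real.exp (-ν * k) ≤ Real.exp ν * Real.exp (-μ' * j) := by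
    rw [← Real.exp_add]
    refine Real.exp_le_exp.2 ?_
    have h2 : μ' * j ≤ μ * j := mul_le_mul_of_nonneg_right (le_max_left _ _) hj0.le
    have h3 : ν * (l * j) ≤ ν * (k + 1) := mul_le_mul_of_nonneg_left hk2.le hν0.le
    have h4 : ν * (l * j) = μ * j := by rw [← hlν]; ring
    linarith
  have e3 : (j : ℝ) * (|C'| * Real.exp (-(1 / 4) * k)) ≤
      2 * |C'| * (1 / 4 - ν)⁻¹ * Real.exp (-ν * k) := by
    have h2 := mul_le_mul_of_nonneg_left e1 (by positivity : 0 ≤ 2 * |C'|)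
    have h3 := mul_le_mul_of_nonneg_right (by linarith : (j : ℝ) ≤ 2 * k)
      (by positivity : 0 ≤ |C'| * Real.exp (-(1 / 4) * k))
    linarith
  have h9 := norm_le_insert' (ψ j t) (ψ k t)
  have hpos : 0 ≤ |C₁| + 2 * |C'| * (1 / 4 - ν)⁻¹ := by
    have : 0 < 1 / 4 - ν := by linarith
    positivity
  have e4 := mul_le_mul_of_nonneg_left e2 hpos
  linarith

end Vale.Agent.P218F.K
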