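import Vale.Agent.P218F.KSpec
import Mathlib.Analysis.Analytic.IsolatedZeros
import Mathlib.Analysis.Calculus.InverseFunctionTheorem.Analytic
import Mathlib.Analysis.Calculus.InverseFunctionTheorem.Deriv
import Mathlib.Analysis.SpecialFunctions.Trigonometric.Bounds
import Mathlib.Analysis.SpecialFunctions.Complex.Analytic
import Mathlib.Analysis.SpecialFunctions.Complex.LogDeriv
import Mathlib.Analysis.SpecialFunctions.Pow.Asymptotics
import Mathlib.Analysis.Complex.RealDeriv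

/-! Block K, leaf K-NF: the normal form of the end parameters along the arc. -/

open Filter Topology Set Asymptotics

noncomputable section

namespace Vale.Agent.P218F.K

namespace NF

/-- real on the real axis near `0` -/
def RR (f : ℂ → ℂ) : Prop := ∀ᶠ t : ℝ in 𝓝 0, (f t).im = 0

lemma ofReal_tendsto : Tendsto (fun t : ℝ => (t : ℂ)) (𝓝 0) (𝓝 0) := by
  simpa using Complex.continuous_ofReal.tendsto 0

lemma RR.zero {f : ℂ → ℂ} (h : RR f) : (f 0).im = 0 := by simpa using h.self_of_nhds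

lemma RR.div {f g : ℂ → ℂ} {m : ℕ} (h : RR f) (hg : AnalyticAt ℂ g 0)
    (e : ∀ᶠ v in 𝓝 0, f v = v ^ m * g v) : RR g := by
  have h1 : ∀ᶠ t : ℝ in 𝓝[≠] 0, (g t).im = 0 := by
    filter_upwards [nhdsWithin_le_nhds h, nhdsWithin_le_nhds (ofReal_tendsto.eventually e),
      self_mem_nhdsWithin] with t h1 h2 h3
    rw [h2, ← Complex.ofReal_pow, Complex.im_ofReal_mul] at h1
    exact (mul_eq_zero.1 h1).resolve_left (pow_ne_zero _ h3)
  have h2 : Tendsto (fun t : ℝ => (g t).im) (𝓝[≠] 0) (𝓝 (g 0).im) :=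
    ((Complex.continuous_im.tendsto _).comp (hg.continuousAt.tendsto.comp ofReal_tendsto)).mono_left
      nhdsWithin_le_nhds
  have h3 : (g 0).im = 0 := tendsto_nhds_unique h2 (tendsto_const_nhds.congr' (h1.mono fun _ h => h.symm))
  rw [eventually_nhdsWithin_iff] at h1
  filter_upwards [h1] with t ht
  by_cases h0 : t = 0
  · rw [h0]; simpa using h3
  · exact ht h0

/-- division by powers -/
lemma dich {f : ℂ → ℂ} (hf : AnalyticAt ℂ f 0) (n : ℕ) :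
    ∃ (m : ℕ) (g : ℂ → ℂ), AnalyticAt ℂ g 0 ∧ (∀ᶠ v in 𝓝 0, f v = v ^ m * g v) ∧
      (m = n ∨ (m < n ∧ g 0 ≠ 0)) := by
  by_cases h : ∀ᶠ z in 𝓝 (0 : ℂ), f z = 0
  · exact ⟨n, fun _ => 0, analyticAt_const, h.mono fun v hv => by simp [hv], Or.inl rfl⟩
  obtain ⟨m, g, hg, h0, e⟩ := hf.exists_eventuallyEq_pow_smul_nonzero_iff.2 h
  simp only [sub_zero, smul_eq_mul] at e
  rcases lt_or_ge m n with hm | hm
  · exact ⟨m, g, hg, e, Or.inr ⟨hm, h0⟩⟩
  · obtain ⟨k, rfl⟩ := Nat.exists_eq_add_of_le hm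
    exact ⟨n, fun v => v ^ k * g v, (analyticAt_id.pow k).mul hg,
      e.mono fun v hv => by rw [hv, pow_add, mul_assoc], Or.inl rfl⟩

lemma pos_of {f g : ℂ → ℂ} {m : ℕ} (h0 : f 0 = 0) (e : ∀ᶠ v in 𝓝 0, f v = v ^ m * g v)
    (hg : g 0 ≠ 0) : 0 < m := by
  rcases Nat.eq_zero_or_pos m with rfl | h
  · have := e.self_of_nhds
    rw [h0, pow_zero, one_mul] at this
    exact absurd this.symm hg
  · exact h

lemma div_of_bigO {f : ℂ → ℂ} {n : ℕ} (hf : AnalyticAt ℂ f 0)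
    (h : f =O[𝓝 0] fun t : ℂ => t ^ n) :
    ∃ g : ℂ → ℂ, AnalyticAt ℂ g 0 ∧ ∀ᶠ v in 𝓝 0, f v = v ^ n * g v := by
  obtain ⟨m, g, hg, e, rfl | ⟨hm, h0⟩⟩ := dich hf n
  · exact ⟨g, hg, e⟩
  exfalso
  obtain ⟨k, rfl⟩ := Nat.exists_eq_add_of_lt hm
  obtain ⟨C, hC⟩ := h.bound
  have h1 : ∀ᶠ v in 𝓝[≠] (0 : ℂ), ‖g v‖ ≤ C * ‖v‖ ^ (k + 1) := by
    filter_upwards [nhdsWithin_le_nhds hC, nhdsWithin_le_nhds e, self_mem_nhdsWithin] with v h1 h2 h3
    have hv : 0 < ‖v‖ ^ m := pow_pos (norm_pos_iff.2 h3) _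
    rw [h2, norm_mul, norm_pow, norm_pow, add_assoc, pow_add] at h1
    refine le_of_mul_le_mul_left ?_ hv
    linarith
  have h2 : Tendsto (fun v : ℂ => C * ‖v‖ ^ (k + 1)) (𝓝[≠] 0) (𝓝 0) := by
    have : Continuous fun v : ℂ => C * ‖v‖ ^ (k + 1) := by fun_prop
    simpa using (this.tendsto 0).mono_left nhdsWithin_le_nhds
  have h3 := le_of_tendsto_of_tendsto (hg.continuousAt.norm.tendsto.mono_left nhdsWithin_le_nhds) h2 h1
  exact h0 (norm_le_zero_iff.1 h3)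

/-- the local inverse of `t ↦ t exp (L t / n)` -/
lemma exists_inv {L : ℂ → ℂ} (hL : AnalyticAt ℂ L 0) (h0 : L 0 = 0) (hr : RR L) (n : ℕ) :
    ∃ sg : ℂ → ℂ, AnalyticAt ℂ sg 0 ∧ sg 0 = 0 ∧ (∀ᶠ v : ℝ in 𝓝 0, (sg v).im = 0) ∧
      (∀ᶠ v in 𝓝 0, sg v * Complex.exp (L (sg v) / n) = v) ∧
      ∀ᶠ t in 𝓝 0, sg (t * Complex.exp (L t / n)) = t := by
  set th : ℂ → ℂ := fun t => t * Complex.exp (L t / n) with hth
  have ha : AnalyticAt ℂ th 0 := analyticAt_id.mul (hL.div_const (c := (n : ℂ))).cexp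
  have hd : HasDerivAt th 1 0 := by
    have h1 := (hasDerivAt_id (0 : ℂ)).mul ((hL.differentiableAt.hasDerivAt.div_const (n : ℂ)).cexp)
    exact h1.congr_deriv (by simp [h0])
  have hne : deriv th 0 ≠ 0 := by rw [hd.deriv]; exact one_ne_zero
  have t0 : th 0 = 0 := by simp [hth]
  have hl := ha.hasStrictDerivAt.eventually_left_inverse hne
  have hrt := ha.hasStrictDerivAt.eventually_right_inverse hne
  have han := ha.analyticAt_localInverse hne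
  rw [t0] at hrt han
  refine ⟨_, han, ?_, ?_, hrt, hl⟩
  · have := hl.self_of_nhds
    rwa [t0] at this
  · have hs : HasStrictDerivAt (fun x : ℝ => (th x).re) (deriv th 0).re 0 :=
      HasStrictDerivAt.real_of_complex (by simpa using ha.hasStrictDerivAt)
    have hm := hs.map_nhds_eq (by rw [hd.deriv]; simp)
    simp only [Complex.ofReal_zero, t0, Complex.zero_re] at hm
    rw [← hm, eventually_map]
    filter_upwards [hr, ofReal_tendsto.eventually hl] with t h1 h2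
    have h3 : (th t).im = 0 := by
      have : L t = ((L t).re : ℝ) := Complex.ext rfl (by simpa using h1)
      simp only [hth]
      rw [this, ← Complex.ofReal_natCast, ← Complex.ofReal_div, ← Complex.ofReal_exp,
        ← Complex.ofReal_mul, Complex.ofReal_im]
    have h4 : (((th t).re : ℝ) : ℂ) = th t := Complex.ext rfl (by simpa using h3.symm)
    rw [h4, h2, Complex.ofReal_im]

/-! ### Sectors -/

lemma ev_sec {κ₀ : ℝ} {Q : ℂ → Prop} :
    (∀ᶠ ω in atSec κ₀, Q ω) ↔ ∃ ω₀, ∀ ω ∈ Sec ω₀ κ₀, Q ω := by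
  rw [atSec, eventually_inf_principal, eventually_comap, eventually_atTop]
  constructor
  · rintro ⟨a, ha⟩
    exact ⟨a, fun ω hω => ha _ hω.1.le ω rfl hω.2⟩
  · rintro ⟨a, ha⟩
    exact ⟨a + 1, fun b hb ω e h => ha ω ⟨by rw [e]; linarith, h⟩⟩

lemma tendsto_re (κ₀ : ℝ) : Tendsto Complex.re (atSec κ₀) atTop :=
  tendsto_comap.mono_left inf_le_left

lemma ev_im (κ₀ : ℝ) : ∀ᶠ ω in atSec κ₀, |ω.im| < κ₀ * ω.re :=
  ev_sec.2 ⟨0, fun _ h => h.2⟩

lemma ev_pos (κ₀ : ℝ) : ∀ᶠ ω in atSec κ₀, 1 < ω.re := (tendsto_re κ₀).eventually_gt_atTop 1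

lemma tendsto_norm (κ₀ : ℝ) : Tendsto (fun ω : ℂ => ‖ω‖) (atSec κ₀) atTop :=
  tendsto_atTop_mono (fun ω => Complex.re_le_norm ω) (tendsto_re κ₀)

lemma ne_zero_of {ω : ℂ} (h : 1 < ω.re) : ω ≠ 0 := by
  rintro rfl
  norm_num at h

lemma abs_arg_le {κ₀ : ℝ} {ω : ℂ} (h : 1 < ω.re) (hi : |ω.im| < κ₀ * ω.re) : |ω.arg| ≤ κ₀ := by
  have h1 : |ω.arg| < Real.pi / 2 := Complex.abs_arg_lt_pi_div_two_iff.2 (Or.inl (by linarith))
  have h2 := Real.le_tan (abs_nonneg _) h1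
  have h3 : Real.tan |ω.arg| ≤ |Real.tan ω.arg| := by
    rcases abs_cases ω.arg with h | h
    · rw [h.1]; exact le_abs_self _
    · rw [h.1, Real.tan_neg]; exact neg_le_abs _
  rw [Complex.tan_arg, abs_div, abs_of_pos (show 0 < ω.re by linarith)] at h3
  have h4 : |ω.im| / ω.re ≤ κ₀ := by rw [div_le_iff₀ (by linarith)]; exact hi.le
  linarith

/-- the power `ω ^ ν` -/
def pw (ν : ℝ) (ω : ℂ) : ℂ := Complex.exp (ν * Complex.log ω)

lemma pw_polar (ν : ℝ) (ω : ℂ) : pw ν ω =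
    (Real.exp (ν * Real.log ‖ω‖) : ℝ) * Complex.exp (Complex.I * (ν * ω.arg : ℝ)) := by
  rw [pw, Complex.log, Complex.ofReal_exp, ← Complex.exp_add]
  congr 1
  push_cast
  ring

lemma norm_pw (ν : ℝ) (ω : ℂ) : ‖pw ν ω‖ = Real.exp (ν * Real.log ‖ω‖) := by
  rw [pw, Complex.norm_exp, Complex.re_ofReal_mul, Complex.log_re]

lemma pw_pow (ν : ℝ) (ω : ℂ) (m : ℕ) : pw ν ω ^ m = pw (m * ν) ω := by
  rw [pw, pw, ← Complex.exp_nat_mul]
  congr 1
  push_cast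
  ring

lemma mul_pw (ν : ℝ) {ω : ℂ} (h : ω ≠ 0) : ω * pw ν ω = pw (1 + ν) ω := by
  rw [pw, pw]
  push_cast
  rw [add_mul, one_mul, Complex.exp_add, Complex.exp_log h]

lemma pw_zero (ω : ℂ) : pw 0 ω = 1 := by simp [pw]

lemma pw_diff (ν : ℝ) {ω : ℂ} (h : 1 < ω.re) : DifferentiableAt ℂ (pw ν) ω :=
  ((Complex.differentiableAt_log (Or.inl (by linarith))).const_mul _).cexp

lemma tendsto_pw {ν : ℝ} (hν : ν < 0) (κ₀ : ℝ) : Tendsto (pw ν) (atSec κ₀) (𝓝 0) := by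
  rw [tendsto_zero_iff_norm_tendsto_zero]
  simp only [norm_pw]
  exact Real.tendsto_exp_atBot.comp
    ((Real.tendsto_log_atTop.comp (tendsto_norm κ₀)).const_mul_atTop_of_neg hν)

lemma diff_comp {κ₀ : ℝ} {F v : ℂ → ℂ} (hF : AnalyticAt ℂ F 0) (hv : Tendsto v (atSec κ₀) (𝓝 0))
    (hd : ∀ ω : ℂ, 1 < ω.re → DifferentiableAt ℂ v ω) :
    ∀ᶠ ω in atSec κ₀, DifferentiableAt ℂ (fun ω => F (v ω)) ω := by
  filter_upwards [hv.eventually hF.eventually_analyticAt, ev_pos κ₀] with ω h1 h2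
  exact h1.differentiableAt.comp ω (hd ω h2)

lemma diffOn_of {κ₀ : ℝ} {F : ℂ → ℂ} (h : ∀ᶠ ω in atSec κ₀, DifferentiableAt ℂ F ω) :
    ∃ ω₀, DifferentiableOn ℂ F (Sec ω₀ κ₀) := by
  obtain ⟨ω₀, h⟩ := ev_sec.1 h
  exact ⟨ω₀, fun ω hω => (h ω hω).differentiableWithinAt⟩

lemma log_small {δ c : ℝ} (hδ : 0 < δ) (hc : 0 < c) (M : ℝ) :
    ∀ᶠ x : ℝ in atTop, M * Real.log x ≤ c * Real.exp (δ * Real.log x) := by
  have h := (isLittleO_log_rpow_atTop hδ).const_mul_left M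
  filter_upwards [h.bound hc, eventually_gt_atTop 0] with x h1 h2
  rw [Real.norm_eq_abs, Real.norm_eq_abs, abs_of_pos (Real.rpow_pos_of_pos h2 _),
    Real.rpow_def_of_pos h2, mul_comm (Real.log x)] at h1
  exact (le_abs_self _).trans h1

lemma den_pos (M : ℝ) : ∀ᶠ x : ℝ in atTop, 0 < x ^ 2 + M * Real.log x := by
  filter_upwards [log_small two_pos (show (0 : ℝ) < 1 / 2 by norm_num) (-M),
    eventually_gt_atTop 0] with x h1 h2
  have : Real.exp (2 * Real.log x) = x ^ 2 := by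
    rw [show (2 : ℝ) = (2 : ℕ) by norm_num, Real.exp_nat_mul, Real.exp_log h2]
  rw [this] at h1
  nlinarith [pow_pos h2 2]

/-- the bound in `Lost` from the limit of `P ω²` -/
lemma norm_bd {κ₀ μ : ℝ} {P : ℂ → ℂ} (hμ : |μ| ≤ 1)
    (h : Tendsto (fun ω => P ω * ω ^ 2) (atSec κ₀) (𝓝 μ)) :
    ∀ᶠ ω in atSec κ₀, ‖P ω‖ * ‖ω‖ ^ 2 ≤ 10 / 9 := by
  have h1 := h.norm
  rw [Complex.norm_real, Real.norm_eq_abs] at h1
  filter_upwards [h1.eventually_le_const (show |μ| < 10 / 9 by linarith)] with ω h2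
  rwa [norm_mul, norm_pow] at h2

/-- an end with another leading coefficient is lost -/
lemma lost_of_lim {κ₀ μ : ℝ} {P : ℂ → ℂ} (hκ : κ₀ ≤ 1 / 2) (hμ : |μ| ≤ 1) (hμ' : -1 < μ)
    (hd : ∀ᶠ ω in atSec κ₀, DifferentiableAt ℂ P ω)
    (h : Tendsto (fun ω => P ω * ω ^ 2) (atSec κ₀) (𝓝 μ)) : Lost κ₀ P := by
  refine ⟨diffOn_of hd, norm_bd hμ h, fun M => ?_⟩
  rcases (abs_le.1 hμ).2.eq_or_lt with rfl | hμ1
  · filter_upwards [(Metric.tendsto_nhds.1 h) (1 / 2) (by norm_num), ev_pos κ₀, ev_im κ₀]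
      with ω h1 h2 h3
    right
    have hω := ne_zero_of h2
    have hN : 0 < ‖ω‖ ^ 2 := by positivity
    have e : P ω = (ω ^ 2)⁻¹ + (P ω * ω ^ 2 - (1 : ℝ)) * (ω ^ 2)⁻¹ := by
      push_cast; field_simp; ring
    have n2 : 1 / 2 * (‖ω‖ ^ 2)⁻¹ ≤ ((ω ^ 2)⁻¹).re := by
      rw [Complex.inv_re, Complex.normSq_eq_norm_sq, norm_pow, le_div_iff₀ (by positivity),
        show 1 / 2 * (‖ω‖ ^ 2)⁻¹ * (‖ω‖ ^ 2) ^ 2 = 1 / 2 * ‖ω‖ ^ 2 by field_simp,
        ← Complex.normSq_eq_norm_sq, Complex.normSq_apply, sq, Complex.mul_re]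
      have : |ω.im| ≤ ω.re / 2 := by nlinarith
      have := abs_le.1 this
      nlinarith
    have n4 : -((P ω * ω ^ 2 - (1 : ℝ)) * (ω ^ 2)⁻¹).re ≤ 1 / 2 * (‖ω‖ ^ 2)⁻¹ := by
      refine (neg_le_abs _).trans ((Complex.abs_re_le_norm _).trans ?_)
      rw [norm_mul, norm_inv, norm_pow]
      rw [dist_eq_norm] at h1
      gcongr
    rw [e, Complex.add_re]
    linarith
  obtain ⟨δ, hδ, hδ1, hδ2⟩ : ∃ δ : ℝ, 0 < δ ∧ δ ≤ 1 / 3 ∧ |μ| < 1 - 2 * δ := by
    have := abs_lt.2 ⟨hμ', hμ1⟩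
    exact ⟨(1 - |μ|) / 3, by linarith, by linarith [abs_nonneg μ], by linarith⟩
  have h0 := h.norm
  rw [Complex.norm_real, Real.norm_eq_abs] at h0
  filter_upwards [h0.eventually_le_const hδ2, ev_pos κ₀, (tendsto_re κ₀).eventually (den_pos M),
    (tendsto_re κ₀).eventually (log_small two_pos hδ |M|)] with ω h1 h2 h4 h5
  left
  set x := ω.re
  have hx : Real.exp (2 * Real.log x) = x ^ 2 := by
    rw [show (2 : ℝ) = (2 : ℕ) by norm_num, Real.exp_nat_mul, Real.exp_log (by linarith)]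
  rw [hx] at h5
  have hl : 0 ≤ Real.log x := Real.log_nonneg h2.le
  have hn : x ≤ ‖ω‖ := Complex.re_le_norm ω
  have hx2 : x ^ 2 ≤ ‖ω‖ ^ 2 := by gcongr
  have hxp : 0 < x ^ 2 := by positivity
  rw [norm_mul, norm_pow] at h1
  have n5 : ‖P ω‖ ≤ (1 - 2 * δ) / x ^ 2 := by
    rw [le_div_iff₀ hxp]
    exact le_trans (by gcongr) h1
  refine n5.trans ?_
  rw [div_le_div_iff₀ hxp h4]
  have : M * Real.log x ≤ |M| * Real.log x := by gcongr; exact le_abs_self _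
  nlinarith [mul_nonneg hδ.le hxp.le, mul_nonneg (mul_nonneg hδ.le hδ.le) hxp.le]

/-- an end with `P = -1 / w²` and `re w` larger than `re ω` by a definite amount is lost -/
lemma lost_of_gt {κ₀ ν c : ℝ} {P w : ℂ → ℂ} (hκ : κ₀ ≤ 1 / 2) (hν : -1 < ν) (hc : 0 < c)
    (hd : ∀ᶠ ω in atSec κ₀, DifferentiableAt ℂ P ω)
    (h : Tendsto (fun ω => P ω * ω ^ 2) (atSec κ₀) (𝓝 (-1 : ℝ)))
    (hP : ∀ᶠ ω in atSec κ₀, P ω = -1 / w ω ^ 2)
    (hw : ∀ᶠ ω in atSec κ₀, ω.re + c * Real.exp (ν * Real.log ‖ω‖) ≤ (w ω).re) : Lost κ₀ P := by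
  refine ⟨diffOn_of hd, norm_bd (by simp) h, fun M => ?_⟩
  filter_upwards [hP, hw, ev_pos κ₀, ev_im κ₀, (tendsto_re κ₀).eventually (den_pos M),
    (tendsto_re κ₀).eventually (log_small (show 0 < 1 + ν by linarith) hc M)] with ω h1 h2 h3 h4 h5 h6
  set x := ω.re
  have hn : x ≤ ‖ω‖ := Complex.re_le_norm ω
  have hn2 : ‖ω‖ ≤ 2 * x := by
    have := Complex.norm_le_abs_re_add_abs_im ω
    rw [abs_of_pos (show 0 < ω.re by linarith)] at this
    nlinarith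
  have hE := Real.exp_pos (ν * Real.log ‖ω‖)
  have h7 : Real.exp ((1 + ν) * Real.log x) ≤ ‖ω‖ * Real.exp (ν * Real.log ‖ω‖) := by
    have : Real.exp ((1 + ν) * Real.log x) ≤ Real.exp ((1 + ν) * Real.log ‖ω‖) := by
      gcongr
      linarith
    rwa [add_mul (1 : ℝ) ν (Real.log ‖ω‖), one_mul, Real.exp_add, Real.exp_log (by linarith)] at this
  have h8 : x ^ 2 + M * Real.log x ≤ (w ω).re ^ 2 := by
    have a1 : (x + c * Real.exp (ν * Real.log ‖ω‖)) ^ 2 ≤ (w ω).re ^ 2 := by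
      gcongr
    have a2 : c * Real.exp ((1 + ν) * Real.log x) ≤ c * (2 * x * Real.exp (ν * Real.log ‖ω‖)) := by
      gcongr
      exact h7.trans (by gcongr)
    nlinarith [sq_nonneg (c * Real.exp (ν * Real.log ‖ω‖))]
  have h9 : (w ω).re ^ 2 ≤ ‖w ω‖ ^ 2 := by
    rw [← sq_abs]; gcongr; exact Complex.abs_re_le_norm _
  left
  rw [h1, norm_div, norm_neg, norm_one, norm_pow]
  exact one_div_le_one_div_of_le h5 (h8.trans h9)

/-- the first term of the expansion which changes the real part -/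
lemma expand {f : ℂ → ℂ} {n : ℕ} {ε : ℂ} (hf : AnalyticAt ℂ f 0) (h0 : f 0 = 0) (hr : RR f)
    (hε : ∀ m, 0 < m → m < n → (ε ^ m).re = 0 → 2 * m = n) :
    ∃ (c : ℝ) (h m : ℕ) (g : ℂ → ℂ), AnalyticAt ℂ g 0 ∧ (g 0).im = 0 ∧
      (c = 0 ∨ (2 * h = n ∧ (ε ^ h).re = 0)) ∧ (∀ᶠ v in 𝓝 0, f v = c * v ^ h + v ^ m * g v) ∧
      (m = n ∨ (0 < m ∧ m < n ∧ g 0 ≠ 0 ∧ (ε ^ m).re ≠ 0)) := by
  obtain ⟨m, g, hg, e, hm⟩ := dich hf n
  have hgr := hr.div hg e
  have e' : ∀ᶠ v in 𝓝 0, f v = (0 : ℝ) * v ^ 0 + v ^ m * g v := e.mono fun v hv => by simp [hv]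
  rcases hm with hm | ⟨hm, hg0⟩
  · exact ⟨0, 0, m, g, hg, hgr.zero, Or.inl rfl, e', Or.inl hm⟩
  have hp := pos_of h0 e hg0
  by_cases hz : (ε ^ m).re = 0
  swap
  · exact ⟨0, 0, m, g, hg, hgr.zero, Or.inl rfl, e', Or.inr ⟨hp, hm, hg0, hz⟩⟩
  have hg1 : AnalyticAt ℂ (fun v => g v - g 0) 0 := hg.sub analyticAt_const
  obtain ⟨m', g', hg', e1, hm'⟩ := dich hg1 (n - m)
  have hr1 : RR fun v => g v - g 0 := hgr.mono fun t ht => by simp [ht, hgr.zero]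
  have hc : (((g 0).re : ℝ) : ℂ) = g 0 := Complex.ext rfl (by simpa using hgr.zero.symm)
  refine ⟨(g 0).re, m, m + m', g', hg', (hr1.div hg' e1).zero, Or.inr ⟨hε m hp hm hz, hz⟩, ?_, ?_⟩
  · filter_upwards [e, e1] with v h1 h2
    rw [h1, hc, pow_add, mul_assoc, ← h2]
    ring
  rcases hm' with hm' | ⟨hm', hg0'⟩
  · left; omega
  have hp' := pos_of (by simp) e1 hg0'
  refine Or.inr ⟨by omega, by omega, hg0', fun hz' => ?_⟩
  have a1 := hε m hp hm hz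
  have a2 := hε (m + m') (by omega) (by omega) hz'
  omega

lemma mul_vv {n : ℕ} (ε : ℂ) {ω : ℂ} (hω : ω ≠ 0) (m : ℕ) :
    ω * (ε * pw (-2 / n) ω) ^ m = ε ^ m * pw (1 + m * (-2 / n)) ω := by
  rw [mul_pow, pw_pow, ← mul_pw _ hω]
  ring

lemma tendsto_vv {n : ℕ} (hn : 0 < n) (ε : ℂ) (κ₀ : ℝ) :
    Tendsto (fun ω => ε * pw (-2 / n) ω) (atSec κ₀) (𝓝 0) := by
  have : (-2 : ℝ) / n < 0 := div_neg_of_neg_of_pos (by norm_num) (by exact_mod_cast hn)
  simpa using (tendsto_pw this κ₀).const_mul ε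

lemma sq_vv {n : ℕ} (hn : 0 < n) (ε : ℂ) {ω : ℂ} (hω : ω ≠ 0) :
    ω ^ 2 * (ε * pw (-2 / n) ω) ^ n = ε ^ n := by
  have hn' : (n : ℝ) ≠ 0 := by exact_mod_cast hn.ne'
  rw [sq, mul_assoc, mul_vv ε hω, mul_left_comm, mul_pw _ hω,
    show (1 + (1 + n * (-2 / n)) : ℝ) = 0 by field_simp; norm_num, pw_zero, mul_one]

/-- the three possibilities for an end with the same leading coefficient -/
lemma trich {V : ℂ → ℂ} {n : ℕ} {ε : ℂ} {κ₀ : ℝ} (hV : AnalyticAt ℂ V 0) (h0 : V 0 = 1) (hr : RR V)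
    (hn : 0 < n) (hε : ∀ m, 0 < m → m < n → (ε ^ m).re = 0 → 2 * m = n) (hε1 : ‖ε‖ = 1)
    (hεn : (ε ^ n).im = 0) (hκ : 0 < κ₀)
    (hκ' : ∀ m, m < n → (ε ^ m).re ≠ 0 → 4 * κ₀ ≤ |(ε ^ m).re|) :
    (∃ a k : ℝ, Tendsto (fun ω => ω * (ω * V (ε * pw (-2 / n) ω) - ω + Complex.I * a / 2))
      (atSec κ₀) (𝓝 (-(k : ℂ) / 2))) ∨
    (∃ ν c : ℝ, -1 < ν ∧ 0 < c ∧ ∀ᶠ ω in atSec κ₀,
      ω.re + c * Real.exp (ν * Real.log ‖ω‖) ≤ (ω * V (ε * pw (-2 / n) ω)).re) ∨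
    ∀ᶠ ω in atSec κ₀, (ω * V (ε * pw (-2 / n) ω)).re < ω.re := by
  have hn' : (0 : ℝ) < n := by exact_mod_cast hn
  obtain ⟨c, h, m, g, hg, hg0, hc, e, hm⟩ := expand (f := fun v => V v - 1)
    (hV.sub analyticAt_const) (by simp [h0]) (hr.mono fun t ht => by simp [ht]) hε
  have hv := tendsto_vv hn ε κ₀
  have hgv := hg.continuousAt.tendsto.comp hv
  set b := (g 0).re
  have hb : g 0 = b := Complex.ext rfl (by simpa using hg0)
  obtain ⟨a, ha⟩ : ∃ a : ℝ, ∀ᶠ ω in atSec κ₀, ω * V (ε * pw (-2 / n) ω) =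
      ω - Complex.I * a / 2 + ω * (ε * pw (-2 / n) ω) ^ m * g (ε * pw (-2 / n) ω) := by
    refine ⟨-2 * c * (ε ^ h).im, ?_⟩
    filter_upwards [hv.eventually e, ev_pos κ₀] with ω h1 h2
    have h3 : ω * (c * (ε * pw (-2 / n) ω) ^ h) = Complex.I * (c * (ε ^ h).im) := by
      rcases hc with rfl | ⟨h4, h5⟩
      · simp
      · rw [mul_left_comm, mul_vv ε (ne_zero_of h2), show (1 + h * (-2 / n) : ℝ) = 0 by
          rw [← h4] at hn' ⊢; push_cast at hn' ⊢; field_simp [show (h : ℝ) ≠ 0 by linarith]; norm_num,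
          pw_zero, mul_one]
        conv_lhs => rw [← Complex.re_add_im (ε ^ h), h5]
        push_cast
        ring
    rw [eq_add_of_sub_eq h1]
    push_cast
    linear_combination h3
  rcases hm with rfl | ⟨hm0, hm, hb0, hz⟩
  · refine Or.inl ⟨a, -2 * (ε ^ m).re * b, ?_⟩
    have hE : ε ^ m = (ε ^ m).re := Complex.ext rfl (by simpa using hεn)
    have h1 := hgv.const_mul (ε ^ m)
    rw [show -((-2 * (ε ^ m).re * b : ℝ) : ℂ) / 2 = ε ^ m * g 0 by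
      rw [hb]; push_cast; rw [← hE]; ring]
    refine h1.congr' ?_
    filter_upwards [ha, ev_pos κ₀] with ω h2 h3
    rw [h2, Function.comp_apply, ← sq_vv hn ε (ne_zero_of h3)]
    ring
  right
  set ν : ℝ := 1 + m * (-2 / n) with hν
  have hmn : (m : ℝ) / n < 1 := by rw [div_lt_one hn']; exact_mod_cast hm
  have hmn0 : 0 ≤ (m : ℝ) / n := by positivity
  have hν1 : ν = 1 - 2 * (m / n) := by rw [hν]; ring
  have hb1 : 0 < |b| := abs_pos.2 fun h => hb0 (by rw [hb, h]; simp)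
  have key : ∀ᶠ ω in atSec κ₀, ∃ z : ℝ, (ω * V (ε * pw (-2 / n) ω)).re =
      ω.re + Real.exp (ν * Real.log ‖ω‖) * z ∧ |z - (ε ^ m).re * b| ≤ 2 * κ₀ * |b| := by
    filter_upwards [ha, ev_pos κ₀, ev_im κ₀, (Metric.tendsto_nhds.1 hgv) _ (mul_pos hκ hb1)]
      with ω h1 h2 h3 h4
    set u := Complex.exp (Complex.I * (ν * ω.arg : ℝ))
    set G := g (ε * pw (-2 / n) ω)
    refine ⟨(ε ^ m * u * G).re, ?_, ?_⟩
    · rw [h1, mul_vv ε (ne_zero_of h2), pw_polar, ← Complex.re_ofReal_mul, Complex.add_re]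
      congr 1
      · simp
      · congr 1
        ring
    have hu : ‖u - 1‖ ≤ κ₀ := by
      refine Real.norm_exp_I_mul_ofReal_sub_one_le.trans ?_
      rw [Real.norm_eq_abs, abs_mul]
      have a1 : |ν| ≤ 1 := abs_le.2 ⟨by linarith, by linarith⟩
      have a2 := abs_arg_le h2 h3
      nlinarith [abs_nonneg ν, abs_nonneg ω.arg]
    have hu1 : ‖u‖ = 1 := Complex.norm_exp_I_mul_ofReal _
    have hG : ‖G - b‖ ≤ κ₀ * |b| := by
      rw [← hb, ← dist_eq_norm]; exact h4.le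
    rw [← Complex.re_mul_ofReal, ← Complex.sub_re]
    refine (Complex.abs_re_le_norm _).trans ?_
    rw [show ε ^ m * u * G - ε ^ m * b = ε ^ m * (u * (G - b) + (u - 1) * b) by ring, norm_mul,
      norm_pow, hε1, one_pow, one_mul]
    refine (norm_add_le _ _).trans ?_
    rw [norm_mul, norm_mul, hu1, Complex.norm_real, Real.norm_eq_abs]
    nlinarith
  have hk : 4 * κ₀ * |b| ≤ |(ε ^ m).re * b| := by
    rw [abs_mul]; exact mul_le_mul_of_nonneg_right (hκ' m hm hz) hb1.le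
  have hkb := mul_pos hκ hb1
  rcases abs_cases ((ε ^ m).re * b) with hs | hs
  · refine Or.inl ⟨ν, 2 * κ₀ * |b|, by linarith, by linarith, ?_⟩
    filter_upwards [key] with ω ⟨z, h1, h2⟩
    rw [h1, mul_comm _ z]
    have := abs_le.1 h2
    gcongr
    linarith
  · right
    filter_upwards [key] with ω ⟨z, h1, h2⟩
    have := abs_le.1 h2
    have : z < 0 := by linarith
    rw [h1]
    nlinarith [Real.exp_pos (ν * Real.log ‖ω‖)]

/-- the direction of the contour -/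
lemma exists_eps {lam : ℝ} (hl : |lam| = 1) {n : ℕ} (hn : 0 < n) :
    ∃ ε : ℂ, ‖ε‖ = 1 ∧ ε ^ n = (-lam : ℝ) ∧ ∀ m, 0 < m → m < n → (ε ^ m).re = 0 → 2 * m = n := by
  have hn' : (0 : ℝ) < n := by exact_mod_cast hn
  rcases (abs_eq zero_le_one).1 hl with rfl | rfl
  · have hp : ∀ m : ℕ, Complex.exp (Complex.I * (Real.pi / n : ℝ)) ^ m =
        Complex.exp ((Real.pi * (m / n) : ℝ) * Complex.I) := fun m => by
      rw [← Complex.exp_nat_mul]; congr 1; push_cast; ring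
    refine ⟨Complex.exp (Complex.I * (Real.pi / n : ℝ)), Complex.norm_exp_I_mul_ofReal _, ?_,
      fun m h1 h2 h3 => ?_⟩
    · rw [hp, div_self hn'.ne', mul_one, Complex.exp_pi_mul_I]; simp
    rw [hp, Complex.exp_ofReal_mul_I_re, ← Real.cos_pi_div_two] at h3
    have hmn : (m : ℝ) / n < 1 := by rw [div_lt_one hn']; exact_mod_cast h2
    have hmn0 : 0 ≤ (m : ℝ) / n := by positivity
    have h4 := Real.injOn_cos ⟨by positivity, by nlinarith [Real.pi_pos]⟩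
      ⟨by positivity, by linarith [Real.pi_pos]⟩ h3
    have h5 : (m : ℝ) / n = 1 / 2 := mul_left_cancel₀ Real.pi_pos.ne' (by linarith)
    rw [div_eq_div_iff hn'.ne' two_ne_zero] at h5
    have : (2 * m : ℝ) = n := by linarith
    exact_mod_cast this
  · exact ⟨1, norm_one, by simp, fun m _ _ h => by simp at h⟩

lemma exists_kappa (ε : ℂ) (n : ℕ) : ∃ κ₀ : ℝ, 0 < κ₀ ∧ κ₀ ≤ 1 / 2 ∧
    ∀ m, m < n → (ε ^ m).re ≠ 0 → 4 * κ₀ ≤ |(ε ^ m).re| := by
  induction n with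
  | zero => exact ⟨1 / 2, by norm_num, le_rfl, fun m h => by omega⟩
  | succ n ih =>
    obtain ⟨k, h1, h2, h3⟩ := ih
    by_cases hz : (ε ^ n).re = 0
    · refine ⟨k, h1, h2, fun m hm h => h3 m (lt_of_le_of_ne (by omega) ?_) h⟩
      rintro rfl
      exact h hz
    refine ⟨min k (|(ε ^ n).re| / 4), lt_min h1 (by positivity), (min_le_left _ _).trans h2,
      fun m hm h => ?_⟩
    rcases Nat.lt_succ_iff_lt_or_eq.1 hm with hm | rfl
    · linarith [h3 m hm h, min_le_left k (|(ε ^ n).re| / 4)]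
    · linarith [min_le_right k (|(ε ^ m).re| / 4)]

/-- the logarithm of a function which is `1` at the origin -/
lemma log_facts {q : ℂ → ℂ} (hq : AnalyticAt ℂ q 0) (h0 : q 0 = 1) (hr : RR q) :
    AnalyticAt ℂ (fun t => Complex.log (q t)) 0 ∧ Complex.log (q 0) = 0 ∧
      RR (fun t => Complex.log (q t)) ∧ ∀ᶠ t in 𝓝 0, Complex.exp (Complex.log (q t)) = q t := by
  have hp : ∀ᶠ t in 𝓝 0, 0 < (q t).re :=
    (Complex.continuous_re.continuousAt.comp hq.continuousAt).eventually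
      (lt_mem_nhds (by simp [h0]))
  refine ⟨hq.clog (by rw [h0]; exact Complex.one_mem_slitPlane), by simp [h0], ?_, ?_⟩
  · filter_upwards [hr, ofReal_tendsto.eventually hp] with t h1 h2
    rw [Complex.log_im, Complex.arg_eq_zero_iff]
    exact ⟨h2.le, h1⟩
  · filter_upwards [hp] with t h
    exact Complex.exp_log fun h' => by simp [h'] at h

/-- the curve `τ ^ (-n/2) exp (-L (ε τ) / 2)` -/
lemma curve {L : ℂ → ℂ} (hL : AnalyticAt ℂ L 0) (h0 : L 0 = 0) {n : ℕ} (hn : 0 < n) (ε : ℂ) {κ₀ : ℝ}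
    (hκ : 0 < κ₀) :
    Tendsto (fun τ : ℝ => (Real.exp (-(n / 2) * Real.log τ) : ℝ) * Complex.exp (-L (ε * τ) / 2))
      (𝓝[>] 0) (atSec κ₀) ∧
    ∀ᶠ τ : ℝ in 𝓝[>] 0, ε * pw (-2 / n)
      ((Real.exp (-(n / 2) * Real.log τ) : ℝ) * Complex.exp (-L (ε * τ) / 2)) =
      ε * τ * Complex.exp (L (ε * τ) / n) := by
  have hn' : (0 : ℝ) < n := by exact_mod_cast hn
  have t1 : Tendsto (fun τ : ℝ => L (ε * τ)) (𝓝[>] 0) (𝓝 0) := by
    have : Tendsto (fun τ : ℝ => ε * τ) (𝓝 0) (𝓝 0) := by simpa using ofReal_tendsto.const_mul ε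
    have h1 := hL.continuousAt.tendsto
    rw [h0] at h1
    exact (h1.comp this).mono_left nhdsWithin_le_nhds
  have t2 : Tendsto (fun τ : ℝ => Complex.exp (-L (ε * τ) / 2)) (𝓝[>] 0) (𝓝 1) := by
    simpa using (t1.neg.div_const 2).cexp
  have t3 : Tendsto (fun τ : ℝ => Real.exp (-(n / 2) * Real.log τ)) (𝓝[>] 0) atTop :=
    Real.tendsto_exp_atTop.comp
      (Real.tendsto_log_nhdsGT_zero.const_mul_atBot_of_neg (by linarith))
  have t4 := (Complex.continuous_re.tendsto _).comp t2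
  have t5 := ((Complex.continuous_im.tendsto _).comp t2).abs
  constructor
  · rw [atSec, tendsto_inf, tendsto_comap_iff, tendsto_principal]
    constructor
    · refine (t3.atTop_mul_pos (by simp) t4).congr fun τ => ?_
      simp only [Function.comp_apply, Complex.re_ofReal_mul]
    · filter_upwards [t5.eventually_lt (t4.const_mul κ₀) (by simpa using hκ)] with τ h
      simp only [Function.comp_apply] at h
      rw [Complex.re_ofReal_mul, Complex.im_ofReal_mul, abs_mul,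
        abs_of_pos (Real.exp_pos _), mul_left_comm]
      exact mul_lt_mul_of_pos_left h (Real.exp_pos _)
  · have t6 := ((Complex.continuous_im.tendsto _).comp t1).abs
    filter_upwards [t6.eventually_lt_const (show |(0 : ℂ).im| < 1 by simp), self_mem_nhdsWithin]
      with τ h1 h2
    have h3 := abs_lt.1 h1
    simp only [Function.comp_apply] at h3
    have him : (((-(n / 2) * Real.log τ : ℝ) : ℂ) + -L (ε * τ) / 2).im = -(L (ε * τ)).im / 2 := by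
      rw [Complex.add_im, Complex.ofReal_im]; simp
    rw [pw, Complex.ofReal_exp, ← Complex.exp_add, Complex.log_exp
      (by rw [him]; linarith [Real.two_le_pi]) (by rw [him]; linarith [Real.two_le_pi]),
      mul_assoc]
    congr 1
    have h4 : (τ : ℂ) = Complex.exp (Real.log τ : ℝ) := by
      rw [← Complex.ofReal_exp, Real.exp_log h2]
    generalize L (ε * τ) = l
    rw [h4, ← Complex.exp_add]
    congr 1
    have : (n : ℂ) ≠ 0 := by exact_mod_cast hn.ne'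
    push_cast
    field_simp
    ring

end NF

open NF in
/-- K-NF with the limits of `P ω²` -/
theorem nf_strong (κ : Type) [Fintype κ] (n : ℕ) (ls : κ → ℝ) (p : κ → ℂ → ℂ)
    (h : EndArc n ls p) :
    ∃ (κ₀ ω₀ : ℝ) (tO : ℂ → ℂ), 0 < κ₀ ∧ κ₀ ≤ 1 / 2 ∧ DifferentiableOn ℂ tO (Sec ω₀ κ₀) ∧
      Tendsto (fun ω => ‖tO ω‖ ^ n * ‖ω‖ ^ 2) (atSec κ₀) (𝓝 1) ∧
      (∃ i k, Tied κ₀ (fun ω => p i (tO ω)) 0 k) ∧
      (∀ i, (∃ a k, Tied κ₀ (fun ω => p i (tO ω)) a k) ∨ Lost κ₀ fun ω => p i (tO ω)) ∧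
      Tendsto tO (atSec κ₀) (𝓝 0) ∧ ∃ lam : ℝ, |lam| = 1 ∧
        ∀ i, Tendsto (fun ω => p i (tO ω) * ω ^ 2) (atSec κ₀) (𝓝 (-(lam * ls i) : ℝ)) := by
  have hn := h.n_pos
  have hle : ∀ i, |ls i| ≤ 1 := fun i => h.norm_ls ▸ norm_le_pi_norm ls i
  obtain ⟨i₁, hi₁⟩ : ∃ i, |ls i| = 1 := by
    by_contra hc
    have := (pi_norm_lt_iff (x := ls) one_pos).2 fun i => lt_of_le_of_ne (hle i) fun h => hc ⟨i, h⟩
    exact this.ne h.norm_ls
  set lam := ls i₁ with hlam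
  have hl2 : lam * lam = 1 := by rw [← abs_mul_abs_self, hi₁, one_mul]
  have hl2' : (lam : ℂ) * lam = 1 := by exact_mod_cast hl2
  obtain ⟨ε, hε1, hεn, hε⟩ := exists_eps hi₁ hn
  obtain ⟨κ₀, hκ, hκ2, hκ'⟩ := exists_kappa ε n
  have hq : ∀ i, ∃ q : ℂ → ℂ, AnalyticAt ℂ q 0 ∧ q 0 = (lam * ls i : ℝ) ∧ RR q ∧
      ∀ᶠ t in 𝓝 0, p i t = lam * (t ^ n * q t) := fun i => by
    obtain ⟨g, hg, e⟩ := div_of_bigO ((h.ana i).sub (analyticAt_const.mul (analyticAt_id.pow n)))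
      (h.app i)
    have ha : AnalyticAt ℂ (fun t => lam * (ls i + t * g t)) 0 :=
      analyticAt_const.mul (analyticAt_const.add (analyticAt_id.mul hg))
    have e1 : ∀ᶠ t in 𝓝 0, lam * p i t = t ^ n * (lam * (ls i + t * g t)) := by
      filter_upwards [e] with t ht
      simp only [Pi.sub_apply, Pi.mul_apply, Pi.pow_apply, id] at ht
      linear_combination lam * ht
    refine ⟨_, ha, by simp, RR.div (f := fun t => lam * p i t)
      ((h.re i).mono fun t ht => by simp [ht]) ha e1, ?_⟩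
    filter_upwards [e1] with t ht
    rw [← ht, ← mul_assoc, hl2', one_mul]
  choose q hqa hq0 hqr hqe using hq
  set L : κ → ℂ → ℂ := fun i t => Complex.log (q i t)
  have hL := fun i (hi : ls i = lam) =>
    log_facts (hqa i) (by rw [hq0, hi, hl2, Complex.ofReal_one]) (hqr i)
  set r : κ → κ → Prop := fun i j => ∀ᶠ τ : ℝ in 𝓝[>] 0,
    (Complex.exp (-L i (ε * τ) / 2)).re < (Complex.exp (-L j (ε * τ) / 2)).re
  have : IsTrans κ r := ⟨fun a b c h1 h2 => by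
    filter_upwards [h1, h2] with τ h1 h2 using h1.trans h2⟩
  have : Std.Irrefl r := ⟨fun a h1 => by
    obtain ⟨τ, h1⟩ := h1.exists
    exact lt_irrefl _ h1⟩
  obtain ⟨i₀, hi₀, hmin⟩ := (Finite.wellFounded_of_trans_of_irrefl r).has_min {i | ls i = lam}
    ⟨i₁, rfl⟩
  obtain ⟨hLa, hL0, hLr, hLe⟩ := hL i₀ hi₀
  obtain ⟨sg, hsa, hs0, hsr, hs1, hs2⟩ := exists_inv hLa hL0 hLr n
  have hst : Tendsto sg (𝓝 0) (𝓝 0) := by simpa [hs0] using hsa.continuousAt.tendsto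
  have hv := tendsto_vv hn ε κ₀
  have hvd : ∀ ω : ℂ, 1 < ω.re → DifferentiableAt ℂ (fun ω => ε * pw (-2 / n) ω) ω :=
    fun ω h => (pw_diff _ h).const_mul ε
  set tO : ℂ → ℂ := fun ω => sg (ε * pw (-2 / n) ω) with htO
  have ht : Tendsto tO (atSec κ₀) (𝓝 0) := hst.comp hv
  have hn' : (n : ℂ) ≠ 0 := by exact_mod_cast hn.ne'
  have e1 : ∀ᶠ ω in atSec κ₀, tO ω ^ n * ω ^ 2 = -lam * Complex.exp (-L i₀ (tO ω)) := by
    filter_upwards [hv.eventually hs1, ev_pos κ₀] with ω h1 h2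
    have h3 := sq_vv hn ε (ne_zero_of h2)
    rw [← h1, mul_pow, ← Complex.exp_nat_mul, mul_div_cancel₀ _ hn', hεn] at h3
    rw [Complex.exp_neg, eq_mul_inv_iff_mul_eq₀ (Complex.exp_ne_zero _)]
    push_cast at h3
    linear_combination h3
  have e2 : Tendsto (fun ω => tO ω ^ n * ω ^ 2) (atSec κ₀) (𝓝 (-lam)) := by
    have := ((hLa.continuousAt.tendsto.comp ht).neg.cexp.const_mul (-lam : ℂ)).congr'
      (e1.mono fun _ h => h.symm)
    simpa [hL0] using this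
  have e3 : ∀ i, Tendsto (fun ω => p i (tO ω) * ω ^ 2) (atSec κ₀) (𝓝 (-(lam * ls i) : ℝ)) := by
    intro i
    have := (e2.mul ((hqa i).continuousAt.tendsto.comp ht)).const_mul (lam : ℂ)
    rw [hq0, show (lam : ℂ) * (-lam * (lam * ls i : ℝ)) = (-(lam * ls i) : ℝ) by
      push_cast; linear_combination (-(lam : ℂ) * ls i) * hl2'] at this
    refine this.congr' ?_
    filter_upwards [ht.eventually (hqe i)] with ω h1
    rw [h1, Function.comp_apply]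
    ring
  have hpd : ∀ i, ∀ᶠ ω in atSec κ₀, DifferentiableAt ℂ (fun ω => p i (tO ω)) ω := fun i =>
    diff_comp (F := fun v => p i (sg v)) ((hs0.symm ▸ h.ana i).comp hsa) hv hvd
  have dom : ∀ i, ls i = lam → ∀ᶠ ω in atSec κ₀, p i (tO ω) =
      -1 / (ω * Complex.exp (-(L i (tO ω) - L i₀ (tO ω)) / 2)) ^ 2 := by
    intro i hi
    filter_upwards [e1, ht.eventually (hqe i), ht.eventually (hL i hi).2.2.2, ev_pos κ₀]
      with ω h1 h2 h3 h4
    have h5 := ne_zero_of h4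
    rw [eq_div_iff (pow_ne_zero _ (mul_ne_zero h5 (Complex.exp_ne_zero _))), h2, ← h3, mul_pow,
      ← Complex.exp_nat_mul]
    have h6 : Complex.exp (-L i₀ (tO ω)) * Complex.exp (L i (tO ω)) *
        Complex.exp ((2 : ℕ) * (-(L i (tO ω) - L i₀ (tO ω)) / 2)) = 1 := by
      rw [← Complex.exp_add, ← Complex.exp_add, ← Complex.exp_zero]
      congr 1
      push_cast
      ring
    linear_combination (lam * Complex.exp (L i (tO ω)) *
      Complex.exp ((2 : ℕ) * (-(L i (tO ω) - L i₀ (tO ω)) / 2))) * h1 - lam * lam * h6 - hl2'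
  obtain ⟨ω₀, hω₀⟩ := diffOn_of (diff_comp hsa hv hvd)
  refine ⟨κ₀, ω₀, tO, hκ, hκ2, hω₀, ?_, ⟨i₀, 0, ?_⟩, fun i => ?_, ht, lam, hi₁, e3⟩
  · have := e2.norm
    simpa [hi₁] using this
  · obtain ⟨ω₁, h1⟩ := ev_sec.1 (dom i₀ hi₀)
    exact ⟨ω₁, id, differentiableOn_id, fun ω hω => by simpa using h1 ω hω,
      by simpa using tendsto_const_nhds⟩
  by_cases hi : ls i = lam
  swap
  · refine Or.inr (lost_of_lim hκ2 ?_ ?_ (hpd i) (e3 i))
    · rw [abs_neg, abs_mul, hi₁, one_mul]; exact hle i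
    · have h1 : |lam * ls i| ≤ 1 := by rw [abs_mul, hi₁, one_mul]; exact hle i
      refine neg_lt_neg (lt_of_le_of_ne (abs_le.1 h1).2 fun h2 => hi ?_)
      linear_combination lam * h2 - ls i * hl2
  obtain ⟨hMa, hM0, hMr, -⟩ := hL i hi
  have hVa : AnalyticAt ℂ (fun v => Complex.exp (-(L i (sg v) - L i₀ (sg v)) / 2)) 0 :=
    (((hs0.symm ▸ hMa).comp hsa).sub ((hs0.symm ▸ hLa).comp hsa)).neg.div_const.cexp
  have hVr : RR fun v => Complex.exp (-(L i (sg v) - L i₀ (sg v)) / 2) := by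
    have t1 : Tendsto (fun v : ℝ => (sg v).re) (𝓝 0) (𝓝 0) :=
      (Complex.continuous_re.tendsto 0).comp (hst.comp ofReal_tendsto)
    filter_upwards [hsr, t1.eventually hMr, t1.eventually hLr] with v h1 h2 h3
    have h4 : (((sg v).re : ℝ) : ℂ) = sg v := Complex.ext rfl (by simpa using h1.symm)
    rw [h4] at h2 h3
    rw [Complex.exp_im]
    simp [L, h2, h3]
  rcases trich hVa (by simp [L, hs0, hM0, hL0]) hVr hn hε hε1 (by rw [hεn, Complex.ofReal_im]) hκ hκ'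
    with ⟨a, k, h1⟩ | ⟨ν, c, h1, h2, h3⟩ | h1
  · obtain ⟨ω₁, h2⟩ := ev_sec.1 ((dom i hi).and (diff_comp hVa hv hvd))
    exact Or.inl ⟨a, k, ω₁, _, fun ω hω =>
      (differentiableAt_id.mul (h2 ω hω).2).differentiableWithinAt, fun ω hω => (h2 ω hω).1, h1⟩
  · refine Or.inr (lost_of_gt hκ2 h1 h2 (hpd i) ?_ (dom i hi) h3)
    simpa [hi, hl2] using e3 i
  exfalso
  obtain ⟨c1, c2⟩ := curve hLa hL0 hn ε hκ
  have t1 : Tendsto (fun τ : ℝ => ε * τ) (𝓝[>] 0) (𝓝 0) := by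
    simpa using (ofReal_tendsto.const_mul ε).mono_left nhdsWithin_le_nhds
  refine hmin i hi ?_
  filter_upwards [c1.eventually h1, c2, t1.eventually hs2] with τ h2 h3 h4
  rw [h3, h4, mul_assoc, ← Complex.exp_add, Complex.re_ofReal_mul, Complex.re_ofReal_mul] at h2
  have h5 := lt_of_mul_lt_mul_left h2 (Real.exp_pos _).le
  rwa [show -Complex.log (q i₀ (ε * τ)) / 2 + -(L i (ε * τ) - L i₀ (ε * τ)) / 2 = -L i (ε * τ) / 2 by
    simp only [L]; ring] at h5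

theorem nf_proof : NFStmt := fun κ _ n ls p h => by
  obtain ⟨κ₀, ω₀, tO, h1, h2, h3, h4, h5, h6, -, lam, h7, h8⟩ := nf_strong κ n ls p h
  refine ⟨κ₀, ω₀, tO, h1, h2, h3, h4, h5, fun i => ⟨lam * ls i, ?_, by simpa using h8 i⟩, h6⟩
  rw [abs_mul, h7, one_mul]
  exact h.norm_ls ▸ norm_le_pi_norm ls i

end Vale.Agent.P218F.K
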