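import Vale.Agent.P218F.KBasic
import Vale.Agent.P218F.CoreHol

/-! K-NEWTON: realisation of a transversally cut out formal arc by Newton's method. -/

open Filter Topology Set Asymptotics Metric

noncomputable section

namespace Vale.Agent.P218F.K.Newton

open Vale.Agent.P218F.Core

set_option linter.unusedSectionVars false

/-! ### The abstract Newton step -/

theorem newton {Z P : Type} [NormedAddCommGroup Z] [NormedSpace ℂ Z] [CompleteSpace Z]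
    [NormedAddCommGroup P] [NormedSpace ℂ P] {Φ : Z × P → Z} {U : Set P} (hU : IsOpen U)
    {δ Q β r : ℝ} (hr : 0 < r) (hβ : 0 ≤ β) (h2r : 2 * r ≤ δ)
    (hd : DifferentiableOn ℂ Φ (ball 0 δ ×ˢ U))
    (hQ : ∀ z ∈ ball (0 : Z) δ, ∀ p ∈ U, ‖Φ (z, p)‖ ≤ Q) {B : P → Z →ₗ[ℂ] Z}
    (hB : DifferentiableOn ℂ (fun q : Z × P => B q.2 (Φ q)) (ball 0 δ ×ˢ U))
    (hBβ : ∀ p ∈ U, ∀ z, ‖B p z‖ ≤ β * ‖z‖)
    (hinv : ∀ p ∈ U, ∀ z, B p (fderiv ℂ (fun z => Φ (z, p)) 0 z) = z)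
    (hinj : ∀ p ∈ U, ∀ z, B p z = 0 → z = 0) (h1 : 128 * β * Q * r ≤ δ ^ 2)
    (h2 : ∀ p ∈ U, β * ‖Φ (0, p)‖ ≤ r / 8) :
    ∃ ζ : P → Z, DifferentiableOn ℂ ζ U ∧ ∀ p ∈ U, ‖ζ p‖ ≤ r / 4 ∧ Φ (ζ p, p) = 0 ∧
      ∀ z ∈ ball (0 : Z) r, ‖z - ζ p‖ ≤ 2 * β * ‖Φ (z, p)‖ := by
  have hδ : 0 < δ := by linarith
  have hs : ball (0 : Z) (2 * r) ⊆ ball 0 δ := ball_subset_ball h2r
  obtain ⟨ζ, hζ, h⟩ := exists_fix_param (R := fun q : Z × P => q.1 - B q.2 (Φ q)) hr hU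
    (differentiableOn_fst.sub (hB.mono (prod_mono hs Subset.rfl))) (fun z hz p hp => by
      have h3 := rem_le (f := fun z => Φ (z, p)) (a := 0) (r := δ) (M := Q)
        (hd.comp (by fun_prop) fun z hz => ⟨hz, hp⟩) (fun z hz => hQ z hz p hp) (hs hz)
      have hQ0 : 0 ≤ Q := (norm_nonneg _).trans (hQ 0 (mem_ball_self hδ) p hp)
      rw [sub_zero] at h3
      have e : z - B p (Φ (z, p)) = -(B p (Φ (z, p) - Φ (0, p)
          - fderiv ℂ (fun z => Φ (z, p)) 0 z) + B p (Φ (0, p))) := by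
        rw [map_sub, map_sub, hinv p hp]; abel
      simp only
      rw [e, norm_neg]
      refine (norm_add_le _ _).trans ?_
      have h4 : ‖z‖ ^ 2 ≤ (2 * r) ^ 2 :=
        pow_le_pow_left₀ (norm_nonneg _) (mem_ball_zero_iff.1 hz).le 2
      have h5 : β * (4 * Q / δ ^ 2 * (2 * r) ^ 2) ≤ r / 8 := by
        have e2 : β * (4 * Q / δ ^ 2 * (2 * r) ^ 2) = (128 * β * Q * r) / δ ^ 2 * (r / 8) := by
          field_simp; ring
        rw [e2]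
        exact mul_le_of_le_one_left (by positivity) ((div_le_one (by positivity)).2 h1)
      have h6 := (hBβ p hp _).trans (mul_le_mul_of_nonneg_left
        (h3.trans (mul_le_mul_of_nonneg_left h4 (by positivity))) hβ)
      have h7 := (hBβ p hp (Φ (0, p))).trans (h2 p hp)
      linarith)
  refine ⟨ζ, hζ, fun p hp => ?_⟩
  obtain ⟨h3, h4, h5, -⟩ := h p hp
  refine ⟨h3, hinj p hp _ (by simpa using h4), fun z hz => (h5 z hz).trans ?_⟩
  simp only [sub_sub_cancel]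
  rw [mul_assoc]
  exact mul_le_mul_of_nonneg_left (hBβ p hp _) zero_le_two

/-! ### Matrices -/

section matrix

variable {n : Type} [Fintype n] [DecidableEq n]

lemma differentiableOn_det {P : Type} [NormedAddCommGroup P] [NormedSpace ℂ P] {U : Set P}
    {M : P → Matrix n n ℂ} (h : ∀ i j, DifferentiableOn ℂ (fun p => M p i j) U) :
    DifferentiableOn ℂ (fun p => (M p).det) U := by
  simp only [Matrix.det_apply']
  refine DifferentiableOn.fun_sum fun σ _ => (differentiableOn_const _).mul ?_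
  induction (Finset.univ : Finset n) using Finset.induction_on with
  | empty => simp
  | insert i s hi ih => simp only [Finset.prod_insert hi]; exact (h _ _).mul ih

lemma differentiableOn_adj {P : Type} [NormedAddCommGroup P] [NormedSpace ℂ P] {U : Set P}
    {M : P → Matrix n n ℂ} (h : ∀ i j, DifferentiableOn ℂ (fun p => M p i j) U) (a b : n) :
    DifferentiableOn ℂ (fun p => (M p).adjugate a b) U := by
  simp only [Matrix.adjugate_apply]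
  refine differentiableOn_det fun i j => ?_
  simp only [Matrix.updateRow_apply]
  split_ifs
  · exact differentiableOn_const _
  · exact h i j

lemma norm_det_le {M : Matrix n n ℂ} {X : ℝ} (h : ∀ i j, ‖M i j‖ ≤ X) :
    ‖M.det‖ ≤ (Fintype.card n).factorial * X ^ Fintype.card n := by
  have := Matrix.det_le (A := M) (abv := NormedField.toAbsoluteValue ℂ) (x := X) h
  rw [nsmul_eq_mul] at this
  exact this

lemma norm_adj_le {M : Matrix n n ℂ} {X : ℝ} (hX : 1 ≤ X) (h : ∀ i j, ‖M i j‖ ≤ X) (a b : n) :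
    ‖M.adjugate a b‖ ≤ (Fintype.card n).factorial * X ^ Fintype.card n := by
  rw [Matrix.adjugate_apply]
  refine norm_det_le fun i j => ?_
  rw [Matrix.updateRow_apply]
  split_ifs
  · rw [Pi.single_apply]
    split_ifs
    · simpa using hX
    · simpa using zero_le_one.trans hX
  · exact h i j

/-- the inverse, acting on row vectors -/
def inv (M : Matrix n n ℂ) : (n → ℂ) →ₗ[ℂ] (n → ℂ) := (M.det)⁻¹ • M.adjugate.vecMulLinear

lemma inv_apply (M : Matrix n n ℂ) (v : n → ℂ) (i : n) :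
    inv M v i = (M.det)⁻¹ * ∑ l, v l * M.adjugate l i := by
  simp [inv, Matrix.vecMul, dotProduct]

lemma inv_vecMul {M : Matrix n n ℂ} (h : M.det ≠ 0) (v : n → ℂ) : inv M (Matrix.vecMul v M) = v := by
  simp [inv, Matrix.vecMul_vecMul, Matrix.mul_adjugate, Matrix.vecMul_smul, smul_smul, h]

lemma inv_inj {M : Matrix n n ℂ} (h : M.det ≠ 0) (v : n → ℂ) (hv : inv M v = 0) : v = 0 := by
  have h1 : Matrix.vecMul (inv M v) M = v := by
    simp [inv, Matrix.smul_vecMul, Matrix.vecMul_vecMul, Matrix.adjugate_mul, Matrix.vecMul_smul,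
      smul_smul, h]
  rw [← h1, hv, Matrix.zero_vecMul]

lemma norm_inv_le {M : Matrix n n ℂ} {X d : ℝ} (hX : 1 ≤ X) (h : ∀ i j, ‖M i j‖ ≤ X) (hd : 0 < d)
    (hdet : d ≤ ‖M.det‖) (v : n → ℂ) :
    ‖inv M v‖ ≤ d⁻¹ * (Fintype.card n * ((Fintype.card n).factorial * X ^ Fintype.card n)) * ‖v‖ := by
  refine (pi_norm_le_iff_of_nonneg (by positivity)).2 fun i => ?_
  rw [inv_apply, norm_mul, norm_inv, mul_assoc]
  refine mul_le_mul (inv_anti₀ hd hdet) ((norm_sum_le _ _).trans ?_) (norm_nonneg _) (by positivity)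
  calc ∑ l, ‖v l * M.adjugate l i‖
      ≤ ∑ _l : n, ‖v‖ * ((Fintype.card n).factorial * X ^ Fintype.card n) :=
        Finset.sum_le_sum fun l _ => by
          rw [norm_mul]
          exact mul_le_mul (norm_le_pi_norm v l) (norm_adj_le hX h l i) (norm_nonneg _)
            (norm_nonneg _)
    _ = _ := by rw [Finset.sum_const, Finset.card_univ, nsmul_eq_mul]; ring

end matrix

/-! ### The domains -/

variable {ι κ : Type} [Fintype ι] [Fintype κ] {ls : κ → ℝ} {r₁ Λ θ R : ℝ}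

lemma fst_lt (hls : ‖ls‖ = 1) (hr : 0 < r₁) (hr' : r₁ ≤ 1 / 2)
    {p : ℂ × (ι ⊕ κ → ℂ)} (hp : p ∈ UU ι ls r₁ Λ (1 / 2) R) : ‖p.1‖ * R ^ 2 < 6 := by
  have h := norm_fst_le_of_mem (b := 1 / 2) hls (by linarith) hp
  linarith

lemma add_mem (hls : ‖ls‖ = 1) (hr : 0 < r₁) (hr' : r₁ ≤ 1 / 2) (hR : 4 ≤ R) {e : ℂ}
    {y v : ι ⊕ κ → ℂ} (hp : (e, y) ∈ UU ι ls r₁ Λ (1 / 2) R) (hv : ‖v‖ * R ^ 2 ≤ r₁ / 2) :
    (e, y + v) ∈ UU ι ls r₁ Λ (3 / 4) R := by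
  have h1 : ‖e‖ * R ^ 2 < 6 := fst_lt hls hr hr' hp
  have hR2 : 16 ≤ R ^ 2 := by nlinarith
  have hv0 := norm_nonneg v
  refine ⟨?_, fun i => ?_⟩
  · have h2 : ‖y‖ < 1 / 2 * r₁ := hp.1
    have h3 := norm_add_le y v
    simp only
    nlinarith
  · have e1 : e * (ls i + (y + v) (Sum.inr i)) - e * (ls i + y (Sum.inr i)) = e * v (Sum.inr i) := by
      simp only [Pi.add_apply]; ring
    have h4 : ‖e * v (Sum.inr i)‖ * R ^ 2 * R ^ 2 ≤ 3 / 2 := by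
      have h5 : ‖v (Sum.inr i)‖ * R ^ 2 ≤ 1 / 4 := by
        have := mul_le_mul_of_nonneg_right (norm_le_pi_norm v (Sum.inr i)) (sq_nonneg R)
        linarith
      calc ‖e * v (Sum.inr i)‖ * R ^ 2 * R ^ 2 = (‖e‖ * R ^ 2) * (‖v (Sum.inr i)‖ * R ^ 2) := by
            rw [norm_mul]; ring
        _ ≤ 6 * (1 / 4) := mul_le_mul h1.le h5 (by positivity) (by norm_num)
        _ = _ := by norm_num
    have hw := norm_nonneg (e * v (Sum.inr i))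
    have h := mem_Om_of_near (δ := 1 / 4) (δ' := 1 / 4) (c' := e * (ls i + (y + v) (Sum.inr i)))
      (hp.2 i) (by rw [e1]; nlinarith) (by rw [e1]; nlinarith)
    exact Om_mono (by linarith) (by linarith) R h

/-! ### Elementary asymptotics -/

lemma ev_pow (C : ℝ) {c : ℝ} (hc : 0 < c) {a b : ℕ} (h : a < b) :
    ∀ᶠ R : ℝ in atTop, C * R ^ a ≤ c * R ^ b := by
  filter_upwards [eventually_ge_atTop 1, eventually_ge_atTop (|C| / c)] with R h1 h2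
  rw [div_le_iff₀ hc] at h2
  calc C * R ^ a ≤ (R * c) * R ^ a :=
        mul_le_mul_of_nonneg_right ((le_abs_self C).trans h2) (by positivity)
    _ = c * R ^ (a + 1) := by ring
    _ ≤ _ := mul_le_mul_of_nonneg_left (pow_le_pow_right₀ h1 h) hc.le

lemma ev_exp (n : ℕ) : ∀ᶠ R : ℝ in atTop, Real.exp (-R ^ 2 / 5) ≤ 1 / R ^ n := by
  filter_upwards [(Real.tendsto_exp_div_pow_atTop n).eventually_ge_atTop 1,
    eventually_ge_atTop 5] with R h1 h2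
  have h0 : 0 < R ^ n := by positivity
  rw [one_le_div h0] at h1
  rw [neg_div, Real.exp_neg, one_div]
  exact inv_anti₀ h0 (h1.trans (Real.exp_le_exp.2 (by nlinarith)))

lemma ev_small {k : ℕ} {p : ℂ → Prop} (hp : ∀ᶠ t in 𝓝 (0 : ℂ), p t) :
    ∀ᶠ R : ℝ in atTop, ∀ t : ℂ, ‖t‖ ^ k * R ^ 2 < 6 → p t := by
  obtain ⟨ε, hε, h⟩ := Metric.eventually_nhds_iff.1 hp
  filter_upwards [ev_pow 6 (pow_pos hε k) (show 0 < 2 by norm_num), eventually_gt_atTop 0]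
    with R h1 h2 t ht
  refine h ?_
  rw [dist_zero_right]
  refine lt_of_pow_lt_pow_left₀ k hε.le (lt_of_mul_lt_mul_right (a := R ^ 2) ?_ (by positivity))
  linarith

lemma pow_le_of_lt {k m M : ℕ} {x R : ℝ} (hx : 0 ≤ x) (hx1 : x ≤ 1) (hR : 0 < R)
    (h : x ^ k * R ^ 2 < 6) (hM : k * m ≤ M) : x ^ M ≤ 6 ^ m / R ^ (2 * m) := by
  calc x ^ M ≤ x ^ (k * m) := pow_le_pow_of_le_one hx hx1 hM
    _ = (x ^ k) ^ m := pow_mul _ _ _
    _ ≤ (6 / R ^ 2) ^ m := pow_le_pow_left₀ (by positivity) ((le_div_iff₀ (by positivity)).2 h.le) m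
    _ = _ := by rw [div_pow, pow_mul]

/-- a family is close to its truncation -/
lemma fam_tr {R₀ : ℝ} {A k m M : ℕ} {F : ℝ → ℂ × (ι ⊕ κ → ℂ) → ℂ} {H : ℕ → (ι ⊕ κ → ℂ) → ℂ}
    (hF : Fam ls r₁ Λ R₀ A F H) (hk : 0 < k) (hM : k * m ≤ M) :
    ∃ C : ℝ, 0 ≤ C ∧ ∀ᶠ R : ℝ in atTop, ∀ (t : ℂ) (y : ι ⊕ κ → ℂ), ‖t‖ ^ k * R ^ 2 < 6 →
      (t ^ k, y) ∈ UU ι ls r₁ Λ (3 / 4) R →
      ‖F R (t ^ k, y) - tr H M (t ^ k) y‖ ≤ C * R ^ A / R ^ (2 * m) := by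
  obtain ⟨C, hC⟩ := hF.app (3 / 4) (by norm_num) M
  refine ⟨|C| * (6 ^ m + 1), by positivity, ?_⟩
  filter_upwards [eventually_ge_atTop R₀, eventually_gt_atTop 0, ev_exp (2 * m),
    ev_small (k := k) (closedBall_mem_nhds (0 : ℂ) one_pos)] with R h1 h2 h3 h4 t y ht hy
  have h5 : ‖t‖ ≤ 1 := mem_closedBall_zero_iff.1 (h4 t ht)
  have h6 : ‖t ^ k‖ ^ M ≤ 6 ^ m / R ^ (2 * m) := by
    rw [norm_pow, ← pow_mul]
    exact pow_le_of_lt (norm_nonneg _) h5 h2 ht (hM.trans (Nat.le_mul_of_pos_left M hk))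
  refine (hC R h1 _ hy).trans ?_
  calc C * R ^ A * (‖t ^ k‖ ^ M + Real.exp (-R ^ 2 / 5))
      ≤ |C| * R ^ A * (6 ^ m / R ^ (2 * m) + 1 / R ^ (2 * m)) := by
        refine mul_le_mul (mul_le_mul_of_nonneg_right (le_abs_self C) (by positivity))
          (add_le_add h6 h3) (by positivity) (by positivity)
    _ = _ := by ring

/-- a family with flat expansion is small on the truncated arc -/
lemma fam_flat {R₀ : ℝ} {A k m M : ℕ} {F : ℝ → ℂ × (ι ⊕ κ → ℂ) → ℂ} {H : ℕ → (ι ⊕ κ → ℂ) → ℂ}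
    {a : ℕ → ι ⊕ κ → ℝ} (hF : Fam ls r₁ Λ R₀ A F H) (hk : 0 < k) (hH : FlatOn H k a)
    (hM : k * m ≤ M) :
    ∃ C : ℝ, 0 ≤ C ∧ ∀ᶠ R : ℝ in atTop, ∀ t : ℂ, ‖t‖ ^ k * R ^ 2 < 6 →
      (t ^ k, arc a M t) ∈ UU ι ls r₁ Λ (3 / 4) R →
      ‖F R (t ^ k, arc a M t)‖ ≤ C * R ^ A / R ^ (2 * m) := by
  obtain ⟨C, hC0, hC⟩ := fam_tr hF hk hM
  obtain ⟨C', hC0', hC'⟩ := (hH M).exists_nonneg
  refine ⟨C + C' * 6 ^ m, by positivity, ?_⟩
  filter_upwards [hC, eventually_ge_atTop 1, ev_small (k := k) hC'.bound,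
    ev_small (k := k) (closedBall_mem_nhds (0 : ℂ) one_pos)] with R h1 h2 h3 h4 t ht hy
  have h5 : ‖t‖ ≤ 1 := mem_closedBall_zero_iff.1 (h4 t ht)
  have h6 := h3 t ht
  rw [norm_pow] at h6
  have h7 := pow_le_of_lt (norm_nonneg _) h5 (by linarith) ht hM
  have h8 : 1 ≤ R ^ A := one_le_pow₀ h2
  have h9 := norm_add_le (F R (t ^ k, arc a M t) - tr H M (t ^ k) (arc a M t))
    (tr H M (t ^ k) (arc a M t))
  rw [sub_add_cancel] at h9
  calc _ ≤ C * R ^ A / R ^ (2 * m) + C' * (6 ^ m / R ^ (2 * m)) :=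
        h9.trans (add_le_add (h1 t _ ht hy) (h6.trans (mul_le_mul_of_nonneg_left h7 hC0')))
    _ ≤ C * R ^ A / R ^ (2 * m) + C' * (6 ^ m / R ^ (2 * m)) * R ^ A :=
        add_le_add le_rfl (le_mul_of_one_le_right (by positivity) h8)
    _ = _ := by ring

/-- lower bound for a family of finite order on the arc -/
lemma fam_ord {R₀ : ℝ} {A k N₀ : ℕ} {F : ℝ → ℂ × (ι ⊕ κ → ℂ) → ℂ} {H : ℕ → (ι ⊕ κ → ℂ) → ℂ}
    {a : ℕ → ι ⊕ κ → ℝ} (hF : Fam ls r₁ Λ R₀ A F H) (hk : 0 < k) (hH : OrdOn H k a N₀) :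
    ∃ c : ℝ, 0 < c ∧ ∀ m M : ℕ, k * m ≤ M → A + 2 * N₀ < 2 * m → N₀ < M →
      ∀ᶠ R : ℝ in atTop, ∀ t : ℂ, 1 / 5 < ‖t‖ ^ k * R ^ 2 → ‖t‖ ^ k * R ^ 2 < 6 →
        (t ^ k, arc a M t) ∈ UU ι ls r₁ Λ (3 / 4) R →
        c / R ^ (2 * N₀) ≤ ‖F R (t ^ k, arc a M t)‖ := by
  obtain ⟨u, hu, hH⟩ := hH
  have hu0 : 0 < |u| := abs_pos.2 hu
  refine ⟨|u| / 4 * (1 / 5) ^ N₀, by positivity, fun m M hM hm hN => ?_⟩
  obtain ⟨C, hC0, hC⟩ := fam_tr hF hk hM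
  obtain ⟨C', hC0', hC'⟩ := (hH M hN).exists_pos
  have hε : 0 < |u| / 2 / C' := by positivity
  filter_upwards [hC, eventually_gt_atTop 0, ev_small (k := k) hC'.bound,
    ev_small (k := k) (closedBall_mem_nhds (0 : ℂ) one_pos),
    ev_small (k := k) (closedBall_mem_nhds (0 : ℂ) hε),
    ev_pow C (c := |u| / 4 * (1 / 5) ^ N₀) (by positivity) hm] with R h1 h2 h3 h4 h4' h5 t ht0 ht hy
  have h6 : ‖t‖ ≤ 1 := mem_closedBall_zero_iff.1 (h4 t ht)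
  have h6' : ‖t‖ ≤ |u| / 2 / C' := mem_closedBall_zero_iff.1 (h4' t ht)
  rw [le_div_iff₀ hC0'] at h6'
  have h7 := h3 t ht
  rw [norm_pow, pow_succ] at h7
  have h8 := h1 t _ ht hy
  have h9 : (1 / 5) ^ N₀ / R ^ (2 * N₀) ≤ ‖t‖ ^ N₀ := by
    calc (1 / 5 : ℝ) ^ N₀ / R ^ (2 * N₀) = (1 / 5 / R ^ 2) ^ N₀ := by rw [div_pow _ (R ^ 2), pow_mul]
      _ ≤ (‖t‖ ^ k) ^ N₀ :=
          pow_le_pow_left₀ (by positivity) ((div_le_iff₀ (by positivity)).2 ht0.le) _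
      _ ≤ ‖t‖ ^ N₀ := pow_le_pow_left₀ (by positivity) (pow_le_of_le_one (norm_nonneg _) h6 hk.ne') _
  have h10 : C * R ^ A / R ^ (2 * m) ≤ |u| / 4 * (1 / 5) ^ N₀ / R ^ (2 * N₀) := by
    rw [div_le_div_iff₀ (by positivity) (by positivity), mul_assoc, ← pow_add]
    exact h5
  have h11 : ‖(u : ℂ) * t ^ N₀‖ = |u| * ‖t‖ ^ N₀ := by
    rw [norm_mul, norm_pow, Complex.norm_real, Real.norm_eq_abs]
  have h12 := norm_sub_le (F R (t ^ k, arc a M t))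
    ((F R (t ^ k, arc a M t) - tr H M (t ^ k) (arc a M t))
      + (tr H M (t ^ k) (arc a M t) - u * t ^ N₀))
  have h13 := norm_add_le (F R (t ^ k, arc a M t) - tr H M (t ^ k) (arc a M t))
    (tr H M (t ^ k) (arc a M t) - u * t ^ N₀)
  rw [sub_add_sub_cancel, sub_sub_cancel, h11] at h12
  rw [sub_add_sub_cancel] at h13
  have h14 : C' * (‖t‖ ^ N₀ * ‖t‖) ≤ |u| / 2 * ‖t‖ ^ N₀ := by
    nlinarith [pow_nonneg (norm_nonneg t) N₀]
  have h15 := mul_le_mul_of_nonneg_left h9 hu0.le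
  have e : |u| / 4 * (1 / 5) ^ N₀ / R ^ (2 * N₀) = |u| * ((1 / 5) ^ N₀ / R ^ (2 * N₀)) / 4 := by ring
  rw [e] at h10 ⊢
  linarith

/-! ### The Newton step at a fixed radius -/

section step

variable [DecidableEq (ι ⊕ κ)] {r : ℕ} (S : Fin r ↪ ι ⊕ κ)

/-- the embedding of the transversal coordinates -/
def emb : (Fin r → ℂ) →L[ℂ] (ι ⊕ κ → ℂ) :=
  ∑ l, (ContinuousLinearMap.proj l : (Fin r → ℂ) →L[ℂ] ℂ).smulRight (Pi.single (S l) 1)

lemma emb_eq (w : Fin r → ℂ) : emb S w = ∑ l, w l • (Pi.single (S l) 1 : ι ⊕ κ → ℂ) := by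
  simp [emb]

lemma emb_S (w : Fin r → ℂ) (l : Fin r) : emb S w (S l) = w l := by
  simp [emb_eq, Finset.sum_apply, Pi.single_apply]

lemma emb_not (w : Fin r → ℂ) {i : ι ⊕ κ} (hi : i ∉ range S) : emb S w i = 0 := by
  rw [emb_eq, Finset.sum_apply]
  refine Finset.sum_eq_zero fun l _ => ?_
  have : i ≠ S l := fun h => hi ⟨l, h.symm⟩
  simp [this]

lemma norm_emb_le (w : Fin r → ℂ) : ‖emb S w‖ ≤ ‖w‖ := by
  refine (pi_norm_le_iff_of_nonneg (norm_nonneg _)).2 fun i => ?_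
  by_cases hi : i ∈ range S
  · obtain ⟨l, rfl⟩ := hi
    rw [emb_S]; exact norm_le_pi_norm w l
  · rw [emb_not S w hi, norm_zero]; exact norm_nonneg _

/-- the equations in the transversal coordinates -/
def Phi (g : Fin r → ℂ × (ι ⊕ κ → ℂ) → ℂ) (k : ℕ) (a : ℕ → ι ⊕ κ → ℝ) (K : ℕ)
    (q : (Fin r → ℂ) × ℂ) : Fin r → ℂ := fun l => g l (q.2 ^ k, arc a K q.2 + emb S q.1)

/-- the Jacobian matrix -/
def Mat (g : Fin r → ℂ × (ι ⊕ κ → ℂ) → ℂ) (p : ℂ × (ι ⊕ κ → ℂ)) : Matrix (Fin r) (Fin r) ℂ :=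
  Matrix.of fun i l => fderiv ℂ (g l) p (0, Pi.single (S i) 1)

lemma isOpen_WW {k K : ℕ} {a : ℕ → ι ⊕ κ → ℝ} : IsOpen (WW ι ls r₁ Λ k a K R) :=
  (isOpen_lt continuous_const (by fun_prop : Continuous fun t : ℂ => ‖t‖ ^ k * R ^ 2)).inter
    ((isOpen_UU ls r₁ Λ (1 / 2) R).preimage
      ((continuous_pow k).prodMk (differentiable_arc a K).continuous))

lemma fderiv_Phi {g : Fin r → ℂ × (ι ⊕ κ → ℂ) → ℂ} {k K : ℕ} {a : ℕ → ι ⊕ κ → ℝ} {t : ℂ}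
    (h : ∀ l, DifferentiableAt ℂ (g l) (t ^ k, arc a K t)) (w : Fin r → ℂ) :
    fderiv ℂ (fun z => Phi S g k a K (z, t)) 0 w = Matrix.vecMul w (Mat S g (t ^ k, arc a K t)) := by
  have h1 : HasFDerivAt (fun z : Fin r → ℂ => ((t ^ k, arc a K t + emb S z) : ℂ × (ι ⊕ κ → ℂ)))
      ((0 : (Fin r → ℂ) →L[ℂ] ℂ).prod (emb S)) 0 :=
    (hasFDerivAt_const _ _).prodMk ((emb S).hasFDerivAt.const_add _)
  have h2 : HasFDerivAt (fun z => Phi S g k a K (z, t)) (ContinuousLinearMap.pi fun l =>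
      (fderiv ℂ (g l) (t ^ k, arc a K t)).comp ((0 : (Fin r → ℂ) →L[ℂ] ℂ).prod (emb S))) 0 := by
    refine hasFDerivAt_pi.2 fun l => ?_
    refine HasFDerivAt.comp (0 : Fin r → ℂ) (g := g l) ?_ h1
    simpa using (h l).hasFDerivAt
  have h3 : ((0, emb S w) : ℂ × (ι ⊕ κ → ℂ)) = ∑ i, w i • (0, Pi.single (S i) 1) := by
    refine Prod.ext ?_ ?_
    · simp [Prod.fst_sum]
    · simp [Prod.snd_sum, emb_eq]
  rw [h2.fderiv]
  funext l
  simp only [ContinuousLinearMap.pi_apply, ContinuousLinearMap.comp_apply,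
    ContinuousLinearMap.prod_apply, zero_apply, h3, map_sum, map_smul]
  simp [Matrix.vecMul, dotProduct, Mat]

theorem step {g : Fin r → ℂ × (ι ⊕ κ → ℂ) → ℂ} {k K : ℕ} {a : ℕ → ι ⊕ κ → ℝ} {Q X d β ρ : ℝ}
    (hls : ‖ls‖ = 1) (hr : 0 < r₁) (hr' : r₁ ≤ 1 / 2) (hR : 4 ≤ R)
    (hg : ∀ l, DifferentiableOn ℂ (g l) (UU ι ls r₁ Λ 1 R)) (hQ0 : 0 ≤ Q)
    (hQ : ∀ l, ∀ p ∈ UU ι ls r₁ Λ (3 / 4) R, ‖g l p‖ ≤ Q) (hd0 : 0 < d)
    (hd : ∀ t ∈ WW ι ls r₁ Λ k a K R, d ≤ ‖(Mat S g (t ^ k, arc a K t)).det‖) (hX : 1 ≤ X)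
    (hQX : 2 * Q / (r₁ / 2 / R ^ 2) ≤ X) (hβ : d⁻¹ * (r * (r.factorial * X ^ r)) ≤ β) (hρ : 0 < ρ)
    (h2ρ : 2 * ρ ≤ r₁ / 2 / R ^ 2) (h1 : 128 * β * Q * ρ ≤ (r₁ / 2 / R ^ 2) ^ 2)
    (h2 : ∀ t ∈ WW ι ls r₁ Λ k a K R, β * ‖fun l => g l (t ^ k, arc a K t)‖ ≤ ρ / 8) :
    ∃ ζ : ℂ → Fin r → ℂ, DifferentiableOn ℂ ζ (WW ι ls r₁ Λ k a K R) ∧
      ∀ t ∈ WW ι ls r₁ Λ k a K R, ‖ζ t‖ ≤ ρ / 4 ∧ Phi S g k a K (ζ t, t) = 0 ∧
        ∀ z ∈ ball (0 : Fin r → ℂ) ρ, ‖z - ζ t‖ ≤ 2 * β * ‖Phi S g k a K (z, t)‖ := by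
  have hR0 : 0 < R := by linarith
  set δ := r₁ / 2 / R ^ 2 with hδ
  have hδ0 : 0 < δ := by positivity
  have hm : ∀ z ∈ ball (0 : Fin r → ℂ) δ, ∀ t ∈ WW ι ls r₁ Λ k a K R,
      (t ^ k, arc a K t + emb S z) ∈ UU ι ls r₁ Λ (3 / 4) R := fun z hz t ht =>
    add_mem hls hr hr' hR ht.2 ((le_div_iff₀ (by positivity)).1
      ((norm_emb_le S z).trans (mem_ball_zero_iff.1 hz).le))
  have hsub : UU ι ls r₁ Λ (3 / 4) R ⊆ UU ι ls r₁ Λ 1 R := UU_mono ls hr.le Λ (by norm_num) R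
  have hsub' : UU ι ls r₁ Λ (1 / 2) R ⊆ UU ι ls r₁ Λ 1 R := UU_mono ls hr.le Λ (by norm_num) R
  have harc := differentiable_arc a K
  have hΦl : ∀ l, DifferentiableOn ℂ (fun q => Phi S g k a K q l)
      (ball 0 δ ×ˢ WW ι ls r₁ Λ k a K R) := fun l =>
    (hg l).comp (f := fun q : (Fin r → ℂ) × ℂ => (q.2 ^ k, arc a K q.2 + emb S q.1))
      (Differentiable.differentiableOn (by fun_prop)) fun q hq => hsub (hm _ hq.1 _ hq.2)
  have hΦ := differentiableOn_pi.2 hΦl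
  have hΦQ : ∀ z ∈ ball (0 : Fin r → ℂ) δ, ∀ t ∈ WW ι ls r₁ Λ k a K R,
      ‖Phi S g k a K (z, t)‖ ≤ Q := fun z hz t ht =>
    (pi_norm_le_iff_of_nonneg hQ0).2 fun l => hQ l _ (hm z hz t ht)
  have hda : ∀ t ∈ WW ι ls r₁ Λ k a K R, ∀ l, DifferentiableAt ℂ (g l) (t ^ k, arc a K t) :=
    fun t ht l => (hg l).differentiableAt ((isOpen_UU ls r₁ Λ 1 R).mem_nhds (hsub' ht.2))
  have hent : ∀ t ∈ WW ι ls r₁ Λ k a K R, ∀ i l, ‖Mat S g (t ^ k, arc a K t) i l‖ ≤ X := by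
    intro t ht i l
    have h3 := fderiv_le (f := fun z => Phi S g k a K (z, t)) (a := 0) hδ0
      (hΦ.comp (f := fun z => (z, t)) (by fun_prop) fun z hz => ⟨hz, ht⟩) fun z hz => hΦQ z hz t ht
    have h4 := (fderiv ℂ (fun z => Phi S g k a K (z, t)) 0).le_opNorm (Pi.single i 1)
    rw [fderiv_Phi S (hda t ht), Matrix.single_one_vecMul, Pi.norm_single, norm_one, mul_one] at h4
    exact (norm_le_pi_norm (Matrix.row (Mat S g (t ^ k, arc a K t)) i) l).trans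
      (h4.trans (h3.trans hQX))
  have hne : ∀ t ∈ WW ι ls r₁ Λ k a K R, (Mat S g (t ^ k, arc a K t)).det ≠ 0 := fun t ht =>
    norm_pos_iff.1 (hd0.trans_le (hd t ht))
  have hM : ∀ i l, DifferentiableOn ℂ
      (fun q : (Fin r → ℂ) × ℂ => Mat S g (q.2 ^ k, arc a K q.2) i l)
      (ball 0 δ ×ˢ WW ι ls r₁ Λ k a K R) := fun i l =>
    (Vale.Agent.P281.MF.differentiableOn_fderiv_apply (isOpen_UU ls r₁ Λ 1 R) (hg l)
      (0, Pi.single (S i) 1)).comp (f := fun q : (Fin r → ℂ) × ℂ => (q.2 ^ k, arc a K q.2))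
      (Differentiable.differentiableOn (by fun_prop)) fun q hq => hsub' hq.2.2
  refine newton (Φ := Phi S g k a K) (B := fun t => inv (Mat S g (t ^ k, arc a K t))) isOpen_WW hρ
    (le_trans (by positivity) hβ) h2ρ hΦ hΦQ ?_ (fun t ht z => ?_) (fun t ht z => ?_)
    (fun t ht => inv_inj (hne t ht)) h1 (fun t ht => ?_)
  · refine differentiableOn_pi.2 fun i => ?_
    simp only [inv_apply]
    exact ((differentiableOn_det hM).inv fun q hq => hne _ hq.2).mul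
      (DifferentiableOn.fun_sum fun l _ => (hΦl l).mul (differentiableOn_adj hM l i))
  · refine (norm_inv_le hX (hent t ht) hd0 (hd t ht) z).trans ?_
    rw [Fintype.card_fin]
    exact mul_le_mul_of_nonneg_right hβ (norm_nonneg _)
  · rw [fderiv_Phi S (hda t ht), inv_vecMul (hne t ht)]
  · have : Phi S g k a K (0, t) = fun l => g l (t ^ k, arc a K t) := by
      funext l; simp [Phi]
    rw [this]; exact h2 t ht

/-! ### Large radii -/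

lemma fam_flat_pi {R₀ : ℝ} {A k m M : ℕ} {g : Fin r → ℝ → ℂ × (ι ⊕ κ → ℂ) → ℂ}
    {H : Fin r → ℕ → (ι ⊕ κ → ℂ) → ℂ} {a : ℕ → ι ⊕ κ → ℝ} (hF : ∀ l, Fam ls r₁ Λ R₀ A (g l) (H l))
    (hk : 0 < k) (hH : ∀ l, FlatOn (H l) k a) (hM : k * m ≤ M) :
    ∃ C : ℝ, 0 ≤ C ∧ ∀ᶠ R : ℝ in atTop, ∀ t : ℂ, ‖t‖ ^ k * R ^ 2 < 6 →
      (t ^ k, arc a M t) ∈ UU ι ls r₁ Λ (3 / 4) R →
      ‖fun l => g l R (t ^ k, arc a M t)‖ ≤ C * R ^ A / R ^ (2 * m) := by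
  choose C hC0 hC using fun l => fam_flat (hF l) hk (hH l) hM
  have h0 : 0 ≤ ∑ l, C l := Finset.sum_nonneg fun l _ => hC0 l
  refine ⟨∑ l, C l, h0, ?_⟩
  filter_upwards [eventually_all.2 hC, eventually_gt_atTop 0] with R h hR t ht hy
  refine (pi_norm_le_iff_of_nonneg (by positivity)).2 fun l => (h l t ht hy).trans ?_
  gcongr
  exact Finset.single_le_sum (fun l _ => hC0 l) (Finset.mem_univ l)

lemma fam_bdd {R₀ : ℝ} {A : ℕ} {F : ℝ → ℂ × (ι ⊕ κ → ℂ) → ℂ} {H : ℕ → (ι ⊕ κ → ℂ) → ℂ}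
    (hF : Fam ls r₁ Λ R₀ A F H) :
    ∀ᶠ R : ℝ in atTop, ∀ p ∈ UU ι ls r₁ Λ (3 / 4) R, ‖F R p‖ ≤ R ^ (A + 1) := by
  obtain ⟨C, hC⟩ := hF.app (3 / 4) (by norm_num) 0
  filter_upwards [eventually_ge_atTop R₀, eventually_gt_atTop 0,
    ev_pow (|C| * 2) one_pos (Nat.lt_succ_self A)] with R h1 h2 h3 p hp
  have h4 := hC R h1 p hp
  have h5 : Real.exp (-R ^ 2 / 5) ≤ 1 := Real.exp_le_one_iff.2 (by nlinarith)
  have h6 : C * R ^ A * (1 + Real.exp (-R ^ 2 / 5)) ≤ |C| * R ^ A * (1 + 1) :=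
    mul_le_mul (mul_le_mul_of_nonneg_right (le_abs_self C) (by positivity)) (by linarith)
      (by positivity) (by positivity)
  simp only [tr, Finset.range_zero, Finset.sum_empty, sub_zero, pow_zero] at h4
  rw [Nat.succ_eq_add_one] at h3
  linarith

lemma ev_step {R₀ : ℝ} {A k N₀ : ℕ} {g : Fin r → ℝ → ℂ × (ι ⊕ κ → ℂ) → ℂ}
    {H : Fin r → ℕ → (ι ⊕ κ → ℂ) → ℂ} {Hd : ℕ → (ι ⊕ κ → ℂ) → ℂ} {a : ℕ → ι ⊕ κ → ℝ}
    (hls : ‖ls‖ = 1) (hr : 0 < r₁) (hr' : r₁ ≤ 1 / 2) (hF : ∀ l, Fam ls r₁ Λ R₀ A (g l) (H l))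
    (hD : Fam ls r₁ Λ R₀ A (fun R p => (Mat S (fun l => g l R) p).det) Hd) (hk : 0 < k)
    (hH : ∀ l, FlatOn (H l) k a) (hO : OrdOn Hd k a N₀) :
    ∃ B : ℕ, ∀ n m K : ℕ, A + B + 5 < n → A + B + n < 2 * m → A + 2 * N₀ < 2 * m → k * m ≤ K →
      N₀ < K → ∀ᶠ R : ℝ in atTop, ∃ ζ : ℂ → Fin r → ℂ,
        DifferentiableOn ℂ ζ (WW ι ls r₁ Λ k a K R) ∧ ∀ t ∈ WW ι ls r₁ Λ k a K R,
          ‖ζ t‖ ≤ 1 / R ^ n / 4 ∧ Phi S (fun l => g l R) k a K (ζ t, t) = 0 ∧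
          ∀ z ∈ ball (0 : Fin r → ℂ) (1 / R ^ n),
            ‖z - ζ t‖ ≤ 2 * R ^ B * ‖Phi S (fun l => g l R) k a K (z, t)‖ := by
  obtain ⟨c, hc, hc'⟩ := fam_ord hD hk hO
  refine ⟨2 * N₀ + (A + 4) * r + 1, fun n m K hn hm hm' hK hK' => ?_⟩
  generalize hB : 2 * N₀ + (A + 4) * r + 1 = B at hn hm
  obtain ⟨C, hC0, hC⟩ := fam_flat_pi hF hk hH hK
  filter_upwards [hc' m K hK hm' hK', hC, eventually_all.2 fun l => fam_bdd (hF l),
    eventually_ge_atTop R₀, eventually_ge_atTop 4, ev_pow 4 hr (show A + 3 < A + 4 by omega),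
    ev_pow (c⁻¹ * (r * r.factorial)) one_pos (show 2 * N₀ + (A + 4) * r < B by omega),
    ev_pow 4 hr (show 2 < n by omega), ev_pow 512 (pow_pos hr 2) hn,
    ev_pow (8 * C) one_pos hm] with R h1 h2 h3 h4 h5 h6 h7 h8 h9 h10
  have hR : 0 < R := by linarith
  have hW : ∀ t ∈ WW ι ls r₁ Λ k a K R, ‖t‖ ^ k * R ^ 2 < 6 ∧
      (t ^ k, arc a K t) ∈ UU ι ls r₁ Λ (3 / 4) R := fun t ht =>
    ⟨by simpa using fst_lt hls hr hr' ht.2, UU_mono ls hr.le Λ (by norm_num) R ht.2⟩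
  refine step S (Q := R ^ (A + 1)) (X := R ^ (A + 4)) (d := c / R ^ (2 * N₀)) hls hr hr' h5
    (fun l => (hF l).hol R h4) (by positivity) h3 (by positivity)
    (fun t ht => h1 t ht.1 (hW t ht).1 (hW t ht).2) (one_le_pow₀ (by linarith)) ?_ ?_
    (by positivity) ?_ ?_ fun t ht => ?_
  · rw [div_le_iff₀ (by positivity), mul_div_assoc', le_div_iff₀ (by positivity)]
    calc 2 * R ^ (A + 1) * R ^ 2 = 4 * R ^ (A + 3) / 2 := by ring
      _ ≤ r₁ * R ^ (A + 4) / 2 := by linarith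
      _ = _ := by ring
  · calc (c / R ^ (2 * N₀))⁻¹ * (r * (r.factorial * (R ^ (A + 4)) ^ r))
        = c⁻¹ * (r * r.factorial) * R ^ (2 * N₀ + (A + 4) * r) := by
          rw [← pow_mul, pow_add R (2 * N₀)]; field_simp
      _ ≤ _ := by linarith
  · rw [mul_one_div, div_le_div_iff₀ (by positivity) (by positivity)]
    linarith
  · rw [mul_one_div, div_pow, div_le_div_iff₀ (by positivity) (by positivity)]
    calc 128 * R ^ B * R ^ (A + 1) * (R ^ 2) ^ 2 = 512 * R ^ (A + B + 5) / 4 := by ring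
      _ ≤ r₁ ^ 2 * R ^ n / 4 := by linarith
      _ = _ := by ring
  · refine (mul_le_mul_of_nonneg_left (h2 t (hW t ht).1 (hW t ht).2) (by positivity)).trans ?_
    rw [mul_div_assoc', div_div, div_le_div_iff₀ (by positivity) (by positivity)]
    calc R ^ B * (C * R ^ A) * (R ^ n * 8) = 8 * C * R ^ (A + B + n) := by ring
      _ ≤ _ := h10

lemma arc_sub (a : ℕ → ι ⊕ κ → ℝ) {K M : ℕ} (h : K ≤ M) (t : ℂ) (i : ι ⊕ κ) :
    arc a M t i - arc a K t i = ∑ n ∈ Finset.Ico K M, (a n i : ℂ) * t ^ n :=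
  (Finset.sum_Ico_eq_sub _ h).symm

lemma norm_arc_sub (a : ℕ → ι ⊕ κ → ℝ) {K M : ℕ} (h : K ≤ M) {t : ℂ} (ht : ‖t‖ ≤ 1) (i : ι ⊕ κ) :
    ‖arc a M t i - arc a K t i‖ ≤ (∑ n ∈ Finset.Ico K M, ‖a n‖) * ‖t‖ ^ K := by
  rw [arc_sub a h, Finset.sum_mul]
  refine norm_sum_le_of_le _ fun n hn => ?_
  rw [norm_mul, norm_pow, Complex.norm_real]
  exact mul_le_mul (norm_le_pi_norm (a n) i)
    (pow_le_pow_of_le_one (norm_nonneg _) ht (Finset.mem_Ico.1 hn).1) (by positivity)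
    (norm_nonneg _)

lemma arc_eq {a : ℕ → ι ⊕ κ → ℝ} {N₁ K M : ℕ} (ha : ∀ n, N₁ < n → ∀ i, i ∉ range S → a n i = 0)
    (hK : N₁ < K) (h : K ≤ M) (t : ℂ) :
    arc a K t + emb S (fun l => arc a M t (S l) - arc a K t (S l)) = arc a M t := by
  funext i
  rw [Pi.add_apply]
  by_cases hi : i ∈ range S
  · obtain ⟨l, rfl⟩ := hi
    rw [emb_S]; ring
  · rw [emb_not S _ hi, add_zero, eq_comm, ← sub_eq_zero, arc_sub a h]
    exact Finset.sum_eq_zero fun n hn => by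
      rw [ha n (hK.trans_le (Finset.mem_Ico.1 hn).1) i hi]; simp

end step

/-- K-NEWTON -/
theorem newton_proof : NewtonStmt := by
  intro ι κ _ _ _ r₁ Λ R₀ ls A k r N₀ N₁ S g H Hd a _ hls hr hr' hF hD hk _ ha hH hO
  obtain ⟨B, hB⟩ := ev_step S hls hr hr' hF hD hk hH hO
  obtain ⟨n, hn⟩ : ∃ n, n = A + B + 9 := ⟨_, rfl⟩
  obtain ⟨m, hm⟩ : ∃ m, m = A + B + n + N₀ + N₁ + 1 := ⟨_, rfl⟩
  have hmK : m ≤ k * m := Nat.le_mul_of_pos_left m hk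
  obtain ⟨ζ, hζ⟩ := (hB n m (k * m) (by omega) (by omega) (by omega) le_rfl (by omega)).choice
  have hsm : ∀ᶠ R : ℝ in atTop, 4 ≤ R ∧ 1 / R ^ n * R ^ 2 ≤ r₁ / 2 := by
    filter_upwards [eventually_ge_atTop 4, ev_pow 2 hr (show 2 < n by omega)] with R h1 h2
    refine ⟨h1, ?_⟩
    rw [one_div_mul_eq_div, div_le_iff₀ (by positivity)]
    linarith
  have hW : ∀ {R : ℝ} {t : ℂ}, t ∈ WW ι ls r₁ Λ k a (k * m) R → ‖t‖ ^ k * R ^ 2 < 6 := fun ht => by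
    simpa using fst_lt hls hr hr' ht.2
  have hmem : ∀ {R : ℝ} {t : ℂ} {z : Fin r → ℂ}, 4 ≤ R ∧ 1 / R ^ n * R ^ 2 ≤ r₁ / 2 →
      t ∈ WW ι ls r₁ Λ k a (k * m) R → ‖z‖ < 1 / R ^ n →
      (t ^ k, arc a (k * m) t + emb S z) ∈ UU ι ls r₁ Λ (3 / 4) R := fun h ht hz =>
    add_mem hls hr hr' h.1 ht.2 ((mul_le_mul_of_nonneg_right ((norm_emb_le S _).trans hz.le)
      (sq_nonneg _)).trans h.2)
  refine ⟨k * m, fun R t => arc a (k * m) t + emb S (ζ R t), ?_, ?_, fun M => ?_, ?_⟩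
  · filter_upwards [hζ] with R h
    exact (differentiable_arc a _).differentiableOn.add
      ((emb S).differentiable.comp_differentiableOn h.1)
  · filter_upwards [hζ, eventually_gt_atTop 0,
      ev_pow 625 (show (0 : ℝ) < 4 by norm_num) (show 8 < n by omega)] with R h hR h1 t ht
    rw [add_sub_cancel_left]
    refine ((norm_emb_le S _).trans (h.2 t ht).1).trans ?_
    calc 1 / R ^ n / 4 ≤ (1 / 5 / R ^ 2) ^ 4 := by
          rw [div_div, div_pow, div_le_div_iff₀ (by positivity) (by positivity)]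
          calc 1 * (R ^ 2) ^ 4 = 625 * R ^ 8 / 625 := by ring
            _ ≤ 4 * R ^ n / 625 := by linarith
            _ = _ := by ring
      _ ≤ (‖t‖ ^ k) ^ 4 :=
          pow_le_pow_left₀ (by positivity) ((div_le_iff₀ (by positivity)).2 ht.1.le) _
      _ = _ := by rw [← pow_mul, mul_comm]
  · filter_upwards [eventually_ge_atTop (k * m), eventually_ge_atTop (k * (M + A + B))]
      with M' h1 h2
    obtain ⟨C, hC0, hC⟩ := fam_flat_pi hF hk hH h2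
    refine ⟨2 * C, ?_⟩
    have hs : 0 ≤ ∑ j ∈ Finset.Ico (k * m) M', ‖a j‖ := Finset.sum_nonneg fun _ _ => norm_nonneg _
    filter_upwards [hζ, hsm, hC, ev_small (k := k) (closedBall_mem_nhds (0 : ℂ) one_pos),
      ev_pow ((∑ j ∈ Finset.Ico (k * m) M', ‖a j‖) * 6 ^ m) (show (0 : ℝ) < 1 / 2 by norm_num)
        (show n < 2 * m by omega)] with R h h3 h4 h5 h6 t ht
    have hR1 : 1 ≤ R := by linarith [h3.1]
    have hR : 0 < R := by linarith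
    have ht1 : ‖t‖ ≤ 1 := mem_closedBall_zero_iff.1 (h5 t (hW ht))
    have he := arc_eq S ha (show N₁ < k * m by omega) h1 t
    have hw : ‖fun l => arc a M' t (S l) - arc a (k * m) t (S l)‖ < 1 / R ^ n := by
      refine lt_of_le_of_lt ((pi_norm_le_iff_of_nonneg (by positivity)).2 fun l =>
        (norm_arc_sub a h1 ht1 (S l)).trans (mul_le_mul_of_nonneg_left
          (pow_le_of_lt (norm_nonneg _) ht1 hR (hW ht) le_rfl) hs)) ?_
      rw [mul_div_assoc', div_lt_div_iff₀ (by positivity) (by positivity)]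
      have : 0 < R ^ (2 * m) := by positivity
      linarith
    generalize (fun l => arc a M' t (S l) - arc a (k * m) t (S l)) = w at he hw
    have h7 := (h.2 t ht).2.2 w (mem_ball_zero_iff.2 hw)
    have h8 := h4 t (hW ht) (he ▸ hmem h3 ht hw)
    have h9 : Phi S (fun l => g l R) k a (k * m) (w, t) = fun l => g l R (t ^ k, arc a M' t) := by
      funext l; simp only [Phi, he]
    rw [h9] at h7
    rw [← he, add_sub_add_left_eq_sub, ← map_sub]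
    refine (norm_emb_le S _).trans ((norm_sub_rev _ _).trans_le (h7.trans ?_))
    refine (mul_le_mul_of_nonneg_left h8 (by positivity)).trans ?_
    rw [mul_div_assoc', div_le_div_iff₀ (by positivity) (by positivity)]
    calc 2 * R ^ B * (C * R ^ A) * R ^ M = 2 * C * R ^ (M + A + B) := by ring
      _ ≤ _ := mul_le_mul_of_nonneg_left (pow_le_pow_right₀ hR1 (by omega)) (by positivity)
  · choose C hC using fun l => (hF l).inc (3 / 4) (by norm_num)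
    refine ⟨2 * ∑ l, |C l|, A + B, ?_⟩
    filter_upwards [eventually_forall_ge_atTop.2 (hζ.and hsm), eventually_ge_atTop R₀]
      with ρ h h0 R h1 h2 t ht ht'
    obtain ⟨hR, hR'⟩ := h R h1
    obtain ⟨hρ, hρ'⟩ := h ρ le_rfl
    have hρ0 : 0 < ρ := by linarith [hρ'.1]
    have hR0 : 0 < R := by linarith
    have h3 : ‖ζ R t‖ < 1 / R ^ n := (hR.2 t ht).1.trans_lt (by
      have : 0 < 1 / R ^ n := by positivity
      linarith)
    have h4 : ‖ζ R t‖ < 1 / ρ ^ n := h3.trans_le (by gcongr)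
    have h5 := (hρ.2 t ht').2.2 _ (mem_ball_zero_iff.2 h4)
    have hs : 0 ≤ ∑ l, |C l| := Finset.sum_nonneg fun _ _ => abs_nonneg _
    have h6 : ‖Phi S (fun l => g l ρ) k a (k * m) (ζ R t, t)‖ ≤
        (∑ l, |C l|) * ρ ^ A * Real.exp (-ρ ^ 2 / 4) := by
      refine (pi_norm_le_iff_of_nonneg (by positivity)).2 fun l => ?_
      have h7 := hC l ρ R h0 h1 h2 _ (hmem hR' ht h3) (hmem hρ' ht' h4)
      have h8 : g l R (t ^ k, arc a (k * m) t + emb S (ζ R t)) = 0 := congrFun (hR.2 t ht).2.1 l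
      rw [h8, zero_sub, norm_neg] at h7
      refine h7.trans ?_
      gcongr
      exact (le_abs_self _).trans
        (Finset.single_le_sum (f := fun l => |C l|) (fun l _ => abs_nonneg _) (Finset.mem_univ l))
    rw [add_sub_add_left_eq_sub, ← map_sub]
    refine (norm_emb_le S _).trans (h5.trans ?_)
    refine (mul_le_mul_of_nonneg_left h6 (by positivity)).trans_eq (by ring)

end Vale.Agent.P218F.K.Newton
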