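import Vale.Agent.P218F.KReal3

/-! Block K, leaf K-REAL: the jumps along the realised arc and the statement `RealStmt`. -/

open Filter Topology Set Asymptotics Metric

noncomputable section

set_option linter.unusedSectionVars false

namespace Vale.Agent.P218F.K

namespace Re

variable {ι κ τ : Type} [Fintype ι] [Fintype κ] [Fintype τ]

variable {r₀ r₁ Λ Λ' R₀ : ℝ} {f : ℝ → (ι ⊕ κ → ℂ) → ℂ} {G : ℝ → (ι ⊕ κ → ℂ) → (τ → ℂ)}
  {φ : κ → (ι ⊕ κ → ℂ) → ℂ} {Y : ℝ → ℂ → ℂ} {sig : ℂ → ℂ} {PG : τ → ℕ → (ι ⊕ κ → ℂ) → ℂ}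
  {Pf : ℕ → (ι ⊕ κ → ℂ) → ℂ} {ls : κ → ℝ} {k K : ℕ} {a : ℕ → ι ⊕ κ → ℝ}
  {y : ℝ → ℂ → (ι ⊕ κ → ℂ)}

/-- moving the base point -/
theorem Hyp.move (h : Hyp r₀ r₁ Λ Λ' R₀ f G φ Y sig PG Pf ls k K a y) :
    ∃ C : ℝ, 0 ≤ C ∧ ∀ᶠ R : ℝ in atTop, ∀ R', R ≤ R' → R' ≤ R + 1 →
      ∀ t ∈ WW ι ls r₁ Λ k a K R', t ∈ WW ι ls r₁ Λ k a K R →
        xx ls k y R t ∈ Dom ι κ r₀ Λ R' ∧
        ‖f R' (xx ls k y R' t) - f R' (xx ls k y R t)‖ ≤ C / R ^ 4 * Real.exp (-R ^ 2 / 4) := by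
  obtain ⟨C, A, hC⟩ := h.nd.inc
  obtain ⟨D, B, hD⟩ := h.kd.grad
  refine ⟨|D| * |C|, by positivity, ?_⟩
  filter_upwards [hC, eventually_forall_ge_atTop.2 (h.G_small (B + (A + 4))),
    eventually_forall_ge_atTop.2 h.mem, h.small ev_norm_le_one, eventually_ge_atTop R₀,
    exp_le_inv_pow (A + (B + (A + 4) + 5 + 1)) (show (0 : ℝ) < 4 by norm_num),
    eventually_ge_atTop (|C| * 2 ^ (B + (A + 4) + 5))] with R e1 e2 e3 e4 e5 e6 e7 R' h1 h2 t ht' ht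
  have hR := h.kd.big.one_le e5
  have hR0 : 0 < R := by linarith
  have hR' : 1 ≤ R' := hR.trans h1
  have q0 : ‖t ^ k‖ ≤ 1 := by rw [norm_pow]; exact pow_le_one₀ (norm_nonneg _) (e4 t ht)
  have q1 : ‖xx ls k y R' t - xx ls k y R t‖ ≤ |C| * R ^ A * Real.exp (-R ^ 2 / 4) :=
    (chart_sub_le ls q0 _ _).trans ((e1 R' h1 h2 t ht' ht).trans (by
      gcongr; exact le_abs_self C))
  have q2 : |C| * R ^ A * Real.exp (-R ^ 2 / 4) ≤ 1 / R' ^ (B + (A + 4) + 5) := by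
    have p1 : R' ^ (B + (A + 4) + 5) ≤ (2 * R) ^ (B + (A + 4) + 5) :=
      pow_le_pow_left₀ (by linarith) (by linarith) _
    refine le_trans ?_ (one_div_le_one_div_of_le (by positivity) p1)
    refine (mul_le_mul_of_nonneg_left e6 (by positivity)).trans ?_
    have p2 := div_le_one_div (B + (A + 4) + 5) hR0 e7
    calc |C| * R ^ A * (1 / R ^ (A + (B + (A + 4) + 5 + 1)))
        = |C| * 2 ^ (B + (A + 4) + 5) / R ^ (B + (A + 4) + 5 + 1) / 2 ^ (B + (A + 4) + 5) := by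
          field_simp
          ring
      _ ≤ 1 / R ^ (B + (A + 4) + 5) / 2 ^ (B + (A + 4) + 5) :=
          div_le_div_of_nonneg_right p2 (by positivity)
      _ = 1 / (2 * R) ^ (B + (A + 4) + 5) := by rw [mul_pow]; field_simp
  have q5 : 1 / R' ^ (B + (A + 4) + 5) ≤ 1 / R' ^ 5 := one_div_pow_le hR' (by omega)
  have hb : ∀ z ∈ closedBall (xx ls k y R' t) (1 / R' ^ (B + (A + 4) + 5)),
      ‖z - xx ls k y R' t‖ ≤ 1 / R' ^ (B + (A + 4) + 5) := fun z hz => by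
    rwa [mem_closedBall, dist_eq_norm] at hz
  have hm : ∀ z ∈ closedBall (xx ls k y R' t) (1 / R' ^ (B + (A + 4) + 5)),
      z ∈ Dom ι κ r₀ Λ R' := fun z hz => e3 R' h1 t ht' z ((hb z hz).trans q5)
  have hx : xx ls k y R t ∈ closedBall (xx ls k y R' t) (1 / R' ^ (B + (A + 4) + 5)) := by
    rw [mem_closedBall, dist_eq_norm, norm_sub_rev]
    exact q1.trans q2
  refine ⟨hm _ hx, ?_⟩
  have key := (convex_closedBall (xx ls k y R' t)
    (1 / R' ^ (B + (A + 4) + 5))).norm_image_sub_le_of_norm_fderiv_le (𝕜 := ℂ) (f := f R')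
    (C := |D| / R ^ (A + 4))
    (fun z hz => (h.kd.f_hol R' (e5.trans h1)).differentiableAt
      ((isOpen_Dom r₀ Λ _).mem_nhds (hm z hz))) (fun z hz => ?_) hx
    (mem_closedBall_self (by positivity))
  · refine key.trans ((mul_le_mul_of_nonneg_left q1 (by positivity)).trans (le_of_eq ?_))
    field_simp
    ring
  · have p1 := e2 R' h1 t ht' z (hb z hz)
    have p2 := hD R' (e5.trans h1) z (hm z hz)
    have p3 : D * R' ^ B * ‖G R' z‖ ≤ |D| * R' ^ B * (1 / R' ^ (B + (A + 4))) := by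
      gcongr
      exact le_abs_self D
    have p4 : |D| * R' ^ B * (1 / R' ^ (B + (A + 4))) = |D| / R' ^ (A + 4) := by
      field_simp
      ring
    have p5 : |D| / R' ^ (A + 4) ≤ |D| / R ^ (A + 4) := by gcongr
    linarith

/-- the tip coordinates on the realised and on the truncated arc -/
theorem Hyp.φ_close (h : Hyp r₀ r₁ Λ Λ' R₀ f G φ Y sig PG Pf ls k K a y) :
    ∃ L : ℝ, 0 ≤ L ∧ ∀ᶠ R : ℝ in atTop, ∀ t ∈ WW ι ls r₁ Λ k a K R, ∀ i,
      ‖φ i (xx ls k y R t) - φ i (X ls k a K t)‖ ≤ L / R ^ 8 := by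
  have h1 : ∀ i, ∃ L : ℝ, 0 ≤ L ∧ ∀ᶠ R : ℝ in atTop, ∀ t ∈ WW ι ls r₁ Λ k a K R,
      ‖φ i (xx ls k y R t) - φ i (X ls k a K t)‖ ≤ L / R ^ 8 := by
    intro i
    obtain ⟨L, s, hs, hL⟩ := ((h.kd.φ_ana i).contDiffAt (n := 1)).exists_lipschitzOnWith
    obtain ⟨ε, hε, hb⟩ := Metric.mem_nhds_iff.1 hs
    refine ⟨L * 8 ^ 4, by positivity, ?_⟩
    have h2 := (X_tendsto ls h.k_pos h.a0 K).eventually (ball_mem_nhds 0 (half_pos hε))
    filter_upwards [h.near, h.small h2, eventually_ge_atTop (8 ^ 4 : ℝ),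
      eventually_ge_atTop (2 / ε)] with R e1 e2 e3 e4 t ht
    have hR : (1 : ℝ) ≤ R := by linarith
    have q1 := e1 t ht
    have q2 : ‖X ls k a K t‖ < ε / 2 := mem_ball_zero_iff.1 (e2 t ht)
    have q3 : 8 ^ 4 / R ^ 8 ≤ ε / 2 := by
      refine (div_le_one_div 7 (by linarith) e3).trans
        ((one_div_pow_le (m := 1) hR (by norm_num)).trans ?_)
      rw [div_le_iff₀ hε] at e4
      rw [pow_one, div_le_div_iff₀ (by linarith) (by norm_num)]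
      linarith
    have q4 : ‖xx ls k y R t‖ < ε := by
      have := norm_le_norm_add_norm_sub' (xx ls k y R t) (X ls k a K t)
      linarith
    have q5 := hL.norm_sub_le (hb (mem_ball_zero_iff.2 q4))
      (hb (mem_ball_zero_iff.2 (q2.trans (half_lt_self hε))))
    exact q5.trans ((mul_le_mul_of_nonneg_left q1 L.coe_nonneg).trans
      (le_of_eq (mul_div_assoc _ _ _).symm))
  choose L hL0 hL using h1
  refine ⟨∑ i, L i, Finset.sum_nonneg fun i _ => hL0 i, ?_⟩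
  filter_upwards [eventually_all.2 hL, eventually_gt_atTop 0] with R e1 e2 t ht i
  exact (e1 i t ht).trans (div_le_div_of_nonneg_right
    (Finset.single_le_sum (fun j _ => hL0 j) (Finset.mem_univ i)) (by positivity))

theorem rpow_cmp {u v : ℝ} (hv : 0 < v) (h : v ≤ 4 * u) :
    u ^ (-(1 / 2) : ℝ) ≤ 2 * v ^ (-(1 / 2) : ℝ) := by
  have h1 : u ^ (-(1 / 2) : ℝ) ≤ (v / 4) ^ (-(1 / 2) : ℝ) :=
    Real.rpow_le_rpow_of_nonpos (by positivity) (by linarith) (by norm_num)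
  have h2 : (4 : ℝ) ^ (-(1 / 2) : ℝ) = 1 / 2 := by
    rw [Real.rpow_neg (by norm_num), ← Real.sqrt_eq_rpow,
      show (4 : ℝ) = 2 ^ 2 by norm_num, Real.sqrt_sq (by norm_num)]
    norm_num
  rw [Real.div_rpow hv.le (by norm_num), h2] at h1
  linarith

theorem integrable_end {R R' : ℝ} {c : ℂ} (hs : SymData R₀ Λ' Y sig) (h0 : R₀ ≤ R) (h1 : R ≤ R')
    (hc : ∀ r ∈ Icc R R', c ∈ Om Λ' 4 r) : IntervalIntegrable
      (fun r : ℝ => ((Real.exp (-r ^ 2 / 4) : ℝ) : ℂ) * bd (Y r c)) MeasureTheory.volume R R' := by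
  refine ContinuousOn.intervalIntegrable ?_
  rw [uIcc_of_le h1]
  refine ContinuousOn.mul (by fun_prop) ?_
  exact hs.bd_cont.comp (f := fun r : ℝ => (r, c)) (by fun_prop)
    fun r hr => ⟨h0.trans hr.1, hc r hr⟩

/-- the jump formula along the realised arc -/
theorem Hyp.jump (h : Hyp r₀ r₁ Λ Λ' R₀ f G φ Y sig PG Pf ls k K a y) (hJ : JumpOut r₀ Λ f φ Y) :
    ∃ η : ℝ → ℝ, Tendsto η atTop (𝓝 0) ∧ ∀ᶠ R : ℝ in atTop, ∀ R', R ≤ R' → R' ≤ R + 1 / R →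
      ∀ t ∈ WW ι ls r₁ Λ k a K R', t ∈ WW ι ls r₁ Λ k a K R →
        ‖f R' (xx ls k y R' t) - f R (xx ls k y R t) - ∑ i, ∫ r in R..R',
          (Real.exp (-r ^ 2 / 4) : ℝ) * bd (Y r (φ i (X ls k a K t)))‖ ≤
        η R * Real.exp (-R ^ 2 / 4) / R ^ 3 *
          (1 + ∑ i, R ^ (1 / 2 : ℝ) * ‖sOf R (φ i (X ls k a K t))‖ ^ (-(1 / 2) : ℝ)) := by
  obtain ⟨η, hη, hJ⟩ := hJ
  obtain ⟨C, hC0, hC⟩ := h.move
  obtain ⟨L, hL0, hL⟩ := h.φ_close
  obtain ⟨D, hD0, hD⟩ := h.kd.sym.bd_lip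
  refine ⟨fun R => 2 * η R + (C + Fintype.card κ * (16 * D * L)) / R, ?_, ?_⟩
  · simpa using (hη.const_mul 2).add
      ((tendsto_const_nhds (x := C + Fintype.card κ * (16 * D * L))).div_atTop tendsto_id)
  filter_upwards [hJ, hC, hL, eventually_ge_atTop R₀, eventually_ge_atTop L]
    with R ⟨e0, e1⟩ e2 e3 e4 e5 R' h1 h2 t ht' ht
  have hR := h.kd.big.one_le e4
  have hR0 : 0 < R := by linarith
  have hi : 1 / R ≤ 1 := by rw [div_le_one hR0]; exact hR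
  obtain ⟨q1, q2⟩ := e2 R' h1 (by linarith) t ht' ht
  have q3 := e1 R' h1 h2 _ q1
  have q4 : X ls k a K t ∈ Dom ι κ r₀ Λ R' := h.ball_sub (e4.trans h1) ht' (mem_ball_self (by
    have := h.r_pos
    have : 0 < R' := by linarith
    positivity))
  have hφ : ∀ x ∈ Dom ι κ r₀ Λ R', ∀ i, ∀ r ∈ Icc R R', φ i x ∈ Om (Λ' + 1) (7 / 2) r :=
    fun x hx i r hr => h.kd.φ_mem r (e4.trans hr.1) x (h.kd.big.nest_Dom (e4.trans hr.1) hr.2 hx) i
  have hE := (Real.exp_pos (-R ^ 2 / 4)).le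
  -- replacing the tip coordinates in the integrals
  have q5 : ∀ i, ‖(∫ r in R..R', (Real.exp (-r ^ 2 / 4) : ℝ) * bd (Y r (φ i (xx ls k y R t)))) -
      ∫ r in R..R', (Real.exp (-r ^ 2 / 4) : ℝ) * bd (Y r (φ i (X ls k a K t)))‖ ≤
      16 * D * L / R ^ 4 * Real.exp (-R ^ 2 / 4) := by
    intro i
    rw [← intervalIntegral.integral_sub
      (integrable_end h.kd.sym e4 h1 fun r hr =>
        Om_mono (by linarith) (by norm_num) r (hφ _ q1 i r hr))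
      (integrable_end h.kd.sym e4 h1 fun r hr =>
        Om_mono (by linarith) (by norm_num) r (hφ _ q4 i r hr))]
    refine (intervalIntegral.norm_integral_le_of_norm_le_const
      (C := 16 * D * L / R ^ 4 * Real.exp (-R ^ 2 / 4)) fun r hr => ?_).trans ?_
    · rw [uIoc_of_le h1] at hr
      have hr' : r ∈ Icc R R' := ⟨hr.1.le, hr.2⟩
      have p1 := hD r (e4.trans hr.1.le) (h.kd.big.2.1.trans (e4.trans hr.1.le)) _
        (Om_mono (by linarith) (by norm_num) r (hφ _ q4 i r hr')) _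
        (Om_mono (by linarith) (by norm_num) r (hφ _ q1 i r hr'))
      have p2 : r ^ 4 ≤ (2 * R) ^ 4 := pow_le_pow_left₀ (by linarith [hr.1]) (by linarith [hr.2]) 4
      have p3 : Real.exp (-r ^ 2 / 4) ≤ Real.exp (-R ^ 2 / 4) :=
        Real.exp_le_exp.2 (by nlinarith [hr.1])
      have p4 : D * r ^ 4 * ‖φ i (xx ls k y R t) - φ i (X ls k a K t)‖ ≤
          D * (2 * R) ^ 4 * (L / R ^ 8) := by
        gcongr
        exact e3 t ht i
      have p5 : D * (2 * R) ^ 4 * (L / R ^ 8) = 16 * D * L / R ^ 4 := by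
        field_simp
        ring
      rw [← mul_sub, norm_mul, Complex.norm_real, Real.norm_of_nonneg (Real.exp_pos _).le,
        mul_comm]
      exact mul_le_mul (by linarith) p3 (Real.exp_pos _).le (by positivity)
    · rw [abs_of_nonneg (by linarith)]
      exact mul_le_of_le_one_right (by positivity) (by linarith)
  -- comparing the weights
  have q6 : ∀ i, ‖sOf R (φ i (xx ls k y R t))‖ ^ (-(1 / 2) : ℝ) ≤
      2 * ‖sOf R (φ i (X ls k a K t))‖ ^ (-(1 / 2) : ℝ) := by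
    intro i
    have p0 := h.kd.sym.one_le
    have p1 := (Om_re hR0.ne' (hφ _ q1 i R ⟨le_rfl, h1⟩)).trans_le (Complex.re_le_norm _)
    have p2 := (Om_re hR0.ne' (hφ _ q4 i R ⟨le_rfl, h1⟩)).trans_le (Complex.re_le_norm _)
    refine rpow_cmp (by linarith) ?_
    have p3 : ‖sOf R (φ i (xx ls k y R t)) - sOf R (φ i (X ls k a K t))‖ ≤ 1 := by
      rw [sOf_sub, norm_mul, norm_div, norm_pow, Complex.norm_real, Real.norm_of_nonneg hR0.le]
      refine (mul_le_mul_of_nonneg_left (e3 t ht i) (by positivity)).trans ?_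
      have p4 : L / R ^ 4 ≤ 1 := (div_le_one_div 3 hR0 e5).trans
        ((one_div_pow_le (m := 0) hR (by norm_num)).trans (by norm_num))
      have p5 : R ^ 4 / ‖(8 : ℂ)‖ * (L / R ^ 8) = L / R ^ 4 / 8 := by
        rw [show ‖(8 : ℂ)‖ = 8 by simp]
        field_simp
      rw [p5]
      have : 0 ≤ L / R ^ 4 := by positivity
      linarith
    have p6 := norm_le_norm_add_norm_sub (sOf R (φ i (xx ls k y R t))) (sOf R (φ i (X ls k a K t)))
    linarith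
  set S := ∑ i, R ^ (1 / 2 : ℝ) * ‖sOf R (φ i (X ls k a K t))‖ ^ (-(1 / 2) : ℝ) with hS
  have hS0 : 0 ≤ S := Finset.sum_nonneg fun i _ => by positivity
  have q7 : (R' - R) * Real.exp (-R ^ 2 / 4) *
      (η R / R ^ (3 / 2 : ℝ) * ∑ i, ‖sOf R (φ i (xx ls k y R t))‖ ^ (-(1 / 2) : ℝ)) ≤
      2 * η R * Real.exp (-R ^ 2 / 4) / R ^ 3 * S := by
    have p1 : ∑ i, ‖sOf R (φ i (xx ls k y R t))‖ ^ (-(1 / 2) : ℝ) ≤
        2 * ∑ i, ‖sOf R (φ i (X ls k a K t))‖ ^ (-(1 / 2) : ℝ) := by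
      rw [Finset.mul_sum]
      exact Finset.sum_le_sum fun i _ => q6 i
    have p2 : R ^ (3 / 2 : ℝ) * R ^ (1 / 2 : ℝ) = R ^ 2 := by
      rw [← Real.rpow_add hR0]
      norm_num
    have p3 : 0 < R ^ (3 / 2 : ℝ) := by positivity
    have p4 : R ^ (1 / 2 : ℝ) = R ^ 2 / R ^ (3 / 2 : ℝ) := by
      rw [← p2]
      field_simp
    have p5 : 0 ≤ ∑ i, ‖sOf R (φ i (xx ls k y R t))‖ ^ (-(1 / 2) : ℝ) :=
      Finset.sum_nonneg fun i _ => by positivity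
    calc _ ≤ 1 / R * Real.exp (-R ^ 2 / 4) * (η R / R ^ (3 / 2 : ℝ) *
          (2 * ∑ i, ‖sOf R (φ i (X ls k a K t))‖ ^ (-(1 / 2) : ℝ))) := by
          gcongr
          linarith
      _ = _ := by
          rw [hS, ← Finset.mul_sum, p4]
          field_simp
  have q8 : ‖∑ i, ((∫ r in R..R', (Real.exp (-r ^ 2 / 4) : ℝ) * bd (Y r (φ i (xx ls k y R t)))) -
      ∫ r in R..R', (Real.exp (-r ^ 2 / 4) : ℝ) * bd (Y r (φ i (X ls k a K t))))‖ ≤
      Fintype.card κ * (16 * D * L / R ^ 4 * Real.exp (-R ^ 2 / 4)) := by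
    refine (norm_sum_le _ _).trans ((Finset.sum_le_sum fun i _ => q5 i).trans (le_of_eq ?_))
    simp
  have q9 : f R' (xx ls k y R' t) - f R (xx ls k y R t) - ∑ i, ∫ r in R..R',
        (Real.exp (-r ^ 2 / 4) : ℝ) * bd (Y r (φ i (X ls k a K t))) =
      (f R' (xx ls k y R' t) - f R' (xx ls k y R t)) +
      (f R' (xx ls k y R t) - f R (xx ls k y R t) - ∑ i, ∫ r in R..R',
        (Real.exp (-r ^ 2 / 4) : ℝ) * bd (Y r (φ i (xx ls k y R t)))) +
      ∑ i, ((∫ r in R..R', (Real.exp (-r ^ 2 / 4) : ℝ) * bd (Y r (φ i (xx ls k y R t)))) -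
        ∫ r in R..R', (Real.exp (-r ^ 2 / 4) : ℝ) * bd (Y r (φ i (X ls k a K t)))) := by
    rw [Finset.sum_sub_distrib]
    ring
  rw [q9]
  refine (norm_add_le _ _).trans ((add_le_add ((norm_add_le _ _).trans
    (add_le_add q2 (q3.trans q7))) q8).trans ?_)
  have q10 : 0 ≤ (C + Fintype.card κ * (16 * D * L)) / R * Real.exp (-R ^ 2 / 4) / R ^ 3 * S := by
    positivity
  have q11 : 0 ≤ 2 * η R * Real.exp (-R ^ 2 / 4) / R ^ 3 := by positivity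
  have q12 : (2 * η R + (C + Fintype.card κ * (16 * D * L)) / R) * Real.exp (-R ^ 2 / 4) / R ^ 3 *
      (1 + S) = C / R ^ 4 * Real.exp (-R ^ 2 / 4) + 2 * η R * Real.exp (-R ^ 2 / 4) / R ^ 3 * S +
      Fintype.card κ * (16 * D * L / R ^ 4 * Real.exp (-R ^ 2 / 4)) +
      ((C + Fintype.card κ * (16 * D * L)) / R * Real.exp (-R ^ 2 / 4) / R ^ 3 * S +
        2 * η R * Real.exp (-R ^ 2 / 4) / R ^ 3) := by
    field_simp
    ring
  rw [q12]
  linarith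

end Re

open Re in
theorem real_proof : RealStmt := by
  intro ι κ τ _ _ _ r₀ r₁ Λ Λ' R₀ f G φ Y sig PG Pf ls k K a y kd hJ eG ef hls h1 h2 h3 hk ha hf nd
  have h : Hyp r₀ r₁ Λ Λ' R₀ f G φ Y sig PG Pf ls k K a y :=
    ⟨kd, eG, ef, hls, h1, h2, h3, hk, ha, hf, nd⟩
  refine ⟨endArc K kd.φ_ana kd.φ_re kd.φ_app hls hk ha, ?_⟩
  obtain ⟨Λ₁, hΛ⟩ := h.ann_sub
  have hsq : Tendsto (fun j : ℕ => √(j : ℝ)) atTop atTop :=
    Real.tendsto_sqrt_atTop.comp tendsto_natCast_atTop_atTop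
  refine ⟨Λ₁, fun j t => f √(j : ℝ) (xx ls k y √(j : ℝ) t) - Pf 0 0, ?_, fun M => ⟨1, ?_⟩, ?_⟩
  · filter_upwards [hΛ, hsq.eventually h.f_hol] with j e1 e2
    exact (e2.mono e1).sub_const _
  · filter_upwards [hΛ, hsq.eventually (h.f_flat (2 * M))] with j e1 e2 t ht
    have := e2 t (e1 ht)
    rwa [pow_mul, Real.sq_sqrt (Nat.cast_nonneg j)] at this
  · obtain ⟨η, hη, hj⟩ := h.jump hJ
    refine ⟨fun j => η √(j : ℝ), hη.comp hsq, ?_⟩
    filter_upwards [hΛ, (tendsto_add_atTop_nat 1).eventually hΛ, hsq.eventually hj,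
      eventually_ge_atTop 1] with j e1 e2 e3 e4 t ht ht'
    have hj0 : (0 : ℝ) < j := by exact_mod_cast e4
    have hs : √(j : ℝ) ^ 2 = j := Real.sq_sqrt hj0.le
    have hp : 0 < √(j : ℝ) := Real.sqrt_pos.2 hj0
    have q1 : √((j : ℝ) + 1) ≤ √(j : ℝ) + 1 / √(j : ℝ) := by
      refine Real.sqrt_le_iff.2 ⟨by positivity, ?_⟩
      have p1 : √(j : ℝ) * (1 / √(j : ℝ)) = 1 := by field_simp
      nlinarith [sq_nonneg (1 / √(j : ℝ))]
    have q2 := e2 ht'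
    rw [Nat.cast_add_one] at q2
    have q3 := e3 √((j : ℝ) + 1) (Real.sqrt_le_sqrt (by linarith)) q1 t q2 (e1 ht)
    have q4 : √(j : ℝ) ^ 3 = (j : ℝ) ^ (3 / 2 : ℝ) := by
      rw [Real.sqrt_eq_rpow, ← Real.rpow_natCast, ← Real.rpow_mul hj0.le]
      norm_num
    have q5 : √(j : ℝ) ^ (1 / 2 : ℝ) = (j : ℝ) ^ (1 / 4 : ℝ) := by
      rw [Real.sqrt_eq_rpow, ← Real.rpow_mul hj0.le]
      norm_num
    rw [hs, q4, q5] at q3
    rw [Nat.cast_add_one, sub_sub_sub_cancel_right]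
    exact q3

end Vale.Agent.P218F.K
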