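import Vale.Agent.P218F.KSpec
import Mathlib.Analysis.Complex.CauchyIntegral

/-! Block K: Cauchy's theorem on the staircase of rectangles, and the error terms. -/

open Filter Topology Set Asymptotics MeasureTheory

noncomputable section

namespace Vale.Agent.P218F.K

namespace Rc

/-- the abscissa as a function of the square of the radius -/
def A (Λ₂ x : ℝ) : ℝ := al Λ₂ √x

variable {Λ₂ κ₁ B x y : ℝ}

lemma A_nonneg (Λ₂ x : ℝ) : 0 ≤ A Λ₂ x := Real.sqrt_nonneg _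

lemma A_sq (hΛ : 0 ≤ Λ₂) (hx : 1 ≤ x) : A Λ₂ x ^ 2 = x / 2 + 2 * Real.log x + Λ₂ := by
  have h := Real.log_nonneg hx
  rw [A, al, Real.sq_sqrt (show 0 ≤ x by linarith), Real.sq_sqrt (by positivity)]

lemma A_sq_ge (hΛ : 0 ≤ Λ₂) (hx : 1 ≤ x) : x / 2 ≤ A Λ₂ x ^ 2 := by
  rw [A_sq hΛ hx]; linarith [Real.log_nonneg hx]

lemma A_sq_sub (hΛ : 0 ≤ Λ₂) (hx : 1 ≤ x) (hxy : x ≤ y) :
    (y - x) / 2 ≤ A Λ₂ y ^ 2 - A Λ₂ x ^ 2 := by
  rw [A_sq hΛ hx, A_sq hΛ (hx.trans hxy)]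
  linarith [Real.log_le_log (by linarith) hxy]

lemma A_mono (hΛ : 0 ≤ Λ₂) (hx : 1 ≤ x) (hxy : x ≤ y) : A Λ₂ x ≤ A Λ₂ y :=
  (pow_le_pow_iff_left₀ (A_nonneg _ _) (A_nonneg _ _) two_ne_zero).1
    (by linarith [A_sq_sub hΛ hx hxy])

lemma A_le (hΛ : 0 ≤ Λ₂) {N : ℝ} (hN : Λ₂ ≤ N) (hx : 1 ≤ x) (hxN : x ≤ 16 * N) :
    A Λ₂ x ≤ 7 * √N := by
  have hN0 : 0 ≤ N := hΛ.trans hN
  refine (pow_le_pow_iff_left₀ (A_nonneg _ _) (by positivity) two_ne_zero).1 ?_
  rw [A_sq hΛ hx, mul_pow, Real.sq_sqrt hN0]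
  linarith [Real.log_le_sub_one_of_pos (show 0 < x by linarith)]

lemma half_le_A (hΛ : 0 ≤ Λ₂) {N : ℝ} (hN : 1 ≤ N) (hx : N ≤ x) : √N / 2 ≤ A Λ₂ x := by
  refine (pow_le_pow_iff_left₀ (by positivity) (A_nonneg _ _) two_ne_zero).1 ?_
  rw [div_pow, Real.sq_sqrt (by linarith)]
  linarith [A_sq_ge hΛ (hN.trans hx)]

lemma exp_A (hΛ : 0 ≤ Λ₂) (hx : 1 ≤ x) :
    Real.exp (A Λ₂ x ^ 2 / 2) = Real.exp (Λ₂ / 2) * x * Real.exp (x / 4) := by
  rw [A_sq hΛ hx, show (x / 2 + 2 * Real.log x + Λ₂) / 2 = Λ₂ / 2 + Real.log x + x / 4 by ring,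
    Real.exp_add, Real.exp_add, Real.exp_log (by linarith)]

lemma pt_re (α β : ℝ) : (pt α β).re = α := by simp [pt]

lemma pt_im (α β : ℝ) : (pt α β).im = β := by simp [pt]

lemma norm_ker (B a α β : ℝ) : ‖ker B a (pt α β)‖
    = Real.exp (α ^ 2 / 2) * Real.exp (-(α - a) ^ 2 / B) * Real.exp (-(1 / 2 - 1 / B) * β ^ 2) := by
  rw [ker, Complex.norm_exp, ← Real.exp_add, ← Real.exp_add]
  congr 1
  have e : pt α β ^ 2 / 2 - (pt α β - a) ^ 2 / B
      = ((α ^ 2 / 2 + -(α - a) ^ 2 / B + -(1 / 2 - 1 / B) * β ^ 2 : ℝ) : ℂ)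
        + ((α * β - 2 * (α - a) * β / B : ℝ) : ℂ) * Complex.I := by
    rw [pt]
    push_cast
    linear_combination ((β : ℂ) ^ 2 / 2 - (β : ℂ) ^ 2 / B) * Complex.I_sq
  rw [e, Complex.add_re, Complex.ofReal_re, Complex.re_ofReal_mul, Complex.I_re, mul_zero, add_zero]

lemma norm_ker_le (hB : 8 ≤ B) (a α β : ℝ) : ‖ker B a (pt α β)‖
    ≤ Real.exp (α ^ 2 / 2) * Real.exp (-(α - a) ^ 2 / B) * Real.exp (-(3 / 8) * β ^ 2) := by
  rw [norm_ker]
  have h : 1 / B ≤ 1 / 8 := one_div_le_one_div_of_le (by norm_num) hB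
  gcongr
  linarith

lemma differentiable_ker (B a : ℝ) : Differentiable ℂ (ker B a) := by
  unfold ker
  fun_prop

lemma mem_Rect (hΛ : 0 ≤ Λ₂) (hκ : 0 < κ₁) {N j : ℕ} (hN : 1 ≤ N) (hj : N ≤ j) {ω : ℂ}
    (h1 : A Λ₂ j ≤ ω.re) (h2 : ω.re ≤ A Λ₂ (j + 1)) (h3 : |ω.im| ≤ κ₁ * √(N : ℝ) / 2) :
    ω ∈ Rect Λ₂ κ₁ j := by
  refine ⟨h1, h2, h3.trans ?_⟩
  have h4 := half_le_A hΛ (N := N) (x := j) (by exact_mod_cast hN) (by exact_mod_cast hj)
  rw [mul_div_assoc]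
  gcongr
  linarith

/-- the integral over a vertical segment -/
def V (f : ℂ → ℂ) (H α : ℝ) : ℂ := ∫ β in (-H)..H, f (pt α β)

lemma norm_V_le {f : ℂ → ℂ} {H α M : ℝ} (hH : 0 ≤ H) (h : ∀ β, |β| ≤ H → ‖f (pt α β)‖ ≤ M) :
    ‖V f H α‖ ≤ M * (2 * H) := by
  have h1 := intervalIntegral.norm_integral_le_of_norm_le_const (a := -H) (b := H) (C := M)
    (f := fun β => f (pt α β)) fun β hβ => h β (by
      rw [uIoc_of_le (by linarith)] at hβ
      exact abs_le.2 ⟨hβ.1.le, hβ.2⟩)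
  rwa [sub_neg_eq_add, ← two_mul, abs_of_nonneg (by positivity)] at h1

lemma norm_V_sub {f : ℂ → ℂ} {H α α' M : ℝ} (hH : 0 ≤ H) (hα : α ≤ α')
    (hf : DifferentiableOn ℂ f {ω | α ≤ ω.re ∧ ω.re ≤ α' ∧ |ω.im| ≤ H})
    (h : ∀ x β, α ≤ x → x ≤ α' → |β| = H → ‖f (pt x β)‖ ≤ M) :
    ‖V f H α' - V f H α‖ ≤ 2 * (M * (α' - α)) := by
  have h1 := Complex.integral_boundary_rect_eq_zero_of_differentiableOn f (pt α (-H)) (pt α' H)
    (hf.mono fun ω hω => by
      simp only [pt_re, pt_im, Complex.mem_reProdIm] at hω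
      rw [uIcc_of_le hα, uIcc_of_le (by linarith)] at hω
      exact ⟨hω.1.1, hω.1.2, abs_le.2 hω.2⟩)
  simp only [pt_re, pt_im] at h1
  have h2 : ∀ β, |β| = H → ‖∫ x in α..α', f (pt x β)‖ ≤ M * (α' - α) := fun β hβ => by
    have h3 := intervalIntegral.norm_integral_le_of_norm_le_const (a := α) (b := α') (C := M)
      (f := fun x => f (pt x β)) fun x hx => by
        rw [uIoc_of_le hα] at hx
        exact h x β hx.1.le hx.2 hβ
    rwa [abs_of_nonneg (sub_nonneg.2 hα)] at h3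
  have e : Complex.I * (V f H α' - V f H α)
      = (∫ x in α..α', f (pt x H)) - ∫ x in α..α', f (pt x (-H)) := by
    simp only [V, pt, smul_eq_mul] at h1 ⊢
    linear_combination h1
  have h3 := congrArg norm e
  rw [norm_mul, Complex.norm_I, one_mul] at h3
  rw [h3]
  refine (norm_sub_le _ _).trans ?_
  linarith [h2 H (abs_of_nonneg hH), h2 (-H) (by rw [abs_neg, abs_of_nonneg hH])]

lemma integrable_V {f : ℂ → ℂ} {H α : ℝ} (hH : 0 ≤ H) {s : Set ℂ} (hf : ContinuousOn f s)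
    (h : ∀ β, |β| ≤ H → pt α β ∈ s) : IntervalIntegrable (fun β => f (pt α β)) volume (-H) H := by
  refine ContinuousOn.intervalIntegrable (hf.comp (Continuous.continuousOn ?_) fun β hβ => h β ?_)
  · unfold pt; fun_prop
  · rw [uIcc_of_le (by linarith)] at hβ
    exact abs_le.2 hβ

lemma tendsto_poly_exp {ε : ℝ} (hε : 0 < ε) (D : ℝ) :
    Tendsto (fun N : ℕ => D * (N : ℝ) ^ 3 * Real.exp (-ε * N)) atTop (𝓝 0) := by
  have h1 := (Real.tendsto_pow_mul_exp_neg_atTop_nhds_zero 3).comp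
    (tendsto_natCast_atTop_atTop.const_mul_atTop hε)
  have h2 := h1.const_mul (D / ε ^ 3)
  rw [mul_zero] at h2
  refine h2.congr fun N => ?_
  simp only [Function.comp, neg_mul]
  field_simp

lemma ev_log (Λ₂ : ℝ) : ∀ᶠ N : ℕ in atTop, 2 * Real.log N + Λ₂ ≤ (N : ℝ) / 2 := by
  have h1 := (Real.isLittleO_log_id_atTop.comp_tendsto tendsto_natCast_atTop_atTop).bound
    (show (0 : ℝ) < 1 / 8 by norm_num)
  filter_upwards [h1, tendsto_natCast_atTop_atTop.eventually_ge_atTop (4 * Λ₂)] with N h2 h3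
  simp only [Function.comp, id, Real.norm_eq_abs, Nat.abs_cast] at h2
  linarith [le_abs_self (Real.log N)]

lemma tele {g s t : ℝ} (hg : 0 < g) (hg1 : g ≤ 1) (hB : 1 ≤ B) (h : g ≤ s - t) :
    Real.exp (-t ^ 2 / B) ≤ 4 * B / g * (s / (1 + |s|) - t / (1 + |t|)) := by
  have hs := abs_nonneg s
  have ht := abs_nonneg t
  have h1 : (s - t) / ((1 + |s|) * (1 + |t|)) ≤ s / (1 + |s|) - t / (1 + |t|) := by
    rw [div_sub_div _ _ (by positivity) (by positivity)]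
    refine div_le_div_of_nonneg_right ?_ (by positivity)
    rcases le_total 0 t with h2 | h2
    · rw [abs_of_nonneg h2, abs_of_nonneg (show 0 ≤ s by linarith)]; linarith
    · rcases le_total 0 s with h3 | h3
      · rw [abs_of_nonpos h2, abs_of_nonneg h3]; nlinarith
      · rw [abs_of_nonpos h2, abs_of_nonpos h3]; linarith
  have h2 : g / (2 * (1 + |t|) ^ 2) ≤ (s - t) / ((1 + |s|) * (1 + |t|)) := by
    rw [div_le_div_iff₀ (by positivity) (by positivity)]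
    have h3 : |s| ≤ |t| + (s - t) := by
      have := abs_add_le t (s - t)
      rwa [add_sub_cancel, abs_of_nonneg (show 0 ≤ s - t by linarith)] at this
    have h4 : g * (1 + |s|) ≤ (s - t) * (2 * (1 + |t|)) := by nlinarith
    nlinarith
  have h3 : (1 + |t|) ^ 2 ≤ 2 * B * Real.exp (t ^ 2 / B) := by
    have h4 := Real.add_one_le_exp (t ^ 2 / B)
    have h5 : B * (t ^ 2 / B + 1) = t ^ 2 + B := by field_simp
    have h6 : B * (t ^ 2 / B + 1) ≤ B * Real.exp (t ^ 2 / B) := by gcongr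
    nlinarith [sq_abs t, sq_nonneg (|t| - 1)]
  calc Real.exp (-t ^ 2 / B) ≤ 4 * B / g * (g / (2 * (1 + |t|) ^ 2)) := by
        rw [neg_div, Real.exp_neg, show 4 * B / g * (g / (2 * (1 + |t|) ^ 2))
          = 2 * B / (1 + |t|) ^ 2 by field_simp; ring, le_div_iff₀ (by positivity),
          inv_mul_le_iff₀ (Real.exp_pos _)]
        linarith
    _ ≤ _ := by gcongr; exact h2.trans h1

lemma sum_gauss (hΛ : 0 ≤ Λ₂) (hB : 1 ≤ B) (a : ℝ) {N : ℕ} (hN : 1 ≤ N) (hN2 : Λ₂ ≤ N) :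
    ∑ j ∈ Finset.Ico N (16 * N), Real.exp (-(A Λ₂ (j + 1) - a) ^ 2 / B) ≤ 320 * B * √(N : ℝ) := by
  have hN1 : (1 : ℝ) ≤ N := by exact_mod_cast hN
  have hs : 1 ≤ √(N : ℝ) := Real.one_le_sqrt.2 hN1
  let F : ℕ → ℝ := fun j => (A Λ₂ (j + 1) - a) / (1 + |A Λ₂ (j + 1) - a|)
  have hF : ∀ j, |F j| ≤ 1 := fun j => by
    simp only [F, abs_div]
    rw [div_le_one (by positivity), abs_of_nonneg (a := 1 + _) (by positivity)]
    linarith
  have h1 : ∀ j ∈ Finset.Ico N (16 * N), Real.exp (-(A Λ₂ (j + 1) - a) ^ 2 / B)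
      ≤ 4 * B / (1 / (40 * √(N : ℝ))) * (F (j + 1) - F j) := by
    intro j hj
    rw [Finset.mem_Ico] at hj
    have hj1 : (N : ℝ) ≤ j := by exact_mod_cast hj.1
    have hj2 : (j : ℝ) + 1 ≤ 16 * N := by exact_mod_cast hj.2
    refine tele (by positivity) (by rw [div_le_one (by positivity)]; linarith) hB ?_
    push_cast
    have h2 := A_sq_sub hΛ (x := j + 1) (y := j + 1 + 1) (by linarith) (by linarith)
    have h3 := A_le hΛ (N := 2 * N) (x := j + 1 + 1) (by linarith) (by linarith) (by linarith)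
    have h4 := A_mono hΛ (x := j + 1) (y := j + 1 + 1) (by linarith) (by linarith)
    have h5 : √(2 * (N : ℝ)) ≤ 10 / 7 * √(N : ℝ) := by
      rw [Real.sqrt_le_left (by positivity), mul_pow, Real.sq_sqrt (by linarith)]
      linarith
    rw [div_le_iff₀ (by positivity)]
    nlinarith [A_nonneg Λ₂ (j + 1)]
  refine (Finset.sum_le_sum h1).trans ?_
  rw [← Finset.mul_sum, Finset.sum_Ico_sub F (by omega)]
  have h2 : F (16 * N) - F N ≤ 2 := by linarith [abs_le.1 (hF (16 * N)), abs_le.1 (hF N)]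
  calc _ ≤ 4 * B / (1 / (40 * √(N : ℝ))) * 2 := by gcongr
    _ = _ := by field_simp; ring

end Rc

open Rc

theorem err_proof : ErrStmt := by
  intro E η W Λ₂ κ₁ B C hΛ hκ hB hη hE
  set D := 2 * Real.exp (Λ₂ / 2) * Real.exp (1 / 4) * (|C| + 1) * (320 * B) with hD
  have hD0 : 0 < D := by positivity
  rw [Metric.tendsto_nhds]
  intro ε hε
  have h1 := (Metric.tendsto_nhds.1 hη) (ε / 2 / D) (by positivity)
  obtain ⟨N₀, hN₀⟩ := eventually_atTop.1 (hE.and h1)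
  filter_upwards [eventually_ge_atTop N₀, eventually_ge_atTop 1,
    tendsto_natCast_atTop_atTop.eventually_ge_atTop Λ₂] with N h2 h3 h4
  have hN1 : (1 : ℝ) ≤ N := by exact_mod_cast h3
  have hs : 0 < √(N : ℝ) := by positivity
  have hH : 0 ≤ κ₁ * √(N : ℝ) / 2 := by positivity
  rw [dist_zero_right]
  have key : ∀ j ∈ Finset.Ico N (16 * N),
      ‖∫ β in (-(κ₁ * √(N : ℝ) / 2))..(κ₁ * √(N : ℝ) / 2),
        E j β * ker B √(2 * (N : ℝ)) (pt (al Λ₂ √((j : ℝ) + 1)) β)‖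
      ≤ ε / 2 / (320 * B * √(N : ℝ)) * Real.exp (-(A Λ₂ (j + 1) - √(2 * (N : ℝ))) ^ 2 / B) := by
    intro j hj
    rw [Finset.mem_Ico] at hj
    have hj1 : (N : ℝ) ≤ j := by exact_mod_cast hj.1
    have hj0 : (0 : ℝ) < j := by linarith
    obtain ⟨⟨hW1, hW2, h5⟩, h6⟩ := hN₀ j (h2.trans hj.1)
    have hHA : κ₁ * √(N : ℝ) / 2 ≤ κ₁ * al Λ₂ √((j : ℝ) + 1) := by
      rw [mul_div_assoc]
      exact mul_le_mul_of_nonneg_left (half_le_A hΛ hN1 (by linarith)) hκ.le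
    have hW3 : IntervalIntegrable (fun β => W j β * Real.exp (-(3 / 8) * β ^ 2)) volume
        (-(κ₁ * al Λ₂ √((j : ℝ) + 1))) (κ₁ * al Λ₂ √((j : ℝ) + 1)) :=
      ContinuousOn.intervalIntegrable_of_Icc (by linarith)
        (hW1.mul (Continuous.continuousOn (by fun_prop)))
    have hW4 : ∫ β in (-(κ₁ * √(N : ℝ) / 2))..(κ₁ * √(N : ℝ) / 2),
        W j β * Real.exp (-(3 / 8) * β ^ 2) ≤ |C| + 1 := by
      refine (intervalIntegral.integral_mono_interval (by linarith) (by linarith) hHA ?_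
        hW3).trans (hW2.trans (by linarith [le_abs_self C]))
      refine (ae_restrict_iff' measurableSet_Ioc).2 (Eventually.of_forall fun β hβ => ?_)
      exact mul_nonneg (h5 β (abs_le.2 ⟨hβ.1.le, hβ.2⟩)).1 (Real.exp_pos _).le
    rw [dist_zero_right, Real.norm_eq_abs] at h6
    have h7 : √(N : ℝ) * j ≤ (j : ℝ) ^ (3 / 2 : ℝ) := by
      rw [show (3 / 2 : ℝ) = 1 / 2 + 1 by norm_num, Real.rpow_add hj0, Real.rpow_one,
        ← Real.sqrt_eq_rpow]
      gcongr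
    have h8 : ∀ β, |β| ≤ κ₁ * √(N : ℝ) / 2 →
        ‖E j β‖ ≤ ε / 2 / D * Real.exp (-(j : ℝ) / 4) / (√(N : ℝ) * j) * W j β := fun β hβ => by
      refine (h5 β (hβ.trans hHA)).2.trans (mul_le_mul_of_nonneg_right ?_ (h5 β (hβ.trans hHA)).1)
      calc _ ≤ ε / 2 / D * Real.exp (-(j : ℝ) / 4) / (j : ℝ) ^ (3 / 2 : ℝ) := by
            gcongr
            exact (le_abs_self _).trans h6.le
        _ ≤ _ := by gcongr
    set c := ε / 2 / D * Real.exp (-(j : ℝ) / 4) / (√(N : ℝ) * j) * (Real.exp (A Λ₂ (j + 1) ^ 2 / 2)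
      * Real.exp (-(A Λ₂ (j + 1) - √(2 * (N : ℝ))) ^ 2 / B)) with hc
    have hc0 : 0 ≤ c := by positivity
    refine (intervalIntegral.norm_integral_le_of_norm_le (by linarith)
      (g := fun β => c * (W j β * Real.exp (-(3 / 8) * β ^ 2)))
      (Eventually.of_forall fun β hβ => ?_) ((hW3.mono_set ?_).const_mul c)).trans ?_
    · have h9 := h8 β (abs_le.2 ⟨hβ.1.le, hβ.2⟩)
      rw [norm_mul]
      refine (mul_le_mul h9 (norm_ker_le hB _ _ _) (norm_nonneg _)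
        ((norm_nonneg _).trans h9)).trans_eq ?_
      rw [hc, A]
      ring
    · rw [uIcc_of_le (by linarith), uIcc_of_le (by linarith)]
      exact Icc_subset_Icc (by linarith) hHA
    · rw [intervalIntegral.integral_const_mul]
      refine (mul_le_mul_of_nonneg_left hW4 hc0).trans ?_
      have h9 : Real.exp (((j : ℝ) + 1) / 4) * Real.exp (-(j : ℝ) / 4) = Real.exp (1 / 4) := by
        rw [← Real.exp_add]; congr 1; ring
      have h10 : ((j : ℝ) + 1) / j ≤ 2 := by rw [div_le_iff₀ hj0]; linarith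
      have e : c * (|C| + 1) = ε / 2 / (320 * B * √(N : ℝ))
          * Real.exp (-(A Λ₂ (j + 1) - √(2 * (N : ℝ))) ^ 2 / B) * ((((j : ℝ) + 1) / j) / 2) := by
        rw [hc, exp_A hΛ (by linarith), hD, ← h9]
        field_simp
      rw [e]
      exact mul_le_of_le_one_right (by positivity) (by linarith)
  refine ((norm_sum_le _ _).trans (Finset.sum_le_sum key)).trans_lt ?_
  rw [← Finset.mul_sum]
  calc _ ≤ ε / 2 / (320 * B * √(N : ℝ)) * (320 * B * √(N : ℝ)) := by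
        gcongr
        exact sum_gauss hΛ (by linarith) _ h3 h4
    _ = ε / 2 := by field_simp
    _ < ε := by linarith

theorem rect_proof : RectStmt := by
  intro Ψ Λ₂ κ₁ B hΛ hκ hB hhol hbd
  set ε := min (1 / (16 * B)) (κ₁ ^ 2 / 320) with hε
  have hε0 : 0 < ε := lt_min (by positivity) (by positivity)
  have hε1 : ε * B ≤ 1 / 16 := by
    have h1 : ε ≤ 1 / (16 * B) := min_le_left _ _
    rw [le_div_iff₀ (by positivity)] at h1
    linarith
  have hε2 : ε ≤ κ₁ ^ 2 / 320 := min_le_right _ _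
  obtain ⟨C₀, hC₀⟩ := hbd (1 / 4 - ε) (by linarith)
  obtain ⟨N₀, hN₀⟩ := eventually_atTop.1 (hhol.and hC₀)
  set C := |C₀| * Real.exp (Λ₂ / 2) with hC
  have hC0 : 0 ≤ C := by positivity
  refine squeeze_zero_norm' ?_
    (tendsto_poly_exp hε0 (C * (17 * κ₁ + 15 * (2 * (16 * Real.exp (1 / 4) * 7)))))
  filter_upwards [eventually_ge_atTop N₀, eventually_ge_atTop 1,
    tendsto_natCast_atTop_atTop.eventually_ge_atTop Λ₂, ev_log Λ₂] with N h2 h3 h4 h5
  have hN1 : (1 : ℝ) ≤ N := by exact_mod_cast h3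
  have hs : 0 < √(N : ℝ) := by positivity
  have hs2 : √(N : ℝ) ^ 2 = N := Real.sq_sqrt (by linarith)
  have hsN : √(N : ℝ) ≤ N := by nlinarith [Real.one_le_sqrt.2 hN1]
  set H := κ₁ * √(N : ℝ) / 2 with hH'
  have hH : 0 ≤ H := by positivity
  set a := √(2 * (N : ℝ)) with ha
  have ha2 : a ^ 2 = 2 * N := Real.sq_sqrt (by linarith)
  have ha0 : 0 ≤ a := Real.sqrt_nonneg _
  let f : ℕ → ℂ → ℂ := fun j ω => Ψ j ω * ker B a ω
  let u : ℕ → ℂ := fun j => V (f j) H (A Λ₂ j)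
  have hcast : ∀ j : ℕ, N ≤ j → (N : ℝ) ≤ j := fun j hj => by exact_mod_cast hj
  have hmono : ∀ j : ℕ, N ≤ j → A Λ₂ j ≤ A Λ₂ (j + 1) := fun j hj =>
    A_mono hΛ (hN1.trans (hcast j hj)) (by linarith)
  have hf : ∀ j, N ≤ j → DifferentiableOn ℂ (f j) (Rect Λ₂ κ₁ j) := fun j hj =>
    (hN₀ j (h2.trans hj)).1.mul (differentiable_ker B a).differentiableOn
  have hmem : ∀ j, N ≤ j → ∀ x β, A Λ₂ j ≤ x → x ≤ A Λ₂ (j + 1) → |β| ≤ H →
      pt x β ∈ Rect Λ₂ κ₁ j := fun j hj x β h6 h7 h8 =>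
    mem_Rect hΛ hκ h3 hj (by rwa [pt_re]) (by rwa [pt_re]) (by rwa [pt_im])
  have hfb : ∀ j, N ≤ j → ∀ x β, A Λ₂ j ≤ x → x ≤ A Λ₂ (j + 1) → |β| ≤ H →
      ‖f j (pt x β)‖ ≤ |C₀| * Real.exp (-(1 / 4 - ε) * j) * (Real.exp (x ^ 2 / 2)
        * Real.exp (-(x - a) ^ 2 / B) * Real.exp (-(3 / 8) * β ^ 2)) := by
    intro j hj x β h6 h7 h8
    rw [norm_mul]
    refine mul_le_mul (((hN₀ j (h2.trans hj)).2 _ (hmem j hj x β h6 h7 h8)).trans ?_)
      (norm_ker_le hB _ _ _) (norm_nonneg _) (by positivity)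
    gcongr
    exact le_abs_self _
  have hu : ∀ j : ℕ, N ≤ j → ε * j + ε * N ≤ (A Λ₂ j - a) ^ 2 / B →
      ‖u j‖ ≤ C * j * Real.exp (-ε * N) * (κ₁ * N) := by
    intro j hj h6
    have hj1 := hcast j hj
    refine (norm_V_le hH (M := C * j * Real.exp (-ε * N)) fun β hβ => ?_).trans ?_
    · refine (hfb j hj _ β le_rfl (hmono j hj) hβ).trans ?_
      have h7 : Real.exp (-(3 / 8) * β ^ 2) ≤ 1 := Real.exp_le_one_iff.2 (by nlinarith [sq_nonneg β])
      have h8 : Real.exp (-(1 / 4 - ε) * j) * Real.exp (j / 4) * Real.exp (-(A Λ₂ j - a) ^ 2 / B)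
          ≤ Real.exp (-ε * N) := by
        rw [← Real.exp_add, ← Real.exp_add, Real.exp_le_exp, neg_div]
        linarith
      rw [exp_A hΛ (hN1.trans hj1), hC]
      calc _ = |C₀| * Real.exp (Λ₂ / 2) * j * (Real.exp (-(1 / 4 - ε) * j) * Real.exp (j / 4)
            * Real.exp (-(A Λ₂ j - a) ^ 2 / B)) * Real.exp (-(3 / 8) * β ^ 2) := by ring
        _ ≤ |C₀| * Real.exp (Λ₂ / 2) * j * Real.exp (-ε * N) * 1 := by gcongr
        _ = _ := mul_one _
    · have h7 : 2 * H ≤ κ₁ * N := by rw [hH']; nlinarith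
      gcongr
  have hu1 : ‖u N‖ ≤ C * N * Real.exp (-ε * N) * (κ₁ * N) := by
    refine hu N le_rfl ?_
    have h6 : A Λ₂ N ≤ √(N : ℝ) := by
      refine (pow_le_pow_iff_left₀ (A_nonneg _ _) hs.le two_ne_zero).1 ?_
      rw [A_sq hΛ hN1, hs2]; linarith
    have h7 : 7 / 5 * √(N : ℝ) ≤ a := by
      refine (pow_le_pow_iff_left₀ (by positivity) ha0 two_ne_zero).1 ?_
      rw [mul_pow, hs2, ha2]; linarith
    have h8 : (2 / 5 * √(N : ℝ)) ^ 2 ≤ (a - A Λ₂ N) ^ 2 :=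
      pow_le_pow_left₀ (by positivity) (by linarith) 2
    rw [le_div_iff₀ (by linarith)]
    rw [mul_pow, hs2] at h8
    nlinarith
  have hu2 : ‖u (16 * N)‖ ≤ C * (16 * N) * Real.exp (-ε * N) * (κ₁ * N) := by
    have h6 := hu (16 * N) (by omega) ?_
    · exact_mod_cast h6
    push_cast
    have h7 : 2 * a ≤ A Λ₂ (16 * N) := by
      refine (pow_le_pow_iff_left₀ (by positivity) (A_nonneg _ _) two_ne_zero).1 ?_
      rw [mul_pow, ha2]
      linarith [A_sq_ge hΛ (x := 16 * N) (by linarith)]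
    have h8 : a ^ 2 ≤ (A Λ₂ (16 * N) - a) ^ 2 := pow_le_pow_left₀ ha0 (by linarith) 2
    rw [le_div_iff₀ (by linarith)]
    nlinarith
  have hT : ∀ j ∈ Finset.Ico N (16 * N), ‖V (f j) H (A Λ₂ (j + 1)) - u j‖
      ≤ 2 * (C * (16 * N) * Real.exp (1 / 4) * Real.exp (-ε * N) * (7 * N)) := by
    intro j hj
    rw [Finset.mem_Ico] at hj
    have hj1 := hcast j hj.1
    have hj2 : (j : ℝ) + 1 ≤ 16 * N := by exact_mod_cast hj.2
    refine (norm_V_sub hH (hmono j hj.1)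
      (M := C * (16 * N) * Real.exp (1 / 4) * Real.exp (-ε * N))
      ((hf j hj.1).mono fun ω hω => mem_Rect hΛ hκ h3 hj.1 hω.1 hω.2.1 hω.2.2)
      fun x β h6 h7 h8 => ?_).trans ?_
    · refine (hfb j hj.1 x β h6 h7 h8.le).trans ?_
      have h9 : Real.exp (x ^ 2 / 2) ≤ Real.exp (Λ₂ / 2) * (16 * N) * Real.exp ((j + 1) / 4) := by
        calc _ ≤ Real.exp (A Λ₂ (j + 1) ^ 2 / 2) := by
              gcongr
              exact (A_nonneg _ _).trans h6
          _ ≤ _ := by rw [exp_A hΛ (by linarith)]; gcongr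
      have h10 : Real.exp (-(x - a) ^ 2 / B) ≤ 1 := Real.exp_le_one_iff.2 (by
        rw [neg_div, neg_nonpos]; positivity)
      have h11 : β ^ 2 = κ₁ ^ 2 * N / 4 := by
        rw [← sq_abs, h8, hH', div_pow, mul_pow, hs2]; norm_num
      have h12 : Real.exp (-(1 / 4 - ε) * j) * Real.exp ((j + 1) / 4) * Real.exp (-(3 / 8) * β ^ 2)
          ≤ Real.exp (1 / 4) * Real.exp (-ε * N) := by
        rw [← Real.exp_add, ← Real.exp_add, ← Real.exp_add, Real.exp_le_exp, h11]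
        have h13 : ε * j ≤ ε * (16 * N) := by gcongr; linarith
        have h14 : ε * N ≤ κ₁ ^ 2 / 320 * N := by gcongr
        have h15 : 0 ≤ κ₁ ^ 2 * N := by positivity
        linarith
      calc _ ≤ |C₀| * Real.exp (-(1 / 4 - ε) * j) * (Real.exp (Λ₂ / 2) * (16 * N)
            * Real.exp ((j + 1) / 4) * 1 * Real.exp (-(3 / 8) * β ^ 2)) := by gcongr
        _ = C * (16 * N) * (Real.exp (-(1 / 4 - ε) * j) * Real.exp ((j + 1) / 4)
            * Real.exp (-(3 / 8) * β ^ 2)) := by rw [hC]; ring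
        _ ≤ C * (16 * N) * (Real.exp (1 / 4) * Real.exp (-ε * N)) := by gcongr
        _ = _ := by ring
    · have h6 := A_le hΛ h4 (x := j + 1) (by linarith) hj2
      have h7 : A Λ₂ (j + 1) - A Λ₂ j ≤ 7 * N := by linarith [A_nonneg Λ₂ j]
      gcongr
  have e : cSum Λ₂ κ₁ B (fun j β => Ψ (j + 1) (pt (al Λ₂ √((j : ℝ) + 1)) β) -
      Ψ j (pt (al Λ₂ √((j : ℝ) + 1)) β)) N
      = u (16 * N) - u N - ∑ j ∈ Finset.Ico N (16 * N), (V (f j) H (A Λ₂ (j + 1)) - u j) := by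
    rw [← Finset.sum_Ico_sub u (by omega), ← Finset.sum_sub_distrib]
    refine Finset.sum_congr rfl fun j hj => ?_
    rw [Finset.mem_Ico] at hj
    have h6 : IntervalIntegrable (fun β => f (j + 1) (pt (A Λ₂ (j + 1)) β)) volume (-H) H := by
      refine integrable_V hH (hf (j + 1) (by omega)).continuousOn fun β hβ =>
        hmem (j + 1) (by omega) _ β ?_ ?_ hβ
      · push_cast; rfl
      · have := hmono (j + 1) (by omega)
        push_cast at this ⊢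
        exact this
    have h7 : IntervalIntegrable (fun β => f j (pt (A Λ₂ (j + 1)) β)) volume (-H) H :=
      integrable_V hH (hf j hj.1).continuousOn fun β hβ =>
        hmem j hj.1 _ β (hmono j hj.1) le_rfl hβ
    have h8 := intervalIntegral.integral_sub h6 h7
    simp only [u, V, sub_sub_sub_cancel_right]
    push_cast
    rw [← h8]
    simp only [f, sub_mul]
    rfl
  rw [e]
  have h6 := (norm_sum_le _ _).trans (Finset.sum_le_sum hT)
  rw [Finset.sum_const, Nat.card_Ico, show 16 * N - N = 15 * N by omega, nsmul_eq_mul] at h6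
  push_cast at h6
  refine (norm_sub_le _ _).trans ((add_le_add (norm_sub_le _ _) h6).trans ?_)
  have h7 : C * Real.exp (-ε * N) * κ₁ * (N : ℝ) ^ 2 ≤ C * Real.exp (-ε * N) * κ₁ * (N : ℝ) ^ 3 := by
    gcongr
    norm_num
  nlinarith

end Vale.Agent.P218F.K
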