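import Vale.Agent.P218F.KBasic

/-! Block K: the families with an asymptotic expansion in the blow-up chart form a differential
ring. -/

open Filter Topology Set Asymptotics Metric
open Finset.HasAntidiagonal (antidiagonal mem_antidiagonal)

noncomputable section

namespace Vale.Agent.P218F.K

variable {ι κ : Type} [Fintype ι] [Fintype κ] {ls : κ → ℝ} {r₁ Λ R₀ θ R : ℝ} {A A' : ℕ}
  {F F' : ℝ → ℂ × (ι ⊕ κ → ℂ) → ℂ} {H H' : ℕ → (ι ⊕ κ → ℂ) → ℂ} {p : ℂ × (ι ⊕ κ → ℂ)}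

theorem differentiable_shift (ls : κ → ℝ) :
    Differentiable ℂ (shift ls : (ι ⊕ κ → ℂ) → ι ⊕ κ → ℂ) := by
  refine differentiable_pi.2 fun j => ?_
  rcases j with j | j <;> simp only [shift, Sum.elim_inl, Sum.elim_inr] <;> fun_prop

theorem norm_ls_add_le (hls : ‖ls‖ = 1) {y : ι ⊕ κ → ℂ} (hy : ‖y‖ ≤ 1 / 2) (i : κ) :
    ‖(ls i : ℂ) + y (Sum.inr i)‖ ≤ 3 / 2 := by
  have h1 := norm_add_le (ls i : ℂ) (y (Sum.inr i))
  have h2 := norm_le_pi_norm ls i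
  have h3 := norm_le_pi_norm y (Sum.inr i)
  rw [Complex.norm_real] at h1
  linarith

theorem snd_mem_ball (hr : 0 ≤ r₁) (hθ : θ ≤ 1) (hp : p ∈ UU ι ls r₁ Λ θ R) :
    p.2 ∈ ball (0 : ι ⊕ κ → ℂ) r₁ :=
  mem_ball_zero_iff.2 (hp.1.trans_le (mul_le_of_le_one_left hr hθ))

theorem chart_proof : ChartStmt := by
  intro ι κ _ _ r₀ r₁ Λ R₀ ls F P hb hls hr hr0 hr2 hF hP
  obtain ⟨C, A, hC⟩ := hF.inc
  have hst : ∀ y ∈ ball (0 : ι ⊕ κ → ℂ) r₁, shift ls y ∈ St ι κ r₀ := fun y hy j =>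
    ((norm_le_pi_norm y (Sum.inl j)).trans_lt (mem_ball_zero_iff.1 hy)).trans_le hr0
  refine ⟨A, fun R hR => (hF.hol R hR).comp (differentiable_chart ls).differentiableOn
    fun p hp => chart_mem_Dom hr.le hr0 le_rfl hp,
    fun n => (hP.hol n).comp (differentiable_shift ls).differentiableOn hst, fun θ hθ M => ?_,
    fun θ hθ => ⟨C, fun ρ R h1 h2 h3 p hp hp' => hC ρ R h1 h2 h3 _
      (chart_mem_Dom hr.le hr0 hθ.le hp) (chart_mem_Dom hr.le hr0 hθ.le hp')⟩⟩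
  obtain ⟨K, hK⟩ := hP.app M
  refine ⟨max K 0 * (3 / 2) ^ M, fun R hR p hp => ?_⟩
  have hy := snd_mem_ball hr.le hθ.le hp
  have h1 : tr (fun n y => P n (shift ls y)) M p.1 p.2 =
      ∑ n ∈ Finset.range M, P n (chart ls p) :=
    Finset.sum_congr rfl fun n _ => (hP.hom n _ (hst _ hy) p.1).symm
  have h2 : ‖cp (chart ls p)‖ ≤ 3 / 2 * ‖p.1‖ :=
    (pi_norm_le_iff_of_nonneg (by positivity)).2 fun i => by
      simp only [cp, chart, sc, shift, Sum.elim_inr]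
      rw [norm_mul, mul_comm]
      gcongr
      exact norm_ls_add_le hls ((mem_ball_zero_iff.1 hy).le.trans hr2) i
  have h3 : (1 : ℝ) ≤ R ^ A := one_le_pow₀ (hb.one_le hR)
  have h4 : (1 : ℝ) ≤ (3 / 2) ^ M := one_le_pow₀ (by norm_num)
  rw [h1]
  calc _ ≤ K * (‖cp (chart ls p)‖ ^ M + Real.exp (-R ^ 2 / 5)) :=
        hK R hR _ (chart_mem_Dom hr.le hr0 hθ.le hp)
    _ ≤ max K 0 * ((3 / 2 * ‖p.1‖) ^ M + (3 / 2) ^ M * Real.exp (-R ^ 2 / 5)) := by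
        gcongr
        · exact le_max_left _ _
        · exact le_mul_of_one_le_left (Real.exp_pos _).le h4
    _ = max K 0 * (3 / 2) ^ M * 1 * (‖p.1‖ ^ M + Real.exp (-R ^ 2 / 5)) := by
        rw [mul_pow]; ring
    _ ≤ _ := by gcongr

/-- the standing assumptions -/
structure Std (ls : κ → ℝ) (r₁ Λ R₀ : ℝ) : Prop where
  big : Big Λ R₀
  nls : ‖ls‖ = 1
  pos : 0 < r₁
  le : r₁ ≤ 1 / 2

theorem Std.fst_sq (h : Std ls r₁ Λ R₀) (hθ : θ ≤ 1) (hp : p ∈ UU ι ls r₁ Λ θ R) :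
    ‖p.1‖ * R ^ 2 ≤ 6 := by
  have := norm_fst_le_of_mem h.nls (b := 1 / 2)
    ((mul_le_of_le_one_left h.pos.le hθ).trans h.le) hp
  linarith

theorem Std.fst_le (h : Std ls r₁ Λ R₀) (hθ : θ ≤ 1) (hR : R₀ ≤ R) (hp : p ∈ UU ι ls r₁ Λ θ R) :
    ‖p.1‖ ≤ 1 := by
  have h1 := h.fst_sq hθ hp
  have h2 : 4 ≤ R := h.big.2.1.trans hR
  have h3 : ‖p.1‖ * 16 ≤ ‖p.1‖ * R ^ 2 := by gcongr; nlinarith
  linarith

/-- room in the direction of `y` -/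
theorem Std.room (h : Std ls r₁ Λ R₀) (hθ : θ ≤ 1) (hR : R₀ ≤ R) (hp : p ∈ UU ι ls r₁ Λ θ R)
    {δ : ℝ} {y : ι ⊕ κ → ℂ} (hy : ‖y - p.2‖ * R ^ 2 ≤ δ * r₁) :
    (p.1, y) ∈ UU ι ls r₁ Λ (θ + δ) R := by
  have h1 : 1 ≤ R ^ 2 := one_le_pow₀ (h.big.one_le hR)
  have h2 := le_mul_of_one_le_right (norm_nonneg (y - p.2)) h1
  have hδ : 0 ≤ δ := by
    have := (norm_nonneg _).trans (h2.trans hy)
    exact nonneg_of_mul_nonneg_left this h.pos
  have h3 : δ * r₁ ≤ δ * (1 / 2) := by gcongr; exact h.le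
  refine ⟨?_, fun i => ?_⟩
  · have h4 : ‖y‖ ≤ ‖p.2‖ + ‖y - p.2‖ := norm_le_insert' _ _ |>.trans (by rw [add_comm])
    have := hp.1
    show ‖y‖ < _
    linarith
  · have h4 : ‖p.1 * (ls i + y (Sum.inr i)) - p.1 * (ls i + p.2 (Sum.inr i))‖ ≤
        ‖p.1‖ * ‖y - p.2‖ := by
      rw [← mul_sub, norm_mul, add_sub_add_left_eq_sub]
      gcongr
      exact norm_le_pi_norm (y - p.2) (Sum.inr i)
    have h5 := h.fst_sq hθ hp
    have h6 := h.fst_le hθ hR hp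
    refine Om_mono (by linarith) (by linarith) R
      (mem_Om_of_near (δ := δ) (δ' := δ) (hp.2 i) ?_ ?_)
    · calc _ ≤ ‖p.1‖ * ‖y - p.2‖ * R ^ 4 := by gcongr
        _ = ‖p.1‖ * R ^ 2 * (‖y - p.2‖ * R ^ 2) := by ring
        _ ≤ 6 * (δ * r₁) := by gcongr
        _ ≤ _ := by linarith
    · calc _ ≤ 1 * ‖y - p.2‖ * R ^ 2 := by gcongr; exact h4.trans (by gcongr)
        _ ≤ _ := by linarith

theorem Fam.app' (h : Fam ls r₁ Λ R₀ A F H) (hθ : θ < 1) : ∃ C : ℕ → ℝ, (∀ M, 0 ≤ C M) ∧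
    ∀ M R, 1 ≤ R → R₀ ≤ R → ∀ p ∈ UU ι ls r₁ Λ θ R,
      ‖F R p - tr H M p.1 p.2‖ ≤ C M * R ^ A * (‖p.1‖ ^ M + Real.exp (-R ^ 2 / 5)) := by
  choose C hC using h.app θ hθ
  refine ⟨fun M => max (C M) 0, fun M => le_max_right _ _, fun M R h1 hR p hp =>
    (hC M R hR p hp).trans ?_⟩
  gcongr
  exact le_max_left _ _

theorem Fam.inc' (h : Fam ls r₁ Λ R₀ A F H) (hθ : θ < 1) : ∃ C : ℝ, 0 ≤ C ∧
    ∀ ρ R, 1 ≤ ρ → R₀ ≤ ρ → ρ ≤ R → R ≤ ρ + 1 → ∀ p ∈ UU ι ls r₁ Λ θ R,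
      p ∈ UU ι ls r₁ Λ θ ρ → ‖F R p - F ρ p‖ ≤ C * ρ ^ A * Real.exp (-ρ ^ 2 / 4) := by
  obtain ⟨C, hC⟩ := h.inc θ hθ
  refine ⟨max C 0, le_max_right _ _, fun ρ R h0 h1 h2 h3 p hp hp' =>
    (hC ρ R h1 h2 h3 p hp hp').trans ?_⟩
  gcongr
  exact le_max_left _ _

theorem Fam.bdd (h : Fam ls r₁ Λ R₀ A F H) (hθ : θ < 1) : ∃ C : ℝ, 0 ≤ C ∧
    ∀ R, 1 ≤ R → R₀ ≤ R → ∀ p ∈ UU ι ls r₁ Λ θ R, ‖F R p‖ ≤ C * R ^ A := by
  obtain ⟨C, h0, hC⟩ := h.app' hθ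
  refine ⟨2 * C 0, by have := h0 0; positivity, fun R h1 hR p hp => ?_⟩
  have h2 := hC 0 R h1 hR p hp
  simp only [tr, Finset.range_zero, Finset.sum_empty, sub_zero, pow_zero] at h2
  have h3 : Real.exp (-R ^ 2 / 5) ≤ 1 := Real.exp_le_one_iff.2 (by nlinarith [sq_nonneg R])
  have h4 : 0 ≤ C 0 * R ^ A := by have := h0 0; positivity
  nlinarith

theorem Fam.bddH (h : Fam ls r₁ Λ R₀ A F H) (hr : 0 < r₁) (hθ : θ < 1) : ∃ B : ℕ → ℝ,
    (∀ n, 0 ≤ B n) ∧ ∀ n R, ∀ p ∈ UU ι ls r₁ Λ θ R, ‖H n p.2‖ ≤ B n := by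
  have h1 : ∀ n, ∃ B, ∀ y ∈ closedBall (0 : ι ⊕ κ → ℂ) (θ * r₁), ‖H n y‖ ≤ B := fun n =>
    (isCompact_closedBall _ _).exists_bound_of_continuousOn ((h.ana n).continuousOn.mono
      (closedBall_subset_ball (mul_lt_of_lt_one_left hr hθ)))
  choose B hB using h1
  exact ⟨fun n => max (B n) 0, fun n => le_max_right _ _, fun n R p hp =>
    (hB n _ (mem_closedBall_zero_iff.2 hp.1.le)).trans (le_max_left _ _)⟩

theorem Fam.mono (h : Fam ls r₁ Λ R₀ A F H) (hb : Big Λ R₀) (hA : A ≤ A') :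
    Fam ls r₁ Λ R₀ A' F H where
  hol := h.hol
  ana := h.ana
  app θ hθ M := by
    obtain ⟨C, h0, hC⟩ := h.app' hθ
    refine ⟨C M, fun R hR p hp => (hC M R (hb.one_le hR) hR p hp).trans ?_⟩
    have := h0 M
    gcongr
    exact hb.one_le hR
  inc θ hθ := by
    obtain ⟨C, h0, hC⟩ := h.inc' hθ
    refine ⟨C, fun ρ R h1 h2 h3 p hp hp' => (hC ρ R (hb.one_le h1) h1 h2 h3 p hp hp').trans ?_⟩
    gcongr
    exact hb.one_le h1

theorem Fam.const (c : ℂ) :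
    Fam (ι := ι) ls r₁ Λ R₀ 0 (fun _ _ => c) fun n _ => if n = 0 then c else 0 where
  hol _ _ := differentiableOn_const _
  ana _ := differentiableOn_const _
  app θ _ M := by
    refine ⟨‖c‖, fun R _ p _ => ?_⟩
    rcases M with _ | M
    · simp only [tr, Finset.range_zero, Finset.sum_empty, sub_zero, pow_zero, mul_one]
      exact le_mul_of_one_le_right (norm_nonneg _) (le_add_of_nonneg_right (Real.exp_pos _).le)
    · have : tr (fun n (_ : ι ⊕ κ → ℂ) => if n = 0 then c else 0) (M + 1) p.1 p.2 = c := by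
        simp [tr]
      rw [this, sub_self, norm_zero]
      positivity
  inc θ _ := ⟨0, by simp⟩

theorem Fam.add (h : Fam ls r₁ Λ R₀ A F H) (h' : Fam ls r₁ Λ R₀ A F' H') :
    Fam ls r₁ Λ R₀ A (F + F') fun n y => H n y + H' n y where
  hol R hR := (h.hol R hR).add (h'.hol R hR)
  ana n := (h.ana n).add (h'.ana n)
  app θ hθ M := by
    obtain ⟨C, hC⟩ := h.app θ hθ M
    obtain ⟨C', hC'⟩ := h'.app θ hθ M
    refine ⟨C + C', fun R hR p hp => ?_⟩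
    have h1 : (F + F') R p - tr (fun n y => H n y + H' n y) M p.1 p.2 =
        (F R p - tr H M p.1 p.2) + (F' R p - tr H' M p.1 p.2) := by
      simp only [tr, mul_add, Finset.sum_add_distrib, Pi.add_apply]; ring
    rw [h1]
    exact (norm_add_le_of_le (hC R hR p hp) (hC' R hR p hp)).trans_eq (by ring)
  inc θ hθ := by
    obtain ⟨C, hC⟩ := h.inc θ hθ
    obtain ⟨C', hC'⟩ := h'.inc θ hθ
    refine ⟨C + C', fun ρ R h1 h2 h3 p hp hp' => ?_⟩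
    have h4 : (F + F') R p - (F + F') ρ p = (F R p - F ρ p) + (F' R p - F' ρ p) := by
      simp only [Pi.add_apply]; ring
    rw [h4]
    exact (norm_add_le_of_le (hC ρ R h1 h2 h3 p hp hp') (hC' ρ R h1 h2 h3 p hp hp')).trans_eq
      (by ring)

theorem tr_mul {σ : Type} (H H' : ℕ → (σ → ℂ) → ℂ) (M : ℕ) (e : ℂ) (y : σ → ℂ) :
    tr (fun n y => ∑ q ∈ antidiagonal n, H q.1 y * H' q.2 y) M e y =
      ∑ n ∈ Finset.range M, e ^ n * H n y * tr H' (M - n) e y := by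
  simp only [tr, Finset.mul_sum]
  rw [← Finset.sum_range_diag_flip M fun n k => e ^ n * H n y * (e ^ k * H' k y)]
  refine Finset.sum_congr rfl fun n _ => ?_
  rw [← Finset.Nat.sum_antidiagonal_eq_sum_range_succ
    (fun n k => e ^ n * H n y * (e ^ k * H' k y)) n]
  refine Finset.sum_congr rfl fun q hq => ?_
  rw [← mem_antidiagonal.1 hq, pow_add]
  ring

theorem Fam.mul (h : Fam ls r₁ Λ R₀ A F H) (h' : Fam ls r₁ Λ R₀ A' F' H') (hs : Std ls r₁ Λ R₀) :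
    Fam ls r₁ Λ R₀ (A + A') (F * F')
      fun n y => ∑ q ∈ antidiagonal n, H q.1 y * H' q.2 y where
  hol R hR := (h.hol R hR).mul (h'.hol R hR)
  ana n := DifferentiableOn.fun_sum fun q _ => (h.ana q.1).mul (h'.ana q.2)
  app θ hθ M := by
    obtain ⟨C, h0, hC⟩ := h.app' hθ
    obtain ⟨C', h0', hC'⟩ := h'.app' hθ
    obtain ⟨K, hK0, hK⟩ := h'.bdd hθ
    obtain ⟨B, hB0, hB⟩ := h.bddH hs.pos hθ
    refine ⟨C M * K + ∑ n ∈ Finset.range M, B n * C' (M - n), fun R hR p hp => ?_⟩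
    have hR1 := hs.big.one_le hR
    have he := hs.fst_le hθ.le hR hp
    have h1 : (F * F') R p -
        tr (fun n y => ∑ q ∈ antidiagonal n, H q.1 y * H' q.2 y) M p.1 p.2 =
        (F R p - tr H M p.1 p.2) * F' R p +
          ∑ n ∈ Finset.range M, p.1 ^ n * H n p.2 * (F' R p - tr H' (M - n) p.1 p.2) := by
      rw [tr_mul]
      simp only [mul_sub, Finset.sum_sub_distrib, ← Finset.sum_mul, Pi.mul_apply]
      rw [tr]; ring
    rw [h1, add_mul, add_mul, Finset.sum_mul, Finset.sum_mul]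
    refine norm_add_le_of_le ?_ (norm_sum_le_of_le _ fun n hn => ?_)
    · rw [norm_mul]
      have := h0 M
      exact (mul_le_mul (hC M R hR1 hR p hp) (hK R hR1 hR p hp) (norm_nonneg _)
        (by positivity)).trans_eq (by ring)
    · have h2 := h0' (M - n)
      have h3 := hB0 n
      have h4 : ‖p.1‖ ^ n * (‖p.1‖ ^ (M - n) + Real.exp (-R ^ 2 / 5)) ≤
          ‖p.1‖ ^ M + Real.exp (-R ^ 2 / 5) := by
        rw [mul_add, ← pow_add, Nat.add_sub_cancel' (Finset.mem_range.1 hn).le]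
        gcongr
        exact mul_le_of_le_one_left (Real.exp_pos _).le (pow_le_one₀ (norm_nonneg _) he)
      rw [norm_mul, norm_mul, norm_pow]
      calc _ ≤ ‖p.1‖ ^ n * B n *
            (C' (M - n) * R ^ A' * (‖p.1‖ ^ (M - n) + Real.exp (-R ^ 2 / 5))) := by
            gcongr
            · exact hB n R p hp
            · exact hC' _ R hR1 hR p hp
        _ = B n * C' (M - n) * R ^ A' *
            (‖p.1‖ ^ n * (‖p.1‖ ^ (M - n) + Real.exp (-R ^ 2 / 5))) := by ring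
        _ ≤ _ := by gcongr; omega
  inc θ hθ := by
    obtain ⟨C, h0, hC⟩ := h.inc' hθ
    obtain ⟨C', h0', hC'⟩ := h'.inc' hθ
    obtain ⟨K, hK0, hK⟩ := h.bdd hθ
    obtain ⟨K', hK0', hK'⟩ := h'.bdd hθ
    refine ⟨C * (K' * 2 ^ A') + K * C', fun ρ R h1 h2 h3 p hp hp' => ?_⟩
    have hρ := hs.big.one_le h1
    have h4 : (F * F') R p - (F * F') ρ p =
        (F R p - F ρ p) * F' R p + F ρ p * (F' R p - F' ρ p) := by
      simp only [Pi.mul_apply]; ring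
    have h5 : ‖F' R p‖ ≤ K' * (2 * ρ) ^ A' := (hK' R (hρ.trans h2) (h1.trans h2) p hp).trans (by
      gcongr <;> linarith)
    rw [h4, add_mul, add_mul]
    refine norm_add_le_of_le ?_ ?_ <;> rw [norm_mul]
    · exact (mul_le_mul (hC ρ R hρ h1 h2 h3 p hp hp') h5 (norm_nonneg _)
        (by positivity)).trans_eq (by ring)
    · exact (mul_le_mul (hK ρ hρ h1 p hp') (hC' ρ R hρ h1 h2 h3 p hp hp') (norm_nonneg _)
        (by positivity)).trans_eq (by ring)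

theorem fderiv_snd {E : Type*} [NormedAddCommGroup E] [NormedSpace ℂ E] {G : ℂ × E → ℂ}
    {p : ℂ × E} (hG : DifferentiableAt ℂ G p) :
    DifferentiableAt ℂ (fun y => G (p.1, y)) p.2 ∧
      ∀ v, fderiv ℂ G p (0, v) = fderiv ℂ (fun y => G (p.1, y)) p.2 v := by
  have := hG.hasFDerivAt.comp (x := p.2) (f := fun y => (p.1, y)) (hasFDerivAt_prodMk_right p.1 p.2)
  exact ⟨this.differentiableAt, fun v => by
    rw [show (fun y => G (p.1, y)) = G ∘ fun y => (p.1, y) from rfl, this.fderiv]; simp⟩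

/-- the Cauchy estimate in the direction of `y` -/
theorem cauchy_snd {E : Type*} [NormedAddCommGroup E] [NormedSpace ℂ E] {g : E → ℂ} {y v : E}
    {R s K : ℝ} (hR : 0 < R) (hs : 0 < s) (hv : ‖v‖ ≤ 1)
    (h : ∀ z, ‖z - y‖ * R ^ 2 ≤ s → DifferentiableAt ℂ g z ∧ ‖g z‖ ≤ K) :
    ‖fderiv ℂ g y v‖ ≤ K * R ^ 2 / s := by
  have h1 : ∀ z ∈ ball y (s / R ^ 2), ‖z - y‖ * R ^ 2 ≤ s := fun z hz => by
    rw [mem_ball, dist_eq_norm, lt_div_iff₀ (by positivity)] at hz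
    exact hz.le
  have h2 := P281.MF.norm_fderiv_le_of_ball (by positivity : 0 < s / R ^ 2)
    (fun z hz => (h z (h1 z hz)).1.differentiableWithinAt) fun z hz => (h z (h1 z hz)).2
  rw [div_div_eq_mul_div] at h2
  exact ((fderiv ℂ g y).le_of_opNorm_le_of_le h2 hv).trans_eq (mul_one _)

theorem Fam.der (h : Fam ls r₁ Λ R₀ A F H) (hs : Std ls r₁ Λ R₀) {v : ι ⊕ κ → ℂ} (hv : ‖v‖ ≤ 1) :
    Fam ls r₁ Λ R₀ (A + 2) (fun R p => fderiv ℂ (F R) p (0, v))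
      fun n y => fderiv ℂ (H n) y v := by
  have hd : ∀ R, R₀ ≤ R → ∀ θ ≤ 1, ∀ p ∈ UU ι ls r₁ Λ θ R, DifferentiableAt ℂ (F R) p :=
    fun R hR θ hθ p hp => (h.hol R hR).differentiableAt
      ((isOpen_UU _ _ _ _ _).mem_nhds (UU_mono ls hs.pos.le Λ hθ R hp))
  have hH : ∀ n, ∀ y ∈ ball (0 : ι ⊕ κ → ℂ) r₁, DifferentiableAt ℂ (H n) y := fun n y hy =>
    (h.ana n).differentiableAt (isOpen_ball.mem_nhds hy)
  refine ⟨fun R hR => ?_, fun n => ?_, fun θ hθ M => ?_, fun θ hθ => ?_⟩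
  · exact ((P281.MF.analyticOnNhd_of_differentiableOn (isOpen_UU _ _ _ _ _)
      (h.hol R hR)).fderiv.differentiableOn).clm_apply (differentiableOn_const _)
  · exact ((P281.MF.analyticOnNhd_of_differentiableOn isOpen_ball
      (h.ana n)).fderiv.differentiableOn).clm_apply (differentiableOn_const _)
  · have hθ' : θ + (1 - θ) / 2 < 1 := by linarith
    have hδ : 0 < (1 - θ) / 2 * r₁ := mul_pos (by linarith) hs.pos
    obtain ⟨C, h0, hC⟩ := h.app' hθ'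
    refine ⟨C M / ((1 - θ) / 2 * r₁), fun R hR p hp => ?_⟩
    have htr : ∀ y ∈ ball (0 : ι ⊕ κ → ℂ) r₁, HasFDerivAt (tr H M p.1)
        (∑ n ∈ Finset.range M, p.1 ^ n • fderiv ℂ (H n) y) y := fun y hy =>
      HasFDerivAt.fun_sum fun n _ => (hH n y hy).hasFDerivAt.const_mul _
    have h1 : ‖fderiv ℂ (fun y => F R (p.1, y) - tr H M p.1 y) p.2 v‖ ≤
        C M * R ^ A * (‖p.1‖ ^ M + Real.exp (-R ^ 2 / 5)) * R ^ 2 / ((1 - θ) / 2 * r₁) := by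
      refine cauchy_snd (hs.big.pos hR) hδ hv fun z hz => ?_
      have h1 := hs.room hθ.le hR hp hz
      have h2 := snd_mem_ball hs.pos.le hθ'.le h1
      exact ⟨(fderiv_snd (hd R hR _ hθ'.le _ h1)).1.fun_sub (htr z h2).differentiableAt,
        hC M R (hs.big.one_le hR) hR _ h1⟩
    obtain ⟨h2, h3⟩ := fderiv_snd (hd R hR θ hθ.le p hp)
    rw [(h2.hasFDerivAt.fun_sub (htr _ (snd_mem_ball hs.pos.le hθ.le hp))).fderiv] at h1
    simp only [sub_apply, sum_apply, smul_apply, smul_eq_mul] at h1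
    rw [h3]
    exact h1.trans_eq (by ring)
  · have hθ' : θ + (1 - θ) / 2 < 1 := by linarith
    have hδ : 0 < (1 - θ) / 2 * r₁ := mul_pos (by linarith) hs.pos
    obtain ⟨C, h0, hC⟩ := h.inc' hθ'
    refine ⟨4 * C / ((1 - θ) / 2 * r₁), fun ρ R h1 h2 h3 p hp hp' => ?_⟩
    have hR := h1.trans h2
    have hρ := hs.big.one_le h1
    have h4 : ‖fderiv ℂ (fun y => F R (p.1, y) - F ρ (p.1, y)) p.2 v‖ ≤
        C * ρ ^ A * Real.exp (-ρ ^ 2 / 4) * R ^ 2 / ((1 - θ) / 2 * r₁) := by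
      refine cauchy_snd (hs.big.pos hR) hδ hv fun z hz => ?_
      have h4 := hs.room hθ.le hR hp hz
      have h5 := hs.room (y := z) hθ.le h1 hp' (le_trans (by gcongr) hz)
      exact ⟨(fderiv_snd (hd R hR _ hθ'.le _ h4)).1.fun_sub (fderiv_snd (hd ρ h1 _ hθ'.le _ h5)).1,
        hC ρ R hρ h1 h2 h3 _ h4 h5⟩
    obtain ⟨h5, h6⟩ := fderiv_snd (hd R hR θ hθ.le p hp)
    obtain ⟨h7, h8⟩ := fderiv_snd (hd ρ h1 θ hθ.le p hp')
    rw [fderiv_fun_sub h5 h7, sub_apply] at h4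
    rw [h6, h8]
    calc _ ≤ _ := h4
      _ ≤ C * ρ ^ A * Real.exp (-ρ ^ 2 / 4) * (2 * ρ) ^ 2 / ((1 - θ) / 2 * r₁) := by
          gcongr <;> linarith
      _ = _ := by ring

/-- an asymptotic series in `R⁻²` which is small vanishes -/
theorem eq_zero_of_small {d : ℕ → ℂ} {A : ℕ} (h : ∀ M : ℕ, ∃ C : ℝ, ∀ᶠ R : ℝ in atTop,
    ‖∑ n ∈ Finset.range M, (((R ^ 2)⁻¹ : ℝ) : ℂ) ^ n * d n‖ ≤
      C * R ^ A * (((R ^ 2)⁻¹) ^ M + Real.exp (-R ^ 2 / 5))) (n : ℕ) : d n = 0 := by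
  induction n using Nat.strong_induction_on with
  | _ n ih =>
  obtain ⟨C, hC⟩ := h (n + (A + 1))
  have h0 : Tendsto (fun R : ℝ => (R ^ 2)⁻¹) atTop (𝓝 0) :=
    (tendsto_pow_atTop two_ne_zero).inv_tendsto_atTop
  have h1 : Tendsto (fun R : ℝ => ∑ k ∈ Finset.range (A + 1),
      (((R ^ 2)⁻¹ : ℝ) : ℂ) ^ k * d (n + k)) atTop (𝓝 (d n)) := by
    have h2 : Continuous fun e : ℝ => ∑ k ∈ Finset.range (A + 1), (e : ℂ) ^ k * d (n + k) := by
      fun_prop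
    have h3 := (h2.tendsto 0).comp h0
    simpa [Finset.sum_range_succ', Function.comp_def] using h3
  obtain ⟨K, -, hK⟩ := exists_pow_mul_exp_le (A + 2 * n) (by norm_num : (1 / 10 : ℝ) < 1 / 5)
  have h2 : Tendsto (fun R : ℝ => |C| * ((R ^ 2)⁻¹ + K * Real.exp (-(1 / 10 * R ^ 2)))) atTop
      (𝓝 (|C| * (0 + K * 0))) :=
    (h0.add ((Real.tendsto_exp_neg_atTop_nhds_zero.comp
      ((tendsto_pow_atTop two_ne_zero).const_mul_atTop (by norm_num))).const_mul K)).const_mul _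
  simp only [mul_zero, add_zero] at h2
  refine norm_le_zero_iff.1 (le_of_tendsto_of_tendsto h1.norm h2 ?_)
  filter_upwards [hC, eventually_ge_atTop 1] with R h3 hR
  have hp : 0 < (R ^ 2)⁻¹ := by positivity
  rw [Finset.sum_range_add, Finset.sum_eq_zero fun m hm => by
    rw [ih m (Finset.mem_range.1 hm), mul_zero], zero_add] at h3
  simp only [pow_add _ n, mul_assoc, ← Finset.mul_sum, norm_mul, norm_pow, Complex.norm_real,
    Real.norm_of_nonneg hp.le] at h3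
  refine le_of_mul_le_mul_left (h3.trans ?_) (pow_pos hp n)
  have h4 : R ^ A * (R ^ 2)⁻¹ ^ (A + 1) ≤ (R ^ 2)⁻¹ := by
    rw [pow_succ, ← mul_assoc, ← mul_pow]
    refine mul_le_of_le_one_left hp.le (pow_le_one₀ (by positivity) ?_)
    rw [mul_inv_le_iff₀ (by positivity)]
    nlinarith
  have h5 : R ^ A * Real.exp (-R ^ 2 / 5) ≤
      (R ^ 2)⁻¹ ^ n * (K * Real.exp (-(1 / 10 * R ^ 2))) := by
    rw [inv_pow, le_inv_mul_iff₀ (by positivity)]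
    refine le_of_eq_of_le ?_ (hK R hR)
    rw [show -(1 / 5 * R ^ 2) = -R ^ 2 / 5 by ring]; ring
  calc _ ≤ |C| * (R ^ A * ((R ^ 2)⁻¹ ^ n * (R ^ 2)⁻¹ ^ (A + 1) + Real.exp (-R ^ 2 / 5))) := by
        gcongr; exact le_abs_self C
    _ = |C| * ((R ^ 2)⁻¹ ^ n * (R ^ A * (R ^ 2)⁻¹ ^ (A + 1)) + R ^ A * Real.exp (-R ^ 2 / 5)) := by
        ring
    _ ≤ |C| * ((R ^ 2)⁻¹ ^ n * (R ^ 2)⁻¹ +
          (R ^ 2)⁻¹ ^ n * (K * Real.exp (-(1 / 10 * R ^ 2)))) := by gcongr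
    _ = _ := by ring

/-- uniqueness of the expansion -/
theorem Fam.unique (h : Fam ls r₁ Λ R₀ A F H) (h' : Fam ls r₁ Λ R₀ A' F H') (hs : Std ls r₁ Λ R₀)
    (n : ℕ) : EqOn (H n) (H' n) (ball 0 r₁) := by
  intro y hy
  rw [mem_ball_zero_iff] at hy
  obtain ⟨θ, h1, h2⟩ := exists_between ((div_lt_one hs.pos).2 hy)
  have h3 : 0 ≤ θ := (div_nonneg (norm_nonneg _) hs.pos.le).trans h1.le
  rw [div_lt_iff₀ hs.pos] at h1
  refine sub_eq_zero.1 (eq_zero_of_small (d := fun n => H n y - H' n y) (A := A + A')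
    (fun M => ?_) n)
  obtain ⟨C, hC⟩ := (h.mono hs.big (Nat.le_add_right A A')).app θ h2 M
  obtain ⟨C', hC'⟩ := (h'.mono hs.big (Nat.le_add_left A' A)).app θ h2 M
  refine ⟨C + C', ?_⟩
  filter_upwards [eventually_ge_atTop R₀] with R hR
  have hp : 0 < R ^ 2 := pow_pos (hs.big.pos hR) 2
  have h4 : ‖(((R ^ 2)⁻¹ : ℝ) : ℂ)‖ = (R ^ 2)⁻¹ := by
    rw [Complex.norm_real, Real.norm_of_nonneg (inv_pos.2 hp).le]
  have h5 : ((((R ^ 2)⁻¹ : ℝ) : ℂ), y) ∈ UU ι ls r₁ Λ θ R := ⟨h1, fun i =>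
    hs.big.mem_Om (by linarith) (by linarith) hR (by
      rw [norm_mul, h4, mul_right_comm, inv_mul_cancel₀ hp.ne', one_mul]
      exact norm_ls_add_le hs.nls (hy.le.trans hs.le) i)⟩
  have h6 := norm_sub_le_of_le (hC' R hR _ h5) (hC R hR _ h5)
  simp only [h4, tr, sub_sub_sub_cancel_left, ← Finset.sum_sub_distrib, ← mul_sub] at h6
  exact h6.trans_eq (by ring)

/-- families with a real expansion -/
def Good (ls : κ → ℝ) (r₁ Λ R₀ : ℝ) (F : ℝ → ℂ × (ι ⊕ κ → ℂ) → ℂ)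
    (H : ℕ → (ι ⊕ κ → ℂ) → ℂ) : Prop :=
  (∃ A, Fam ls r₁ Λ R₀ A F H) ∧ ∀ n, ∀ y ∈ ball (0 : ι ⊕ κ → ℂ) r₁, IsRe y → (H n y).im = 0

theorem Good.const (c : ℝ) :
    Good (ι := ι) ls r₁ Λ R₀ (fun _ _ => c) fun n _ => if n = 0 then c else 0 :=
  ⟨⟨0, Fam.const _⟩, fun n y _ _ => by dsimp only; split_ifs <;> simp⟩

theorem Good.add (h : Good ls r₁ Λ R₀ F H) (h' : Good ls r₁ Λ R₀ F' H') (hs : Std ls r₁ Λ R₀) :
    Good ls r₁ Λ R₀ (F + F') fun n y => H n y + H' n y := by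
  obtain ⟨⟨A, h1⟩, h2⟩ := h
  obtain ⟨⟨A', h1'⟩, h2'⟩ := h'
  exact ⟨⟨A + A', (h1.mono hs.big (Nat.le_add_right A A')).add
    (h1'.mono hs.big (Nat.le_add_left A' A))⟩,
    fun n y hy hr => by rw [Complex.add_im, h2 n y hy hr, h2' n y hy hr, add_zero]⟩

theorem Good.mul (h : Good ls r₁ Λ R₀ F H) (h' : Good ls r₁ Λ R₀ F' H') (hs : Std ls r₁ Λ R₀) :
    Good ls r₁ Λ R₀ (F * F') fun n y => ∑ q ∈ antidiagonal n, H q.1 y * H' q.2 y := by
  obtain ⟨⟨A, h1⟩, h2⟩ := h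
  obtain ⟨⟨A', h1'⟩, h2'⟩ := h'
  exact ⟨⟨A + A', h1.mul h1' hs⟩, fun n y hy hr => by
    simp [Complex.im_sum, h2 _ y hy hr, h2' _ y hy hr]⟩

theorem Good.der (h : Good ls r₁ Λ R₀ F H) (hs : Std ls r₁ Λ R₀) {v : ι ⊕ κ → ℂ} (hv : ‖v‖ ≤ 1)
    (hv' : IsRe v) : Good ls r₁ Λ R₀ (fun R p => fderiv ℂ (F R) p (0, v))
      fun n y => fderiv ℂ (H n) y v := by
  obtain ⟨⟨A, h1⟩, h2⟩ := h
  refine ⟨⟨A + 2, h1.der hs hv⟩, fun n y hy hr => ?_⟩
  have h3 : HasDerivAt (fun t : ℂ => y + t • v) v ((0 : ℝ) : ℂ) := by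
    simpa using ((hasDerivAt_id ((0 : ℝ) : ℂ)).smul_const v).const_add y
  have h4 : HasFDerivAt (H n) (fderiv ℂ (H n) y) (y + ((0 : ℝ) : ℂ) • v) := by
    simpa using ((h1.ana n).differentiableAt (isOpen_ball.mem_nhds hy)).hasFDerivAt
  have h5 := Complex.imCLM.hasFDerivAt.comp_hasDerivAt (0 : ℝ)
    (h4.comp_hasDerivAt _ h3).comp_ofReal
  have h6 : ∀ᶠ t : ℝ in 𝓝 0, y + (t : ℂ) • v ∈ ball (0 : ι ⊕ κ → ℂ) r₁ :=
    ContinuousAt.eventually_mem (by fun_prop) (by simpa using isOpen_ball.mem_nhds hy)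
  refine h5.unique ((hasDerivAt_const (0 : ℝ) (0 : ℝ)).congr_of_eventuallyEq ?_)
  filter_upwards [h6] with t ht
  exact h2 n _ ht fun j => by simp [hr j, hv' j]

theorem ring_proof : RingStmt := by
  intro ι κ _ _ _ r₁ Λ R₀ ls hb hls hr hr'
  have hs : Std ls r₁ Λ R₀ := ⟨hb, hls, hr, hr'⟩
  have h1 : Good (ι := ι) ls r₁ Λ R₀ 1 fun n _ => if n = 0 then 1 else 0 := by
    simpa [Pi.one_def] using Good.const (ι := ι) (ls := ls) (r₁ := r₁) (Λ := Λ) (R₀ := R₀) 1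
  have hder : ∀ (i : ι ⊕ κ) F H, Good ls r₁ Λ R₀ F H → Good ls r₁ Λ R₀
      (fun R p => fderiv ℂ (F R) p (0, Pi.single i 1))
      fun n y => fderiv ℂ (H n) y (Pi.single i 1) := fun i F H h =>
    h.der hs (by rw [Pi.norm_single, norm_one]) fun j => by
      rw [Pi.single_apply]; split_ifs <;> simp
  let D : Subring (ℝ → ℂ × (ι ⊕ κ → ℂ) → ℂ) :=
    { carrier := {F | ∃ H, Good ls r₁ Λ R₀ F H}
      mul_mem' := fun ⟨_, h⟩ ⟨_, h'⟩ => ⟨_, h.mul h' hs⟩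
      one_mem' := ⟨_, h1⟩
      add_mem' := fun ⟨_, h⟩ ⟨_, h'⟩ => ⟨_, h.add h' hs⟩
      zero_mem' := ⟨_, Good.const 0⟩
      neg_mem' := fun {F} ⟨_, h⟩ => ⟨_, by
        convert (Good.const (-1)).mul h hs using 1
        ext; simp⟩ }
  have hD : ∀ F : D, ∃ H, Good ls r₁ Λ R₀ F.1 H := fun F => F.2
  choose ex hex using hD
  have key : ∀ (F : D) H, Good ls r₁ Λ R₀ F.1 H → ∀ n, EqOn (ex F n) (H n) (ball 0 r₁) :=
    fun F H h => (hex F).1.elim fun _ h1 => h.1.elim fun _ h2 => h1.unique h2 hs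
  have key' : ∀ (F : D) H, Good ls r₁ Λ R₀ F.1 H → ∀ n, ex F n =ᶠ[𝓝 0] H n :=
    fun F H h n => (key F H h n).eventuallyEq_of_mem (ball_mem_nhds _ hr)
  refine ⟨D, fun i F => ⟨_, _, hder i _ _ (hex F)⟩, ex,
    ⟨fun F n => ?_, fun F n => ?_, key' 1 _ h1, fun F F' => key' _ _ ((hex F).add (hex F') hs),
      fun F F' => key' _ _ ((hex F).mul (hex F') hs), fun i F => key' _ _ (hder i _ _ (hex F))⟩,
    fun F => (hex F).1.imp fun A h A' => h.mono hb, fun _ _ => rfl,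
    fun A F H h h' => ⟨⟨H, ⟨A, h⟩, h'⟩, key _ H ⟨⟨A, h⟩, h'⟩⟩⟩
  · obtain ⟨A, h⟩ := (hex F).1
    exact P281.MF.analyticAt_of_differentiableOn isOpen_ball (h.ana n) (mem_ball_self hr)
  · have h2 : ContinuousAt (ofRe : (ι ⊕ κ → ℝ) → ι ⊕ κ → ℂ) 0 :=
      Continuous.continuousAt (by unfold ofRe; fun_prop)
    have h3 : ofRe (0 : ι ⊕ κ → ℝ) = 0 := by ext; simp [ofRe]
    filter_upwards [h2.eventually_mem (s := ball 0 r₁) (h3 ▸ ball_mem_nhds _ hr)] with y hy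
    exact (hex F).2 n _ hy fun j => by simp [ofRe]

end Vale.Agent.P218F.K
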