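import Vale.Agent.P218F.KBasic
import Mathlib.Analysis.Complex.CauchyIntegral
import Mathlib.Analysis.SpecialFunctions.Gaussian.FourierTransform
import Mathlib.Analysis.SpecialFunctions.Pow.Deriv
import Mathlib.Analysis.SpecialFunctions.Pow.Asymptotics
import Mathlib.MeasureTheory.Integral.Prod
import Mathlib.MeasureTheory.Integral.DominatedConvergence
import Mathlib.MeasureTheory.Group.Integral

/-! Block K: the contribution of a single end to the sum over the contours. -/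

open Filter Topology Set Asymptotics MeasureTheory

noncomputable section

namespace Vale.Agent.P218F.K

namespace Su

theorem bd_diff {y : ℂ} (hy : 0 < y.re) : DifferentiableAt ℂ bd y := by
  unfold bd
  refine DifferentiableAt.mul (DifferentiableAt.const_mul ?_ _) (by fun_prop)
  exact differentiableAt_id.cpow_const (Or.inl hy)

theorem norm_bd_le' {y : ℂ} (hy : 0 < y.re) : ‖bd y‖ ≤ 2 * Real.pi * (1 + ‖y‖) := by
  unfold bd
  have h1 : ‖y ^ (1 / 2 : ℂ)‖ ≤ 1 + ‖y‖ := by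
    have : (1 / 2 : ℂ) = ((1 / 2 : ℝ) : ℂ) := by push_cast; ring
    rw [this, Complex.norm_cpow_real, ← Real.sqrt_eq_rpow]
    have h := Real.sq_sqrt (norm_nonneg y)
    nlinarith [sq_nonneg (√‖y‖ - 1), norm_nonneg y]
  have h2 : ‖Complex.exp (-y / 4)‖ ≤ 1 := by
    rw [Complex.norm_exp, Real.exp_le_one_iff]
    simp only [Complex.div_ofNat_re, Complex.neg_re]
    linarith
  have h3 : ‖(2 * Real.pi : ℂ)‖ = 2 * Real.pi := by
    simp [abs_of_pos Real.pi_pos]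
  rw [norm_mul, norm_mul, h3]
  have := Real.pi_pos
  calc 2 * Real.pi * ‖y ^ (1 / 2 : ℂ)‖ * ‖Complex.exp (-y / 4)‖
      ≤ 2 * Real.pi * (1 + ‖y‖) * 1 := by gcongr
    _ = _ := mul_one _

theorem norm_ker_le' {B : ℝ} (hB : 8 ≤ B) (a u β : ℝ) :
    ‖ker B a (pt u β)‖ ≤ Real.exp (u ^ 2 / 2 - 3 / 8 * β ^ 2) := by
  unfold ker
  rw [Complex.norm_exp, Real.exp_le_exp]
  have e : ((pt u β) ^ 2 / 2 - (pt u β - a) ^ 2 / B).re =
      (u ^ 2 - β ^ 2) / 2 - ((u - a) ^ 2 - β ^ 2) / B := by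
    simp only [Complex.sub_re, Complex.div_ofNat_re, Complex.div_ofReal_re, pow_two,
      Complex.mul_re, pt_re, pt_im, Complex.sub_im, Complex.ofReal_re, Complex.ofReal_im, sub_zero]
  rw [e]
  have hB0 : 0 < B := by linarith
  have h1 : β ^ 2 / B ≤ β ^ 2 / 8 := by gcongr
  have h2 : 0 ≤ (u - a) ^ 2 / B := by positivity
  rw [sub_div ((u - a) ^ 2)]
  linarith

theorem diff_ker (B a : ℝ) : Differentiable ℂ (ker B a) := by
  unfold ker
  fun_prop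

theorem ev_sec {κ₀ : ℝ} {p : ℂ → Prop} (h : ∀ᶠ ω in atSec κ₀, p ω) :
    ∃ u₀ : ℝ, ∀ ω : ℂ, u₀ ≤ ω.re → |ω.im| < κ₀ * ω.re → p ω := by
  unfold atSec at h
  rw [eventually_inf_principal, eventually_comap, eventually_atTop] at h
  obtain ⟨u₀, h⟩ := h
  exact ⟨u₀, fun ω h1 h2 => h _ h1 ω rfl h2⟩

theorem ev_log (a b : ℝ) {ε : ℝ} (hε : 0 < ε) : ∀ᶠ x : ℝ in atTop, a + b * Real.log x ≤ ε * x := by
  have h1 := (Real.isLittleO_log_id_atTop.const_mul_left b).bound (half_pos hε)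
  filter_upwards [h1, eventually_ge_atTop (2 * a / ε), eventually_ge_atTop 0] with x h1 h2 h3
  rw [div_le_iff₀ hε] at h2
  simp only [id, Real.norm_eq_abs, abs_of_nonneg h3] at h1
  linarith [le_abs_self (b * Real.log x)]

theorem mem_Om (Λ : ℝ) : ∀ᶠ r : ℝ in atTop, ∀ (c : ℂ) (X : ℝ),
    r ^ 2 / 2 + 2 * Real.log (r ^ 2) + (2 * Λ + 2) ≤ X → (‖c‖ ≤ 1 / X ∨ 0 ≤ c.re) →
    ‖c‖ * r ^ 2 < 3 → c ∈ Om Λ 4 r := by
  filter_upwards [eventually_mem_Om_of_edge Λ] with r h c X h1 h2 h3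
  exact Om_mono le_rfl (by norm_num) r (h c X 3 (by linarith) h2 h3 le_rfl)

/-- the integrand of the contour integrals -/
def GG (Y : ℝ → ℂ → ℂ) (P : ℂ → ℂ) (B a r : ℝ) (ω : ℂ) : ℂ := bd (Y r (P ω)) * ker B a ω

/-- the point `ω` is admissible for the radius `r` -/
def Good (R₀ Λ : ℝ) (P : ℂ → ℂ) (r : ℝ) (ω : ℂ) : Prop :=
  R₀ ≤ r ∧ DifferentiableAt ℂ P ω ∧ P ω ∈ Om Λ 4 r

section

variable {R₀ Λ : ℝ} {Y : ℝ → ℂ → ℂ} {sig P : ℂ → ℂ}

theorem exists_bound (h : SymData R₀ Λ Y sig) :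
    ∃ C : ℝ, 0 ≤ C ∧ ∀ P r ω, Good R₀ Λ P r ω → ‖bd (Y r (P ω))‖ ≤ C := by
  obtain ⟨C, hC⟩ := h.bdd
  have := Real.pi_pos
  refine ⟨2 * Real.pi * (1 + |C|), by positivity, fun P r ω hg => ?_⟩
  refine (norm_bd_le' (h.re_pos r hg.1 _ hg.2.2)).trans ?_
  gcongr
  exact (hC r hg.1 _ hg.2.2).trans (le_abs_self C)

theorem good_diff (h : SymData R₀ Λ Y sig) (B a : ℝ) {r : ℝ} {ω : ℂ} (hg : Good R₀ Λ P r ω) :
    DifferentiableAt ℂ (GG Y P B a r) ω := by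
  have h1 : DifferentiableAt ℂ (Y r) (P ω) :=
    (h.hol r hg.1).differentiableAt ((isOpen_Om _ _ _).mem_nhds hg.2.2)
  exact ((bd_diff (h.re_pos r hg.1 _ hg.2.2)).comp ω (h1.comp ω hg.2.1)).mul (diff_ker B a ω)

theorem good_cont (h : SymData R₀ Λ Y sig) {S : Set (ℝ × ℝ)} {x : ℝ × ℝ → ℂ}
    (hx : ContinuousOn x S) (hg : ∀ q ∈ S, Good R₀ Λ P q.1 (x q)) :
    ContinuousOn (fun q : ℝ × ℝ => bd (Y q.1 (P (x q)))) S := by
  intro q hq
  have h1 : ContinuousWithinAt (fun q : ℝ × ℝ => P (x q)) S q :=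
    ContinuousAt.comp_continuousWithinAt (hg q hq).2.1.continuousAt (hx q hq)
  have h2 : ContinuousWithinAt (fun q : ℝ × ℝ => Y q.1 (P (x q))) S q :=
    ContinuousWithinAt.comp (f := fun q : ℝ × ℝ => (q.1, P (x q)))
      (h.cont (q.1, P (x q)) ⟨(hg q hq).1, (hg q hq).2.2⟩)
      (continuousWithinAt_fst.prodMk h1) fun q hq => ⟨(hg q hq).1, (hg q hq).2.2⟩
  exact ContinuousAt.comp_continuousWithinAt (f := fun q : ℝ × ℝ => Y q.1 (P (x q)))
    (bd_diff (h.re_pos _ (hg q hq).1 _ (hg q hq).2.2)).continuousAt h2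

theorem shift_le (h : SymData R₀ Λ Y sig) {C : ℝ} (hC0 : 0 ≤ C)
    (hC : ∀ r ω, Good R₀ Λ P r ω → ‖bd (Y r (P ω))‖ ≤ C) {B : ℝ} (hB : 8 ≤ B) (a : ℝ)
    {r x₁ x₂ H : ℝ} (h0 : 0 ≤ x₁) (h12 : x₁ ≤ x₂) (hH : 0 ≤ H)
    (hg : ∀ u ∈ Icc x₁ x₂, ∀ β ∈ Icc (-H) H, Good R₀ Λ P r (pt u β)) :
    ‖(∫ β in (-H)..H, GG Y P B a r (pt x₂ β)) - ∫ β in (-H)..H, GG Y P B a r (pt x₁ β)‖ ≤
      2 * x₂ * (C * Real.exp (x₂ ^ 2 / 2 - 3 / 8 * H ^ 2)) := by
  have hd : DifferentiableOn ℂ (GG Y P B a r)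
      (uIcc (pt x₁ (-H)).re (pt x₂ H).re ×ℂ uIcc (pt x₁ (-H)).im (pt x₂ H).im) := by
    intro ω hω
    simp only [pt_re, pt_im, uIcc_of_le h12, uIcc_of_le (show -H ≤ H by linarith)] at hω
    have := good_diff h B a (hg _ hω.1 _ hω.2)
    rw [show pt ω.re ω.im = ω from Complex.re_add_im ω] at this
    exact this.differentiableWithinAt
  have key := Complex.integral_boundary_rect_eq_zero_of_differentiableOn _ _ _ hd
  simp only [pt_re, pt_im] at key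
  have side : ∀ β : ℝ, β ^ 2 = H ^ 2 → β ∈ Icc (-H) H →
      ‖∫ u in x₁..x₂, GG Y P B a r (u + β * Complex.I)‖ ≤
        x₂ * (C * Real.exp (x₂ ^ 2 / 2 - 3 / 8 * H ^ 2)) := by
    intro β hβ hβ'
    refine (intervalIntegral.norm_integral_le_of_norm_le_const
      (C := C * Real.exp (x₂ ^ 2 / 2 - 3 / 8 * H ^ 2)) fun u hu => ?_).trans ?_
    · rw [uIoc_of_le h12] at hu
      have hu' : u ∈ Icc x₁ x₂ := Ioc_subset_Icc_self hu
      change ‖GG Y P B a r (pt u β)‖ ≤ _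
      rw [GG, norm_mul]
      have h1 : u ^ 2 ≤ x₂ ^ 2 := by
        have := h0.trans hu'.1
        gcongr
        exact hu'.2
      gcongr
      · exact hC _ _ (hg u hu' β hβ')
      · refine (norm_ker_le' hB a u β).trans (Real.exp_le_exp.mpr ?_)
        linarith
    · rw [abs_of_nonneg (by linarith), mul_comm]
      gcongr
      linarith
  have s1 := side (-H) (by ring) ⟨le_rfl, by linarith⟩
  have s2 := side H rfl ⟨by linarith, le_rfl⟩
  have e : Complex.I • ((∫ β in (-H)..H, GG Y P B a r (pt x₂ β)) -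
      ∫ β in (-H)..H, GG Y P B a r (pt x₁ β)) =
      (∫ u in x₁..x₂, GG Y P B a r (u + H * Complex.I)) -
        ∫ u in x₁..x₂, GG Y P B a r (u + (-H : ℝ) * Complex.I) := by
    rw [smul_sub]
    unfold pt
    linear_combination key
  have := congrArg norm e
  rw [norm_smul, Complex.norm_I, one_mul] at this
  rw [this]
  refine (norm_sub_le _ _).trans ?_
  linarith

theorem rect_integrable {F : ℝ × ℝ → ℂ} {a b c d : ℝ} (hab : a ≤ b) (hcd : c ≤ d)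
    (hF : ContinuousOn F (Icc a b ×ˢ Icc c d)) : IntegrableOn F (uIoc a b ×ˢ uIoc c d) := by
  rw [uIoc_of_le hab, uIoc_of_le hcd]
  exact (hF.integrableOn_compact (isCompact_Icc.prod isCompact_Icc)).mono_set
    (prod_mono Ioc_subset_Icc_self Ioc_subset_Icc_self)

/-- the integral over the contour with abscissa `x` for the radius `r` -/
def QX (Y : ℝ → ℂ → ℂ) (P : ℂ → ℂ) (B a H r x : ℝ) : ℂ :=
  (Real.exp (-r ^ 2 / 4) : ℝ) * ∫ β in (-H)..H, GG Y P B a r (pt x β)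

theorem cont_F (h : SymData R₀ Λ Y sig) (B a : ℝ) {r₁ r₂ H : ℝ} {x : ℝ → ℝ}
    (hx : ContinuousOn x (Icc r₁ r₂))
    (hg : ∀ r ∈ Icc r₁ r₂, ∀ β ∈ Icc (-H) H, Good R₀ Λ P r (pt (x r) β)) :
    ContinuousOn (fun q : ℝ × ℝ => ((Real.exp (-q.1 ^ 2 / 4) : ℝ) : ℂ) *
      GG Y P B a q.1 (pt (x q.1) q.2)) (Icc r₁ r₂ ×ˢ Icc (-H) H) := by
  have h1 : ContinuousOn (fun q : ℝ × ℝ => pt (x q.1) q.2) (Icc r₁ r₂ ×ˢ Icc (-H) H) := by
    unfold pt
    refine ContinuousOn.add (Complex.continuous_ofReal.comp_continuousOn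
      (hx.comp continuousOn_fst fun q hq => hq.1)) (by fun_prop)
  refine ContinuousOn.mul (by fun_prop) (ContinuousOn.mul ?_ ?_)
  · exact good_cont h h1 fun q hq => hg _ hq.1 _ hq.2
  · exact (diff_ker B a).continuous.comp_continuousOn h1

theorem QX_integrable (h : SymData R₀ Λ Y sig) (B a : ℝ) {r₁ r₂ H : ℝ} (hr : r₁ ≤ r₂) (hH : 0 ≤ H)
    {x : ℝ → ℝ} (hx : ContinuousOn x (Icc r₁ r₂))
    (hg : ∀ r ∈ Icc r₁ r₂, ∀ β ∈ Icc (-H) H, Good R₀ Λ P r (pt (x r) β)) :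
    IntervalIntegrable (fun r => QX Y P B a H r (x r)) volume r₁ r₂ := by
  have hHH : -H ≤ H := by linarith
  have h1 := rect_integrable hr hHH (cont_F h B a hx hg)
  rw [IntegrableOn, Measure.volume_eq_prod, ← Measure.prod_restrict] at h1
  have h2 := h1.integral_prod_left
  rw [intervalIntegrable_iff]
  refine (integrable_congr (Eventually.of_forall fun r => ?_)).mp h2
  simp only [QX, intervalIntegral.integral_of_le hHH, uIoc_of_le hHH, integral_const_mul]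

theorem swap_eq (h : SymData R₀ Λ Y sig) (B a : ℝ) {r₁ r₂ H α : ℝ} (hr : r₁ ≤ r₂) (hH : 0 ≤ H)
    (hg : ∀ r ∈ Icc r₁ r₂, ∀ β ∈ Icc (-H) H, Good R₀ Λ P r (pt α β)) :
    ∫ β in (-H)..H, (∫ r in r₁..r₂, ((Real.exp (-r ^ 2 / 4) : ℝ) : ℂ) * bd (Y r (P (pt α β)))) *
      ker B a (pt α β) = ∫ r in r₁..r₂, QX Y P B a H r α := by
  have hHH : -H ≤ H := by linarith
  have h1 := rect_integrable hr hHH (cont_F h B a (x := fun _ => α) continuousOn_const hg)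
  have h2 := intervalIntegral_intervalIntegral_swap
    (F := fun r β => ((Real.exp (-r ^ 2 / 4) : ℝ) : ℂ) * GG Y P B a r (pt α β)) h1
  simp only [intervalIntegral.integral_const_mul] at h2
  unfold QX
  rw [h2]
  refine intervalIntegral.integral_congr fun β _ => ?_
  simp only [GG, ← mul_assoc, intervalIntegral.integral_mul_const]

theorem sqrt_step (j : ℕ) : √(j : ℝ) ≤ √((j : ℝ) + 1) ∧ √((j : ℝ) + 1) - √(j : ℝ) ≤ 1 := by
  refine ⟨Real.sqrt_le_sqrt (by linarith), ?_⟩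
  have h0 : (0 : ℝ) ≤ j := Nat.cast_nonneg j
  have : √((j : ℝ) + 1) ≤ √(j : ℝ) + 1 := by
    rw [Real.sqrt_le_left (by positivity)]
    nlinarith [Real.sq_sqrt h0, Real.sqrt_nonneg (j : ℝ)]
  linarith

theorem exp_le_of {j : ℕ} {r : ℝ} (hr : √(j : ℝ) ≤ r) :
    ‖((Real.exp (-r ^ 2 / 4) : ℝ) : ℂ)‖ ≤ Real.exp (-(j : ℝ) / 4) := by
  rw [Complex.norm_real, Real.norm_eq_abs, abs_of_pos (Real.exp_pos _), Real.exp_le_exp]
  have h0 : (0 : ℝ) ≤ j := Nat.cast_nonneg j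
  have : √(j : ℝ) ^ 2 ≤ r ^ 2 := by gcongr
  rw [Real.sq_sqrt h0] at this
  linarith

/-- the contours can be moved to the left -/
theorem csum_approx (h : SymData R₀ Λ Y sig) {Λ₂ κ₁ B : ℝ} (hΛ : 0 ≤ Λ₂) (hκ : 0 < κ₁)
    (hB : 8 ≤ B) (x : ℕ → ℝ → ℝ)
    (hx : ∀ᶠ N : ℕ in atTop, ∀ j : ℕ, N ≤ j → ContinuousOn (x j) (Icc √(j : ℝ) √((j : ℝ) + 1)) ∧
      ∀ r ∈ Icc √(j : ℝ) √((j : ℝ) + 1), 0 ≤ x j r ∧ x j r ≤ al Λ₂ √((j : ℝ) + 1) ∧
        ∀ u, x j r ≤ u → ∀ β ∈ Icc (-(κ₁ * √(N : ℝ) / 2)) (κ₁ * √(N : ℝ) / 2),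
          Good R₀ Λ P r (pt u β)) :
    Tendsto (fun N : ℕ => cSum Λ₂ κ₁ B (endJ Y P Λ₂) N - ∑ j ∈ Finset.Ico N (16 * N),
      ∫ r in √(j : ℝ)..√((j : ℝ) + 1), QX Y P B √(2 * (N : ℝ)) (κ₁ * √(N : ℝ) / 2) r (x j r))
      atTop (𝓝 0) := by
  obtain ⟨C, hC0, hC⟩ := exists_bound h
  set K := 2 * ((4 + Λ₂) * 16) * (C * (Real.exp (1 / 4 + Λ₂ / 2) * 16)) with hK
  have ht : Tendsto (fun N : ℕ => 16 * K * ((N : ℝ) ^ (3 : ℝ) *
      Real.exp (-(3 / 32 * κ₁ ^ 2) * N))) atTop (𝓝 (16 * K * 0)) :=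
    ((tendsto_rpow_mul_exp_neg_mul_atTop_nhds_zero 3 _ (by positivity)).comp
      tendsto_natCast_atTop_atTop).const_mul _
  rw [mul_zero] at ht
  refine squeeze_zero_norm' ?_ ht
  filter_upwards [hx, eventually_ge_atTop 1] with N hx hN
  have hN0 : (0 : ℝ) ≤ N := Nat.cast_nonneg N
  set H := κ₁ * √(N : ℝ) / 2 with hH
  have hH0 : 0 ≤ H := by positivity
  have hH2 : H ^ 2 = κ₁ ^ 2 * N / 4 := by rw [hH, div_pow, mul_pow, Real.sq_sqrt hN0]; norm_num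
  unfold cSum
  rw [← Finset.sum_sub_distrib]
  refine (norm_sum_le _ _).trans ((Finset.sum_le_card_nsmul _ _
    (K * ((N : ℝ) ^ 2 * Real.exp (-(3 / 32 * κ₁ ^ 2) * N))) fun j hj => ?_).trans ?_)
  · obtain ⟨hj1, hj2⟩ := Finset.mem_Ico.mp hj
    obtain ⟨hc, hx⟩ := hx j hj1
    obtain ⟨s1, s2⟩ := sqrt_step j
    have hj0 : (0 : ℝ) ≤ j := Nat.cast_nonneg j
    have hj3 : (j : ℝ) + 1 ≤ 16 * N := by exact_mod_cast hj2
    set α := al Λ₂ √((j : ℝ) + 1) with hα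
    have hα0 : 0 ≤ α := Real.sqrt_nonneg _
    have hα2 : α ^ 2 = ((j : ℝ) + 1) / 2 + 2 * Real.log ((j : ℝ) + 1) + Λ₂ := by
      rw [hα, al_sq hΛ (Real.one_le_sqrt.mpr (by linarith)), Real.sq_sqrt (by positivity)]
    have hg : ∀ r ∈ Icc √(j : ℝ) √((j : ℝ) + 1), ∀ β ∈ Icc (-H) H, Good R₀ Λ P r (pt α β) :=
      fun r hr β hβ => (hx r hr).2.2 α (hx r hr).2.1 β hβ
    unfold endJ
    rw [swap_eq h B _ s1 hH0 hg, ← intervalIntegral.integral_sub
      (QX_integrable h B _ s1 hH0 (x := fun _ => α) continuousOn_const hg)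
      (QX_integrable h B _ s1 hH0 hc fun r hr β hβ => (hx r hr).2.2 _ le_rfl β hβ)]
    refine (intervalIntegral.norm_integral_le_of_norm_le_const (C := Real.exp (-(j : ℝ) / 4) *
      (2 * α * (C * Real.exp (α ^ 2 / 2 - 3 / 8 * H ^ 2)))) fun r hr => ?_).trans ?_
    · rw [uIoc_of_le s1] at hr
      have hr' := Ioc_subset_Icc_self hr
      unfold QX
      rw [← mul_sub, norm_mul]
      gcongr
      · exact exp_le_of hr'.1
      · exact shift_le h hC0 (hC P) hB _ (hx r hr').1 (hx r hr').2.1 hH0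
          fun u hu β hβ => (hx r hr').2.2 u hu.1 β hβ
    · have hl : Real.log ((j : ℝ) + 1) ≤ j := by
        have := Real.log_le_sub_one_of_pos (show (0 : ℝ) < j + 1 by linarith)
        linarith
      have hα3 : α ≤ (4 + Λ₂) * 16 * N := by
        have h1 : α ≤ (4 + Λ₂) * ((j : ℝ) + 1) := by nlinarith [sq_nonneg (α - 1)]
        calc α ≤ (4 + Λ₂) * (16 * N) := h1.trans (by gcongr)
          _ = _ := by ring
      have he : Real.exp (-(j : ℝ) / 4) * Real.exp (α ^ 2 / 2 - 3 / 8 * H ^ 2) =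
          Real.exp (1 / 4 + Λ₂ / 2) * ((j : ℝ) + 1) * Real.exp (-(3 / 32 * κ₁ ^ 2) * N) := by
        rw [← Real.exp_log (show (0 : ℝ) < j + 1 by linarith), ← Real.exp_add, ← Real.exp_add,
          ← Real.exp_add, hα2, hH2]
        congr 1
        ring
      rw [abs_of_nonneg (by linarith)]
      calc Real.exp (-(j : ℝ) / 4) * (2 * α * (C * Real.exp (α ^ 2 / 2 - 3 / 8 * H ^ 2))) *
            (√((j : ℝ) + 1) - √(j : ℝ))
          ≤ Real.exp (-(j : ℝ) / 4) * (2 * α * (C * Real.exp (α ^ 2 / 2 - 3 / 8 * H ^ 2))) * 1 := by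
            gcongr
        _ = 2 * α * (C * (Real.exp (1 / 4 + Λ₂ / 2) * ((j : ℝ) + 1) *
              Real.exp (-(3 / 32 * κ₁ ^ 2) * N))) := by rw [← he]; ring
        _ ≤ 2 * ((4 + Λ₂) * 16 * N) * (C * (Real.exp (1 / 4 + Λ₂ / 2) * (16 * N) *
              Real.exp (-(3 / 32 * κ₁ ^ 2) * N))) := by gcongr
        _ = _ := by rw [hK]; ring
  · rw [Nat.card_Ico, nsmul_eq_mul]
    have h1 : ((16 * N - N : ℕ) : ℝ) ≤ 16 * N := by exact_mod_cast Nat.sub_le _ _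
    have hK0 : 0 ≤ K := by positivity
    calc ((16 * N - N : ℕ) : ℝ) * (K * ((N : ℝ) ^ 2 * Real.exp (-(3 / 32 * κ₁ ^ 2) * N)))
        ≤ 16 * N * (K * ((N : ℝ) ^ 2 * Real.exp (-(3 / 32 * κ₁ ^ 2) * N))) := by gcongr
      _ = _ := by
        rw [show (3 : ℝ) = ((3 : ℕ) : ℝ) by norm_num, Real.rpow_natCast]
        ring

theorem ev_nat {p : ℝ → Prop} (h : ∀ᶠ x : ℝ in atTop, p x) :
    ∀ᶠ N : ℕ in atTop, ∀ j : ℕ, N ≤ j → p j :=
  eventually_forall_ge_atTop.mpr (tendsto_natCast_atTop_atTop.eventually h)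

theorem ev_sqrt (c : ℝ) : ∀ᶠ x : ℝ in atTop, c ≤ √x :=
  Real.tendsto_sqrt_atTop.eventually (eventually_ge_atTop c)

theorem im_lt {κ₀ κ₁ u β : ℝ} {N : ℕ} (hκ₁ : 0 < κ₁) (hκ : κ₁ < κ₀) (hu0 : 0 < u)
    (hu : √(N : ℝ) / 2 ≤ u) (hβ : β ∈ Icc (-(κ₁ * √(N : ℝ) / 2)) (κ₁ * √(N : ℝ) / 2)) :
    |β| < κ₀ * u := by
  have h1 : |β| ≤ κ₁ * (√(N : ℝ) / 2) := by rw [← mul_div_assoc]; exact abs_le.mpr hβ
  calc |β| ≤ κ₁ * u := h1.trans (by gcongr)
    _ < κ₀ * u := by gcongr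

theorem lost_good {κ₀ κ₁ : ℝ} (hL : Lost κ₀ P) (hκ₁ : 0 < κ₁) (hκ : κ₁ < κ₀) :
    ∀ᶠ N : ℕ in atTop, ∀ j : ℕ, N ≤ j → 1 ≤ (j : ℝ) ∧ 6 * Real.log j ≤ (j : ℝ) / 20 ∧
      ∀ r ∈ Icc √(j : ℝ) √((j : ℝ) + 1), ∀ u, √((j : ℝ) / 2 - 6 * Real.log j) ≤ u →
        ∀ β ∈ Icc (-(κ₁ * √(N : ℝ) / 2)) (κ₁ * √(N : ℝ) / 2), Good R₀ Λ P r (pt u β) := by
  obtain ⟨⟨ω₀, hP⟩, hn, hre⟩ := hL
  obtain ⟨u₀, hu⟩ := ev_sec (hn.and (hre 20))
  obtain ⟨r₀, hr₀⟩ := eventually_atTop.mp (mem_Om Λ)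
  have e1 := ev_log 0 6 (show (0 : ℝ) < 1 / 20 by norm_num)
  have e2 := Real.tendsto_log_atTop.eventually (eventually_ge_atTop (Λ + 13))
  filter_upwards [ev_nat (e1.and (e2.and ((ev_sqrt R₀).and ((ev_sqrt r₀).and
    ((ev_sqrt (2 * u₀)).and ((ev_sqrt (2 * ω₀ + 1)).and (eventually_ge_atTop 20)))))))]
    with N hN j hj
  obtain ⟨h1, h2, h3, h4, h5, h6, h7⟩ := hN j hj
  refine ⟨by linarith, by linarith, fun r hr u hu1 β hβ => ?_⟩
  have hj0 : (0 : ℝ) < j := by linarith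
  have hsq := Real.sq_sqrt hj0.le
  have hs0 := Real.sqrt_pos.mpr hj0
  have hu2 : (j : ℝ) / 2 - 6 * Real.log j ≤ u ^ 2 := (Real.sqrt_le_left
    ((Real.sqrt_nonneg _).trans hu1)).mp hu1
  have hu0 : 0 ≤ u := (Real.sqrt_nonneg _).trans hu1
  have hu3 : √(j : ℝ) / 2 ≤ u := (sq_le_sq₀ (by positivity) hu0).mp (by rw [div_pow]; linarith)
  have hu4 : 0 < u := lt_of_lt_of_le (by positivity) hu3
  have hNj : √(N : ℝ) ≤ √(j : ℝ) := Real.sqrt_le_sqrt (by exact_mod_cast hj)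
  have him := im_lt hκ₁ hκ hu4 (by linarith) hβ
  obtain ⟨b1, b2⟩ := hu (pt u β) (by rw [pt_re]; linarith) (by rwa [pt_re, pt_im])
  have hr0 : 0 < r := hs0.trans_le hr.1
  have hr2 : r ^ 2 ≤ (j : ℝ) + 1 := by
    have : r ^ 2 ≤ √((j : ℝ) + 1) ^ 2 := by gcongr; exact hr.2
    rwa [Real.sq_sqrt (by positivity)] at this
  refine ⟨h3.trans hr.1, hP.differentiableAt ((isOpen_Sec _ _).mem_nhds
    ⟨by rw [pt_re]; linarith, by rwa [pt_re, pt_im]⟩), hr₀ r (h4.trans hr.1) _ _ ?_ b2 ?_⟩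
  · rw [pt_re]
    have hl2 : Real.log 2 ≤ 1 := by
      have := Real.log_le_sub_one_of_pos (show (0 : ℝ) < 2 by norm_num)
      linarith
    have l1 : Real.log (r ^ 2) ≤ Real.log 2 + Real.log j := by
      rw [← Real.log_mul (by norm_num) hj0.ne']
      exact Real.log_le_log (by positivity) (by linarith)
    have l2 : Real.log j / 2 - Real.log 2 ≤ Real.log u := by
      rw [← Real.log_sqrt hj0.le, ← Real.log_div hs0.ne' (by norm_num)]
      exact Real.log_le_log (by positivity) hu3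
    linarith
  · have n1 : u ^ 2 ≤ ‖pt u β‖ ^ 2 := by
      have := Complex.re_le_norm (pt u β)
      rw [pt_re] at this
      gcongr
    have n2 : ‖P (pt u β)‖ * (9 / 20 * (j : ℝ)) ≤ 10 / 9 :=
      le_trans (mul_le_mul_of_nonneg_left (by linarith) (norm_nonneg _)) b1
    have n3 : ‖P (pt u β)‖ * r ^ 2 ≤ ‖P (pt u β)‖ * (7 / 3 * (9 / 20 * (j : ℝ))) :=
      mul_le_mul_of_nonneg_left (by linarith) (norm_nonneg _)
    linarith

theorem tied_good {κ₀ κ₁ a k Λ₂ : ℝ} (hΛ : 0 ≤ Λ) (hT : Tied κ₀ P a k) (hκ₁ : 0 < κ₁)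
    (hκ : κ₁ < κ₀) (hΛ₂ : 2 * Λ + 4 + |k| ≤ Λ₂) :
    ∀ᶠ N : ℕ in atTop, 1 ≤ √(N : ℝ) ∧ ∀ r, √(N : ℝ) ≤ r → ∀ u, al Λ₂ r ≤ u →
      ∀ β ∈ Icc (-(κ₁ * √(N : ℝ) / 2)) (κ₁ * √(N : ℝ) / 2), Good R₀ Λ P r (pt u β) := by
  obtain ⟨ω₀, w, hw, hP, ht⟩ := hT
  obtain ⟨u₀, hu⟩ := ev_sec (ht.eventually (Metric.closedBall_mem_nhds _ one_pos))
  obtain ⟨r₀, hr₀⟩ := eventually_atTop.mp (mem_Om Λ)
  have hk := abs_nonneg k
  filter_upwards [tendsto_natCast_atTop_atTop.eventually ((ev_sqrt R₀).and ((ev_sqrt r₀).and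
    ((ev_sqrt (2 * u₀)).and ((ev_sqrt (2 * ω₀ + 1)).and (ev_sqrt (|k| + 4))))))] with N hN
  obtain ⟨h3, h4, h5, h6, h7⟩ := hN
  refine ⟨by linarith, fun r hr u hu1 β hβ => ?_⟩
  have hr1 : 1 ≤ r := by linarith
  have l3 : 0 ≤ Real.log (r ^ 2) := Real.log_nonneg (by nlinarith)
  have hu0 : 0 ≤ u := (Real.sqrt_nonneg _).trans hu1
  have hu2 : r ^ 2 / 2 + 2 * Real.log (r ^ 2) + Λ₂ ≤ u ^ 2 := (Real.sqrt_le_left hu0).mp hu1
  have hu3 : r / 2 ≤ u := (sq_le_sq₀ (by positivity) hu0).mp (by rw [div_pow]; nlinarith)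
  have hu4 : 0 < u := by linarith
  have him := im_lt hκ₁ hκ hu4 (by linarith) hβ
  have hsec : pt u β ∈ Sec ω₀ κ₀ := ⟨by rw [pt_re]; linarith, by rwa [pt_re, pt_im]⟩
  have b1 := hu (pt u β) (by rw [pt_re]; linarith) (by rwa [pt_re, pt_im])
  set ω := pt u β with hω
  have n1 : u ≤ ‖ω‖ := by
    have := Complex.re_le_norm ω
    rwa [hω, pt_re] at this
  have b2 : ‖ω‖ * ‖w ω - ω + Complex.I * a / 2‖ ≤ |k| / 2 + 1 := by
    rw [← norm_mul]
    rw [dist_eq_norm] at b1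
    have := norm_le_insert' (ω * (w ω - ω + Complex.I * a / 2)) (-(k : ℂ) / 2)
    have e : ‖-(k : ℂ) / 2‖ = |k| / 2 := by simp
    linarith
  have b3 : u * (u - (w ω).re) ≤ |k| / 2 + 1 := by
    have e : (w ω - ω + Complex.I * a / 2).re = (w ω).re - u := by simp [hω]
    have h1 := (abs_le.mp (Complex.abs_re_le_norm (w ω - ω + Complex.I * a / 2))).1
    rw [e] at h1
    calc u * (u - (w ω).re) ≤ u * ‖w ω - ω + Complex.I * a / 2‖ := by gcongr; linarith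
      _ ≤ ‖ω‖ * ‖w ω - ω + Complex.I * a / 2‖ := by gcongr
      _ ≤ _ := b2
  set p := (w ω).re with hp
  have hp0 : 0 < p := by
    by_contra hn
    have : u * u ≤ u * (u - p) := by gcongr; linarith
    nlinarith
  have hp2 : r ^ 2 / 2 + 2 * Real.log (r ^ 2) + (2 * Λ + 2) ≤ p ^ 2 := by
    nlinarith [sq_nonneg (u - p)]
  have hw0 : w ω ≠ 0 := fun h0 => by simp [hp, h0] at hp0
  have hn : ‖P ω‖ ≤ 1 / p ^ 2 := by
    rw [hP ω hsec, norm_div, norm_neg, norm_one, norm_pow]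
    have := Complex.re_le_norm (w ω)
    gcongr
  have hd : DifferentiableAt ℂ P ω := by
    have h1 := hw.differentiableAt ((isOpen_Sec _ _).mem_nhds hsec)
    have h2 : DifferentiableAt ℂ (fun z => -1 / w z ^ 2) ω :=
      (differentiableAt_const _).div (h1.pow 2) (pow_ne_zero 2 hw0)
    exact h2.congr_of_eventuallyEq (eventually_of_mem ((isOpen_Sec _ _).mem_nhds hsec) hP)
  refine ⟨h3.trans hr, hd, hr₀ r (h4.trans hr) _ _ hp2 (Or.inl hn) ?_⟩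
  calc ‖P ω‖ * r ^ 2 ≤ 1 / p ^ 2 * (2 * p ^ 2) := by gcongr; linarith
    _ = 2 := by field_simp
    _ < 3 := by norm_num

theorem tendsto_al' {Λ₂ : ℝ} (hΛ : 0 ≤ Λ₂) :
    Tendsto (fun r => al Λ₂ r - r / √2) atTop (𝓝 0) := by
  have h2 : (0 : ℝ) < √2 := by positivity
  have h3 : √2 ^ 2 = (2 : ℝ) := Real.sq_sqrt (by norm_num)
  have h4 : √2 ≤ (2 : ℝ) := by nlinarith
  refine Metric.tendsto_nhds.mpr fun ε hε => ?_
  filter_upwards [ev_log Λ₂ 4 (show 0 < ε / 4 by positivity), eventually_ge_atTop 1] with r h1 hr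
  have hl : Real.log (r ^ 2) = 2 * Real.log r := by rw [Real.log_pow]; norm_num
  have hl0 : 0 ≤ Real.log r := Real.log_nonneg hr
  have e := al_sq hΛ hr
  rw [hl] at e
  have e2 : (r / √2) ^ 2 = r ^ 2 / 2 := by rw [div_pow, h3]
  have h5 : r / 2 ≤ r / √2 := by gcongr
  have h0 : 0 ≤ al Λ₂ r := Real.sqrt_nonneg _
  have h6 : r / √2 ≤ al Λ₂ r := (sq_le_sq₀ (by positivity) h0).mp (by linarith)
  rw [Real.dist_eq, sub_zero, abs_of_nonneg (by linarith)]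
  by_contra hn
  have h7 : r / √2 + ε ≤ al Λ₂ r := by linarith
  have h8 : (r / √2 + ε) ^ 2 ≤ al Λ₂ r ^ 2 := by gcongr
  nlinarith [mul_le_mul_of_nonneg_left h5 hε.le, mul_pos hε (show 0 < r by linarith)]

theorem gauss_int (a : ℝ) {B : ℝ} (hB : 0 < B) :
    ∫ s : ℝ, Complex.exp (-(((s / √2 : ℝ) : ℂ) + Complex.I * a / 2) ^ 2 / B) *
      Complex.exp (Complex.I * a * (s / √2 : ℝ) / 2) =
      ((√2 * √(Real.pi * B) * Real.exp (a ^ 2 / 4 - a ^ 2 * B / 16) : ℝ) : ℂ) := by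
  have h2 : ((√2 : ℝ) : ℂ) ≠ 0 := by exact_mod_cast (show (0 : ℝ) < √2 by positivity).ne'
  have h3 : ((√2 : ℝ) : ℂ) ^ 2 = 2 := by exact_mod_cast Real.sq_sqrt (show (0 : ℝ) ≤ 2 by norm_num)
  have hB' : (B : ℂ) ≠ 0 := by exact_mod_cast hB.ne'
  have key := integral_cexp_quadratic (b := ((-(1 / (2 * B)) : ℝ) : ℂ))
    (by rw [Complex.ofReal_re]; have : 0 < 1 / (2 * B) := by positivity
        linarith)
    (Complex.I * a * (1 / 2 - 1 / B) / (√2 : ℝ)) ((a : ℂ) ^ 2 / (4 * B))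
  have e1 : ∀ s : ℝ, Complex.exp (-(((s / √2 : ℝ) : ℂ) + Complex.I * a / 2) ^ 2 / B) *
      Complex.exp (Complex.I * a * (s / √2 : ℝ) / 2) =
      Complex.exp (((-(1 / (2 * B)) : ℝ) : ℂ) * (s : ℂ) ^ 2 +
        Complex.I * a * (1 / 2 - 1 / B) / (√2 : ℝ) * s + (a : ℂ) ^ 2 / (4 * B)) := by
    intro s
    rw [← Complex.exp_add]
    congr 1
    push_cast
    have e : ((s : ℂ) / (√2 : ℝ) + Complex.I * a / 2) ^ 2 =
        (s : ℂ) ^ 2 / 2 + Complex.I * a * s / (√2 : ℝ) - (a : ℂ) ^ 2 / 4 := by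
      rw [add_sq, div_pow, h3, div_pow, mul_pow, Complex.I_sq]
      ring
    rw [e]
    field_simp
    ring
  simp_rw [e1]
  rw [key]
  have e2 : ((Real.pi : ℂ) / -((-(1 / (2 * B)) : ℝ) : ℂ)) ^ (1 / 2 : ℂ) =
      ((√2 * √(Real.pi * B) : ℝ) : ℂ) := by
    have : ((Real.pi : ℂ) / -((-(1 / (2 * B)) : ℝ) : ℂ)) = ((2 * (Real.pi * B) : ℝ) : ℂ) := by
      push_cast
      field_simp
    rw [this, ← Real.sqrt_mul (by norm_num), Real.sqrt_eq_rpow,
      Complex.ofReal_cpow (by have := Real.pi_pos; positivity)]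
    norm_num
  have e3 : (a : ℂ) ^ 2 / (4 * B) - (Complex.I * a * (1 / 2 - 1 / B) / (√2 : ℝ)) ^ 2 /
      (4 * ((-(1 / (2 * B)) : ℝ) : ℂ)) = ((a ^ 2 / 4 - a ^ 2 * B / 16 : ℝ) : ℂ) := by
    rw [div_pow, h3, mul_pow, mul_pow, Complex.I_sq]
    push_cast
    field_simp
    ring
  rw [e2, e3, ← Complex.ofReal_exp, ← Complex.ofReal_mul]

end

end Su

open Su

theorem lend_proof : LEndStmt := by
  intro R₀ Λ Y sig P κ₀ Λ₂ κ₁ B h _ _ hL hΛ₂ hκ₁ hκ hB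
  have hgood := lost_good (R₀ := R₀) (Λ := Λ) hL hκ₁ hκ
  have h1 := csum_approx (P := P) h hΛ₂ hκ₁ hB (fun j _ => √((j : ℝ) / 2 - 6 * Real.log j)) (by
    filter_upwards [hgood] with N hN j hj
    obtain ⟨g1, g2, g3⟩ := hN j hj
    refine ⟨continuousOn_const, fun r hr => ⟨Real.sqrt_nonneg _, Real.sqrt_le_sqrt ?_, g3 r hr⟩⟩
    have l1 : 0 ≤ Real.log j := Real.log_nonneg g1
    have l2 : 0 ≤ Real.log ((j : ℝ) + 1) := Real.log_nonneg (by linarith)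
    rw [Real.sq_sqrt (by positivity)]
    linarith)
  obtain ⟨C, hC0, hC⟩ := exists_bound h
  have h2 : Tendsto (fun N : ℕ => ∑ j ∈ Finset.Ico N (16 * N), ∫ r in √(j : ℝ)..√((j : ℝ) + 1),
      QX Y P B √(2 * (N : ℝ)) (κ₁ * √(N : ℝ) / 2) r √((j : ℝ) / 2 - 6 * Real.log j)) atTop
      (𝓝 0) := by
    refine squeeze_zero_norm' ?_ (tendsto_const_div_atTop_nhds_zero_nat (16 * κ₁ * C))
    filter_upwards [hgood, eventually_ge_atTop 1] with N hN hN1
    have hN2 : (1 : ℝ) ≤ N := by exact_mod_cast hN1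
    have hs : √(N : ℝ) ≤ N := by rw [Real.sqrt_le_left (by positivity)]; nlinarith
    refine (norm_sum_le _ _).trans ((Finset.sum_le_card_nsmul _ _
      (κ₁ * C / (N : ℝ) ^ 2) fun j hj => ?_).trans ?_)
    · obtain ⟨hj1, -⟩ := Finset.mem_Ico.mp hj
      obtain ⟨g1, g2, g3⟩ := hN j hj1
      obtain ⟨s1, s2⟩ := sqrt_step j
      have hj2 : (N : ℝ) ≤ j := by exact_mod_cast hj1
      have hH : 0 ≤ κ₁ * √(N : ℝ) / 2 := by positivity
      refine (intervalIntegral.norm_integral_le_of_norm_le_const (C := κ₁ * C / (N : ℝ) ^ 2)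
        fun r hr => ?_).trans ?_
      · rw [uIoc_of_le s1] at hr
        have hr' := Ioc_subset_Icc_self hr
        have b1 : ‖∫ β in (-(κ₁ * √(N : ℝ) / 2))..(κ₁ * √(N : ℝ) / 2), GG Y P B √(2 * (N : ℝ)) r
            (pt √((j : ℝ) / 2 - 6 * Real.log j) β)‖ ≤
            C * Real.exp ((j : ℝ) / 4 - 3 * Real.log j) * (κ₁ * N) := by
          refine (intervalIntegral.norm_integral_le_of_norm_le_const
            (C := C * Real.exp ((j : ℝ) / 4 - 3 * Real.log j)) fun β hβ => ?_).trans ?_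
          · rw [uIoc_of_le (by linarith)] at hβ
            rw [GG, norm_mul]
            gcongr
            · exact hC P _ _ (g3 r hr' _ le_rfl β (Ioc_subset_Icc_self hβ))
            · refine (norm_ker_le' hB _ _ β).trans (Real.exp_le_exp.mpr ?_)
              rw [Real.sq_sqrt (by linarith)]
              nlinarith [sq_nonneg β]
          · rw [abs_of_nonneg (by linarith)]
            gcongr
            nlinarith
        have e : Real.exp (-(j : ℝ) / 4) * Real.exp ((j : ℝ) / 4 - 3 * Real.log j) =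
            1 / (j : ℝ) ^ 3 := by
          rw [← Real.exp_add, show -(j : ℝ) / 4 + ((j : ℝ) / 4 - 3 * Real.log j) =
            -((3 : ℕ) * Real.log j) by push_cast; ring, Real.exp_neg, Real.exp_nat_mul,
            Real.exp_log (by linarith), one_div]
        unfold QX
        rw [norm_mul]
        calc _ ≤ Real.exp (-(j : ℝ) / 4) *
              (C * Real.exp ((j : ℝ) / 4 - 3 * Real.log j) * (κ₁ * N)) := by
              gcongr
              exact exp_le_of hr'.1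
          _ = C * (κ₁ * N) * (1 / (j : ℝ) ^ 3) := by rw [← e]; ring
          _ ≤ C * (κ₁ * N) * (1 / (N : ℝ) ^ 3) := by gcongr
          _ = _ := by field_simp
      · rw [abs_of_nonneg (by linarith)]
        exact mul_le_of_le_one_right (by positivity) s2
    · rw [Nat.card_Ico, nsmul_eq_mul]
      have h1 : ((16 * N - N : ℕ) : ℝ) ≤ 16 * N := by exact_mod_cast Nat.sub_le _ _
      calc ((16 * N - N : ℕ) : ℝ) * (κ₁ * C / (N : ℝ) ^ 2)
          ≤ 16 * N * (κ₁ * C / (N : ℝ) ^ 2) := by gcongr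
        _ = _ := by field_simp
  simpa using h1.add h2

theorem tsum_proof : TSumStmt := by
  intro R₀ Λ Y sig P κ₀ a k h _ _ hT
  refine ⟨2 * Λ + 4 + |k|, fun Λ₂ κ₁ B I₀ hΛ₂ hκ₁ hκ hB hJ => ?_⟩
  have hΛ : 0 ≤ Λ := zero_le_one.trans h.one_le
  have hΛ0 : 0 ≤ Λ₂ := le_trans (by positivity) hΛ₂
  have hB0 : 0 < B := by linarith
  have hgood := tied_good (R₀ := R₀) hΛ hT hκ₁ hκ hΛ₂
  have hcont : ∀ {r₁ r₂ : ℝ}, 0 < r₁ → ContinuousOn (al Λ₂) (Icc r₁ r₂) := by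
    intro r₁ r₂ h1
    refine Real.continuous_sqrt.comp_continuousOn (ContinuousOn.add (ContinuousOn.add
      (by fun_prop) (continuousOn_const.mul (ContinuousOn.log (by fun_prop) fun r hr => ?_)))
      continuousOn_const)
    exact pow_ne_zero 2 (h1.trans_le hr.1).ne'
  have h1 := csum_approx (P := P) h hΛ0 hκ₁ hB (fun _ r => al Λ₂ r) (by
    filter_upwards [hgood] with N hN j hj
    have hNj : √(N : ℝ) ≤ √(j : ℝ) := Real.sqrt_le_sqrt (by exact_mod_cast hj)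
    exact ⟨hcont (by linarith [hN.1]), fun r hr => ⟨Real.sqrt_nonneg _,
      al_mono _ (by linarith [hN.1, hr.1]) hr.2, hN.2 r (hNj.trans hr.1)⟩⟩)
  have hint : ∀ᶠ N : ℕ in atTop, ∀ r₁ r₂, √(N : ℝ) ≤ r₁ → r₁ ≤ r₂ →
      IntervalIntegrable (QQ Y P Λ₂ κ₁ B N) volume r₁ r₂ := by
    filter_upwards [hgood] with N hN r₁ r₂ g1 g2
    exact QX_integrable h B _ g2 (by positivity) (hcont (by linarith [hN.1]))
      fun r hr β hβ => hN.2 r (g1.trans hr.1) _ le_rfl β hβ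
  set ph : ℕ → ℂ := fun N => Complex.exp (-(Complex.I * a * √(2 * (N : ℝ)) / 2)) with hph
  have hph1 : ∀ N, ‖ph N‖ = 1 := fun N => by simp [hph, Complex.norm_exp]
  set F : ℕ → ℝ → ℂ := fun N s => (Ioc √(N : ℝ) (4 * √(N : ℝ))).indicator
    (QQ Y P Λ₂ κ₁ B N) (2 * √(N : ℝ) + s) * ph N with hF
  have h2 : ∀ᶠ N : ℕ in atTop, (∑ j ∈ Finset.Ico N (16 * N), ∫ r in √(j : ℝ)..√((j : ℝ) + 1),
      QX Y P B √(2 * (N : ℝ)) (κ₁ * √(N : ℝ) / 2) r (al Λ₂ r)) * ph N = ∫ s, F N s := by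
    filter_upwards [hint] with N hN
    have := intervalIntegral.sum_integral_adjacent_intervals_Ico (μ := volume)
      (f := QQ Y P Λ₂ κ₁ B N) (a := fun j : ℕ => √(j : ℝ)) (show N ≤ 16 * N by omega)
      fun j hj => hN _ _ (Real.sqrt_le_sqrt (by exact_mod_cast hj.1))
        (Real.sqrt_le_sqrt (by push_cast; linarith))
    have e : √((16 * N : ℕ) : ℝ) = 4 * √(N : ℝ) := by
      rw [Nat.cast_mul, Real.sqrt_mul (by positivity), show ((16 : ℕ) : ℝ) = 4 ^ 2 by norm_num,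
        Real.sqrt_sq (by norm_num)]
    simp only [Nat.cast_succ, e] at this
    simp only [hF]
    rw [integral_mul_const, integral_add_left_eq_self, integral_indicator measurableSet_Ioc,
      ← intervalIntegral.integral_of_le (by linarith [Real.sqrt_nonneg (N : ℝ)]), ← this]
    rfl
  have h22 : (0 : ℝ) < √2 := by positivity
  have hd : ∀ (N : ℕ) (s : ℝ), al Λ₂ (2 * √(N : ℝ) + s) - √(2 * (N : ℝ)) =
      s / √2 + (al Λ₂ (2 * √(N : ℝ) + s) - (2 * √(N : ℝ) + s) / √2) := by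
    intro N s
    have : 2 * √(N : ℝ) / √2 = √(2 * (N : ℝ)) := by
      rw [Real.sqrt_mul (by norm_num), div_eq_iff h22.ne']
      linear_combination (-√(N : ℝ)) * Real.mul_self_sqrt (show (0 : ℝ) ≤ 2 by norm_num)
    rw [add_div, this]
    ring
  obtain ⟨⟨C, hC⟩, hlim⟩ := hJ
  set L : ℂ := 4 * Real.pi * √2 * Real.exp (k / 2 - a ^ 2 / 8) * I₀ with hL
  have hsq : Tendsto (fun N : ℕ => √(N : ℝ)) atTop atTop :=
    Real.tendsto_sqrt_atTop.comp tendsto_natCast_atTop_atTop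
  have h3 : Tendsto (fun N => ∫ s, F N s) atTop (𝓝 (∫ s : ℝ, L *
      (Complex.exp (-(((s / √2 : ℝ) : ℂ) + Complex.I * a / 2) ^ 2 / B) *
        Complex.exp (Complex.I * a * (s / √2 : ℝ) / 2)))) := by
    obtain ⟨r₁, hr₁⟩ := eventually_atTop.mp
      ((tendsto_al' hΛ0).eventually (Metric.closedBall_mem_nhds _ one_pos))
    refine tendsto_integral_filter_of_dominated_convergence
      (fun s => |C| * Real.exp (1 / B) * Real.exp (-(1 / (4 * B)) * s ^ 2)) ?_ ?_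
      ((integrable_exp_neg_mul_sq (by positivity)).const_mul _) (Eventually.of_forall fun s => ?_)
    · filter_upwards [hint] with N hN
      have := (hN _ (4 * √(N : ℝ)) le_rfl (by linarith [Real.sqrt_nonneg (N : ℝ)])).1
      exact ((((integrable_indicator_iff measurableSet_Ioc).mpr this).comp_add_left _).mul_const
        _).aestronglyMeasurable
    · filter_upwards [hC, hsq.eventually (eventually_ge_atTop r₁)] with N hN hN1
      refine Eventually.of_forall fun s => ?_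
      simp only [hF]
      rw [norm_mul, hph1, mul_one]
      by_cases hs : 2 * √(N : ℝ) + s ∈ Ioc √(N : ℝ) (4 * √(N : ℝ))
      · rw [indicator_of_mem hs]
        refine (hN _ (Ioc_subset_Icc_self hs)).trans ?_
        have g1 := hr₁ _ (hN1.trans hs.1.le)
        rw [Real.dist_eq, sub_zero] at g1
        rw [hd, mul_assoc, ← Real.exp_add]
        set e := al Λ₂ (2 * √(N : ℝ) + s) - (2 * √(N : ℝ) + s) / √2
        have g2 : e ^ 2 ≤ 1 := by rw [← sq_abs]; exact pow_le_one₀ (abs_nonneg _) g1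
        have g3 : (s / √2) ^ 2 = s ^ 2 / 2 := by rw [div_pow, Real.sq_sqrt (by norm_num)]
        have g4 : -(s / √2 + e) ^ 2 / B ≤ 1 / B + -(1 / (4 * B)) * s ^ 2 := by
          rw [show 1 / B + -(1 / (4 * B)) * s ^ 2 = (1 - s ^ 2 / 4) / B by field_simp; ring]
          gcongr
          nlinarith [sq_nonneg (s / √2 + 2 * e)]
        gcongr
        exact le_abs_self C
      · rw [indicator_of_notMem hs, norm_zero]
        positivity
    · have t1 : Tendsto (fun N : ℕ => 2 * √(N : ℝ) + s) atTop atTop :=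
        tendsto_atTop_add_const_right _ _ (hsq.const_mul_atTop two_pos)
      have t2 : Tendsto (fun N : ℕ => al Λ₂ (2 * √(N : ℝ) + s) - √(2 * (N : ℝ))) atTop
          (𝓝 (s / √2)) := by
        simp_rw [hd]
        simpa using ((tendsto_al' hΛ0).comp t1).const_add (s / √2)
      have t3 : Tendsto (fun N : ℕ => Complex.exp (Complex.I * a *
          (al Λ₂ (2 * √(N : ℝ) + s) - √(2 * (N : ℝ)) : ℝ) / 2)) atTop
          (𝓝 (Complex.exp (Complex.I * a * (s / √2 : ℝ) / 2))) :=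
        ((show Continuous fun d : ℝ => Complex.exp (Complex.I * a * d / 2) by
          fun_prop).tendsto _).comp t2
      have t4 := (hlim _ _ t1 t2).mul t3
      rw [mul_assoc] at t4
      refine t4.congr' ?_
      filter_upwards [hsq.eventually (eventually_gt_atTop |s|)] with N hN
      have hs : 2 * √(N : ℝ) + s ∈ Ioc √(N : ℝ) (4 * √(N : ℝ)) := by
        have := abs_lt.mp hN
        constructor <;> linarith [Real.sqrt_nonneg (N : ℝ)]
      simp only [hF, hph]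
      rw [indicator_of_mem hs, mul_assoc, ← Complex.exp_add]
      congr 2
      push_cast
      ring
  rw [integral_const_mul, gauss_int a hB0] at h3
  have h4 : Tendsto (fun N : ℕ => (cSum Λ₂ κ₁ B (endJ Y P Λ₂) N - ∑ j ∈ Finset.Ico N (16 * N),
      ∫ r in √(j : ℝ)..√((j : ℝ) + 1),
        QX Y P B √(2 * (N : ℝ)) (κ₁ * √(N : ℝ) / 2) r (al Λ₂ r)) * ph N) atTop (𝓝 0) := by
    rw [tendsto_zero_iff_norm_tendsto_zero] at h1 ⊢
    simpa only [norm_mul, hph1, mul_one] using h1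
  have h5 := h4.add h3
  rw [zero_add] at h5
  have e : L * ((√2 * √(Real.pi * B) * Real.exp (a ^ 2 / 4 - a ^ 2 * B / 16) : ℝ) : ℂ) =
      (8 * Real.pi * √(Real.pi * B) * Real.exp (k / 2 + a ^ 2 / 8 - a ^ 2 * B / 16) : ℝ) * I₀ := by
    have e1 : 4 * Real.pi * √2 * Real.exp (k / 2 - a ^ 2 / 8) *
        (√2 * √(Real.pi * B) * Real.exp (a ^ 2 / 4 - a ^ 2 * B / 16)) =
        8 * Real.pi * √(Real.pi * B) * Real.exp (k / 2 + a ^ 2 / 8 - a ^ 2 * B / 16) := by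
      rw [show k / 2 + a ^ 2 / 8 - a ^ 2 * B / 16 =
        (k / 2 - a ^ 2 / 8) + (a ^ 2 / 4 - a ^ 2 * B / 16) by ring, Real.exp_add]
      have := Real.mul_self_sqrt (show (0 : ℝ) ≤ 2 by norm_num)
      linear_combination (4 * Real.pi * Real.exp (k / 2 - a ^ 2 / 8) * √(Real.pi * B) *
        Real.exp (a ^ 2 / 4 - a ^ 2 * B / 16)) * this
    rw [← e1, hL]
    push_cast
    ring
  rw [e] at h5
  refine h5.congr' ?_
  filter_upwards [h2] with N hN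
  rw [← hN]
  ring

end Vale.Agent.P218F.K
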