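import Vale.Agent.P218F.KBasic

/-! Block K: the expansion of an exponentially convergent family in the end parameters. -/

open Filter Topology Set Metric

noncomputable section

namespace Vale.Agent.P218F.K.TA

open Vale.Agent.P281

variable {ι κ : Type} [Fintype ι] [Fintype κ] {r₀ Λ R₀ : ℝ}

theorem mem_Om (hB : Big Λ R₀) {R : ℝ} (hR : R₀ ≤ R) {c : ℂ} (h : ‖c‖ * R ^ 2 ≤ 3 / 2) :
    c ∈ Om Λ 3 R := hB.mem_Om (by linarith) (by norm_num) hR h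

omit [Fintype ι] [Fintype κ] in
theorem Dom_nest (hB : Big Λ R₀) {s R : ℝ} (hs : R₀ ≤ s) (hR : s ≤ R) {x : ι ⊕ κ → ℂ}
    (h : x ∈ Dom ι κ r₀ Λ R) : x ∈ Dom ι κ r₀ Λ s := hB.nest_Dom hs hR h

theorem differentiable_sc : Differentiable ℂ fun p : (ι ⊕ κ → ℂ) × ℂ => sc p.2 p.1 := by
  refine differentiable_pi.2 fun j => ?_
  rcases j with j | j
  · simp only [sc, Sum.elim_inl]; fun_prop
  · simp only [sc, Sum.elim_inr]; fun_prop

omit [Fintype ι] [Fintype κ] in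
theorem sc_one (x : ι ⊕ κ → ℂ) : sc 1 x = x := by
  funext j; rcases j with j | j <;> simp [sc]

omit [Fintype ι] [Fintype κ] in
theorem sc_sc (e e' : ℂ) (x : ι ⊕ κ → ℂ) : sc e' (sc e x) = sc (e * e') x := by
  funext j; rcases j with j | j
  · simp [sc]
  · simp only [sc, Sum.elim_inr]; ring

omit [Fintype ι] in
theorem sc_mem (hB : Big Λ R₀) {R q : ℝ} (hR : R₀ ≤ R) {x : ι ⊕ κ → ℂ} (hx : x ∈ St ι κ r₀)
    (hq : ‖cp x‖ ≤ q) {e : ℂ} (he : ‖e‖ * (q * R ^ 2) ≤ 3 / 2) : sc e x ∈ Dom ι κ r₀ Λ R := by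
  refine ⟨hx, fun i => mem_Om hB hR ?_⟩
  have h1 : ‖x (Sum.inr i)‖ ≤ q := (norm_le_pi_norm (cp x) i).trans hq
  simp only [sc, Sum.elim_inr, norm_mul]
  calc ‖e‖ * ‖x (Sum.inr i)‖ * R ^ 2 ≤ ‖e‖ * q * R ^ 2 := by gcongr
    _ ≤ 3 / 2 := by rw [mul_assoc]; exact he

/-- the Taylor coefficients at the origin -/
def co (g : ℂ → ℂ) (n : ℕ) : ℂ := (n.factorial : ℂ)⁻¹ * iteratedDeriv n g 0

theorem norm_co_le {g : ℂ → ℂ} {a C : ℝ} (ha : 0 < a) (hg : DifferentiableOn ℂ g (ball 0 (3 / 2 * a⁻¹)))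
    (hC : ∀ z ∈ ball (0 : ℂ) (3 / 2 * a⁻¹), ‖g z‖ ≤ C) (n : ℕ) : ‖co g n‖ ≤ C * a ^ n := by
  have hi : 0 < a⁻¹ := inv_pos.2 ha
  have hs : closedBall (0 : ℂ) a⁻¹ ⊆ ball 0 (3 / 2 * a⁻¹) := closedBall_subset_ball (by linarith)
  have h := Complex.norm_iteratedDeriv_le_of_forall_mem_sphere_norm_le n hi
    (hg.diffContOnCl_ball hs) fun z hz => hC z (hs (sphere_subset_closedBall hz))
  have hn : (0 : ℝ) < n.factorial := by positivity
  rw [co, norm_mul, norm_inv, Complex.norm_natCast, inv_mul_le_iff₀ hn]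
  refine h.trans (le_of_eq ?_)
  rw [inv_pow]; field_simp

theorem norm_sub_sum_co_le {g : ℂ → ℂ} {a C : ℝ} (ha : 0 < a) (ha' : a ≤ 1 / 2)
    (hg : DifferentiableOn ℂ g (ball 0 (3 / 2 * a⁻¹)))
    (hC : ∀ z ∈ ball (0 : ℂ) (3 / 2 * a⁻¹), ‖g z‖ ≤ C) (N : ℕ) :
    ‖g 1 - ∑ n ∈ Finset.range N, co g n‖ ≤ 2 * C * a ^ N := by
  have h2 : 2 ≤ a⁻¹ := by rw [le_inv_comm₀ two_pos ha]; linarith
  have h1 : (1 : ℂ) ∈ ball (0 : ℂ) (3 / 2 * a⁻¹) := by
    rw [mem_ball_zero_iff, norm_one]; linarith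
  have hs : HasSum (co g) (g 1) := by
    have := Complex.hasSum_taylorSeries_on_ball hg h1
    simp only [sub_zero, one_pow, smul_eq_mul, one_mul] at this
    exact this
  have h := norm_sub_le_of_geometric_bound_of_hasSum (by linarith : a < 1) (norm_co_le ha hg hC) hs N
  have hC0 : 0 ≤ C := (norm_nonneg _).trans (hC 1 h1)
  rw [norm_sub_rev]
  refine h.trans ?_
  rw [div_le_iff₀ (by linarith)]
  have : 0 ≤ C * a ^ N := by positivity
  nlinarith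

theorem iteratedDeriv_mul_arg {g : ℂ → ℂ} (hg : AnalyticAt ℂ g 0) (e : ℂ) (n : ℕ) :
    ∀ᶠ z in 𝓝 (0 : ℂ), iteratedDeriv n (fun z => g (e * z)) z = e ^ n * iteratedDeriv n g (e * z) := by
  have ht : Tendsto (fun z : ℂ => e * z) (𝓝 0) (𝓝 0) := by
    have : Continuous fun z : ℂ => e * z := by fun_prop
    simpa using this.tendsto 0
  induction n with
  | zero => simp
  | succ n ih =>
    have h1 : AnalyticAt ℂ (iteratedDeriv n g) 0 := by
      rw [iteratedDeriv_eq_iterate]; exact hg.iterated_deriv n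
    filter_upwards [ih.eventually_nhds, ht.eventually h1.eventually_analyticAt] with z h2 h3
    rw [iteratedDeriv_succ, iteratedDeriv_succ, EventuallyEq.deriv_eq h2]
    have h4 := (h3.differentiableAt.hasDerivAt.comp z ((hasDerivAt_id z).const_mul e)).const_mul
      (e ^ n)
    refine h4.deriv.trans ?_
    ring

theorem co_mul_arg {g : ℂ → ℂ} (hg : AnalyticAt ℂ g 0) (e : ℂ) (n : ℕ) :
    co (fun z => g (e * z)) n = e ^ n * co g n := by
  rw [co, co, (iteratedDeriv_mul_arg hg e n).self_of_nhds, mul_zero]; ring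

theorem co_im {g : ℂ → ℂ} (hg : AnalyticAt ℂ g 0) (h : ∀ᶠ t : ℝ in 𝓝 0, (g t).im = 0) (n : ℕ) :
    (co g n).im = 0 := by
  have ht : Tendsto (fun t : ℝ => (t : ℂ)) (𝓝 0) (𝓝 0) := by
    simpa using Complex.continuous_ofReal.tendsto 0
  have key : ∀ᶠ t : ℝ in 𝓝 0, (iteratedDeriv n g t).im = 0 := by
    induction n with
    | zero => simpa using h
    | succ n ih =>
      have h1 : AnalyticAt ℂ (iteratedDeriv n g) 0 := by
        rw [iteratedDeriv_eq_iterate]; exact hg.iterated_deriv n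
      filter_upwards [ih.eventually_nhds, ht.eventually h1.eventually_analyticAt] with t h2 h3
      have h4 := Complex.imCLM.hasFDerivAt.comp_hasDerivAt t
        h3.differentiableAt.hasDerivAt.comp_ofReal
      rw [iteratedDeriv_succ]
      exact h4.unique ((hasDerivAt_const t (0 : ℝ)).congr_of_eventuallyEq h2)
  have h1 := key.self_of_nhds
  rw [Complex.ofReal_zero] at h1
  rw [co, ← Complex.ofReal_natCast, ← Complex.ofReal_inv, Complex.im_ofReal_mul, h1, mul_zero]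

theorem co_sub {g g' : ℂ → ℂ} (hg : AnalyticAt ℂ g 0) (hg' : AnalyticAt ℂ g' 0) (n : ℕ) :
    co (fun z => g z - g' z) n = co g n - co g' n := by
  rw [co, co, co, iteratedDeriv_fun_sub hg.contDiffAt hg'.contDiffAt, mul_sub]

theorem hol_iter {E : Type} [NormedAddCommGroup E] [NormedSpace ℂ E] [FiniteDimensional ℂ E]
    {H : E × ℂ → ℂ} {V : Set (E × ℂ)} (hV : IsOpen V) (hH : DifferentiableOn ℂ H V) (n : ℕ) :
    DifferentiableOn ℂ (fun p : E × ℂ => iteratedDeriv n (fun e => H (p.1, e)) p.2) V := by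
  induction n with
  | zero => simpa using hH
  | succ n ih =>
    refine (MF.differentiableOn_fderiv_apply hV ih (0, 1)).congr fun p hp => ?_
    have h1 := ((ih p hp).differentiableAt (hV.mem_nhds hp)).hasFDerivAt.comp_hasDerivAt p.2
      ((hasDerivAt_const p.2 p.1).prodMk (hasDerivAt_id p.2))
    rw [iteratedDeriv_succ]
    exact h1.deriv

theorem hol_tsum {E : Type} [NormedAddCommGroup E] [NormedSpace ℂ E] {f : ℕ → E → ℂ} {x : E}
    {r : ℝ} (hr : 0 < r) {u : ℕ → ℝ} (hu : Summable u)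
    (hf : ∀ m, DifferentiableOn ℂ (f m) (ball x (2 * r)))
    (hb : ∀ m, ∀ y ∈ ball x (2 * r), ‖f m y‖ ≤ u m) :
    DifferentiableAt ℂ (fun y => ∑' m, f m y) x := by
  have hs : ∀ y ∈ ball x r, ball y r ⊆ ball x (2 * r) := fun y hy =>
    ball_subset_ball' (by rw [mem_ball] at hy; linarith)
  exact (hasFDerivAt_tsum_of_isPreconnected (f' := fun m y => fderiv ℂ (f m) y) (hu.div_const r)
    isOpen_ball (convex_ball x r).isPreconnected
    (fun m y hy => ((hf m).differentiableAt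
      (mem_of_superset (ball_mem_nhds y hr) (hs y hy))).hasFDerivAt)
    (fun m y hy => MF.norm_fderiv_le_of_ball hr ((hf m).mono (hs y hy))
      fun z hz => hb m z (hs y hy hz))
    (mem_ball_self hr) (.of_norm_bounded hu fun m => hb m x (mem_ball_self (by linarith)))
    (mem_ball_self hr)).differentiableAt

theorem poly_exp (A : ℕ) : ∃ K : ℝ, 0 ≤ K ∧ ∀ ρ : ℝ, 0 ≤ ρ →
    (ρ + 1) ^ A * Real.exp (-ρ ^ 2 / 4) ≤ K * (Real.exp (-ρ ^ 2 / 5) * Real.exp (-ρ)) := by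
  refine ⟨A.factorial * Real.exp 21, by positivity, fun ρ hρ => ?_⟩
  have h := Real.pow_div_factorial_le_exp (ρ + 1) (by linarith) A
  rw [div_le_iff₀ (by positivity)] at h
  calc _ ≤ Real.exp (ρ + 1) * A.factorial * Real.exp (-ρ ^ 2 / 4) := by gcongr
    _ = A.factorial * Real.exp (ρ + 1 + -ρ ^ 2 / 4) := by rw [Real.exp_add (ρ + 1)]; ring
    _ ≤ A.factorial * Real.exp (21 + (-ρ ^ 2 / 5 + -ρ)) :=
      mul_le_mul_of_nonneg_left (Real.exp_le_exp.2 (by nlinarith [sq_nonneg (ρ - 20)]))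
        (by positivity)
    _ = _ := by rw [Real.exp_add, Real.exp_add]; ring

theorem telescope {a : ℝ → ℂ} {K ρ R : ℝ} (hK : 0 ≤ K) (hρ : 0 ≤ ρ) (hR : ρ ≤ R)
    (h : ∀ s t, ρ ≤ s → s ≤ t → t ≤ s + 1 → t ≤ R →
      ‖a t - a s‖ ≤ K * (Real.exp (-s ^ 2 / 5) * Real.exp (-s))) :
    ‖a R - a ρ‖ ≤ 2 * K * Real.exp (-ρ ^ 2 / 5) := by
  have h1 : ∀ s, ρ ≤ s → K * (Real.exp (-s ^ 2 / 5) * Real.exp (-s)) ≤
      K * Real.exp (-ρ ^ 2 / 5) * Real.exp (-s) := fun s hs => by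
    rw [mul_assoc]
    gcongr
  have he : Real.exp (-1) ≤ 1 / 2 := by
    rw [Real.exp_neg, inv_le_comm₀ (Real.exp_pos 1) (by norm_num)]
    linarith [Real.add_one_le_exp (1 : ℝ)]
  have key : ∀ k : ℕ, ∀ s, ρ ≤ s → s ≤ R → R ≤ s + k →
      ‖a R - a s‖ ≤ 2 * (K * Real.exp (-ρ ^ 2 / 5) * Real.exp (-s)) := by
    intro k
    induction k with
    | zero =>
      intro s _ h2 h3
      obtain rfl : s = R := le_antisymm h2 (by simpa using h3)
      rw [sub_self, norm_zero]; positivity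
    | succ k ih =>
      intro s hs h2 h3
      have h0 : 0 ≤ K * Real.exp (-ρ ^ 2 / 5) * Real.exp (-s) := by positivity
      by_cases h4 : R ≤ s + 1
      · linarith [h s R hs h2 h4 le_rfl, h1 s hs]
      · push Not at h4
        have h5 := ih (s + 1) (by linarith) h4.le (by push_cast at h3; linarith)
        have h6 := h s (s + 1) hs (by linarith) le_rfl h4.le
        have h7 := norm_sub_le_norm_sub_add_norm_sub (a R) (a (s + 1)) (a s)
        rw [neg_add, Real.exp_add, ← mul_assoc] at h5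
        nlinarith [h1 s hs]
  have h2 := key ⌈R - ρ⌉₊ ρ le_rfl hR (by linarith [Nat.le_ceil (R - ρ)])
  have h3 : Real.exp (-ρ) ≤ 1 := Real.exp_le_one_iff.2 (by linarith)
  have h4 : 0 ≤ K * Real.exp (-ρ ^ 2 / 5) := by positivity
  nlinarith

theorem exp_le_pow (M : ℕ) : ∃ K : ℝ, 0 ≤ K ∧ ∀ q ρ : ℝ, 0 < q → q * ρ ^ 4 = 1 →
    Real.exp (-ρ ^ 2 / 5) ≤ K * q ^ M := by
  refine ⟨(2 * M).factorial * 5 ^ (2 * M), by positivity, fun q ρ hq h => ?_⟩
  have h1 := Real.pow_div_factorial_le_exp (ρ ^ 2 / 5) (by positivity) (2 * M)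
  rw [div_le_iff₀ (by positivity)] at h1
  have h2 : (ρ ^ 2 / 5) ^ (2 * M) * (5 ^ (2 * M) * q ^ M) = 1 := by
    rw [div_pow, ← pow_mul, show 2 * (2 * M) = 4 * M by ring, pow_mul ρ]
    field_simp
    rw [← mul_pow, mul_comm, h, one_pow]
  rw [neg_div, Real.exp_neg, inv_le_iff_one_le_mul₀ (Real.exp_pos _), ← h2]
  calc _ ≤ Real.exp (ρ ^ 2 / 5) * (2 * M).factorial * (5 ^ (2 * M) * q ^ M) := by gcongr
    _ = _ := by ring

/-- the coefficients of the truncated functions -/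
def PR (F : ℝ → (ι ⊕ κ → ℂ) → ℂ) (R : ℝ) (n : ℕ) (x : ι ⊕ κ → ℂ) : ℂ := co (fun e => F R (sc e x)) n

/-- the limit coefficients -/
def PP (R₀ : ℝ) (F : ℝ → (ι ⊕ κ → ℂ) → ℂ) (n : ℕ) (x : ι ⊕ κ → ℂ) : ℂ :=
  PR F R₀ n x + ∑' m : ℕ, (PR F (R₀ + (m + 1 : ℕ)) n x - PR F (R₀ + m) n x)

section main

variable {F : ℝ → (ι ⊕ κ → ℂ) → ℂ} (hB : Big Λ R₀) (hF : ExpFam r₀ Λ R₀ F)
include hB

omit [Fintype ι] in
theorem ball_mem {R q : ℝ} (hR : R₀ ≤ R) {x : ι ⊕ κ → ℂ} (hx : x ∈ St ι κ r₀) (hq0 : 0 < q)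
    (hq : ‖cp x‖ ≤ q) {e : ℂ} (he : e ∈ ball (0 : ℂ) (3 / 2 * (q * R ^ 2)⁻¹)) :
    sc e x ∈ Dom ι κ r₀ Λ R := by
  have hR0 : 0 < R := by linarith [hB.2.1]
  refine sc_mem hB hR hx hq ?_
  rw [mem_ball_zero_iff, ← div_eq_mul_inv, lt_div_iff₀ (by positivity)] at he
  exact he.le

include hF

theorem hol_line {s R q : ℝ} (hs : R₀ ≤ s) (hR : s ≤ R) {x : ι ⊕ κ → ℂ} (hx : x ∈ St ι κ r₀)
    (hq0 : 0 < q) (hq : ‖cp x‖ ≤ q) :
    DifferentiableOn ℂ (fun e => F s (sc e x)) (ball 0 (3 / 2 * (q * R ^ 2)⁻¹)) := by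
  have hd : Differentiable ℂ fun e : ℂ => sc e x :=
    differentiable_sc.comp (f := fun e => (x, e)) (by fun_prop)
  exact (hF.hol s hs).comp hd.differentiableOn
    fun _ he => Dom_nest hB hs hR (ball_mem hB (hs.trans hR) hx hq0 hq he)

theorem ana_line {R : ℝ} (hR : R₀ ≤ R) {x : ι ⊕ κ → ℂ} (hx : x ∈ St ι κ r₀) :
    AnalyticAt ℂ (fun e => F R (sc e x)) 0 := by
  have hR0 : 0 < R := by linarith [hB.2.1]
  exact (hol_line hB hF hR le_rfl hx (q := ‖cp x‖ + 1) (by positivity) (by linarith)).analyticAt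
    (ball_mem_nhds _ (by positivity))

theorem PR_hol {R : ℝ} (hR : R₀ ≤ R) (n : ℕ) : DifferentiableOn ℂ (PR F R n) (St ι κ r₀) := by
  have h1 := hol_iter (H := fun p : (ι ⊕ κ → ℂ) × ℂ => F R (sc p.2 p.1))
    ((isOpen_Dom r₀ Λ R).preimage differentiable_sc.continuous)
    ((hF.hol R hR).comp differentiable_sc.differentiableOn fun _ hp => hp) n
  exact (h1.comp (differentiable_id.prodMk (differentiable_const (0 : ℂ))).differentiableOn
    fun x hx => sc_mem hB hR hx le_rfl (by rw [norm_zero, zero_mul]; norm_num)).const_mul _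

theorem PR_hom {R : ℝ} (hR : R₀ ≤ R) (n : ℕ) {x : ι ⊕ κ → ℂ} (hx : x ∈ St ι κ r₀) (e : ℂ) :
    PR F R n (sc e x) = e ^ n * PR F R n x := by
  simp only [PR, sc_sc]
  exact co_mul_arg (ana_line hB hF hR hx) e n

omit [Fintype ι] [Fintype κ] in
theorem F_inc : ∃ K : ℝ, 0 ≤ K ∧ ∀ ρ R, R₀ ≤ ρ → ρ ≤ R → ∀ x ∈ Dom ι κ r₀ Λ R,
    ‖F R x - F ρ x‖ ≤ K * Real.exp (-ρ ^ 2 / 5) := by
  obtain ⟨C, A, h⟩ := hF.inc
  obtain ⟨K, hK, hK'⟩ := poly_exp A
  refine ⟨2 * (|C| * K), by positivity, fun ρ R hρ hR x hx => ?_⟩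
  have h0 : 0 ≤ ρ := by linarith [hB.2.1]
  refine telescope (a := fun s => F s x) (by positivity) h0 hR fun s t h1 h2 h3 h4 => ?_
  have hs : 0 ≤ s := h0.trans h1
  have ht := Dom_nest hB (by linarith) h4 hx
  refine (h s t (by linarith) h2 h3 x ht (Dom_nest hB (by linarith) h2 ht)).trans ?_
  calc C * s ^ A * Real.exp (-s ^ 2 / 4) ≤ |C| * (s + 1) ^ A * Real.exp (-s ^ 2 / 4) := by
        gcongr
        · exact le_abs_self C
        · linarith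
    _ ≤ _ := by rw [mul_assoc, mul_assoc]; exact mul_le_mul_of_nonneg_left (hK' s hs) (abs_nonneg C)

theorem PR_inc (n : ℕ) : ∃ K : ℝ, 0 ≤ K ∧ ∀ x ∈ St ι κ r₀, ∀ q, 0 < q → ‖cp x‖ ≤ q → ∀ s t, R₀ ≤ s →
    s ≤ t → t ≤ s + 1 →
      ‖PR F t n x - PR F s n x‖ ≤ K * q ^ n * (Real.exp (-s ^ 2 / 5) * Real.exp (-s)) := by
  obtain ⟨C, A, h⟩ := hF.inc
  obtain ⟨K, hK, hK'⟩ := poly_exp (A + 2 * n)
  refine ⟨|C| * K, by positivity, fun x hx q hq0 hq s t h1 h2 h3 => ?_⟩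
  have hs : 0 < s := by linarith [hB.2.1]
  have ht : 0 < t := by linarith
  rw [PR, PR, ← co_sub (ana_line hB hF (h1.trans h2) hx) (ana_line hB hF h1 hx)]
  refine (norm_co_le (a := q * t ^ 2) (C := C * s ^ A * Real.exp (-s ^ 2 / 4)) (by positivity)
    ((hol_line hB hF (h1.trans h2) le_rfl hx hq0 hq).sub (hol_line hB hF h1 h2 hx hq0 hq))
    (fun z hz => ?_) n).trans ?_
  · have h4 := ball_mem hB (h1.trans h2) hx hq0 hq hz
    exact h s t h1 h2 h3 _ h4 (Dom_nest hB h1 h2 h4)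
  · calc C * s ^ A * Real.exp (-s ^ 2 / 4) * (q * t ^ 2) ^ n
        ≤ |C| * (s + 1) ^ A * Real.exp (-s ^ 2 / 4) * (q * (s + 1) ^ 2) ^ n := by
          gcongr
          · exact le_abs_self C
          · linarith
      _ = |C| * q ^ n * ((s + 1) ^ (A + 2 * n) * Real.exp (-s ^ 2 / 4)) := by
          rw [mul_pow, ← pow_mul, pow_add]; ring
      _ ≤ |C| * q ^ n * (K * (Real.exp (-s ^ 2 / 5) * Real.exp (-s))) :=
          mul_le_mul_of_nonneg_left (hK' s hs.le) (by positivity)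
      _ = _ := by ring

theorem step_le (n : ℕ) : ∃ K : ℝ, 0 ≤ K ∧ ∀ x ∈ St ι κ r₀, ∀ q, 0 < q → ‖cp x‖ ≤ q → ∀ m : ℕ,
    ‖PR F (R₀ + (m + 1 : ℕ)) n x - PR F (R₀ + m) n x‖ ≤ K * q ^ n * Real.exp (-1) ^ m := by
  obtain ⟨K, hK, h⟩ := PR_inc hB hF n
  refine ⟨K, hK, fun x hx q hq0 hq m => ?_⟩
  have hm : (0 : ℝ) ≤ m := Nat.cast_nonneg m
  refine (h x hx q hq0 hq _ _ (by linarith) (by push_cast; linarith) (by push_cast; linarith)).trans ?_
  rw [← Real.exp_add, ← Real.exp_nat_mul]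
  gcongr
  nlinarith [hB.2.1, sq_nonneg (R₀ + m)]

omit hB hF in
theorem summable_geo (c : ℝ) : Summable fun m : ℕ => c * Real.exp (-1) ^ m :=
  (summable_geometric_of_lt_one (Real.exp_pos _).le (Real.exp_lt_one_iff.2 (by norm_num))).mul_left c

theorem tendsto_PP (n : ℕ) {x : ι ⊕ κ → ℂ} (hx : x ∈ St ι κ r₀) :
    Tendsto (fun m : ℕ => PR F (R₀ + m) n x) atTop (𝓝 (PP R₀ F n x)) := by
  obtain ⟨K, -, h⟩ := step_le hB hF n
  have h1 := (Summable.of_norm_bounded (summable_geo _)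
    (h x hx (‖cp x‖ + 1) (by positivity) (by linarith))).hasSum.tendsto_sum_nat.const_add
      (PR F R₀ n x)
  refine h1.congr fun m => ?_
  rw [Finset.sum_range_sub (fun m : ℕ => PR F (R₀ + m) n x)]
  simp

theorem PP_sub (n : ℕ) : ∃ K : ℝ, 0 ≤ K ∧ ∀ x ∈ St ι κ r₀, ∀ q, 0 < q → ‖cp x‖ ≤ q → ∀ ρ, R₀ ≤ ρ →
    ‖PP R₀ F n x - PR F ρ n x‖ ≤ K * q ^ n * Real.exp (-ρ ^ 2 / 5) := by
  obtain ⟨K, hK, h⟩ := PR_inc hB hF n
  refine ⟨2 * K, by positivity, fun x hx q hq0 hq ρ hρ => ?_⟩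
  refine le_of_tendsto ((tendsto_PP hB hF n hx).sub_const _).norm ?_
  filter_upwards [(tendsto_natCast_atTop_atTop (R := ℝ)).eventually_ge_atTop (ρ - R₀)] with m hm
  have := telescope (a := fun s => PR F s n x) (K := K * q ^ n) (ρ := ρ) (R := R₀ + m)
    (by positivity) (by linarith [hB.2.1]) (by linarith)
    fun s t h1 h2 h3 _ => h x hx q hq0 hq s t (by linarith) h2 h3
  linarith

theorem PP_le (n : ℕ) : ∃ K : ℝ, 0 ≤ K ∧ ∀ x ∈ St ι κ r₀, ∀ q, 0 < q → ‖cp x‖ ≤ q →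
    ‖PP R₀ F n x‖ ≤ K * q ^ n := by
  obtain ⟨K, hK, h⟩ := PP_sub hB hF n
  obtain ⟨C, hC⟩ := hF.bdd
  have hR : 0 < R₀ := by linarith [hB.2.1]
  refine ⟨K + |C| * (R₀ ^ 2) ^ n, by positivity, fun x hx q hq0 hq => ?_⟩
  have h1 := h x hx q hq0 hq R₀ le_rfl
  have h2 : ‖PR F R₀ n x‖ ≤ |C| * (q * R₀ ^ 2) ^ n :=
    norm_co_le (by positivity) (hol_line hB hF le_rfl le_rfl hx hq0 hq)
      (fun z hz => (hC _ le_rfl _ (ball_mem hB le_rfl hx hq0 hq hz)).trans (le_abs_self C)) n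
  have h3 : Real.exp (-R₀ ^ 2 / 5) ≤ 1 := Real.exp_le_one_iff.2 (by nlinarith)
  have h4 := mul_le_of_le_one_right (by positivity : 0 ≤ K * q ^ n) h3
  have h5 := norm_add_le (PP R₀ F n x - PR F R₀ n x) (PR F R₀ n x)
  rw [sub_add_cancel] at h5
  rw [mul_pow] at h2
  linarith

theorem PP_hol (n : ℕ) : DifferentiableOn ℂ (PP R₀ F n) (St ι κ r₀) := by
  refine (PR_hol hB hF le_rfl n).add fun x hx => ?_
  obtain ⟨K, -, h⟩ := step_le hB hF n
  obtain ⟨r, hr, hs⟩ := Metric.isOpen_iff.1 (isOpen_St r₀) x hx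
  have h1 : ball x (2 * (r / 2)) ⊆ St ι κ r₀ := by rw [mul_div_cancel₀ _ two_ne_zero]; exact hs
  refine (hol_tsum (half_pos hr) (summable_geo (K * (‖x‖ + r) ^ n)) (fun m => ?_)
    fun m y hy => h y (h1 hy) _ (by positivity) ?_ m).differentiableWithinAt
  · have hm : (0 : ℝ) ≤ m := Nat.cast_nonneg m
    exact ((PR_hol hB hF (by push_cast; linarith) n).sub (PR_hol hB hF (by linarith) n)).mono h1
  · refine (pi_norm_le_iff_of_nonneg (by positivity)).2 fun i => (norm_le_pi_norm y _).trans ?_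
    rw [mem_ball, dist_eq_norm] at hy
    linarith [norm_sub_norm_le y x]

theorem PP_app (M : ℕ) : ∃ C : ℝ, ∀ R, R₀ ≤ R → ∀ x ∈ Dom ι κ r₀ Λ R, ∀ q, 0 < q → ‖cp x‖ ≤ q →
    q ≤ 1 / 4 → ‖F R x - ∑ n ∈ Finset.range M, PP R₀ F n x‖ ≤ C * (q ^ M + Real.exp (-R ^ 2 / 5)) := by
  obtain ⟨C, hC⟩ := hF.bdd
  obtain ⟨K₀, hK₀, h₀⟩ := F_inc hB hF
  choose K₁ hK₁ h₁ using PP_sub hB hF
  choose K₂ hK₂ h₂ using PP_le hB hF
  obtain ⟨K₃, hK₃, h₃⟩ := exp_le_pow M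
  have hR₀ : 0 < R₀ := by linarith [hB.2.1]
  obtain ⟨S₁, hS₁⟩ : ∃ S, S = ∑ n ∈ Finset.range (2 * M), K₁ n := ⟨_, rfl⟩
  obtain ⟨S₂, hS₂⟩ : ∃ S, S = ∑ n ∈ Finset.range (2 * M), K₂ n := ⟨_, rfl⟩
  have hS₁0 : 0 ≤ S₁ := hS₁ ▸ Finset.sum_nonneg fun n _ => hK₁ n
  have hS₂0 : 0 ≤ S₂ := hS₂ ▸ Finset.sum_nonneg fun n _ => hK₂ n
  refine ⟨(|C| + S₂) * (R₀ ^ 4) ^ M + ((K₀ + S₁) * (K₃ + 1) + 2 * |C| + S₂),
    fun R hR x hx q hq0 hq hq4 => ?_⟩
  have hE := Real.exp_pos (-R ^ 2 / 5)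
  have hQ : 0 < q ^ M := by positivity
  have hsub : Finset.range M ⊆ Finset.range (2 * M) := Finset.range_mono (by omega)
  obtain ⟨ρ₁, hρ₁, hρq⟩ : ∃ ρ₁ : ℝ, 0 < ρ₁ ∧ q * ρ₁ ^ 4 = 1 := by
    refine ⟨√(√q⁻¹), by positivity, ?_⟩
    rw [show 4 = 2 * 2 from rfl, pow_mul, Real.sq_sqrt (Real.sqrt_nonneg _),
      Real.sq_sqrt (by positivity), mul_inv_cancel₀ hq0.ne']
  have hA : 0 ≤ (|C| + S₂) * (R₀ ^ 4) ^ M := by positivity
  have hA' : 0 ≤ (K₀ + S₁) * (K₃ + 1) + 2 * |C| + S₂ := by positivity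
  by_cases hc : ρ₁ < R₀
  · have h4 : 1 ≤ (R₀ ^ 4) ^ M * q ^ M := by
      rw [← mul_pow]
      refine one_le_pow₀ ?_
      rw [← hρq, mul_comm]
      gcongr
    have h5 : ‖∑ n ∈ Finset.range M, PP R₀ F n x‖ ≤ S₂ := by
      refine (norm_sum_le _ _).trans ((Finset.sum_le_sum fun n _ => ?_).trans
        (hS₂ ▸ Finset.sum_le_sum_of_subset_of_nonneg hsub fun n _ _ => hK₂ n))
      simpa using h₂ n x hx.1 1 one_pos (by linarith)
    have h6 := (hC R hR x hx).trans (le_abs_self C)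
    have h7 := norm_sub_le (F R x) (∑ n ∈ Finset.range M, PP R₀ F n x)
    have h8 := mul_le_mul_of_nonneg_left h4 (by positivity : 0 ≤ |C| + S₂)
    nlinarith [mul_nonneg hA hE.le, mul_nonneg hA' hE.le, mul_nonneg hA' hQ.le]
  push Not at hc
  set ρ := min R ρ₁ with hρ
  have hρ0 : R₀ ≤ ρ := le_min hR hc
  have hρp : 0 < ρ := by linarith
  have ha2 : (q * ρ ^ 2) ^ 2 ≤ q := by
    have : ρ ^ 4 ≤ ρ₁ ^ 4 := pow_le_pow_left₀ hρp.le (min_le_right _ _) 4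
    calc (q * ρ ^ 2) ^ 2 = q * (q * ρ ^ 4) := by ring
      _ ≤ q * (q * ρ₁ ^ 4) := by gcongr
      _ = q := by rw [hρq, mul_one]
  have ha : q * ρ ^ 2 ≤ 1 / 2 := by nlinarith
  have hexp : Real.exp (-ρ ^ 2 / 5) ≤ (K₃ + 1) * (q ^ M + Real.exp (-R ^ 2 / 5)) := by
    rcases min_choice R ρ₁ with h | h <;> rw [hρ, h]
    · nlinarith [mul_nonneg hK₃ hE.le, mul_nonneg hK₃ hQ.le]
    · nlinarith [h₃ q ρ₁ hq0 hρq, mul_nonneg hK₃ hE.le]
  have e1 := h₀ ρ R hρ0 (min_le_left _ _) x hx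
  have e2 := norm_sub_sum_co_le (C := |C|) (by positivity) ha
    (hol_line hB hF hρ0 le_rfl hx.1 hq0 hq)
    (fun z hz => (hC _ hρ0 _ (ball_mem hB hρ0 hx.1 hq0 hq hz)).trans (le_abs_self C)) (2 * M)
  rw [sc_one, pow_mul] at e2
  have e2' : ((q * ρ ^ 2) ^ 2) ^ M ≤ q ^ M := pow_le_pow_left₀ (by positivity) ha2 M
  have e3 : ‖∑ n ∈ Finset.range (2 * M), (PP R₀ F n x - PR F ρ n x)‖ ≤
      S₁ * Real.exp (-ρ ^ 2 / 5) := by
    rw [hS₁, Finset.sum_mul]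
    refine (norm_sum_le _ _).trans (Finset.sum_le_sum fun n _ => ?_)
    simpa using h₁ n x hx.1 1 one_pos (by linarith) ρ hρ0
  have e4 : ‖∑ n ∈ Finset.range (2 * M) \ Finset.range M, PP R₀ F n x‖ ≤ S₂ * q ^ M := by
    rw [hS₂, Finset.sum_mul]
    refine (norm_sum_le _ _).trans ((Finset.sum_le_sum fun n hn => ?_).trans
      (Finset.sum_le_sum_of_subset_of_nonneg Finset.sdiff_subset
        fun n _ _ => mul_nonneg (hK₂ n) hQ.le))
    have hn' : M ≤ n := by simpa using (Finset.mem_sdiff.1 hn).2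
    exact (h₂ n x hx.1 q hq0 hq).trans (mul_le_mul_of_nonneg_left
      (pow_le_pow_of_le_one hq0.le (by linarith) hn') (hK₂ n))
  have e5 : F R x - ∑ n ∈ Finset.range M, PP R₀ F n x = (F R x - F ρ x) +
      (F ρ x - ∑ n ∈ Finset.range (2 * M), PR F ρ n x) -
      ∑ n ∈ Finset.range (2 * M), (PP R₀ F n x - PR F ρ n x) +
      ∑ n ∈ Finset.range (2 * M) \ Finset.range M, PP R₀ F n x := by
    rw [Finset.sum_sub_distrib, Finset.sum_sdiff_eq_sub hsub]; ring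
  have e6 : ‖F R x - ∑ n ∈ Finset.range M, PP R₀ F n x‖ ≤
      (K₀ + S₁) * Real.exp (-ρ ^ 2 / 5) + (2 * |C| + S₂) * q ^ M := by
    rw [e5]
    refine (norm_add_le _ _).trans ?_
    refine (add_le_add_left (norm_sub_le _ _) _).trans ?_
    refine (add_le_add_left (add_le_add_left (norm_add_le _ _) _) _).trans ?_
    have := mul_le_mul_of_nonneg_left e2' (by positivity : 0 ≤ 2 * |C|)
    change ‖F ρ x - ∑ n ∈ Finset.range (2 * M), PR F ρ n x‖ ≤ _ at e2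
    linarith
  have e7 := mul_le_mul_of_nonneg_left hexp (by positivity : 0 ≤ K₀ + S₁)
  have e8 : 0 ≤ (2 * |C| + S₂) * Real.exp (-R ^ 2 / 5) := by positivity
  nlinarith [mul_nonneg hA hE.le, mul_nonneg hA hQ.le]

end main

end Vale.Agent.P218F.K.TA

namespace Vale.Agent.P218F.K

open TA in
theorem ta_proof : TAStmt := by
  intro ι κ _ _ r₀ Λ R₀ F hB hF
  refine ⟨PP R₀ F, ⟨PP_hol hB hF, fun n x hx e => ?_, fun M => ?_⟩, fun hre n x hx hxr => ?_⟩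
  · refine tendsto_nhds_unique (tendsto_PP hB hF n (x := sc e x) hx)
      (((tendsto_PP hB hF n hx).const_mul (e ^ n)).congr fun m => ?_)
    exact (PR_hom hB hF (by simp) n hx e).symm
  · obtain ⟨C, hC⟩ := PP_app hB hF M
    refine ⟨C, fun R hR x hx => ?_⟩
    have h4 : 4 ≤ R := hB.2.1.trans hR
    have h1 : ‖cp x‖ < 1 / 4 := by
      refine (pi_norm_lt_iff (by norm_num)).2 fun i => ?_
      have h2 := Om_norm (hx.2 i)
      by_contra h3
      push Not at h3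
      have h5 : (4 : ℝ) ^ 2 ≤ R ^ 2 := by gcongr
      have : 1 / 4 * 4 ^ 2 ≤ ‖x (Sum.inr i)‖ * R ^ 2 := mul_le_mul h3 h5 (by norm_num) (norm_nonneg _)
      linarith
    have ht : Tendsto (fun q : ℝ => C * (q ^ M + Real.exp (-R ^ 2 / 5))) (𝓝[>] ‖cp x‖)
        (𝓝 (C * (‖cp x‖ ^ M + Real.exp (-R ^ 2 / 5)))) :=
      (Continuous.tendsto (by fun_prop) _).mono_left nhdsWithin_le_nhds
    refine ge_of_tendsto ht ?_
    filter_upwards [Ioo_mem_nhdsGT h1] with q hq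
    exact hC R hR x hx q ((norm_nonneg _).trans_lt hq.1) hq.1.le hq.2.le
  · refine tendsto_nhds_unique (Complex.continuous_im.continuousAt.tendsto.comp
      (tendsto_PP hB hF n hx)) (tendsto_const_nhds.congr fun m => ?_)
    have hR : R₀ ≤ R₀ + m := by simp
    refine (co_im (ana_line hB hF hR hx) ?_ n).symm
    have hc : Continuous fun t : ℝ => sc (t : ℂ) x :=
      differentiable_sc.continuous.comp (continuous_const.prodMk Complex.continuous_ofReal)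
    filter_upwards [hc.continuousAt.eventually ((isOpen_Dom _ _ _).mem_nhds
      (sc_mem hB hR hx le_rfl (e := ((0 : ℝ) : ℂ)) (by simp; norm_num)))] with t ht
    refine hre _ hR _ ht fun j => ?_
    rcases j with j | j
    · exact hxr _
    · simp [sc, hxr _]

end Vale.Agent.P218F.K
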