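import Vale.Agent.P218F.KBasic

/-! Block K-WT (helper61): the weight of the error is integrable along the contours. -/

open Filter Topology Set Metric MeasureTheory

namespace Vale.Agent.P218F.K

theorem wt_integral {c : ℝ} (hc : 0 < c) : ∃ C : ℝ, ∀ (j T b₀ : ℝ) (s : ℝ → ℂ), 0 < j → 0 ≤ T →
    (∀ β ∈ Icc (-T) T, c * √j * |β - b₀| ≤ ‖s β‖) →
    (∫ β in (-T)..T, j ^ (1 / 4 : ℝ) * ‖s β‖ ^ (-(1 / 2) : ℝ) * Real.exp (-(3 / 8) * β ^ 2)) ≤
      C := by
  let G : ℝ → ℝ := (ball (0 : ℝ) 1).indicator fun x => ‖x‖ ^ (-(1 / 2) : ℝ)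
  have hG : Integrable G := by
    refine (integrable_indicator_iff measurableSet_ball).2
      (integrableOn_ball_of_norm_le_rpow (C := 1) (α := 1 / 2) (by simp) (by simp; norm_num)
        (Eventually.of_forall fun x => ?_)
        (measurable_norm.pow_const _).aestronglyMeasurable)
    rw [one_mul, Real.norm_of_nonneg (by positivity)]
  have hG0 : ∀ x, 0 ≤ G x := fun x => indicator_nonneg (fun y _ => by positivity) x
  have hE : Integrable fun β : ℝ => Real.exp (-(3 / 8) * β ^ 2) :=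
    integrable_exp_neg_mul_sq (by norm_num)
  refine ⟨c ^ (-(1 / 2) : ℝ) * ((∫ x, G x) + ∫ β : ℝ, Real.exp (-(3 / 8) * β ^ 2)),
    fun j T b₀ s hj hT hs => ?_⟩
  have hI : Integrable fun β => c ^ (-(1 / 2) : ℝ) *
      (G (β - b₀) + Real.exp (-(3 / 8) * β ^ 2)) := ((hG.comp_sub_right b₀).add hE).const_mul _
  refine (Real.le_norm_self _).trans ((intervalIntegral.norm_integral_le_of_norm_le (by linarith)
    ?_ hI.intervalIntegrable).trans ?_)
  · filter_upwards [(Set.countable_singleton b₀).ae_notMem volume] with β hβ hβT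
    have h1 : 0 < |β - b₀| := abs_pos.2 (sub_ne_zero.2 hβ)
    have h2 : ‖s β‖ ^ (-(1 / 2) : ℝ) ≤ (c * √j * |β - b₀|) ^ (-(1 / 2) : ℝ) :=
      Real.rpow_le_rpow_of_nonpos (by positivity) (hs β (Ioc_subset_Icc_self hβT)) (by norm_num)
    have h3 : j ^ (1 / 4 : ℝ) * (c * √j * |β - b₀|) ^ (-(1 / 2) : ℝ) =
        c ^ (-(1 / 2) : ℝ) * |β - b₀| ^ (-(1 / 2) : ℝ) := by
      rw [Real.mul_rpow (by positivity) h1.le, Real.mul_rpow hc.le (by positivity),
        Real.sqrt_eq_rpow, ← Real.rpow_mul hj.le]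
      have : j ^ (1 / 4 : ℝ) * j ^ (1 / 2 * -(1 / 2) : ℝ) = 1 := by
        rw [← Real.rpow_add hj]
        norm_num
      linear_combination (c ^ (-(1 / 2) : ℝ) * |β - b₀| ^ (-(1 / 2) : ℝ)) * this
    have h4 : Real.exp (-(3 / 8) * β ^ 2) ≤ 1 := Real.exp_le_one_iff.2 (by nlinarith [sq_nonneg β])
    have h5 : |β - b₀| ^ (-(1 / 2) : ℝ) * Real.exp (-(3 / 8) * β ^ 2) ≤
        G (β - b₀) + Real.exp (-(3 / 8) * β ^ 2) := by
      by_cases h6 : β - b₀ ∈ ball (0 : ℝ) 1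
      · rw [show G (β - b₀) = |β - b₀| ^ (-(1 / 2) : ℝ) from indicator_of_mem h6 _]
        exact (mul_le_of_le_one_right (by positivity) h4).trans
          (le_add_of_nonneg_right (Real.exp_pos _).le)
      · rw [mem_ball_zero_iff, not_lt, Real.norm_eq_abs] at h6
        exact (mul_le_of_le_one_left (Real.exp_pos _).le
          (Real.rpow_le_one_of_one_le_of_nonpos h6 (by norm_num))).trans
          (le_add_of_nonneg_left (hG0 _))
    rw [Real.norm_of_nonneg (by positivity)]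
    calc _ ≤ j ^ (1 / 4 : ℝ) * (c * √j * |β - b₀|) ^ (-(1 / 2) : ℝ) *
          Real.exp (-(3 / 8) * β ^ 2) := by gcongr
      _ = c ^ (-(1 / 2) : ℝ) * (|β - b₀| ^ (-(1 / 2) : ℝ) * Real.exp (-(3 / 8) * β ^ 2)) := by
          rw [h3, mul_assoc]
      _ ≤ _ := by gcongr
  · rw [intervalIntegral.integral_of_le (by linarith)]
    refine (setIntegral_le_integral hI (Eventually.of_forall fun β => ?_)).trans_eq ?_
    · have := hG0 (β - b₀)
      positivity
    · rw [integral_const_mul, integral_add (hG.comp_sub_right b₀) hE, integral_sub_right_eq_self]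

theorem wt_al (Λ₂ A : ℝ) (h : 0 ≤ Λ₂) : ∀ᶠ j : ℕ in atTop, 0 < (j : ℝ) ∧
    A ≤ al Λ₂ √((j : ℝ) + 1) ∧ (j : ℝ) / 2 ≤ al Λ₂ √((j : ℝ) + 1) ^ 2 ∧
    al Λ₂ √((j : ℝ) + 1) ≤ √(j : ℝ) := by
  have h1 : Tendsto (fun j : ℕ => √((j : ℝ) + 1)) atTop atTop :=
    Real.tendsto_sqrt_atTop.comp (tendsto_atTop_add_const_right _ _ tendsto_natCast_atTop_atTop)
  filter_upwards [h1.eventually (eventually_log_le_sq (Λ₂ / 2) (by norm_num : (0 : ℝ) < 1 / 8)),
    tendsto_natCast_atTop_atTop.eventually (eventually_ge_atTop (max 3 (2 * A ^ 2) : ℝ))]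
    with j h2 h3
  have h4 : 3 ≤ (j : ℝ) := (le_max_left _ _).trans h3
  have h5 : 2 * A ^ 2 ≤ (j : ℝ) := (le_max_right _ _).trans h3
  have h6 : 0 ≤ Real.log ((j : ℝ) + 1) := Real.log_nonneg (by linarith)
  unfold al
  rw [Real.sq_sqrt (by linarith : (0 : ℝ) ≤ j + 1)] at h2 ⊢
  refine ⟨by linarith, Real.le_sqrt_of_sq_le (by linarith), ?_, Real.sqrt_le_sqrt (by linarith)⟩
  rw [Real.sq_sqrt (by linarith)]
  linarith

theorem wt_deriv {P : ℂ → ℂ} {ω₀ κ₀ κ₁ A α β : ℝ} (hP : DifferentiableOn ℂ P (Sec ω₀ κ₀))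
    (h1 : 0 < κ₁) (h2 : κ₁ < κ₀) (h3 : κ₀ ≤ 1 / 2)
    (hA : ∀ ω : ℂ, A ≤ ω.re → |ω.im| < κ₀ * ω.re → ‖P ω * ω ^ 2 + 1‖ ≤ (κ₀ - κ₁) / 64)
    (hα : 0 < α) (hαA : 2 * A ≤ α) (hα0 : 2 * ω₀ < α) (hβ : |β| ≤ κ₁ * α) :
    DifferentiableAt ℂ P (pt α β) ∧ 1 / (8 * α ^ 3) ≤ (deriv P (pt α β)).re := by
  obtain ⟨δ, hδ⟩ : ∃ δ, δ = (κ₀ - κ₁) / 4 := ⟨_, rfl⟩
  have hδ0 : 0 < δ := by linarith
  have hre : (pt α β).re = α := by simp [pt]
  have him : (pt α β).im = β := by simp [pt]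
  have hb : ∀ ω ∈ closedBall (pt α β) (δ * α), 3 / 4 * α ≤ ω.re ∧ |ω.im| < κ₀ * ω.re := by
    intro ω hω
    rw [mem_closedBall, dist_eq_norm] at hω
    have h4 := abs_le.1 ((Complex.abs_re_le_norm _).trans hω)
    have h5 := abs_le.1 ((Complex.abs_im_le_norm _).trans hω)
    rw [Complex.sub_re, hre] at h4
    rw [Complex.sub_im, him] at h5
    have h6 := abs_le.1 hβ
    have h7 : κ₀ * ((1 - δ) * α) ≤ κ₀ * ω.re :=
      mul_le_mul_of_nonneg_left (by linarith) (by linarith)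
    have h8 : (κ₁ + δ) * α < κ₀ * ((1 - δ) * α) := by
      rw [← mul_assoc]
      gcongr
      nlinarith
    exact ⟨by nlinarith, abs_lt.2 ⟨by linarith, by linarith⟩⟩
  have hne : ∀ ω ∈ closedBall (pt α β) (δ * α), ω ≠ 0 := fun ω hω h => by
    have := (hb ω hω).1
    rw [h, Complex.zero_re] at this
    linarith
  have hop : IsOpen (Sec ω₀ κ₀) :=
    (isOpen_lt continuous_const Complex.continuous_re).inter
      (isOpen_lt Complex.continuous_im.abs (continuous_const.mul Complex.continuous_re))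
  have hd : ∀ ω ∈ closedBall (pt α β) (δ * α), DifferentiableAt ℂ P ω := fun ω hω =>
    hP.differentiableAt (hop.mem_nhds ⟨by linarith [(hb ω hω).1], (hb ω hω).2⟩)
  have hc := mem_closedBall_self (x := pt α β) (mul_pos hδ0 hα).le
  have hE : DifferentiableOn ℂ (fun ω => P ω + (ω ^ 2)⁻¹) (closedBall (pt α β) (δ * α)) :=
    fun ω hω => ((hd ω hω).add ((differentiableAt_pow 2).inv
      (pow_ne_zero 2 (hne ω hω)))).differentiableWithinAt
  have h4 := Complex.norm_deriv_le_of_forall_mem_sphere_norm_le (mul_pos hδ0 hα)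
    (hE.mono closure_ball_subset_closedBall).diffContOnCl (C := δ / 8 / α ^ 2) fun ω hω => by
      have hω' := sphere_subset_closedBall hω
      have h5 : P ω + (ω ^ 2)⁻¹ = (P ω * ω ^ 2 + 1) / ω ^ 2 := by
        have := hne ω hω'
        field_simp
      have h6 : 3 / 4 * α ≤ ‖ω‖ := (hb ω hω').1.trans (Complex.re_le_norm ω)
      have h7 := hA ω (by linarith [(hb ω hω').1]) (hb ω hω').2
      rw [h5, norm_div, norm_pow]
      calc _ ≤ (δ / 16) / (3 / 4 * α) ^ 2 := by gcongr; linarith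
        _ ≤ _ := by
          rw [div_le_div_iff₀ (by positivity) (by positivity)]
          nlinarith [mul_pos hδ0 (pow_pos hα 2)]
  have h5 := ((hd _ hc).hasDerivAt.add ((hasDerivAt_pow 2 (pt α β)).inv
    (pow_ne_zero 2 (hne _ hc)))).deriv
  refine ⟨hd _ hc, ?_⟩
  have h6 : deriv (fun ω => P ω + (ω ^ 2)⁻¹) (pt α β) = deriv P (pt α β) - 2 / pt α β ^ 3 := by
    refine h5.trans ?_
    have := hne _ hc
    field_simp
    ring
  rw [h6, show δ / 8 / α ^ 2 / (δ * α) = 1 / (8 * α ^ 3) by field_simp] at h4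
  have h7 := (abs_le.1 ((Complex.abs_re_le_norm _).trans h4)).1
  have h8 : β ^ 2 ≤ α ^ 2 / 4 := by
    have : |β| ≤ α / 2 := by nlinarith
    nlinarith [sq_abs β, abs_nonneg β]
  have h9 : (2 / pt α β ^ 3).re = 2 * (α ^ 3 - 3 * α * β ^ 2) / (α ^ 2 + β ^ 2) ^ 3 := by
    rw [Complex.div_re, map_pow, Complex.normSq_apply, hre, him]
    simp [pow_succ, pt]
    ring
  have h10 : 1 / (4 * α ^ 3) ≤ 2 * (α ^ 3 - 3 * α * β ^ 2) / (α ^ 2 + β ^ 2) ^ 3 := by
    calc 1 / (4 * α ^ 3) ≤ 2 * (α ^ 3 / 4) / (5 / 4 * α ^ 2) ^ 3 := by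
          rw [div_le_div_iff₀ (by positivity) (by positivity)]
          nlinarith [pow_pos hα 6]
      _ ≤ _ := by
          gcongr
          · nlinarith
          · nlinarith
          · linarith
  rw [Complex.sub_re, h9] at h7
  have : 1 / (4 * α ^ 3) = 1 / (8 * α ^ 3) + 1 / (8 * α ^ 3) := by field_simp; norm_num
  linarith

theorem wt_proof : WtStmt := by
  intro P μ ω₀ κ₀ κ₁ Λ₂ hP hμ hlim h1 h2 h3 hΛ _
  have hev : ∀ η : ℝ, 0 < η → ∃ A : ℝ, ∀ ω : ℂ, A ≤ ω.re → |ω.im| < κ₀ * ω.re →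
      ‖P ω * ω ^ 2 + μ‖ ≤ η := fun η hη => by
    have h4 := hlim.eventually (closedBall_mem_nhds _ hη)
    rw [atSec, eventually_inf_principal, eventually_comap, eventually_atTop] at h4
    obtain ⟨A, hA⟩ := h4
    exact ⟨A, fun ω h5 h6 => by simpa [dist_eq_norm] using hA _ h5 ω rfl h6⟩
  suffices h : ∃ c : ℝ, 0 < c ∧ ∀ᶠ j : ℕ in atTop, ∃ b₀ : ℝ,
      ∀ β ∈ Icc (-(κ₁ * al Λ₂ √((j : ℝ) + 1))) (κ₁ * al Λ₂ √((j : ℝ) + 1)),
        c * √(j : ℝ) * |β - b₀| ≤ ‖sOf √(j : ℝ) (P (pt (al Λ₂ √((j : ℝ) + 1)) β))‖ by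
    obtain ⟨c, hc, h⟩ := h
    obtain ⟨C, hC⟩ := wt_integral hc
    refine ⟨C, ?_⟩
    filter_upwards [h, wt_al Λ₂ 0 hΛ] with j ⟨b₀, h4⟩ h5
    exact hC _ _ b₀ _ h5.1 (mul_nonneg h1.le h5.2.1) h4
  rcases (abs_le.1 hμ).2.eq_or_lt with rfl | hμ1
  · obtain ⟨A, hA⟩ := hev ((κ₀ - κ₁) / 64) (by linarith)
    refine ⟨1 / 128, by norm_num, ?_⟩
    filter_upwards [wt_al Λ₂ (max (2 * A) (max (2 * ω₀) 0 + 1)) hΛ] with j ⟨a1, a2, _, a4⟩
    generalize al Λ₂ √((j : ℝ) + 1) = α at a2 a4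
    have b1 : 2 * A ≤ α := (le_max_left _ _).trans a2
    have b2 : max (2 * ω₀) 0 + 1 ≤ α := (le_max_right _ _).trans a2
    have b3 : 2 * ω₀ < α := by linarith [le_max_left (2 * ω₀) 0]
    have b4 : 0 < α := by linarith [le_max_right (2 * ω₀) 0]
    have hr : 0 < √(j : ℝ) := Real.sqrt_pos.2 a1
    generalize √(j : ℝ) = r at a4 hr
    have hu : ∀ β ∈ Icc (-(κ₁ * α)) (κ₁ * α), HasDerivAt (fun β => (sOf r (P (pt α β))).im)
        ((deriv P (pt α β)).re * r ^ 4 / 8) β ∧ r / 64 ≤ (deriv P (pt α β)).re * r ^ 4 / 8 := by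
      intro β hβ
      obtain ⟨c1, c2⟩ := wt_deriv hP h1 h2 h3 (by simpa using hA) b4 b1 b3 (abs_le.2 hβ)
      constructor
      · have c3 : HasDerivAt (fun β : ℂ => P (α + β * Complex.I))
            (deriv P (pt α β) * Complex.I) β := by
          have := c1.hasDerivAt.comp (β : ℂ)
            (((hasDerivAt_id (β : ℂ)).mul_const Complex.I).const_add (α : ℂ))
          rw [one_mul] at this
          exact this
        have c4 := Complex.imCLM.hasFDerivAt.comp_hasDerivAt β c3.comp_ofReal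
        simp only [sOf_im]
        rw [show Complex.imCLM (deriv P (pt α β) * Complex.I) = (deriv P (pt α β)).re by simp] at c4
        exact (c4.mul_const (r ^ 4)).div_const 8
      · calc r / 64 = 1 / (8 * r ^ 3) * r ^ 4 / 8 := by field_simp; norm_num
          _ ≤ 1 / (8 * α ^ 3) * r ^ 4 / 8 := by gcongr
          _ ≤ _ := by gcongr
    have hcont : ContinuousOn (fun β => (sOf r (P (pt α β))).im) (Icc (-(κ₁ * α)) (κ₁ * α)) :=
      fun β hβ => (hu β hβ).1.continuousAt.continuousWithinAt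
    have hmono := (convex_Icc _ _).mul_sub_le_image_sub_of_le_deriv hcont
      (fun β hβ => (hu β (interior_subset hβ)).1.differentiableAt.differentiableWithinAt)
      (C := r / 64) fun β hβ => by
        rw [(hu β (interior_subset hβ)).1.deriv]
        exact (hu β (interior_subset hβ)).2
    obtain ⟨b₀, hb₀, hmin⟩ := isCompact_Icc.exists_isMinOn
      (nonempty_Icc.2 (by nlinarith [mul_pos h1 b4])) hcont.abs
    refine ⟨b₀, fun β hβ => le_trans ?_ (Complex.abs_im_le_norm _)⟩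
    have c1 : |(sOf r (P (pt α b₀))).im| ≤ |(sOf r (P (pt α β))).im| := hmin hβ
    have c2 := le_abs_self (sOf r (P (pt α β))).im
    have c3 := neg_abs_le (sOf r (P (pt α β))).im
    have c4 := abs_le.1 c1
    rcases le_total β b₀ with c5 | c5
    · have := hmono β hβ b₀ hb₀ c5
      rw [abs_of_nonpos (by linarith)]
      linarith
    · have := hmono b₀ hb₀ β hβ c5
      rw [abs_of_nonneg (by linarith)]
      linarith
  · obtain ⟨m, hm⟩ : ∃ m, m = max μ 0 := ⟨_, rfl⟩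
    have m0 : 0 ≤ m := hm ▸ le_max_right _ _
    have m1 : m < 1 := hm ▸ max_lt hμ1 one_pos
    have m2 : μ ≤ m := hm ▸ le_max_left _ _
    obtain ⟨A, hA⟩ := hev ((1 - m) / 2) (by linarith)
    refine ⟨(1 - m) / 16, by linarith, ?_⟩
    filter_upwards [wt_al Λ₂ (max A 1) hΛ, (Real.tendsto_sqrt_atTop.comp
      tendsto_natCast_atTop_atTop).eventually
        (eventually_log_le_sq 0 (by linarith : 0 < (1 - m) / 16))] with j ⟨a1, a2, a3, a4⟩ a5
    refine ⟨0, fun β hβ => le_trans ?_ (Complex.re_le_norm _)⟩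
    generalize al Λ₂ √((j : ℝ) + 1) = α at a2 a3 a4 hβ
    have b1 : 1 ≤ α := (le_max_right _ _).trans a2
    rw [← Real.sq_sqrt a1.le] at a3
    have hr : 0 < √(j : ℝ) := Real.sqrt_pos.2 a1
    simp only [Function.comp_apply, zero_add] at a5
    generalize √(j : ℝ) = r at a3 a4 a5 hr
    have hre : (pt α β).re = α := by simp [pt]
    have him : (pt α β).im = β := by simp [pt]
    have b2 : |β| ≤ κ₁ * α := abs_le.2 hβ
    have b3 : |β| ≤ α := by nlinarith
    have b4 : β ^ 2 ≤ α ^ 2 := sq_le_sq' (abs_le.1 b3).1 (abs_le.1 b3).2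
    have hne : pt α β ≠ 0 := fun h => by
      rw [h, Complex.zero_re] at hre
      linarith
    have c1 := hA (pt α β) (by rw [hre]; exact (le_max_left _ _).trans a2)
      (by rw [hre, him]; nlinarith)
    have c2 : P (pt α β) = (P (pt α β) * pt α β ^ 2 + μ) / pt α β ^ 2 - μ / pt α β ^ 2 := by
      field_simp
      ring
    have c3 : ‖(P (pt α β) * pt α β ^ 2 + μ) / pt α β ^ 2‖ ≤ (1 - m) / 2 / α ^ 2 := by
      rw [norm_div, norm_pow]
      have : α ≤ ‖pt α β‖ := hre.symm.trans_le (Complex.re_le_norm _)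
      have : 0 ≤ (1 - m) / 2 := by linarith
      gcongr
    have c4 : ((μ : ℂ) / pt α β ^ 2).re = μ * ((α ^ 2 - β ^ 2) / (α ^ 2 + β ^ 2) ^ 2) := by
      rw [Complex.div_re, map_pow, Complex.normSq_apply, hre, him]
      simp [pow_succ, pt]
      ring
    have c5 : (α ^ 2 - β ^ 2) / (α ^ 2 + β ^ 2) ^ 2 ≤ 1 / α ^ 2 := by
      rw [div_le_div_iff₀ (by positivity) (by positivity)]
      nlinarith [sq_nonneg β, mul_nonneg (sq_nonneg α) (sq_nonneg β), sq_nonneg (β ^ 2)]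
    have c6 : μ * ((α ^ 2 - β ^ 2) / (α ^ 2 + β ^ 2) ^ 2) ≤ m * (1 / α ^ 2) :=
      mul_le_mul m2 c5 (div_nonneg (by linarith) (by positivity)) m0
    have c7 : 1 / α ^ 2 ≤ 2 / r ^ 2 := by
      rw [div_le_div_iff₀ (by positivity) (by positivity)]
      linarith
    have c8 : -((1 + m) / r ^ 2) ≤ (P (pt α β)).re := by
      have c9 := (abs_le.1 ((Complex.abs_re_le_norm _).trans c3)).1
      have c10 : (1 + m) / 2 * (1 / α ^ 2) ≤ (1 + m) / 2 * (2 / r ^ 2) := by gcongr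
      rw [c2, Complex.sub_re, c4]
      have e1 : (1 + m) / 2 * (2 / r ^ 2) = (1 + m) / r ^ 2 := by ring
      have e2 : (1 + m) / 2 * (1 / α ^ 2) = (1 - m) / 2 / α ^ 2 + m * (1 / α ^ 2) := by ring
      linarith
    have c9 : -((1 + m) / r ^ 2) * r ^ 4 / 8 ≤ (P (pt α β)).re * r ^ 4 / 8 := by gcongr
    have e3 : -((1 + m) / r ^ 2) * r ^ 4 / 8 = -((1 + m) * r ^ 2 / 8) := by field_simp
    have c10 : (1 - m) / 16 * r * |β| ≤ (1 - m) / 16 * r * r := by
      have : 0 ≤ (1 - m) / 16 * r := by positivity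
      gcongr
      linarith
    rw [sOf_re, sub_zero]
    nlinarith

end Vale.Agent.P218F.K
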