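import Vale.Agent.P218F.TipC
import Vale.Agent.P218F.KSpec

/-!
# P218F, block TIP: the Stokes constant of the tip is not zero
-/

open Filter Topology Set Metric Function Complex MeasureTheory

noncomputable section

namespace Vale.Agent.P218F.Tip

theorem slow_left {a b : ℂ → ℂ} (ha : Slow 1 a) (hb : Slow (-1) b) {z : ℂ} (h1 : z.re < -300)
    (h2 : |z.im| < 1) : a z = b z := by
  have m : ∀ x : ℝ, 0 ≤ x → z - x ∈ DD 1 ∧ z - x ∈ DD (-1) := fun x hx => by
    have := abs_lt.1 h2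
    constructor <;> right <;> simp <;> linarith [this.1, this.2]
  by_contra hne
  have h0 : 0 < ‖a z - b z‖ := norm_pos_iff.2 (sub_ne_zero.2 hne)
  have hx : 0 ≤ 4 / ‖a z - b z‖ := by positivity
  have key := mono_ge (f := fun x : ℝ => a (z - x) - b (z - x))
    (c := fun x => 1 / 2 - Mv (z - x) (a (z - x)) (b (z - x))) (Γ := fun x => x / 4)
    (g := fun _ => 1 / 4) (fun x hx => ?_)
    (fun x _ => ((hasDerivAt_id x).div_const 4).hasDerivWithinAt) (fun x hx => ?_) le_rfl hx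
  · have h3 := norm_sub_le (a (z - (4 / ‖a z - b z‖ : ℝ))) (b (z - (4 / ‖a z - b z‖ : ℝ)))
    have h4 := Real.add_one_le_exp (4 / ‖a z - b z‖ / 4 - 0 / 4)
    have h5 : ‖a z - b z‖ * (4 / ‖a z - b z‖ / 4 - 0 / 4 + 1) = 1 + ‖a z - b z‖ := by
      field_simp
      ring
    simp only [ofReal_zero, sub_zero] at key
    nlinarith [(ha _ (m _ hx).1).1, (hb _ (m _ hx).2).1]
  · have l : HasDerivAt (fun x : ℝ => z - x) (-1) x := by
      simpa using ofRealCLM.hasDerivAt.const_sub z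
    refine ((((ha _ (m x hx).1).2.comp x l).sub
      ((hb _ (m x hx).2).2.comp x l)).congr_deriv ?_).hasDerivWithinAt
    linear_combination -Nv_sub (DD_norm (Or.inl rfl) (m x hx).1) (ha _ (m x hx).1).1
      (hb _ (m x hx).2).1
  · have := (re_le_norm _).trans
      (Mv_le (DD_norm (Or.inl rfl) (m x hx).1) (ha _ (m x hx).1).1 (hb _ (m x hx).2).1)
    simp only [sub_re, one_div, inv_re, re_ofNat, normSq_ofNat]
    linarith

/-- the two slow solutions are different on the right -/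
theorem slow_ne {a b : ℂ → ℂ} (ha : Slow 1 a) (hb : Slow (-1) b)
    (h : ∀ z : ℂ, 300 < z.re → |z.im| < 1 → a z = b z) : False := by
  set U : ℂ → ℂ := fun z => if 0 ≤ z.im then a z else b z with hU
  have key : ∀ z, 400 < ‖z‖ → ‖U z‖ ≤ 1 / 20 ∧ HasDerivAt U (-U z / 2 + Nv z (U z)) z := by
    intro z hz
    have h1 := hz.trans_le (norm_le_abs_re_add_abs_im z)
    by_cases h2 : 0 ≤ z.im
    · have h3 : z ∈ DD 1 := by
        rw [abs_of_nonneg h2] at h1
        rcases abs_cases z.re with h | h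
        · left; linarith [h.1]
        · right; linarith [h.1]
      have h4 : U =ᶠ[𝓝 z] a := by
        rcases h2.eq_or_lt with h2 | h2
        · have h5 : ∀ᶠ w in 𝓝 z, |w.im| < 1 :=
            continuous_im.abs.continuousAt.eventually_lt continuousAt_const (by simp [← h2])
          have h6 : ∀ᶠ w in 𝓝 z, 300 < |w.re| := continuousAt_const.eventually_lt
            continuous_re.abs.continuousAt (by rw [← h2, abs_zero] at h1; linarith)
          filter_upwards [h5, h6] with w h7 h8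
          simp only [hU]
          split_ifs
          · rfl
          · rcases lt_abs.1 h8 with h9 | h9
            · exact (h w h9 h7).symm
            · exact (slow_left ha hb (by linarith) h7).symm
        · filter_upwards [continuousAt_const.eventually_lt continuous_im.continuousAt h2] with w hw
          exact if_pos hw.le
      rw [h4.eq_of_nhds]
      exact ⟨(ha z h3).1, (ha z h3).2.congr_of_eventuallyEq h4⟩
    · rw [not_le] at h2
      have h3 : z ∈ DD (-1) := by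
        rw [abs_of_neg h2] at h1
        rcases abs_cases z.re with h | h
        · left; linarith [h.1]
        · right; linarith [h.1]
      have h4 : U =ᶠ[𝓝 z] b := by
        filter_upwards [continuous_im.continuousAt.eventually_lt continuousAt_const h2] with w hw
        exact if_neg (not_le.2 hw)
      rw [h4.eq_of_nhds]
      exact ⟨(hb z h3).1, (hb z h3).2.congr_of_eventuallyEq h4⟩
  have hr : (0 : ℝ) < 1 / 400 := by norm_num
  have hi : ∀ x ∈ ball (0 : ℂ) (1 / 400) \ {0}, 400 < ‖x⁻¹‖ := fun x hx => by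
    rw [norm_inv, lt_inv_comm₀ (by norm_num) (norm_pos_iff.2 hx.2), ← one_div]
    exact mem_ball_zero_iff.1 hx.1
  have hd := differentiableOn_update_limUnder_of_bddAbove (f := fun x => U x⁻¹) (ball_mem_nhds 0 hr)
    (fun x hx => ((key _ (hi x hx)).2.comp x
      (hasDerivAt_inv hx.2)).differentiableAt.differentiableWithinAt)
    ⟨1 / 20, by rintro _ ⟨x, hx, rfl⟩; exact (key _ (hi x hx)).1⟩
  set W := update (fun x => U x⁻¹) 0 (limUnder (𝓝[≠] 0) fun x => U x⁻¹) with hW
  have hW' := hd.analyticAt (ball_mem_nhds 0 hr)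
  have hm : ball (0 : ℂ) (1 / 400) \ {0} ∈ 𝓝[≠] (0 : ℂ) :=
    sdiff_mem_nhdsWithin_compl (ball_mem_nhds 0 hr) _
  have e : ∀ x, x ≠ 0 → W x = U x⁻¹ := fun x hx => update_of_ne hx _ _
  have h0 : ‖W 0‖ ≤ 1 / 20 := by
    refine le_of_tendsto (hW'.continuousAt.norm.mono_left (nhdsWithin_le_nhds (s := {0}ᶜ))) ?_
    filter_upwards [hm] with x hx
    rw [e x hx.2]
    exact (key _ (hi x hx)).1
  have h1 : 1 + W 0 ≠ 0 := norm_pos_iff.1 (by linarith [one_add_ge h0])
  refine no_analytic (w := fun x => 1 - (1 + W x)⁻¹)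
    (analyticAt_const.sub ((analyticAt_const.add hW').inv h1)) (by simpa using h1) ?_
  filter_upwards [hm] with x hx
  obtain ⟨h2, h3⟩ := key _ (hi x hx)
  have h4 : 1 + U x⁻¹ ≠ 0 := norm_pos_iff.1 (by linarith [one_add_ge h2])
  have h5 : x ≠ 0 := hx.2
  have h6 : (fun x => 1 - (1 + W x)⁻¹) =ᶠ[𝓝 x] fun x => 1 - (1 + U x⁻¹)⁻¹ := by
    filter_upwards [isOpen_ne.mem_nhds h5] with w hw
    rw [e w hw]
  have h7 := (((h3.comp x (hasDerivAt_inv h5)).const_add 1).fun_inv h4).const_sub 1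
  rw [h6.deriv_eq, e x h5]
  erw [h7.deriv]
  simp only [comp_apply, Nv]
  generalize U x⁻¹ = V at h4
  obtain ⟨Z, rfl⟩ : ∃ Z, V = Z - 1 := ⟨V + 1, by ring⟩
  rw [add_sub_cancel] at h4 ⊢
  field_simp
  ring

/-- **The tip**: trajectories, phase, and the primitive with its two different limits. -/
theorem tip_main : ∃ (s u : ℂ → ℝ → ℂ) (η Φ : ℂ → ℂ) (J : ℂ) (K : ℝ), Traj s u ∧ J ≠ 0 ∧ 0 ≤ K ∧
    DifferentiableOn ℂ η HH ∧ (∀ y ∈ HH,
      Tendsto (fun t => s y t / 2 - log (s y t) / 2 - t) atTop (𝓝 (η y)) ∧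
      ‖η y - (y / 2 - log y / 2 - 1)‖ ≤ 15 / ‖y‖ ∧ HasDerivAt Φ (exp (η y - log y / 2)) y) ∧
    (∀ y ∈ YY 1, ‖Φ y - J‖ ≤ K * (Real.exp (y.re / 2) / ‖y‖)) ∧
    ∀ y ∈ YY (-1), ‖Φ y‖ ≤ K * (Real.exp (y.re / 2) / ‖y‖) := by
  obtain ⟨s, u, T⟩ := exists_traj
  obtain ⟨η, hη, hη'⟩ := T.exists_eta
  obtain ⟨a, ha⟩ := exists_slow (Or.inl rfl)
  obtain ⟨b, hb⟩ := exists_slow (Or.inr rfl)
  obtain ⟨A, hA⟩ := T.exists_phi (Or.inl rfl) ha fun y hy => (hη' y hy).1
  obtain ⟨B, hB⟩ := T.exists_phi (Or.inr rfl) hb fun y hy => (hη' y hy).1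
  have hc : ∀ ε, Convex ℝ (YY ε) := fun ε => (convex_halfSpace_re_gt 300).inter
    (convex_halfSpace_gt (f := fun y : ℂ => y.re + ε * y.im)
      ⟨fun x y => by simp; ring, fun c x => by simp; ring⟩ 204)
  obtain ⟨J, hJ⟩ := ((isOpen_YY 1).inter (isOpen_YY (-1))).exists_is_const_of_deriv_eq_zero
    ((hc 1).inter (hc (-1))).isPreconnected (f := fun y => B y - A y)
    (fun y hy => ((hB y hy.2).2.2.sub (hA y hy.1).2.2).differentiableAt.differentiableWithinAt)
    (fun y hy => by simpa using ((hB y hy.2).2.2.fun_sub (hA y hy.1).2.2).deriv)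
  have m1 : ∀ y ∈ HH, 0 ≤ y.im → y ∈ YY 1 := fun y hy h =>
    ⟨hy, by linarith [show 300 < y.re from hy]⟩
  have m2 : ∀ y ∈ HH, ¬ 0 ≤ y.im → y ∈ YY (-1) := fun y hy h =>
    ⟨hy, by linarith [show 300 < y.re from hy, not_le.1 h]⟩
  set Φ : ℂ → ℂ := fun y => if 0 ≤ y.im then A y + J else B y with hΦ
  have e1 : ∀ y ∈ YY 1, Φ y = A y + J := fun y hy => by
    simp only [hΦ]
    split_ifs with h
    · rfl
    · linear_combination hJ y ⟨hy, m2 y hy.1 h⟩
  have e2 : ∀ y ∈ YY (-1), Φ y = B y := fun y hy => by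
    simp only [hΦ]
    split_ifs with h
    · linear_combination -hJ y ⟨m1 y hy.1 h, hy⟩
    · rfl
  refine ⟨s, u, η, Φ, J, 2 * Real.exp (GG 0), T, fun h0 => slow_ne ha hb fun y h1 h2 => ?_,
    by positivity, hη, fun y hy => ⟨(hη' y hy).1, (hη' y hy).2, ?_⟩, fun y hy => ?_,
    fun y hy => ?_⟩
  · have p : y ∈ YY 1 := ⟨h1, by linarith [(abs_lt.1 h2).1]⟩
    have q : y ∈ YY (-1) := ⟨h1, by linarith [(abs_lt.1 h2).2]⟩
    have na := fun t (ht : 0 ≤ t) => (ha _ (T.mem_DD (Or.inl rfl) p ht)).1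
    have nb := fun t (ht : 0 ≤ t) => (hb _ (T.mem_DD (Or.inr rfl) q ht)).1
    have sg : ∀ t, 0 ≤ t → 4 / 5 ≤ ‖1 + a (s y t) + (1 + b (s y t))‖ := fun t ht => by
      have h3 := re_le_norm (1 + a (s y t) + (1 + b (s y t)))
      simp only [add_re, one_re] at h3
      linarith [(abs_le.1 ((abs_re_le_norm _).trans (na t ht))).1,
        (abs_le.1 ((abs_re_le_norm _).trans (nb t ht))).1]
    obtain ⟨l, h3, -, -, h4⟩ := exists_lim_lin
      (f := fun t => Dl (s y t) (u y t) (1 + a (s y t)) (1 + b (s y t)))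
      (fun t ht => (dDl (T.ds y h1 t ht) (T.du y h1 t ht) (T.dkv (Or.inl rfl) ha p ht)
        (T.dkv (Or.inr rfl) hb q ht) (T.sne h1 ht) (add_sq_ne (T.s100 h1 ht) (one_add_le (na t ht)))
        (add_sq_ne (T.s100 h1 ht) (one_add_le (nb t ht)))
        (norm_pos_iff.1 (by linarith [sg t ht]))).hasDerivWithinAt) dGG
      (fun t ht => cf_le ht (T.ns' h1 ht) (T.nu h1 ht) (T.u1' h1 ht) (one_add_le (na t ht))
        (one_add_le (nb t ht)) (sg t ht) (T.decay (Or.inl rfl) ha p ht)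
        (T.decay (Or.inr rfl) hb q ht)) tGG GG_nonneg
    have h5 := h4 (tendsto_nhds_unique h3 (by
      have := (hB y q).1.sub (hA y p).1
      rw [hJ y ⟨p, q⟩, h0] at this
      refine this.congr fun t => ?_
      simp only [Dl]
      ring))
    have h6 := add_sq_ne (T.s100 h1 le_rfl) (one_add_le (na 0 le_rfl))
    have h7 := add_sq_ne (T.s100 h1 le_rfl) (one_add_le (nb 0 le_rfl))
    have h8 : 1 + a (s y 0) + (1 + b (s y 0)) ≠ 0 := norm_pos_iff.1 (by linarith [sg 0 le_rfl])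
    have h9 := T.sne h1 le_rfl
    simp only [Dl, T.s0 y h1] at h5 h6 h7 h8 h9
    have h10 := (mul_eq_zero.1 h5).resolve_left (div_ne_zero (exp_ne_zero _) h9)
    rw [sub_eq_zero, kf, kf, div_eq_div_iff h6 h7] at h10
    have h11 : y ^ 2 * (1 + a y + (1 + b y)) * (a y - b y) = 0 := by linear_combination -h10
    exact sub_eq_zero.1 ((mul_eq_zero.1 h11).resolve_left (mul_ne_zero (pow_ne_zero _ h9) h8))
  · by_cases h : 0 ≤ y.im
    · exact ((hA y (m1 y hy h)).2.2.add_const J).congr_of_eventuallyEq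
        (mem_of_superset ((isOpen_YY 1).mem_nhds (m1 y hy h)) e1)
    · exact (hB y (m2 y hy h)).2.2.congr_of_eventuallyEq
        (mem_of_superset ((isOpen_YY (-1)).mem_nhds (m2 y hy h)) e2)
  · rw [e1 y hy, add_sub_cancel_right]
    exact (hA y hy).2.1
  · rw [e2 y hy]
    exact (hB y hy).2.1

/-- uniqueness of the trajectories -/
theorem traj_unique {s u s' u' : ℝ → ℂ} (h1 : s 0 = s' 0) (h2 : u 0 = u' 0)
    (h : ∀ t, 0 ≤ t → s t ≠ 0 ∧ HasDerivWithinAt s (2 * u t) (Ici 0) t ∧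
      HasDerivWithinAt u (Fu (s t) (u t)) (Ici 0) t)
    (h' : ∀ t, 0 ≤ t → s' t ≠ 0 ∧ HasDerivWithinAt s' (2 * u' t) (Ici 0) t ∧
      HasDerivWithinAt u' (Fu (s' t) (u' t)) (Ici 0) t) {t : ℝ} (ht : 0 ≤ t) :
    s t = s' t ∧ u t = u' t := by
  obtain ⟨c1, d1⟩ := within_right (b := t) le_rfl fun t ht => (h t ht).2.1.prodMk (h t ht).2.2
  obtain ⟨c2, d2⟩ := within_right (b := t) le_rfl fun t ht => (h' t ht).2.1.prodMk (h' t ht).2.2
  obtain ⟨K, hK⟩ := LocallyLipschitzOn.exists_lipschitzOnWith_of_compact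
    (f := fun p : ℂ × ℂ => (2 * p.2, Fu p.1 p.2))
    ((isCompact_Icc.image_of_continuousOn c1).union (isCompact_Icc.image_of_continuousOn c2))
    (fun p hp => by
      have h0 : p.1 ≠ 0 := by
        rcases hp with ⟨x, hx, rfl⟩ | ⟨x, hx, rfl⟩
        exacts [(h x hx.1).1, (h' x hx.1).1]
      have h3 : ContDiffAt ℂ 1 (fun p : ℂ × ℂ => (2 * p.2, Fu p.1 p.2)) p := by
        unfold Fu
        fun_prop (disch := exact h0)
      obtain ⟨K, t, ht, hK⟩ := h3.exists_lipschitzOnWith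
      exact ⟨K, t, mem_nhdsWithin_of_mem_nhds ht, hK⟩)
  exact Prod.ext_iff.1 (ODE_solution_unique_of_mem_Icc_right (fun _ _ => hK) c1 d1
    (fun x hx => Or.inl ⟨x, Ico_subset_Icc_self hx, rfl⟩) c2 d2
    (fun x hx => Or.inr ⟨x, Ico_subset_Icc_self hx, rfl⟩) (by rw [h1, h2]) (right_mem_Icc.2 ht))

theorem tip_proof : K.TipStmt := by
  intro Λ sig k₀ C hΛ hd hb ⟨k₁, hch⟩
  obtain ⟨s, u, η, Φ, J, K, T, hJ, hK, -, h1, h2, h3⟩ := tip_main
  set A := |k₀| + |C| with hA
  have a0 := abs_nonneg k₀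
  have a1 := abs_nonneg C
  set ρ : ℂ → ℂ := fun z => sig z - 2 * z - log (2 * z) - k₀ with hρ
  have ho : IsOpen {z : ℂ | Λ < z.re} := isOpen_lt continuous_const continuous_re
  have b1 : ∀ z : ℂ, Λ < z.re → ‖ρ z‖ ≤ |C| * ‖z‖ ^ (-3 / 4 : ℝ) := fun z hz =>
    (hb z hz).trans (mul_le_mul_of_nonneg_right (le_abs_self C) (by positivity))
  have b2 : ∀ z : ℂ, Λ < z.re → ‖ρ z‖ ≤ |C| := fun z hz => (b1 z hz).trans
    (mul_le_of_le_one_right a1 (Real.rpow_le_one_of_one_le_of_nonpos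
      (by linarith [re_le_norm z]) (by norm_num)))
  have sl : ∀ z : ℂ, Λ < z.re → 2 * z ∈ slitPlane := fun z hz => Or.inl (by simp; linarith)
  have b3 : ∀ z : ℂ, Λ + 200 + 2 * A < z.re → sig z ∈ HH ∧ ‖z‖ ≤ ‖sig z‖ ∧
      (sig z).re ≤ 2 * z.re + Real.log (2 * ‖z‖) + A ∧ |(sig z).im - 2 * z.im| ≤ 4 + A := by
    intro z hz
    have c0 := b2 z (by linarith)
    have c1 := abs_le.1 ((abs_re_le_norm _).trans c0)
    have c2 := abs_le.1 ((abs_im_le_norm _).trans c0)
    have c3 := re_le_norm z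
    have c4 : 0 ≤ Real.log (2 * ‖z‖) := Real.log_nonneg (by linarith)
    have c5 := abs_le.1 ((abs_arg_le_pi (2 * z)).trans Real.pi_le_four)
    have c6 := abs_le.1 (le_refl |k₀|)
    have c7 : Real.log (2 * ‖z‖) ≤ 2 + ‖z‖ / 2 := by
      rw [show 2 * ‖z‖ = 4 * (‖z‖ / 2) by ring, Real.log_mul (by norm_num) (by linarith)]
      linarith [Real.log_le_sub_one_of_pos (show (0 : ℝ) < 4 by norm_num),
        Real.log_le_sub_one_of_pos (show 0 < ‖z‖ / 2 by linarith)]
    have c8 := norm_le_abs_re_add_abs_im (log (2 * z))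
    rw [log_re, log_im, norm_mul, Complex.norm_ofNat, abs_of_nonneg c4] at c8
    have c9 : ‖2 * z‖ ≤ ‖sig z‖ + ‖ρ z‖ + ‖log (2 * z)‖ + ‖(k₀ : ℂ)‖ := by
      rw [show 2 * z = sig z - ρ z - log (2 * z) - k₀ by simp only [hρ]; ring]
      conv_rhs => rw [show sig z - ρ z - log (2 * z) - k₀ = 2 * z by simp only [hρ]; ring]
      linarith [norm_sub_le (sig z - ρ z - log (2 * z)) k₀, norm_sub_le (sig z - ρ z) (log (2 * z)),
        norm_sub_le (sig z) (ρ z)]
    rw [norm_mul, Complex.norm_ofNat, norm_real, Real.norm_eq_abs] at c9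
    simp only [hρ, sub_re, mul_re, re_ofNat, im_ofNat, log_re, ofReal_re, sub_im, mul_im, log_im,
      ofReal_im, norm_mul, Complex.norm_ofNat] at c1 c2
    refine ⟨show 300 < (sig z).re by linarith [c1.1, c6.1], ?_, by linarith [c1.2, c6.2],
      abs_le.2 ⟨by linarith [c2.1, c5.1], by linarith [c2.2, c5.2]⟩⟩
    linarith [(abs_arg_le_pi (2 * z)).trans Real.pi_le_four]
  have b4 : ∀ z : ℂ, Λ + 200 + 2 * A < z.re → η (sig z) = z + k₁ / 2 := by
    intro z hz
    obtain ⟨σ, v, e1, e2, e3, e4⟩ := hch z (by linarith)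
    have hy := (b3 z hz).1
    have e5 := (h1 _ hy).1.const_mul 2
    have e6 := tendsto_nhds_unique e5 (e4.congr' ((eventually_ge_atTop 0).mono fun t ht => by
      simp only [(traj_unique (e1.trans (T.s0 _ hy).symm) (e2.trans (T.u0 _ hy).symm) e3
        (fun t ht => ⟨T.sne hy ht, (T.ds _ hy t ht).hasDerivWithinAt,
          (T.du _ hy t ht).hasDerivWithinAt⟩) ht).1]
      ring))
    linear_combination e6 / 2
  have ho' : IsOpen {z : ℂ | Λ + 200 + 2 * A < z.re} := isOpen_lt continuous_const continuous_re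
  have an : ∀ z : ℂ, Λ < z.re → AnalyticAt ℂ sig z := fun z hz => hd.analyticAt (ho.mem_nhds hz)
  set g₁ : ℂ → ℂ := fun z => deriv sig z * exp (-(log (sig z) / 2)) / 2 with hg₁
  have sl' : ∀ z : ℂ, Λ + 200 + 2 * A < z.re → sig z ∈ slitPlane := fun z hz =>
    Or.inl (by linarith [show 300 < (sig z).re from (b3 z hz).1])
  have d1 : ∀ z : ℂ, Λ + 200 + 2 * A < z.re → deriv (fun z => sig z ^ (1 / 2 : ℂ)) z = g₁ z := by
    intro z hz
    rw [((an z (by linarith)).differentiableAt.hasDerivAt.cpow_const (sl' z hz)).deriv,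
      cpow_def_of_ne_zero (slitPlane_ne_zero (sl' z hz)), hg₁]
    ring_nf
  have d2 : ∀ z : ℂ, Λ + 200 + 2 * A < z.re → HasDerivAt g₁ ((deriv (deriv sig) z -
      deriv sig z ^ 2 / (2 * sig z)) * exp (-(log (sig z) / 2)) / 2) z := by
    intro z hz
    have c1 := (an z (by linarith)).differentiableAt.hasDerivAt
    refine (((an z (by linarith)).deriv.differentiableAt.hasDerivAt.mul
      ((c1.clog (sl' z hz)).div_const 2).neg.cexp).div_const 2).congr_deriv ?_
    simp only [Pi.neg_apply]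
    ring
  have nq : ∀ z : ℂ, Λ + 200 + 2 * A < z.re →
      ‖exp (-(log (sig z) / 2))‖ ≤ ‖z‖ ^ (-(1 / 2) : ℝ) := by
    intro z hz
    have c0 : 0 < ‖z‖ := by linarith [re_le_norm z]
    rw [norm_exp, Real.rpow_def_of_pos c0]
    simp only [neg_re, div_ofNat_re, log_re]
    exact Real.exp_le_exp.2 (by linarith [Real.log_le_log c0 (b3 z hz).2.1])
  have dρ : DifferentiableOn ℂ ρ {z | Λ < z.re} :=
    ((hd.sub (differentiableOn_id.const_mul 2)).sub
      ((differentiableOn_id.const_mul 2).clog sl)).sub_const _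
  have d3 : ∀ z : ℂ, Λ < z.re → deriv ρ z = deriv sig z - 2 - z⁻¹ := by
    intro z hz
    have c0 : z ≠ 0 := fun h => by rw [h, zero_re] at hz; linarith
    have c1 := (hasDerivAt_id' z).const_mul 2
    rw [((((an z hz).differentiableAt.hasDerivAt.fun_sub c1).fun_sub
      (c1.clog (sl z hz))).sub_const (k₀ : ℂ)).deriv]
    field_simp
  have n12 : ∀ z : ℂ, Λ + 200 + 2 * A < z.re → ‖deriv sig z‖ ≤ 3 + |C| ∧
      ‖deriv (deriv sig) z‖ ≤ (1 + 4 * |C|) * ‖z‖ ^ (-3 / 4 : ℝ) := by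
    intro z hz
    have c0 : 200 ≤ ‖z‖ := by linarith [re_le_norm z]
    have c1 : closedBall z 1 ⊆ {z | Λ < z.re} := fun w hw => by
      have := (abs_le.1 ((abs_re_le_norm _).trans (mem_closedBall_iff_norm.1 hw))).1
      rw [sub_re] at this
      show Λ < w.re
      linarith
    have c2 := norm_deriv_le_of_forall_mem_sphere_norm_le one_pos (dρ.diffContOnCl_ball c1)
      fun w hw => b2 w (c1 (sphere_subset_closedBall hw))
    have c3 := norm_iteratedDeriv_le_of_forall_mem_sphere_norm_le 2 one_pos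
      (dρ.diffContOnCl_ball c1) (C := |C| * (2 * ‖z‖ ^ (-3 / 4 : ℝ))) fun w hw => by
        refine (b1 w (c1 (sphere_subset_closedBall hw))).trans ?_
        have c4 : ‖z‖ / 2 ≤ ‖w‖ := by
          linarith [norm_le_norm_add_norm_sub' z w, (norm_sub_rev _ _).trans (mem_sphere_iff_norm.1 hw)]
        gcongr
        refine (Real.rpow_le_rpow_of_nonpos (by linarith) c4 (by norm_num)).trans ?_
        rw [Real.div_rpow (by linarith) zero_le_two, div_le_iff₀ (by positivity), mul_right_comm]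
        refine le_mul_of_one_le_left (by positivity) ?_
        rw [← Real.rpow_one_add' zero_le_two (by norm_num)]
        exact Real.one_le_rpow one_le_two (by norm_num)
    have c5 : z ≠ 0 := norm_pos_iff.1 (by linarith)
    have c6 : deriv ρ =ᶠ[𝓝 z] fun z => deriv sig z - 2 - z⁻¹ :=
      mem_of_superset (ho.mem_nhds (show Λ < z.re by linarith)) d3
    rw [iteratedDeriv_succ, iteratedDeriv_one, c6.deriv_eq,
      (((an z (by linarith)).deriv.differentiableAt.hasDerivAt.sub_const 2).fun_sub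
        (hasDerivAt_inv c5)).deriv] at c3
    rw [d3 z (by linarith)] at c2
    have c7 : ‖z⁻¹‖ ≤ 1 := by rw [norm_inv]; exact inv_le_one_of_one_le₀ (by linarith)
    have c8 : ‖-(z ^ 2)⁻¹‖ ≤ ‖z‖ ^ (-3 / 4 : ℝ) := by
      rw [norm_neg, norm_inv, norm_pow, ← Real.rpow_natCast, ← Real.rpow_neg (by linarith)]
      exact Real.rpow_le_rpow_of_exponent_le (by linarith) (by norm_num)
    constructor
    · linarith [norm_le_norm_add_norm_sub' (deriv sig z - 2) z⁻¹,
        norm_le_norm_add_norm_sub' (deriv sig z) 2, Complex.norm_ofNat 2]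
    · have := norm_le_norm_add_norm_sub' (deriv (deriv sig) z) (-(z ^ 2)⁻¹)
      norm_num [Nat.factorial] at c3 this c8 ⊢
      linarith
  refine ⟨I * (exp (-(k₁ / 2)) / 2 * J), mul_ne_zero I_ne_zero (mul_ne_zero
    (div_ne_zero (exp_ne_zero _) two_ne_zero) hJ), Λ + 201 + 2 * A, fun l hl => ?_⟩
  set γ : ℝ → ℂ := fun t => l + t * I with hγ
  have g1 : ∀ t, Λ + 200 + 2 * A < (γ t).re := fun t => by simp [hγ]; linarith
  have g2 : ∀ t, HasDerivAt γ I t := fun t => by
    refine (((ofRealCLM.hasDerivAt (x := t)).mul_const I).const_add (l : ℂ)).congr_deriv (by simp)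
  have g3 : ∀ t, |t| ≤ ‖γ t‖ := fun t => by simpa [hγ] using abs_im_le_norm (γ t)
  have g4 : ∀ t, 200 ≤ ‖γ t‖ := fun t => by linarith [re_le_norm (γ t), g1 t]
  have g5 : ∀ t, ‖exp (γ t)‖ = Real.exp l := fun t => by simp [hγ, norm_exp]
  have e1 : ∀ t, iteratedDeriv 2 (fun z => sig z ^ (1 / 2 : ℂ)) (γ t) = deriv g₁ (γ t) := fun t => by
    rw [iteratedDeriv_succ, iteratedDeriv_one]
    exact EventuallyEq.deriv_eq (mem_of_superset (ho'.mem_nhds (g1 t)) d1)
  have hF : ∀ t, HasDerivAt (fun t => -I * (g₁ (γ t) * exp (γ t) -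
      exp (-(k₁ / 2)) / 2 * Φ (sig (γ t)))) (deriv g₁ (γ t) * exp (γ t)) t := by
    intro t
    have c1 := ((h1 _ (b3 _ (g1 t)).1).2.2.comp _
      (an (γ t) (by linarith [g1 t])).differentiableAt.hasDerivAt).comp t (g2 t)
    refine (((((d2 _ (g1 t)).differentiableAt.hasDerivAt.comp t (g2 t)).mul (g2 t).cexp).sub
      (c1.const_mul _)).const_mul (-I)).congr_deriv ?_
    have c2 : exp (-(k₁ / 2 : ℂ)) * exp (k₁ / 2) = 1 := by rw [← exp_add]; simp
    rw [b4 _ (g1 t), sub_eq_add_neg (γ t + _), exp_add (γ t + _), exp_add (γ t)]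
    simp only [hg₁, comp_apply]
    linear_combination (-deriv (fun z => deriv sig z * exp (-(log (sig z) / 2)) / 2) (γ t) *
      exp (γ t)) * I_mul_I + (I * I * deriv sig (γ t) * exp (-(log (sig (γ t)) / 2)) *
      exp (γ t) / 2) * c2
  have hI : Integrable fun t => deriv g₁ (γ t) * exp (γ t) := by
    have c0 : ContinuousOn (deriv g₁) {z : ℂ | Λ + 200 + 2 * A < z.re} :=
      (DifferentiableOn.deriv (fun z hz => (d2 z hz).differentiableAt.differentiableWithinAt)
        ho').continuousOn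
    have c1 : Continuous γ := continuous_iff_continuousAt.2 fun t => (g2 t).continuousAt
    refine ((integrable_one_add_norm (E := ℝ) (μ := volume) (r := 5 / 4)
      (by simp; norm_num)).const_mul ((1 + 4 * |C| + (3 + |C|) ^ 2) * 4 * Real.exp l)).mono'
      ((c0.comp_continuous c1 g1).mul c1.cexp).aestronglyMeasurable (Eventually.of_forall fun t => ?_)
    obtain ⟨c2, c3⟩ := n12 _ (g1 t)
    have c4 := g4 t
    have c5 : ‖deriv sig (γ t) ^ 2 / (2 * sig (γ t))‖ ≤ (3 + |C|) ^ 2 * ‖γ t‖ ^ (-3 / 4 : ℝ) := by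
      have c6 : (2 * ‖sig (γ t)‖)⁻¹ ≤ ‖γ t‖ ^ (-3 / 4 : ℝ) := by
        refine (inv_anti₀ (by linarith) (show ‖γ t‖ ≤ _ by linarith [(b3 _ (g1 t)).2.1])).trans ?_
        rw [← Real.rpow_neg_one]
        exact Real.rpow_le_rpow_of_exponent_le (by linarith) (by norm_num)
      rw [norm_div, norm_pow, norm_mul, Complex.norm_ofNat, div_eq_mul_inv]
      gcongr
    have c6 : ‖γ t‖ ^ (-3 / 4 : ℝ) * ‖γ t‖ ^ (-(1 / 2) : ℝ) ≤ 4 * (1 + ‖t‖) ^ (-(5 / 4) : ℝ) := by
      rw [← Real.rpow_add (by linarith), show (-3 / 4 + -(1 / 2) : ℝ) = -(5 / 4) by norm_num]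
      refine (Real.rpow_le_rpow_of_nonpos (x := (1 + ‖t‖) / 2) (by positivity)
        (by rw [Real.norm_eq_abs]; linarith [g3 t]) (by norm_num)).trans ?_
      rw [Real.div_rpow (by positivity) zero_le_two, div_le_iff₀ (by positivity), mul_right_comm]
      refine le_mul_of_one_le_left (by positivity) ?_
      rw [show (4 : ℝ) = 2 ^ (2 : ℝ) by norm_num, ← Real.rpow_add two_pos]
      exact Real.one_le_rpow one_le_two (by norm_num)
    have c7 := (norm_sub_le _ _).trans (add_le_add c3 c5)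
    rw [← add_mul] at c7
    have c8 := mul_le_mul c7 (nq _ (g1 t)) (norm_nonneg _) (by positivity)
    rw [mul_assoc] at c8
    have c9 := c8.trans (mul_le_mul_of_nonneg_left c6 (by positivity))
    rw [(d2 _ (g1 t)).deriv, norm_mul, g5, norm_div, norm_mul, Complex.norm_ofNat, mul_right_comm]
    gcongr
    rw [mul_assoc]
    exact (half_le_self (by positivity)).trans c9
  have hT : ∀ (F : Filter ℝ) (c : ℂ), Tendsto abs F atTop →
      (∀ᶠ t in F, ‖Φ (sig (γ t)) - c‖ ≤ K * (Real.exp ((sig (γ t)).re / 2) / ‖sig (γ t)‖)) →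
      Tendsto (fun t => -I * (g₁ (γ t) * exp (γ t) - exp (-(k₁ / 2)) / 2 * Φ (sig (γ t)))) F
        (𝓝 (-I * (0 - exp (-(k₁ / 2)) / 2 * c))) := by
    intro F c hF hc
    have c0 := (tendsto_rpow_neg_atTop one_half_pos).comp (tendsto_atTop_mono g3 hF)
    refine (Tendsto.sub ?_ (Tendsto.const_mul _ ?_)).const_mul _
    · refine squeeze_zero_norm (fun t => ?_)
        (by simpa using c0.const_mul ((3 + |C|) * Real.exp l))
      simp only [hg₁, norm_mul, g5, norm_div, Complex.norm_ofNat]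
      have := mul_le_mul (n12 _ (g1 t)).1 (nq _ (g1 t)) (norm_nonneg _) (by positivity)
      rw [mul_right_comm, ← one_div]
      gcongr
      exact (half_le_self (by positivity)).trans this
    · refine tendsto_iff_norm_sub_tendsto_zero.2 (squeeze_zero' (Eventually.of_forall fun _ =>
        norm_nonneg _) (hc.mono fun t ht => ht.trans ?_)
        (by simpa using c0.const_mul (K * (2 * Real.exp (l + A / 2)))))
      obtain ⟨-, c1, c2, -⟩ := b3 _ (g1 t)
      have c3 := g4 t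
      have c4 : (γ t).re = l := by simp [hγ]
      rw [mul_assoc, ← one_div]
      gcongr
      rw [div_le_iff₀ (by linarith), Real.rpow_def_of_pos (by linarith)]
      have c5 : Real.exp ((sig (γ t)).re / 2) ≤ Real.exp (Real.log 2 + (l + A / 2) +
          Real.log ‖γ t‖ * -(1 / 2) + Real.log ‖γ t‖) := by
        rw [c4, Real.log_mul two_ne_zero (by linarith)] at c2
        exact Real.exp_le_exp.2 (by linarith [Real.log_nonneg one_le_two])
      rw [Real.exp_add, Real.exp_add, Real.exp_add, Real.exp_log two_pos,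
        Real.exp_log (by linarith)] at c5
      exact c5.trans (by gcongr)
  have m : ∀ t, (γ t).im = t := fun t => by simp [hγ]
  have e2 := integral_of_hasDerivAt_of_tendsto hF hI
    (hT _ 0 tendsto_abs_atBot_atTop ((eventually_le_atBot (-(4 + A))).mono fun t ht => by
      obtain ⟨c1, -, -, c2⟩ := b3 _ (g1 t)
      rw [sub_zero]
      refine h3 _ ⟨c1, ?_⟩
      linarith [show 300 < (sig (γ t)).re from c1, (abs_le.1 c2).2, m t]))
    (hT _ J tendsto_abs_atTop_atTop ((eventually_ge_atTop (4 + A)).mono fun t ht => by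
      obtain ⟨c1, -, -, c2⟩ := b3 _ (g1 t)
      refine h2 _ ⟨c1, ?_⟩
      linarith [show 300 < (sig (γ t)).re from c1, (abs_le.1 c2).1, m t]))
  refine ((integral_congr_ae (Eventually.of_forall fun t => ?_)).trans e2).trans (by ring)
  exact congrArg (· * exp (γ t)) (e1 t)

end Vale.Agent.P218F.Tip
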