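import Vale.Agent.P218F.KMain
import Vale.Agent.P218F.TipD
import Vale.Agent.P218F.AlgF
import Vale.Agent.P218F.KB
import Vale.Agent.P218F.KTA
import Vale.Agent.P218F.KRing
import Vale.Agent.P218F.KNewton
import Vale.Agent.P218F.KReal
import Vale.Agent.P218F.KMu
import Vale.Agent.P218F.KNF
import Vale.Agent.P218F.KRect
import Vale.Agent.P218F.KWt
import Vale.Agent.P218F.KSum
import Vale.Agent.P218F.KKL
import Vale.Agent.P218F.KJ

/-!
# Block K: assembly (the Lojasiewicz inequality for holomorphic germs is a hypothesis here)
-/

namespace Vale.Agent.P218F.K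

theorem stokes_proof : StokesStmt :=
  stokes_of mu_proof nf_proof rect_proof err_proof wt_proof b_proof j_proof lend_proof tsum_proof

theorem k_of_loj (hLoj : LojStmt) : KStmt :=
  k_of Tip.tip_proof sig_proof ta_proof chart_proof ring_proof Alg.arc_proof Newton.newton_proof
    real_proof stokes_proof ck_proof kl_proof hLoj

end Vale.Agent.P218F.K
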