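import Vale.Agent.P218F.KBasic

/-! Block K: the jump formula along arcs. -/

open Filter Topology Set Asymptotics Metric MeasureTheory

noncomputable section

namespace Vale.Agent.P218F.K

theorem rpow_neg_half_le {a b K : ℝ} (ha : 0 < a) (hK : 0 < K) (h : a ≤ K ^ 2 * b) :
    b ^ (-(1 / 2) : ℝ) ≤ K * a ^ (-(1 / 2) : ℝ) := by
  have h1 : 0 < a / K ^ 2 := by positivity
  have h2 : a / K ^ 2 ≤ b := by rwa [div_le_iff₀ (by positivity), mul_comm]
  refine (Real.rpow_le_rpow_of_nonpos h1 h2 (by norm_num)).trans (le_of_eq ?_)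
  rw [Real.div_rpow ha.le (by positivity), ← Real.rpow_natCast, ← Real.rpow_mul hK.le]
  norm_num
  rw [Real.rpow_neg_one]
  field_simp

theorem rpow_neg_half_le_one {a : ℝ} (ha : 1 ≤ a) : a ^ (-(1 / 2) : ℝ) ≤ 1 :=
  Real.rpow_le_one_of_one_le_of_nonpos ha (by norm_num)

/-- the tip coordinate moves by a bounded amount -/
theorem norm_sOf_sub_le {R r : ℝ} {c : ℂ} (hR : 4 ≤ R) (h1 : R ≤ r) (h2 : r ≤ R + 1 / R)
    (hc : ‖c‖ * r ^ 2 ≤ 4) : ‖sOf R c - sOf r c‖ ≤ 4 := by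
  have hR0 : 0 < R := by linarith
  have hr0 : 0 < r := by linarith
  have h3 : (r - R) * R ≤ 1 := by
    have : r - R ≤ 1 / R := by linarith
    rwa [le_div_iff₀ hR0] at this
  have h4 : r - R ≤ 1 / 4 := by nlinarith
  have h5 : r ^ 2 - R ^ 2 ≤ 33 / 16 := by nlinarith
  have h6 : 0 ≤ r ^ 2 - R ^ 2 := by nlinarith
  have h7 : 0 ≤ Real.log (r ^ 2) - Real.log (R ^ 2) :=
    sub_nonneg.2 (Real.log_le_log (by positivity) (by linarith))
  have h8 : Real.log (r ^ 2) - Real.log (R ^ 2) ≤ 1 / 4 := by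
    rw [← Real.log_div (by positivity) (by positivity)]
    refine (Real.log_le_sub_one_of_pos (by positivity)).trans ?_
    rw [sub_le_iff_le_add, div_le_iff₀ (by positivity)]
    nlinarith
  have h9 : sOf R c - sOf r c = ((Real.log (r ^ 2) - Real.log (R ^ 2) - (r ^ 2 - R ^ 2) / 4 : ℝ) : ℂ)
      - (((r ^ 2 - R ^ 2) * (r ^ 2 + R ^ 2) / 8 : ℝ) : ℂ) * c := by
    unfold sOf; push_cast; ring
  rw [h9]
  refine (norm_sub_le _ _).trans ?_
  rw [norm_mul, Complex.norm_real, Complex.norm_real, Real.norm_eq_abs,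
    Real.norm_of_nonneg (by positivity)]
  have h10 : |Real.log (r ^ 2) - Real.log (R ^ 2) - (r ^ 2 - R ^ 2) / 4| ≤ 1 :=
    abs_le.2 ⟨by linarith, by linarith⟩
  have h11 : (r ^ 2 + R ^ 2) * ‖c‖ ≤ 8 := by nlinarith [norm_nonneg c]
  have h12 : (r ^ 2 - R ^ 2) * ((r ^ 2 + R ^ 2) * ‖c‖) ≤ 33 / 16 * 8 :=
    mul_le_mul h5 h11 (by positivity) (by norm_num)
  nlinarith

theorem integral_le_of_le {g : ℝ → ℝ} {a b M : ℝ} (hab : a ≤ b) (h0 : ∀ r ∈ Icc a b, 0 ≤ g r)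
    (h : ∀ r ∈ Icc a b, g r ≤ M) : ∫ r in a..b, g r ≤ (b - a) * M := by
  have h1 := intervalIntegral.norm_integral_le_of_norm_le_const (a := a) (b := b) (f := g) (C := M)
    fun r hr => by
      rw [uIoc_of_le hab] at hr
      rw [Real.norm_of_nonneg (h0 r (Ioc_subset_Icc_self hr))]
      exact h r (Ioc_subset_Icc_self hr)
  rw [abs_of_nonneg (sub_nonneg.2 hab), mul_comm] at h1
  exact (le_abs_self _).trans h1

theorem SymData.continuousOn_end {R₀ Λ : ℝ} {Y : ℝ → ℂ → ℂ} {sig : ℂ → ℂ}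
    (h : SymData R₀ Λ Y sig) {R R' : ℝ} (hR : R₀ ≤ R) {c : ℂ}
    (hc : ∀ r ∈ Icc R R', c ∈ Om Λ 4 r) :
    ContinuousOn (fun r : ℝ => ((Real.exp (-r ^ 2 / 4) : ℝ) : ℂ) * bd (Y r c)) (Icc R R') := by
  refine ContinuousOn.mul (by fun_prop) ?_
  exact h.bd_cont.comp (f := fun r : ℝ => (r, c)) (by fun_prop) fun r hr => ⟨hR.trans hr.1, hc r hr⟩

theorem jump_proof : JumpStmt := by
  intro ι κ τ _ _ _ r₀ Λ Λ' R₀ f G φ Y sig h
  obtain ⟨C, d, hd, hinc⟩ := h.inc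
  obtain ⟨C₁, hlow⟩ := h.sym.low
  obtain ⟨C₂, hC₂, hbd⟩ := h.sym.bd_bdd
  have hΛ := h.sym.one_le
  set K : ℝ := |C₁| + 1 with hK
  have hK0 : 0 < K := by positivity
  have hmem : ∀ R', R₀ ≤ R' → ∀ x ∈ Dom ι κ r₀ Λ R', ∀ i, ∀ r, R₀ ≤ r → r ≤ R' →
      φ i x ∈ Om (Λ' + 1) (7 / 2) r := fun R' _ x hx i r h1 h2 =>
    h.φ_mem r h1 x (h.big.nest_Dom h1 h2 hx) i
  have hsub : ∀ r, Om (Λ' + 1) (7 / 2) r ⊆ Om Λ' 4 r := Om_mono (by linarith) (by norm_num)
  have hY : ∀ r, R₀ ≤ r → ∀ c ∈ Om (Λ' + 1) (7 / 2) r,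
      2 ≤ ‖sOf r c‖ ∧ ‖Y r c‖ ^ (-(1 / 2) : ℝ) ≤ K * r * ‖sOf r c‖ ^ (-(1 / 2) : ℝ) := by
    intro r hr c hc
    have hr0 := h.big.pos hr
    have h1 : 2 ≤ ‖sOf r c‖ := by
      have := (Om_re hr0.ne' hc).le.trans (Complex.re_le_norm _)
      linarith
    refine ⟨h1, rpow_neg_half_le (by linarith) (by positivity)
      ((hlow r hr c (hsub r hc)).trans ?_)⟩
    rw [mul_pow]
    gcongr
    have := le_abs_self C₁
    have := abs_nonneg C₁
    nlinarith
  have hsum : ∀ R R', R₀ ≤ R → R ≤ R' → ∀ x ∈ Dom ι κ r₀ Λ R',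
      ∫ r in R..R', ((Real.exp (-r ^ 2 / 4) : ℝ) : ℂ) * ∑ i, bd (Y r (φ i x)) =
        ∑ i, ∫ r in R..R', ((Real.exp (-r ^ 2 / 4) : ℝ) : ℂ) * bd (Y r (φ i x)) := by
    intro R R' h1 h2 x hx
    rw [← intervalIntegral.integral_finsetSum]
    · simp only [Finset.mul_sum]
    · intro i _
      refine ContinuousOn.intervalIntegrable_of_Icc h2 (h.sym.continuousOn_end h1 fun r hr => ?_)
      exact hsub r (hmem R' (h1.trans h2) x hx i r (h1.trans hr.1) hr.2)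
  have hexp : ∀ R r : ℝ, 0 ≤ R → R ≤ r → Real.exp (-r ^ 2 / 4) ≤ Real.exp (-R ^ 2 / 4) :=
    fun R r h1 h2 => Real.exp_le_exp.2 (by nlinarith)
  refine ⟨⟨fun R => |C| * (2 * K) * R ^ (-(d - 1 / 2)), ?_, ?_⟩, h.f_hol, h.f_bdd, ?_⟩
  · simpa using (tendsto_rpow_neg_atTop (by linarith : 0 < d - 1 / 2)).const_mul (|C| * (2 * K))
  · filter_upwards [eventually_ge_atTop R₀] with R hR
    have hR4 : 4 ≤ R := h.big.2.1.trans hR
    have hR0 : 0 < R := by linarith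
    refine ⟨by positivity, fun R' h1 h2 x hx => ?_⟩
    have h3 : 1 / R ≤ 1 := by rw [div_le_one hR0]; linarith
    rw [← hsum R R' hR h1 x hx]
    refine (hinc R R' hR h1 (by linarith) x hx).trans ?_
    have h4 := integral_le_of_le (g := fun r => Real.exp (-r ^ 2 / 4) * r ^ (-2 - d) *
        ∑ i, ‖Y r (φ i x)‖ ^ (-(1 / 2) : ℝ)) (M := Real.exp (-R ^ 2 / 4) * R ^ (-1 - d) *
        (2 * K * ∑ i, ‖sOf R (φ i x)‖ ^ (-(1 / 2) : ℝ))) h1
      (fun r hr => by have := hR0.trans_le hr.1; positivity) fun r hr => by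
        have hr0 := hR0.trans_le hr.1
        have h5 : ∑ i, ‖Y r (φ i x)‖ ^ (-(1 / 2) : ℝ) ≤
            r * (2 * K * ∑ i, ‖sOf R (φ i x)‖ ^ (-(1 / 2) : ℝ)) := by
          rw [Finset.mul_sum, Finset.mul_sum]
          refine Finset.sum_le_sum fun i _ => ?_
          have hm := hmem R' (hR.trans h1) x hx i r (hR.trans hr.1) hr.2
          obtain ⟨h6, h7⟩ := hY r (hR.trans hr.1) _ hm
          obtain ⟨h8, -⟩ := hY R hR _ (hmem R' (hR.trans h1) x hx i R hR h1)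
          have h9 := norm_sOf_sub_le hR4 hr.1 (hr.2.trans h2)
            ((Om_norm hm).le.trans (by norm_num))
          have h10 := norm_le_insert' (sOf R (φ i x)) (sOf r (φ i x))
          have h11 : ‖sOf r (φ i x)‖ ^ (-(1 / 2) : ℝ) ≤ 2 * ‖sOf R (φ i x)‖ ^ (-(1 / 2) : ℝ) :=
            rpow_neg_half_le (by linarith) two_pos (by linarith)
          calc _ ≤ _ := h7
            _ ≤ K * r * (2 * ‖sOf R (φ i x)‖ ^ (-(1 / 2) : ℝ)) := by gcongr
            _ = _ := by ring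
        have h6 : r ^ (-2 - d) * r ≤ R ^ (-1 - d) := by
          rw [← Real.rpow_add_one hr0.ne', show -2 - d + 1 = -1 - d by ring]
          exact Real.rpow_le_rpow_of_nonpos hR0 hr.1 (by linarith)
        calc _ ≤ Real.exp (-R ^ 2 / 4) * r ^ (-2 - d) *
              (r * (2 * K * ∑ i, ‖sOf R (φ i x)‖ ^ (-(1 / 2) : ℝ))) := by
              have := hexp R r hR0.le hr.1
              gcongr
          _ = Real.exp (-R ^ 2 / 4) * (r ^ (-2 - d) * r) *
              (2 * K * ∑ i, ‖sOf R (φ i x)‖ ^ (-(1 / 2) : ℝ)) := by ring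
          _ ≤ _ := by gcongr
    have h5 : 0 ≤ ∫ r in R..R', Real.exp (-r ^ 2 / 4) * r ^ (-2 - d) *
        ∑ i, ‖Y r (φ i x)‖ ^ (-(1 / 2) : ℝ) :=
      intervalIntegral.integral_nonneg h1 fun r hr => by have := hR0.trans_le hr.1; positivity
    have h6 : R ^ (-(d - 1 / 2)) / R ^ (3 / 2 : ℝ) = R ^ (-1 - d) := by
      rw [← Real.rpow_sub hR0]; congr 1; ring
    calc _ ≤ |C| * ((R' - R) * (Real.exp (-R ^ 2 / 4) * R ^ (-1 - d) *
          (2 * K * ∑ i, ‖sOf R (φ i x)‖ ^ (-(1 / 2) : ℝ)))) :=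
          mul_le_mul (le_abs_self C) h4 h5 (abs_nonneg C)
      _ = _ := by rw [← h6]; ring
  · refine ⟨Fintype.card κ * C₂ + |C| * (Fintype.card κ * K), 0, fun ρ R h1 h2 h3 x hx _ => ?_⟩
    have hρ1 := h.big.one_le h1
    have hρ0 := h.big.pos h1
    have h4 := hinc ρ R h1 h2 h3 x hx
    have h5 := integral_le_of_le (g := fun r => Real.exp (-r ^ 2 / 4) * r ^ (-2 - d) *
        ∑ i, ‖Y r (φ i x)‖ ^ (-(1 / 2) : ℝ)) (M := Real.exp (-ρ ^ 2 / 4) *
        (Fintype.card κ * K)) h2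
      (fun r hr => by have := hρ0.trans_le hr.1; positivity) fun r hr => by
        have hr0 := hρ0.trans_le hr.1
        have h5 : ∑ i, ‖Y r (φ i x)‖ ^ (-(1 / 2) : ℝ) ≤ r * (Fintype.card κ * K) := by
          calc _ ≤ ∑ _i : κ, K * r := Finset.sum_le_sum fun i _ => by
                obtain ⟨h6, h7⟩ := hY r (h1.trans hr.1) _
                  (hmem R (h1.trans h2) x hx i r (h1.trans hr.1) hr.2)
                exact h7.trans (mul_le_of_le_one_right (by positivity)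
                  (rpow_neg_half_le_one (by linarith)))
            _ = _ := by simp; ring
        have h6 : r ^ (-2 - d) * r ≤ 1 := by
          rw [← Real.rpow_add_one hr0.ne']
          exact Real.rpow_le_one_of_one_le_of_nonpos (hρ1.trans hr.1) (by linarith)
        calc _ ≤ Real.exp (-ρ ^ 2 / 4) * r ^ (-2 - d) * (r * (Fintype.card κ * K)) := by
              have := hexp ρ r hρ0.le hr.1
              gcongr
          _ = Real.exp (-ρ ^ 2 / 4) * (Fintype.card κ * K) * (r ^ (-2 - d) * r) := by ring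
          _ ≤ _ := mul_le_of_le_one_right (by positivity) h6
    have h6 : 0 ≤ ∫ r in ρ..R, Real.exp (-r ^ 2 / 4) * r ^ (-2 - d) *
        ∑ i, ‖Y r (φ i x)‖ ^ (-(1 / 2) : ℝ) :=
      intervalIntegral.integral_nonneg h2 fun r hr => by have := hρ0.trans_le hr.1; positivity
    have h7 : ‖∫ r in ρ..R, ((Real.exp (-r ^ 2 / 4) : ℝ) : ℂ) * ∑ i, bd (Y r (φ i x))‖ ≤
        Real.exp (-ρ ^ 2 / 4) * (Fintype.card κ * C₂) * |R - ρ| := by
      refine intervalIntegral.norm_integral_le_of_norm_le_const fun r hr => ?_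
      rw [uIoc_of_le h2] at hr
      rw [norm_mul, Complex.norm_real, Real.norm_of_nonneg (Real.exp_pos _).le]
      refine mul_le_mul (hexp ρ r hρ0.le hr.1.le) ((norm_sum_le _ _).trans ?_) (norm_nonneg _)
        (Real.exp_pos _).le
      calc _ ≤ ∑ _i : κ, C₂ := Finset.sum_le_sum fun i _ => hbd r (h1.trans hr.1.le) _
            (hsub r (hmem R (h1.trans h2) x hx i r (h1.trans hr.1.le) hr.2))
        _ = _ := by simp
    rw [abs_of_nonneg (sub_nonneg.2 h2)] at h7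
    have h8 := mul_le_mul (le_abs_self C) h5 h6 (abs_nonneg C)
    have h9 := norm_le_insert' (f R x - f ρ x)
      (∫ r in ρ..R, ((Real.exp (-r ^ 2 / 4) : ℝ) : ℂ) * ∑ i, bd (Y r (φ i x)))
    have h10 : Real.exp (-ρ ^ 2 / 4) * (Fintype.card κ * C₂) * (R - ρ) ≤
        Real.exp (-ρ ^ 2 / 4) * (Fintype.card κ * C₂) :=
      mul_le_of_le_one_right (by positivity) (by linarith)
    have h11 : |C| * ((R - ρ) * (Real.exp (-ρ ^ 2 / 4) * (Fintype.card κ * K))) ≤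
        |C| * (Real.exp (-ρ ^ 2 / 4) * (Fintype.card κ * K)) :=
      mul_le_mul_of_nonneg_left (mul_le_of_le_one_left (by positivity) (by linarith))
        (abs_nonneg C)
    rw [pow_zero, mul_one]
    nlinarith

end Vale.Agent.P218F.K
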