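import Vale.Agent.P218F.KStokes

/-! Block K from its leaves. -/

open Filter Topology Set Asymptotics Metric

noncomputable section

namespace Vale.Agent.P218F.K

variable {ι κ τ : Type} [Fintype ι] [Fintype κ] [Fintype τ]

theorem ExpFam.apply {r₀ Λ R₀ : ℝ} {G : ℝ → (ι ⊕ κ → ℂ) → (τ → ℂ)} (h : ExpFam r₀ Λ R₀ G)
    (i : τ) : ExpFam r₀ Λ R₀ fun R x => G R x i where
  hol := fun R hR => differentiableOn_pi.1 (h.hol R hR) i
  bdd := h.bdd.imp fun _ hC R hR x hx => (norm_le_pi_norm _ i).trans (hC R hR x hx)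
  inc := by
    obtain ⟨C, A, hC⟩ := h.inc
    exact ⟨C, A, fun ρ R h1 h2 h3 x h4 h5 =>
      (norm_le_pi_norm (G R x - G ρ x) i).trans (hC ρ R h1 h2 h3 x h4 h5)⟩

theorem tendsto_arc {σ : Type} [Fintype σ] {a : ℕ → σ → ℝ} (h : a 0 = 0) (M : ℕ) :
    Tendsto (arc a M) (𝓝 0) (𝓝 0) := by
  have h1 : arc a M 0 = 0 := by
    funext i
    refine Finset.sum_eq_zero fun n _ => ?_
    rcases n with _ | n <;> simp [h]
  simpa [h1] using (differentiable_arc a M).continuous.tendsto 0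

theorem FlatOn.congr {σ : Type} [Fintype σ] {H H' : ℕ → (σ → ℂ) → ℂ} {k : ℕ} {a : ℕ → σ → ℝ}
    (h : FlatOn H k a) (ha : a 0 = 0) {r : ℝ} (hr : 0 < r)
    (he : ∀ n, EqOn (H n) (H' n) (ball 0 r)) : FlatOn H' k a := fun M => by
  refine (h M).congr' ?_ EventuallyEq.rfl
  filter_upwards [(tendsto_arc ha M).eventually (ball_mem_nhds 0 hr)] with t ht
  exact Finset.sum_congr rfl fun n _ => by rw [he n ht]

theorem k_of (hTip : TipStmt) (hSig : SigStmt) (hTA : TAStmt) (hChart : ChartStmt)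
    (hRing : RingStmt) (hArc : ArcStmt) (hNewton : NewtonStmt) (hReal : RealStmt)
    (hStokes : StokesStmt) (hCK : CKStmt) (hKL : KLStmt) (hLoj : LojStmt) : KStmt := by
  classical
  intro ι κ τ _ _ _ r₀ Λ Λ' R₀ f G φ Y sig h
  obtain ⟨hJ, hf⟩ := jump_proof ι κ τ r₀ Λ Λ' R₀ f G φ Y sig h
  obtain ⟨Pf, hPf, -⟩ := hTA ι κ r₀ Λ R₀ f h.big hf
  choose PG hPG hre using fun i => hTA ι κ r₀ Λ R₀ _ h.big (h.hG.apply i)
  refine hKL hLoj ι κ τ r₀ Λ R₀ f G Pf h.r_pos h.big h.hG hf hPf h.grad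
    (hCK ι κ τ r₀ Λ R₀ G PG h.r_pos h.big hPG fun ls hls => ?_)
  set r₁ := min r₀ (1 / 2) with hr₁
  have h1 : 0 < r₁ := lt_min h.r_pos (by norm_num)
  have h2 : r₁ ≤ r₀ := min_le_left _ _
  have h3 : r₁ ≤ 1 / 2 := min_le_right _ _
  obtain ⟨D, d, ex, hex, hFam, hd, hmem⟩ := hRing ι κ r₁ Λ R₀ ls h.big hls h1 h3
  have hG : ∀ i, ∃ hF : (fun R p => G R (chart ls p) i) ∈ D,
      ∀ n, EqOn (ex ⟨_, hF⟩ n) (fun y => PG i n (shift ls y)) (ball 0 r₁) := by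
    intro i
    obtain ⟨A, hA⟩ := hChart ι κ r₀ r₁ Λ R₀ ls _ _ h.big hls h1 h2 h3 (h.hG.apply i) (hPG i)
    refine hmem A _ _ hA fun n y hy hy' => hre i
      (fun R hR x hx hx' => h.G_re R hR x hx hx' i) n _ (fun j => ?_) fun j => ?_
    · exact (norm_le_pi_norm y (Sum.inl j)).trans_lt ((mem_ball_zero_iff.1 hy).trans_le h2)
    · rcases j with j | j
      · exact hy' _
      · simp [shift, hy' (Sum.inr j)]
  choose hGD hGe using hG
  rcases hArc (ι ⊕ κ) τ D d ex hex fun i => ⟨_, hGD i⟩ with ⟨M, C, hM⟩ |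
    ⟨k, r, N₀, N₁, S, g, a, hk, ha, hfree, hflat, hg, hdet⟩
  · refine ⟨M, C, ?_⟩
    have h4 : Tendsto (fun q : ℝ × (ι ⊕ κ → ℝ) => ofRe q.2) (𝓝 0) (𝓝 0) := by
      have : Continuous fun q : ℝ × (ι ⊕ κ → ℝ) => ofRe q.2 := by unfold ofRe; fun_prop
      convert this.tendsto 0 using 2
      funext j; simp [ofRe]
    filter_upwards [hM, h4.eventually (ball_mem_nhds 0 h1)] with q hq hq' hpos
    refine (hq hpos).trans (le_of_eq ?_)
    congr 1
    refine Finset.sum_congr rfl fun i _ => ?_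
    congr 1
    exact Finset.sum_congr rfl fun n _ => by rw [hGe i n hq']
  · exfalso
    obtain ⟨A, hA1, hA2⟩ : ∃ A : ℕ, (∀ l, Fam ls r₁ Λ R₀ A (g l).1 (ex (g l))) ∧
        Fam ls r₁ Λ R₀ A (Matrix.det (Matrix.of fun i l => d (S i) (g l))).1
          (ex (Matrix.det (Matrix.of fun i l => d (S i) (g l)))) :=
      ((eventually_all.2 fun l => eventually_atTop.2 (hFam (g l))).and
        (eventually_atTop.2 (hFam _))).exists
    have h4 : (Matrix.det (Matrix.of fun i l => d (S i) (g l))).1 = fun R p => Matrix.det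
        (Matrix.of fun i l => fderiv ℂ ((g l).1 R) p (0, Pi.single (S i) 1)) := by
      funext R p
      have := RingHom.map_det (((Pi.evalRingHom (fun _ => ℂ) p).comp
        (Pi.evalRingHom (fun _ => ℂ × (ι ⊕ κ → ℂ) → ℂ) R)).comp D.subtype)
        (Matrix.of fun i l => d (S i) (g l))
      refine this.trans ?_
      congr 1
      ext i l
      simp [hd]
    rw [h4] at hA2
    obtain ⟨K, y, hy⟩ := hNewton ι κ r₁ Λ R₀ ls A k r N₀ N₁ S (fun l => (g l).1)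
      (fun l => ex (g l)) _ a h.big hls h1 h3 hA1 hA2 hk ha hfree hg hdet
    obtain ⟨h5, Λ₁, ψ, h6⟩ := hReal ι κ τ r₀ r₁ Λ Λ' R₀ f G φ Y sig PG Pf ls k K a y h hJ hPG hPf
      hls h1 h2 h3 hk ha (fun i => (hflat i).congr ha h1 (hGe i)) hy
    obtain ⟨h7, k₀, C, h8⟩ := hSig R₀ Λ' Y sig h.sym
    exact hStokes κ R₀ Λ' Λ₁ Y sig k ls _ ψ h.sym
      (hTip Λ' sig k₀ C h.sym.one_le h7 h8 h.tip) h5 h6

end Vale.Agent.P218F.K
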