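import Vale.Agent.P218F.KBasic

/-! Block K, leaf K-REAL, part 1: charts, arcs and elementary estimates. -/

open Filter Topology Set Asymptotics Metric

noncomputable section

set_option linter.unusedSectionVars false

namespace Vale.Agent.P218F.K.Re

variable {ι κ τ : Type} [Fintype ι] [Fintype κ] [Fintype τ]

/-! ### Elementary analysis -/

theorem lip_half {E V : Type*} [NormedAddCommGroup E] [NormedSpace ℂ E] [NormedAddCommGroup V]
    [NormedSpace ℂ V] {F : E → V} {x₀ x x' : E} {ρ C : ℝ} (hρ : 0 < ρ)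
    (hF : DifferentiableOn ℂ F (ball x₀ ρ)) (hC : ∀ z ∈ ball x₀ ρ, ‖F z‖ ≤ C)
    (hx : x ∈ ball x₀ (ρ / 2)) (hx' : x' ∈ ball x₀ (ρ / 2)) :
    ‖F x' - F x‖ ≤ 2 * C / ρ * ‖x' - x‖ := by
  have hsub : ∀ z ∈ ball x₀ (ρ / 2), ball z (ρ / 2) ⊆ ball x₀ ρ := fun z hz =>
    ball_subset_ball' (by rw [mem_ball] at hz; linarith)
  refine (convex_ball x₀ (ρ / 2)).norm_image_sub_le_of_norm_fderiv_le (𝕜 := ℂ) (fun z hz => ?_)
    (fun z hz => ?_) hx hx'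
  · exact hF.differentiableAt (isOpen_ball.mem_nhds (hsub z hz (mem_ball_self (by linarith))))
  · have := Vale.Agent.P281.MF.norm_fderiv_le_of_ball (f := F) (x := z) (r := ρ / 2) (C := C) (by linarith)
      (hF.mono (hsub z hz)) fun w hw => hC w (hsub z hz hw)
    calc ‖fderiv ℂ F z‖ ≤ C / (ρ / 2) := this
      _ = 2 * C / ρ := by field_simp

theorem poly_exp (n : ℕ) {c : ℝ} (hc : 0 < c) :
    ∀ᶠ R : ℝ in atTop, R ^ n * Real.exp (-R ^ 2 / c) ≤ 1 := by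
  have h := (Real.tendsto_pow_mul_exp_neg_atTop_nhds_zero n).eventually
    (ge_mem_nhds (show (0 : ℝ) < 1 by norm_num))
  filter_upwards [h, eventually_ge_atTop c, eventually_ge_atTop (0 : ℝ)] with R h1 h2 h3
  refine le_trans (mul_le_mul_of_nonneg_left (Real.exp_le_exp.2 ?_) (pow_nonneg h3 n)) h1
  rw [div_le_iff₀ hc]
  nlinarith

theorem exp_le_inv_pow (n : ℕ) {c : ℝ} (hc : 0 < c) :
    ∀ᶠ R : ℝ in atTop, Real.exp (-R ^ 2 / c) ≤ 1 / R ^ n := by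
  filter_upwards [poly_exp n hc, eventually_gt_atTop (0 : ℝ)] with R h1 h2
  rw [le_div_iff₀ (pow_pos h2 n)]
  linarith

/-- properties near `t = 0` hold on the region `|t|^k R² < 8` for large `R` -/
theorem small {P : ℂ → Prop} {k : ℕ} (hk : 0 < k) (hP : ∀ᶠ t in 𝓝 (0 : ℂ), P t) :
    ∀ᶠ R : ℝ in atTop, ∀ t : ℂ, ‖t‖ ^ k * R ^ 2 < 8 → P t := by
  obtain ⟨ε, hε, hb⟩ := Metric.eventually_nhds_iff_ball.1 hP
  have hεk : 0 < ε ^ k := pow_pos hε k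
  filter_upwards [eventually_ge_atTop (1 : ℝ), eventually_ge_atTop (8 / ε ^ k)] with R h1 h2 t ht
  apply hb
  rw [mem_ball_zero_iff]
  by_contra hcon
  push Not at hcon
  have h3 : ε ^ k ≤ ‖t‖ ^ k := pow_le_pow_left₀ hε.le hcon k
  rw [div_le_iff₀ hεk] at h2
  have h4 : R ≤ R ^ 2 := by nlinarith
  have h5 : ε ^ k * R ≤ ‖t‖ ^ k * R ^ 2 :=
    mul_le_mul h3 h4 (by linarith) (by positivity)
  have _ := hk
  linarith

theorem pow_le_of_lt {k m M : ℕ} {s R : ℝ} (hs : 0 ≤ s) (hs1 : s ≤ 1) (hR : 1 ≤ R)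
    (h : s ^ k * R ^ 2 < 8) (hM : k * m ≤ M) : s ^ M ≤ 8 ^ m / R ^ m := by
  have hR0 : 0 < R := by linarith
  have h1 : s ^ k * R ≤ 8 := by
    have : s ^ k * R ≤ s ^ k * R ^ 2 :=
      mul_le_mul_of_nonneg_left (by nlinarith) (pow_nonneg hs k)
    linarith
  have h2 : s ^ k ≤ 8 / R := by rw [le_div_iff₀ hR0]; exact h1
  calc s ^ M ≤ s ^ (k * m) := pow_le_pow_of_le_one hs hs1 hM
    _ = (s ^ k) ^ m := by rw [pow_mul]
    _ ≤ (8 / R) ^ m := pow_le_pow_left₀ (pow_nonneg hs k) h2 m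
    _ = 8 ^ m / R ^ m := by rw [div_pow]

theorem pow_le_of_lt' {k m : ℕ} {s R : ℝ} (hs : 0 ≤ s) (hR : 1 ≤ R)
    (h : s ^ k * R ^ 2 < 8) : s ^ (m * k) ≤ 8 ^ m / R ^ (2 * m) := by
  have hR0 : 0 < R := by linarith
  have h2 : s ^ k ≤ 8 / R ^ 2 := by rw [le_div_iff₀ (by positivity)]; linarith
  calc s ^ (m * k) = (s ^ k) ^ m := by rw [mul_comm, pow_mul]
    _ ≤ (8 / R ^ 2) ^ m := pow_le_pow_left₀ (pow_nonneg hs k) h2 m
    _ = 8 ^ m / R ^ (2 * m) := by rw [div_pow, ← pow_mul]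

theorem div_le_one_div {C R : ℝ} (m : ℕ) (hR : 0 < R) (h : C ≤ R) :
    C / R ^ (m + 1) ≤ 1 / R ^ m := by
  rw [div_le_div_iff₀ (by positivity) (by positivity), pow_succ]
  have := pow_pos hR m
  nlinarith

theorem one_div_pow_le {R : ℝ} {m n : ℕ} (hR : 1 ≤ R) (h : m ≤ n) : 1 / R ^ n ≤ 1 / R ^ m :=
  one_div_le_one_div_of_le (by positivity) (pow_le_pow_right₀ hR h)

/-! ### Charts -/

@[simp] theorem chart_inl (ls : κ → ℝ) (e : ℂ) (y : ι ⊕ κ → ℂ) (j : ι) :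
    chart ls (e, y) (Sum.inl j) = y (Sum.inl j) := rfl

@[simp] theorem chart_inr (ls : κ → ℝ) (e : ℂ) (y : ι ⊕ κ → ℂ) (i : κ) :
    chart ls (e, y) (Sum.inr i) = e * (ls i + y (Sum.inr i)) := rfl

theorem chart_sub_le (ls : κ → ℝ) {e : ℂ} (he : ‖e‖ ≤ 1) (y y' : ι ⊕ κ → ℂ) :
    ‖chart ls (e, y) - chart ls (e, y')‖ ≤ ‖y - y'‖ := by
  refine (pi_norm_le_iff_of_nonneg (norm_nonneg _)).2 fun s => ?_
  rcases s with j | i
  · simpa using norm_le_pi_norm (y - y') (Sum.inl j)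
  · have h := norm_le_pi_norm (y - y') (Sum.inr i)
    have h2 : (chart ls (e, y) - chart ls (e, y')) (Sum.inr i) = e * (y - y') (Sum.inr i) := by
      simp only [Pi.sub_apply, chart_inr]; ring
    rw [h2, norm_mul]
    calc ‖e‖ * ‖(y - y') (Sum.inr i)‖ ≤ 1 * ‖y - y'‖ :=
          mul_le_mul he h (norm_nonneg _) zero_le_one
      _ = ‖y - y'‖ := one_mul _

theorem norm_cp_chart_le {ls : κ → ℝ} (hls : ‖ls‖ = 1) (e : ℂ) {y : ι ⊕ κ → ℂ} (hy : ‖y‖ ≤ 1) :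
    ‖cp (chart ls (e, y))‖ ≤ 2 * ‖e‖ := by
  refine (pi_norm_le_iff_of_nonneg (by positivity)).2 fun i => ?_
  have h1 : ‖ls i‖ ≤ 1 := hls ▸ norm_le_pi_norm ls i
  have h2 : ‖y (Sum.inr i)‖ ≤ 1 := (norm_le_pi_norm y _).trans hy
  have h3 : ‖(ls i : ℂ) + y (Sum.inr i)‖ ≤ 2 := by
    refine (norm_add_le _ _).trans ?_
    rw [Complex.norm_real]
    linarith
  show ‖e * (ls i + y (Sum.inr i))‖ ≤ 2 * ‖e‖
  rw [norm_mul, mul_comm]
  exact mul_le_mul_of_nonneg_right h3 (norm_nonneg _)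

theorem norm_cp_le_add (x x' : ι ⊕ κ → ℂ) : ‖cp x‖ ≤ ‖cp x'‖ + ‖x - x'‖ := by
  have h : cp x = cp x' + cp (x - x') := by
    funext i; simp [cp]
  rw [h]
  exact (norm_add_le _ _).trans (add_le_add le_rfl (norm_cp_le _))

theorem norm_chart_le {ls : κ → ℝ} (hls : ‖ls‖ = 1) (e : ℂ) {y : ι ⊕ κ → ℂ} (hy : ‖y‖ ≤ 1) :
    ‖chart ls (e, y)‖ ≤ ‖y‖ + 2 * ‖e‖ := by
  refine (pi_norm_le_iff_of_nonneg (by positivity)).2 fun s => ?_
  rcases s with j | i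
  · have := norm_le_pi_norm y (Sum.inl j)
    have h0 := norm_nonneg e
    simp only [chart_inl]
    linarith
  · have := (norm_le_pi_norm (cp (chart ls (e, y))) i).trans (norm_cp_chart_le hls e hy)
    have h0 := norm_nonneg y
    exact le_trans this (by linarith)

theorem exists_ls {ls : κ → ℝ} (hls : ‖ls‖ = 1) : ∃ i, 1 ≤ ‖ls i‖ := by
  by_contra h
  push Not at h
  have := (pi_norm_lt_iff (show (0 : ℝ) < 1 by norm_num)).2 h
  linarith

/-! ### Arcs -/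

theorem arc_differentiable {σ : Type} [Fintype σ] (a : ℕ → σ → ℝ) (M : ℕ) :
    Differentiable ℂ (arc a M) := by
  refine differentiable_pi.2 fun i => ?_
  unfold arc
  fun_prop

theorem arc_zero {σ : Type} {a : ℕ → σ → ℝ} (ha : a 0 = 0) (M : ℕ) : arc a M 0 = 0 := by
  funext i
  unfold arc
  refine Finset.sum_eq_zero fun n _ => ?_
  rcases Nat.eq_zero_or_pos n with rfl | hn
  · simp [ha]
  · simp [zero_pow hn.ne']

theorem arc_im {σ : Type} (a : ℕ → σ → ℝ) (M : ℕ) (t : ℝ) (i : σ) : (arc a M t i).im = 0 := by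
  unfold arc
  rw [Complex.im_sum]
  refine Finset.sum_eq_zero fun n _ => ?_
  rw [← Complex.ofReal_pow, ← Complex.ofReal_mul, Complex.ofReal_im]

theorem arc_isBigO {σ : Type} [Fintype σ] {a : ℕ → σ → ℝ} (ha : a 0 = 0) (M : ℕ) :
    arc a M =O[𝓝 0] fun t : ℂ => t := by
  have := ((arc_differentiable a M) 0).isBigO_sub
  simpa [arc_zero ha] using this

theorem arc_small {σ : Type} [Fintype σ] {a : ℕ → σ → ℝ} (ha : a 0 = 0) (M : ℕ) {ε : ℝ}
    (hε : 0 < ε) : ∀ᶠ t in 𝓝 (0 : ℂ), ‖arc a M t‖ < ε := by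
  have h := ((arc_differentiable a M).continuous.tendsto 0).norm
  rw [arc_zero ha, norm_zero] at h
  exact h.eventually (gt_mem_nhds hε)

/-- the truncated arc in the original coordinates -/
def X (ls : κ → ℝ) (k : ℕ) (a : ℕ → ι ⊕ κ → ℝ) (M : ℕ) (t : ℂ) : ι ⊕ κ → ℂ :=
  chart ls (t ^ k, arc a M t)

theorem X_differentiable (ls : κ → ℝ) (k : ℕ) (a : ℕ → ι ⊕ κ → ℝ) (M : ℕ) :
    Differentiable ℂ (X ls k a M) := by
  have h := differentiable_pi.1 (arc_differentiable a M)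
  refine differentiable_pi.2 fun s => ?_
  rcases s with j | i
  · exact h (Sum.inl j)
  · have := h (Sum.inr i)
    show Differentiable ℂ fun t : ℂ => t ^ k * ((ls i : ℂ) + arc a M t (Sum.inr i))
    fun_prop

theorem X_zero (ls : κ → ℝ) {k : ℕ} (hk : 0 < k) {a : ℕ → ι ⊕ κ → ℝ} (ha : a 0 = 0) (M : ℕ) :
    X ls k a M 0 = 0 := by
  funext s
  rcases s with j | i
  · simp [X, arc_zero ha]
  · simp [X, zero_pow hk.ne']

theorem X_tendsto (ls : κ → ℝ) {k : ℕ} (hk : 0 < k) {a : ℕ → ι ⊕ κ → ℝ} (ha : a 0 = 0) (M : ℕ) :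
    Tendsto (X ls k a M) (𝓝 0) (𝓝 0) := by
  have := (X_differentiable ls k a M).continuous.tendsto 0
  rwa [X_zero ls hk ha] at this

theorem X_isRe (ls : κ → ℝ) (k : ℕ) (a : ℕ → ι ⊕ κ → ℝ) (M : ℕ) (t : ℝ) :
    IsRe (X ls k a M t) := by
  intro s
  rcases s with j | i
  · exact arc_im a M t _
  · show ((t : ℂ) ^ k * ((ls i : ℂ) + arc a M t (Sum.inr i))).im = 0
    rw [← Complex.ofReal_pow]
    simp [arc_im, -Complex.ofReal_pow]

theorem cp_X_le {ls : κ → ℝ} (hls : ‖ls‖ = 1) (k : ℕ) {a : ℕ → ι ⊕ κ → ℝ} (ha : a 0 = 0) (M : ℕ) :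
    ∀ᶠ t in 𝓝 (0 : ℂ), ‖cp (X ls k a M t)‖ ≤ 2 * ‖t‖ ^ k := by
  filter_upwards [arc_small ha M one_pos] with t ht
  have := norm_cp_chart_le hls (t ^ k) ht.le
  rwa [norm_pow] at this

/-- the end parameters along the arc -/
theorem endArc {φ : κ → (ι ⊕ κ → ℂ) → ℂ} {ls : κ → ℝ} {k : ℕ} {a : ℕ → ι ⊕ κ → ℝ} (K : ℕ)
    (φ_ana : ∀ i, AnalyticAt ℂ (φ i) 0)
    (φ_re : ∀ i, ∀ᶠ x in 𝓝 (0 : ι ⊕ κ → ℂ), IsRe x → (φ i x).im = 0)
    (φ_app : ∀ i, (fun x => φ i x - x (Sum.inr i)) =O[𝓝 0] fun x => ‖cp x‖ ^ 2)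
    (hls : ‖ls‖ = 1) (hk : 0 < k) (ha : a 0 = 0) :
    EndArc k ls fun i t => φ i (X ls k a K t) where
  n_pos := hk
  norm_ls := hls
  ana i := by
    have h1 : AnalyticAt ℂ (X ls k a K) 0 := (X_differentiable ls k a K).analyticAt 0
    exact AnalyticAt.comp_of_eq (φ_ana i) h1 (X_zero ls hk ha K)
  re i := by
    have h1 : Tendsto (fun t : ℝ => X ls k a K t) (𝓝 0) (𝓝 0) :=
      (X_tendsto ls hk ha K).comp (by
        simpa using Complex.continuous_ofReal.tendsto 0)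
    filter_upwards [h1.eventually (φ_re i)] with t ht using ht (X_isRe ls k a K t)
  app i := by
    have h1 : (fun t : ℂ => φ i (X ls k a K t) - X ls k a K t (Sum.inr i)) =O[𝓝 0]
        fun t : ℂ => t ^ (k + 1) := by
      refine ((φ_app i).comp_tendsto (X_tendsto ls hk ha K)).trans (IsBigO.of_bound 4 ?_)
      filter_upwards [cp_X_le hls k ha K, ball_mem_nhds (0 : ℂ) one_pos] with t ht ht1
      rw [mem_ball_zero_iff] at ht1
      simp only [Function.comp, norm_pow, norm_norm]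
      have h2 : ‖t‖ ^ (2 * k) ≤ ‖t‖ ^ (k + 1) :=
        pow_le_pow_of_le_one (norm_nonneg _) ht1.le (by omega)
      calc ‖cp (X ls k a K t)‖ ^ 2 ≤ (2 * ‖t‖ ^ k) ^ 2 := pow_le_pow_left₀ (norm_nonneg _) ht 2
        _ = 4 * ‖t‖ ^ (2 * k) := by ring
        _ ≤ 4 * ‖t‖ ^ (k + 1) := by linarith
    have h2 : (fun t : ℂ => t ^ k * arc a K t (Sum.inr i)) =O[𝓝 0] fun t : ℂ => t ^ (k + 1) := by
      have h3 : (fun t : ℂ => arc a K t (Sum.inr i)) =O[𝓝 0] fun t : ℂ => t :=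
        (IsBigO.of_norm_le fun t => norm_le_pi_norm (arc a K t) (Sum.inr i)).trans
          (arc_isBigO ha K).norm_left
      simpa [pow_succ] using (isBigO_refl (fun t : ℂ => t ^ k) (𝓝 0)).mul h3
    refine (h1.add h2).congr_left fun t => ?_
    simp only [X, chart_inr]
    ring

end Vale.Agent.P218F.K.Re
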