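import Vale.Agent.P218F.KReal1

/-! Block K, leaf K-REAL, part 2: the multipliers are flat near the realised arc. -/

open Filter Topology Set Asymptotics Metric

noncomputable section

set_option linter.unusedSectionVars false

namespace Vale.Agent.P218F.K.Re

variable {ι κ τ : Type} [Fintype ι] [Fintype κ] [Fintype τ]

/-- the hypotheses of K-REAL -/
structure Hyp (r₀ r₁ Λ Λ' R₀ : ℝ) (f : ℝ → (ι ⊕ κ → ℂ) → ℂ) (G : ℝ → (ι ⊕ κ → ℂ) → (τ → ℂ))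
    (φ : κ → (ι ⊕ κ → ℂ) → ℂ) (Y : ℝ → ℂ → ℂ) (sig : ℂ → ℂ) (PG : τ → ℕ → (ι ⊕ κ → ℂ) → ℂ)
    (Pf : ℕ → (ι ⊕ κ → ℂ) → ℂ) (ls : κ → ℝ) (k K : ℕ) (a : ℕ → ι ⊕ κ → ℝ)
    (y : ℝ → ℂ → (ι ⊕ κ → ℂ)) : Prop where
  kd : KData r₀ Λ Λ' R₀ f G φ Y sig
  eG : ∀ i, IsExp r₀ Λ R₀ (fun R x => G R x i) (PG i)
  ef : IsExp r₀ Λ R₀ f Pf
  hls : ‖ls‖ = 1
  r_pos : 0 < r₁
  r_le : r₁ ≤ r₀
  r_half : r₁ ≤ 1 / 2
  k_pos : 0 < k
  a0 : a 0 = 0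
  flat : ∀ i, FlatOn (fun n z => PG i n (shift ls z)) k a
  nd : NewtonData ls r₁ Λ k a K y

/-- the realised arc in the original coordinates -/
def xx (ls : κ → ℝ) (k : ℕ) (y : ℝ → ℂ → (ι ⊕ κ → ℂ)) (R : ℝ) (t : ℂ) : ι ⊕ κ → ℂ :=
  chart ls (t ^ k, y R t)

variable {r₀ r₁ Λ Λ' R₀ : ℝ} {f : ℝ → (ι ⊕ κ → ℂ) → ℂ} {G : ℝ → (ι ⊕ κ → ℂ) → (τ → ℂ)}
  {φ : κ → (ι ⊕ κ → ℂ) → ℂ} {Y : ℝ → ℂ → ℂ} {sig : ℂ → ℂ} {PG : τ → ℕ → (ι ⊕ κ → ℂ) → ℂ}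
  {Pf : ℕ → (ι ⊕ κ → ℂ) → ℂ} {ls : κ → ℝ} {k K : ℕ} {a : ℕ → ι ⊕ κ → ℝ}
  {y : ℝ → ℂ → (ι ⊕ κ → ℂ)}

/-! ### The facts which depend on the shape of the domains -/

theorem Hyp.W_bound (h : Hyp r₀ r₁ Λ Λ' R₀ f G φ Y sig PG Pf ls k K a y) {R : ℝ} (_hR : R₀ ≤ R)
    {t : ℂ} (ht : t ∈ WW ι ls r₁ Λ k a K R) : ‖t‖ ^ k * R ^ 2 < 8 := by
  have h1 := norm_fst_le_of_mem h.hls (b := 1 / 4) (by linarith [h.r_half]) ht.2
  simp only [norm_pow] at h1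
  linarith

theorem Hyp.ball_sub (h : Hyp r₀ r₁ Λ Λ' R₀ f G φ Y sig PG Pf ls k K a y) {R : ℝ} (hR : R₀ ≤ R)
    {t : ℂ} (ht : t ∈ WW ι ls r₁ Λ k a K R) :
    ball (X ls k a K t) (r₁ / 2 / R ^ 4) ⊆ Dom ι κ r₀ Λ R := by
  intro x hx
  have hR1 : 1 ≤ R := h.kd.big.one_le hR
  have hr := h.r_pos
  have hr' := h.r_half
  rw [mem_ball, dist_eq_norm] at hx
  have h4 : (1 : ℝ) ≤ R ^ 4 := one_le_pow₀ hR1
  have h2 : R ^ 2 ≤ R ^ 4 := pow_le_pow_right₀ hR1 (by norm_num)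
  have hx4 : ‖x - X ls k a K t‖ * R ^ 4 < r₁ / 2 := by
    rwa [lt_div_iff₀ (by positivity)] at hx
  have hn := norm_nonneg (x - X ls k a K t)
  refine ⟨fun j => ?_, fun i => ?_⟩
  · have e1 := norm_le_pi_norm (x - X ls k a K t) (Sum.inl j)
    have e2 : ‖arc a K t (Sum.inl j)‖ < 1 / 2 * r₁ :=
      (norm_le_pi_norm (arc a K t) (Sum.inl j)).trans_lt ht.2.1
    have e3 : x (Sum.inl j) = (x - X ls k a K t) (Sum.inl j) + arc a K t (Sum.inl j) := by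
      simp [X]
    have e4 := norm_add_le ((x - X ls k a K t) (Sum.inl j)) (arc a K t (Sum.inl j))
    rw [e3]
    nlinarith [h.r_le]
  · have e1 : ‖x (Sum.inr i) - X ls k a K t (Sum.inr i)‖ ≤ ‖x - X ls k a K t‖ :=
      norm_le_pi_norm (x - X ls k a K t) (Sum.inr i)
    have e0 := norm_nonneg (x (Sum.inr i) - X ls k a K t (Sum.inr i))
    have e2 := mem_Om_of_near (c := X ls k a K t (Sum.inr i)) (c' := x (Sum.inr i)) (δ := 1 / 2)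
      (δ' := 1 / 2) (ht.2.2 i) (by nlinarith) (by nlinarith)
    exact Om_mono (by linarith) (by norm_num) R e2

theorem Hyp.mem_Dom (h : Hyp r₀ r₁ Λ Λ' R₀ f G φ Y sig PG Pf ls k K a y) {ρ : ℝ} (hρ : R₀ ≤ ρ)
    {x : ι ⊕ κ → ℂ} (hx : x ∈ St ι κ r₀) (hc : ‖cp x‖ * ρ ^ 2 ≤ 1) : x ∈ Dom ι κ r₀ Λ ρ :=
  h.kd.big.mem_Dom hρ hx (by linarith)

/-! ### Distances between the arcs -/

theorem Hyp.small (h : Hyp r₀ r₁ Λ Λ' R₀ f G φ Y sig PG Pf ls k K a y) {P : ℂ → Prop}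
    (hP : ∀ᶠ t in 𝓝 (0 : ℂ), P t) :
    ∀ᶠ R : ℝ in atTop, ∀ t ∈ WW ι ls r₁ Λ k a K R, P t := by
  filter_upwards [Re.small h.k_pos hP, eventually_ge_atTop R₀] with R h1 h2 t ht
  exact h1 t (h.W_bound h2 ht)

theorem ev_norm_le_one : ∀ᶠ t in 𝓝 (0 : ℂ), ‖t‖ ≤ 1 := by
  filter_upwards [ball_mem_nhds (0 : ℂ) one_pos] with t ht
  exact (mem_ball_zero_iff.1 ht).le

theorem Hyp.near (h : Hyp r₀ r₁ Λ Λ' R₀ f G φ Y sig PG Pf ls k K a y) :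
    ∀ᶠ R : ℝ in atTop, ∀ t ∈ WW ι ls r₁ Λ k a K R,
      ‖xx ls k y R t - X ls k a K t‖ ≤ 8 ^ 4 / R ^ 8 := by
  filter_upwards [h.nd.near, h.small ev_norm_le_one, eventually_ge_atTop R₀] with R h1 h2 h3 t ht
  have e1 : ‖t ^ k‖ ≤ 1 := by rw [norm_pow]; exact pow_le_one₀ (norm_nonneg _) (h2 t ht)
  exact (chart_sub_le ls e1 _ _).trans ((h1 t ht).trans
    (pow_le_of_lt' (m := 4) (norm_nonneg _) (h.kd.big.one_le h3) (h.W_bound h3 ht)))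

theorem Hyp.app (h : Hyp r₀ r₁ Λ Λ' R₀ f G φ Y sig PG Pf ls k K a y) (m M : ℕ) :
    ∃ M', M ≤ M' ∧ ∀ᶠ R : ℝ in atTop, ∀ t ∈ WW ι ls r₁ Λ k a K R,
      ‖X ls k a M' t - xx ls k y R t‖ ≤ 1 / R ^ m := by
  obtain ⟨M', ⟨C, hC⟩, hM⟩ := ((h.nd.app (m + 1)).and (eventually_ge_atTop M)).exists
  refine ⟨M', hM, ?_⟩
  filter_upwards [hC, h.small ev_norm_le_one, eventually_ge_atTop C, eventually_gt_atTop 0]
    with R h1 h2 h3 h4 t ht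
  have e1 : ‖t ^ k‖ ≤ 1 := by rw [norm_pow]; exact pow_le_one₀ (norm_nonneg _) (h2 t ht)
  rw [norm_sub_rev]
  exact (chart_sub_le ls e1 _ _).trans ((h1 t ht).trans (div_le_one_div m h4 h3))

theorem Hyp.half (h : Hyp r₀ r₁ Λ Λ' R₀ f G φ Y sig PG Pf ls k K a y) :
    ∀ᶠ R : ℝ in atTop, ∀ t ∈ WW ι ls r₁ Λ k a K R, ∀ x, ‖x - xx ls k y R t‖ ≤ 1 / R ^ 5 →
      x ∈ ball (X ls k a K t) (r₁ / 2 / R ^ 4 / 2) := by
  filter_upwards [h.near, eventually_ge_atTop (8 ^ 4 : ℝ), eventually_gt_atTop (8 / r₁)]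
    with R h1 h2 h3 t ht x hx
  have hr := h.r_pos
  have hR : (1 : ℝ) ≤ R := by linarith
  have e1 : ‖xx ls k y R t - X ls k a K t‖ ≤ 1 / R ^ 5 :=
    (h1 t ht).trans ((div_le_one_div 7 (by linarith) h2).trans (one_div_pow_le hR (by norm_num)))
  have e2 : ‖x - X ls k a K t‖ ≤ ‖x - xx ls k y R t‖ + ‖xx ls k y R t - X ls k a K t‖ :=
    norm_sub_le_norm_sub_add_norm_sub _ _ _
  rw [mem_ball, dist_eq_norm]
  have e3 : 1 / R ^ 5 + 1 / R ^ 5 < r₁ / 2 / R ^ 4 / 2 := by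
    rw [div_lt_iff₀ hr] at h3
    rw [← add_div, div_div, div_div, div_lt_div_iff₀ (by positivity) (by positivity)]
    have : (0 : ℝ) < R ^ 4 := by positivity
    nlinarith
  linarith

/-- bounded holomorphic families are `C R⁴`-Lipschitz near the realised arc -/
theorem Hyp.lip (h : Hyp r₀ r₁ Λ Λ' R₀ f G φ Y sig PG Pf ls k K a y) {V : Type}
    [NormedAddCommGroup V] [NormedSpace ℂ V] {F : ℝ → (ι ⊕ κ → ℂ) → V}
    (hol : ∀ R, R₀ ≤ R → DifferentiableOn ℂ (F R) (Dom ι κ r₀ Λ R))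
    (bdd : ∃ C : ℝ, ∀ R, R₀ ≤ R → ∀ x ∈ Dom ι κ r₀ Λ R, ‖F R x‖ ≤ C) :
    ∃ L : ℝ, 0 ≤ L ∧ ∀ᶠ R : ℝ in atTop, ∀ t ∈ WW ι ls r₁ Λ k a K R, ∀ x x',
      ‖x - xx ls k y R t‖ ≤ 1 / R ^ 5 → ‖x' - xx ls k y R t‖ ≤ 1 / R ^ 5 →
      ‖F R x' - F R x‖ ≤ L * R ^ 4 * ‖x' - x‖ := by
  obtain ⟨C, hC⟩ := bdd
  have hr := h.r_pos
  refine ⟨4 * |C| / r₁, by positivity, ?_⟩
  filter_upwards [h.half, eventually_ge_atTop R₀] with R h1 h2 t ht x x' hx hx'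
  have hR := h.kd.big.pos h2
  have e := lip_half (F := F R) (x₀ := X ls k a K t) (ρ := r₁ / 2 / R ^ 4) (C := |C|)
    (by positivity) ((hol R h2).mono (h.ball_sub h2 ht))
    (fun z hz => (hC R h2 z (h.ball_sub h2 ht hz)).trans (le_abs_self C))
    (h1 t ht x hx) (h1 t ht x' hx')
  refine e.trans (le_of_eq ?_)
  field_simp
  ring

theorem Hyp.mem (h : Hyp r₀ r₁ Λ Λ' R₀ f G φ Y sig PG Pf ls k K a y) :
    ∀ᶠ R : ℝ in atTop, ∀ t ∈ WW ι ls r₁ Λ k a K R, ∀ x, ‖x - xx ls k y R t‖ ≤ 1 / R ^ 5 →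
      x ∈ Dom ι κ r₀ Λ R := by
  filter_upwards [h.half, eventually_ge_atTop R₀] with R h1 h2 t ht x hx
  have hR := h.kd.big.pos h2
  have hr := h.r_pos
  have : 0 < r₁ / 2 / R ^ 4 := by positivity
  exact h.ball_sub h2 ht (ball_subset_ball (by linarith) (h1 t ht x hx))

/-! ### The multipliers along the truncated arcs -/

theorem Hyp.shift_mem (h : Hyp r₀ r₁ Λ Λ' R₀ f G φ Y sig PG Pf ls k K a y) (M : ℕ) :
    ∀ᶠ t in 𝓝 (0 : ℂ), shift ls (arc a M t) ∈ St ι κ r₀ := by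
  filter_upwards [arc_small h.a0 M h.kd.r_pos] with t ht j
  exact (norm_le_pi_norm (arc a M t) (Sum.inl j)).trans_lt ht

theorem Hyp.G_arc_one (h : Hyp r₀ r₁ Λ Λ' R₀ f G φ Y sig PG Pf ls k K a y) (M : ℕ) (i : τ) :
    ∃ C : ℝ, 0 ≤ C ∧ ∀ᶠ t in 𝓝 (0 : ℂ), ∀ r, R₀ ≤ r → X ls k a M t ∈ Dom ι κ r₀ Λ r →
      ‖G r (X ls k a M t) i‖ ≤ C * (‖t‖ ^ M + Real.exp (-r ^ 2 / 5)) := by
  obtain ⟨C, hC⟩ := (h.eG i).app M
  obtain ⟨D, hD⟩ := (h.flat i M).bound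
  refine ⟨|C| * 2 ^ M + |D|, by positivity, ?_⟩
  filter_upwards [hD, h.shift_mem M, cp_X_le h.hls k h.a0 M, ev_norm_le_one]
    with t h1 h2 h3 h4 r hr hx
  have e1 := hC r hr _ hx
  have e2 : ∑ n ∈ Finset.range M, PG i n (X ls k a M t) =
      tr (fun n z => PG i n (shift ls z)) M (t ^ k) (arc a M t) :=
    Finset.sum_congr rfl fun n _ => (h.eG i).hom n _ h2 (t ^ k)
  rw [e2] at e1
  rw [norm_pow] at h1
  have e3 : ‖cp (X ls k a M t)‖ ^ M ≤ 2 ^ M * ‖t‖ ^ M := by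
    rw [← mul_pow]
    refine pow_le_pow_left₀ (norm_nonneg _) (h3.trans ?_) M
    have := pow_le_pow_of_le_one (norm_nonneg t) h4 (show 1 ≤ k from h.k_pos)
    rw [pow_one] at this
    linarith
  have e4 := norm_le_norm_add_norm_sub' (G r (X ls k a M t) i)
    (tr (fun n z => PG i n (shift ls z)) M (t ^ k) (arc a M t))
  have p1 : 0 ≤ ‖t‖ ^ M := by positivity
  have p2 := (Real.exp_pos (-r ^ 2 / 5)).le
  have p3 : (1 : ℝ) ≤ 2 ^ M := one_le_pow₀ (by norm_num)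
  have p4 : 0 ≤ ‖cp (X ls k a M t)‖ ^ M := by positivity
  have e5 : C * (‖cp (X ls k a M t)‖ ^ M + Real.exp (-r ^ 2 / 5)) ≤
      |C| * 2 ^ M * (‖t‖ ^ M + Real.exp (-r ^ 2 / 5)) := by
    rw [mul_assoc]
    exact mul_le_mul (le_abs_self C) (by nlinarith) (by positivity) (abs_nonneg C)
  have e6 : D * ‖t‖ ^ M ≤ |D| * (‖t‖ ^ M + Real.exp (-r ^ 2 / 5)) :=
    mul_le_mul (le_abs_self D) (by linarith) p1 (abs_nonneg D)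
  linarith

theorem Hyp.G_arc (h : Hyp r₀ r₁ Λ Λ' R₀ f G φ Y sig PG Pf ls k K a y) (M : ℕ) :
    ∃ C : ℝ, 0 ≤ C ∧ ∀ᶠ t in 𝓝 (0 : ℂ), ∀ r, R₀ ≤ r → X ls k a M t ∈ Dom ι κ r₀ Λ r →
      ‖G r (X ls k a M t)‖ ≤ C * (‖t‖ ^ M + Real.exp (-r ^ 2 / 5)) := by
  choose C hC0 hC using h.G_arc_one M
  have h0 : 0 ≤ ∑ i, C i := Finset.sum_nonneg fun i _ => hC0 i
  refine ⟨∑ i, C i, h0, ?_⟩
  filter_upwards [eventually_all.2 hC] with t ht r hr hx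
  refine (pi_norm_le_iff_of_nonneg (by positivity)).2 fun i => (ht i r hr hx).trans ?_
  exact mul_le_mul_of_nonneg_right
    (Finset.single_le_sum (fun j _ => hC0 j) (Finset.mem_univ i)) (by positivity)

/-- the multipliers are flat near the realised arc -/
theorem Hyp.G_small (h : Hyp r₀ r₁ Λ Λ' R₀ f G φ Y sig PG Pf ls k K a y) (m : ℕ) :
    ∀ᶠ R : ℝ in atTop, ∀ t ∈ WW ι ls r₁ Λ k a K R, ∀ x, ‖x - xx ls k y R t‖ ≤ 1 / R ^ (m + 5) →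
      ‖G R x‖ ≤ 1 / R ^ m := by
  obtain ⟨M, hM, h1⟩ := h.app (m + 5) (k * (m + 1))
  obtain ⟨C, hC0, h2⟩ := h.G_arc M
  obtain ⟨L, hL0, h3⟩ := h.lip h.kd.hG.hol h.kd.hG.bdd
  filter_upwards [h1, h.small h2, h3, h.mem, h.small ev_norm_le_one, eventually_ge_atTop R₀,
    exp_le_inv_pow (m + 1) (show (0 : ℝ) < 5 by norm_num),
    eventually_ge_atTop (C * (8 ^ (m + 1) + 1) + 2 * L)] with R e1 e2 e3 e4 e5 e6 e7 e8 t ht x hx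
  have hR := h.kd.big.one_le e6
  have hR0 : 0 < R := by linarith
  have q5 : 1 / R ^ (m + 5) ≤ 1 / R ^ 5 := one_div_pow_le hR (by omega)
  have q1 := e1 t ht
  have q2 := e2 t ht R e6 (e4 t ht _ (q1.trans q5))
  have q3 := e3 t ht (X ls k a M t) x (q1.trans q5) (hx.trans q5)
  have q4 : ‖t‖ ^ M ≤ 8 ^ (m + 1) / R ^ (m + 1) :=
    pow_le_of_lt (norm_nonneg _) (e5 t ht) hR (h.W_bound e6 ht) hM
  have q6 : ‖x - X ls k a M t‖ ≤ 2 / R ^ (m + 5) := by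
    have := norm_sub_le_norm_sub_add_norm_sub x (xx ls k y R t) (X ls k a M t)
    rw [norm_sub_rev] at q1
    have e : 2 / R ^ (m + 5) = 1 / R ^ (m + 5) + 1 / R ^ (m + 5) := by ring
    linarith
  have q7 : L * R ^ 4 * ‖x - X ls k a M t‖ ≤ 2 * L / R ^ (m + 1) := by
    refine (mul_le_mul_of_nonneg_left q6 (by positivity)).trans (le_of_eq ?_)
    field_simp
    ring
  have q8 : C * (‖t‖ ^ M + Real.exp (-R ^ 2 / 5)) ≤ C * (8 ^ (m + 1) + 1) / R ^ (m + 1) := by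
    refine (mul_le_mul_of_nonneg_left (add_le_add q4 e7) hC0).trans (le_of_eq ?_)
    field_simp
  have q9 := norm_le_norm_add_norm_sub' (G R x) (G R (X ls k a M t))
  refine le_trans ?_ (div_le_one_div m hR0 e8)
  rw [add_div]
  linarith

end Vale.Agent.P218F.K.Re
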