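import Vale.Agent.P218F.KReal2

/-! Block K, leaf K-REAL, part 3: the reduced functions are flat along the realised arc. -/

open Filter Topology Set Asymptotics Metric

noncomputable section

set_option linter.unusedSectionVars false

namespace Vale.Agent.P218F.K.Re

variable {ι κ τ : Type} [Fintype ι] [Fintype κ] [Fintype τ]

variable {r₀ r₁ Λ Λ' R₀ : ℝ} {f : ℝ → (ι ⊕ κ → ℂ) → ℂ} {G : ℝ → (ι ⊕ κ → ℂ) → (τ → ℂ)}
  {φ : κ → (ι ⊕ κ → ℂ) → ℂ} {Y : ℝ → ℂ → ℂ} {sig : ℂ → ℂ} {PG : τ → ℕ → (ι ⊕ κ → ℂ) → ℂ}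
  {Pf : ℕ → (ι ⊕ κ → ℂ) → ℂ} {ls : κ → ℝ} {k K : ℕ} {a : ℕ → ι ⊕ κ → ℝ}
  {y : ℝ → ℂ → (ι ⊕ κ → ℂ)}

theorem tendsto_quarter : Tendsto (fun R : ℝ => R / 4) atTop atTop :=
  tendsto_id.atTop_div_const (by norm_num)

theorem exp_quarter (n : ℕ) : ∀ᶠ R : ℝ in atTop, Real.exp (-(R / 4) ^ 2 / 5) ≤ 1 / R ^ n := by
  filter_upwards [exp_le_inv_pow n (show (0 : ℝ) < 80 by norm_num)] with R h
  rwa [show -(R / 4) ^ 2 / 5 = -R ^ 2 / 80 by ring]

/-- the truncated arcs lie in the domain of the radius `R / 4` -/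
theorem Hyp.X_mem (h : Hyp r₀ r₁ Λ Λ' R₀ f G φ Y sig PG Pf ls k K a y) (M : ℕ) :
    ∀ᶠ R : ℝ in atTop, ∀ t : ℂ, ‖t‖ ^ k * R ^ 2 < 8 →
      X ls k a M t ∈ Dom ι κ r₀ Λ (R / 4) ∧ ‖cp (X ls k a M t)‖ * R ^ 2 ≤ 16 := by
  filter_upwards [Re.small h.k_pos ((h.shift_mem M).and (cp_X_le h.hls k h.a0 M)),
    tendsto_quarter.eventually (eventually_ge_atTop R₀)] with R h1 h2 t ht
  obtain ⟨e1, e2⟩ := h1 t ht
  have e3 : ‖cp (X ls k a M t)‖ * R ^ 2 ≤ 16 := by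
    have := mul_le_mul_of_nonneg_right e2 (sq_nonneg R)
    linarith
  exact ⟨h.mem_Dom h2 (fun j => e1 j) (by linarith), e3⟩

theorem fderiv_X_bdd (ls : κ → ℝ) (k : ℕ) (a : ℕ → ι ⊕ κ → ℝ) (M : ℕ) :
    ∃ D : ℝ, 0 ≤ D ∧ ∀ᶠ t in 𝓝 (0 : ℂ), ‖fderiv ℂ (X ls k a M) t‖ ≤ D := by
  have h1 : ContDiff ℂ 1 (X ls k a M) := (X_differentiable ls k a M).contDiff
  have h2 := ((h1.continuous_fderiv (by norm_num)).tendsto 0).norm
  refine ⟨‖fderiv ℂ (X ls k a M) 0‖ + 1, by positivity, ?_⟩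
  exact h2.eventually (ge_mem_nhds (by linarith))

/-- the variation of `f (R / 4)` along the truncated arc -/
theorem Hyp.var (h : Hyp r₀ r₁ Λ Λ' R₀ f G φ Y sig PG Pf ls k K a y) (m : ℕ) :
    ∃ M₀ : ℕ, ∀ M, M₀ ≤ M → ∀ᶠ R : ℝ in atTop, ∀ t : ℂ, ‖t‖ ^ k * R ^ 2 < 8 →
      ‖f (R / 4) (X ls k a M t) - f (R / 4) 0‖ ≤ 1 / R ^ m := by
  obtain ⟨C, A, hC⟩ := h.kd.grad
  refine ⟨k * (m + 1 + A), fun M hM => ?_⟩
  obtain ⟨E, hE0, hE⟩ := h.G_arc M
  obtain ⟨D, hD0, hD⟩ := fderiv_X_bdd ls k a M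
  filter_upwards [h.X_mem M, Re.small h.k_pos ((hE.and hD).and ev_norm_le_one),
    tendsto_quarter.eventually (eventually_ge_atTop R₀), exp_quarter (m + 1 + A),
    eventually_ge_atTop (|C| * (E * (8 ^ (m + 1 + A) + 1)) * D), eventually_ge_atTop (1 : ℝ)]
    with R h1 h2 h3 h4 h5 hR t ht
  have hR0 : 0 < R := by linarith
  have hs : ∀ s ∈ closedBall (0 : ℂ) ‖t‖, ‖s‖ ^ k * R ^ 2 < 8 := fun s hs =>
    lt_of_le_of_lt (mul_le_mul_of_nonneg_right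
      (pow_le_pow_left₀ (norm_nonneg _) (mem_closedBall_zero_iff.1 hs) k) (sq_nonneg R)) ht
  have hd : ∀ s ∈ closedBall (0 : ℂ) ‖t‖, DifferentiableAt ℂ (f (R / 4)) (X ls k a M s) :=
    fun s hs' => (h.kd.f_hol _ h3).differentiableAt
      ((isOpen_Dom r₀ Λ _).mem_nhds (h1 s (hs s hs')).1)
  have key := (convex_closedBall (0 : ℂ) ‖t‖).norm_image_sub_le_of_norm_fderiv_le (𝕜 := ℂ)
    (f := fun s => f (R / 4) (X ls k a M s)) (C := 1 / R ^ m)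
    (fun s hs' => (hd s hs').comp s (X_differentiable ls k a M s)) (fun s hs' => ?_)
    (mem_closedBall_self (norm_nonneg t)) (mem_closedBall_zero_iff.2 le_rfl)
  · rw [X_zero ls h.k_pos h.a0, sub_zero] at key
    refine key.trans ?_
    have := (h2 t ht).2
    have p : 0 ≤ 1 / R ^ m := by positivity
    nlinarith
  · obtain ⟨⟨e1, e2⟩, e3⟩ := h2 s (hs s hs')
    have hx := (h1 s (hs s hs')).1
    have q1 := e1 _ h3 hx
    have q2 := hC _ h3 _ hx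
    have q3 : ‖s‖ ^ M ≤ 8 ^ (m + 1 + A) / R ^ (m + 1 + A) :=
      pow_le_of_lt (norm_nonneg _) e3 hR (hs s hs') hM
    have q4 : ‖G (R / 4) (X ls k a M s)‖ ≤ E * (8 ^ (m + 1 + A) + 1) / R ^ (m + 1 + A) := by
      refine q1.trans ((mul_le_mul_of_nonneg_left (add_le_add q3 h4) hE0).trans (le_of_eq ?_))
      field_simp
    have q5 : (R / 4) ^ A ≤ R ^ A := pow_le_pow_left₀ (by positivity) (by linarith) A
    have q6 : ‖fderiv ℂ (f (R / 4)) (X ls k a M s)‖ ≤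
        |C| * R ^ A * (E * (8 ^ (m + 1 + A) + 1) / R ^ (m + 1 + A)) :=
      q2.trans (mul_le_mul (mul_le_mul (le_abs_self C) q5 (by positivity) (abs_nonneg C)) q4
        (norm_nonneg _) (by positivity))
    have q7 : fderiv ℂ (fun s => f (R / 4) (X ls k a M s)) s =
        (fderiv ℂ (f (R / 4)) (X ls k a M s)).comp (fderiv ℂ (X ls k a M) s) :=
      fderiv_comp s (hd s hs') (X_differentiable ls k a M s)
    rw [q7]
    refine (ContinuousLinearMap.opNorm_comp_le _ _).trans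
      ((mul_le_mul q6 e2 (norm_nonneg _) (by positivity)).trans
        (le_trans (le_of_eq ?_) (div_le_one_div m hR0 h5)))
    field_simp
    ring

/-- flatness -/
theorem Hyp.f_flat (h : Hyp r₀ r₁ Λ Λ' R₀ f G φ Y sig PG Pf ls k K a y) (m : ℕ) :
    ∀ᶠ R : ℝ in atTop, ∀ t ∈ WW ι ls r₁ Λ k a K R,
      ‖f R (xx ls k y R t) - Pf 0 0‖ ≤ 1 / R ^ m := by
  obtain ⟨M₀, hM₀⟩ := h.var (m + 1)
  obtain ⟨M, hM, h1⟩ := h.app (m + 5) M₀
  obtain ⟨L, hL0, h3⟩ := h.lip h.kd.f_hol h.kd.f_bdd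
  obtain ⟨C, hC⟩ := h.ef.app (m + 1)
  obtain ⟨D, hD⟩ := h.ef.app 1
  filter_upwards [hM₀ M hM, h1, h3, h.mem, h.X_mem M, eventually_ge_atTop R₀,
    tendsto_quarter.eventually (eventually_ge_atTop R₀), exp_quarter (m + 1),
    exp_le_inv_pow (m + 1) (show (0 : ℝ) < 5 by norm_num),
    eventually_ge_atTop (L + 2 * (|C| * (16 ^ (m + 1) + 1)) + 1 + |D|)]
    with R e0 e1 e3 e4 e5 e6 e7 e8 e9 e10 t ht
  have hR := h.kd.big.one_le e6
  have hR0 : 0 < R := by linarith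
  have hb := h.W_bound e6 ht
  have q5 : 1 / R ^ (m + 5) ≤ 1 / R ^ 5 := one_div_pow_le hR (by omega)
  have q1 := e1 t ht
  have q0 := e0 t hb
  have q3 := e3 t ht (X ls k a M t) (xx ls k y R t) (q1.trans q5) (by simp; positivity)
  have q4 : L * R ^ 4 * ‖xx ls k y R t - X ls k a M t‖ ≤ L / R ^ (m + 1) := by
    rw [norm_sub_rev]
    refine (mul_le_mul_of_nonneg_left q1 (by positivity)).trans (le_of_eq ?_)
    field_simp
    ring
  obtain ⟨q6, q7⟩ := e5 t hb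
  have q8 : ‖cp (X ls k a M t)‖ ^ (m + 1) ≤ 16 ^ (m + 1) / R ^ (m + 1) := by
    rw [← div_pow]
    refine pow_le_pow_left₀ (norm_nonneg _) ?_ _
    rw [le_div_iff₀ hR0]
    have : ‖cp (X ls k a M t)‖ * R ≤ ‖cp (X ls k a M t)‖ * R ^ 2 :=
      mul_le_mul_of_nonneg_left (by nlinarith) (norm_nonneg _)
    linarith
  have q9 : ∀ (r : ℝ), R₀ ≤ r → X ls k a M t ∈ Dom ι κ r₀ Λ r →
      Real.exp (-r ^ 2 / 5) ≤ 1 / R ^ (m + 1) →
      ‖f r (X ls k a M t) - ∑ n ∈ Finset.range (m + 1), Pf n (X ls k a M t)‖ ≤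
        |C| * (16 ^ (m + 1) + 1) / R ^ (m + 1) := by
    intro r hr hx he
    refine (hC r hr _ hx).trans ((mul_le_mul (le_abs_self C) (add_le_add q8 he) (by positivity)
      (abs_nonneg C)).trans (le_of_eq ?_))
    field_simp
  have q10 := q9 R e6 (e4 t ht _ (q1.trans q5)) e9
  have q11 := q9 (R / 4) e7 q6 e8
  have hz : (0 : ι ⊕ κ → ℂ) ∈ Dom ι κ r₀ Λ (R / 4) := by
    have := (e5 0 (by simp [zero_pow h.k_pos.ne'])).1
    rwa [X_zero ls h.k_pos h.a0] at this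
  have q12 : ‖f (R / 4) 0 - Pf 0 0‖ ≤ |D| / R ^ (m + 1) := by
    have := hD _ e7 _ hz
    rw [Finset.sum_range_one, show cp (0 : ι ⊕ κ → ℂ) = 0 from rfl, norm_zero, pow_one,
      zero_add] at this
    refine this.trans ((mul_le_mul (le_abs_self D) e8 (by positivity) (abs_nonneg D)).trans
      (le_of_eq ?_))
    field_simp
  have q13 : f R (xx ls k y R t) - Pf 0 0 = (f R (xx ls k y R t) - f R (X ls k a M t)) +
      (f R (X ls k a M t) - ∑ n ∈ Finset.range (m + 1), Pf n (X ls k a M t)) -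
      (f (R / 4) (X ls k a M t) - ∑ n ∈ Finset.range (m + 1), Pf n (X ls k a M t)) +
      (f (R / 4) (X ls k a M t) - f (R / 4) 0) + (f (R / 4) 0 - Pf 0 0) := by ring
  rw [q13]
  refine le_trans ?_ (div_le_one_div m hR0 e10)
  refine (norm_add_le _ _).trans ((add_le_add ((norm_add_le _ _).trans (add_le_add
    ((norm_sub_le _ _).trans (add_le_add ((norm_add_le _ _).trans (add_le_add (q3.trans q4) q10))
      q11)) q0)) q12).trans (le_of_eq ?_))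
  ring

/-- the annular regions lie in the region where the arc is realised -/
theorem Hyp.ann_sub (h : Hyp r₀ r₁ Λ Λ' R₀ f G φ Y sig PG Pf ls k K a y) :
    ∃ Λ₁ : ℝ, ∀ᶠ j : ℕ in atTop,
      Ann Λ₁ k (fun i t => φ i (X ls k a K t)) j ⊆ WW ι ls r₁ Λ k a K √(j : ℝ) := by
  have h1 : ∀ i, ∃ C : ℝ, 0 ≤ C ∧ ∀ᶠ t in 𝓝 (0 : ℂ),
      ‖φ i (X ls k a K t) - X ls k a K t (Sum.inr i)‖ ≤ C * (‖t‖ ^ k) ^ 2 := by
    intro i
    obtain ⟨C, hC⟩ := ((h.kd.φ_app i).comp_tendsto (X_tendsto ls h.k_pos h.a0 K)).bound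
    refine ⟨4 * |C|, by positivity, ?_⟩
    filter_upwards [hC, cp_X_le h.hls k h.a0 K] with t e1 e2
    simp only [Function.comp, norm_pow, norm_norm] at e1
    refine e1.trans ((mul_le_mul (le_abs_self C) (pow_le_pow_left₀ (norm_nonneg _) e2 2)
      (by positivity) (abs_nonneg C)).trans (le_of_eq ?_))
    ring
  choose C hC0 hC using h1
  have h0 : 0 ≤ ∑ i, C i := Finset.sum_nonneg fun i _ => hC0 i
  refine ⟨Λ + 1 / 2 + 8 * ∑ i, C i, ?_⟩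
  have hsq : Tendsto (fun j : ℕ => √(j : ℝ)) atTop atTop :=
    Real.tendsto_sqrt_atTop.comp tendsto_natCast_atTop_atTop
  have hr : 0 < 1 / 2 * r₁ := by linarith [h.r_pos]
  filter_upwards [hsq.eventually (Re.small h.k_pos ((eventually_all.2 hC).and
    (arc_small h.a0 K hr))), eventually_ge_atTop 1,
    tendsto_natCast_atTop_atTop.eventually (eventually_ge_atTop (256 * ∑ i, C i))]
    with j e1 e2 e3 t ht
  have hj : (0 : ℝ) < j := by exact_mod_cast e2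
  have hs : √(j : ℝ) ^ 2 = j := Real.sq_sqrt hj.le
  have hs4 : √(j : ℝ) ^ 4 = (j : ℝ) ^ 2 := by rw [show 4 = 2 * 2 from rfl, pow_mul, hs]
  obtain ⟨t1, t2, t3⟩ := ht
  rw [lt_div_iff₀ hj] at t2
  rw [div_lt_iff₀ (by positivity)] at t1
  have hb : ‖t‖ ^ k * √(j : ℝ) ^ 2 < 8 := by rw [hs]; linarith
  obtain ⟨q1, q2⟩ := e1 t hb
  refine ⟨by rw [hs]; linarith, q2, fun i => ?_⟩
  have q3 : ‖X ls k a K t (Sum.inr i) - φ i (X ls k a K t)‖ * (j : ℝ) ^ 2 ≤ 64 * ∑ i, C i := by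
    rw [norm_sub_rev]
    have p1 : C i ≤ ∑ i, C i := Finset.single_le_sum (fun j _ => hC0 j) (Finset.mem_univ i)
    have p2 : (‖t‖ ^ k * j) ^ 2 ≤ 8 ^ 2 := pow_le_pow_left₀ (by positivity) (by linarith) 2
    calc _ ≤ C i * (‖t‖ ^ k) ^ 2 * (j : ℝ) ^ 2 := mul_le_mul_of_nonneg_right (q1 i) (by positivity)
      _ = C i * (‖t‖ ^ k * j) ^ 2 := by ring
      _ ≤ (∑ i, C i) * 8 ^ 2 := mul_le_mul p1 p2 (by positivity) h0
      _ = 64 * ∑ i, C i := by ring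
  have q4 := mem_Om_of_near (c := φ i (X ls k a K t)) (c' := X ls k a K t (Sum.inr i))
    (δ := 8 * ∑ i, C i) (δ' := 1 / 4) (t3 i) (by rw [hs4]; linarith) (by
      rw [hs]
      have p := norm_nonneg (X ls k a K t (Sum.inr i) - φ i (X ls k a K t))
      by_contra hcon
      push Not at hcon
      nlinarith)
  exact Om_mono (by linarith) (by norm_num) _ q4

theorem Hyp.f_hol (h : Hyp r₀ r₁ Λ Λ' R₀ f G φ Y sig PG Pf ls k K a y) :
    ∀ᶠ R : ℝ in atTop,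
      DifferentiableOn ℂ (fun t => f R (xx ls k y R t)) (WW ι ls r₁ Λ k a K R) := by
  filter_upwards [h.nd.hol, h.mem, eventually_ge_atTop R₀] with R e1 e2 e3
  have hR := h.kd.big.pos e3
  have q1 : DifferentiableOn ℂ (xx ls k y R) (WW ι ls r₁ Λ k a K R) :=
    (differentiable_chart ls).comp_differentiableOn
      ((differentiable_pow k).differentiableOn.prodMk e1)
  exact (h.kd.f_hol R e3).comp q1 fun t ht => e2 t ht _ (by simp; positivity)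

end Vale.Agent.P218F.K.Re
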