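import Vale.Agent.P218F.KJump

/-! Block K: the Stokes argument from its leaves. -/

open Filter Topology Set Asymptotics Metric MeasureTheory

noncomputable section

namespace Vale.Agent.P218F.K

theorem continuousOn_param {F : ℝ → ℝ → ℂ} {a b c d : ℝ} (hab : a ≤ b) (hcd : c ≤ d)
    (hF : ContinuousOn (fun q : ℝ × ℝ => F q.1 q.2) (Icc a b ×ˢ Icc c d)) :
    ContinuousOn (fun β => ∫ r in a..b, F r β) (Icc c d) := by
  have h1 : Continuous fun q : ℝ × ℝ => F (projIcc a b hab q.2) (projIcc c d hcd q.1) :=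
    hF.comp_continuous (f := fun q : ℝ × ℝ => ((projIcc a b hab q.2 : ℝ), (projIcc c d hcd q.1 : ℝ)))
      (by fun_prop) fun q => ⟨(projIcc a b hab q.2).2, (projIcc c d hcd q.1).2⟩
  have h2 := intervalIntegral.continuous_parametric_intervalIntegral_of_continuous'
    (μ := volume) (f := fun β r => F (projIcc a b hab r) (projIcc c d hcd β)) h1 a b
  refine h2.continuousOn.congr fun β hβ => intervalIntegral.integral_congr fun r hr => ?_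
  rw [uIcc_of_le hab] at hr
  simp only [projIcc_of_mem hab hr, projIcc_of_mem hcd hβ]

theorem tendsto_sqrt_nat : Tendsto (fun j : ℕ => √(j : ℝ)) atTop atTop :=
  Real.tendsto_sqrt_atTop.comp tendsto_natCast_atTop_atTop

theorem sqrt_le_succ (j : ℕ) : √(j : ℝ) ≤ √((j : ℝ) + 1) := Real.sqrt_le_sqrt (by linarith)

theorem pt_mem_Rect {Λ₂ κ₁ : ℝ} {j : ℕ} (hj : 1 ≤ j) {β : ℝ}
    (hβ : |β| ≤ κ₁ * al Λ₂ √((j : ℝ) + 1)) :
    pt (al Λ₂ √((j : ℝ) + 1)) β ∈ Rect Λ₂ κ₁ j ∧ pt (al Λ₂ √((j : ℝ) + 1)) β ∈ Rect Λ₂ κ₁ (j + 1) := by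
  have h1 : (0 : ℝ) < j := by exact_mod_cast hj
  simp only [Rect, mem_ofPred_eq, pt_re, pt_im, Nat.cast_add, Nat.cast_one]
  exact ⟨⟨al_mono _ (Real.sqrt_pos.2 h1) (sqrt_le_succ j), le_rfl, hβ⟩, le_rfl,
    al_mono _ (Real.sqrt_pos.2 (by linarith)) (Real.sqrt_le_sqrt (by linarith)), hβ⟩

/-- the strips go to infinity in the sector -/
theorem eventually_Rect {κ₀ κ₁ : ℝ} (hκ : κ₁ < κ₀) (Λ₂ : ℝ) {q : ℂ → Prop}
    (h : ∀ᶠ ω in atSec κ₀, q ω) : ∀ᶠ j : ℕ in atTop, ∀ ω ∈ Rect Λ₂ κ₁ j, q ω := by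
  obtain ⟨ω₀, h0⟩ := eventually_atSec.1 h
  filter_upwards [((tendsto_al Λ₂).comp tendsto_sqrt_nat).eventually_gt_atTop (max ω₀ 0)]
    with j hj ω hω
  have h1 : max ω₀ 0 < ω.re := hj.trans_le hω.1
  exact h0 ω ⟨(le_max_left _ _).trans_lt h1, hω.2.2.trans_lt
    (mul_lt_mul_of_pos_right hκ ((le_max_right _ _).trans_lt h1))⟩

theorem eventually_norm_Rect {Λ₂ κ₁ : ℝ} (hΛ : 0 ≤ Λ₂) (hκ : κ₁ ≤ 1 / 2) :
    ∀ᶠ j : ℕ in atTop, ∀ ω ∈ Rect Λ₂ κ₁ j, (j : ℝ) / 2 ≤ ‖ω‖ ^ 2 ∧ ‖ω‖ ^ 2 ≤ j := by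
  have h0 : Tendsto (fun j : ℕ => √((j : ℝ) + 1)) atTop atTop :=
    Real.tendsto_sqrt_atTop.comp (tendsto_atTop_add_const_right _ _ tendsto_natCast_atTop_atTop)
  filter_upwards [h0.eventually (eventually_log_le_sq (Λ₂ / 2) (by norm_num : (0 : ℝ) < 1 / 20)),
    eventually_ge_atTop 10] with j h1 hj ω hω
  have h2 : (10 : ℝ) ≤ j := by exact_mod_cast hj
  have h3 : 1 ≤ √(j : ℝ) := Real.one_le_sqrt.2 (by linarith)
  have h4 := al_sq hΛ h3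
  have h5 := al_sq hΛ (h3.trans (sqrt_le_succ j))
  have h6 := Real.log_nonneg (one_le_pow₀ h3 : 1 ≤ √(j : ℝ) ^ 2)
  have h7 := pow_le_pow_left₀ (al_nonneg _ _) hω.1 2
  have h8 : 0 ≤ ω.re := (al_nonneg _ _).trans hω.1
  have h9 := pow_le_pow_left₀ h8 hω.2.1 2
  have h10 : ω.im ^ 2 ≤ (1 / 2 * ω.re) ^ 2 := by
    rw [← sq_abs]
    exact pow_le_pow_left₀ (abs_nonneg _) (hω.2.2.trans (by gcongr)) 2
  have e1 : √(j : ℝ) ^ 2 = j := Real.sq_sqrt (by linarith)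
  have e2 : √((j : ℝ) + 1) ^ 2 = j + 1 := Real.sq_sqrt (by linarith)
  rw [Complex.sq_norm, Complex.normSq_apply]
  rw [h4] at h7
  rw [h5] at h9
  rw [e1] at h6 h7
  rw [e2] at h1 h9
  constructor <;> nlinarith [sq_nonneg ω.im]

section Arc

variable {κ : Type} [Fintype κ] {n : ℕ} {ls : κ → ℝ} {p : κ → ℂ → ℂ}

omit [Fintype κ] in
theorem Ann_mono {Λ Λ₁ : ℝ} (h : Λ ≤ Λ₁) (j : ℕ) : Ann Λ₁ n p j ⊆ Ann Λ n p j :=
  fun _ ht => ⟨ht.1, ht.2.1, fun i => Om_mono h le_rfl _ (ht.2.2 i)⟩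

theorem StokesData.mono {Λ Λ₁ : ℝ} {Y : ℝ → ℂ → ℂ} {ψ : ℕ → ℂ → ℂ} (h : StokesData Λ Y n p ψ)
    (hΛ : Λ ≤ Λ₁) : StokesData Λ₁ Y n p ψ where
  hol := h.hol.mono fun j hj => hj.mono (Ann_mono hΛ j)
  flat := fun M => (h.flat M).imp fun _ hC => hC.mono fun j hj t ht => hj t (Ann_mono hΛ j ht)
  jump := h.jump.imp fun _ hη => ⟨hη.1, hη.2.mono fun j hj t ht ht' =>
    hj t (Ann_mono hΛ j ht) (Ann_mono hΛ _ ht')⟩

theorem EndArc.norm_le (h : EndArc n ls p) {ε : ℝ} (hε : 0 < ε) :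
    ∀ᶠ t in 𝓝 (0 : ℂ), ∀ i, ‖p i t‖ ≤ (1 + ε) * ‖t‖ ^ n := by
  refine eventually_all.2 fun i => ?_
  have h1 : (fun t : ℂ => t ^ (n + 1)) =o[𝓝 0] fun t => t ^ n := isLittleO_pow_pow n.lt_succ_self
  filter_upwards [((h.app i).trans_isLittleO h1).bound hε] with t ht
  have h2 : ‖(ls i : ℂ) * t ^ n‖ ≤ ‖t‖ ^ n := by
    rw [norm_mul, norm_pow, Complex.norm_real]
    exact mul_le_of_le_one_left (by positivity) ((norm_le_pi_norm ls i).trans h.norm_ls.le)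
  have h3 := norm_le_insert' (p i t) (ls i * t ^ n)
  rw [norm_pow] at ht
  linarith

theorem eventually_small (n : ℕ) (a : ℝ) {q : ℂ → Prop} (h : ∀ᶠ t in 𝓝 (0 : ℂ), q t) :
    ∀ᶠ j : ℕ in atTop, ∀ t : ℂ, ‖t‖ ^ n < a / j → q t := by
  obtain ⟨ε, hε, h1⟩ := Metric.eventually_nhds_iff.1 h
  filter_upwards [(tendsto_const_div_atTop_nhds_zero_nat a).eventually
    (gt_mem_nhds (pow_pos hε n))] with j hj t ht
  refine h1 ?_
  rw [dist_zero_right]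
  exact lt_of_pow_lt_pow_left₀ n hε.le (ht.trans hj)

theorem EndArc.annulus (h : EndArc n ls p) (Λ a : ℝ) (ha : a < 2) :
    ∀ᶠ j : ℕ in atTop, ∀ t : ℂ, 1 / (4 * (j : ℝ)) < ‖t‖ ^ n → ‖t‖ ^ n < a / j →
      t ∈ Ann Λ n p j := by
  have hε : 0 < (2 - a) / 4 := by linarith
  filter_upwards [eventually_small n a (h.norm_le hε), tendsto_sqrt_nat.eventually
    (eventually_mem_Om Λ (a := 9 / 4) (b := 2 - (2 - a) ^ 2 / 4 - min ((2 - a) / 4) 0 - 0)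
      (by nlinarith [min_eq_right hε.le, pow_pos (sub_pos.2 ha) 2])
      (by nlinarith [min_eq_right hε.le, sq_nonneg (2 - a)])), eventually_gt_atTop 0]
    with j h1 h2 hj t h3 h4
  have hj0 : (0 : ℝ) < j := by exact_mod_cast hj
  refine ⟨h3, h4.trans_le (by gcongr; linarith), fun i => h2 _ ?_⟩
  rw [Real.sq_sqrt hj0.le, min_eq_right hε.le]
  have h5 := h1 t h4 i
  rw [lt_div_iff₀ hj0] at h4
  have h6 := mul_le_mul_of_nonneg_right h5 hj0.le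
  have h7 := mul_le_mul_of_nonneg_left h4.le (by linarith : 0 ≤ 1 + (2 - a) / 4)
  nlinarith

omit [Fintype κ] in
theorem Ann_nest (Λ : ℝ) : ∀ᶠ i : ℕ in atTop, ∀ j, i ≤ j → ∀ t ∈ Ann Λ n p j,
    1 / (4 * (i : ℝ)) < ‖t‖ ^ n → ‖t‖ ^ n < 3 / (i : ℝ) → t ∈ Ann Λ n p i := by
  filter_upwards [tendsto_sqrt_nat.eventually (eventually_nest Λ)] with i hi j hj t ht h1 h2
  exact ⟨h1, h2, fun l => hi _ (Real.sqrt_le_sqrt (by exact_mod_cast hj)) _ (ht.2.2 l)⟩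

theorem StokesData.jump_le {R₀ Λ' Λ : ℝ} {Y : ℝ → ℂ → ℂ} {sig : ℂ → ℂ} {ψ : ℕ → ℂ → ℂ}
    (hS : SymData R₀ Λ' Y sig) (hΛ : Λ' ≤ Λ) (h : StokesData Λ Y n p ψ) :
    ∃ C : ℝ, ∀ᶠ j in atTop, ∀ t ∈ Ann Λ n p j, t ∈ Ann Λ n p (j + 1) →
      ‖ψ (j + 1) t - ψ j t‖ ≤ C * Real.exp (-(j : ℝ) / 4) := by
  obtain ⟨η, hη, hj⟩ := h.jump
  obtain ⟨C, hC0, hC⟩ := hS.bd_bdd
  refine ⟨Fintype.card κ * C + (1 + Fintype.card κ), ?_⟩
  filter_upwards [hj, tendsto_sqrt_nat.eventually (eventually_forall_ge_atTop.2 (eventually_nest Λ)),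
    tendsto_sqrt_nat.eventually_ge_atTop R₀, eventually_ge_atTop 1,
    hη.eventually (gt_mem_nhds one_pos)] with j h1 h2 h3 h4 h5 t ht ht'
  have hj1 : (1 : ℝ) ≤ j := by exact_mod_cast h4
  have hs1 : 1 ≤ √(j : ℝ) := Real.one_le_sqrt.2 hj1
  have h6 : ∀ i, ‖∫ r in √(j : ℝ)..√((j : ℝ) + 1),
      ((Real.exp (-r ^ 2 / 4) : ℝ) : ℂ) * bd (Y r (p i t))‖ ≤ C * Real.exp (-(j : ℝ) / 4) := by
    intro i
    refine (intervalIntegral.norm_integral_le_of_norm_le_const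
      (C := C * Real.exp (-(j : ℝ) / 4)) fun r hr => ?_).trans
      (mul_le_of_le_one_right (by positivity) ?_)
    · rw [uIoc_of_le (sqrt_le_succ j)] at hr
      have h7 := ht'.2.2 i
      push_cast at h7
      rw [norm_mul, Complex.norm_real, Real.norm_of_nonneg (Real.exp_pos _).le, mul_comm]
      refine mul_le_mul (hC r (h3.trans hr.1.le) _
        (Om_mono hΛ (by norm_num) r (h2 r hr.1.le _ hr.2 _ h7))) (Real.exp_le_exp.2 ?_)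
        (Real.exp_pos _).le hC0
      have h8 := pow_le_pow_left₀ (Real.sqrt_nonneg _) hr.1.le 2
      rw [Real.sq_sqrt (by linarith)] at h8
      linarith
    · rw [abs_of_nonneg (sub_nonneg.2 (sqrt_le_succ j)), sub_le_iff_le_add, Real.sqrt_le_iff]
      refine ⟨by positivity, ?_⟩
      nlinarith [Real.sq_sqrt (by linarith : (0 : ℝ) ≤ j)]
  have h7 := (norm_sum_le _ _).trans (Finset.sum_le_sum (s := Finset.univ) fun i _ => h6 i)
  have h8 : (1 + ∑ i, (j : ℝ) ^ (1 / 4 : ℝ) * ‖sOf √(j : ℝ) (p i t)‖ ^ (-(1 / 2) : ℝ)) ≤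
      (1 + Fintype.card κ) * (j : ℝ) ^ (3 / 2 : ℝ) := by
    have h9 : 1 ≤ (j : ℝ) ^ (3 / 2 : ℝ) := Real.one_le_rpow hj1 (by norm_num)
    have h10 : ∑ i, (j : ℝ) ^ (1 / 4 : ℝ) * ‖sOf √(j : ℝ) (p i t)‖ ^ (-(1 / 2) : ℝ) ≤
        ∑ _i : κ, (j : ℝ) ^ (3 / 2 : ℝ) := Finset.sum_le_sum fun i _ => by
      have h11 := (Om_re (by linarith) (ht.2.2 i)).le.trans (Complex.re_le_norm _)
      exact (mul_le_of_le_one_right (by positivity) (rpow_neg_half_le_one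
        (by linarith [hS.one_le]))).trans (Real.rpow_le_rpow_of_exponent_le hj1 (by norm_num))
    simp only [Finset.sum_const, Finset.card_univ, nsmul_eq_mul] at h10
    linarith
  have h9 := h1 t ht ht'
  have h10 : η j * Real.exp (-(j : ℝ) / 4) / (j : ℝ) ^ (3 / 2 : ℝ) *
      (1 + ∑ i, (j : ℝ) ^ (1 / 4 : ℝ) * ‖sOf √(j : ℝ) (p i t)‖ ^ (-(1 / 2) : ℝ)) ≤
      (1 + Fintype.card κ) * Real.exp (-(j : ℝ) / 4) := by
    calc _ ≤ 1 * Real.exp (-(j : ℝ) / 4) / (j : ℝ) ^ (3 / 2 : ℝ) *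
          ((1 + Fintype.card κ) * (j : ℝ) ^ (3 / 2 : ℝ)) :=
          mul_le_mul (by gcongr) h8 (by positivity) (by positivity)
      _ = _ := by field_simp
  have h11 := norm_le_insert' (ψ (j + 1) t - ψ j t) (∑ i, ∫ r in √(j : ℝ)..√((j : ℝ) + 1),
      ((Real.exp (-r ^ 2 / 4) : ℝ) : ℂ) * bd (Y r (p i t)))
  simp only [Finset.sum_const, Finset.card_univ, nsmul_eq_mul] at h7
  linarith

end Arc

/-- continuity of the jump of one end along the contour -/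
theorem Edge.continuousOn_endJ {R₀ Λ' κ₀ κ₁ Λ₂ : ℝ} {Y : ℝ → ℂ → ℂ} {sig P : ℂ → ℂ}
    (hS : SymData R₀ Λ' Y sig) (hP : Edge κ₀ P) (hκ0 : 0 < κ₁) (hκ : κ₁ < κ₀)
    (hm : ∀ᶠ r : ℝ in atTop, ∀ ω : ℂ, al Λ₂ r ≤ ω.re → |ω.im| < κ₀ * ω.re → P ω ∈ Om Λ' 4 r) :
    ∀ᶠ j : ℕ in atTop, ContinuousOn (endJ Y P Λ₂ j)
      (Icc (-(κ₁ * al Λ₂ √((j : ℝ) + 1))) (κ₁ * al Λ₂ √((j : ℝ) + 1))) := by
  obtain ⟨ω₀, hω₀⟩ := hP.hol
  filter_upwards [tendsto_sqrt_nat.eventually (eventually_forall_ge_atTop.2 hm),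
    tendsto_sqrt_nat.eventually_ge_atTop R₀, eventually_ge_atTop 1,
    eventually_Rect hκ Λ₂ (eventually_mem_Sec ω₀ κ₀)] with j h1 h2 h3 h4
  have h5 := mul_nonneg hκ0.le (al_nonneg Λ₂ √((j : ℝ) + 1))
  have h6 : (0 : ℝ) < j := by exact_mod_cast h3
  refine continuousOn_param (F := fun r β => ((Real.exp (-r ^ 2 / 4) : ℝ) : ℂ) *
    bd (Y r (P (pt (al Λ₂ √((j : ℝ) + 1)) β)))) (sqrt_le_succ j) (by linarith) ?_
  have h7 : ∀ q : ℝ × ℝ, q ∈ Icc √(j : ℝ) √((j : ℝ) + 1) ×ˢ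
      Icc (-(κ₁ * al Λ₂ √((j : ℝ) + 1))) (κ₁ * al Λ₂ √((j : ℝ) + 1)) →
      pt (al Λ₂ √((j : ℝ) + 1)) q.2 ∈ Sec ω₀ κ₀ := fun q hq =>
    h4 _ (pt_mem_Rect h3 (abs_le.2 hq.2)).1
  refine ContinuousOn.mul (by fun_prop) (hS.bd_cont.comp
    (f := fun q : ℝ × ℝ => (q.1, P (pt (al Λ₂ √((j : ℝ) + 1)) q.2))) (continuousOn_fst.prodMk
      (hω₀.continuousOn.comp ((continuous_pt _).comp continuous_snd).continuousOn h7))
    fun q hq => ⟨h2.trans hq.1.1, h1 q.1 hq.1.1 _ ?_ (h7 q hq).2⟩)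
  rw [pt_re]
  exact al_mono _ ((Real.sqrt_pos.2 h6).trans_le hq.1.1) hq.1.2

theorem cSum_split {κ : Type} [Fintype κ] {Λ₂ κ₁ B : ℝ} (hΛ : 0 ≤ Λ₂) (hκ : 0 < κ₁)
    {J : ℕ → ℝ → ℂ} {E : κ → ℕ → ℝ → ℂ}
    (hJ : ∀ᶠ j : ℕ in atTop, ContinuousOn (J j)
      (Icc (-(κ₁ * al Λ₂ √((j : ℝ) + 1))) (κ₁ * al Λ₂ √((j : ℝ) + 1))))
    (hE : ∀ i, ∀ᶠ j : ℕ in atTop, ContinuousOn (E i j)
      (Icc (-(κ₁ * al Λ₂ √((j : ℝ) + 1))) (κ₁ * al Λ₂ √((j : ℝ) + 1)))) :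
    ∀ᶠ N : ℕ in atTop, ∑ i, cSum Λ₂ κ₁ B (E i) N =
      cSum Λ₂ κ₁ B J N - cSum Λ₂ κ₁ B (fun j β => J j β - ∑ i, E i j β) N := by
  filter_upwards [eventually_forall_ge_atTop.2 (hJ.and (eventually_all.2 hE))] with N hN
  unfold cSum
  rw [← Finset.sum_sub_distrib, Finset.sum_comm]
  refine Finset.sum_congr rfl fun j hj => ?_
  have hj' := (Finset.mem_Ico.1 hj).1
  obtain ⟨h1, h2⟩ := hN j hj'
  have h3 : κ₁ * √(N : ℝ) / 2 ≤ κ₁ * al Λ₂ √((j : ℝ) + 1) := by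
    have h4 := half_le_al hΛ (Real.one_le_sqrt.2 (by simp : (1 : ℝ) ≤ (j : ℝ) + 1))
    have h5 : √(N : ℝ) ≤ √((j : ℝ) + 1) :=
      Real.sqrt_le_sqrt (by have : (N : ℝ) ≤ j := by exact_mod_cast hj'
                            linarith)
    have h6 := Real.sqrt_nonneg (N : ℝ)
    rw [mul_div_assoc]
    exact mul_le_mul_of_nonneg_left (by linarith) hκ.le
  have h4 : -(κ₁ * √(N : ℝ) / 2) ≤ κ₁ * √(N : ℝ) / 2 := by
    have : 0 ≤ κ₁ * √(N : ℝ) / 2 := by positivity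
    linarith
  have hk : Continuous fun β => ker B √(2 * (N : ℝ)) (pt (al Λ₂ √((j : ℝ) + 1)) β) :=
    (differentiable_ker _ _).continuous.comp (continuous_pt _)
  have hi : ∀ g : ℝ → ℂ, ContinuousOn g
      (Icc (-(κ₁ * al Λ₂ √((j : ℝ) + 1))) (κ₁ * al Λ₂ √((j : ℝ) + 1))) →
      IntervalIntegrable (fun β => g β * ker B √(2 * (N : ℝ)) (pt (al Λ₂ √((j : ℝ) + 1)) β)) volume
        (-(κ₁ * √(N : ℝ) / 2)) (κ₁ * √(N : ℝ) / 2) := fun g hg =>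
    ((hg.mono (Icc_subset_Icc (neg_le_neg h3) h3)).mul hk.continuousOn).intervalIntegrable_of_Icc h4
  rw [← intervalIntegral.integral_finsetSum fun i _ => hi _ (h2 i),
    ← intervalIntegral.integral_sub (hi _ h1)
      (hi (fun β => J j β - ∑ i, E i j β) (h1.sub (continuousOn_finsetSum _ fun i _ => h2 i)))]
  refine intervalIntegral.integral_congr fun β _ => ?_
  simp only [← Finset.sum_mul]
  ring

theorem stokes_of (hMu : MuStmt) (hNF : NFStmt) (hRect : RectStmt) (hErr : ErrStmt)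
    (hWt : WtStmt) (hB : BStmt) (hJ : JStmt) (hL : LEndStmt) (hT : TSumStmt) : StokesStmt := by
  classical
  intro κ _ R₀ Λ' Λ₀ Y sig n ls p ψ hS ⟨I₀, hI₀, hI⟩ hp hψ₀
  set Λ := max Λ₀ Λ' with hΛdef
  have hΛ : Λ' ≤ Λ := le_max_right _ _
  have hψ : StokesData Λ Y n p ψ := hψ₀.mono (le_max_left _ _)
  obtain ⟨κ₀, ω₀, tO, hκ0, hκ1, htO, hlim, ⟨i₀, k₀, hi₀⟩, hμ, hcl⟩ := hNF κ n ls p hp
  have hch : ∀ i, ∃ (b : Prop) (a k : ℝ), (b → Tied κ₀ (fun ω => p i (tO ω)) a k) ∧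
      (¬b → Lost κ₀ fun ω => p i (tO ω)) ∧ (i = i₀ → b ∧ a = 0) := by
    intro i
    by_cases hi : i = i₀
    · subst hi
      exact ⟨True, 0, k₀, fun _ => hi₀, fun h => (h trivial).elim, fun _ => ⟨trivial, rfl⟩⟩
    · rcases hcl i with ⟨a, k, h⟩ | h
      · exact ⟨True, a, k, fun _ => h, fun h => (h trivial).elim, fun h => (hi h).elim⟩
      · exact ⟨False, 0, 0, fun h => h.elim, fun _ => h, fun h => (hi h).elim⟩
  choose b a k hb hnb hb0 using hch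
  have hE : ∀ i, Edge κ₀ fun ω => p i (tO ω) := fun i => by
    by_cases h : b i
    exacts [(hb i h).edge, (hnb i h).edge]
  set κ₁ := κ₀ / 2 with hκ₁
  have hκ2 : 0 < κ₁ := half_pos hκ0
  have hκ3 : κ₁ < κ₀ := half_lt_self hκ0
  -- the choice of `B`
  obtain ⟨B, hB8, hBs⟩ : ∃ B : ℝ, 8 ≤ B ∧ ∑ i, (if b i ∧ a i ≠ 0 then
      Real.exp (k i / 2 + a i ^ 2 / 8 - a i ^ 2 * B / 16) else 0) < Real.exp (k i₀ / 2) := by
    have h1 : Tendsto (fun B : ℝ => ∑ i, (if b i ∧ a i ≠ 0 then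
        Real.exp (k i / 2 + a i ^ 2 / 8 - a i ^ 2 * B / 16) else 0)) atTop (𝓝 (∑ _i : κ, 0)) := by
      refine tendsto_finsetSum _ fun i _ => ?_
      by_cases h : b i ∧ a i ≠ 0
      · simp only [if_pos h]
        refine Real.tendsto_exp_atBot.comp ?_
        simp only [sub_eq_add_neg]
        exact tendsto_atBot_add_const_left _ _ (tendsto_neg_atTop_atBot.comp
          ((tendsto_id.const_mul_atTop (sq_pos_of_ne_zero h.2)).atTop_div_const (by norm_num)))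
      · simp only [if_neg h]; exact tendsto_const_nhds
    rw [Finset.sum_const_zero] at h1
    exact ((eventually_ge_atTop 8).and (h1.eventually (gt_mem_nhds (Real.exp_pos _)))).exists
  -- the choice of `Λ₂`
  obtain ⟨Λ₂, hΛ₂, hall⟩ : ∃ Λ₂ : ℝ, 0 ≤ Λ₂ ∧ ∀ i,
      (∀ᶠ r : ℝ in atTop, ∀ ω : ℂ, al Λ₂ r ≤ ω.re → |ω.im| < κ₀ * ω.re →
        p i (tO ω) ∈ Om Λ (9 / 4) r) ∧
      (b i → Tendsto (fun N : ℕ => cSum Λ₂ κ₁ B (endJ Y (fun ω => p i (tO ω)) Λ₂) N *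
        Complex.exp (-(Complex.I * a i * √(2 * (N : ℝ)) / 2))) atTop
        (𝓝 ((8 * Real.pi * √(Real.pi * B) *
          Real.exp (k i / 2 + a i ^ 2 / 8 - a i ^ 2 * B / 16) : ℝ) * I₀))) := by
    refine ((eventually_ge_atTop 0).and (eventually_all.2 fun i => Eventually.and ?_ ?_)).exists
    · obtain ⟨Λ₃, -, h⟩ := (hE i).mem_Om Λ
      exact (eventually_ge_atTop Λ₃).mono h
    · by_cases h : b i
      · obtain ⟨Λ₃, h1⟩ := hJ Y sig _ I₀ κ₀ _ _ (hB R₀ Λ' Y sig hS) hI hκ0 hκ1 (hb i h)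
        obtain ⟨Λ₄, h2⟩ := hT R₀ Λ' Y sig _ κ₀ _ _ hS hκ0 hκ1 (hb i h)
        filter_upwards [eventually_ge_atTop Λ₃, eventually_ge_atTop Λ₄] with Λ₂ h3 h4 _
        exact h2 Λ₂ κ₁ B I₀ h4 hκ2 hκ3 hB8 (h1 Λ₂ κ₁ B h3 hκ2 hκ3 hB8)
      · exact Eventually.of_forall fun _ h' => (h h').elim
  -- the strips lie in the annular regions
  have hnorm : ∀ ε : ℝ, 0 < ε → ε ≤ 1 / 2 → ∀ᶠ j : ℕ in atTop, ∀ ω ∈ Rect Λ₂ κ₁ j,
      1 / (2 * (j : ℝ)) ≤ ‖tO ω‖ ^ n ∧ ‖tO ω‖ ^ n ≤ (2 + 2 * ε) / j := by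
    intro ε hε hε'
    filter_upwards [eventually_Rect hκ3 Λ₂ (hlim.eventually (Ioo_mem_nhds
      (by linarith : 1 - ε < 1) (by linarith : 1 < 1 + ε))),
      eventually_norm_Rect hΛ₂ (by linarith : κ₁ ≤ 1 / 2), eventually_gt_atTop 0] with j h1 h2 hj ω hω
    have hj0 : (0 : ℝ) < j := by exact_mod_cast hj
    obtain ⟨h3, h4⟩ := h1 ω hω
    obtain ⟨h5, h6⟩ := h2 ω hω
    have h7 : 0 ≤ ‖tO ω‖ ^ n := by positivity
    rw [div_le_iff₀ (by positivity), le_div_iff₀ hj0]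
    constructor <;> nlinarith [mul_le_mul_of_nonneg_left h5 h7, mul_le_mul_of_nonneg_left h6 h7]
  have hAnn : ∀ᶠ j : ℕ in atTop, ∀ ω ∈ Rect Λ₂ κ₁ j, ω ∈ Sec ω₀ κ₀ ∧ tO ω ∈ Ann Λ n p j := by
    filter_upwards [hnorm (1 / 4) (by norm_num) (by norm_num),
      eventually_Rect hκ3 Λ₂ (eventually_mem_Sec ω₀ κ₀), eventually_gt_atTop 0,
      tendsto_sqrt_nat.eventually (eventually_all.2 fun i => (hall i).1)] with j h1 h2 hj h3 ω hω
    have hj0 : (0 : ℝ) < j := by exact_mod_cast hj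
    refine ⟨h2 ω hω, lt_of_lt_of_le ?_ (h1 ω hω).1, (h1 ω hω).2.trans_lt ?_,
      fun i => h3 i ω hω.1 (h2 ω hω).2⟩
    · exact one_div_lt_one_div_of_lt (by positivity) (by linarith)
    · gcongr; norm_num
  have hΨ : ∀ᶠ j in atTop, DifferentiableOn ℂ (fun ω => ψ j (tO ω)) (Rect Λ₂ κ₁ j) := by
    filter_upwards [hAnn, hψ.hol] with j h1 h2
    exact h2.comp (htO.mono fun ω hω => (h1 ω hω).1) fun ω hω => (h1 ω hω).2
  have h1 := hRect (fun j ω => ψ j (tO ω)) Λ₂ κ₁ B hΛ₂ hκ2 hB8 hΨ fun μ hμ' => by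
    obtain ⟨δ, C, hδ, h⟩ := hMu n (Ann Λ n p) ψ hp.n_pos (hp.annulus Λ) (Ann_nest Λ) hψ.hol
      hψ.flat (hψ.jump_le hS hΛ) μ hμ'
    refine ⟨C, ?_⟩
    filter_upwards [h, hAnn, hnorm (min (δ / 2) (1 / 2)) (by positivity) (min_le_right _ _)]
      with j h2 h3 h4 ω hω
    refine h2 _ (h3 ω hω).2 (h4 ω hω).1 ((h4 ω hω).2.trans ?_)
    gcongr
    linarith [min_le_left (δ / 2) (1 / 2)]
  -- the errors
  obtain ⟨η, hη, hjump⟩ := hψ.jump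
  have hre : ∀ i, ∀ᶠ j : ℕ in atTop, ∀ β : ℝ, |β| ≤ κ₁ * al Λ₂ √((j : ℝ) + 1) →
      1 ≤ (sOf √(j : ℝ) (p i (tO (pt (al Λ₂ √((j : ℝ) + 1)) β)))).re := fun i => by
    filter_upwards [hAnn, eventually_ge_atTop 1] with j h2 h3 β hβ
    have h4 : (0 : ℝ) < j := by exact_mod_cast h3
    exact (hS.one_le.trans hΛ).trans
      (Om_re (Real.sqrt_pos.2 h4).ne' ((h2 _ (pt_mem_Rect h3 hβ).1).2.2.2 i)).le
  have hW : ∀ i, ∃ C : ℝ, ∀ᶠ j : ℕ in atTop, ContinuousOn (fun β => (j : ℝ) ^ (1 / 4 : ℝ) *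
        ‖sOf √(j : ℝ) (p i (tO (pt (al Λ₂ √((j : ℝ) + 1)) β)))‖ ^ (-(1 / 2) : ℝ))
        (Icc (-(κ₁ * al Λ₂ √((j : ℝ) + 1))) (κ₁ * al Λ₂ √((j : ℝ) + 1))) ∧
      (∫ β in (-(κ₁ * al Λ₂ √((j : ℝ) + 1)))..(κ₁ * al Λ₂ √((j : ℝ) + 1)),
        (j : ℝ) ^ (1 / 4 : ℝ) *
          ‖sOf √(j : ℝ) (p i (tO (pt (al Λ₂ √((j : ℝ) + 1)) β)))‖ ^ (-(1 / 2) : ℝ) *
          Real.exp (-(3 / 8) * β ^ 2)) ≤ C := fun i => by
    obtain ⟨μ, hμ1, hμ2⟩ := hμ i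
    obtain ⟨ω₁, hω₁⟩ := (hE i).hol
    obtain ⟨C, hC⟩ := hWt _ μ ω₁ κ₀ κ₁ Λ₂ hω₁ hμ1 hμ2 hκ2 hκ3 hκ1 hΛ₂ (hre i)
    refine ⟨C, ?_⟩
    filter_upwards [hC, hre i, eventually_Rect hκ3 Λ₂ (eventually_mem_Sec ω₁ κ₀),
      eventually_ge_atTop 1] with j h2 h3 h4 h5
    refine ⟨continuousOn_const.mul (ContinuousOn.rpow_const
      ((differentiable_sOf _).continuous.comp_continuousOn (hω₁.continuousOn.comp
        (continuous_pt _).continuousOn fun β hβ => h4 _ (pt_mem_Rect h5 (abs_le.2 hβ)).1)).norm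
      fun β hβ => Or.inl ?_), h2⟩
    have := (h3 β (abs_le.2 hβ)).trans (Complex.re_le_norm _)
    exact (one_pos.trans_le this).ne'
  choose CW hCW using hW
  have h2 := hErr (fun j β => ψ (j + 1) (tO (pt (al Λ₂ √((j : ℝ) + 1)) β)) -
      ψ j (tO (pt (al Λ₂ √((j : ℝ) + 1)) β)) - ∑ i, endJ Y (fun ω => p i (tO ω)) Λ₂ j β) η
    (fun j β => 1 + ∑ i, (j : ℝ) ^ (1 / 4 : ℝ) *
      ‖sOf √(j : ℝ) (p i (tO (pt (al Λ₂ √((j : ℝ) + 1)) β)))‖ ^ (-(1 / 2) : ℝ)) Λ₂ κ₁ B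
    ((∫ β : ℝ, Real.exp (-(3 / 8) * β ^ 2)) + ∑ i, CW i) hΛ₂ hκ2 hB8 hη (by
      filter_upwards [eventually_all.2 hCW, hjump, hAnn, (tendsto_add_atTop_nat 1).eventually hAnn,
        eventually_ge_atTop 1] with j h3 h4 h5 h6 h7
      have h8 := mul_nonneg hκ2.le (al_nonneg Λ₂ √((j : ℝ) + 1))
      have hg : Continuous fun β : ℝ => Real.exp (-(3 / 8) * β ^ 2) := by fun_prop
      refine ⟨continuousOn_const.add (continuousOn_finsetSum _ fun i _ => (h3 i).1), ?_,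
        fun β hβ => ⟨by positivity, h4 _ (h5 _ (pt_mem_Rect h7 hβ).1).2
          (h6 _ (pt_mem_Rect h7 hβ).2).2⟩⟩
      simp only [add_mul, one_mul, Finset.sum_mul]
      have hi := fun i => ((h3 i).1.fun_mul hg.continuousOn).intervalIntegrable_of_Icc
        (μ := volume) (by linarith)
      rw [intervalIntegral.integral_add (hg.intervalIntegrable _ _)
        ((continuousOn_finsetSum _ fun i _ =>
          (h3 i).1.fun_mul hg.continuousOn).intervalIntegrable_of_Icc (by linarith)),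
        intervalIntegral.integral_finsetSum fun i _ => hi i]
      refine add_le_add ?_ (Finset.sum_le_sum fun i _ => (h3 i).2)
      rw [intervalIntegral.integral_of_le (by linarith)]
      exact setIntegral_le_integral (integrable_exp_neg_mul_sq (by norm_num))
        (Eventually.of_forall fun β => (Real.exp_pos _).le))
  have h3 : Tendsto (fun N => ∑ i, cSum Λ₂ κ₁ B (endJ Y (fun ω => p i (tO ω)) Λ₂) N) atTop
      (𝓝 0) := by
    have h4 := h1.sub h2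
    rw [sub_zero] at h4
    refine h4.congr' (EventuallyEq.symm (cSum_split hΛ₂ hκ2 ?_ fun i =>
      (hE i).continuousOn_endJ hS hκ2 hκ3 ((hall i).1.mono fun r hr ω h5 h6 =>
        Om_mono hΛ (by norm_num) r (hr ω h5 h6))))
    filter_upwards [hΨ, (tendsto_add_atTop_nat 1).eventually hΨ, eventually_ge_atTop 1]
      with j h5 h6 h7
    exact (h6.continuousOn.comp (continuous_pt _).continuousOn fun β hβ =>
      (pt_mem_Rect h7 (abs_le.2 hβ)).2).sub (h5.continuousOn.comp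
        (continuous_pt _).continuousOn fun β hβ => (pt_mem_Rect h7 (abs_le.2 hβ)).1)
  -- the contradiction
  set c : ℝ := 8 * Real.pi * √(Real.pi * B) with hc
  have hc0 : 0 < c := by have := Real.pi_pos; positivity
  set x : κ → ℝ := fun i => Real.exp (k i / 2 + a i ^ 2 / 8 - a i ^ 2 * B / 16) with hx
  set m : κ → ℝ := fun i => if b i ∧ a i = 0 then x i else 0 with hm
  set e : κ → ℝ := fun i => if b i ∧ a i ≠ 0 then x i else 0 with he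
  have h4 : ∀ i, Tendsto (fun N => ‖cSum Λ₂ κ₁ B (endJ Y (fun ω => p i (tO ω)) Λ₂) N -
      (c * m i : ℝ) * I₀‖) atTop (𝓝 (c * ‖I₀‖ * e i)) := by
    intro i
    by_cases hbi : b i
    · have h5 := (hall i).2 hbi
      by_cases hai : a i = 0
      · have h6 : m i = x i := if_pos ⟨hbi, hai⟩
        have h7 : e i = 0 := if_neg fun h => h.2 hai
        rw [h6, h7, mul_zero]
        refine tendsto_iff_norm_sub_tendsto_zero.1 (h5.congr fun N => ?_)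
        simp [hai]
      · have h6 : m i = 0 := if_neg fun h => hai h.2
        have h7 : e i = x i := if_pos ⟨hbi, hai⟩
        have h8 := h5.norm
        rw [norm_mul, Complex.norm_real, Real.norm_of_nonneg (by positivity)] at h8
        rw [h6, h7, mul_right_comm c]
        refine h8.congr fun N => ?_
        simp [Complex.norm_exp]
    · have h6 : m i = 0 := if_neg fun h => hbi h.1
      have h7 : e i = 0 := if_neg fun h => hbi h.1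
      rw [h6, h7]
      simpa using (hL R₀ Λ' Y sig _ κ₀ Λ₂ κ₁ B hS hκ0 hκ1 (hnb i hbi) hΛ₂ hκ2 hκ3 hB8).norm
  have hm0 : ∀ i, 0 ≤ m i := fun i => by
    simp only [hm, hx]; split_ifs <;> positivity
  have h5 : c * ‖I₀‖ * ∑ i, m i ≤ 0 + ∑ i, c * ‖I₀‖ * e i := by
    refine ge_of_tendsto' ((tendsto_zero_iff_norm_tendsto_zero.1 h3).add
      (tendsto_finsetSum _ fun i _ => h4 i)) fun N => ?_
    have h6 : ‖∑ i, ((c * m i : ℝ) : ℂ) * I₀‖ = c * ‖I₀‖ * ∑ i, m i := by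
      rw [← Finset.sum_mul, ← Complex.ofReal_sum, ← Finset.mul_sum, norm_mul, Complex.norm_real,
        Real.norm_of_nonneg (mul_nonneg hc0.le (Finset.sum_nonneg fun i _ => hm0 i))]
      ring
    rw [← h6]
    refine (norm_le_insert (∑ i, cSum Λ₂ κ₁ B (endJ Y (fun ω => p i (tO ω)) Λ₂) N) _).trans
      (add_le_add le_rfl ?_)
    rw [← Finset.sum_sub_distrib]
    exact norm_sum_le _ _
  rw [zero_add, ← Finset.mul_sum] at h5
  have h6 := le_of_mul_le_mul_left h5 (mul_pos hc0 (norm_pos_iff.2 hI₀))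
  have h7 : m i₀ = Real.exp (k i₀ / 2) := by
    simp only [hm, hx, if_pos (hb0 i₀ rfl), (hb0 i₀ rfl).2]; norm_num
  have h8 := Finset.single_le_sum (fun i _ => hm0 i) (Finset.mem_univ i₀)
  linarith

end Vale.Agent.P218F.K
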