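import Vale.Agent.P218F.LSEl
import Vale.Agent.P218F.CorePar

/-! The energy of the unperturbed surface is its Gaussian area (helper62). -/

open MeasureTheory Set Filter Topology Metric Matrix
open scoped ContDiff RealInnerProductSpace Real

set_option maxSynthPendingDepth 3

noncomputable section

namespace Vale.Agent.P218F.LS

open Vale.Agent.P218FT hiding P2
open Vale.Agent.P218F.Core Vale.Agent.P218F.Ends Vale.Agent.P218F.Ft Vale.Agent.P218F.Mesh

namespace Bse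

/-- the half strip -/
abbrev hs (s : ℝ) : Set P2 := Ioi s ×ˢ Ioc 0 (2 * π)

theorem hs_meas (s : ℝ) : MeasurableSet (hs s) := measurableSet_Ioi.prod measurableSet_Ioc

theorem rn_le (D : P2 →L[ℝ] E3) : ‖rn D‖ ≤ ‖D‖ ^ 2 := by
  have h1 : ‖D (1, 0)‖ ≤ ‖D‖ := by simpa using D.le_opNorm (1, 0)
  have h2 : ‖D (0, 1)‖ ≤ ‖D‖ := by simpa using D.le_opNorm (0, 1)
  refine (sq_le_sq₀ (norm_nonneg _) (by positivity)).1 ?_
  rw [norm_rn_sq]
  have h3 : ‖D (1, 0)‖ ^ 2 * ‖D (0, 1)‖ ^ 2 ≤ ‖D‖ ^ 2 * ‖D‖ ^ 2 := by gcongr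
  nlinarith [sq_nonneg ⟪D (1, 0), D (0, 1)⟫]

theorem pow_exp {t : ℝ} (ht : 0 ≤ t) :
    (1 + t) ^ 2 * Real.exp (-t ^ 2 / 4) ≤ 2 * Real.exp 5 * Real.exp (-t) := by
  have h1 := Real.pow_div_factorial_le_exp (1 + t) (by linarith) 2
  rw [div_le_iff₀ (by positivity)] at h1
  have h2 : Real.exp (1 + t) * Real.exp (-t ^ 2 / 4) ≤ Real.exp 5 * Real.exp (-t) := by
    rw [← Real.exp_add, ← Real.exp_add]
    exact Real.exp_le_exp.2 (by nlinarith [sq_nonneg (t / 2 - 2)])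
  have h3 := Real.exp_pos (-t ^ 2 / 4)
  norm_num [Nat.factorial] at h1
  nlinarith

theorem int_end {K : P2 → E3} (hK : ContDiff ℝ 1 K) {Z M : ℝ} (s : ℝ)
    (h : ∀ p : P2, Z < p.1 → p.2 ∈ Icc 0 (2 * π) →
      p.1 ≤ ‖K p‖ ∧ ‖fderiv ℝ K p‖ ≤ M * (1 + ‖K p‖)) :
    IntegrableOn (fun u => ‖rn (fderiv ℝ K u)‖ • gw (K u)) (hs s) := by
  have hc : Continuous fun u => ‖rn (fderiv ℝ K u)‖ • gw (K u) :=
    (continuous_rn.comp (hK.continuous_fderiv one_ne_zero)).norm.smul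
      (continuous_gw.comp hK.continuous)
  have h1 : IntegrableOn (fun u => ‖rn (fderiv ℝ K u)‖ • gw (K u)) (Icc s Z ×ˢ Icc 0 (2 * π)) :=
    hc.continuousOn.integrableOn_compact (isCompact_Icc.prod isCompact_Icc)
  have h2 : IntegrableOn (fun u => ‖rn (fderiv ℝ K u)‖ • gw (K u)) (hs Z) := by
    have i : IntegrableOn (fun y : P2 => M ^ 2 * (2 * Real.exp 5) * Real.exp (-y.1)) (hs Z) := by
      rw [IntegrableOn, Measure.volume_eq_prod, ← Measure.prod_restrict]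
      exact Integrable.comp_fst ((integrableOn_exp_neg_Ioi Z).const_mul _) _
    refine i.mono' hc.aestronglyMeasurable ?_
    filter_upwards [ae_restrict_mem (hs_meas Z)] with p hp
    obtain ⟨a, b⟩ := h p hp.1 (Ioc_subset_Icc_self hp.2)
    have c : ‖rn (fderiv ℝ K p)‖ ≤ (M * (1 + ‖K p‖)) ^ 2 := (rn_le _).trans (by gcongr)
    have d : Real.exp (-‖K p‖) ≤ Real.exp (-p.1) := Real.exp_le_exp.2 (by linarith)
    have e := pow_exp (norm_nonneg (K p))
    rw [smul_eq_mul, Real.norm_of_nonneg (mul_nonneg (norm_nonneg _) (gw_pos _).le), gw]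
    calc _ ≤ (M * (1 + ‖K p‖)) ^ 2 * Real.exp (-‖K p‖ ^ 2 / 4) := by gcongr
      _ = M ^ 2 * ((1 + ‖K p‖) ^ 2 * Real.exp (-‖K p‖ ^ 2 / 4)) := by ring
      _ ≤ M ^ 2 * (2 * Real.exp 5 * Real.exp (-p.1)) :=
        mul_le_mul_of_nonneg_left (e.trans (by gcongr)) (sq_nonneg _)
      _ = _ := by ring
  refine (h1.union h2).mono_set fun p hp => ?_
  rcases le_or_gt p.1 Z with a | a
  · exact Or.inl ⟨⟨le_of_lt hp.1, a⟩, Ioc_subset_Icc_self hp.2⟩
  · exact Or.inr ⟨a, hp.2⟩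

theorem bd_mul {w : ℝ → E3} (hw : ContDiff ℝ 1 w) : ∃ M : ℝ, 0 ≤ M ∧ ∀ (f : P2 → ℝ) (p : P2),
    DifferentiableAt ℝ f p → p.2 ∈ Icc 0 (2 * π) → |f p| ≤ 2 → ‖fderiv ℝ f p‖ ≤ 1 →
      ‖f p • w p.2‖ ≤ M ∧
        ∃ L : P2 →L[ℝ] E3, HasFDerivAt (fun η : P2 => f η • w η.2) L p ∧ ‖L‖ ≤ M := by
  obtain ⟨A, hA⟩ := isCompact_Icc.exists_bound_of_continuousOn
    (hw.continuous.continuousOn (s := Icc 0 (2 * π)))
  obtain ⟨B, hB⟩ := isCompact_Icc.exists_bound_of_continuousOn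
    ((hw.continuous_fderiv one_ne_zero).continuousOn (s := Icc 0 (2 * π)))
  have z : (0 : ℝ) ∈ Icc 0 (2 * π) := ⟨le_rfl, Real.two_pi_pos.le⟩
  have A0 : 0 ≤ A := (norm_nonneg _).trans (hA 0 z)
  have B0 : 0 ≤ B := (norm_nonneg _).trans (hB 0 z)
  refine ⟨2 * A + 2 * B, by positivity, fun f p hf hp h1 h2 => ⟨?_, _,
    hf.hasFDerivAt.smul ((hw.differentiable one_ne_zero p.2).hasFDerivAt.comp p hasFDerivAt_snd),
      ?_⟩⟩
  · rw [norm_smul, Real.norm_eq_abs]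
    have : |f p| * ‖w p.2‖ ≤ 2 * A := by gcongr; exact hA _ hp
    linarith
  · refine (norm_add_le _ _).trans ?_
    rw [norm_smul, ContinuousLinearMap.norm_smulRight_apply, Real.norm_eq_abs]
    have a : ‖(fderiv ℝ w p.2).comp (ContinuousLinearMap.snd ℝ ℝ ℝ)‖ ≤ B :=
      (ContinuousLinearMap.opNorm_comp_le _ _).trans
        ((mul_le_of_le_one_right (norm_nonneg _) (ContinuousLinearMap.norm_snd_le ..)).trans
          (hB _ hp))
    have b : |f p| * ‖(fderiv ℝ w p.2).comp (ContinuousLinearMap.snd ℝ ℝ ℝ)‖ ≤ 2 * B := by gcongr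
    have c : ‖fderiv ℝ f p‖ * ‖w p.2‖ ≤ 1 * A := by gcongr; exact hA _ hp
    linarith

variable {S : Set E3}

theorem one_le : (1 : WithTop ℕ∞) ≤ ∞ := WithTop.coe_le_coe.2 (le_top : (1 : ℕ∞) ≤ ⊤)

theorem cd_Kd {D : EndData S} (hC : Charts S D) (j : JJ D) : ContDiff ℝ 1 (Kd D j) :=
  ((hC.smooth j).1.add ((hC.smooth j).2.2.smul (hC.smooth j).2.1)).of_le one_le

theorem bd_Kd {D : EndData S} (hC : Charts S D) (j : JJ D) : ∃ Z M : ℝ, ∀ p : P2, Z < p.1 →
    p.2 ∈ Icc 0 (2 * π) → p.1 ≤ ‖Kd D j p‖ ∧ ‖fderiv ℝ (Kd D j) p‖ ≤ M * (1 + ‖Kd D j p‖) := by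
  rcases j with j | i
  · obtain ⟨Z, hZ⟩ := (D.cyl j).lim 1 1 one_pos
    obtain ⟨M, M0, hM⟩ := bd_mul (w := fun θ => Real.cos θ • D.a j + Real.sin θ • D.b j)
      (by fun_prop)
    refine ⟨max Z 0, 1 + M, fun p hp hθ => ⟨(hC.norm_cyl j p ((le_max_right _ _).trans hp.le)).1,
      ?_⟩⟩
    have h1 := hZ p.1 p.2 ((le_max_left _ _).trans hp.le)
    rw [norm_iteratedFDeriv_one, fderiv_sub_const] at h1
    obtain ⟨-, L, hL, hn⟩ := hM (D.r j) p
      (((D.cyl j).smooth.of_le one_le).differentiable one_ne_zero p) hθ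
      (abs_le.2 ⟨by linarith [((D.cyl j).bd p).1], ((D.cyl j).bd p).2.le⟩) h1
    have h2 : HasFDerivAt (Kd D (.inl j)) _ p := (hasFDerivAt_fst.smul_const (D.c j)).add hL
    rw [h2.fderiv]
    refine (norm_add_le _ _).trans ?_
    rw [ContinuousLinearMap.norm_smulRight_apply, (D.cyl j).tri.nc, mul_one]
    have := ContinuousLinearMap.norm_fst_le ℝ ℝ ℝ
    nlinarith [norm_nonneg (Kd D (.inl j) p)]
  · obtain ⟨Z, hZ⟩ := (D.cone i).lim 1 1 one_pos
    obtain ⟨A, A0, hA⟩ := bd_mul ((D.cone i).crv.smooth.of_le one_le)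
    obtain ⟨B, B0, hB⟩ := bd_mul ((D.cone i).crv.smooth_n.of_le one_le)
    refine ⟨Z, 2 * (A + B), fun p hp hθ => ⟨?_, ?_⟩⟩
    · linarith [(hC.norm_cone i p).1, Real.add_one_le_exp p.1]
    have h1 := hZ p.1 p.2 hp.le
    rw [norm_iteratedFDeriv_one] at h1
    obtain ⟨a1, L, hL, a2⟩ := hA (fun _ => 1) p (differentiableAt_const _) hθ (by norm_num)
      (by simp)
    obtain ⟨b1, L', hL', b2⟩ := hB (D.ψ i) p
      (((D.cone i).smooth.of_le one_le).differentiable one_ne_zero p) hθ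
      (by linarith [(D.cone i).bd p, D.δle]) h1
    have h3 : HasFDerivAt (Kd D (.inr i)) _ p :=
      ((hasFDerivAt_fst (𝕜 := ℝ) (p := p)).exp.smul (hL.add hL')).congr_of_eventuallyEq
        (Eventually.of_forall fun η => by simp [Kd_inr, conePt])
    rw [h3.fderiv]
    refine (norm_add_le _ _).trans ?_
    rw [norm_smul, ContinuousLinearMap.norm_smulRight_apply, norm_smul, Real.norm_eq_abs,
      Real.abs_exp]
    have c1 : ‖L + L'‖ ≤ A + B := (norm_add_le _ _).trans (add_le_add a2 b2)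
    have c2 := (norm_add_le _ _).trans (add_le_add a1 b1)
    have c3 := ContinuousLinearMap.norm_fst_le ℝ ℝ ℝ
    have c4 := (hC.norm_cone i p).1
    have c5 := Real.exp_pos p.1
    calc _ ≤ Real.exp p.1 * (A + B) + Real.exp p.1 * 1 * (A + B) := by
          gcongr
          exact c2
      _ = 2 * (A + B) * Real.exp p.1 := by ring
      _ ≤ _ := by gcongr; linarith

theorem injOn_Kd {D : EndData S} (hC : Charts S D) (j : JJ D) {s : ℝ} (h : st D j ≤ s) :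
    InjOn (Kd D j) (hs s) := by
  rintro ⟨z, θ⟩ ⟨h1, h2⟩ ⟨z', θ'⟩ ⟨h3, h4⟩ e
  obtain ⟨-, e1, k, e2⟩ := hC.inj j j _ _ (h.trans (le_of_lt h1)) (h.trans (le_of_lt h3)) e
  simp only at e1 e2 h2 h4
  have hp := Real.pi_pos
  have k1 : (k : ℝ) < 1 := by nlinarith [h2.1, h4.2]
  have k2 : (-1 : ℝ) < k := by nlinarith [h2.2, h4.1]
  have k0 : k = 0 := by
    have : k < 1 := by exact_mod_cast k1
    have : -1 < k := by exact_mod_cast k2
    omega
  rw [e1, e2, k0]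
  simp

theorem mem_image {D : EndData S} (hC : Charts S D) (j : JJ D) {s : ℝ} {p : P2} (h : s < p.1) :
    Kd D j p ∈ Kd D j '' hs s := by
  have per : Function.Periodic (fun θ => Kd D j (p.1, θ)) (2 * π) := fun θ => by
    obtain ⟨a, b, c⟩ := hC.per j (p.1, θ)
    simp only [Kd, a, b, c]
  refine ⟨(p.1, toIocMod Real.two_pi_pos 0 p.2), ⟨h, ?_⟩, ?_⟩
  · simpa using toIocMod_mem_Ioc Real.two_pi_pos 0 p.2
  · exact per.sub_zsmul_eq (toIocDiv Real.two_pi_pos 0 p.2)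

variable {F : Frm S}

/-- the Gaussian area of an end -/
theorem end_area (h : F.OK) (hC : Charts S F.D) (j : JJ F.D) {e : P2 → ℂ}
    (he : ∀ p : P2, F.s1 j ≤ p.1 → e p = gS F.D j p) :
    IntegrableOn gw (Kd F.D j '' hs (F.s1 j)) (μHE[2] : Measure E3) ∧
      Estr (Ye F.D j e) (F.s1 j) 0 =
        ((∫ x in Kd F.D j '' hs (F.s1 j), gw x ∂(μHE[2] : Measure E3) : ℝ) : ℂ) := by
  have hO : IsOpen {p : P2 | F.s1 j < p.1} := isOpen_lt continuous_const continuous_fst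
  have hi : ∀ u ∈ {p : P2 | F.s1 j < p.1}, rn (fderiv ℝ (Kd F.D j) u) ≠ 0 := fun u hu =>
    h.imm j u (by linarith [show F.s1 j < u.1 from hu])
  have hj := injOn_Kd hC j (s := F.s1 j) (by linarith [h.st_lt j])
  obtain ⟨Z, M, hZ⟩ := bd_Kd hC j
  refine ⟨(integrableOn_param hO (cd_Kd hC j).contDiffOn hi (hs_meas _) (fun _ hp => hp.1) hj
    gw).2 (int_end (cd_Kd hC j) _ hZ), ?_⟩
  rw [integral_param hO (cd_Kd hC j).contDiffOn hi (hs_meas _) (fun _ hp => hp.1) hj,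
    ← integral_complex_ofReal, Estr]
  have e1 : {z | F.s1 j < z ∧ 0 * z < 1} = Ioi (F.s1 j) := by ext z; simp
  rw [e1]
  refine setIntegral_congr_fun (hs_meas _) fun p hp => ?_
  have e2 : Ye F.D j e =ᶠ[𝓝 p] fun η => cE (Kd F.D j η) := by
    filter_upwards [hO.mem_nhds hp.1] with η hη
    rw [cE_Kd, Ye, Ye, he η (le_of_lt hη)]
  rw [jet1_congr e2, lag_jet1 ((cd_Kd hC j).differentiable one_ne_zero p), smul_eq_mul, mul_comm]
  rfl

theorem core_area (h : F.OK) (hG : Geo S F.C0 F.Kc) :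
    Ec S F.C0 (F.Y 0 0) = ((∫ x in F.C0, gw x ∂(μHE[2] : Measure E3) : ℝ) : ℂ) := by
  have e : F.Y 0 0 = fun x => cE x := funext fun x => by simp [Frm.Y]
  rw [e, Ec, ← integral_complex_ofReal]
  refine setIntegral_congr_fun hG.cpt.measurableSet fun x hx => ?_
  obtain ⟨h1, h2⟩ := pick_spec par_proof h.eq0.shr.1 (hG.sub hx)
  simp only [den, lagD]
  rw [lag_jet1 ((par_cd h1 1).differentiableAt one_ne_zero), h2, div_eq_iff (ael_ne h1),
    ← Complex.ofReal_mul]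
  rfl

end Bse

open Bse in
/-- **BASE** -/
theorem base_proof (hC : ChartStmt) (hG : GeoStmt) : ∀ (S : Set E3) (F : Frm S), F.OK →
    S.Nonempty → ∀ H : EF F, H.OK →
      F.en 0 0 0 (H.eI 0) = ((∫ p, gw p ∂(area S) : ℝ) : ℂ) := by
  intro S F h hne H hH
  have C := hC S F.D h.eq0.shr.1
  have G := (hG S F h hne).1
  have hb : ∀ j (p : P2), F.s1 j ≤ p.1 → H.eI 0 j p = gS F.D j p := fun j p hp => by
    have e : H.g 0 j = H.g0 j := by simp [EF.g]
    rw [EF.eI, e]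
    rcases j with j | i
    exacts [(hH.cyl j).base p hp, (hH.cone i).base p hp]
  have E := fun j => end_area h C j (hb j)
  have hst : ∀ j, st F.D j ≤ F.s1 j := fun j => by linarith [h.st_lt j]
  have hm : ∀ j, MeasurableSet (Kd F.D j '' hs (F.s1 j)) := fun j =>
    (hs_meas _).image_of_continuousOn_injOn (cd_Kd C j).continuous.continuousOn
      (injOn_Kd C j (hst j))
  have eS : S = F.C0 ∪ ⋃ j, Kd F.D j '' hs (F.s1 j) := by
    refine Subset.antisymm (fun x hx => ?_) (union_subset G.sub (iUnion_subset fun j => ?_))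
    · by_cases hx0 : x ∈ F.C0
      · exact Or.inl hx0
      · have : ∃ j, ∃ p : P2, F.s1 j < p.1 ∧ x = Kd F.D j p := by
          by_contra hn
          exact hx0 ⟨hx, fun j p hp e => hn ⟨j, p, hp, e⟩⟩
        obtain ⟨j, p, hp, rfl⟩ := this
        exact Or.inr (mem_iUnion.2 ⟨j, mem_image C j hp⟩)
    · rintro _ ⟨p, hp, rfl⟩
      exact C.mem j p ((hst j).trans (le_of_lt hp.1))
  have d1 : Disjoint F.C0 (⋃ j, Kd F.D j '' hs (F.s1 j)) := by
    refine disjoint_iUnion_right.2 fun j => disjoint_left.2 ?_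
    rintro x hx ⟨p, hp, rfl⟩
    exact hx.2 j p hp.1 rfl
  have d2 : Pairwise (Function.onFun Disjoint fun j => Kd F.D j '' hs (F.s1 j)) := by
    intro j j' hj
    refine disjoint_left.2 ?_
    rintro x ⟨p, hp, rfl⟩ ⟨p', hp', e⟩
    exact hj (C.inj j j' p p' ((hst j).trans (le_of_lt hp.1)) ((hst j').trans (le_of_lt hp'.1))
      e.symm).1
  have key : ∫ p, gw p ∂(area S) = ∫ x in F.C0, gw x ∂(μHE[2] : Measure E3) +
      ∑ j, ∫ x in Kd F.D j '' hs (F.s1 j), gw x ∂(μHE[2] : Measure E3) := by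
    rw [← integral_iUnion_fintype hm d2 fun j => (E j).1, ← setIntegral_union d1
      (MeasurableSet.iUnion hm) (integrableOn_core par_proof G.surf G.sub G.cpt
        continuous_gw.continuousOn) (integrableOn_finite_iUnion.2 fun j => (E j).1), ← eS, area]
  rw [key, Fintype.sum_sum_type, Frm.en, core_area h G]
  push_cast
  rw [add_assoc]
  congr 2
  · exact Finset.sum_congr rfl fun j _ => (E (.inl j)).2
  · exact Finset.sum_congr rfl fun i _ => (E (.inr i)).2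

end Vale.Agent.P218F.LS
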