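import Vale.Agent.P218F.LSVar
import Vale.Agent.P218F.CoreSpec
import Vale.Agent.P218F.FtParam
import Mathlib.Geometry.Manifold.PartitionOfUnity

/-!
# The Gaussian area of a complex surface over the core, and its first variation
-/

open Filter Topology Matrix MeasureTheory Set Metric
open scoped ContDiff Real

set_option maxSynthPendingDepth 3

noncomputable section

namespace Vale.Agent.P218F.LS

open Core Ft Vale.Agent.P218FT

/-- chart densities -/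
abbrev Den : Type := (P2 → E3) → P2 → ℂ

/-- a parametrisation of `S` at `x` -/
def pick (S : Set E3) (x : E3) : (P2 → E3) × P2 :=
  Classical.epsilon fun p => Par S p.1 p.2 ∧ p.1 p.2 = x

/-- the area element -/
def ael (φ : P2 → E3) (y : P2) : ℝ := ‖rn (fderiv ℝ φ y)‖

/-- the function on `S` given by a chart density -/
def den (S : Set E3) (F : Den) (x : E3) : ℂ :=
  F (pick S x).1 (pick S x).2 / (ael (pick S x).1 (pick S x).2 : ℝ)

/-- `F` transforms as a density at `x` -/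
def Inv (S : Set E3) (F : Den) (x : E3) : Prop :=
  ∀ φ y φ' y', Par S φ y → Par S φ' y' → φ y = x → φ' y' = x →
    (ael φ' y' : ℂ) * F φ y = ael φ y * F φ' y'

/-- `Y` is of class `C^n` along `S` at `x` -/
def Reg {V : Type} [NormedAddCommGroup V] [NormedSpace ℝ V] (S : Set E3) (n : ℕ) (Y : E3 → V)
    (x : E3) : Prop :=
  ∀ φ y, Par S φ y → φ y = x → ContDiffAt ℝ n (fun z => Y (φ z)) y

/-- the one-jet of `Y` along `S` at `x` is good -/
def Gd (S : Set E3) (Y : E3 → C3) (x : E3) : Prop :=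
  ∀ φ y, Par S φ y → φ y = x → jet1 (fun z => Y (φ z)) y ∈ good

/-- the Lagrangian -/
def lagD (Y : E3 → C3) : Den := fun φ y => lag (jet1 (fun z => Y (φ z)) y)

/-- its first variation -/
def dlagD (Y Z : E3 → C3) : Den := fun φ y =>
  dlag (jet1 (fun z => Y (φ z)) y) (jet1 (fun z => Z (φ z)) y)

/-- the source term -/
def srcD (Y Z : E3 → C3) : Den := fun φ y => src (fun z => Y (φ z)) (fun z => Z (φ z)) y

/-- the Gaussian area of `Y` over the core -/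
def Ec (S C0 : Set E3) (Y : E3 → C3) : ℂ := ∫ x in C0, den S (lagD Y) x ∂(μHE[2] : Measure E3)

/-- the linear moments -/
def mo (C0 : Set E3) (F : E3 → ℝ) (w : E3 → ℂ) : ℂ :=
  ∫ x in C0, w x * (F x * Real.exp (-‖x‖ ^ 2 / 4) : ℝ) ∂(μHE[2] : Measure E3)

/-- the flux through the trace circle of the collar `k` -/
def Fl (k : P2 → E3) (Y Z : E3 → C3) : ℂ :=
  ∫ θ in (0 : ℝ)..2 * π, flux1 (fun z => Y (k z)) (fun z => Z (k z)) (0, θ)

variable {S C0 : Set E3} {φ φ' : P2 → E3} {y y' : P2} {x : E3}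

/-! ### Charts -/

theorem par_cd (h : Par S φ y) (n : ℕ) : ContDiffAt ℝ n φ y :=
  h.smooth.self_of_nhds.of_le (by exact_mod_cast le_top)

theorem ael_pos (h : Par S φ y) : 0 < ael φ y := norm_pos_iff.2 (rn_ne_zero h.inj)

theorem ael_ne (h : Par S φ y) : (ael φ y : ℂ) ≠ 0 := Complex.ofReal_ne_zero.2 (ael_pos h).ne'

theorem continuousAt_ael (h : Par S φ y) : ContinuousAt (ael φ) y :=
  (continuous_rn.continuousAt.comp ((par_cd h 1).continuousAt_fderiv (by simp))).norm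

theorem par_ev (h : Par S φ y) : ∀ᶠ z in 𝓝 y, Par S φ z := by
  filter_upwards [h.smooth.eventually_nhds, h.mem.eventually_nhds,
    (continuousAt_ael h).eventually (lt_mem_nhds (ael_pos h))] with z h1 h2 h3
  exact ⟨h1, injective_of_rn (norm_pos_iff.1 h3), h2⟩

theorem rn_comp (D : P2 →L[ℝ] E3) (A : P2 →L[ℝ] P2) : rn (D.comp A) = det2 A • rn D := by
  apply cE_injective
  rw [cE_rn, ← ContinuousLinearMap.comp_assoc, nor_comp, map_smul, cE_rn, Complex.coe_smul]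

/-- the transition map -/
theorem exists_trans (hP : ParStmt) (hS : IsSurf S) (h : Par S φ y) (h' : Par S φ' y')
    (e : φ' y' = φ y) : ∃ τ : P2 → P2, τ y' = y ∧ (∀ n : ℕ, ContDiffAt ℝ n τ y') ∧
      (φ' =ᶠ[𝓝 y'] fun z => φ (τ z)) ∧ det2 (fderiv ℝ τ y') ≠ 0 ∧
      ael φ' y' = |det2 (fderiv ℝ τ y')| * ael φ y := by
  obtain ⟨ψ, h1, h2, h3⟩ := (hP S hS).2 φ y h
  have hy : ψ (φ' y') = y := by rw [e]; exact h2.self_of_nhds
  have hτ : ∀ n : ℕ, ContDiffAt ℝ n (fun z => ψ (φ' z)) y' := fun n => by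
    refine ContDiffAt.comp y' ?_ (par_cd h' n)
    rw [e]
    exact h1.self_of_nhds.of_le (by exact_mod_cast le_top)
  have he : φ' =ᶠ[𝓝 y'] fun z => φ (ψ (φ' z)) := by
    have : ∀ᶠ z in 𝓝 y', φ' z ∈ S → φ (ψ (φ' z)) = φ' z :=
      (par_cd h' 0).continuousAt.eventually (by rw [e]; exact h3)
    filter_upwards [this, h'.mem] with z a b using (a b).symm
  have hd : fderiv ℝ φ' y' = (fderiv ℝ φ y).comp (fderiv ℝ (fun z => ψ (φ' z)) y') := by
    rw [he.fderiv_eq, ← hy]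
    refine fderiv_comp y' ?_ ((hτ 1).differentiableAt (by simp))
    rw [hy]
    exact (par_cd h 1).differentiableAt (by simp)
  have ha : ael φ' y' = |det2 (fderiv ℝ (fun z => ψ (φ' z)) y')| * ael φ y := by
    rw [ael, hd, rn_comp, norm_smul, Real.norm_eq_abs, ael]
  refine ⟨fun z => ψ (φ' z), hy, hτ, he, fun h0 => ?_, ha⟩
  rw [h0, abs_zero, zero_mul] at ha
  exact (ael_pos h').ne' ha

theorem inv_of (hP : ParStmt) (hS : IsSurf S) {F : Den}
    (hF : ∀ φ y φ' y' (τ : P2 → P2), Par S φ y → Par S φ' y' → φ y = x → τ y' = y →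
      (∀ n : ℕ, ContDiffAt ℝ n τ y') → (φ' =ᶠ[𝓝 y'] fun z => φ (τ z)) →
      det2 (fderiv ℝ τ y') ≠ 0 → F φ' y' = (|det2 (fderiv ℝ τ y')| : ℝ) * F φ y) : Inv S F x := by
  intro φ y φ' y' h h' e e'
  obtain ⟨τ, h1, h2, h3, h4, h5⟩ := exists_trans hP hS h h' (e'.trans e.symm)
  rw [hF φ y φ' y' τ h h' e h1 h2 h3 h4, h5]
  push_cast
  ring

theorem den_eq {F : Den} (hF : Inv S F (φ y)) (h : Par S φ y) :
    den S F (φ y) = F φ y / (ael φ y : ℝ) := by
  obtain ⟨h1, h2⟩ : Par S (pick S (φ y)).1 (pick S (φ y)).2 ∧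
      (pick S (φ y)).1 (pick S (φ y)).2 = φ y := Classical.epsilon_spec
    (p := fun p : (P2 → E3) × P2 => Par S p.1 p.2 ∧ p.1 p.2 = φ y) ⟨(φ, y), h, rfl⟩
  rw [den, div_eq_div_iff (ael_ne h1) (ael_ne h), mul_comm, hF _ _ _ _ h1 h h2 rfl, mul_comm]

theorem pick_spec (hP : ParStmt) (hS : IsSurf S) (hx : x ∈ S) :
    Par S (pick S x).1 (pick S x).2 ∧ (pick S x).1 (pick S x).2 = x := by
  obtain ⟨φ, y, h, e⟩ := (hP S hS).1 x hx
  exact Classical.epsilon_spec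
    (p := fun p : (P2 → E3) × P2 => Par S p.1 p.2 ∧ p.1 p.2 = x) ⟨(φ, y), h, e⟩

theorem comp_ev {V : Type} (Y : E3 → V) {τ : P2 → P2} (h : φ' =ᶠ[𝓝 y'] fun z => φ (τ z)) :
    (fun z => Y (φ' z)) =ᶠ[𝓝 y'] fun z => (fun u => Y (φ u)) (τ z) :=
  h.mono fun _ hz => congrArg Y hz

section reg

variable {V : Type} [NormedAddCommGroup V] [NormedSpace ℝ V] {n : ℕ}

theorem reg_of_one (hP : ParStmt) (hS : IsSurf S) {Y : E3 → V} (h : Par S φ y)
    (hY : ContDiffAt ℝ n (fun z => Y (φ z)) y) : Reg S n Y (φ y) := by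
  intro φ' y' h' e
  obtain ⟨τ, h1, h2, h3, -, -⟩ := exists_trans hP hS h h' e
  refine ContDiffAt.congr_of_eventuallyEq ?_ (comp_ev Y h3)
  exact ContDiffAt.comp (g := fun u => Y (φ u)) y' (by rw [h1]; exact hY) (h2 n)

theorem Reg.mono {Y : E3 → V} {m : ℕ} (h : Reg S n Y x) (hm : m ≤ n) : Reg S m Y x :=
  fun φ y a b => (h φ y a b).of_le (by exact_mod_cast hm)

theorem Reg.diff {Y : E3 → V} (h : Reg S 1 Y x) (a : Par S φ y) (b : φ y = x) :
    DifferentiableAt ℝ (fun z => Y (φ z)) y := (h φ y a b).differentiableAt (by simp)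

theorem Reg.add {Y Z : E3 → V} (h : Reg S n Y x) (h' : Reg S n Z x) :
    Reg S n (fun u => Y u + Z u) x := fun φ y a b => (h φ y a b).add (h' φ y a b)

theorem Reg.sub {Y Z : E3 → V} (h : Reg S n Y x) (h' : Reg S n Z x) :
    Reg S n (fun u => Y u - Z u) x := fun φ y a b => (h φ y a b).sub (h' φ y a b)

theorem Reg.of_cd {Y : E3 → V} (h : ContDiffAt ℝ n Y x) : Reg S n Y x :=
  fun _ y a b => ContDiffAt.comp y (by rw [b]; exact h) (par_cd a n)

theorem Reg.rsmul {χ : E3 → ℝ} {Z : E3 → V} (h : Reg S n χ x) (h' : Reg S n Z x) :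
    Reg S n (fun u => χ u • Z u) x := fun φ y a b => (h φ y a b).smul (h' φ y a b)

theorem Reg.csmul {χ : E3 → ℂ} {Z : E3 → C3} (h : Reg S n χ x) (h' : Reg S n Z x) :
    Reg S n (fun u => χ u • Z u) x := fun φ y a b => (h φ y a b).smul (h' φ y a b)

theorem jet1_trans {Y : E3 → V} {τ : P2 → P2} (hY : Reg S 1 Y x) (h : Par S φ y) (e : φ y = x)
    (h1 : τ y' = y) (h2 : ∀ n : ℕ, ContDiffAt ℝ n τ y') (h3 : φ' =ᶠ[𝓝 y'] fun z => φ (τ z)) :
    jet1 (fun z => Y (φ' z)) y' = ((jet1 (fun z => Y (φ z)) y).1,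
      (jet1 (fun z => Y (φ z)) y).2.comp (fderiv ℝ τ y')) := by
  rw [jet1_congr (comp_ev Y h3), jet1_comp (f := fun u => Y (φ u))
    (by rw [h1]; exact hY.diff h e) ((h2 1).differentiableAt (by simp)), h1]
  rfl

end reg

theorem gd_of_one (hP : ParStmt) (hS : IsSurf S) {Y : E3 → C3} (h : Par S φ y)
    (hY : Reg S 1 Y (φ y)) (hg : jet1 (fun z => Y (φ z)) y ∈ good) : Gd S Y (φ y) := by
  intro φ' y' h' e
  obtain ⟨τ, h1, h2, h3, h4, -⟩ := exists_trans hP hS h h' e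
  rw [jet1_trans hY h rfl h1 h2 h3]
  exact good_comp h4 hg

theorem inv_lag (hP : ParStmt) (hS : IsSurf S) {Y : E3 → C3} (hY : Reg S 1 Y x) :
    Inv S (lagD Y) x :=
  inv_of hP hS fun φ y φ' y' τ h _ e h1 h2 h3 _ => by
    rw [lagD, jet1_trans hY h e h1 h2 h3, lag_comp]
    rfl

theorem inv_dlag (hP : ParStmt) (hS : IsSurf S) {Y Z : E3 → C3} (hY : Reg S 1 Y x)
    (hZ : Reg S 1 Z x) (hg : Gd S Y x) : Inv S (dlagD Y Z) x :=
  inv_of hP hS fun φ y φ' y' τ h _ e h1 h2 h3 h4 => by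
    rw [dlagD, jet1_trans hY h e h1 h2 h3, jet1_trans hZ h e h1 h2 h3,
      dlag_comp (hg φ y h e) _ h4]
    rfl

theorem inv_src (hP : ParStmt) (hS : IsSurf S) {Y : E3 → C3} (Z : E3 → C3) (hY : Reg S 2 Y x)
    (hg : Gd S Y x) : Inv S (srcD Y Z) x :=
  inv_of hP hS fun φ y φ' y' τ h _ e h1 h2 h3 h4 => by
    subst h1
    rw [srcD, src_congr (comp_ev Y h3) (W' := fun z => (fun u => Z (φ u)) (τ z))
      (comp_ev Z h3).self_of_nhds]
    exact src_comp (Y := fun u => Y (φ u)) (W := fun u => Z (φ u)) (hY φ _ h e) (h2 2) h4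
      (hg φ _ h e)

/-- a chart with its inverse, inside given neighbourhoods -/
theorem exists_chart (hP : ParStmt) (hS : IsSurf S) (h : Par S φ y) {N : Set P2} (hN : N ∈ 𝓝 y)
    {N' : Set E3} (hN' : N' ∈ 𝓝 (φ y)) : ∃ (O : Set P2) (U : Set E3) (ψ : E3 → P2),
      IsOpen O ∧ y ∈ O ∧ O ⊆ N ∧ IsOpen U ∧ φ y ∈ U ∧ U ⊆ N' ∧
      (∀ z ∈ O, Par S φ z ∧ ψ (φ z) = z) ∧ (∀ x ∈ U, ContinuousAt ψ x) ∧
      ∀ x ∈ U, x ∈ S → ψ x ∈ O ∧ φ (ψ x) = x := by
  obtain ⟨ψ, h1, h2, h3⟩ := (hP S hS).2 φ y h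
  obtain ⟨O, o1, o2, o3⟩ := _root_.eventually_nhds_iff.1 ((par_ev h).and (h2.and hN))
  have h4 : ∀ᶠ x in 𝓝 (φ y), ψ x ∈ O :=
    h1.self_of_nhds.continuousAt.eventually (by rw [h2.self_of_nhds]; exact o2.mem_nhds o3)
  obtain ⟨U, u1, u2, u3⟩ := _root_.eventually_nhds_iff.1 (h1.and (h3.and (h4.and hN')))
  exact ⟨O, U, ψ, o2, o3, fun z hz => (o1 z hz).2.2, u2, u3, fun x hx => (u1 x hx).2.2.2,
    fun z hz => ⟨(o1 z hz).1, (o1 z hz).2.1⟩, fun x hx => (u1 x hx).1.continuousAt,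
    fun x hx hs => ⟨(u1 x hx).2.2.1, (u1 x hx).2.1 hs⟩⟩

theorem continuousOn_den (hP : ParStmt) (hS : IsSurf S) {C : Set E3} (hC : C ⊆ S) {F : Den}
    (hI : ∀ x ∈ C, Inv S F x) (hF : ∀ φ y, Par S φ y → φ y ∈ C → ContinuousAt (F φ) y) :
    ContinuousOn (den S F) C := by
  intro x hx
  obtain ⟨φ, y, h, rfl⟩ := (hP S hS).1 x (hC hx)
  obtain ⟨O, U, ψ, -, o2, -, u1, u2, -, h1, h2, h3⟩ := exists_chart hP hS h univ_mem univ_mem
  have hy : ψ (φ y) = y := (h1 y o2).2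
  have hc : ContinuousAt (fun x => F φ (ψ x) / (ael φ (ψ x) : ℝ)) (φ y) := by
    refine ContinuousAt.comp (f := ψ) (g := fun z => F φ z / (ael φ z : ℝ)) ?_ (h2 _ u2)
    rw [hy]
    exact (hF φ y h hx).div (Complex.continuous_ofReal.continuousAt.comp (continuousAt_ael h))
      (ael_ne h)
  have he : ∀ x ∈ U, x ∈ C → den S F x = F φ (ψ x) / (ael φ (ψ x) : ℝ) := fun x a b => by
    obtain ⟨a1, a2⟩ := h3 x a (hC b)
    rw [← den_eq (by rw [a2]; exact hI x b) (h1 _ a1).1, a2]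
  refine hc.continuousWithinAt.congr_of_eventuallyEq ?_ (he _ u2 hx)
  filter_upwards [mem_nhdsWithin_of_mem_nhds (u1.mem_nhds u2), self_mem_nhdsWithin] with x a b
  exact he x a b

theorem cdOn_of_par {O : Set P2} (h : ∀ z ∈ O, Par S φ z) : ContDiffOn ℝ 1 φ O :=
  fun z hz => (par_cd (h z hz) 1).contDiffWithinAt

/-- the area formula for densities -/
theorem int_chart {O s : Set P2} (hO : IsOpen O) (h : ∀ z ∈ O, Par S φ z) (hs : MeasurableSet s)
    (hsO : s ⊆ O) (hi : InjOn φ s) {F : Den} (hF : ∀ z ∈ s, Inv S F (φ z)) :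
    ∫ x in φ '' s, den S F x ∂(μHE[2] : Measure E3) = ∫ z in s, F φ z := by
  rw [integral_param hO (cdOn_of_par h) (fun u hu => rn_ne_zero (h u hu).inj) hs hsO hi]
  refine setIntegral_congr_fun hs fun z hz => ?_
  have := ael_ne (h z (hsO hz))
  simp only [den_eq (hF z hz) (h z (hsO hz)), Complex.real_smul]
  exact mul_div_cancel₀ _ this

theorem area_lt_top (hP : ParStmt) (hS : IsSurf S) {C : Set E3} (hC : C ⊆ S) (hc : IsCompact C) :
    (μHE[2] : Measure E3) C < ⊤ := by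
  refine hc.measure_lt_top_of_nhdsWithin fun x hx => ?_
  obtain ⟨φ, y, h, rfl⟩ := (hP S hS).1 x (hC hx)
  obtain ⟨O, -, ψ, o1, o2, -, -, -, -, h1, -, -⟩ := exists_chart hP hS h univ_mem univ_mem
  obtain ⟨s, s1, s2, s3⟩ := local_compact_nhds (o1.mem_nhds o2)
  obtain ⟨O', U, ψ', -, -, o3, u1, u2, -, -, -, h3⟩ := exists_chart hP hS h s1 univ_mem
  have hi : InjOn φ s := fun a ha b hb e => by
    rw [← (h1 a (s2 ha)).2, e, (h1 b (s2 hb)).2]
  refine ⟨φ '' s, ?_, ?_⟩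
  · filter_upwards [mem_nhdsWithin_of_mem_nhds (u1.mem_nhds u2), self_mem_nhdsWithin] with x a b
    exact ⟨ψ' x, o3 (h3 x a (hC b)).1, (h3 x a (hC b)).2⟩
  · have := (integrableOn_param o1 (cdOn_of_par fun z hz => (h1 z hz).1)
      (fun u hu => rn_ne_zero (h1 u hu).1.inj) s3.measurableSet s2 hi (fun _ => (1 : ℝ))).2
      (ContinuousOn.integrableOn_compact s3 fun z hz =>
        ((continuousAt_ael (h1 z (s2 hz)).1).smul continuousAt_const).continuousWithinAt)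
    simpa [lt_top_iff_ne_top] using this

theorem integrableOn_core (hP : ParStmt) (hS : IsSurf S) {C : Set E3} (hC : C ⊆ S)
    (hc : IsCompact C) {G : Type} [NormedAddCommGroup G] {f : E3 → G} (hf : ContinuousOn f C) :
    IntegrableOn f C (μHE[2] : Measure E3) := by
  have : IsFiniteMeasure ((μHE[2] : Measure E3).restrict C) :=
    isFiniteMeasure_restrict.2 (area_lt_top hP hS hC hc).ne
  have := hf.integrableOn_compact (μ := (μHE[2] : Measure E3).restrict C) hc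
  rwa [IntegrableOn, Measure.restrict_restrict hc.measurableSet, inter_self] at this

/-! ### The first variation over the core -/

/-- the integrand of the first variation formula -/
def vD (Y Z : E3 → C3) : Den := fun φ y => dlagD Y Z φ y + srcD Y Z φ y

theorem Inv.add {F G : Den} (h : Inv S F x) (h' : Inv S G x) :
    Inv S (fun φ y => F φ y + G φ y) x := fun φ y φ' y' a b c d => by
  rw [mul_add, mul_add, h φ y φ' y' a b c d, h' φ y φ' y' a b c d]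

theorem Inv.sub {F G : Den} (h : Inv S F x) (h' : Inv S G x) :
    Inv S (fun φ y => F φ y - G φ y) x := fun φ y φ' y' a b c d => by
  rw [mul_sub, mul_sub, h φ y φ' y' a b c d, h' φ y φ' y' a b c d]

theorem den_add (F G : Den) (x : E3) :
    den S (fun φ y => F φ y + G φ y) x = den S F x + den S G x := add_div _ _ _

theorem den_sub (F G : Den) (x : E3) :
    den S (fun φ y => F φ y - G φ y) x = den S F x - den S G x := sub_div _ _ _

theorem den_congr (hP : ParStmt) (hS : IsSurf S) (hx : x ∈ S) {F G : Den}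
    (h : ∀ φ y, Par S φ y → φ y = x → F φ y = G φ y) : den S F x = den S G x := by
  rw [den, den, h _ _ (pick_spec hP hS hx).1 (pick_spec hP hS hx).2]

theorem jet1_add {V : Type} [NormedAddCommGroup V] [NormedSpace ℝ V] {f g : P2 → V}
    (hf : DifferentiableAt ℝ f y) (hg : DifferentiableAt ℝ g y) :
    jet1 (fun z => f z + g z) y = jet1 f y + jet1 g y :=
  Prod.ext rfl (fderiv_fun_add hf hg)

theorem jet1_sub {V : Type} [NormedAddCommGroup V] [NormedSpace ℝ V] {f g : P2 → V}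
    (hf : DifferentiableAt ℝ f y) (hg : DifferentiableAt ℝ g y) :
    jet1 (fun z => f z - g z) y = jet1 f y - jet1 g y :=
  Prod.ext rfl (fderiv_fun_sub hf hg)

theorem jet1_zero {V : Type} [NormedAddCommGroup V] [NormedSpace ℝ V] {f : P2 → V}
    (h : ∀ᶠ z in 𝓝 y, f z = 0) : jet1 f y = 0 := by
  rw [jet1_congr (g := fun _ => 0) h]
  simp [jet1]

theorem src_zero {Y W : P2 → C3} (h : W y = 0) : src Y W y = 0 := by simp [src, h]

theorem flux1_zero {Y W : P2 → C3} (h : W y = 0) : flux1 Y W y = 0 := by simp [flux1, h]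

/-- `Z` vanishes near `x` on `S` -/
def Van (S : Set E3) (Z : E3 → C3) (x : E3) : Prop := ∀ᶠ u in 𝓝 x, u ∈ S → Z u = 0

theorem Van.chart {Z : E3 → C3} (h : Van S Z (φ y)) (a : Par S φ y) :
    ∀ᶠ z in 𝓝 y, Z (φ z) = 0 := by
  filter_upwards [(par_cd a 0).continuousAt.eventually h, a.mem] with z h1 h2 using h1 h2

theorem vD_zero {Y Z : E3 → C3} (h : ∀ᶠ z in 𝓝 y, Z (φ z) = 0) : vD Y Z φ y = 0 := by
  rw [vD, dlagD, srcD, jet1_zero h, dlag_zero, src_zero h.self_of_nhds, add_zero]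

section var

variable {J : Type} {K : J → P2 → E3} {Y Z : E3 → C3}

theorem Geo.par0 (hG : Geo S C0 K) (j : J) {y : P2} (h1 : -1 < y.1) (h2 : y.1 ≤ 0) :
    Par S (K j) y ∧ K j y ∈ C0 :=
  ⟨hG.par j y ⟨h1, by linarith⟩, (hG.mem j y ⟨h1, by linarith⟩).2 h2⟩

theorem cont_dlag (hP : ParStmt) (hS : IsSurf S) {C : Set E3} (hC : C ⊆ S)
    (hY : ∀ x ∈ C, Reg S 1 Y x ∧ Gd S Y x) (hZ : ∀ x ∈ C, Reg S 1 Z x) :
    ContinuousOn (den S (dlagD Y Z)) C :=
  continuousOn_den hP hS hC (fun x hx => inv_dlag hP hS (hY x hx).1 (hZ x hx) (hY x hx).2)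
    fun φ y h hx => continuousAt_dlag ((hY _ hx).1 φ y h rfl) (hZ _ hx φ y h rfl)
      ((hY _ hx).2 φ y h rfl)

theorem cont_src (hP : ParStmt) (hS : IsSurf S) {C : Set E3} (hC : C ⊆ S)
    (hY : ∀ x ∈ C, Reg S 2 Y x ∧ Gd S Y x) (hZ : ∀ x ∈ C, Reg S 0 Z x) :
    ContinuousOn (den S (srcD Y Z)) C :=
  continuousOn_den hP hS hC (fun x hx => inv_src hP hS Z (hY x hx).1 (hY x hx).2)
    fun φ y h hx => continuousAt_src ((hY _ hx).1 φ y h rfl) (hZ _ hx φ y h rfl).continuousAt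
      ((hY _ hx).2 φ y h rfl)

theorem cont_lag (hP : ParStmt) (hS : IsSurf S) {C : Set E3} (hC : C ⊆ S)
    (hY : ∀ x ∈ C, Reg S 1 Y x ∧ Gd S Y x) : ContinuousOn (den S (lagD Y)) C :=
  continuousOn_den hP hS hC (fun x hx => inv_lag hP hS (hY x hx).1) fun φ y h hx =>
    continuousWithinAt_univ _ _ |>.1 (cwa_lag (continuousAt_jet1
      ((hY _ hx).1 φ y h rfl)).continuousWithinAt ((hY _ hx).2 φ y h rfl))

theorem inv_vD (hP : ParStmt) (hS : IsSurf S) (hY : Reg S 2 Y x ∧ Gd S Y x) (hZ : Reg S 1 Z x) :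
    Inv S (vD Y Z) x :=
  (inv_dlag hP hS (hY.1.mono one_le_two) hZ hY.2).add (inv_src hP hS Z hY.1 hY.2)

theorem int_vD (hP : ParStmt) (hG : Geo S C0 K) (hY : ∀ x ∈ C0, Reg S 2 Y x ∧ Gd S Y x)
    (hZ : ∀ x ∈ C0, Reg S 1 Z x) : IntegrableOn (den S (vD Y Z)) C0 (μHE[2] : Measure E3) :=
  integrableOn_core hP hG.surf hG.sub hG.cpt
    (((cont_dlag hP hG.surf hG.sub (fun x hx => ⟨(hY x hx).1.mono one_le_two, (hY x hx).2⟩) hZ).add
      (cont_src hP hG.surf hG.sub hY fun x hx => (hZ x hx).mono zero_le_one)).congr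
        fun x _ => den_add _ _ x)

theorem cont_flux (hG : Geo S C0 K) (hY : ∀ x ∈ C0, Reg S 1 Y x ∧ Gd S Y x)
    (hZ : ∀ x ∈ C0, Reg S 0 Z x) (j : J) :
    Continuous fun θ : ℝ => flux1 (fun z => Y (K j z)) (fun z => Z (K j z)) (0, θ) := by
  refine continuous_iff_continuousAt.2 fun θ => ?_
  obtain ⟨a, b⟩ := Geo.par0 hG j (y := (0, θ)) (by norm_num) le_rfl
  refine ContinuousAt.comp (f := fun θ : ℝ => ((0, θ) : P2))
    (g := flux1 (fun z => Y (K j z)) fun z => Z (K j z)) (x := θ) ?_ (by fun_prop)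
  exact continuousWithinAt_univ _ _ |>.1 (cwa_dot (cwa_mom1 (continuousAt_jet1
    ((hY _ b).1 _ _ a rfl)).continuousWithinAt ((hY _ b).2 _ _ a rfl))
    (hZ _ b _ _ a rfl).continuousAt.continuousWithinAt)

theorem restrict_van (hP : ParStmt) (hG : Geo S C0 K) {A : Set E3} (hA : A ⊆ C0)
    (h : ∀ x ∈ C0, x ∉ A → Van S Z x) :
    ∫ x in C0, den S (vD Y Z) x ∂(μHE[2] : Measure E3) =
      ∫ x in A, den S (vD Y Z) x ∂(μHE[2] : Measure E3) := by
  refine setIntegral_eq_of_subset_of_forall_sdiff_eq_zero hG.cpt.measurableSet hA fun x hx => ?_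
  obtain ⟨a, b⟩ := pick_spec hP hG.surf (hG.sub hx.1)
  rw [den, vD_zero (Van.chart (by rw [b]; exact h x hx.1 hx.2) a), zero_div]

/-- the formula for fields supported in an interior chart -/
theorem var_int (hP : ParStmt) (hG : Geo S C0 K) (hY : ∀ x ∈ C0, Reg S 2 Y x ∧ Gd S Y x)
    (hx : x ∈ C0) (hi : ∀ᶠ u in 𝓝 x, u ∈ S → u ∈ C0) : ∃ U, IsOpen U ∧ x ∈ U ∧
      (∀ j θ, K j (0, θ) ∉ U) ∧ ∀ (Z : E3 → C3) (C : Set E3), (∀ x ∈ C0, Reg S 1 Z x) →
        IsCompact C → C ⊆ U → (∀ x ∈ C0, x ∉ C → Van S Z x) →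
        ∫ x in C0, den S (vD Y Z) x ∂(μHE[2] : Measure E3) = 0 := by
  classical
  obtain ⟨φ, y, h, rfl⟩ := (hP S hG.surf).1 x (hG.sub hx)
  have hN : ∀ᶠ z in 𝓝 y, φ z ∈ C0 := by
    filter_upwards [(par_cd h 0).continuousAt.eventually hi, h.mem] with z h1 h2 using h1 h2
  obtain ⟨O, U, ψ, o1, o2, o3, u1, u2, u3, h1, h2, h3⟩ := exists_chart hP hG.surf h hN hi
  refine ⟨U, u1, u2, fun j θ hU => ?_, fun Z C hZ hC hCU hV => ?_⟩
  · obtain ⟨a, -⟩ := Geo.par0 hG j (y := (0, θ)) (by norm_num) le_rfl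
    have e1 : ∀ᶠ z in 𝓝 ((0, θ) : P2), K j z ∈ C0 := by
      filter_upwards [(par_cd a 0).continuousAt.eventually (u1.mem_nhds hU), a.mem] with z b c
      exact u3 b c
    have e2 : ∀ᶠ s in 𝓝 (0 : ℝ), K j (s, θ) ∈ C0 :=
      (show ContinuousAt (fun s : ℝ => ((s, θ) : P2)) 0 by fun_prop).eventually e1
    obtain ⟨s, s1, s2⟩ := ((e2.filter_mono nhdsWithin_le_nhds).and
      (Ioo_mem_nhdsGT (show (0 : ℝ) < 1 by norm_num))).exists
    have := (hG.mem j (s, θ) ⟨by linarith [s2.1], by linarith [s2.2]⟩).1 s1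
    exact absurd s2.1 (not_lt.2 this)
  · have hc : IsCompact (ψ '' (C ∩ C0)) := (hC.inter_right hG.cpt.isClosed).image_of_continuousOn
      fun x hx => (h2 x (hCU hx.1)).continuousWithinAt
    have hO : ψ '' (C ∩ C0) ⊆ O := by
      rintro _ ⟨x, hx, rfl⟩
      exact (h3 x (hCU hx.1) (hG.sub hx.2)).1
    have him : φ '' (ψ '' (C ∩ C0)) = C ∩ C0 := by
      rw [image_image]
      exact (image_congr fun x hx => (h3 x (hCU hx.1) (hG.sub hx.2)).2).trans (image_id' _)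
    have hinj : InjOn φ (ψ '' (C ∩ C0)) := fun a ha b hb e => by
      rw [← (h1 a (hO ha)).2, e, (h1 b (hO hb)).2]
    rw [restrict_van hP hG (A := C ∩ C0) inter_subset_right fun x a b => hV x a fun c => b ⟨c, a⟩,
      ← him, int_chart o1 (fun z hz => (h1 z hz).1) hc.measurableSet hO hinj
        fun z hz => inv_vD hP hG.surf (hY _ (o3 (hO hz))) (hZ _ (o3 (hO hz)))]
    set W : P2 → C3 := fun z => if z ∈ O then Z (φ z) else 0 with hW
    have hWe : ∀ z ∈ O, W =ᶠ[𝓝 z] fun z => Z (φ z) := fun z hz =>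
      (o1.eventually_mem hz).mono fun u hu => if_pos hu
    have hW0 : ∀ z ∉ ψ '' (C ∩ C0), W z = 0 := fun z hz => by
      by_cases ho : z ∈ O
      · rw [(hWe z ho).self_of_nhds]
        refine (hV _ (o3 ho) fun c => hz ⟨φ z, ⟨c, o3 ho⟩, (h1 z ho).2⟩).self_of_nhds ?_
        exact hG.sub (o3 ho)
      · exact if_neg ho
    obtain ⟨i1, i2, i3⟩ := var_cpt (Y := fun z => Y (φ z)) hc hW0 fun z hz =>
      ⟨(hY _ (o3 (hO hz))).1 φ z (h1 z (hO hz)).1 rfl,
        (hZ _ (o3 (hO hz)) φ z (h1 z (hO hz)).1 rfl).congr_of_eventuallyEq (hWe z (hO hz)),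
        (hY _ (o3 (hO hz))).2 φ z (h1 z (hO hz)).1 rfl⟩
    have e1 : ∫ z in ψ '' (C ∩ C0), vD Y Z φ z = ∫ z in ψ '' (C ∩ C0),
        (dlag (jet1 (fun z => Y (φ z)) z) (jet1 W z) + src (fun z => Y (φ z)) W z) := by
      refine setIntegral_congr_fun hc.measurableSet fun z hz => ?_
      simp only [vD, dlagD, srcD]
      rw [jet1_congr (hWe z (hO hz)),
        src_congr (W := W) (W' := fun z => Z (φ z)) EventuallyEq.rfl (hWe z (hO hz)).self_of_nhds]
    rw [e1, setIntegral_eq_integral_of_forall_compl_eq_zero, integral_add i1 i2, i3, neg_add_cancel]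
    intro z hz
    rw [jet1_zero ((hc.isClosed.isOpen_compl.eventually_mem hz).mono fun u hu => hW0 u hu),
      dlag_zero, src_zero (hW0 z hz), add_zero]

theorem jet1_per {V : Type} [NormedAddCommGroup V] [NormedSpace ℝ V] {f : P2 → V} {T : ℝ}
    (h : ∀ y : P2, f (y.1, y.2 + T) = f y) (y : P2) : jet1 f (y.1, y.2 + T) = jet1 f y := by
  have e : (fun z => f (z + (0, T))) = f := funext fun z => by
    rw [← h z]; congr 1; ext <;> simp
  have e2 : ((y.1, y.2 + T) : P2) = y + (0, T) := by ext <;> simp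
  refine Prod.ext (h y) ?_
  show fderiv ℝ f (y.1, y.2 + T) = fderiv ℝ f y
  rw [e2, ← fderiv_comp_add_right, e]

theorem strip_ae (a b T : ℝ) :
    (Icc a b ×ˢ Ico 0 T : Set P2) =ᵐ[volume] (Icc a b ×ˢ Icc 0 T : Set P2) :=
  Measure.set_prod_ae_eq EventuallyEq.rfl Ico_ae_eq_Icc

theorem Geo.injOn (hG : Geo S C0 K) (j : J) {a b : ℝ} (ha : -1 < a) (hb : b < 7) :
    InjOn (K j) (Icc a b ×ˢ Ico 0 (2 * π)) := by
  rintro ⟨s, θ⟩ ⟨h1, h2⟩ ⟨s', θ'⟩ ⟨h3, h4⟩ e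
  obtain ⟨-, e1, k, e2⟩ := hG.inj j j _ _ ⟨ha.trans_le h1.1, h1.2.trans_lt hb⟩
    ⟨ha.trans_le h3.1, h3.2.trans_lt hb⟩ e
  simp only at e1 e2 h2 h4
  have hp := Real.pi_pos
  have k1 : (k : ℝ) < 1 := by nlinarith [h2.1, h4.2]
  have k2 : (-1 : ℝ) < k := by nlinarith [h2.2, h4.1]
  have k0 : k = 0 := by
    have : k < 1 := by exact_mod_cast k1
    have : -1 < k := by exact_mod_cast k2
    omega
  rw [e1, e2, k0]
  simp

/-- the formula for fields supported near a trace circle -/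
theorem var_bd (hP : ParStmt) (hG : Geo S C0 K) (hY : ∀ x ∈ C0, Reg S 2 Y x ∧ Gd S Y x)
    (j : J) (θ₀ : ℝ) : ∃ U, IsOpen U ∧ K j (0, θ₀) ∈ U ∧
      (∀ j' θ, j' ≠ j → K j' (0, θ) ∉ U) ∧ ∀ (Z : E3 → C3) (C : Set E3), (∀ x ∈ C0, Reg S 1 Z x) →
        C ⊆ U → (∀ x ∈ C0, x ∉ C → Van S Z x) →
        ∫ x in C0, den S (vD Y Z) x ∂(μHE[2] : Measure E3) = Fl (K j) Y Z := by
  obtain ⟨h, -⟩ := Geo.par0 hG j (y := (0, θ₀)) (by norm_num) le_rfl
  have hN : (Ioo (-1 / 2 : ℝ) (1 / 2) ×ˢ univ : Set P2) ∈ 𝓝 ((0, θ₀) : P2) :=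
    prod_mem_nhds (Ioo_mem_nhds (by norm_num) (by norm_num)) univ_mem
  obtain ⟨O, U, ψ, -, -, o3, u1, u2, -, -, -, h3⟩ := exists_chart hP hG.surf h hN univ_mem
  have key : ∀ x ∈ U, x ∈ S → ∃ y : P2, y.1 ∈ Ioo (-1 / 2 : ℝ) (1 / 2) ∧ K j y = x :=
    fun x a b => ⟨ψ x, (o3 (h3 x a b).1).1, (h3 x a b).2⟩
  have hp := Real.two_pi_pos
  refine ⟨U, u1, u2, fun j' θ hj hU => ?_, fun Z C hZ hCU hV => ?_⟩
  · obtain ⟨y, y1, y2⟩ := key _ hU (hG.sub (Geo.par0 hG j' (y := (0, θ)) (by norm_num) le_rfl).2)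
    exact hj (hG.inj j j' y (0, θ) ⟨by linarith [y1.1], by linarith [y1.2]⟩
      ⟨by norm_num, by norm_num⟩ y2).1.symm
  have hs : ∀ y ∈ (Icc (-1 / 2 : ℝ) 0 ×ˢ univ : Set P2), Par S (K j) y ∧ K j y ∈ C0 :=
    fun y hy => Geo.par0 hG j (by linarith [hy.1.1]) hy.1.2
  have hsub : (Icc (-1 / 2 : ℝ) 0 ×ˢ Ico 0 (2 * π) : Set P2) ⊆ Icc (-1 / 2 : ℝ) 0 ×ˢ univ :=
    prod_mono subset_rfl (subset_univ _)
  have hper : ∀ (k : ℤ) (y : P2), K j (y.1, y.2 + k * (2 * π)) = K j y := fun k y =>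
    Function.Periodic.int_mul (f := fun θ => K j (y.1, θ)) (fun θ => hG.per j (y.1, θ)) k y.2
  rw [restrict_van hP hG (A := K j '' (Icc (-1 / 2 : ℝ) 0 ×ˢ Ico 0 (2 * π)))
    (by rintro _ ⟨y, hy, rfl⟩; exact (hs y (hsub hy)).2) ?_,
    int_chart (O := Ioo (-1 : ℝ) 7 ×ˢ univ) (isOpen_Ioo.prod isOpen_univ)
      (fun z hz => hG.par j z hz.1) (measurableSet_Icc.prod measurableSet_Ico)
      (fun y hy => ⟨⟨by linarith [hy.1.1], by linarith [hy.1.2]⟩, trivial⟩)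
      (Geo.injOn hG j (by norm_num) (by norm_num))
      fun z hz => inv_vD hP hG.surf (hY _ (hs z (hsub hz)).2) (hZ _ (hs z (hsub hz)).2),
    setIntegral_congr_set (strip_ae _ _ _)]
  · have r2 : ∀ y ∈ (Icc (-1 / 2 : ℝ) 0 ×ˢ univ : Set P2),
        ContDiffAt ℝ 2 (fun z => Y (K j z)) y := fun y hy => (hY _ (hs y hy).2).1 _ _ (hs y hy).1 rfl
    have r1 : ∀ y ∈ (Icc (-1 / 2 : ℝ) 0 ×ˢ univ : Set P2),
        ContDiffAt ℝ 1 (fun z => Z (K j z)) y := fun y hy => hZ _ (hs y hy).2 _ _ (hs y hy).1 rfl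
    have rg : ∀ y ∈ (Icc (-1 / 2 : ℝ) 0 ×ˢ univ : Set P2), jet1 (fun z => Y (K j z)) y ∈ good :=
      fun y hy => (hY _ (hs y hy).2).2 _ _ (hs y hy).1 rfl
    have cσ : ContinuousOn (src (fun z => Y (K j z)) fun z => Z (K j z)) (Icc (-1 / 2 : ℝ) 0 ×ˢ univ) :=
      fun y hy => (continuousAt_src (r2 y hy) (r1 y hy).continuousAt (rg y hy)).continuousWithinAt
    have cd : ContinuousOn (fun y => dlag (jet1 (fun z => Y (K j z)) y)
        (jet1 (fun z => Z (K j z)) y)) (Icc (-1 / 2 : ℝ) 0 ×ˢ univ) := fun y hy =>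
      (continuousAt_dlag ((r2 y hy).of_le one_le_two) (r1 y hy) (rg y hy)).continuousWithinAt
    have hv := var_strip (Y := fun z => Y (K j z)) (W := fun z => Z (K j z)) (a := -1 / 2) (b := 0)
      (by norm_num) hp.le
      (fun y hy => (continuousAt_jet1 ((r2 y hy).of_le one_le_two)).continuousWithinAt)
      (fun y hy => (continuousAt_jet1 (r1 y hy)).continuousWithinAt) cσ rg
      (fun s _ => by
        simpa using jet1_per (f := fun z => Y (K j z)) (fun y => by rw [hG.per]) (s, 0))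
      (fun s _ => by simpa [jet1] using congrArg Z (hG.per j (s, 0)))
      fun y hy => ⟨r2 y ⟨Ioo_subset_Icc_self hy.1, trivial⟩,
        (r1 y ⟨Ioo_subset_Icc_self hy.1, trivial⟩).differentiableAt (by simp), rfl, rfl, rfl⟩
    have hc : IsCompact (Icc (-1 / 2 : ℝ) 0 ×ˢ Icc 0 (2 * π) : Set P2) :=
      isCompact_Icc.prod isCompact_Icc
    have hm : (Icc (-1 / 2 : ℝ) 0 ×ˢ Icc 0 (2 * π) : Set P2) ⊆ Icc (-1 / 2 : ℝ) 0 ×ˢ univ :=
      prod_mono subset_rfl (subset_univ _)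
    have z0 : ∀ θ, (jet1 (fun z => Z (K j z)) (-1 / 2, θ)).1 = 0 := fun θ => by
      have b := (hs (-1 / 2, θ) ⟨⟨le_rfl, by norm_num⟩, trivial⟩).2
      refine (hV _ b fun c => ?_).self_of_nhds (hG.sub b)
      obtain ⟨y, y1, y2⟩ := key _ (hCU c) (hG.sub b)
      have := (hG.inj j j y (-1 / 2, θ) ⟨by linarith [y1.1], by linarith [y1.2]⟩
        ⟨by norm_num, by norm_num⟩ y2).2.1
      exact absurd y1.1 (by rw [← this]; simp)
    simp only [vD, dlagD, srcD]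
    rw [integral_add ((cd.mono hm).integrableOn_compact hc) ((cσ.mono hm).integrableOn_compact hc),
      hv]
    simp only [z0, dotProduct_zero, intervalIntegral.integral_zero, sub_zero, sub_add_cancel]
    rfl
  · intro x a b
    refine hV x a fun c => b ?_
    obtain ⟨y, y1, rfl⟩ := key _ (hCU c) (hG.sub a)
    have y2 := (hG.mem j y ⟨by linarith [y1.1], by linarith [y1.2]⟩).1 a
    refine ⟨(y.1, toIcoMod hp 0 y.2), ⟨⟨y1.1.le, y2⟩, by simpa using toIcoMod_mem_Ico hp 0 y.2⟩, ?_⟩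
    rw [← hper (-toIcoDiv hp 0 y.2) y, toIcoMod]
    congr 2
    simp [sub_eq_add_neg]

theorem Fl_zero {k : P2 → E3} (h : ∀ θ, Z (k (0, θ)) = 0) : Fl k Y Z = 0 := by
  simp [Fl, flux1, h]

theorem Fl_add (hG : Geo S C0 K) (hY : ∀ x ∈ C0, Reg S 1 Y x ∧ Gd S Y x) {Z' : E3 → C3}
    (hZ : ∀ x ∈ C0, Reg S 0 Z x) (hZ' : ∀ x ∈ C0, Reg S 0 Z' x) (j : J) :
    Fl (K j) Y (fun u => Z u + Z' u) = Fl (K j) Y Z + Fl (K j) Y Z' := by
  rw [Fl, Fl, Fl, ← intervalIntegral.integral_add ((cont_flux hG hY hZ j).intervalIntegrable _ _)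
    ((cont_flux hG hY hZ' j).intervalIntegrable _ _)]
  simp only [flux1, dotProduct_add]

theorem int_vD_add (hP : ParStmt) (hG : Geo S C0 K) (hY : ∀ x ∈ C0, Reg S 2 Y x ∧ Gd S Y x)
    {Z' : E3 → C3} (hZ : ∀ x ∈ C0, Reg S 1 Z x) (hZ' : ∀ x ∈ C0, Reg S 1 Z' x) :
    ∫ x in C0, den S (vD Y fun u => Z u + Z' u) x ∂(μHE[2] : Measure E3) =
      ∫ x in C0, den S (vD Y Z) x ∂(μHE[2] : Measure E3) +
        ∫ x in C0, den S (vD Y Z') x ∂(μHE[2] : Measure E3) := by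
  rw [← integral_add (int_vD hP hG hY hZ) (int_vD hP hG hY hZ')]
  refine setIntegral_congr_fun hG.cpt.measurableSet fun x hx => ?_
  rw [← den_add]
  refine den_congr hP hG.surf (hG.sub hx) fun φ y a b => ?_
  simp only [vD, dlagD, srcD]
  rw [jet1_add ((hZ x hx).diff a b) ((hZ' x hx).diff a b), dlag_add, src_add]
  ring

/-- **First variation over the core** -/
theorem var_core' [Fintype J] (hP : ParStmt) (hG : Geo S C0 K)
    (hY : ∀ x ∈ C0, Reg S 2 Y x ∧ Gd S Y x) (hZ : ∀ x ∈ C0, Reg S 1 Z x) :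
    ∫ x in C0, den S (vD Y Z) x ∂(μHE[2] : Measure E3) = ∑ j, Fl (K j) Y Z := by
  classical
  let Q : Set E3 → Prop := fun U => ∀ (Z : E3 → C3) (C : Set E3), (∀ x ∈ C0, Reg S 1 Z x) →
    IsCompact C → C ⊆ U → (∀ x ∈ C0, x ∉ C → Van S Z x) →
      ∫ x in C0, den S (vD Y Z) x ∂(μHE[2] : Measure E3) = ∑ j, Fl (K j) Y Z
  have hz : ∀ {Z : E3 → C3} {C U : Set E3} {j : J}, C ⊆ U → (∀ x ∈ C0, x ∉ C → Van S Z x) →
      (∀ θ, K j (0, θ) ∉ U) → Fl (K j) Y Z = 0 := fun {Z C U j} a b c => Fl_zero fun θ => by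
    have d := (Geo.par0 hG j (y := (0, θ)) (by norm_num) le_rfl).2
    exact (b _ d fun e => c θ (a e)).self_of_nhds (hG.sub d)
  have hY1 : ∀ x ∈ C0, Reg S 1 Y x ∧ Gd S Y x := fun x hx =>
    ⟨(hY x hx).1.mono one_le_two, (hY x hx).2⟩
  obtain ⟨U, -, u2, u3⟩ : ∃ U, IsOpen U ∧ C0 ⊆ U ∧ Q U := by
    refine hG.cpt.induction_on (p := fun s => ∃ U, IsOpen U ∧ s ⊆ U ∧ Q U) ?_ ?_ ?_ ?_
    · refine ⟨∅, isOpen_empty, subset_rfl, fun Z C _ _ a b => ?_⟩
      rw [restrict_van hP hG (A := ∅) (empty_subset _) fun x c _ => b x c fun d => a d,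
        setIntegral_empty, Finset.sum_eq_zero fun j _ => hz a b fun _ => id]
    · rintro s t hst ⟨U, a, b, c⟩
      exact ⟨U, a, hst.trans b, c⟩
    · rintro s t ⟨U, a, b, c⟩ ⟨U', a', b', c'⟩
      refine ⟨U ∪ U', a.union a', union_subset_union b b', fun Z C hZ hC hCU hV => ?_⟩
      obtain ⟨C1, C2, k1, k2, k3, k4, rfl⟩ := hC.binary_compact_cover a a' hCU
      obtain ⟨χ, x0, x1, -⟩ := exists_contMDiffMap_zero_one_nhds_of_isClosed (n := 1)
        (modelWithCornersSelf ℝ E3) a.isClosed_compl k1.isClosed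
        (disjoint_compl_left_iff_subset.2 k3)
      have xc : ContDiff ℝ 1 (χ : E3 → ℝ) := χ.contMDiff.contDiff
      have r1 : ∀ x ∈ C0, Reg S 1 (fun u => χ u • Z u) x := fun x hx =>
        (Reg.of_cd (n := 1) xc.contDiffAt).rsmul (hZ x hx)
      have r2 : ∀ x ∈ C0, Reg S 1 (fun u => (1 - χ u) • Z u) x := fun x hx =>
        (Reg.of_cd (n := 1) (contDiffAt_const.sub xc.contDiffAt)).rsmul (hZ x hx)
      have e1 := c _ ((C1 ∪ C2) ∩ tsupport χ) r1 (hC.inter_right (isClosed_tsupport _))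
        (fun x hx => by_contra fun h => notMem_tsupport_iff_eventuallyEq.2
          (eventually_nhdsSet_iff_forall.1 x0 x h) hx.2) fun x h1 h2 => by
          by_cases h3 : x ∈ C1 ∪ C2
          · filter_upwards [notMem_tsupport_iff_eventuallyEq.1 fun h => h2 ⟨h3, h⟩] with u hu _
            rw [hu, Pi.zero_apply, zero_smul]
          · filter_upwards [hV x h1 h3] with u hu hs
            rw [hu hs, smul_zero]
      have e2 := c' _ C2 r2 k2 k4 fun x h1 h2 => by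
        by_cases h3 : x ∈ C1
        · filter_upwards [eventually_nhdsSet_iff_forall.1 x1 x h3] with u hu _
          rw [hu, sub_self, zero_smul]
        · filter_upwards [hV x h1 fun h => h.elim h3 h2] with u hu hs
          rw [hu hs, smul_zero]
      have e3 : Z = fun u => χ u • Z u + (1 - χ u) • Z u := funext fun u => by
        rw [← add_smul, add_sub_cancel, one_smul]
      rw [e3, int_vD_add hP hG hY r1 r2, e1, e2, ← Finset.sum_add_distrib]
      exact Finset.sum_congr rfl fun j _ => (Fl_add hG hY1 (fun x hx => (r1 x hx).mono zero_le_one)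
        (fun x hx => (r2 x hx).mono zero_le_one) j).symm
    · intro x hx
      rcases em (∃ j θ, x = K j (0, θ)) with ⟨j, θ, rfl⟩ | hn
      · obtain ⟨U, a, b, c, d⟩ := var_bd hP hG hY j θ
        refine ⟨U, mem_nhdsWithin_of_mem_nhds (a.mem_nhds b), U, a, subset_rfl,
          fun Z C hZ _ hCU hV => ?_⟩
        rw [d Z C hZ hCU hV, Finset.sum_eq_single j (fun j' _ hj => hz hCU hV fun θ => c j' θ hj)
          fun h => absurd (Finset.mem_univ j) h]
      · obtain ⟨U, a, b, c, d⟩ := var_int hP hG hY hx ((hG.int x hx).resolve_left hn)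
        refine ⟨U, mem_nhdsWithin_of_mem_nhds (a.mem_nhds b), U, a, subset_rfl,
          fun Z C hZ hC hCU hV => ?_⟩
        rw [d Z C hZ hC hCU hV, Finset.sum_eq_zero fun j _ => hz hCU hV (c j)]
  exact u3 Z C0 hZ hG.cpt u2 fun x a b => absurd a b

/-- **First variation over the core** -/
theorem var_core [Fintype J] (hP : ParStmt) (hG : Geo S C0 K)
    (hY : ∀ x ∈ C0, Reg S 2 Y x ∧ Gd S Y x) (hZ : ∀ x ∈ C0, Reg S 1 Z x) :
    ∫ x in C0, den S (dlagD Y Z) x ∂(μHE[2] : Measure E3) =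
      ∑ j, Fl (K j) Y Z - ∫ x in C0, den S (srcD Y Z) x ∂(μHE[2] : Measure E3) := by
  rw [← var_core' hP hG hY hZ, eq_sub_iff_add_eq, ← integral_add
    (integrableOn_core hP hG.surf hG.sub hG.cpt (cont_dlag hP hG.surf hG.sub
      (fun x hx => ⟨(hY x hx).1.mono one_le_two, (hY x hx).2⟩) hZ))
    (integrableOn_core hP hG.surf hG.sub hG.cpt (cont_src hP hG.surf hG.sub hY
      fun x hx => (hZ x hx).mono zero_le_one))]
  exact setIntegral_congr_fun hG.cpt.measurableSet fun x _ => (den_add _ _ x).symm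

end var

end Vale.Agent.P218F.LS
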