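import Vale.Agent.P218F.LSEndA
import Vale.Agent.P218F.LSSpec
import Vale.Agent.P218F.EndInf7

/-! Cylindrical ends: the part of `CylFam` which concerns `R = ∞`. -/

set_option maxSynthPendingDepth 3

namespace Vale.Agent.P218F.LS.EI

open Set Filter Topology Metric Matrix Wien Core EB
open Cone (W A T3 BC fn fn1 fn2 vT vYT vTT IsTri)
open End (cyl res3 PtEq DEq Dm IsEnd eR)
open EndI (IsInf IsW)

noncomputable section

variable {a b c : P218FT.E3} {α β : ℝ} {p q : T3 0} {z : P2}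

theorem jt_of_tri (h : EndI.Tri (Icc α β) (fun _ => 1) p) (hz : z.1 ∈ Ioo α β) :
    ContDiffAt ℝ 2 (fn p) z ∧ jet2 (fn p) z = jt 0 z p := by
  have hab := (hz.1.trans hz.2).le
  have h1 := EndI.tri_one_iff.1 (h.cut (π := EndI.clF α β) (μ := 1) (ω := fun _ => 1)
    (fun z => EndI.clF_of_mem) fun _ _ => by simp)
  rw [← EndI.res3_eq] at h1
  have h2 : End.Tri α β (res3 α β p) := ⟨by
    rw [EndI.res3_eq, EndI.res3_eq, EndI.cutT_cutT _ _ fun z =>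
      EndI.clF_of_mem (EndI.clF_mem hab z)], h1.1, h1.2⟩
  have e : fn p =ᶠ[𝓝 z] fn (res3 α β p) := by
    filter_upwards [End.mem_nhds_strip hz] with w hw
    exact (val_res p.1 hw.1 w.2).symm
  exact ⟨(h2.contDiffAt hz).congr_of_eventuallyEq e, by
    rw [jet2_congr e, h2.jet2_eq hz, ← jt_apply, jt_res3 p (Ioo_subset_Icc_self hz)]⟩

theorem dshr (T : P218FT.Triple a b c) (hp : EndI.Tri (Icc α β) (fun _ => 1) p)
    (hq : EndI.Tri (Icc α β) (fun _ => 1) q) (he : PtEq α β p) (hl : DEq α β p q)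
    (hz : z.1 ∈ Ioo α β) (h1 : (jt 0 z p).1 ≠ 0) (h2 : gC (jt 0 z p).one ≠ 0) :
    fderiv ℂ (shrG (Ba c) (eR a b) z) (jt 0 z p) (jt 0 z q) = 0 := by
  by_cases hd : DifferentiableAt ℂ (shrG (Ba c) (eR a b) z) (jt 0 z p)
  swap
  · rw [fderiv_zero_of_not_differentiableAt hd]; rfl
  have l : ∀ x y : ℂ, HasDerivAt (fun t : ℂ => x + t * y) y 0 := fun x y =>
    (((hasDerivAt_id (0 : ℂ)).mul_const y).const_add x).congr_deriv (one_mul _)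
  have k1 : HasDerivAt (fun t : ℂ => shrG (Ba c) (eR a b) z (jt 0 z p + t • jt 0 z q))
      (fderiv ℂ (shrG (Ba c) (eR a b) z) (jt 0 z p) (jt 0 z q)) 0 :=
    hd.hasFDerivAt.comp_hasDerivAt_of_eq (0 : ℂ) ((((hasDerivAt_id (0 : ℂ)).smul_const
      _).const_add _).congr_deriv (one_smul _ _)) (by simp)
  have k2 : DifferentiableAt ℂ (fun t : ℂ => (jt 0 z p + t • jt 0 z q).1 *
      gC (jt 0 z p + t • jt 0 z q).one) 0 := by
    simp only [gC, J2.one, Prod.fst_add, Prod.snd_add, Prod.smul_fst, Prod.smul_snd,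
      _root_.add_apply, _root_.smul_apply]
    fun_prop
  have k3 : ∀ᶠ t : ℂ in 𝓝 0, (jt 0 z p + t • jt 0 z q).1 * gC (jt 0 z p + t • jt 0 z q).one *
      shrG (Ba c) (eR a b) z (jt 0 z p + t • jt 0 z q) = ep z.1 (jt 0 z p + t • jt 0 z q) := by
    filter_upwards [k2.continuousAt.eventually_ne (y := 0) (by simpa using mul_ne_zero h1 h2)]
      with t ht
    obtain ⟨c1, c2⟩ := jt_of_tri (hp.add (hq.smul t)) hz
    rw [← map_smul, ← map_add, ← c2] at ht ⊢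
    rw [shrG_cyl c1]
    exact (End.geom_proof a b c T _ z c1).2.2.2 (left_ne_zero_of_mul ht) (right_ne_zero_of_mul ht)
  have k4 : HasDerivAt (fun t : ℂ => ep z.1 (jt 0 z p + t • jt 0 z q)) 0 0 := by
    have := End.hasDerivAt_epol (z.1 : ℂ) (l (Cone.val p.1 z.1 z.2) (Cone.val q.1 z.1 z.2))
      (l (Cone.val p.2.1 z.1 z.2) (Cone.val q.2.1 z.1 z.2)) (l (vT p z.1 z.2) (vT q z.1 z.2))
      (l (Cone.val p.2.2 z.1 z.2) (Cone.val q.2.2 z.1 z.2)) (l (vYT p z.1 z.2) (vYT q z.1 z.2))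
      (l (vTT p z.1 z.2) (vTT q z.1 z.2))
    simp only [zero_mul, add_zero, hl z.1 (Ioo_subset_Icc_self hz) z.2] at this
    simpa [ep, jt_apply, fn] using this
  have k5 := k3.self_of_nhds
  have k6 := (k2.hasDerivAt.fun_mul k1).unique (k4.congr_of_eventuallyEq k3)
  simp only [zero_smul, add_zero] at k5 k6
  rw [ep_jt he (Ioo_subset_Icc_self hz), mul_eq_zero, or_iff_right (mul_ne_zero h1 h2)] at k5
  rwa [k5, mul_zero, zero_add, mul_eq_zero, or_iff_right (mul_ne_zero h1 h2)] at k6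

/-- the number `√2` as a function of the angle -/
def r2 : A 2 := algebraMap ℂ (A 2) (√2 : ℝ)

theorem cf_r2 {k : ℤ} (hk : 2 ≤ |k|) : cf r2 k = 0 := by
  have : k ≠ 0 := by rintro rfl; simp at hk
  simp [r2, Algebra.algebraMap_eq_smul_one, one_def, cf_single, this, -Complex.coe_smul]

theorem ev_r2 (θ : ℝ) : ev 2 ℂ θ r2 = (√2 : ℝ) := by
  simp [r2, Algebra.algebraMap_eq_smul_one, ev_one, -Complex.coe_smul]

theorem star_iff {g : A 2} : star g = g ↔ ReA g :=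
  (star_eq_iff_ev g).trans (forall_congr' fun _ => Complex.conj_eq_iff_im)

theorem star_sub_r2 {g : A 2} (h : ReA g) : star (g - r2) = g - r2 :=
  star_iff.2 fun θ => by simp [ev_r2, h θ]

/-- the defect of the low modes -/
def lowT (s : ℝ) (p : T3 0) (g : A 2) : Fin 3 → ℂ := lowL (Cone.tr 2 s p.1 - g)

/-- the same as a linear map -/
def lowM (s : ℝ) : T3 0 × A 2 →L[ℂ] Fin 3 → ℂ :=
  lowL.comp ((Cone.tr 2 s).comp ((ContinuousLinearMap.fst ℂ _ _).comp (.fst ℂ _ _)) - .snd ℂ _ _)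

theorem lowM_apply (s : ℝ) (p : T3 0) (g : A 2) : lowM s (p, g) = lowT s p g := rfl

theorem lowT_sub (s : ℝ) (p q : T3 0) (g h : A 2) :
    lowT s p g - lowT s q h = lowT s (p - q) (g - h) := (map_sub (lowM s) (p, g) (q, h)).symm

theorem norm_lowT_le (s : ℝ) (p : T3 0) : ‖lowT s p 0‖ ≤ 2 * ‖p‖ := by
  refine (norm_lowL_le _).trans ?_
  rw [sub_zero]
  linarith [EB.norm_tr_apply_le s p.1, norm_fst_le p]

theorem mat_of {s : ℝ} {g : A 2} (h : lowT s p g = 0)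
    (hk : ∀ k : ℤ, 2 ≤ |k| → cf p.1 k s = cf g k) (θ : ℝ) : fn p (s, θ) = ev 2 ℂ θ g := by
  rw [← sub_eq_zero.1 (eq_zero_of_low h fun k h => by simp [hk k h])]
  exact Cone.val_eq_tr _ _ _

theorem isRe_lowT {s : ℝ} {g : A 2} (hp : star p = p) (hg : ReA g) : IsRe (lowT s p g) :=
  isRe_lowL (by rw [star_sub, Cone.star_tr, show star p.1 = p.1 from congrArg Prod.fst hp,
    star_iff.2 hg])

theorem triI {s : ℝ} (h : IsTri s p) (β : ℝ) : EndI.Tri (Icc s β) (fun _ => 1) p :=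
  (EndI.isTri_iff.1 h).2.mono Icc_subset_Ici_self

theorem jet2_I {s : ℝ} (h : IsTri s p) (hz : s < z.1) : jet2 (fn p) z = jt 0 z p := h.jet2_eq hz

theorem jet1_I {s : ℝ} (h : IsTri s p) (hz : s < z.1) : jet1 (fn p) z = oneL (jt 0 z p) := by
  rw [← jet2_one, jet2_I h hz]; rfl

theorem norm_one_jt (p : T3 0) (z : P2) : ‖oneL (jt 0 z p)‖ ≤ 4 * ‖p‖ :=
  (norm_one_le _).trans (norm_jt_le p z)

/-- the linearised family -/
def dE (E : A 2 → T3 0) (h₀ : A 2) : AA →ₗ[ℂ] P2 → ℂ where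
  toFun v := fn (fderiv ℂ E h₀ v)
  map_add' v w := by funext z; simp [fn, Cone.val_eq]
  map_smul' m v := by funext z; simp [fn, Cone.val_eq]

/-- the linearised matching condition -/
def dLow (s : ℝ) (E : A 2 → T3 0) (h₀ : A 2) : AA →L[ℂ] Fin 3 → ℂ :=
  (lowM s).comp ((fderiv ℂ E h₀).prod (.id ℂ _))

variable {δ η C s ρ : ℝ} {E : A 2 → T3 0} {h₀ : A 2} {r : P2 → ℝ}

theorem mem_of (hρ : ‖h₀‖ + ρ ≤ δ) {g : A 2} (hg : g ∈ ball (r2 + h₀) ρ) :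
    ‖g - r2‖ ≤ ‖h₀‖ + ρ ∧ g - r2 ∈ ball (0 : A 2) δ := by
  have h1 := mem_ball_iff_norm.1 hg
  have h2 : ‖g - r2‖ ≤ ‖h₀‖ + ‖g - (r2 + h₀)‖ :=
    (norm_add_le _ _).trans_eq' (by congr 1; abel)
  exact ⟨by linarith, mem_ball_zero_iff.2 (by linarith)⟩

theorem good (hE : IsInf δ η C s E) {h : A 2} (hh : h ∈ ball (0 : A 2) δ) (z : P2) :
    fn (E h) z ≠ 0 ∧ 0 < (gC (jt 0 z (E h)).one).re := by
  obtain ⟨h1, h2⟩ := hE.good h hh z.1 z.2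
  refine ⟨fun h => ?_, by rw [gC_jt]; exact one_pos.trans_le h2⟩
  rw [h] at h1
  norm_num at h1

theorem ne_of_re {x : ℂ} (h : 0 < x.re) : x ≠ 0 := fun e => by simp [e] at h

theorem dE_apply (E : A 2 → T3 0) (h₀ v : A 2) : dE E h₀ v = fn (fderiv ℂ E h₀ v) := rfl

theorem dLow_apply (s : ℝ) (E : A 2 → T3 0) (h₀ v : A 2) :
    dLow s E h₀ v = lowT s (fderiv ℂ E h₀ v) v := rfl

theorem hol (hE : IsInf δ η C s E) (hρ : ‖h₀‖ + ρ ≤ δ) :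
    DifferentiableOn ℂ (fun g => E (g - r2)) (ball (r2 + h₀) ρ) :=
  hE.hol.comp (differentiableOn_id.sub_const r2) fun _ hg => (mem_of hρ hg).2

theorem j0 (h : IsTri s p) (hr : ∀ z : P2, s ≤ z.1 → fn p z = r z) (hz : s < z.1) :
    jet2 (fun y => (r y : ℂ)) z = jt 0 z p := by
  rw [← jet2_I h hz]
  refine jet2_congr ?_
  filter_upwards [Cone.mem_nhds_half hz] with w hw
  exact (hr w hw.1).symm

theorem rem (hE : IsInf δ η C s E) (hC : 1 ≤ C) (hρ0 : 0 < ρ) (hρ : ‖h₀‖ + ρ ≤ δ) {g : A 2}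
    (hg : g ∈ ball (r2 + h₀) ρ) : ‖E (g - r2) - E h₀ - fderiv ℂ E h₀ (g - (r2 + h₀))‖ ≤
      4 * C / ρ * ‖g - (r2 + h₀)‖ ^ 2 := by
  have m0 : h₀ ∈ ball (0 : A 2) δ := mem_ball_zero_iff.2 (by linarith)
  have hb : ball h₀ ρ ⊆ ball 0 δ := ball_subset_ball' (by rw [dist_zero_right]; linarith)
  have := Core.rem_le (f := fun h => E h - E h₀) (M := C * ρ) (q := g - r2)
    ((hE.hol.mono hb).sub_const _) (fun h hh => (hE.lip _ (hb hh) _ m0).trans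
      (mul_le_mul_of_nonneg_left (mem_ball_iff_norm.1 hh).le (by linarith)))
    (by rwa [mem_ball_iff_norm, sub_sub, ← mem_ball_iff_norm])
  rw [sub_self, sub_zero, fderiv_sub_const, sub_sub g] at this
  refine this.trans (le_of_eq ?_)
  field_simp

theorem low0 (hev : ∀ θ, ev 2 ℂ θ h₀ = ((r (s, θ) - √2 : ℝ) : ℂ))
    (hr : ∀ z : P2, s ≤ z.1 → fn p z = r z) : lowT s p (r2 + h₀) = 0 := by
  rw [lowT, ext_ev (u := Cone.tr 2 s p.1) (v := r2 + h₀) fun θ => ?_, sub_self, map_zero]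
  rw [← Cone.val_eq_tr, map_add, ev_r2, hev]
  exact (hr (s, θ) le_rfl).trans (by push_cast; ring)

theorem eqI (T : P218FT.Triple a b c) (hE : IsInf δ η C s E) {h : A 2} (m : h ∈ ball (0 : A 2) δ)
    (hz : s < z.1) : shrG (Ba c) (eR a b) z (jet2 (fn (E h)) z) = 0 := by
  have ht := hE.tri _ m
  obtain ⟨g1, g2⟩ := good hE m z
  rw [shrG_cyl (ht.contDiffAt hz), ((geom T (ht.contDiffAt hz) g1).2.2
    (by rw [jet2_I ht hz]; exact ne_of_re g2)), jet2_I ht hz]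
  exact ep_jt (hE.eqn _ m z.1) ⟨hz.le, le_rfl⟩

theorem posI (T : P218FT.Triple a b c) (hE : IsInf δ η C s E) {h : A 2} (m : h ∈ ball (0 : A 2) δ)
    (hz : s < z.1) :
    eR a b z ⬝ᵥ nor (fderiv ℝ (fun y => Ba c y + fn (E h) y • eR a b y) z) ≠ 0 ∧
      0 < (gdet (fderiv ℝ (fun y => Ba c y + fn (E h) y • eR a b y) z)).re := by
  have ht := hE.tri _ m
  obtain ⟨g1, g2⟩ := good hE m z
  obtain ⟨g3, g4, -⟩ := geom T (ht.contDiffAt hz) g1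
  rw [cylY_eq]
  exact ⟨g4, by rwa [g3, jet2_I ht hz]⟩

theorem realI {g : A 2} (hp : star p = p) (hg : ReA g) :
    (∀ z : P2, s ≤ z.1 → (fn p z).im = 0) ∧ IsRe (lowT s p g) :=
  ⟨fun _ _ => im_val (congrArg Prod.fst hp) _ _, isRe_lowT hp hg⟩

theorem holI (hE : IsInf δ η C s E) (hρ : ‖h₀‖ + ρ ≤ δ) (hz : s < z.1) :
    DifferentiableOn ℂ (fun g => jet1 (fn (E (g - r2))) z) (ball (r2 + h₀) ρ) :=
  ((oneL.comp (jt 0 z)).differentiable.comp_differentiableOn (hol hE hρ)).congr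
    fun _ hg => jet1_I (hE.tri _ (mem_of hρ hg).2) hz

theorem hlowI (hE : IsInf δ η C s E) (hρ : ‖h₀‖ + ρ ≤ δ) :
    DifferentiableOn ℂ (fun g => lowT s (E (g - r2)) g) (ball (r2 + h₀) ρ) := by
  have h1 : DifferentiableOn ℂ (fun g : A 2 => (E (g - r2), g)) (ball (r2 + h₀) ρ) :=
    (hol hE hρ).prodMk differentiableOn_id
  have h2 := (lowM s).differentiable.comp_differentiableOn h1
  exact h2.congr fun g _ => (lowM_apply s _ g).symm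

theorem deqI (T : P218FT.Triple a b c) (hE : IsInf δ η C s E) (m0 : h₀ ∈ ball (0 : A 2) δ)
    (hr : ∀ z : P2, s ≤ z.1 → fn (E h₀) z = r z) (v : A 2) (hz : s < z.1) :
    fderiv ℂ (shrG (Ba c) (eR a b) z) (jet2 (fun y => (r y : ℂ)) z)
      (jet2 (fn (fderiv ℂ E h₀ v)) z) = 0 := by
  obtain ⟨g1, g2⟩ := good hE m0 z
  rw [j0 (hE.tri _ m0) hr hz, jet2_I (hE.dtri _ m0 v) hz]
  exact dshr T (triI (hE.tri _ m0) (z.1 + 1)) (triI (hE.dtri _ m0 v) _) (hE.eqn _ m0 _)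
    (hE.deqn _ m0 v _) ⟨hz, lt_add_one _⟩ g1 (ne_of_re g2)

theorem bdI (hE : IsInf δ η C s E) (m0 : h₀ ∈ ball (0 : A 2) δ) {C' : ℝ} (h1 : 4 * C ≤ C')
    (v : A 2) (hz : s < z.1) : ‖jet2 (fn (fderiv ℂ E h₀ v)) z‖ ≤ C' * ‖v‖ := by
  rw [jet2_I (hE.dtri _ m0 v) hz]
  nlinarith [norm_jt_le (fderiv ℂ E h₀ v) z, hE.dle _ m0 v, norm_nonneg v]

theorem devI (hE : IsInf δ η C s E) (hC : 1 ≤ C) (hρ0 : 0 < ρ) (hρ : ‖h₀‖ + ρ ≤ δ)
    (hr : ∀ z : P2, s ≤ z.1 → fn (E h₀) z = r z) {C' : ℝ} (h2 : 16 * C / ρ ≤ C') {g : A 2}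
    (hg : g ∈ ball (r2 + h₀) ρ) (hz : s < z.1) :
    ‖jet2 (fn (E (g - r2))) z - jet2 (fun y => (r y : ℂ)) z -
      jet2 (fn (fderiv ℂ E h₀ (g - (r2 + h₀)))) z‖ ≤ C' * ‖g - (r2 + h₀)‖ ^ 2 := by
  have m0 : h₀ ∈ ball (0 : A 2) δ := mem_ball_zero_iff.2 (by linarith)
  rw [j0 (hE.tri _ m0) hr hz, jet2_I (hE.dtri _ m0 _) hz,
    jet2_I (hE.tri _ (mem_of hρ hg).2) hz, ← map_sub, ← map_sub]
  refine (norm_jt_le _ z).trans
    ((mul_le_mul_of_nonneg_left (rem hE hC hρ0 hρ hg) (by norm_num)).trans ?_)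
  rw [← mul_assoc]
  exact mul_le_mul_of_nonneg_right (by rwa [← mul_div_assoc, ← mul_assoc, show (4 : ℝ) * 4 = 16
    by norm_num]) (sq_nonneg _)

theorem devlowI (hE : IsInf δ η C s E) (hC : 1 ≤ C) (hρ0 : 0 < ρ) (hρ : ‖h₀‖ + ρ ≤ δ)
    (h0 : lowT s (E h₀) (r2 + h₀) = 0) {C' : ℝ} (h2 : 16 * C / ρ ≤ C') {g : A 2}
    (hg : g ∈ ball (r2 + h₀) ρ) :
    ‖lowT s (E (g - r2)) g - lowT s (fderiv ℂ E h₀ (g - (r2 + h₀))) (g - (r2 + h₀))‖ ≤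
      C' * ‖g - (r2 + h₀)‖ ^ 2 := by
  rw [← sub_zero (lowT s (E (g - r2)) g), ← h0, lowT_sub, lowT_sub, sub_self]
  refine (norm_lowT_le _ _).trans
    ((mul_le_mul_of_nonneg_left (rem hE hC hρ0 hρ hg) (by norm_num)).trans ?_)
  rw [← mul_assoc]
  refine mul_le_mul_of_nonneg_right (le_trans ?_ h2) (sq_nonneg _)
  rw [← mul_div_assoc]
  exact div_le_div_of_nonneg_right (by linarith) hρ0.le

theorem c2I (h : IsTri s p) : ContDiffOn ℝ 2 (fn p) (Ioi s ×ˢ univ) :=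
  h.contDiffOn.mono (prod_mono Ioi_subset_Ici_self Subset.rfl)

theorem infFam (T : P218FT.Triple a b c) (hE : IsInf δ η C s E) (hC : 1 ≤ C) (hρ0 : 0 < ρ)
    (hρ : ‖h₀‖ + ρ ≤ δ) (hs : star h₀ = h₀) (hev : ∀ θ, ev 2 ℂ θ h₀ = ((r (s, θ) - √2 : ℝ) : ℂ))
    (hr : ∀ z : P2, s ≤ z.1 → fn (E h₀) z = r z) {C' : ℝ} (h1 : 4 * C ≤ C') (h2 : 16 * C / ρ ≤ C') :
    InfFam (Ba c) (eR a b) r s ρ C' (r2 + h₀) (fun g => fn (E (g - r2)))
      (fun g => lowT s (E (g - r2)) g) (dE E h₀) (dLow s E h₀) :=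
  have m := fun g hg => (mem_of hρ (g := g) hg).2
  have m0 : h₀ ∈ ball (0 : A 2) δ := mem_ball_zero_iff.2 (by linarith)
  { δpos := hρ0
    ev0 := fun θ => by rw [map_add, ev_r2, hev]; push_cast; ring
    c2 := fun g hg => c2I (hE.tri _ (m g hg))
    cont := fun _ _ => (Cone.continuous_fn _).continuousOn
    per := fun _ _ => fn_per _
    eq := fun g hg _ hz => eqI T hE (m g hg) hz
    pos := fun g hg _ hz => posI T hE (m g hg) hz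
    mat := fun g hg h => mat_of h fun k hk => by
      rw [hE.trace _ (m g hg) k hk, cf_sub, cf_r2 hk, sub_zero]
    real := fun g hg h => realI (hE.real _ (m g hg) (star_sub_r2 h)) h
    hol := fun _ hz _ => holI hE hρ hz
    hlow := hlowI hE hρ
    base := fun z hz => by rw [add_sub_cancel_left]; exact hr z hz
    low0 := by rw [add_sub_cancel_left]; exact low0 hev hr
    c2' := fun v => by rw [dE_apply]; exact c2I (hE.dtri _ m0 v)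
    cont' := fun v => by rw [dE_apply]; exact (Cone.continuous_fn _).continuousOn
    per' := fun v => by rw [dE_apply]; exact fn_per _
    eq' := fun v _ hz => by rw [dE_apply]; exact deqI T hE m0 hr v hz
    mat' := fun v h => by
      rw [dLow_apply] at h
      rw [dE_apply]
      exact mat_of h (hE.dtrace _ m0 v)
    real' := fun v h => by
      rw [dE_apply, dLow_apply]; exact realI (hE.dreal _ m0 hs v (star_iff.2 h)) h
    bd' := fun v _ hz _ => by rw [dE_apply]; exact bdI hE m0 h1 v hz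
    dev := fun _ hg _ hz _ => by rw [dE_apply]; exact devI hE hC hρ0 hρ hr h2 hg hz
    devlow := fun _ hg => by
      rw [dLow_apply]; exact devlowI hE hC hρ0 hρ (low0 hev hr) h2 hg }

theorem cylSm_of {ε : ℝ} (h : ContDiffAt ℝ 2 (fn p) z) (hj : jet2 (fn p) z = jt 0 z p)
    (h0 : 0 ≤ z.1) (h1 : ‖jt 0 z (p - cyl)‖ ≤ ε) (h2 : z.1 * ‖Cone.val p.2.1 z.1 z.2‖ ≤ ε) :
    CylSm ε (fn p) z := by
  constructor
  · rwa [jet2_sub h contDiffAt_const, jet2_const, hj, ← jt_cyl z, ← map_sub]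
  · rw [show fderiv ℝ (fn p) z = fn1 p z from congrArg (fun q => q.2.1) hj, Cone.fn1_y, norm_mul,
      Complex.norm_real, Real.norm_of_nonneg h0]
    exact h2

theorem smalli (hE : IsInf δ η C s E) (hC : 1 ≤ C) (hs : 0 ≤ s) (hρ : ‖h₀‖ + ρ ≤ δ) {ε : ℝ}
    (hε : 4 * C * (‖h₀‖ + ρ) ≤ ε) : ∀ g ∈ ball (r2 + h₀) ρ, ∀ z : P2, s < z.1 →
      CylSm ε (fn (E (g - r2))) z := fun g hg z hz => by
  obtain ⟨m1, m⟩ := mem_of hρ hg
  obtain ⟨h1, h2⟩ := hE.small _ m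
  have h3 := mul_le_mul_of_nonneg_left m1 (zero_le_one.trans hC)
  have h4 := (norm_nonneg _).trans h1
  exact cylSm_of ((hE.tri _ m).contDiffAt hz) (jet2_I (hE.tri _ m) hz) (by linarith)
    ((norm_jt_le _ z).trans (by linarith)) ((h2 z.1 z.2 hz.le).trans (by linarith))

theorem lipi (hE : IsInf δ η C s E) (hρ : ‖h₀‖ + ρ ≤ δ) {C' : ℝ} (h1 : 4 * C ≤ C') :
    ∀ g ∈ ball (r2 + h₀) ρ, ∀ g' ∈ ball (r2 + h₀) ρ, ∀ z : P2, s < z.1 →
      ‖jet1 (fn (E (g' - r2))) z - jet1 (fn (E (g - r2))) z‖ ≤ C' * ‖g' - g‖ :=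
  fun g hg g' hg' z hz => by
  have m := (mem_of hρ hg).2
  have m' := (mem_of hρ hg').2
  have := hE.lip _ m' _ m
  rw [sub_sub_sub_cancel_right] at this
  rw [jet1_I (hE.tri _ m) hz, jet1_I (hE.tri _ m') hz, ← map_sub, ← map_sub]
  nlinarith [norm_one_jt (E (g' - r2) - E (g - r2)) z, norm_nonneg (g' - g)]

theorem glob' (hE : IsInf δ η C s E) (m0 : ‖h₀‖ < δ) {C' : ℝ} (h1 : 4 * C ≤ C') :
    ∀ v (z : P2), s < z.1 → ‖jet1 (dE E h₀ v) z‖ ≤ C' * ‖v‖ := fun v z hz => by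
  have m := mem_ball_zero_iff.2 m0
  rw [show jet1 (dE E h₀ v) z = _ from jet1_I (hE.dtri _ m v) hz]
  nlinarith [norm_one_jt (fderiv ℂ E h₀ v) z, hE.dle _ m v, norm_nonneg v]

theorem jac (T : P218FT.Triple a b c) (hE : IsInf δ η C s E) (hs : 0 ≤ s) (m0 : ‖h₀‖ < δ)
    (hr : ∀ z : P2, s ≤ z.1 → fn (E h₀) z = r z) {u : P2 → ℝ} (hu : IsW s (E h₀) u) :
    IsJac (Ba c) (eR a b) r s u := by
  have m := mem_ball_zero_iff.2 m0
  obtain ⟨K, hK⟩ := hu.loc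
  have key : ∀ z : P2, s < z.1 → ∃ w : T3 0, End.Tri s (z.1 + 1) w ∧ DEq s (z.1 + 1) (E h₀) w ∧
      ‖w‖ ≤ K * (z.1 + 1) ^ 2 ∧ (fun y => (u y : ℂ)) =ᶠ[𝓝 z] fn w := fun z hz => by
    obtain ⟨w, h1, h2, h3, h4⟩ := hK (z.1 + 1) (by linarith)
    refine ⟨w, h1, h2, h3, ?_⟩
    filter_upwards [End.mem_nhds_strip (z := z) ⟨hz, lt_add_one _⟩] with y hy
    exact (h4 y hy.1).symm
  have cd : ∀ z : P2, s < z.1 → ContDiffAt ℝ 2 u z := fun z hz => by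
    obtain ⟨w, h1, -, -, h4⟩ := key z hz
    exact Complex.reCLM.contDiff.contDiffAt.comp z
      ((h1.contDiffAt ⟨hz, lt_add_one _⟩).congr_of_eventuallyEq h4)
  refine ⟨fun z hz => (cd z hz.1).contDiffWithinAt, hu.per, fun z hz => ?_,
    ⟨1 / 20, s, by norm_num, fun z hz => by linarith [hu.low z hz, le_abs_self (u z)]⟩,
    16 * |K|, 2, fun z hz => ?_⟩
  · obtain ⟨w, h1, h2, -, h4⟩ := key z hz
    obtain ⟨g1, g2⟩ := good hE m z
    have e : (fun y => (r y : ℂ)) =ᶠ[𝓝 z] fn (E h₀) := by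
      filter_upwards [Cone.mem_nhds_half hz] with w hw
      exact (hr w hw.1).symm
    rw [jet2_congr e, jet2_congr h4, jet2_I (hE.tri _ m) hz, h1.jet2_eq ⟨hz, lt_add_one _⟩]
    exact dshr T (triI (hE.tri _ m) _) (EndI.tri_one_iff.2 ⟨h1.d0, h1.d1⟩) (hE.eqn _ m _) h2
      ⟨hz, lt_add_one _⟩ g1 (ne_of_re g2)
  · have hz' : s < z.1 := by linarith
    obtain ⟨w, h1, -, h3, h4⟩ := key z hz'
    have h5 : ‖jet1 (fun y => (u y : ℂ)) z‖ ≤ 4 * ‖w‖ := by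
      rw [← jet2_one, jet2_congr h4, h1.jet2_eq ⟨hz', lt_add_one _⟩]
      exact norm_one_jt w z
    have h6 : ‖jet1 u z‖ ≤ ‖jet1 (fun y => (u y : ℂ)) z‖ := by
      have hd := (cd z hz').differentiableAt (by simp)
      have e := (Complex.ofRealCLM.hasFDerivAt.comp z hd.hasFDerivAt).fderiv
      simp only [jet1, Prod.norm_def, Complex.norm_real]
      refine max_le_max le_rfl (ContinuousLinearMap.opNorm_le_bound _ (norm_nonneg _) fun v => ?_)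
      refine le_trans (le_of_eq ?_) (ContinuousLinearMap.le_opNorm _ v)
      rw [show (fun y => (u y : ℂ)) = Complex.ofRealCLM ∘ u from rfl, e]
      simp
    have h7 : (z.1 + 1) ^ 2 ≤ 4 * z.1 ^ 2 := by nlinarith
    nlinarith [mul_le_mul (le_abs_self K) h7 (sq_nonneg _) (abs_nonneg K)]

variable {Λ δ₁ C₁ R₁ C₂ C₀ C₃ Z₀ R₀ : ℝ} {cc Y : ℝ → ℂ → ℂ} {V P : ℝ → ℂ → Sym.BC}
  {e : ℝ → A 2 × ℂ → T3 0}

theorem x7 (hE : IsInf δ η C s E) (he : IsEnd Λ δ₁ C₁ s R₁ C₂ cc Y e)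
    (hf : Sym.Fam C₃ Λ Z₀ R₀ V P cc) (hi : Sym.Inv C₀ Λ R₀ cc Y) (hR : R₀ ≤ R₁)
    (hρ : ‖h₀‖ + ρ ≤ δ) (hρ₁ : ‖h₀‖ + ρ ≤ δ₁) (hC₁ : |C₁| * (‖h₀‖ + ρ) ≤ η / 2) :
    ∀ Z ε' : ℝ, 0 < ε' → ∃ R₂, ∀ R, R₂ ≤ R → ∀ g ∈ ball (r2 + h₀) ρ, ∀ t ∈ Sym.Om (2 * Λ) R,
      ‖lowT s (e R (g - r2, Y R t)) g - lowT s (E (g - r2)) g‖ ≤ ε' ∧ ∀ z : P2, s < z.1 → z.1 < Z →
        ‖jet2 (fn (e R (g - r2, Y R t))) z - jet2 (fn (E (g - r2))) z‖ ≤ ε' := by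
  intro Z ε hε
  obtain ⟨R₂, h⟩ := hE.x7 Λ δ₁ C₁ R₁ C₂ cc Y e he
    (fun R h y hy => (hf.sol R (hR.trans h) y hy).c_le) (max Z s) (ε / 4) (le_max_right _ _)
    (by positivity)
  refine ⟨max (max R₂ R₁) Z, fun R hR' g hg t ht => ?_⟩
  simp only [max_le_iff] at hR'
  obtain ⟨m1, m⟩ := mem_of hρ hg
  have hx : (g - r2, Y R t) ∈ Dm δ₁ Λ R := ⟨(mem_of hρ₁ hg).2, ball_subset_ball
    (by gcongr; linarith [hi.room]) (hi.mem R (hR.trans hR'.1.2) _ le_rfl t ht)⟩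
  have h1 := h R hR'.1.1 _ hx (mem_ball_zero_iff.1 m)
    ((mul_le_mul (le_abs_self _) m1 (norm_nonneg _) (abs_nonneg _)).trans hC₁)
  constructor
  · have e1 : ∀ p : T3 0, lowT s p g = lowT s (res3 s (max Z s) p) g := fun p => by
      rw [lowT, lowT, res3, tr_res _ ⟨le_rfl, le_max_right _ _⟩]
    rw [e1, e1 (E _), lowT_sub, sub_self]
    linarith [norm_lowT_le s (res3 s (max Z s) (e R (g - r2, Y R t)) -
      res3 s (max Z s) (E (g - r2)))]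
  · intro z hz hZ
    have hz' : z.1 ∈ Icc s (max Z s) := ⟨hz.le, hZ.le.trans (le_max_left _ _)⟩
    rw [jet2_I (hE.tri _ m) hz, (he.tri R hR'.1.2 _ hx).jet2_eq ⟨hz, hZ.trans_le hR'.2⟩,
      ← jt_apply, ← jt_res3 _ hz', ← jt_res3 (E _) hz', ← map_sub]
    linarith [norm_jt_le (res3 s (max Z s) (e R (g - r2, Y R t)) -
      res3 s (max Z s) (E (g - r2))) z]

/-- the fields `jac` and `x7W` -/
theorem exists_jac (T : P218FT.Triple a b c) (hE : IsInf δ η C s E) (hs : 0 ≤ s) (m0 : ‖h₀‖ < δ)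
    (hst : star h₀ = h₀) (hr : ∀ z : P2, s ≤ z.1 → fn (E h₀) z = r z) (hΛ : 0 ≤ Λ)
    (he : IsEnd Λ δ₁ C₁ s R₁ C₂ cc Y e) (hi : Sym.Inv C₀ Λ R₀ cc Y) (h1 : ‖h₀‖ < δ₁)
    (h2 : C₁ * ‖h₀‖ < η) : ∃ u : P2 → ℝ, IsJac (Ba c) (eR a b) r s u ∧ ∀ z : P2, s < z.1 →
      z.1 < s + 6 → Tendsto (fun q : ℝ × AA =>
        deriv (fun t : ℂ => fn (e q.1 (q.2 - r2, Y q.1 t)) z) 0) (atTop ×ˢ 𝓝 (r2 + h₀))
        (𝓝 (u z)) := by
  obtain ⟨u, hu, hl⟩ := hE.jac h₀ (mem_ball_zero_iff.2 m0) hst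
  refine ⟨u, jac T hE hs m0 hr hu, fun z hz _ => ?_⟩
  have t : Tendsto (fun g : A 2 => g - r2) (𝓝 (r2 + h₀)) (𝓝 h₀) := by
    simpa using (continuous_sub_right r2).tendsto (r2 + h₀)
  have t2 : Tendsto (fun q : ℝ × A 2 => (q.1, q.2 - r2)) (atTop ×ˢ 𝓝 (r2 + h₀))
      (atTop ×ˢ 𝓝 h₀) := tendsto_fst.prodMk (t.comp tendsto_snd)
  have t3 := (hl Λ δ₁ C₁ R₁ C₂ C₀ R₀ cc Y e hΛ he hi h1 h2 z hz.le).comp t2
  simpa only [Function.comp_def] using t3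

end

end Vale.Agent.P218F.LS.EI
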