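import Vale.Agent.P218F.LSEndY
import Vale.Agent.P218F.LSEndI
import Vale.Agent.P218F.EndAll
import Vale.Agent.P218F.ConeBridge

/-! Cylindrical ends: the family of end solutions. -/

set_option maxSynthPendingDepth 3

namespace Vale.Agent.P218F.LS.CF

open Set Filter Topology Metric Wien Core
open Vale.Agent.P218FT hiding P2
open Cone (W A T3 BC fn)
open scoped Real ContDiff

noncomputable section

/-- the graph function of a cylindrical end solves the polynomial equation -/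
theorem epol_end {S : Set E3} (hS : IsShr S) {a b c : E3} {z₀ δ : ℝ} {r : P2 → ℝ}
    (h : Ends.CylEnd S a b c z₀ δ r) (hδ : 0 < δ) (hz : 2 ≤ δ * z₀) (z : P2) (hz₀ : z₀ < z.1) :
    let J := jet2 (fun y => (r y : ℂ)) z
    End.epol (z.1 : ℂ) J.1 (J.2.1 (1, 0)) (J.2.1 (0, 1)) (J.2.2 (1, 0) (1, 0))
      (J.2.2 (1, 0) (0, 1)) (J.2.2 (0, 1) (0, 1)) = 0 := by
  intro J
  have hr : ContDiff ℝ 2 r := h.smooth.of_le two_le_inf
  have hu : ContDiffAt ℝ 2 (fun y => (r y : ℂ)) z :=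
    (Complex.ofRealCLM.contDiff.comp hr).contDiffAt
  have hY : ContDiff ℝ 2 fun v : P2 => Ends.cylPt a b c v.1 v.2 (r v) := by
    unfold Ends.cylPt
    fun_prop
  have hm : ∀ᶠ v in 𝓝 z, Ends.cylPt a b c v.1 v.2 (r v) ∈ S := by
    filter_upwards [(isOpen_lt continuous_const continuous_fst).mem_nhds hz₀] with v hv
    have h1 : z₀ < v.1 := hv
    exact (h.mem v.1 v.2 (r v) h1.le (by linarith [(h.bd v).1])
      (by nlinarith [(h.bd v).2])).2 rfl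
  have e : (fun v : P2 => cE (Ends.cylPt a b c v.1 v.2 (r v))) =
      End.cylY a b c fun y => (r y : ℂ) := by
    funext v
    ext i
    simp [Ends.cylPt, End.cylY, End.eR]
    ring
  have h0 := Cone.shr_of_isShr hS hY.contDiffAt hm (End.eR a b z)
  rw [e] at h0
  have hd : HasFDerivAt (fun y => (r y : ℂ)) (Complex.ofRealCLM.comp (fderiv ℝ r z)) z :=
    Complex.ofRealCLM.hasFDerivAt.comp z (hr.differentiable (by simp) z).hasFDerivAt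
  have e1 : ∀ v, J.2.1 v = (fderiv ℝ r z v : ℝ) := fun v => by
    change fderiv ℝ (fun y => (r y : ℂ)) z v = _
    rw [hd.fderiv]; rfl
  have hp : 0 < r z := by linarith [(h.bd z).1]
  have k := (End.geom_proof a b c h.tri _ z hu).2.2.2 (Complex.ofReal_ne_zero.2 hp.ne') (by
    change (r z : ℂ) ^ 2 * (1 + J.2.1 (1, 0) ^ 2) + J.2.1 (0, 1) ^ 2 ≠ 0
    rw [e1, e1]
    exact_mod_cast (show 0 < r z ^ 2 * (1 + fderiv ℝ r z (1, 0) ^ 2) + fderiv ℝ r z (0, 1) ^ 2 by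
      positivity).ne')
  rw [Shr, h0, mul_zero] at k
  exact k.symm

theorem exists_rho {d d1 C ε C₁ η : ℝ} (hd : 0 < d) (hd1 : 0 < d1) (hε : 0 < ε)
    (hη : 0 < η) : ∃ ρ : ℝ, 0 < ρ ∧ 2 * ρ ≤ d ∧ 2 * ρ ≤ d1 ∧ ρ ≤ 1 / 2 ∧ 4 * C * (2 * ρ) ≤ ε ∧
      |C₁| * (2 * ρ) ≤ η / 2 ∧ 4 * (|C₁| * (3 * ρ)) ≤ ε := by
  have t : ∀ K m : ℝ, 0 < m → ∀ᶠ ρ in 𝓝[>] (0 : ℝ), K * ρ ≤ m := fun K m hm =>
    ((Continuous.tendsto' (f := fun ρ : ℝ => K * ρ) (by fun_prop) 0 0 (mul_zero K)).eventually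
      (ge_mem_nhds hm)).filter_mono nhdsWithin_le_nhds
  obtain ⟨ρ, h0, h1, h2, h3, h4, h5, h6⟩ := ((show ∀ᶠ ρ in 𝓝[>] (0 : ℝ), 0 < ρ from
    self_mem_nhdsWithin).and ((t 2 d hd).and ((t 2 d1 hd1).and ((t 1 (1 / 2) (by norm_num)).and
      ((t (8 * C) ε hε).and ((t (2 * |C₁|) (η / 2) (by positivity)).and
        (t (12 * |C₁|) ε hε))))))).exists
  exact ⟨ρ, h0, h1, h2, by linarith, by linarith, by linarith, by linarith⟩

theorem cylFam_proof : CylFamStmt := by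
  intro C₀
  by_cases hC₀ : 1 ≤ C₀
  swap
  · exact ⟨0, fun _ _ _ _ _ _ _ _ _ h => absurd h.one hC₀⟩
  obtain ⟨Λ₁, hEnd⟩ := End.end_proof C₀ hC₀
  obtain ⟨d, η, C, hd, hη, hC, hInf⟩ := EndI.inf_proof
  refine ⟨Λ₁, fun Λ Z₀ R₀ κ V P cc Y hΛ hO S D hS j ε hε => ?_⟩
  obtain ⟨d1, C₁, hd1, hE⟩ := hEnd Λ Z₀ R₀ V P cc Y hΛ hO.zpos hO.zlam hO.fam hO.lip hO.inv
  obtain ⟨ρ, hρ, r1, r2, r3, r4, r5, r6⟩ := exists_rho (C := C) (C₁ := C₁) hd hd1 hε hη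
  have hj := D.cyl j
  obtain ⟨Z, hZ⟩ := EndI.base_proof d η C (D.r j) D.R₀ hd hη hj.smooth hj.per hj.lim
    (epol_end hS hj D.δpos (by linarith [D.big])) ρ hρ
  refine ⟨max Z (max 16 Z₀), fun s hs => ?_⟩
  simp only [max_le_iff] at hs
  obtain ⟨E, hI⟩ := hInf s hs.2.1
  obtain ⟨h0, n0, n1, st, hev, hr⟩ := hZ s hs.1 E hI
  obtain ⟨R₁, C₂, e, hR, he⟩ := hE s hs.2.2
  obtain ⟨C', c1, c2, c3, c4, c5, c6⟩ : ∃ C' : ℝ, 4 * C ≤ C' ∧ 16 * C / ρ ≤ C' ∧ 8 ≤ C' ∧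
      C₁ ≤ C' ∧ 4 * (|C₂| * (s + 6) ^ 2) ≤ C' ∧ 2 * π * (128 * Real.exp 4) * C₂ ^ 2 * 8 ≤ C' :=
    ((eventually_ge_atTop _).and ((eventually_ge_atTop _).and ((eventually_ge_atTop _).and
      ((eventually_ge_atTop _).and ((eventually_ge_atTop _).and (eventually_ge_atTop _)))))).exists
  have hs0 : 0 ≤ s := by linarith [hs.2.1]
  have hΛ0 : 0 ≤ Λ := by linarith [hO.lam]
  have a0 := abs_nonneg C₁
  have nh : ∀ g ∈ ball (EI.r2 + h0) ρ, ‖EX.hh g‖ < 2 * ρ := fun g hg => by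
    have e1 : EX.hh g = g - (EI.r2 + h0) + h0 := by rw [EX.hh]; abel
    rw [e1]
    linarith [norm_add_le (g - (EI.r2 + h0)) h0, mem_ball_iff_norm.1 hg]
  have H : EX.Hy Λ d1 C₁ s R₁ C₂ C₀ R₀ (max R₁ (4 * |C₂| + 1)) ρ cc Y e (EI.r2 + h0) EX.hh :=
    ⟨he, hO.inv, hΛ0, hs0, le_max_left _ _, hR.trans (le_max_left _ _),
      fun g hg => mem_ball_zero_iff.2 ((nh g hg).trans_le r2)⟩
  have b1 : ‖h0‖ + ρ ≤ d := by linarith
  have b2 : ‖h0‖ + ρ ≤ d1 := by linarith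
  obtain ⟨u, hu, hu'⟩ := EI.exists_jac hj.tri hI hs0 n0 st hr hΛ0 he hO.inv (by linarith)
    (by nlinarith [le_abs_self C₁, norm_nonneg h0])
  refine ⟨ρ, ρ, C', max R₁ (4 * |C₂| + 1), EI.r2 + h0, fun g => fn (E (g - EI.r2)),
    fun g => EI.lowT s (E (g - EI.r2)) g, EI.dE E h0, EI.dLow s E h0, u,
    fun R g t => fn (e R (EX.hh g, Y R t)),
    fun R g t => EB.lowL (Cone.tr 2 s (e R (EX.hh g, Y R t)).1 - g),
    EI.infFam hj.tri hI hC hρ b1 st hev hr c1 c2, hρ, H.big,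
    EI.smalli hI hC hs0 b1 (by nlinarith), EI.lipi hI b1 c1, EI.glob' hI n0 c1, hu, H.fc2,
    EX.Hy.fper, H.feq hj.tri c3 c4, H.neu, H.fmat EX.hh_cf, H.freal EX.hh_star,
    H.fhol EX.hh_diff, H.x3 c5, EX.x4 H.hE H.hI H.lam H.hs H.ha H.hb EX.hh_lip H.hm,
    EX.x5 H.hE H.hI H.lam H.ha H.hb (le_max_right _ _) c6 H.hm,
    EX.x6 H.hE H.hI H.lam H.hs H.ha H.hb r3 (fun g hg => ?_) H.hm,
    EI.x7 hI he hO.fam hO.inv hR b1 b2 (by nlinarith), hu'⟩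
  nlinarith [nh g hg]

end

end Vale.Agent.P218F.LS.CF
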