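import Vale.Agent.P218F.LSCore
import Vale.Agent.P218F.WienTr
import Vale.Agent.P218F.NormSpec

/-! The data of the core problem given by families of end solutions. -/

open MeasureTheory Set Filter Topology Metric
open scoped ContDiff Real

set_option maxSynthPendingDepth 3
set_option linter.unusedSectionVars false

noncomputable section

namespace Vale.Agent.P218F.LS.Dt

open Vale.Agent.P218FT Vale.Agent.P218F.Core Vale.Agent.P218F.Wien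

/-! ### Jets -/

/-- the shift of the height -/
def sh (s : ℝ) (y : P2) : P2 := (s + y.1, y.2)

theorem sh_eq (s : ℝ) (y : P2) : sh s y = (s, 0) + y := Prod.ext rfl (zero_add _).symm

theorem cd_sh (s : ℝ) {n : WithTop ℕ∞} : ContDiff ℝ n (sh s) :=
  (contDiff_const.add contDiff_fst).prodMk contDiff_snd

theorem jet2_sh {V : Type} [NormedAddCommGroup V] [NormedSpace ℝ V] (f : P2 → V) (s : ℝ) (y : P2) :
    jet2 (fun z => f (sh s z)) y = jet2 f (sh s y) := by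
  have h : (fderiv ℝ fun z => f (sh s z)) = fun z => fderiv ℝ f (sh s z) := by
    funext z
    simp only [sh_eq, fderiv_comp_add_left]
  unfold jet2
  rw [h]
  simp only [sh_eq, fderiv_comp_add_left]

theorem jet2_cmul (c : ℂ) (f : P2 → ℂ) (y : P2) : jet2 (fun z => c * f z) y = c • jet2 f y := by
  have h : fderiv ℝ (fun z => c * f z) = c • fderiv ℝ f := fderiv_const_smul_field c
  unfold jet2
  rw [h, fderiv_const_smul_field c]
  rfl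

/-- the one-jet of a two-jet -/
def oneL : J2 P2 ℂ →L[ℂ] J1 P2 ℂ :=
  (ContinuousLinearMap.fst ℂ _ _).prod
    ((ContinuousLinearMap.fst ℂ _ _).comp (ContinuousLinearMap.snd ℂ _ _))

theorem jet1_eq (f : P2 → ℂ) (y : P2) : jet1 f y = oneL (jet2 f y) := rfl

/-! ### Moments -/

open Classical in
/-- extension by zero -/
def ext0 {C0 : Set E3} (v : C(C0, ℂ)) (x : E3) : ℂ := if h : x ∈ C0 then v ⟨x, h⟩ else 0

theorem ext0_of_mem {C0 : Set E3} (v : C(C0, ℂ)) {x : E3} (h : x ∈ C0) : ext0 v x = v ⟨x, h⟩ :=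
  dif_pos h

theorem continuousOn_ext0 {C0 : Set E3} (v : C(C0, ℂ)) : ContinuousOn (ext0 v) C0 := by
  rw [continuousOn_iff_continuous_domRestrict]
  exact v.continuous.congr fun x => (ext0_of_mem v x.2).symm

theorem mo_congr {C0 : Set E3} (hc : IsCompact C0) (F : E3 → ℝ) {w w' : E3 → ℂ}
    (h : ∀ x ∈ C0, w x = w' x) : mo C0 F w = mo C0 F w' :=
  setIntegral_congr_fun hc.measurableSet fun x hx => by rw [h x hx]

/-- the moments are continuous linear forms -/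
theorem exists_mom (hP : ParStmt) {S C0 : Set E3} [CompactSpace C0] (hS : IsSurf S) (hC : C0 ⊆ S)
    {F : E3 → ℝ} (hF : Continuous F) : ∃ L : C(C0, ℂ) →L[ℂ] ℂ,
      (∀ (v : C(C0, ℂ)) (w : E3 → ℂ), (∀ x : C0, v x = w x) → L v = mo C0 F w) ∧
      ∀ v : C(C0, ℂ), (∀ x, (v x).im = 0) → (L v).im = 0 := by
  have hc : IsCompact C0 := isCompact_iff_compactSpace.2 inferInstance
  have hg : Continuous fun x : E3 => ((F x * Real.exp (-‖x‖ ^ 2 / 4) : ℝ) : ℂ) := by fun_prop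
  have hi : ∀ v : C(C0, ℂ), IntegrableOn (fun x => ext0 v x *
      ((F x * Real.exp (-‖x‖ ^ 2 / 4) : ℝ) : ℂ)) C0 (μHE[2] : Measure E3) := fun v =>
    integrableOn_core hP hS hC hc ((continuousOn_ext0 v).mul hg.continuousOn)
  have hn := integrableOn_core hP hS hC hc hg.norm.continuousOn
  refine ⟨LinearMap.mkContinuous ⟨⟨fun v => mo C0 F (ext0 v), fun v w => ?_⟩, fun c v => ?_⟩
    (∫ x in C0, ‖((F x * Real.exp (-‖x‖ ^ 2 / 4) : ℝ) : ℂ)‖ ∂(μHE[2] : Measure E3)) fun v => ?_,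
    fun v w h => mo_congr hc F fun x hx => by rw [ext0_of_mem v hx, h], fun v h => ?_⟩
  · rw [mo_congr hc F (w' := fun x => ext0 v x + ext0 w x) fun x hx => by
      simp only [ext0_of_mem _ hx, ContinuousMap.add_apply]]
    simp only [mo, add_mul]
    exact integral_add (hi v) (hi w)
  · show mo C0 F (ext0 (c • v)) = c * mo C0 F (ext0 v)
    rw [mo_congr hc F (w := ext0 (c • v)) (w' := fun x => c * ext0 v x) fun x hx => by
      simp only [ext0_of_mem _ hx, ContinuousMap.smul_apply, smul_eq_mul]]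
    simp only [mo, mul_assoc]
    exact integral_const_mul _ _
  · rw [← integral_mul_const]
    refine norm_integral_le_of_norm_le (hn.mul_const _) ?_
    filter_upwards [ae_restrict_mem hc.measurableSet] with x hx
    rw [norm_mul, mul_comm, ext0_of_mem v hx]
    gcongr
    exact v.norm_coe_le_norm _
  · show (mo C0 F (ext0 v)).im = 0
    rw [mo_congr hc F (w := ext0 v) (w' := fun x => ((ext0 v x).re : ℂ)) fun x hx =>
      Complex.ext rfl (by rw [ext0_of_mem v hx, h, Complex.ofReal_im])]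
    simp only [mo, ← Complex.ofReal_mul]
    rw [integral_complex_ofReal, Complex.ofReal_im]

/-! ### One end -/

/-- traces -/
abbrev A2 : Type := WA ℤ 2 ℂ

/-- real traces -/
def Re2 (g : A2) : Prop := ∀ θ, (ev 2 ℂ θ g).im = 0

/-- a family of solutions of `N = 0` on the collar `s < z < s + 6` -/
structure EndAt (N : P2 → J2 P2 ℂ → ℂ) (s δ : ℝ) (g0 : A2) (e : A2 → P2 → ℂ)
    (low : A2 → Fin 3 → ℂ) : Prop where
  c2 : ∀ g ∈ ball g0 δ, ∀ p : P2, s < p.1 → p.1 < s + 6 → ContDiffAt ℝ 2 (e g) p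
  cont : ∀ g ∈ ball g0 δ, ContinuousOn (e g) (Ico s (s + 6) ×ˢ univ)
  per : ∀ g ∈ ball g0 δ, ∀ p : P2, e g (p.1, p.2 + 2 * π) = e g p
  eq : ∀ g ∈ ball g0 δ, ∀ p : P2, s < p.1 → p.1 < s + 6 → N p (jet2 (e g) p) = 0
  mat : ∀ g ∈ ball g0 δ, low g = 0 → ∀ θ, e g (s, θ) = ev 2 ℂ θ g
  hol : ∀ p : P2, s < p.1 → p.1 < s + 6 → DifferentiableOn ℂ (fun g => jet1 (e g) p) (ball g0 δ)
  hlow : DifferentiableOn ℂ low (ball g0 δ)

/-- real families -/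
def EndRe (s δ : ℝ) (g0 : A2) (e : A2 → P2 → ℂ) (low : A2 → Fin 3 → ℂ) : Prop :=
  ∀ g ∈ ball g0 δ, Re2 g → (∀ p : P2, s < p.1 → p.1 < s + 6 → (e g p).im = 0) ∧ IsRe (low g)

/-- the linear model -/
structure EndLin (N : P2 → J2 P2 ℂ → ℂ) (gr : P2 → ℝ) (s C : ℝ) (e' : A2 →ₗ[ℂ] P2 → ℂ)
    (low' : A2 →L[ℂ] Fin 3 → ℂ) : Prop where
  c2 : ∀ h (p : P2), s < p.1 → p.1 < s + 6 → ContDiffAt ℝ 2 (e' h) p
  cont : ∀ h, ContinuousOn (e' h) (Ico s (s + 6) ×ˢ univ)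
  per : ∀ h (p : P2), e' h (p.1, p.2 + 2 * π) = e' h p
  eq : ∀ h (p : P2), s < p.1 → p.1 < s + 6 →
    fderiv ℂ (N p) (jet2 (fun η => (gr η : ℂ)) p) (jet2 (e' h) p) = 0
  mat : ∀ h, low' h = 0 → ∀ θ, e' h (s, θ) = ev 2 ℂ θ h
  real : ∀ h, Re2 h → (∀ p : P2, s < p.1 → p.1 < s + 6 → (e' h p).im = 0) ∧ IsRe (low' h)
  bd : ∀ h (p : P2), s < p.1 → p.1 < s + 6 → ‖jet2 (e' h) p‖ ≤ C * ‖h‖

/-- the deviation from the linear model -/
def EndDev (gr : P2 → ℝ) (s ρ ε : ℝ) (g0 : A2) (e : A2 → P2 → ℂ) (low : A2 → Fin 3 → ℂ)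
    (e' : A2 →ₗ[ℂ] P2 → ℂ) (low' : A2 →L[ℂ] Fin 3 → ℂ) : Prop :=
  ∀ g ∈ ball g0 ρ, ‖low g - low' (g - g0)‖ ≤ ε ∧ ∀ p : P2, s < p.1 → p.1 < s + 6 →
    ‖jet2 (e g) p - jet2 (fun η => (gr η : ℂ)) p - jet2 (e' (g - g0)) p‖ ≤ ε

/-! ### The data -/

/-- the extra unknowns and equations -/
abbrev Ix (κ M : Type) : Type := (κ ⊕ M) ⊕ M × Fin 2

/-- the collars: heights, signs, graph functions of `S`, their traces, operators -/
structure Col (J : Type) where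
  /-- heights -/
  s : J → ℝ
  /-- signs -/
  σ : J → ℝ
  /-- graph functions -/
  gr : J → P2 → ℝ
  /-- traces -/
  g0 : J → A2
  /-- operators -/
  eqn : J → P2 → J2 P2 ℂ → ℂ

variable {κ M N : Type} {C0 : Set E3} [CompactSpace C0]

/-- the full trace of the graph function -/
def Col.tr {J : Type} (c : Col J) (g : J → A2) (j : J) : A2 := c.g0 j + (c.σ j : ℂ) • g j

/-- moments and low modes -/
def eqs (a : κ → ℂ) (l : M → Fin 3 → ℂ) : Ix κ M → ℂ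
  | .inl (.inl p) => a p
  | .inl (.inr j) => l j 0
  | .inr (j, i) => l j i.succ

/-- the data of the core problem -/
def Col.dat (c : Col (M ⊕ N)) (mom : κ → C(C0, ℂ) →L[ℂ] ℂ) (e : M ⊕ N → A2 → P2 → ℂ)
    (low : M ⊕ N → A2 → Fin 3 → ℂ) (b : κ → ℂ) : Dat C0 (M ⊕ N) (M ⊕ N → A2) (Ix κ M) where
  E g j y := c.σ j * (e j (c.tr g j) (sh (c.s j) y) - c.gr j (sh (c.s j) y))
  B v := eqs (fun p => mom p v.1 - b p) fun j => low (.inl j) (c.tr v.2.1 (.inl j))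

/-- the linear model of the end maps -/
def Col.linE {J : Type} (c : Col J) (e' : J → A2 →ₗ[ℂ] P2 → ℂ) : (J → A2) →ₗ[ℂ] J → P2 → ℂ where
  toFun g j y := e' j (g j) (sh (c.s j) y)
  map_add' g g' := by funext j y; simp
  map_smul' a g := by funext j y; simp

theorem eqs_eq_zero {a : κ → ℂ} {l : M → Fin 3 → ℂ} : eqs a l = 0 ↔ a = 0 ∧ l = 0 := by
  refine ⟨fun h => ⟨funext fun p => congrFun h (.inl (.inl p)), funext fun j => funext fun i => ?_⟩,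
    fun h => ?_⟩
  · refine Fin.cases (congrFun h (.inl (.inr j))) (fun i => congrFun h (.inr (j, i))) i
  · rw [h.1, h.2]
    funext i
    rcases i with (p | j) | ⟨j, i⟩ <;> rfl

theorem eqs_sub (a a' : κ → ℂ) (l l' : M → Fin 3 → ℂ) :
    eqs a l - eqs a' l' = eqs (a - a') (l - l') := by
  funext i
  rcases i with (p | j) | ⟨j, i⟩ <;> rfl

theorem isRe_eqs {a : κ → ℂ} {l : M → Fin 3 → ℂ} (ha : IsRe a) (hl : ∀ j, IsRe (l j)) :
    IsRe (eqs a l) := by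
  rintro ((p | j) | ⟨j, i⟩)
  exacts [ha p, hl j _, hl j _]

variable [Fintype κ] [Fintype M] [Fintype N]

theorem norm_eqs_le {a : κ → ℂ} {l : M → Fin 3 → ℂ} {ε : ℝ} (hε : 0 ≤ ε) (ha : ‖a‖ ≤ ε)
    (hl : ∀ j, ‖l j‖ ≤ ε) : ‖eqs a l‖ ≤ ε := by
  refine (pi_norm_le_iff_of_nonneg hε).2 ?_
  rintro ((p | j) | ⟨j, i⟩)
  exacts [(norm_le_pi_norm a p).trans ha, (norm_le_pi_norm (l j) _).trans (hl j),
    (norm_le_pi_norm (l j) _).trans (hl j)]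

theorem diffOn_eqs {X : Type} [NormedAddCommGroup X] [NormedSpace ℂ X] {U : Set X}
    {a : X → κ → ℂ} {l : X → M → Fin 3 → ℂ} (ha : ∀ p, DifferentiableOn ℂ (fun x => a x p) U)
    (hl : ∀ j, DifferentiableOn ℂ (fun x => l x j) U) :
    DifferentiableOn ℂ (fun x => eqs (a x) (l x)) U := by
  refine differentiableOn_pi.2 ?_
  rintro ((p | j) | ⟨j, i⟩)
  exacts [ha p, differentiableOn_pi.1 (hl j) _, differentiableOn_pi.1 (hl j) _]

/-- the projection to one trace -/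
def trL (C0 : Set E3) [CompactSpace C0] {J ι : Type} [Fintype J] [Fintype ι] (j : J) :
    Arg C0 (J → A2) ι →L[ℂ] A2 :=
  (ContinuousLinearMap.proj j).comp ((ContinuousLinearMap.fst ℂ _ _).comp
    (ContinuousLinearMap.snd ℂ _ _))

/-- the linear model of the extra equations -/
def Col.linB (c : Col (M ⊕ N)) (mom : κ → C(C0, ℂ) →L[ℂ] ℂ)
    (low' : M ⊕ N → A2 →L[ℂ] Fin 3 → ℂ) : Arg C0 (M ⊕ N → A2) (Ix κ M) →L[ℂ] Ix κ M → ℂ :=
  ContinuousLinearMap.pi fun i => match i with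
    | .inl (.inl p) => (mom p).comp (ContinuousLinearMap.fst ℂ _ _)
    | .inl (.inr j) => (ContinuousLinearMap.proj 0).comp
        ((low' (.inl j)).comp ((c.σ (.inl j) : ℂ) • trL C0 (.inl j)))
    | .inr (j, i) => (ContinuousLinearMap.proj i.succ).comp
        ((low' (.inl j)).comp ((c.σ (.inl j) : ℂ) • trL C0 (.inl j)))

theorem Col.linB_apply (c : Col (M ⊕ N)) (mom : κ → C(C0, ℂ) →L[ℂ] ℂ)
    (low' : M ⊕ N → A2 →L[ℂ] Fin 3 → ℂ) (v : Arg C0 (M ⊕ N → A2) (Ix κ M)) :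
    c.linB mom low' v = eqs (fun p => mom p v.1)
      fun j => low' (.inl j) ((c.σ (.inl j) : ℂ) • v.2.1 (.inl j)) := by
  funext i
  rcases i with (p | j) | ⟨j, i⟩ <;> rfl

/-- the collars are compatible with the operator `op` -/
structure Col.OK {J ι : Type} [Fintype ι] (c : Col J) (K : J → P2 → E3) (op : Op ι) : Prop where
  sign : ∀ j, c.σ j = 1 ∨ c.σ j = -1
  c2 : ∀ j, ContDiff ℝ 2 (c.gr j)
  per : ∀ j (p : P2), c.gr j (p.1, p.2 + 2 * π) = c.gr j p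
  ev0 : ∀ j θ, ev 2 ℂ θ (c.g0 j) = c.gr j (c.s j, θ)
  dict : ∀ j (y : P2), y.1 ∈ Ioo (0 : ℝ) 6 → ∀ q, c.eqn j (sh (c.s j) y)
    (jet2 (fun η => (c.gr j η : ℂ)) (sh (c.s j) y) + (c.σ j : ℂ) • q) = 0 → op 0 (K j) y q = 0
  dict' : ∀ j (y : P2), y.1 ∈ Ioo (0 : ℝ) 6 → ∀ q, fderiv ℂ (c.eqn j (sh (c.s j) y))
    (jet2 (fun η => (c.gr j η : ℂ)) (sh (c.s j) y)) q = 0 → lin op (K j) y (0, q) = 0

section ok

variable {J ι : Type} [Fintype J] [Fintype ι] {c : Col J} {K : J → P2 → E3} {op : Op ι}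
  (h : c.OK K op)
include h

theorem Col.OK.sq (j : J) : (c.σ j : ℂ) * c.σ j = 1 := by
  rcases h.sign j with e | e <;> simp [e]

theorem Col.OK.norm (j : J) : ‖(c.σ j : ℂ)‖ = 1 := by
  rcases h.sign j with e | e <;> simp [e]

theorem Col.OK.tr_sub (g g' : J → A2) (j : J) : ‖c.tr g j - c.tr g' j‖ ≤ ‖g - g'‖ := by
  rw [Col.tr, Col.tr, add_sub_add_left_eq_sub, ← smul_sub, norm_smul, h.norm, one_mul]
  exact norm_le_pi_norm (g - g') j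

theorem Col.OK.tr_mem {g : J → A2} {ρ : ℝ} (hg : ‖g‖ < ρ) (j : J) : c.tr g j ∈ ball (c.g0 j) ρ := by
  rw [mem_ball_iff_norm, Col.tr, add_sub_cancel_left, norm_smul, h.norm, one_mul]
  exact (norm_le_pi_norm g j).trans_lt hg

theorem Col.OK.tr_re {g : J → A2} (hg : ∀ j θ, (evJ J g j θ).im = 0) (j : J) : Re2 (c.tr g j) :=
  fun θ => by
    have := hg j θ
    rw [evJ_apply] at this
    simp [Col.tr, h.ev0, this]

theorem Col.OK.gr_cd (j : J) : ContDiff ℝ 2 fun η => (c.gr j η : ℂ) :=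
  Complex.ofRealCLM.contDiff.comp (h.c2 j)

/-- the two-jet of the end map -/
theorem Col.OK.jet (j : J) {e : P2 → ℂ} {y : P2} (he : ContDiffAt ℝ 2 e (sh (c.s j) y)) :
    jet2 (fun z => c.σ j * (e (sh (c.s j) z) - c.gr j (sh (c.s j) z))) y = (c.σ j : ℂ) •
      (jet2 e (sh (c.s j) y) - jet2 (fun η => (c.gr j η : ℂ)) (sh (c.s j) y)) := by
  rw [jet2_cmul, jet2_sh (fun η => e η - c.gr j η), jet2_sub he (h.gr_cd j).contDiffAt]

end ok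

theorem sh_mem {s : ℝ} {y : P2} (hy : y.1 ∈ Ioo (0 : ℝ) 6) :
    s < (sh s y).1 ∧ (sh s y).1 < s + 6 :=
  ⟨lt_add_of_pos_right s hy.1, add_lt_add_right hy.2 s⟩

theorem sh_maps (s : ℝ) : MapsTo (sh s) (Ico 0 6 ×ˢ univ) (Ico s (s + 6) ×ˢ univ) :=
  fun _ hy => ⟨⟨le_add_of_nonneg_right hy.1.1, add_lt_add_right hy.1.2 s⟩, trivial⟩

theorem tr_diff {J : Type} [Fintype J] (c : Col J) (j : J) :
    Differentiable ℂ fun g : J → A2 => c.tr g j := by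
  unfold Col.tr
  fun_prop

section dat

variable {c : Col (M ⊕ N)} {K : M ⊕ N → P2 → E3} {op : Op (Ix κ M)} (h : c.OK K op)
  {mom : κ → C(C0, ℂ) →L[ℂ] ℂ} {e e₁ : M ⊕ N → A2 → P2 → ℂ} {low low₁ : M ⊕ N → A2 → Fin 3 → ℂ}
  {b b₁ : κ → ℂ} {e' : M ⊕ N → A2 →ₗ[ℂ] P2 → ℂ} {low' : M ⊕ N → A2 →L[ℂ] Fin 3 → ℂ} {δ ρ ε : ℝ}
include h

theorem dat_jet (he : ∀ j, EndAt (c.eqn j) (c.s j) δ (c.g0 j) (e j) (low j)) {g : M ⊕ N → A2}
    (hg : ‖g‖ < δ) (j : M ⊕ N) {y : P2} (hy : y.1 ∈ Ioo (0 : ℝ) 6) :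
    jet2 ((c.dat mom e low b).E g j) y = (c.σ j : ℂ) • (jet2 (e j (c.tr g j)) (sh (c.s j) y) -
      jet2 (fun η => (c.gr j η : ℂ)) (sh (c.s j) y)) :=
  h.jet j ((he j).c2 _ (h.tr_mem hg j) _ (sh_mem hy).1 (sh_mem hy).2)

theorem adm (he : ∀ j, EndAt (c.eqn j) (c.s j) δ (c.g0 j) (e j) (low j)) (hρ : ρ ≤ δ)
    (hd : ∀ j, EndDev (c.gr j) (c.s j) ρ ε (c.g0 j) (e j) (low j) (e' j) (low' j))
    (hb : ‖b‖ ≤ ε) : Adm (c.linE e') (c.linB mom low') ε ρ (c.dat mom e low b) where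
  c2 g hg j y hy := contDiffAt_const.mul ((((he j).c2 _ (h.tr_mem (hg.trans_le hρ) j) _
    (sh_mem hy).1 (sh_mem hy).2).sub (h.gr_cd j).contDiffAt).comp y (cd_sh _).contDiffAt)
  per g hg j y := by
    have h1 := (he j).per _ (h.tr_mem (hg.trans_le hρ) j) (sh (c.s j) y)
    have h2 := h.per j (sh (c.s j) y)
    simp only [Col.dat, sh] at h1 h2 ⊢
    rw [h1, h2]
  hol j y hy := by
    have h1 := ((he j).hol _ (sh_mem hy).1 (sh_mem hy).2).comp (tr_diff c j).differentiableOn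
      (s := ball 0 ρ) fun g hg => h.tr_mem ((mem_ball_zero_iff.1 hg).trans_le hρ) j
    refine ((h1.sub_const (jet1 (fun η => (c.gr j η : ℂ)) (sh (c.s j) y))).const_smul
      (c.σ j : ℂ)).congr fun g hg => ?_
    rw [jet1_eq, dat_jet h he ((mem_ball_zero_iff.1 hg).trans_le hρ) j hy, map_smul, map_sub]
    rfl
  dev g hg j y hy := by
    have h1 := (hd j _ (h.tr_mem hg j)).2 _ (sh_mem hy).1 (sh_mem hy).2
    have h2 : jet2 (c.linE e' g j) y = (c.σ j : ℂ) • jet2 (e' j (c.tr g j - c.g0 j))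
        (sh (c.s j) y) := by
      rw [← jet2_cmul, ← jet2_sh]
      congr 1
      funext z
      simp [Col.linE, Col.tr, ← mul_assoc, h.sq]
    rw [dat_jet h he (hg.trans_le hρ) j hy, h2, ← smul_sub, norm_smul, h.norm, one_mul]
    exact h1
  holB := diffOn_eqs (fun p => by fun_prop) fun j =>
    (he (.inl j)).hlow.comp ((tr_diff c _).comp (by fun_prop)).differentiableOn fun v hv =>
      h.tr_mem ((((norm_fst_le v.2).trans (norm_snd_le v)).trans_lt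
        (mem_ball_zero_iff.1 hv)).trans_le hρ) _
  devB v hv := by
    rw [Col.linB_apply, Col.dat, eqs_sub]
    refine norm_eqs_le ((norm_nonneg _).trans hb) ?_ fun j => ?_
    · rw [show ((fun p => mom p v.1 - b p) - fun p => mom p v.1) = -b by funext p; simp, norm_neg]
      exact hb
    · simpa [Col.tr] using (hd (.inl j) _ (h.tr_mem
        (((norm_fst_le v.2).trans (norm_snd_le v)).trans_lt hv) _)).1

theorem reDat (hm : ∀ p (v : C(C0, ℂ)), (∀ x, (v x).im = 0) → (mom p v).im = 0)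
    (he : ∀ j, EndRe (c.s j) δ (c.g0 j) (e j) (low j)) (hρ : ρ ≤ δ) (hb : IsRe b) :
    ReDat (evJ (M ⊕ N)) ρ (c.dat mom e low b) where
  reE g hg hr j y hy := by
    have h1 := (he j _ (h.tr_mem (hg.trans_le hρ) j) (h.tr_re hr j)).1 _ (sh_mem hy).1 (sh_mem hy).2
    simp [Col.dat, h1]
  reB v hv hr := isRe_eqs (fun p => by simp [hm p _ hr.1, hb p]) fun j =>
    (he _ _ (h.tr_mem ((((norm_fst_le v.2).trans (norm_snd_le v)).trans_lt hv).trans_le hρ) _)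
      (h.tr_re hr.2.1 _)).2

theorem exact (he : ∀ j, EndAt (c.eqn j) (c.s j) δ (c.g0 j) (e j) (low j)) (hρ : ρ ≤ δ)
    (h0 : ∀ i g, low (.inr i) g = 0) : Exact K op (evJ (M ⊕ N)) ρ (c.dat mom e low b) where
  eq g hg j y hy := by
    refine h.dict j y hy _ ?_
    rw [dat_jet h he (hg.trans_le hρ) j hy, smul_smul, h.sq, one_smul, add_sub_cancel]
    exact (he j).eq _ (h.tr_mem (hg.trans_le hρ) j) _ (sh_mem hy).1 (sh_mem hy).2
  cont g hg j := continuousOn_const.mul ((((he j).cont _ (h.tr_mem (hg.trans_le hρ) j)).sub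
    (h.gr_cd j).continuous.continuousOn).comp (cd_sh (n := 0) _).continuous.continuousOn
      (sh_maps _))
  mat v hv hB j θ := by
    have h1 : low j (c.tr v.2.1 j) = 0 := by
      rcases j with j | j
      exacts [congrFun (eqs_eq_zero.1 hB).2 j, h0 j _]
    have h2 := (he j).mat _ (h.tr_mem
      ((((norm_fst_le v.2).trans (norm_snd_le v)).trans_lt hv).trans_le hρ) j) h1 θ
    simp only [Col.dat, sh, add_zero, h2]
    simp [Col.tr, h.ev0, ← mul_assoc, h.sq]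

theorem linOK {S : Set E3} {C : ℝ}
    (hm : ∀ p (v : C(C0, ℂ)), (∀ x, (v x).im = 0) → (mom p v).im = 0)
    (he : ∀ j, EndLin (c.eqn j) (c.gr j) (c.s j) C (e' j) (low' j)) (h0 : ∀ i, low' (.inr i) = 0)
    (inj : ∀ (w : E3 → ℂ) (v : Arg C0 (M ⊕ N → A2) (Ix κ M)), (∀ x : C0, v.1 x = w x) →
      (∀ φ y, Par S φ y → φ y ∈ Mo C0 K → ContDiffAt ℝ 2 (fun z => w (φ z)) y) →
      (∀ φ y, Par S φ y → φ y ∈ C0 → lin op φ y (v.2.2, jet2 (fun z => w (φ z)) y) = 0) →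
      (∀ j y, y.1 ∈ Icc (0 : ℝ) 3 → w (K j y) = e' j (v.2.1 j) (sh (c.s j) y)) →
      (∀ p, mom p v.1 = 0) → v.1 = 0 ∧ v.2.2 = 0) :
    LinOK S K op (evJ (M ⊕ N)) (c.linE e') (c.linB mom low') where
  c2 g j y hy := ((he j).c2 _ _ (sh_mem hy).1 (sh_mem hy).2).comp y (cd_sh _).contDiffAt
  per g j y := (he j).per (g j) (sh (c.s j) y)
  bd := ⟨|C|, fun g j y hy => by
    refine (le_of_eq (congrArg _ (jet2_sh (e' j (g j)) (c.s j) y))).trans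
      (((he j).bd _ _ (sh_mem hy).1 (sh_mem hy).2).trans ?_)
    gcongr
    exacts [le_abs_self C, norm_le_pi_norm g j]⟩
  eq g j y hy := h.dict' j y hy _ (by
    rw [show jet2 (c.linE e' g j) y = _ from jet2_sh (e' j (g j)) (c.s j) y]
    exact (he j).eq _ _ (sh_mem hy).1 (sh_mem hy).2)
  cont g j := ((he j).cont (g j)).comp (cd_sh (n := 0) _).continuous.continuousOn (sh_maps _)
  mat v hB j θ := by
    have h1 : low' j (v.2.1 j) = 0 := by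
      rcases j with j | j
      · rw [Col.linB_apply] at hB
        have h2 : low' (.inl j) ((c.σ (.inl j) : ℂ) • v.2.1 (.inl j)) = 0 :=
          congrFun (eqs_eq_zero.1 hB).2 j
        have h3 := congrArg (fun t => (c.σ (.inl j) : ℂ) • t) h2
        simpa only [map_smul, smul_smul, h.sq, one_smul, smul_zero] using h3
      · rw [h0]; rfl
    simpa [Col.linE, sh] using (he j).mat _ h1 θ
  reE g hr j y hy := ((he j).real _ (hr j)).1 _ (sh_mem hy).1 (sh_mem hy).2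
  reB v hr := by
    rw [Col.linB_apply]
    refine isRe_eqs (fun p => hm p _ hr.1) fun j => ((he _).real _ fun θ => ?_).2
    have := hr.2.1 (.inl j) θ
    rw [evJ_apply] at this
    simp [this]
  inj w v h1 _ h3 h4 h5 h6 := inj w v h1 h3 h4 h5 fun p => by
    rw [Col.linB_apply] at h6
    exact congrFun (eqs_eq_zero.1 h6).1 p

/-- the input of `Solver.stab` -/
theorem stab_in (he : ∀ j, EndAt (c.eqn j) (c.s j) δ (c.g0 j) (e j) (low j))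
    (he₁ : ∀ j, EndAt (c.eqn j) (c.s j) δ (c.g0 j) (e₁ j) (low₁ j))
    {v : Arg C0 (M ⊕ N → A2) (Ix κ M)} (hv : ‖v.2.1‖ < δ) (hB : (c.dat mom e₁ low₁ b₁).B v = 0)
    {η : ℝ} (hb : ‖b - b₁‖ ≤ η)
    (hl : ∀ j, ‖low (.inl j) (c.tr v.2.1 (.inl j)) - low₁ (.inl j) (c.tr v.2.1 (.inl j))‖ ≤ η)
    (hj : ∀ j (p : P2), c.s j < p.1 → p.1 < c.s j + 6 →
      ‖jet2 (e j (c.tr v.2.1 j)) p - jet2 (e₁ j (c.tr v.2.1 j)) p‖ ≤ η) :
    (∀ j y, y.1 ∈ Ioo (0 : ℝ) 6 → ‖jet2 ((c.dat mom e low b).E v.2.1 j) y -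
      jet2 ((c.dat mom e₁ low₁ b₁).E v.2.1 j) y‖ ≤ η) ∧ ‖(c.dat mom e low b).B v‖ ≤ η := by
  refine ⟨fun j y hy => ?_, ?_⟩
  · rw [dat_jet h he hv j hy, dat_jet h he₁ hv j hy, ← smul_sub, norm_smul, h.norm, one_mul,
      sub_sub_sub_cancel_right]
    exact hj j _ (sh_mem hy).1 (sh_mem hy).2
  · rw [← sub_zero ((c.dat mom e low b).B v), ← hB, Col.dat, Col.dat, eqs_sub]
    refine norm_eqs_le ((norm_nonneg _).trans hb) ?_ hl
    rw [show ((fun p => mom p v.1 - b p) - fun p => mom p v.1 - b₁ p) = -(b - b₁) by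
      funext p; simp, norm_neg]
    exact hb

end dat

/-! ### The family of solutions -/

/-- the families of end solutions: `e R j g v` on the cylindrical end `j` cut at the height `R`
with parameter `c = v`; `ei j g` for `R = ∞` and on the conical ends; `e'` the linearisation -/
structure EndF (m : ℕ) (N : Type) where
  /-- finite cylindrical ends -/
  e : ℝ → Fin m → A2 → ℂ → P2 → ℂ
  /-- their low modes -/
  low : ℝ → Fin m → A2 → ℂ → Fin 3 → ℂ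
  /-- infinite ends -/
  ei : Fin m ⊕ N → A2 → P2 → ℂ
  /-- their low modes -/
  lowi : Fin m ⊕ N → A2 → Fin 3 → ℂ
  /-- the linearisation -/
  e' : Fin m ⊕ N → A2 →ₗ[ℂ] P2 → ℂ
  /-- its low modes -/
  low' : Fin m ⊕ N → A2 →L[ℂ] Fin 3 → ℂ

variable {q m : ℕ}

/-- the ends for the radius `R` and the parameters `v` -/
def EndF.eR (E : EndF m N) (R : ℝ) (v : Fin m → ℂ) : Fin m ⊕ N → A2 → P2 → ℂ
  | .inl j, g => E.e R j g (v j)
  | .inr i, g => E.ei (.inr i) g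

/-- their low modes -/
def EndF.lowR (E : EndF m N) (R : ℝ) (v : Fin m → ℂ) : Fin m ⊕ N → A2 → Fin 3 → ℂ
  | .inl j, g => E.low R j g (v j)
  | .inr i, g => E.lowi (.inr i) g

/-- what is used of the ends (only on the collars) -/
structure EndF.OK (E : EndF m N) (c : Col (Fin m ⊕ N)) (Λ d δ C R0 : ℝ) : Prop where
  δpos : 0 < δ
  inf : ∀ j, EndAt (c.eqn j) (c.s j) δ (c.g0 j) (E.ei j) (E.lowi j)
  infRe : ∀ j, EndRe (c.s j) δ (c.g0 j) (E.ei j) (E.lowi j)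
  lin : ∀ j, EndLin (c.eqn j) (c.gr j) (c.s j) C (E.e' j) (E.low' j)
  cone0 : ∀ i, (∀ g, E.lowi (.inr i) g = 0) ∧ E.low' (.inr i) = 0
  dev : ∀ j, ∀ g ∈ ball (c.g0 j) δ,
    ‖E.lowi j g - E.low' j (g - c.g0 j)‖ ≤ C * ‖g - c.g0 j‖ ^ 2 ∧
    ∀ p : P2, c.s j < p.1 → p.1 < c.s j + 6 → ‖jet2 (E.ei j g) p -
      jet2 (fun η => (c.gr j η : ℂ)) p - jet2 (E.e' j (g - c.g0 j)) p‖ ≤ C * ‖g - c.g0 j‖ ^ 2
  fin : ∀ R, R0 ≤ R → ∀ j, ∀ v ∈ Sym.Om (2 * Λ) R, EndAt (c.eqn (.inl j)) (c.s (.inl j)) δ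
    (c.g0 (.inl j)) (fun g => E.e R j g v) fun g => E.low R j g v
  finRe : ∀ R, R0 ≤ R → ∀ j, ∀ v ∈ Sym.Om (2 * Λ) R, v.im = 0 → EndRe (c.s (.inl j)) δ
    (c.g0 (.inl j)) (fun g => E.e R j g v) fun g => E.low R j g v
  hol : ∀ R, R0 ≤ R → ∀ j, (∀ p : P2, c.s (.inl j) < p.1 → p.1 < c.s (.inl j) + 6 →
      DifferentiableOn ℂ (fun t : A2 × ℂ => jet1 (E.e R j t.1 t.2) p)
        (ball (c.g0 (.inl j)) δ ×ˢ Sym.Om (2 * Λ) R)) ∧
    DifferentiableOn ℂ (fun t : A2 × ℂ => E.low R j t.1 t.2)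
      (ball (c.g0 (.inl j)) δ ×ˢ Sym.Om (2 * Λ) R)
  x3 : ∀ R R', R0 ≤ R → R ≤ R' → R' ≤ R + 1 → ∀ j, ∀ g ∈ ball (c.g0 (.inl j)) δ,
    ∀ v ∈ Sym.Om (2 * Λ) R', ‖E.low R' j g v - E.low R j g v‖ ≤ C * (R' - R) * R ^ (-5 - d) ∧
      ∀ p : P2, c.s (.inl j) < p.1 → p.1 < c.s (.inl j) + 6 →
        ‖jet2 (E.e R' j g v) p - jet2 (E.e R j g v) p‖ ≤ C * (R' - R) * R ^ (-5 - d)
  x7 : ∀ ε : ℝ, 0 < ε → ∃ R₁, ∀ R, R₁ ≤ R → ∀ j, ∀ g ∈ ball (c.g0 (.inl j)) δ,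
    ∀ v ∈ Sym.Om (2 * Λ) R, ‖E.low R j g v - E.lowi (.inl j) g‖ ≤ ε ∧
      ∀ p : P2, c.s (.inl j) < p.1 → p.1 < c.s (.inl j) + 6 →
        ‖jet2 (E.e R j g v) p - jet2 (E.ei (.inl j) g) p‖ ≤ ε

section sol

variable {Z : Type} [NormedAddCommGroup Z] [NormedSpace ℂ Z]

/-- `t = (z, a)` solves the glued problem with the ends `e` and the moments `b`; the graph
function on the end `j` is `e j (c.tr (arg t).2.1 j)` -/
structure IsSol (S : Set E3) (K : M ⊕ N → P2 → E3) (op : Op (Ix κ M)) (c : Col (M ⊕ N))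
    (mom : κ → C(C0, ℂ) →L[ℂ] ℂ) (val : Z →ₗ[ℂ] E3 → ℂ)
    (arg : Z × (Ix κ M → ℂ) →L[ℂ] Arg C0 (M ⊕ N → A2) (Ix κ M)) (ρ : ℝ)
    (e : M ⊕ N → A2 → P2 → ℂ) (low : M ⊕ N → A2 → Fin 3 → ℂ) (b : κ → ℂ)
    (t : Z × (Ix κ M → ℂ)) : Prop where
  norm : ‖t‖ < ρ ∧ ‖arg t‖ < ρ
  eq : ∀ φ y, Par S φ y → φ y ∈ C0 → op t.2 φ y (jet2 (fun z => val t.1 (φ z)) y) = 0
  mom : ∀ p, mom p (arg t).1 = b p
  low : ∀ j, low (.inl j) (c.tr (arg t).2.1 (.inl j)) = 0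
  glue : ∀ j (y : P2), y.1 ∈ Icc (0 : ℝ) 3 → val t.1 (K j y) =
    c.σ j * (e j (c.tr (arg t).2.1 j) (sh (c.s j) y) - c.gr j (sh (c.s j) y))

/-- real solutions -/
structure ReSol (K : M ⊕ N → P2 → E3) (c : Col (M ⊕ N)) (val : Z →ₗ[ℂ] E3 → ℂ)
    (arg : Z × (Ix κ M → ℂ) →L[ℂ] Arg C0 (M ⊕ N → A2) (Ix κ M)) (t : Z × (Ix κ M → ℂ)) : Prop where
  a : IsRe t.2
  w : ∀ x ∈ Mo C0 K, (val t.1 x).im = 0
  tr : ∀ j, Re2 (c.tr (arg t).2.1 j)

/-- **the family of solutions**: `s R x` for `x = (b, c)`, and `si b` for `R = ∞` -/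
structure Sol (S : Set E3) (K : Fin m ⊕ N → P2 → E3) (op : Op (Ix (Fin q) (Fin m)))
    (c : Col (Fin m ⊕ N)) (mom : Fin q → C(C0, ℂ) →L[ℂ] ℂ) (E : EndF m N) (val : Z →ₗ[ℂ] E3 → ℂ)
    (arg : Z × (Ix (Fin q) (Fin m) → ℂ) →L[ℂ] Arg C0 (Fin m ⊕ N → A2) (Ix (Fin q) (Fin m)))
    (Λ d ρ r R1 C : ℝ) (s : ℝ → Nm.X q m → Z × (Ix (Fin q) (Fin m) → ℂ))
    (si : (Fin q → ℂ) → Z × (Ix (Fin q) (Fin m) → ℂ)) : Prop where
  fam : Nm.PFam d (2 * Λ) R1 r C s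
  fin : ∀ R, R1 ≤ R → ∀ x ∈ Nm.dom q m r (Sym.Om (2 * Λ) R),
    IsSol S K op c mom val arg ρ (E.eR R x.2) (E.lowR R x.2) x.1 (s R x)
  real : ∀ R, R1 ≤ R → ∀ x ∈ Nm.dom q m r (Sym.Om (2 * Λ) R), Nm.IsRe x → ReSol K c val arg (s R x)
  lip : ∀ R₁, R1 ≤ R₁ → ∀ x₁ ∈ Nm.dom q m r (Sym.Om (2 * Λ) R₁), ∃ L ε : ℝ, 0 < ε ∧
    ∀ R R' x x', R1 ≤ R → R ≤ R' → |R - R₁| < ε → |R' - R₁| < ε → ‖x - x₁‖ < ε → ‖x' - x₁‖ < ε →
      x ∈ Nm.dom q m r (Sym.Om (2 * Λ) R) ∧ x' ∈ Nm.dom q m r (Sym.Om (2 * Λ) R') ∧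
        ‖s R' x' - s R x‖ ≤ L * (R' - R + ‖x' - x‖)
  inf : ∀ b, ‖b‖ < r → IsSol S K op c mom val arg ρ E.ei E.lowi b (si b)
  reali : ∀ b, ‖b‖ < r → IsRe b → ReSol K c val arg (si b)
  holi : DifferentiableOn ℂ si (ball 0 r)
  small : ∀ b, ‖b‖ < r → ‖si b‖ ≤ C * ‖b‖
  lim : ∀ η : ℝ, 0 < η → ∃ R₂, ∀ R, R₂ ≤ R → ∀ x ∈ Nm.dom q m r (Sym.Om (2 * Λ) R),
    ‖s R x - si x.1‖ ≤ η

end sol

/-- injectivity of the linearised glued problem -/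
def Inj (S : Set E3) (K : M ⊕ N → P2 → E3) (op : Op (Ix κ M)) (c : Col (M ⊕ N))
    (mom : κ → C(C0, ℂ) →L[ℂ] ℂ) (e' : M ⊕ N → A2 →ₗ[ℂ] P2 → ℂ) : Prop :=
  ∀ (w : E3 → ℂ) (v : Arg C0 (M ⊕ N → A2) (Ix κ M)), (∀ x : C0, v.1 x = w x) →
    (∀ φ y, Par S φ y → φ y ∈ Mo C0 K → ContDiffAt ℝ 2 (fun z => w (φ z)) y) →
    (∀ φ y, Par S φ y → φ y ∈ C0 → lin op φ y (v.2.2, jet2 (fun z => w (φ z)) y) = 0) →
    (∀ j y, y.1 ∈ Icc (0 : ℝ) 3 → w (K j y) = e' j (v.2.1 j) (sh (c.s j) y)) →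
    (∀ p, mom p v.1 = 0) → v.1 = 0 ∧ v.2.2 = 0

/-- **LS-DAT** -/
def SolStmt : Prop :=
  ∀ (S C0 : Set E3) [CompactSpace C0] (q m : ℕ) (N : Type) [Fintype N] (K : Fin m ⊕ N → P2 → E3)
    (op : Op (Ix (Fin q) (Fin m))) (c : Col (Fin m ⊕ N)) (mom : Fin q → C(C0, ℂ) →L[ℂ] ℂ)
    (E : EndF m N) (α δ₀ Λ d δ C R0 C₀ : ℝ) (cc Y : ℝ → ℂ → ℂ), 1 / 2 < α → α < 1 → 0 < δ₀ →
    0 ≤ Λ → 0 ≤ d → 1 ≤ R0 → Sym.Inv C₀ Λ R0 cc Y → Geo S C0 K → OpOK S C0 K op α δ₀ →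
    c.OK K op → (∀ p (v : C(C0, ℂ)), (∀ x, (v x).im = 0) → (mom p v).im = 0) →
    E.OK c Λ d δ C R0 → Inj S K op c mom E.e' →
    ∃ (Z : Type) (_ : NormedAddCommGroup Z) (_ : NormedSpace ℂ Z) (val : Z →ₗ[ℂ] E3 → ℂ)
      (arg : Z × (Ix (Fin q) (Fin m) → ℂ) →L[ℂ] Arg C0 (Fin m ⊕ N → A2) (Ix (Fin q) (Fin m))),
      CompleteSpace Z ∧ Space S K α (evJ _) val arg ∧ ∀ ρ₀, 0 < ρ₀ →
        ∃ (ρ r R1 C' : ℝ) (s : ℝ → Nm.X q m → Z × (Ix (Fin q) (Fin m) → ℂ))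
          (si : (Fin q → ℂ) → Z × (Ix (Fin q) (Fin m) → ℂ)), ρ ≤ ρ₀ ∧ R0 ≤ R1 ∧
          Sol S K op c mom E val arg Λ d ρ r R1 C' s si

end Vale.Agent.P218F.LS.Dt
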