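import Vale.Agent.P218F.FtParam
import Vale.Agent.P218F.EndsSpec
import Vale.Agent.P218F.MeshSpec
import Vale.Agent.P218F.LSCore
import Mathlib.Analysis.SpecialFunctions.SmoothTransition

/-!
# The reduction near a shrinker: definitions

`S` is a shrinker with ends `D`.  Surfaces near `S` are `Y x = rot (om x) (x + U x • V x)`,
`x ∈ S`, where `U` is a complex function on `S`, `V` a fixed transversal field and `om` is
the rotation vector of the tilts.  Along a cylindrical end (height `z`): mesh bumps `|x| < z₀`,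
sources `z₀ + 1 ≤ z ≤ z₀ + 2`, `V = ∇V₀` for `|x| ≤ z₀ + 6`, `V = ± e_r` for `z ≥ z₀ + 8`, tilt zone
`z₀ + 8 ≤ z ≤ z₀ + 9`, trace circle `z = z₀ + 11`.
-/

open MeasureTheory Set Filter Topology Metric Matrix
open scoped ContDiff RealInnerProductSpace

set_option maxSynthPendingDepth 3

noncomputable section

namespace Vale.Agent.P218F.LS

open Vale.Agent.P218FT hiding P2
open Vale.Agent.P218F.Core Vale.Agent.P218F.Ends Vale.Agent.P218F.Ft Vale.Agent.P218F.Mesh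

/-! ### Jets -/

/-- the one-jet within a set -/
def jw1 {V : Type} [NormedAddCommGroup V] [NormedSpace ℝ V] (s : Set P2) (f : P2 → V) (p : P2) :
    J1 P2 V := (f p, fderivWithin ℝ f s p)

/-- the two-jet within a set -/
def jw2 {V : Type} [NormedAddCommGroup V] [NormedSpace ℝ V] (s : Set P2) (f : P2 → V) (p : P2) :
    J2 P2 V := (f p, fderivWithin ℝ f s p, fderivWithin ℝ (fderivWithin ℝ f s) s p)

/-- the rotation with Cayley vector `a` -/
def rot (a x : C3) : C3 := x + (2 / (1 + a ⬝ᵥ a)) • (a ⨯₃ x + a ⨯₃ (a ⨯₃ x))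

/-- the real rotation with Cayley vector `a` -/
def rotR (a x : E3) : E3 := x + (2 / (1 + ‖a‖ ^ 2)) • (crs a x + crs a (crs a x))

/-- the real rotation as a linear map -/
def rotE (a : E3) : E3 →L[ℝ] E3 := LinearMap.toContinuousLinearMap
  { toFun := rotR a
    map_add' := fun x y => by
      ext i
      fin_cases i <;> simp [rotR, crs, cross_apply] <;> ring
    map_smul' := fun c x => by
      ext i
      fin_cases i <;> simp [rotR, crs, cross_apply] <;> ring }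

/-- the shrinker operator of the graph `B + e W`, as a function of the two-jet of `e` -/
def shrG (B W : P2 → C3) (p : P2) (q : J2 P2 ℂ) : ℂ := shr (jet2 B p + q.smul (jet2 W p)) (W p)

/-- the determinant of the metric of a polar graph, as a function of the one-jet -/
def gC (q : J1 P2 ℂ) : ℂ := q.1 ^ 2 * (1 + q.2 (1, 0) ^ 2) + q.2 (0, 1) ^ 2

/-! ### The ends -/

variable {S : Set E3}

/-- the ends -/
abbrev JJ (D : EndData S) : Type := Fin D.m ⊕ Fin D.k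

/-- the axis, or the cone -/
def Bs (D : EndData S) : JJ D → P2 → E3
  | .inl j, p => p.1 • D.c j
  | .inr i, p => Real.exp p.1 • D.γ i p.2

/-- the direction of the graphs -/
def Wd (D : EndData S) : JJ D → P2 → E3
  | .inl j, p => Real.cos p.2 • D.a j + Real.sin p.2 • D.b j
  | .inr i, p => D.n i p.2

/-- the graph function of `S` -/
def gS (D : EndData S) : JJ D → P2 → ℝ
  | .inl j, p => D.r j p
  | .inr i, p => Real.exp p.1 * D.ψ i p

/-- the chart of an end -/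
def Kd (D : EndData S) (j : JJ D) (p : P2) : E3 := Bs D j p + gS D j p • Wd D j p

/-- the complex graph of `e` -/
def Ye (D : EndData S) (j : JJ D) (e : P2 → ℂ) (p : P2) : C3 :=
  cE (Bs D j p) + e p • cE (Wd D j p)

/-- where the chart of an end starts -/
def st (D : EndData S) : JJ D → ℝ
  | .inl _ => D.R₀
  | .inr _ => Real.log D.R₀

theorem Kd_inl (D : EndData S) (j : Fin D.m) (p : P2) :
    Kd D (.inl j) p = cylPt (D.a j) (D.b j) (D.c j) p.1 p.2 (D.r j p) := by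
  simp only [Kd, Bs, Wd, gS, cylPt, smul_add, smul_smul]
  abel

theorem Kd_inr (D : EndData S) (i : Fin D.k) (p : P2) :
    Kd D (.inr i) p = conePt (D.γ i) (D.n i) p.1 p.2 (D.ψ i p) := by
  simp only [Kd, Bs, Wd, gS, conePt, smul_add, smul_smul]

/-- the complexified axis, or cone -/
abbrev Bx (D : EndData S) (j : JJ D) : P2 → C3 := fun p => cE (Bs D j p)

/-- the complexified direction -/
abbrev Wx (D : EndData S) (j : JJ D) : P2 → C3 := fun p => cE (Wd D j p)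

/-- the shrinker operator on the end `j` -/
abbrev shrE (D : EndData S) (j : JJ D) : P2 → J2 P2 ℂ → ℂ := shrG (Bx D j) (Wx D j)

/-- the two-jet of the graph function of `S` -/
abbrev jS (D : EndData S) (j : JJ D) (p : P2) : J2 P2 ℂ := jet2 (fun η => (gS D j η : ℂ)) p

/-- a real Jacobi field of quadratic growth on the graph `B + r W`, above the height `z` -/
structure IsJac (B W : P2 → C3) (r : P2 → ℝ) (z : ℝ) (u : P2 → ℝ) : Prop where
  c2 : ContDiffOn ℝ 2 u (Ioi z ×ˢ univ)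
  per : ∀ p : P2, u (p.1, p.2 + 2 * Real.pi) = u p
  eq : ∀ p : P2, z < p.1 → fderiv ℂ (shrG B W p) (jet2 (fun η => (r η : ℂ)) p)
    (jet2 (fun η => (u η : ℂ)) p) = 0
  low : ∃ c₀ Z : ℝ, 0 < c₀ ∧ ∀ p : P2, Z ≤ p.1 → c₀ * p.1 ^ 2 ≤ |u p|
  tmp : ∃ (C : ℝ) (q : ℕ), ∀ p : P2, z + 1 ≤ p.1 → ‖jet1 u p‖ ≤ C * p.1 ^ q

/-- the scale invariant form of a graph over a cone -/
def scl (e : P2 → ℂ) (p : P2) : ℂ := (Real.exp (-p.1) : ℝ) * e p

/-- the Gaussian area of the strip between the heights `s` and `1 / ρ` (`ρ = 0`: no upper end) -/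
def Estr (X : P2 → C3) (s ρ : ℝ) : ℂ :=
  ∫ v in {z | s < z ∧ ρ * z < 1} ×ˢ Ioc 0 (2 * Real.pi), lag (jet1 X v)

/-! ### Frames -/

/-- the fixed data of the reduction -/
structure Frm (S : Set E3) where
  /-- the ends -/
  D : EndData S
  /-- a global equation of `S` -/
  V₀ : E3 → ℝ
  /-- the height of the sources -/
  z₀ : ℝ
  /-- the trace circle of the conical ends -/
  ya : ℝ
  /-- the transversal field -/
  V : E3 → E3
  /-- the signs -/
  σ : JJ D → ℝ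
  /-- the cut-off functions of the tilts -/
  χ : Fin D.m → E3 → ℝ

/-- `V₀` is a smooth global equation of the shrinker `S`, with unit gradient -/
structure IsEq0 (S : Set E3) (V₀ : E3 → ℝ) : Prop where
  shr : IsShr S
  smooth : ContDiff ℝ ∞ V₀
  zero : ∀ x, x ∈ S ↔ V₀ x = 0
  unit : ∀ x ∈ S, ‖gradient V₀ x‖ = 1

/-- the tilts -/
abbrev Tilt (m : ℕ) (𝕜 : Type) : Type := Fin m → Fin 2 → 𝕜

namespace Frm

variable (F : Frm S)

/-- the trace circles -/
def s1 : JJ F.D → ℝ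
  | .inl _ => F.z₀ + 11
  | .inr _ => F.ya

/-- the properties of a frame -/
structure OK : Prop where
  eq0 : IsEq0 S F.V₀
  z_big : 2 * F.D.R₀ ≤ F.z₀
  y_big : Real.log (F.z₀ + 8) + 3 ≤ F.ya
  smooth : ContDiff ℝ ∞ F.V
  trans : ∀ x ∈ S, 0 < ⟪F.V x, gradient F.V₀ x⟫
  core : ∀ x ∈ S, ‖x‖ ≤ F.z₀ + 6 → F.V x = gradient F.V₀ x
  sign : ∀ j, F.σ j = 1 ∨ F.σ j = -1
  ends : ∀ j (p : P2), F.s1 j - 3 ≤ p.1 → F.V (Kd F.D j p) = F.σ j • Wd F.D j p
  chi_smooth : ∀ j, ContDiff ℝ ∞ (F.χ j)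
  chi_end : ∀ j (p : P2), F.D.R₀ ≤ p.1 →
    F.χ j (Kd F.D (.inl j) p) = Real.smoothTransition (p.1 - (F.z₀ + 8))
  chi_out : ∀ j, ∀ x ∈ S, (∀ p : P2, F.z₀ + 8 ≤ p.1 → x ≠ Kd F.D (.inl j) p) → F.χ j x = 0
  imm : ∀ j (p : P2), F.s1 j - 4 ≤ p.1 → rn (fderiv ℝ (Kd F.D j) p) ≠ 0

/-- the rotation vector -/
def om (β : Tilt F.D.m ℂ) (x : E3) : C3 :=
  ∑ j, (F.χ j x : ℂ) • (β j 0 • cE (F.D.a j) + β j 1 • cE (F.D.b j))

/-- the surface -/
def Y (U : E3 → ℂ) (β : Tilt F.D.m ℂ) (x : E3) : C3 :=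
  rot (F.om β x) (cE x + U x • cE (F.V x))

/-- the transversal direction -/
def W (β : Tilt F.D.m ℂ) (x : E3) : C3 := rot (F.om β x) (cE (F.V x))

/-- the extra unknowns: coefficients of the sources, tilts -/
abbrev Ix (κ : Type) : Type := κ ⊕ Fin F.D.m × Fin 2

/-- the tilts -/
def tl {κ : Type} (a : F.Ix κ → ℂ) : Tilt F.D.m ℂ := fun j i => a (.inr (j, i))

/-- the operator of the core problem, for the sources `χ` -/
def op {κ : Type} [Fintype κ] (χ : κ → E3 → ℝ) : Op (F.Ix κ) :=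
  elOp (fun a x => rot (F.om (F.tl a) x) (cE x)) (fun a x => F.W (F.tl a) x) (Sum.elim χ 0)

/-- the graph function on the end `j` -/
def e (U : E3 → ℂ) (j : JJ F.D) (p : P2) : ℂ := gS F.D j p + F.σ j * U (Kd F.D j p)

/-- the compact core -/
def C0 : Set E3 := {x | x ∈ S ∧ ∀ j (p : P2), F.s1 j < p.1 → x ≠ Kd F.D j p}

/-- the core with collars of length `t` -/
def Cr (t : ℝ) : Set E3 := {x | x ∈ S ∧ ∀ j (p : P2), F.s1 j + t < p.1 → x ≠ Kd F.D j p}

/-- the collar charts -/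
def Kc (j : JJ F.D) (p : P2) : E3 := Kd F.D j (F.s1 j + p.1, p.2)

/-- the base points -/
def P (β : Tilt F.D.m ℂ) (x : E3) : C3 := rot (F.om β x) (cE x)

/-- the equation on the core -/
def Eqn {κ : Type} [Fintype κ] (χ : κ → E3 → ℝ) (U : E3 → ℂ) (a : F.Ix κ → ℂ) : Prop :=
  ∀ φ y, Par S φ y → φ y ∈ F.Cr (5 / 2) → F.op χ a φ y (jet2 (fun t => U (φ t)) y) = 0

/-- `U` agrees with the end solutions `e` on the collars -/
def Glue (U : E3 → ℂ) (e : JJ F.D → P2 → ℂ) : Prop :=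
  ∀ j (p : P2), p.1 ∈ Icc (F.s1 j) (F.s1 j + 3) → F.e U j p = e j p

/-- the Gaussian area up to the height `1 / ρ` on the cylindrical ends -/
def en (ρ : ℝ) (U : E3 → ℂ) (β : Tilt F.D.m ℂ) (e : JJ F.D → P2 → ℂ) : ℂ :=
  Ec S F.C0 (F.Y U β) + ∑ j, Estr (Ye F.D (.inl j) (e (.inl j))) (F.z₀ + 11) ρ +
    ∑ i, Estr (Ye F.D (.inr i) (e (.inr i))) F.ya 0

/-- tempered solutions of the linearised equation: `w` on the core and the collars, `u j` on the
ends, with leading terms `cd j * W j` -/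
structure LinSol {κ : Type} [Fintype κ] (χ : κ → E3 → ℝ) (W : Fin F.D.m → P2 → ℝ)
    (cd : Fin F.D.m → ℂ) (w : E3 → ℂ) (a : F.Ix κ → ℂ) (u : JJ F.D → P2 → ℂ) : Prop where
  reg : ∀ φ y, Par S φ y → φ y ∈ Mo F.C0 F.Kc → ContDiffAt ℝ 2 (fun t => w (φ t)) y
  eq : ∀ φ y, Par S φ y → φ y ∈ F.C0 → lin (F.op χ) φ y (a, jet2 (fun t => w (φ t)) y) = 0
  glue : ∀ j (p : P2), p.1 ∈ Ioo (F.s1 j) (F.s1 j + 3) → F.σ j * w (Kd F.D j p) = u j p
  c2 : ∀ j, ContDiffOn ℝ 2 (u j) (Ioi (F.s1 j) ×ˢ univ)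
  per : ∀ j (p : P2), u j (p.1, p.2 + 2 * Real.pi) = u j p
  eqE : ∀ j (p : P2), F.s1 j < p.1 → fderiv ℂ (shrE F.D j p) (jS F.D j p) (jet2 (u j) p) = 0
  cyl : ∃ (C : ℝ) (q : ℕ), ∀ j (p : P2), F.z₀ + 12 ≤ p.1 →
    ‖u (.inl j) p - cd j * W j p‖ ≤ C ∧ ‖fderiv ℝ (u (.inl j)) p‖ ≤ C * p.1 ^ q
  cone : ∃ C : ℝ, ∀ i (p : P2), F.ya + 1 ≤ p.1 → ‖jet1 (scl (u (.inr i))) p‖ ≤ C

/-- the real rotation vector -/
def omR (β : Tilt F.D.m ℝ) (x : E3) : E3 := ∑ j, F.χ j x • (β j 0 • F.D.a j + β j 1 • F.D.b j)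

/-- admissible sources -/
def Src {κ : Type} (χ : κ → E3 → ℝ) : Prop :=
  ∀ i, ContDiff ℝ ∞ (χ i) ∧ tsupport (χ i) ⊆ ball 0 (F.z₀ + 4)

end Frm

/-- the mesh bumps and the sources of the ends -/
def chis {q m : ℕ} (en : Fin q → E3) (r : ℝ) (ψ : Fin m → E3 → ℝ) : Fin q ⊕ Fin m → E3 → ℝ
  | .inl i => bump (en i) r
  | .inr j => ψ j

end Vale.Agent.P218F.LS
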