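import Vale.Agent.P218F.LSEnFin
import Vale.Agent.P218F.LSEnB
import Vale.Agent.P218F.LSEnCore
import Vale.Agent.P218F.LSEnTip
import Vale.Agent.P218F.LSEnCyl
import Vale.Agent.P218F.LSEnCone

/-!
# The Gaussian area of the reduction
-/

namespace Vale.Agent.P218F.LS

/-- **ENERGY** -/
theorem energy_proof : EnergyStmt :=
  energy_of enB_proof coreInc_proof cylTip_proof cylInc_proof coneInc_proof

end Vale.Agent.P218F.LS
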