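import Vale.Agent.P218F.LSEnSpec

/-!
# Polar graphs over the axis of a cylindrical end: jets, metric, tilts
-/

open MeasureTheory Set Filter Topology Metric Matrix
open scoped ContDiff Real Pointwise

set_option maxSynthPendingDepth 3

noncomputable section

namespace Vale.Agent.P218F.LS

open Vale.Agent.P218FT hiding P2
open Vale.Agent.P218F.Core Vale.Agent.P218F.Ends Vale.Agent.P218F.Ft Vale.Agent.P218F.Mesh

namespace Cy

variable {S : Set E3} (D : EndData S) (j : Fin D.m)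

theorem triple_sq (x y z : C3) : (x ⬝ᵥ (y ⨯₃ z)) ^ 2 =
    (x ⬝ᵥ x) * ((y ⬝ᵥ y) * (z ⬝ᵥ z) - (y ⬝ᵥ z) ^ 2) - (x ⬝ᵥ y) ^ 2 * (z ⬝ᵥ z) -
      (x ⬝ᵥ z) ^ 2 * (y ⬝ᵥ y) + 2 * (x ⬝ᵥ y) * (x ⬝ᵥ z) * (y ⬝ᵥ z) := by
  simp [dotProduct, Fin.sum_univ_three, cross_apply]
  ring

theorem rotFam_Orot : ∃ B, RotFam (Orot D j) (1 / 4) B := by
  have T := (D.cyl j).tri
  have ne : ∀ β ∈ closedBall (0 : Fin 2 → ℂ) (1 / 2), 1 + (β 0 • cE (D.a j) + β 1 • cE (D.b j)) ⬝ᵥ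
      (β 0 • cE (D.a j) + β 1 • cE (D.b j)) ≠ 0 := fun β hβ => by
    have h : ∀ i, ‖β i ^ 2‖ ≤ ‖β‖ ^ 2 := fun i => by
      rw [norm_pow]
      gcongr
      exact norm_le_pi_norm β i
    refine Frm.one_add_ne (t := ‖β‖) ?_ (norm_nonneg _) (mem_closedBall_zero_iff.1 hβ)
    simp only [add_dotProduct, dotProduct_add, smul_dotProduct, dotProduct_smul, cE_dot,
      real_inner_self_eq_norm_sq, T.na, T.nb, T.ab, real_inner_comm (D.a j)]
    refine le_trans (le_of_eq ?_) ((norm_add_le _ _).trans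
      ((add_le_add (h 0) (h 1)).trans_eq (two_mul _).symm))
    congr 1
    simp [sq]
  have cd : ContDiffOn ℂ 1 (Orot D j) (closedBall 0 (1 / 2)) :=
    contDiffOn_clm_apply.2 fun x β hβ => (cda_rot (a := fun β : Fin 2 → ℂ =>
      β 0 • cE (D.a j) + β 1 • cE (D.b j)) (b := fun _ => x) (by fun_prop) contDiffAt_const
        (ne β hβ)).contDiffWithinAt
  have sub : ball (0 : Fin 2 → ℂ) (2 * (1 / 4)) ⊆ closedBall 0 (1 / 2) :=
    ball_subset_closedBall.trans (closedBall_subset_closedBall (by norm_num))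
  obtain ⟨B, hB⟩ := (isCompact_closedBall (0 : Fin 2 → ℂ) (1 / 2)).exists_bound_of_continuousOn
    cd.continuousOn
  exact ⟨B, by norm_num, (cd.differentiableOn (by simp)).mono sub, fun β hβ => hB β (sub hβ),
    fun β hβ => isRot_rotC (ne β (sub hβ))⟩

/-- the axis -/
def cx : C3 := cE (D.c j)

/-- the derivative of the axis -/
def LB : P2 →L[ℝ] C3 := (ContinuousLinearMap.fst ℝ ℝ ℝ).smulRight (cx D j)

/-- the radial direction -/
def wr (θ : ℝ) : C3 := Real.cos θ • cE (D.a j) + Real.sin θ • cE (D.b j)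

/-- the angular direction -/
def wa (θ : ℝ) : C3 := -Real.sin θ • cE (D.a j) + Real.cos θ • cE (D.b j)

theorem jet_B (p : P2) : jet1 (Bx D (.inl j)) p = ((p.1 : ℂ) • cx D j, LB D j) := by
  have e : Bx D (.inl j) = LB D j := funext fun y => by simp [Bx, Bs, LB, cx]
  rw [e, jet1, ContinuousLinearMap.fderiv]
  simp [LB]

theorem Wx_eq (p : P2) : Wx D (.inl j) p = wr D j p.2 := by simp [Wx, Wd, wr]

theorem jet_W (p : P2) : jet1 (Wx D (.inl j)) p =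
    (wr D j p.2, (ContinuousLinearMap.snd ℝ ℝ ℝ).smulRight (wa D j p.2)) := by
  have h : HasDerivAt (wr D j) (wa D j p.2) p.2 :=
    ((Real.hasDerivAt_cos p.2).smul_const _).add ((Real.hasDerivAt_sin p.2).smul_const _)
  have h2 := (h.hasFDerivAt.comp p hasFDerivAt_snd).fderiv
  have e : Wx D (.inl j) = wr D j ∘ Prod.snd := funext (Wx_eq D j)
  rw [e, jet1, h2]
  refine Prod.ext rfl (ContinuousLinearMap.ext fun v => ?_)
  simp

theorem dots (θ : ℝ) : cx D j ⬝ᵥ cx D j = 1 ∧ wr D j θ ⬝ᵥ wr D j θ = 1 ∧ wa D j θ ⬝ᵥ wa D j θ = 1 ∧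
    cx D j ⬝ᵥ wr D j θ = 0 ∧ cx D j ⬝ᵥ wa D j θ = 0 ∧ wr D j θ ⬝ᵥ wa D j θ = 0 := by
  have T := (D.cyl j).tri
  have h := congrArg (fun t : ℝ => (t : ℂ)) (Real.sin_sq_add_cos_sq θ)
  simp only [cx, wr, wa, ← Complex.coe_smul, add_dotProduct, dotProduct_add, smul_dotProduct,
    dotProduct_smul, cE_dot, real_inner_self_eq_norm_sq, T.na, T.nb, T.nc, T.ab, T.ac, T.bc,
    real_inner_comm (D.a j), real_inner_comm (D.b j) (D.c j), smul_eq_mul]
  push_cast at h ⊢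
  refine ⟨by ring, by linear_combination h, by linear_combination h, by ring, by ring, by ring⟩

/-- the jet of the polar graph, as a function of the jet of the radius -/
def gq (p : P2) (u : J1 P2 ℂ) : Jt := Lm.gj (jet1 (Bx D (.inl j)) p) (jet1 (Wx D (.inl j)) p) u

theorem qC_eq (s R : ℝ) (e : P2 → ℂ) (y : P2) :
    qC D j s R e y = gq D j y (jw1 (Icc s R ×ˢ univ) e y) := rfl

theorem gq_fst (p : P2) (u : J1 P2 ℂ) : (gq D j p u).1 = (p.1 : ℂ) • cx D j + u.1 • wr D j p.2 := by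
  simp [gq, Lm.gj, jet_B, jet_W]

theorem t1_gq (p : P2) (u : J1 P2 ℂ) : t1 (gq D j p u).2 = cx D j + u.2 (1, 0) • wr D j p.2 := by
  simp [gq, Lm.gj, jet_B, jet_W, t1, LB]

theorem t2_gq (p : P2) (u : J1 P2 ℂ) :
    t2 (gq D j p u).2 = u.1 • wa D j p.2 + u.2 (0, 1) • wr D j p.2 := by
  simp [gq, Lm.gj, jet_B, jet_W, t2, LB]

theorem gdet_gq (p : P2) (u : J1 P2 ℂ) : gdet (gq D j p u).2 = gC u := by
  obtain ⟨h1, h2, h3, h4, h5, h6⟩ := dots D j p.2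
  simp only [gdet, t1_gq, t2_gq, add_dotProduct, dotProduct_add, smul_dotProduct, dotProduct_smul,
    h1, h2, h3, h4, h5, h6, dotProduct_comm (wr D j p.2) (cx D j),
    dotProduct_comm (wa D j p.2) (wr D j p.2), smul_eq_mul, gC]
  ring

theorem height_gq (p : P2) (u : J1 P2 ℂ) : cx D j ⬝ᵥ (gq D j p u).1 = p.1 := by
  obtain ⟨h1, -, -, h4, -, -⟩ := dots D j p.2
  simp [gq_fst, h1, h4]

theorem sq_gq (p : P2) (u : J1 P2 ℂ) :
    (gq D j p u).1 ⬝ᵥ (gq D j p u).1 = (p.1 : ℂ) ^ 2 + u.1 ^ 2 := by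
  obtain ⟨h1, h2, -, h4, -, -⟩ := dots D j p.2
  simp only [gq_fst, add_dotProduct, dotProduct_add, smul_dotProduct, dotProduct_smul, h1, h2, h4,
    dotProduct_comm (wr D j p.2) (cx D j), smul_eq_mul]
  ring

theorem trans_gq (p : P2) (u : J1 P2 ℂ) : (wr D j p.2 ⬝ᵥ nor (gq D j p u).2) ^ 2 = u.1 ^ 2 := by
  obtain ⟨h1, h2, h3, h4, h5, h6⟩ := dots D j p.2
  rw [nor, triple_sq]
  simp only [t1_gq, t2_gq, add_dotProduct, dotProduct_add, smul_dotProduct, dotProduct_smul,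
    h1, h2, h3, h4, h5, h6, dotProduct_comm (wr D j p.2) (cx D j),
    dotProduct_comm (wa D j p.2) (wr D j p.2), smul_eq_mul]
  ring

theorem neu_gq (p : P2) {u : J1 P2 ℂ} (h : u.2 (1, 0) = 0) : Neu (cx D j) (gq D j p u) := by
  obtain ⟨-, -, -, h4, h5, -⟩ := dots D j p.2
  exact ⟨by simp [t1_gq, h], by simp [t2_gq, h4, h5]⟩

theorem lag_gq (p : P2) {u : J1 P2 ℂ} (h : u.2 (1, 0) = 0) : lag (gq D j p u) =
    (Real.exp (-p.1 ^ 2 / 4) : ℝ) *
      (Complex.exp (-u.1 ^ 2 / 4) * Complex.sqrt (u.1 ^ 2 + u.2 (0, 1) ^ 2)) := by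
  rw [lag, sq_gq, gdet_gq, gC, h, ← mul_assoc, Complex.ofReal_exp, ← Complex.exp_add]
  congr 2
  · push_cast
    ring
  · ring

/-- uniform bounds of the frame -/
theorem frame_bound : ∃ M, 0 ≤ M ∧ ‖cx D j‖ ≤ M ∧ ‖LB D j‖ ≤ M ∧
    ∀ p, ‖jet1 (Wx D (.inl j)) p‖ ≤ M := by
  have k : ∀ x y : ℝ, |x| ≤ 1 → |y| ≤ 1 →
      ‖x • cE (D.a j) + y • cE (D.b j)‖ ≤ ‖cE (D.a j)‖ + ‖cE (D.b j)‖ := fun x y hx hy => by
    refine (norm_add_le _ _).trans (add_le_add ?_ ?_) <;> rw [norm_smul] <;>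
      exact mul_le_of_le_one_left (norm_nonneg _) ‹_›
  have n1 := norm_nonneg (cx D j)
  have n2 := norm_nonneg (LB D j)
  have n3 := norm_nonneg (cE (D.a j))
  have n4 := norm_nonneg (cE (D.b j))
  refine ⟨‖cx D j‖ + ‖LB D j‖ + (‖cE (D.a j)‖ + ‖cE (D.b j)‖), by positivity, by linarith,
    by linarith, fun p => ?_⟩
  rw [jet_W]
  refine max_le ?_ ?_
  · linarith [show ‖wr D j p.2‖ ≤ _ from k _ _ (Real.abs_cos_le_one _) (Real.abs_sin_le_one _)]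
  · have h1 : ‖wa D j p.2‖ ≤ _ :=
      k _ _ (by rw [abs_neg]; exact Real.abs_sin_le_one _) (Real.abs_cos_le_one _)
    rw [ContinuousLinearMap.norm_smulRight_apply]
    nlinarith [ContinuousLinearMap.norm_snd_le ℝ ℝ ℝ, norm_nonneg (wa D j p.2),
      norm_nonneg (ContinuousLinearMap.snd ℝ ℝ ℝ)]

variable {D j} {M : ℝ}

theorem gq_bound (h2 : ‖LB D j‖ ≤ M) (h3 : ∀ p, ‖jet1 (Wx D (.inl j)) p‖ ≤ M) (p : P2)
    {u : J1 P2 ℂ} {c : ℝ} (hu : ‖u‖ ≤ c) :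
    ‖(gq D j p u).1 - (p.1 : ℂ) • cx D j‖ ≤ c * M ∧ ‖(gq D j p u).2‖ ≤ M + 2 * (c * M) := by
  obtain ⟨a, b⟩ := Lm.norm_gj_le (B := jet1 (Bx D (.inl j)) p) (b := M) (by rwa [jet_B]) (h3 p) hu
  refine ⟨le_trans (le_of_eq ?_) a, b⟩
  rw [gq_fst, add_sub_cancel_left, jet_W]

theorem gq_sub (h1 : ‖cx D j‖ ≤ M) (h3 : ∀ p, ‖jet1 (Wx D (.inl j)) p‖ ≤ M) {p p' : P2}
    (hp : p'.2 = p.2) (u u' : J1 P2 ℂ) :
    ‖gq D j p' u' - gq D j p u‖ ≤ |p'.1 - p.1| * M + 2 * (‖u' - u‖ * M) := by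
  have e : gq D j p' u' - gq D j p u =
      Lm.gj ((((p'.1 - p.1 : ℝ) : ℂ)) • cx D j, 0) (jet1 (Wx D (.inl j)) p) (u' - u) := by
    simp only [gq, Lm.gj, jet_B, jet_W, hp]
    refine Prod.ext ?_ (ContinuousLinearMap.ext fun v => ?_)
    · simp [sub_smul]
      abel
    · simp [sub_smul]
      abel
  obtain ⟨a, b⟩ := Lm.norm_gj_le (B := ((((p'.1 - p.1 : ℝ) : ℂ)) • cx D j, 0)) (b := 0) (by simp)
    (h3 p) (le_refl ‖u' - u‖)
  have M0 := (norm_nonneg _).trans h1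
  have c0 : 0 ≤ |p'.1 - p.1| * M := by positivity
  have c1 : 0 ≤ ‖u' - u‖ * M := by positivity
  rw [e]
  refine max_le ((norm_add_le _ _).trans ?_) (by linarith)
  have : ‖(((p'.1 - p.1 : ℝ) : ℂ)) • cx D j‖ ≤ |p'.1 - p.1| * M := by
    rw [norm_smul, Complex.norm_real, Real.norm_eq_abs]
    gcongr
  exact (add_le_add this a).trans (by linarith)

variable (D j)

theorem cont_gq : Continuous fun v : P2 × J1 P2 ℂ => gq D j v.1 v.2 := by
  have a : Continuous (jet1 (Bx D (.inl j))) := continuous_iff_continuousAt.2 fun p =>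
    continuousAt_jet1 ((cE.contDiff.comp (Ch.smooth D (.inl j)).1).of_le (by simp)).contDiffAt
  have b : Continuous (jet1 (Wx D (.inl j))) := continuous_iff_continuousAt.2 fun p =>
    continuousAt_jet1 ((cE.contDiff.comp (Ch.smooth D (.inl j)).2.1).of_le (by simp)).contDiffAt
  exact Lm.continuous_gj.comp ((a.comp continuous_fst).prodMk
    ((b.comp continuous_fst).prodMk continuous_snd))

theorem gq_per (z : ℝ) (u : J1 P2 ℂ) : gq D j (z, 2 * π) u = gq D j (z, 0) u := by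
  simp [gq, jet_B, jet_W, wr, wa]

variable {s R : ℝ} {e : P2 → ℂ}

theorem le_two : (2 : WithTop ℕ∞) ≤ ∞ := WithTop.coe_le_coe.2 (le_top : (2 : ℕ∞) ≤ ⊤)

theorem ud_strip (h : s < R) : UniqueDiffOn ℝ (Icc s R ×ˢ univ : Set P2) :=
  (uniqueDiffOn_Icc h).prod uniqueDiffOn_univ

theorem strip_nhds {y : P2} (hy : y.1 ∈ Ioo s R) : (Icc s R ×ˢ univ : Set P2) ∈ 𝓝 y :=
  prod_mem_nhds (Icc_mem_nhds hy.1 hy.2) univ_mem

theorem jw1_int {y : P2} (hy : y.1 ∈ Ioo s R) : jw1 (Icc s R ×ˢ univ) e y = jet1 e y :=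
  Prod.ext rfl (fderivWithin_of_mem_nhds (strip_nhds hy))

theorem cont_jw1 (h : s < R) (he : ContDiffOn ℝ 2 e (Icc s R ×ˢ univ)) :
    ContinuousOn (jw1 (Icc s R ×ˢ univ) e) (Icc s R ×ˢ univ) :=
  he.continuousOn.prodMk (he.continuousOn_fderivWithin (ud_strip h) one_le_two)

theorem jw1_per (hp : ∀ p : P2, e (p.1, p.2 + 2 * π) = e p) (y : P2) :
    jw1 (Icc s R ×ˢ univ) e (y.1, y.2 + 2 * π) = jw1 (Icc s R ×ˢ univ) e y := by
  have e1 : (fun z => e (z + (0, 2 * π))) = e := funext fun z => by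
    rw [← hp z]; congr 1; ext <;> simp
  have e2 : ((y.1, y.2 + 2 * π) : P2) = y + (0, 2 * π) := by ext <;> simp
  have e3 : ((0, 2 * π) : P2) +ᵥ (Icc s R ×ˢ univ : Set P2) = Icc s R ×ˢ univ := by
    ext z
    simp [mem_vadd_set_iff_neg_vadd_mem]
  refine Prod.ext (hp y) ?_
  show fderivWithin ℝ e _ _ = fderivWithin ℝ e _ y
  rw [e2, ← e3, ← fderivWithin_comp_add_right, e1, e3]

theorem ext_qC (h : s < R) (he : ContDiffOn ℝ 2 e (Icc s R ×ˢ univ))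
    (hp : ∀ p : P2, e (p.1, p.2 + 2 * π) = e p) : Ext s R (Ye D (.inl j) e) (qC D j s R e) where
  cont := (cont_gq D j).comp_continuousOn (f := fun y : P2 => (y, jw1 (Icc s R ×ˢ univ) e y))
    (continuousOn_id.prodMk (cont_jw1 h he))
  per z _ := by
    rw [qC_eq, qC_eq, gq_per, ← jw1_per hp (z, 0), zero_add]
  c2 y hy := ((cE.contDiff.comp (Ch.smooth D (.inl j)).1).of_le le_two).contDiffAt.add
    ((he.contDiffAt (strip_nhds hy)).smul
      ((cE.contDiff.comp (Ch.smooth D (.inl j)).2.1).of_le le_two).contDiffAt)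
  jet y hy := by
    rw [qC_eq, jw1_int hy, Lm.jet1_Ye D _ ((he.contDiffAt (strip_nhds hy)).differentiableAt
      (by simp))]
    rfl

/-- closed conditions extend from the open strip to the closed strip -/
theorem of_int {X : Type} [TopologicalSpace X] {f : P2 → X} {T : Set X} (h : s < R)
    (hT : IsClosed T) (hf : ContinuousOn f (Icc s R ×ˢ univ)) (hi : ∀ y : P2, y.1 ∈ Ioo s R → f y ∈ T)
    {y : P2} (hy : y.1 ∈ Icc s R) : f y ∈ T := by
  have hc : y ∈ closure (Ioo s R ×ˢ univ : Set P2) := by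
    rw [closure_prod_eq, closure_Ioo h.ne, closure_univ]
    exact ⟨hy, trivial⟩
  exact hT.closure_subset_iff.2 (image_subset_iff.2 fun z hz => hi z hz.1)
    (((hf y ⟨hy, trivial⟩).mono (prod_mono Ioo_subset_Icc_self le_rfl)).mem_closure_image hc)

/-- the angular derivative at the boundary -/
theorem jw1_ang (he : ContDiffOn ℝ 2 e (Icc s R ×ˢ univ)) {z : ℝ} (hz : z ∈ Icc s R)
    (θ : ℝ) : (jw1 (Icc s R ×ˢ univ) e (z, θ)).2 (0, 1) = deriv (fun t => e (z, t)) θ := by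
  have h1 := ((he (z, θ) ⟨hz, trivial⟩).differentiableWithinAt (by simp)).hasFDerivWithinAt
  have h2 : HasDerivAt (fun t : ℝ => ((z, t) : P2)) (0, 1) θ :=
    (hasDerivAt_const θ z).prodMk (hasDerivAt_id θ)
  have h3 := h1.comp_hasDerivAt θ h2 (Eventually.of_forall fun t => ⟨hz, trivial⟩)
  exact h3.deriv.symm

end Cy

end Vale.Agent.P218F.LS
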