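import Vale.Agent.P218F.LSLim

/-!
# The increments of the Gaussian area: statements of the pieces of `EnergyStmt`
-/

open MeasureTheory Set Filter Topology Metric Matrix
open scoped ContDiff Real

set_option maxSynthPendingDepth 3

noncomputable section

namespace Vale.Agent.P218F.LS

open Vale.Agent.P218FT hiding P2
open Vale.Agent.P218F.Core Vale.Agent.P218F.Ends Vale.Agent.P218F.Ft Vale.Agent.P218F.Mesh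

variable {S : Set E3} {F : Frm S}

/-- the tilts of the end `j` -/
def Orot (D : EndData S) (j : Fin D.m) (β : Fin 2 → ℂ) : C3 →L[ℂ] C3 :=
  rotC (β 0 • cE (D.a j) + β 1 • cE (D.b j))

/-- the jet of the polar graph of `e` over the closed strip -/
def qC (D : EndData S) (j : Fin D.m) (s R : ℝ) (e : P2 → ℂ) (y : P2) : Jt :=
  Lm.gj (jet1 (Bx D (.inl j)) y) (jet1 (Wx D (.inl j)) y) (jw1 (Icc s R ×ˢ univ) e y)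

/-- the torque at the tip circle -/
def tauE (H : EF F) (j : Fin F.D.m) (R : ℝ) (g : AA) (c : ℂ) (β : Fin 2 → ℂ) :
    (Fin 2 → ℂ) →L[ℂ] ℂ := tau (Orot F.D j) β (qC F.D j (F.z₀ + 11) R (H.e j R g c)) R

/-- the weighted length of the tip circle -/
def mainE (H : EF F) (j : Fin F.D.m) (R : ℝ) (g : AA) (c : ℂ) : ℂ :=
  ∫ θ in (0 : ℝ)..2 * π, lag (qC F.D j (F.z₀ + 11) R (H.e j R g c) (R, θ))

/-- the surface is `C²` across the trace circle `j` and agrees with the graph of `e` on the collar -/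
structure GlC (F : Frm S) (j : JJ F.D) (U : E3 → ℂ) (β : Tilt F.D.m ℂ) (e : P2 → ℂ) : Prop where
  reg : ∀ θ, ContDiffAt ℝ 2 (fun z => F.Y U β (F.Kc j z)) (0, θ)
  glue : ∀ p : P2, p.1 ∈ Icc (F.s1 j) (F.s1 j + 3) → F.e U j p = e p

/-- admissible parameters of the end `j` near `(R₁, g₁, c₁)` -/
structure Nr (H : EF F) (j : Fin F.D.m) (R₁ : ℝ) (g₁ : AA) (c₁ : ℂ) (ε R : ℝ) (g : AA) (c : ℂ) :
    Prop where
  big : H.R0 ≤ R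
  dR : |R - R₁| < ε
  gm : g ∈ ball (H.g0 (.inl j)) H.δ
  dg : ‖g - g₁‖ < ε
  cm : c ∈ Sym.Om (2 * H.Λ) R
  dc : ‖c - c₁‖ < ε

/-- good surfaces, bounds and reality -/
def EnB : Prop :=
  ∀ (S : Set E3) (F : Frm S), F.OK → S.Nonempty → ∀ H : EF F, H.OK →
    ∀ (q : ℕ) (χ : Fin q ⊕ Fin F.D.m → E3 → ℝ), F.Src χ →
    ∀ (Z : Type) [NormedAddCommGroup Z] [NormedSpace ℂ Z]
      (val : Z →ₗ[ℂ] E3 → ℂ) (tr : Un F q Z →L[ℂ] JJ F.D → AA), Sp χ val tr →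
      ∃ ρ₁ > 0, GoodAt (F := F) (q := q) val ρ₁ ∧ ∀ ρ, ρ ≤ ρ₁ → ∀ R0 r C s si,
        Red H χ val tr ρ R0 r C s si → ∃ C' : ℝ, ∀ R, R0 ≤ R →
          ∀ x ∈ Nm.dom q F.D.m r (Sym.Om (2 * H.Λ) R),
          ‖F.en R⁻¹ (val (s R x).1) (F.tl (s R x).2) (H.eR R x.2 (tr (s R x)))‖ ≤ C' ∧ (Nm.IsRe x →
            (F.en R⁻¹ (val (s R x).1) (F.tl (s R x).2) (H.eR R x.2 (tr (s R x)))).im = 0)

/-- the increment on the core -/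
def CoreInc : Prop :=
  ∀ (S : Set E3) (F : Frm S), F.OK → S.Nonempty →
    ∀ (q : ℕ) (χ : Fin q ⊕ Fin F.D.m → E3 → ℝ), F.Src χ →
    ∀ (Z : Type) [NormedAddCommGroup Z] [NormedSpace ℂ Z]
      (val : Z →ₗ[ℂ] E3 → ℂ) (tr : Un F q Z →L[ℂ] JJ F.D → AA), Sp χ val tr →
      ∃ ρ₁ > 0, ∃ ε > 0, ∃ K : ℝ, ∀ u u' : Un F q Z, ‖u‖ ≤ ρ₁ → ‖u'‖ ≤ ρ₁ → ‖u' - u‖ < ε →
        F.Eqn χ (val u.1) u.2 →
        ‖Ec S F.C0 (F.Y (val u'.1) (F.tl u'.2)) - Ec S F.C0 (F.Y (val u.1) (F.tl u.2)) -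
          ∑ j, Fl (F.Kc j) (F.Y (val u.1) (F.tl u.2))
            (fun x => F.Y (val u'.1) (F.tl u'.2) x - F.Y (val u.1) (F.tl u.2) x) +
          ∑ i, u.2 (.inl i) * (mo F.C0 (χ i) (val u'.1) - mo F.C0 (χ i) (val u.1))‖ ≤
          K * ‖u' - u‖ ^ 2

/-- the tip terms of a cylindrical end -/
def CylTip : Prop :=
  ∀ (S : Set E3) (F : Frm S), F.OK → ∀ H : EF F, H.OK → ∀ j : Fin F.D.m, ∃ C : ℝ,
    ∀ R, H.R0 ≤ R → ∀ g ∈ ball (H.g0 (.inl j)) H.δ, ∀ c ∈ Sym.Om (2 * H.Λ) R,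
      (∀ β, ‖β‖ ≤ 1 / 4 → ‖tauE H j R g c β‖ ≤ C * Real.exp (-R ^ 2 / 4)) ∧
      ‖mainE H j R g c - (Real.exp (-R ^ 2 / 4) : ℝ) * Nm.bet (H.Y R c)‖ ≤
        C * Real.exp (-R ^ 2 / 4) * R ^ (-2 - 3 / 5 : ℝ) * ‖H.Y R c‖ ^ (-(1 / 2) : ℝ)

/-- the increment on a cylindrical end -/
def CylInc : Prop :=
  ∀ (S : Set E3) (F : Frm S), F.OK → ∀ H : EF F, H.OK → ∀ j : Fin F.D.m,
    ∀ R₁, H.R0 ≤ R₁ → ∀ g₁ ∈ ball (H.g0 (.inl j)) H.δ, ∀ c₁ ∈ Sym.Om (2 * H.Λ) R₁,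
    ∃ K ε : ℝ, 0 < ε ∧ ∀ (R R' d : ℝ) (g g' : AA) (c c' : ℂ) (U U' : E3 → ℂ) (β β' : Tilt F.D.m ℂ),
      Nr H j R₁ g₁ c₁ ε R g c → Nr H j R₁ g₁ c₁ ε R' g' c' → R ≤ R' → ‖β‖ ≤ 1 / 4 →
      GlC F (.inl j) U β (H.e j R g c) → GlC F (.inl j) U' β' (H.e j R' g' c') →
      R' - R ≤ d → ‖g' - g‖ ≤ d → ‖c' - c‖ ≤ d → ‖β' - β‖ ≤ d → d < ε →
      ‖Estr (Ye F.D (.inl j) (H.e j R' g' c')) (F.z₀ + 11) R'⁻¹ -
        Estr (Ye F.D (.inl j) (H.e j R g c)) (F.z₀ + 11) R⁻¹ +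
        Fl (F.Kc (.inl j)) (F.Y U β) (fun x => F.Y U' β' x - F.Y U β x) -
        tauE H j R g c (β j) (β' j - β j) - ((R' - R : ℝ) : ℂ) * mainE H j R g c‖ ≤ K * d ^ 2

/-- the increment on a conical end -/
def ConeInc : Prop :=
  ∀ (S : Set E3) (F : Frm S), F.OK → ∀ H : EF F, H.OK → ∀ i : Fin F.D.k,
    ∃ K ε : ℝ, 0 < ε ∧ ∀ g ∈ ball (H.g0 (.inr i)) H.δ, ∀ g' ∈ ball (H.g0 (.inr i)) H.δ,
      ∀ (U U' : E3 → ℂ) (β β' : Tilt F.D.m ℂ), GlC F (.inr i) U β (H.ei (.inr i) g) →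
      GlC F (.inr i) U' β' (H.ei (.inr i) g') → ‖g' - g‖ < ε →
      ‖Estr (Ye F.D (.inr i) (H.ei (.inr i) g')) F.ya 0 -
        Estr (Ye F.D (.inr i) (H.ei (.inr i) g)) F.ya 0 +
        Fl (F.Kc (.inr i)) (F.Y U β) (fun x => F.Y U' β' x - F.Y U β x)‖ ≤ K * ‖g' - g‖ ^ 2

end Vale.Agent.P218F.LS
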