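import Vale.Agent.P218F.LSCore

/-!
# The Gaussian area of the ends: increments, Noether fluxes
-/

open Filter Topology Matrix MeasureTheory Set Metric
open scoped ContDiff Real

set_option maxSynthPendingDepth 3

noncomputable section

namespace Vale.Agent.P218F.LS

open Core Ft Vale.Agent.P218FT

/-- the Gaussian area of a strip -/
def Est (X : P2 → C3) (s R : ℝ) : ℂ := ∫ v in Ioo s R ×ˢ Ioc 0 (2 * π), lag (jet1 X v)

/-- the Gaussian area of a half strip -/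
def Eh (X : P2 → C3) (s : ℝ) : ℂ := ∫ v in Ioi s ×ˢ Ioc 0 (2 * π), lag (jet1 X v)

/-- bounded jets with a margin -/
def Kj (M η : ℝ) : Set Jt := {q | ‖q‖ ≤ M ∧ η ≤ (gdet q.2).re}

/-- `q` extends the one-jet of the periodic map `X` to the closed strip -/
structure Ext (a b : ℝ) (X : P2 → C3) (q : P2 → Jt) : Prop where
  cont : ContinuousOn q (Icc a b ×ˢ univ)
  per : ∀ s ∈ Icc a b, q (s, 2 * π) = q (s, 0)
  c2 : ∀ y : P2, y.1 ∈ Ioo a b → ContDiffAt ℝ 2 X y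
  jet : ∀ y : P2, y.1 ∈ Ioo a b → q y = jet1 X y

/-- the flux of `v` through the circle `y.1 = s` -/
def fx (q : P2 → Jt) (v : P2 → C3) (s : ℝ) : ℂ :=
  ∫ θ in (0 : ℝ)..2 * π, mom1 (q (s, θ)) ⬝ᵥ v (s, θ)

/-- the action of a complex linear map on one-jets -/
def act (O : C3 →L[ℂ] C3) (q : Jt) : Jt := (O q.1, (O.restrictScalars ℝ).comp q.2)

theorem Kj_good {M η : ℝ} (hη : 0 < η) : Kj M η ⊆ good := fun _ hq => Or.inl (hη.trans_le hq.2)

theorem isCompact_Kj (M η : ℝ) : IsCompact (Kj M η) := by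
  have : ProperSpace Jt := FiniteDimensional.proper ℝ Jt
  refine (isCompact_closedBall (0 : Jt) M).of_isClosed_subset
    ((isClosed_le continuous_norm continuous_const).inter (isClosed_le continuous_const
      (Complex.continuous_re.comp (continuous_gdet.comp continuous_snd)))) fun q hq => ?_
  exact mem_closedBall_zero_iff.2 hq.1

theorem norm_dot_le (a b : C3) : ‖a ⬝ᵥ b‖ ≤ 3 * (‖a‖ * ‖b‖) := by
  rw [dotProduct]
  refine (norm_sum_le _ _).trans ((Finset.sum_le_card_nsmul _ _ (‖a‖ * ‖b‖) fun i _ => ?_).trans ?_)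
  · rw [norm_mul]
    exact mul_le_mul (norm_le_pi_norm a i) (norm_le_pi_norm b i) (norm_nonneg _) (norm_nonneg _)
  · simp

theorem norm_t1_le (D : P2 →L[ℝ] C3) : ‖t1 D‖ ≤ ‖D‖ := by
  simpa [t1] using D.le_opNorm (1, 0)

theorem norm_t2_le (D : P2 →L[ℝ] C3) : ‖t2 D‖ ≤ ‖D‖ := by
  simpa [t2] using D.le_opNorm (0, 1)

theorem norm_gdet_le (D : P2 →L[ℝ] C3) : ‖gdet D‖ ≤ (5 * ‖D‖ ^ 2) ^ 2 := by
  have h : ∀ a b : C3, ‖a‖ ≤ ‖D‖ → ‖b‖ ≤ ‖D‖ → ‖a ⬝ᵥ b‖ ≤ 3 * ‖D‖ ^ 2 := fun a b ha hb =>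
    (norm_dot_le a b).trans (by rw [sq]; gcongr)
  have h1 := h _ _ (norm_t1_le D) (norm_t1_le D)
  have h2 := h _ _ (norm_t2_le D) (norm_t2_le D)
  have h3 := h _ _ (norm_t1_le D) (norm_t2_le D)
  rw [gdet]
  refine (norm_sub_le _ _).trans ?_
  rw [norm_mul, norm_pow]
  have e1 := mul_le_mul h1 h2 (norm_nonneg _) (by positivity)
  have e2 := pow_le_pow_left₀ (norm_nonneg _) h3 2
  nlinarith [sq_nonneg (‖D‖ ^ 2)]

theorem norm_csqrt (z : ℂ) : ‖Complex.sqrt z‖ = √‖z‖ := by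
  rw [Complex.sqrt, Real.sqrt_eq_rpow, show (2⁻¹ : ℂ) = ((1 / 2 : ℝ) : ℂ) by norm_num,
    Complex.norm_cpow_real]

theorem norm_lag_le (q : Jt) : ‖lag q‖ ≤ Real.exp (-(q.1 ⬝ᵥ q.1).re / 4) * (5 * ‖q.2‖ ^ 2) := by
  rw [lag, norm_mul, Complex.norm_exp, norm_csqrt]
  refine mul_le_mul (le_of_eq ?_) (Real.sqrt_le_iff.2 ⟨by positivity, norm_gdet_le _⟩)
    (Real.sqrt_nonneg _) (Real.exp_nonneg _)
  simp [Complex.div_ofNat_re]

/-- the variation which only moves the first tangent vector -/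
def e1J (v : C3) : Jt := (0, (ContinuousLinearMap.fst ℝ ℝ ℝ).smulRight v)

theorem dlag_e1J (q : Jt) (v : C3) : dlag q (e1J v) = mom1 q ⬝ᵥ v := by
  simp [dlag, e1J, t1, t2]

theorem norm_e1J (v : C3) : ‖e1J v‖ ≤ ‖v‖ := by
  rw [e1J, Prod.norm_def, norm_zero, ContinuousLinearMap.norm_smulRight_apply]
  exact max_le (norm_nonneg _) (by simp)

/-! ### Strips -/

section strip

variable {a b : ℝ} {X X' W : P2 → C3} {q q' η : P2 → Jt}

theorem Ext.mono (h : Ext a b X q) {a' b' : ℝ} (ha : a ≤ a') (hb : b' ≤ b) : Ext a' b' X q :=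
  ⟨h.cont.mono (prod_mono (Icc_subset_Icc ha hb) subset_rfl),
    fun s hs => h.per s (Icc_subset_Icc ha hb hs), fun y hy => h.c2 y (Ioo_subset_Ioo ha hb hy),
    fun y hy => h.jet y (Ioo_subset_Ioo ha hb hy)⟩

theorem Ext.sub (h' : Ext a b X' q') (h : Ext a b X q) :
    Ext a b (fun y => X' y - X y) fun y => q' y - q y :=
  ⟨h'.cont.sub h.cont, fun s hs => by rw [h'.per s hs, h.per s hs],
    fun y hy => (h'.c2 y hy).sub (h.c2 y hy), fun y hy => by
      rw [h'.jet y hy, h.jet y hy, jet1_sub ((h'.c2 y hy).differentiableAt (by simp))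
        ((h.c2 y hy).differentiableAt (by simp))]⟩

theorem continuous_act (O : C3 →L[ℂ] C3) : Continuous (act O) :=
  (O.continuous.comp continuous_fst).prodMk (continuous_const.clm_comp continuous_snd)

theorem Ext.act (h : Ext a b X q) (O : C3 →L[ℂ] C3) :
    Ext a b (fun y => O (X y)) fun y => act O (q y) :=
  ⟨(continuous_act O).comp_continuousOn h.cont, fun s hs => by rw [h.per s hs],
    fun y hy => (O.restrictScalars ℝ).contDiff.contDiffAt.comp y (h.c2 y hy), fun y hy => by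
      rw [h.jet y hy]
      exact (jet1_clm (O.restrictScalars ℝ) ((h.c2 y hy).differentiableAt (by simp))).symm⟩

theorem box_sub (a b : ℝ) : (Icc a b ×ˢ Icc 0 (2 * π) : Set P2) ⊆ Icc a b ×ˢ univ :=
  prod_mono subset_rfl (subset_univ _)

theorem box_int {f : P2 → ℂ} (hf : ContinuousOn f (Icc a b ×ˢ univ)) :
    IntegrableOn f (Icc a b ×ˢ Icc 0 (2 * π)) :=
  (hf.mono (box_sub a b)).integrableOn_compact (isCompact_Icc.prod isCompact_Icc)

theorem box_bound {f : P2 → ℂ} {s : Set ℝ} (hs : s =ᵐ[volume] Icc a b) (hab : a ≤ b) {C : ℝ}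
    (hf : ∀ y : P2, y.1 ∈ s → ‖f y‖ ≤ C) :
    ‖∫ y in s ×ˢ Icc 0 (2 * π), f y‖ ≤ C * ((b - a) * (2 * π)) := by
  have e : volume (s ×ˢ Icc 0 (2 * π) : Set P2) = ENNReal.ofReal ((b - a) * (2 * π)) := by
    rw [Measure.volume_eq_prod, Measure.prod_prod, measure_congr hs, Real.volume_Icc,
      Real.volume_Icc, sub_zero, ENNReal.ofReal_mul (sub_nonneg.2 hab)]
  have := norm_setIntegral_le_of_norm_le_const (μ := volume) (s := s ×ˢ Icc 0 (2 * π)) (f := f)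
    (C := C) (by rw [e]; exact ENNReal.ofReal_lt_top) fun y hy => hf y hy.1
  rwa [Measure.real, e, ENNReal.toReal_ofReal (by have := Real.pi_pos; nlinarith)] at this

theorem Ext.est (h : Ext a b X q) :
    Est X a b = ∫ v in Icc a b ×ˢ Icc 0 (2 * π), lag (q v) := by
  rw [Est, setIntegral_congr_fun (g := fun v => lag (q v))
    (measurableSet_Ioo.prod measurableSet_Ioc) fun v hv => by simp only [h.jet v hv.1]]
  exact setIntegral_congr_set (Measure.set_prod_ae_eq Ioo_ae_eq_Icc Ioc_ae_eq_Icc)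

/-- first variation of an exact strip -/
theorem var_ext (hab : a ≤ b) (h : Ext a b X q) (hW : Ext a b W η)
    (hg : ∀ y : P2, y.1 ∈ Icc a b → q y ∈ good) (he : ∀ y : P2, y.1 ∈ Ioo a b → el (jet2 X y) = 0) :
    ∫ y in Icc a b ×ˢ Icc 0 (2 * π), dlag (q y) (η y) =
      fx q (fun y => (η y).1) b - fx q (fun y => (η y).1) a := by
  have := var_strip (Y := X) (W := W) (σ := fun _ => 0) hab Real.two_pi_pos.le h.cont hW.cont
    continuousOn_const (fun y hy => hg y hy.1) h.per (fun s hs => by rw [hW.per s hs])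
    fun y hy => ⟨h.c2 y hy.1, (hW.c2 y hy.1).differentiableAt (by simp), h.jet y hy.1,
      hW.jet y hy.1, by rw [src, he y hy.1, zero_mul]⟩
  simpa [fx] using this

theorem cOn_lag {s : Set P2} (h : ContinuousOn q s) (hg : ∀ y ∈ s, q y ∈ good) :
    ContinuousOn (fun y => lag (q y)) s := fun y hy => cwa_lag (h y hy) (hg y hy)

theorem cOn_dlag {s : Set P2} (h : ContinuousOn q s) (h' : ContinuousOn η s)
    (hg : ∀ y ∈ s, q y ∈ good) : ContinuousOn (fun y => dlag (q y) (η y)) s :=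
  fun y hy => cwa_dlag (h y hy) (h' y hy) (hg y hy)

theorem cont_circle {V : Type} [TopologicalSpace V] {f : P2 → V} {I : Set ℝ} {s : ℝ} (hs : s ∈ I)
    (h : ContinuousOn f (I ×ˢ univ)) : Continuous fun θ : ℝ => f (s, θ) :=
  h.comp_continuous (by fun_prop) fun _ => ⟨hs, trivial⟩

end strip

/-- **Increment of the area of a strip** -/
theorem strip_incr (M η L : ℝ) (hη : 0 < η) : ∃ δ C : ℝ, 0 < δ ∧ 0 ≤ C ∧
    ∀ (s R R' d : ℝ) (X X' : P2 → C3) (q q' : P2 → Jt), s ≤ R → R ≤ R' → R ≤ s + L → R' - R ≤ d →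
      d < δ → Ext s R X q → Ext s R' X' q' → (∀ y : P2, y.1 ∈ Ioo s R → el (jet2 X y) = 0) →
      (∀ y : P2, y.1 ∈ Icc s R → q y ∈ Kj M η ∧ ‖q' y - q y‖ ≤ d) →
      (∀ y : P2, y.1 ∈ Icc R R' → ‖q' y - q (R, y.2)‖ ≤ d) →
      ‖Est X' s R' - Est X s R - ((R' - R : ℝ) : ℂ) * (∫ θ in (0 : ℝ)..2 * π, lag (q (R, θ))) -
        (fx q (fun y => (q' y - q y).1) R - fx q (fun y => (q' y - q y).1) s)‖ ≤ C * d ^ 2 := by
  obtain ⟨δ, C, hδ, hC, hT⟩ := exists_taylor (isCompact_Kj M η) (Kj_good hη)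
  have hp := Real.two_pi_pos
  refine ⟨δ, C * (|L| * (2 * π)) + C * (2 * π), hδ, by positivity,
    fun s R R' d X X' q q' hs hR hL hd hdδ h h' he hb hsl => ?_⟩
  have d0 : 0 ≤ d := (sub_nonneg.2 hR).trans hd
  have hR0 : ∀ θ, q (R, θ) ∈ Kj M η := fun θ => (hb (R, θ) ⟨hs, le_rfl⟩).1
  have g : ∀ y : P2, y.1 ∈ Icc s R → q y ∈ good := fun y hy => Kj_good hη (hb y hy).1
  have g1 : ∀ y : P2, y.1 ∈ Icc s R → q' y ∈ good := fun y hy =>
    ((hT _ (hb y hy).1).2.2 _ ((hb y hy).2.trans_lt hdδ)).1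
  have g2 : ∀ y : P2, y.1 ∈ Icc R R' → q' y ∈ good := fun y hy =>
    ((hT _ (hR0 y.2)).2.2 _ ((hsl y hy).trans_lt hdδ)).1
  have h1 := h'.mono le_rfl hR
  have h2 := h'.mono hs le_rfl
  have i0 := box_int (cOn_lag h.cont fun y hy => g y hy.1)
  have i1 := box_int (cOn_lag h1.cont fun y hy => g1 y hy.1)
  have i2 := (box_int (cOn_lag h2.cont fun y hy => g2 y hy.1)).mono_set
    (prod_mono Ioc_subset_Icc_self subset_rfl)
  have i3 := box_int (cOn_dlag h.cont (h1.sub h).cont fun y hy => g y hy.1)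
  have c4 : Continuous fun θ : ℝ => lag (q (R, θ)) :=
    cont_circle (f := fun y => lag (q y)) (I := Icc s R) ⟨hs, le_rfl⟩ (cOn_lag h.cont fun y hy => g y hy.1)
  have i4 : IntegrableOn (fun y : P2 => lag (q (R, y.2))) (Ioc R R' ×ˢ Icc 0 (2 * π)) :=
    (box_int (c4.comp continuous_snd).continuousOn).mono_set
      (prod_mono Ioc_subset_Icc_self subset_rfl)
  have e1 : Est X' s R' = (∫ v in Icc s R ×ˢ Icc 0 (2 * π), lag (q' v)) +
      ∫ v in Ioc R R' ×ˢ Icc 0 (2 * π), lag (q' v) := by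
    rw [h'.est, ← Icc_union_Ioc_eq_Icc hs hR, union_prod, setIntegral_union ?_
      (measurableSet_Ioc.prod measurableSet_Icc) i1 i2]
    exact Set.disjoint_left.2 fun y a b => absurd b.1.1 (not_lt.2 a.1.2)
  have e2 : ((R' - R : ℝ) : ℂ) * (∫ θ in (0 : ℝ)..2 * π, lag (q (R, θ))) =
      ∫ v in Ioc R R' ×ˢ Icc 0 (2 * π), lag (q (R, v.2)) := by
    have := setIntegral_prod_mul (μ := (volume : Measure ℝ)) (ν := (volume : Measure ℝ))
      (fun _ : ℝ => (1 : ℂ)) (fun θ => lag (q (R, θ))) (Ioc R R') (Icc 0 (2 * π))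
    simp only [one_mul] at this
    rw [Measure.volume_eq_prod, this, intervalIntegral.integral_of_le hp.le,
      integral_Icc_eq_integral_Ioc]
    simp [Real.volume_real_Ioc_of_le hR]
  rw [e1, e2, h.est, ← var_ext hs h (h1.sub h) g he]
  have b1 := box_bound (f := fun v => lag (q' v) - lag (q v) - dlag (q v) (q' v - q v))
    (C := C * d ^ 2) EventuallyEq.rfl hs fun y hy =>
      ((hT _ (hb y hy).1).2.2 _ ((hb y hy).2.trans_lt hdδ)).2.2.trans
        (by gcongr; exact (hb y hy).2)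
  have b2 := box_bound (f := fun v => lag (q' v) - lag (q (R, v.2))) (C := C * d)
    Ioc_ae_eq_Icc hR fun y hy =>
      ((hT _ (hR0 y.2)).2.2 _ ((hsl y (Ioc_subset_Icc_self hy)).trans_lt hdδ)).2.1.trans
        (by gcongr; exact hsl y (Ioc_subset_Icc_self hy))
  rw [integral_sub (f := fun v => lag (q' v) - lag (q v)) (i1.sub i0) i3, integral_sub i1 i0] at b1
  rw [integral_sub i2 i4] at b2
  have k1 : (R - s) * (2 * π) ≤ |L| * (2 * π) := by
    gcongr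
    linarith [le_abs_self L]
  have k2 : (R' - R) * (2 * π) ≤ d * (2 * π) := by gcongr
  refine le_trans (le_of_eq ?_) ((norm_add_le _ _).trans (add_le_add
    (b1.trans (mul_le_mul_of_nonneg_left k1 (by positivity)))
    (b2.trans (mul_le_mul_of_nonneg_left k2 (by positivity))))) |>.trans (le_of_eq (by ring))
  congr 1
  ring

/-! ### Rotations -/

/-- `act` as a linear map of the first argument -/
def actL (q : Jt) : (C3 →L[ℂ] C3) →L[ℂ] Jt :=
  LinearMap.toContinuousLinearMap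
    { toFun := fun O => act O q
      map_add' := fun _ _ => Prod.ext rfl (ContinuousLinearMap.ext fun _ => rfl)
      map_smul' := fun _ _ => Prod.ext rfl (ContinuousLinearMap.ext fun _ => rfl) }

/-- the pairing with a vector -/
def dotC (m : C3) : C3 →L[ℂ] ℂ := ∑ i, m i • (ContinuousLinearMap.proj i : C3 →L[ℂ] ℂ)

theorem dotC_apply (m x : C3) : dotC m x = m ⬝ᵥ x := by simp [dotC, dotProduct]

theorem continuous_dotC : Continuous dotC :=
  continuous_finsetSum _ fun i _ => (continuous_apply i).smul continuous_const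

theorem good_act {O : C3 →L[ℂ] C3} (hO : IsRot (O.restrictScalars ℝ)) {q : Jt} (h : q ∈ good) :
    act O q ∈ good := good_rot hO h

theorem lag_act {O : C3 →L[ℂ] C3} (hO : IsRot (O.restrictScalars ℝ)) (q : Jt) :
    lag (act O q) = lag q := hO.lag q.1 q.2

theorem mom1_act {O : C3 →L[ℂ] C3} (hO : IsRot (O.restrictScalars ℝ)) (q : Jt) :
    mom1 (act O q) = O (mom1 q) := by
  have hd : ∀ x y, O x ⬝ᵥ O y = x ⬝ᵥ y := hO.dot
  have hg : gdet (act O q).2 = gdet q.2 := hO.gdet q.2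
  rw [mom1, mom1, lag_act hO, hg, map_smul, co1, co1, map_sub, map_smul, map_smul]
  exact congrArg _ (congrArg₂ _ (congrArg₂ _ (hd _ _) rfl) (congrArg₂ _ (hd _ _) rfl))

section rot

variable {T : Type} [NormedAddCommGroup T] [NormedSpace ℂ T]

/-- a bounded holomorphic family of rotations -/
structure RotFam (O : T → C3 →L[ℂ] C3) (r B : ℝ) : Prop where
  pos : 0 < r
  hol : DifferentiableOn ℂ O (ball 0 (2 * r))
  bd : ∀ β ∈ ball (0 : T) (2 * r), ‖O β‖ ≤ B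
  rot : ∀ β ∈ ball (0 : T) (2 * r), IsRot ((O β).restrictScalars ℝ)

/-- the density of the torque -/
def tauI (O : T → C3 →L[ℂ] C3) (β : T) (q : Jt) : T →L[ℂ] ℂ :=
  (dotC (mom1 (act (O β) q))).comp ((ContinuousLinearMap.apply ℂ C3 q.1).comp (fderiv ℂ O β))

/-- the torque on the circle `y.1 = R` -/
def tau (O : T → C3 →L[ℂ] C3) (β : T) (q : P2 → Jt) (R : ℝ) : T →L[ℂ] ℂ :=
  ∫ θ in (0 : ℝ)..2 * π, tauI O β (q (R, θ))

theorem tauI_apply (O : T → C3 →L[ℂ] C3) (β : T) (q : Jt) (h : T) :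
    tauI O β q h = mom1 (act (O β) q) ⬝ᵥ fderiv ℂ O β h q.1 := dotC_apply _ _

variable {O : T → C3 →L[ℂ] C3} {r B : ℝ} {β : T}

theorem RotFam.sub (_h : RotFam O r B) (hβ : ‖β‖ ≤ r) : ball β r ⊆ ball 0 (2 * r) :=
  ball_subset_ball' (by rw [dist_zero_right]; linarith)

theorem RotFam.mem (h : RotFam O r B) (hβ : ‖β‖ ≤ r) : β ∈ ball (0 : T) (2 * r) :=
  h.sub hβ (mem_ball_self h.pos)

theorem RotFam.diff (h : RotFam O r B) (hβ : ‖β‖ ≤ r) : DifferentiableAt ℂ O β :=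
  h.hol.differentiableAt (isOpen_ball.mem_nhds (h.mem hβ))

theorem RotFam.B0 (h : RotFam O r B) : 0 ≤ B :=
  (norm_nonneg _).trans (h.bd 0 (mem_ball_self (by linarith [h.pos])))

theorem RotFam.fderiv_le (h : RotFam O r B) (hβ : ‖β‖ ≤ r) : ‖fderiv ℂ O β‖ ≤ 2 * B / r :=
  Core.fderiv_le h.pos (h.hol.mono (h.sub hβ)) fun _ hq => h.bd _ (h.sub hβ hq)

theorem RotFam.dlag (h : RotFam O r B) (hβ : ‖β‖ ≤ r) {q : Jt} (hq : q ∈ good) (v : T) :
    dlag (act (O β) q) (act (fderiv ℂ O β v) q) = 0 := by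
  have g := good_act (h.rot β (h.mem hβ)) hq
  have d0 : HasFDerivAt (fun b => actL q (O b)) _ β :=
    (actL q).hasFDerivAt.comp β (h.diff hβ).hasFDerivAt
  have d1 : HasFDerivAt (fun b => lag (actL q (O b))) _ β :=
    HasFDerivAt.comp (g := lag) β (an_lag g).differentiableAt.hasFDerivAt d0
  have d2 : HasFDerivAt (fun b => lag (actL q (O b))) (0 : T →L[ℂ] ℂ) β := by
    refine (hasFDerivAt_const (lag q) β).congr_of_eventuallyEq ?_
    filter_upwards [isOpen_ball.mem_nhds (h.mem hβ)] with b hb using lag_act (h.rot b hb) q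
  rw [← fderiv_lag g]
  exact congrArg (fun L : T →L[ℂ] ℂ => L v) (d1.unique d2)

theorem RotFam.skew (h : RotFam O r B) (hβ : ‖β‖ ≤ r) (x : C3) (v : T) :
    O β x ⬝ᵥ fderiv ℂ O β v x = 0 := by
  have l : HasDerivAt (fun t : ℂ => β + t • v) v 0 := by
    simpa using ((hasDerivAt_id (0 : ℂ)).smul_const v).const_add β
  have d0 : HasDerivAt (fun t : ℂ => O (β + t • v) x) (fderiv ℂ O β v x) 0 := by
    have := (HasFDerivAt.comp_hasDerivAt_of_eq (0 : ℂ) (h.diff hβ).hasFDerivAt l (by simp))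
    simpa using this.clm_apply (hasDerivAt_const (0 : ℂ) x)
  have d1 := hasDerivAt_dot d0 d0
  have d2 : HasDerivAt (fun t : ℂ => O (β + t • v) x ⬝ᵥ O (β + t • v) x) 0 0 := by
    refine (hasDerivAt_const (0 : ℂ) (x ⬝ᵥ x)).congr_of_eventuallyEq ?_
    have : ∀ᶠ t : ℂ in 𝓝 0, β + t • v ∈ ball (0 : T) (2 * r) :=
      l.continuousAt.eventually (isOpen_ball.mem_nhds (by simpa using h.mem hβ))
    filter_upwards [this] with t ht using (h.rot _ ht).dot x x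
  have e := d1.unique d2
  simp only [zero_smul, add_zero] at e
  rw [dotProduct_comm (fderiv ℂ O β v x)] at e
  linear_combination e / 2

theorem cont_tauI (hO : IsRot ((O β).restrictScalars ℝ)) {p : ℝ → Jt} (hp : Continuous p)
    (hg : ∀ θ, p θ ∈ good) : Continuous fun θ => tauI O β (p θ) := by
  refine Continuous.clm_comp (continuous_dotC.comp ?_) (Continuous.clm_comp
    ((ContinuousLinearMap.apply ℂ C3).continuous.comp hp.fst) continuous_const)
  exact continuous_iff_continuousAt.2 fun θ => continuousWithinAt_univ _ _ |>.1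
    (cwa_mom1 ((continuous_act _).comp hp).continuousWithinAt (good_act hO (hg θ)))

theorem tau_apply (hO : IsRot ((O β).restrictScalars ℝ)) {q : P2 → Jt} {R : ℝ}
    (hp : Continuous fun θ => q (R, θ)) (hg : ∀ θ, q (R, θ) ∈ good) (v : T) :
    tau O β q R v = fx (fun y => act (O β) (q y)) (fun y => fderiv ℂ O β v (q y).1) R := by
  rw [tau, ContinuousLinearMap.intervalIntegral_apply
    ((cont_tauI hO hp hg).intervalIntegrable _ _)]
  simp only [tauI_apply, fx]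

/-- **Conservation of the torque** -/
theorem noether (h : RotFam O r B) (hβ : ‖β‖ ≤ r) {a b : ℝ} (hab : a ≤ b) {X : P2 → C3}
    {q : P2 → Jt} (hX : Ext a b X q) (hg : ∀ y : P2, y.1 ∈ Icc a b → q y ∈ good)
    (he : ∀ y : P2, y.1 ∈ Ioo a b → el (jet2 X y) = 0) : tau O β q a = tau O β q b := by
  have hO := h.rot β (h.mem hβ)
  ext v
  rw [tau_apply hO (cont_circle (left_mem_Icc.2 hab) hX.cont) fun θ => hg _ ⟨le_rfl, hab⟩,
    tau_apply hO (cont_circle (right_mem_Icc.2 hab) hX.cont) fun θ => hg _ ⟨hab, le_rfl⟩]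
  have := var_ext hab (hX.act (O β)) (hX.act (fderiv ℂ O β v)) (fun y hy => good_act hO (hg y hy))
    fun y hy => by
      have e := jet2_clm ((O β).restrictScalars ℝ) (hX.c2 y hy)
      exact (congrArg el e).trans ((el_rot hO _).trans (he y hy))
  rw [setIntegral_congr_fun (g := fun _ => 0) (measurableSet_Icc.prod measurableSet_Icc)
    fun y hy => h.dlag hβ (hg y hy.1) v, integral_zero] at this
  exact (sub_eq_zero.1 this.symm).symm

theorem exists_mom1_le (M η : ℝ) (hη : 0 < η) : ∃ C, 0 ≤ C ∧ ∀ q ∈ Kj M η, ‖mom1 q‖ ≤ C := by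
  obtain ⟨C, hC⟩ := (isCompact_Kj M η).exists_bound_of_continuousOn (f := mom1)
    fun q hq => (an_mom1 (Kj_good hη hq)).continuousAt.continuousWithinAt
  exact ⟨max C 0, le_max_right _ _, fun q hq => (hC q hq).trans (le_max_left _ _)⟩

theorem circle_bound {f : ℝ → ℂ} {C : ℝ} (h : ∀ θ, ‖f θ‖ ≤ C) :
    ‖∫ θ in (0 : ℝ)..2 * π, f θ‖ ≤ C * (2 * π) := by
  have := intervalIntegral.norm_integral_le_of_norm_le_const (a := 0) (b := 2 * π) (f := f)
    fun θ _ => h θ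
  rwa [sub_zero, abs_of_pos Real.two_pi_pos] at this

theorem cont_mom1 {p : ℝ → Jt} (hp : Continuous p) (hg : ∀ θ, p θ ∈ good) {v : ℝ → C3}
    (hv : Continuous v) : Continuous fun θ => mom1 (p θ) ⬝ᵥ v θ :=
  continuous_iff_continuousAt.2 fun θ => continuousWithinAt_univ _ _ |>.1
    (cwa_dot (cwa_mom1 hp.continuousWithinAt (hg θ)) hv.continuousWithinAt)

/-- the flux of a rotated variation -/
theorem rot_flux (h : RotFam O r B) (M η : ℝ) (hη : 0 < η) : ∃ C : ℝ, 0 ≤ C ∧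
    ∀ (β β' : T) (s d : ℝ) (q q' : P2 → Jt), ‖β‖ ≤ r → ‖β' - β‖ ≤ d → d < r → d ≤ 1 →
      (Continuous fun θ => q (s, θ)) → (Continuous fun θ => q' (s, θ)) →
      (∀ θ, q (s, θ) ∈ Kj M η ∧ ‖q' (s, θ) - q (s, θ)‖ ≤ d) →
      ‖fx (fun y => act (O β) (q y)) (fun y => O β' (q' y).1 - O β (q y).1) s -
        fx q (fun y => (q' y - q y).1) s - tau O β q s (β' - β)‖ ≤ C * d ^ 2 := by
  obtain ⟨C, hC, hm⟩ := exists_mom1_le M η hη
  have hr := h.pos
  have hB := h.B0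
  have hp := Real.two_pi_pos
  refine ⟨3 * (B * C * (4 * B / r ^ 2 * (|M| + 1) + 2 * B / r)) * (2 * π), by positivity,
    fun β β' s d q q' hβ hd hdr hd1 c c' hq => ?_⟩
  have d0 : 0 ≤ d := (norm_nonneg _).trans hd
  have hO := h.rot β (h.mem hβ)
  have g : ∀ θ, q (s, θ) ∈ good := fun θ => Kj_good hη (hq θ).1
  have ca := (continuous_act (O β)).comp c
  have i1 := (cont_mom1 ca (fun θ => good_act hO (g θ)) (((O β').continuous.comp c'.fst).sub
    ((O β).continuous.comp c.fst))).intervalIntegrable (μ := volume) 0 (2 * π)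
  have i2 := (cont_mom1 c g (c'.sub c).fst).intervalIntegrable (μ := volume) 0 (2 * π)
  have i3 := (cont_mom1 ca (fun θ => good_act hO (g θ))
    ((fderiv ℂ O β (β' - β)).continuous.comp c.fst)).intervalIntegrable (μ := volume) 0 (2 * π)
  rw [tau_apply hO c g, fx, fx, fx]
  have e := intervalIntegral.integral_sub (i1.sub i2) i3
  rw [intervalIntegral.integral_sub i1 i2] at e
  refine (le_of_eq (congrArg norm e.symm)).trans ((circle_bound (C := 3 * (B * C *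
    (4 * B / r ^ 2 * (|M| + 1) + 2 * B / r)) * d ^ 2) fun θ => ?_).trans (le_of_eq (by ring)))
  obtain ⟨h1, h2⟩ := hq θ
  simp only [Function.comp, Pi.sub_apply]
  generalize q (s, θ) = p at h1 h2
  generalize q' (s, θ) = p' at h2
  have k : mom1 (act (O β) p) ⬝ᵥ (O β' p'.1 - O β p.1) - mom1 p ⬝ᵥ (p' - p).1 -
      mom1 (act (O β) p) ⬝ᵥ fderiv ℂ O β (β' - β) p.1 = O β (mom1 p) ⬝ᵥ
        ((O β' - O β - fderiv ℂ O β (β' - β)) p'.1 + fderiv ℂ O β (β' - β) (p' - p).1) := by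
    have := hO.dot (mom1 p) (p' - p).1
    simp only [ContinuousLinearMap.coe_restrictScalars'] at this
    rw [mom1_act hO, ← this]
    simp only [Prod.fst_sub, map_sub (O β), map_sub (fderiv ℂ O β (β' - β)),
      _root_.sub_apply, dotProduct_sub, dotProduct_add]
    ring
  rw [k]
  have n0 : ‖(p' - p).1‖ ≤ d := (norm_fst_le _).trans h2
  have n1 : ‖p'.1‖ ≤ |M| + 1 := by
    have := norm_add_le p.1 (p' - p).1
    rw [Prod.fst_sub, add_sub_cancel, ← Prod.fst_sub] at this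
    linarith [norm_fst_le p, h1.1, le_abs_self M]
  have n2 : ‖O β (mom1 p)‖ ≤ B * C :=
    ((O β).le_opNorm _).trans (mul_le_mul (h.bd β (h.mem hβ)) (hm p h1) (norm_nonneg _) hB)
  have n3 : ‖O β' - O β - fderiv ℂ O β (β' - β)‖ ≤ 4 * B / r ^ 2 * d ^ 2 :=
    (rem_le (h.hol.mono (h.sub hβ)) (fun _ hq => h.bd _ (h.sub hβ hq))
      (mem_ball_iff_norm.2 (hd.trans_lt hdr))).trans (by gcongr)
  have n4 : ‖fderiv ℂ O β (β' - β)‖ ≤ 2 * B / r * d :=
    ((fderiv ℂ O β).le_opNorm _).trans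
      (mul_le_mul (h.fderiv_le hβ) hd (norm_nonneg _) (by positivity))
  have n5 := (ContinuousLinearMap.le_opNorm _ p'.1).trans
    (mul_le_mul n3 n1 (norm_nonneg _) (by positivity))
  have n6 := (ContinuousLinearMap.le_opNorm _ (p' - p).1).trans
    (mul_le_mul n4 n0 (norm_nonneg _) (by positivity))
  refine (norm_dot_le _ _).trans (le_trans ?_ (le_of_eq (by ring :
    3 * (B * C * (4 * B / r ^ 2 * d ^ 2 * (|M| + 1) + 2 * B / r * d * d)) = _)))
  gcongr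
  exact (norm_add_le _ _).trans (add_le_add n5 n6)

end rot

/-- the jet on the trace circle, seen from the core -/
theorem glue_jet {s R ε θ : ℝ} {X k : P2 → C3} {q : P2 → Jt} (hX : Ext s R X q) (hs : s < R)
    (hε : 0 < ε) (O : C3 →L[ℂ] C3) (hk : ContDiffAt ℝ 1 k (0, θ))
    (hg : ∀ y : P2, y.1 ∈ Ioo 0 ε → k y = O (X (s + y.1, y.2))) :
    jet1 k (0, θ) = act O (q (s, θ)) := by
  have l1 : Tendsto (fun t : ℝ => jet1 k (t, θ)) (𝓝[>] 0) (𝓝 (jet1 k (0, θ))) :=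
    ((continuousAt_jet1 hk).tendsto.comp
      (show ContinuousAt (fun t : ℝ => ((t, θ) : P2)) 0 by fun_prop)).mono_left nhdsWithin_le_nhds
  have hm : Ioo 0 (min ε (R - s)) ∈ 𝓝[>] (0 : ℝ) := Ioo_mem_nhdsGT (lt_min hε (sub_pos.2 hs))
  have l2 : Tendsto (fun t : ℝ => act O (q (s + t, θ))) (𝓝[>] 0) (𝓝 (act O (q (s, θ)))) := by
    refine ((continuous_act O).tendsto _).comp
      ((hX.cont (s, θ) ⟨⟨le_rfl, hs.le⟩, trivial⟩).tendsto.comp (tendsto_nhdsWithin_iff.2 ⟨?_, ?_⟩))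
    · have : ContinuousAt (fun t : ℝ => ((s + t, θ) : P2)) 0 := by fun_prop
      simpa using this.tendsto.mono_left nhdsWithin_le_nhds
    · filter_upwards [hm] with t ht
      exact ⟨⟨by linarith [ht.1], by linarith [ht.2, min_le_right ε (R - s)]⟩, trivial⟩
  refine tendsto_nhds_unique (l1.congr' ?_) l2
  filter_upwards [hm] with t ht
  have h1 : ((s + t, θ) : P2).1 ∈ Ioo s R :=
    ⟨by linarith [ht.1], by linarith [ht.2, min_le_right ε (R - s)]⟩
  have e : k =ᶠ[𝓝 (t, θ)] fun y => (fun z => O (X z)) (y + (s, 0)) := by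
    have : ∀ᶠ y : P2 in 𝓝 (t, θ), y.1 ∈ Ioo 0 ε := continuousAt_fst.eventually
      (Ioo_mem_nhds ht.1 (ht.2.trans_le (min_le_left _ _)))
    filter_upwards [this] with y hy
    rw [hg y hy]
    congr 2
    ext <;> simp [add_comm]
  have e2 : ((t, θ) : P2) + (s, 0) = (s + t, θ) := by ext <;> simp [add_comm]
  rw [jet1_congr e, (hX.act O).jet _ h1, jet1, jet1,
    fderiv_comp_add_right (f := fun z => O (X z)), e2]

/-! ### Cylindrical ends -/

/-- the free boundary condition for the axis `c` -/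
structure Neu (c : C3) (q : Jt) : Prop where
  one : t1 q.2 = c
  two : c ⬝ᵥ t2 q.2 = 0

theorem Neu.mom1 {c : C3} (hc : c ⬝ᵥ c = 1) {q : Jt} (h : Neu c q) (hg : q ∈ good) :
    mom1 q = lag q • c := by
  have h0 := good_ne hg
  have e : gdet q.2 = t2 q.2 ⬝ᵥ t2 q.2 := by rw [gdet, h.one, h.two, hc]; ring
  rw [LS.mom1, co1, h.one, h.two, zero_smul, sub_zero, smul_smul, ← e, div_mul_cancel₀ _ h0]

/-- Gaussian decay of the Lagrangian along the axis -/
theorem norm_lag_cyl {c : C3} (hc : c ⬝ᵥ c = 1) {z M : ℝ} {q : Jt} (h1 : c ⬝ᵥ q.1 = z)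
    (h2 : ‖q.1 - (z : ℂ) • c‖ ≤ M) (h3 : ‖q.2‖ ≤ M) :
    ‖lag q‖ ≤ Real.exp (3 * M ^ 2 / 4) * (5 * M ^ 2) * Real.exp (-z ^ 2 / 4) := by
  refine (norm_lag_le q).trans ?_
  have e : q.1 ⬝ᵥ q.1 = (q.1 - (z : ℂ) • c) ⬝ᵥ (q.1 - (z : ℂ) • c) + ((z ^ 2 : ℝ) : ℂ) := by
    simp only [sub_dotProduct, dotProduct_sub, smul_dotProduct, dotProduct_smul, smul_eq_mul, hc,
      h1, dotProduct_comm q.1 c]
    push_cast
    ring
  have b : ‖(q.1 - (z : ℂ) • c) ⬝ᵥ (q.1 - (z : ℂ) • c)‖ ≤ 3 * M ^ 2 :=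
    (norm_dot_le _ _).trans (by rw [← sq]; gcongr)
  have b2 := (abs_le.1 ((Complex.abs_re_le_norm _).trans b)).1
  rw [mul_right_comm, ← Real.exp_add, e, Complex.add_re, Complex.ofReal_re]
  gcongr
  linarith

theorem integrable_gauss : Integrable fun z : ℝ => Real.exp (-z ^ 2 / 4) := by
  have := integrable_exp_neg_mul_sq (b := 1 / 4) (by norm_num)
  refine this.congr (Eventually.of_forall fun z => ?_)
  simp only
  congr 1
  ring

theorem prod_bound {f : P2 → ℂ} {s : Set ℝ} (hs : MeasurableSet s) {g : ℝ → ℝ}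
    (hg : IntegrableOn g s) (hf : ∀ y : P2, y.1 ∈ s → ‖f y‖ ≤ g y.1) :
    IntegrableOn (fun y : P2 => g y.1) (s ×ˢ Ioc 0 (2 * π)) ∧
      ‖∫ y in s ×ˢ Ioc 0 (2 * π), f y‖ ≤ (∫ z in s, g z) * (2 * π) := by
  have i : IntegrableOn (fun y : P2 => g y.1) (s ×ˢ Ioc 0 (2 * π)) := by
    rw [IntegrableOn, Measure.volume_eq_prod, ← Measure.prod_restrict]
    exact Integrable.comp_fst hg _
  refine ⟨i, (norm_integral_le_of_norm_le i ?_).trans (le_of_eq ?_)⟩
  · filter_upwards [ae_restrict_mem (hs.prod measurableSet_Ioc)] with y hy using hf y hy.1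
  · have := setIntegral_prod_mul (μ := (volume : Measure ℝ)) (ν := (volume : Measure ℝ))
      g (fun _ : ℝ => (1 : ℝ)) s (Ioc 0 (2 * π))
    simp only [mul_one] at this
    rw [Measure.volume_eq_prod, this]
    simp [Real.volume_real_Ioc_of_le Real.two_pi_pos.le]

/-- the area of a cylindrical end is bounded independently of its length -/
theorem est_bound (M : ℝ) : ∃ C : ℝ, ∀ (c : C3) (s R : ℝ) (X : P2 → C3), c ⬝ᵥ c = 1 →
    (∀ y : P2, y.1 ∈ Ioo s R → c ⬝ᵥ X y = y.1 ∧ ‖X y - (y.1 : ℂ) • c‖ ≤ M ∧ ‖fderiv ℝ X y‖ ≤ M) →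
      ‖Est X s R‖ ≤ C := by
  refine ⟨(∫ z : ℝ, Real.exp (3 * M ^ 2 / 4) * (5 * M ^ 2) * Real.exp (-z ^ 2 / 4)) * (2 * π),
    fun c s R X hc h => ?_⟩
  have i := integrable_gauss.const_mul (Real.exp (3 * M ^ 2 / 4) * (5 * M ^ 2))
  refine (prod_bound measurableSet_Ioo i.integrableOn fun y hy =>
    norm_lag_cyl hc (q := jet1 X y) (h y hy).1 (h y hy).2.1 (h y hy).2.2).2.trans ?_
  exact mul_le_mul_of_nonneg_right (setIntegral_le_integral i
    (Eventually.of_forall fun z => by positivity)) Real.two_pi_pos.le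

section cyl

variable {T : Type} [NormedAddCommGroup T] [NormedSpace ℂ T] {O : T → C3 →L[ℂ] C3} {r B : ℝ}

/-- the torque at the free boundary is exponentially small -/
theorem tau_bound (h : RotFam O r B) (M : ℝ) : ∃ C : ℝ, ∀ (c : C3) (β : T) (R : ℝ) (q : P2 → Jt),
    c ⬝ᵥ c = 1 → ‖c‖ ≤ M → ‖β‖ ≤ r → (∀ θ, q (R, θ) ∈ good ∧ Neu c (q (R, θ)) ∧
      c ⬝ᵥ (q (R, θ)).1 = R ∧ ‖(q (R, θ)).1 - (R : ℂ) • c‖ ≤ M ∧ ‖(q (R, θ)).2‖ ≤ M) →
      ‖tau O β q R‖ ≤ C * Real.exp (-R ^ 2 / 4) := by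
  have hr := h.pos
  have hB := h.B0
  refine ⟨Real.exp (3 * M ^ 2 / 4) * (5 * M ^ 2) * (3 * (B * M * (2 * B / r * M))) * (2 * π),
    fun c β R q hc hM hβ hq => ?_⟩
  have M0 : 0 ≤ M := (norm_nonneg _).trans hM
  have := intervalIntegral.norm_integral_le_of_norm_le_const (a := 0) (b := 2 * π)
    (f := fun θ => tauI O β (q (R, θ))) (C := Real.exp (3 * M ^ 2 / 4) * (5 * M ^ 2) *
      Real.exp (-R ^ 2 / 4) * (3 * (B * M * (2 * B / r * M)))) fun θ _ => ?_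
  · rw [sub_zero, abs_of_pos Real.two_pi_pos] at this
    exact this.trans (le_of_eq (by ring))
  obtain ⟨a1, a2, a3, a4, a5⟩ := hq θ
  generalize q (R, θ) = p at a1 a2 a3 a4 a5
  refine ContinuousLinearMap.opNorm_le_bound _ (by positivity) fun v => ?_
  have e : fderiv ℂ O β v p.1 = fderiv ℂ O β v (p.1 - (R : ℂ) • c) + (R : ℂ) • fderiv ℂ O β v c := by
    rw [map_sub, map_smul, sub_add_cancel]
  rw [tauI_apply, mom1_act (h.rot β (h.mem hβ)), a2.mom1 hc a1, map_smul, smul_dotProduct, e,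
    dotProduct_add, dotProduct_smul, h.skew hβ, smul_zero, add_zero, smul_eq_mul, norm_mul,
    mul_assoc (_ * _)]
  refine mul_le_mul (norm_lag_cyl hc a3 a4 a5) ((norm_dot_le _ _).trans ?_) (norm_nonneg _)
    (by positivity)
  have n1 : ‖O β c‖ ≤ B * M :=
    ((O β).le_opNorm _).trans (mul_le_mul (h.bd β (h.mem hβ)) hM (norm_nonneg _) hB)
  have n2 : ‖fderiv ℂ O β v‖ ≤ 2 * B / r * ‖v‖ :=
    ((fderiv ℂ O β).le_opNorm _).trans (by gcongr; exact h.fderiv_le hβ)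
  have n3 := (ContinuousLinearMap.le_opNorm _ (p.1 - (R : ℂ) • c)).trans
    (mul_le_mul n2 a4 (norm_nonneg _) (by positivity))
  refine le_trans ?_ (le_of_eq (by ring : 3 * (B * M * (2 * B / r * ‖v‖ * M)) = _))
  gcongr

theorem Fl_eq {s R R' ε : ℝ} {X X' : P2 → C3} {q q' : P2 → Jt} (hX : Ext s R X q)
    (hX' : Ext s R' X' q') (hs : s < R) (hs' : s < R') (hε : 0 < ε) (A A' : C3 →L[ℂ] C3)
    {k : P2 → E3} {Y Y' : E3 → C3} (hk : ∀ θ, ContDiffAt ℝ 1 (fun z => Y (k z)) (0, θ) ∧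
      ContDiffAt ℝ 1 (fun z => Y' (k z)) (0, θ))
    (hg : ∀ y : P2, y.1 ∈ Ioo 0 ε → Y (k y) = A (X (s + y.1, y.2)) ∧
      Y' (k y) = A' (X' (s + y.1, y.2))) :
    Fl k Y (fun x => Y' x - Y x) =
      fx (fun y => act A (q y)) (fun y => A' (q' y).1 - A (q y).1) s := by
  refine intervalIntegral.integral_congr fun θ _ => ?_
  have e := glue_jet hX hs hε A (hk θ).1 fun y hy => (hg y hy).1
  have e' := glue_jet hX' hs' hε A' (hk θ).2 fun y hy => (hg y hy).2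
  simp only [flux1, e]
  rw [show Y' (k (0, θ)) = A' (q' (s, θ)).1 from congrArg Prod.fst e',
    show Y (k (0, θ)) = A (q (s, θ)).1 from congrArg Prod.fst e]

/-- **Increment of the area of a cylindrical end** -/
theorem cyl_incr (h : RotFam O r B) (M η L : ℝ) (hη : 0 < η) : ∃ δ C : ℝ, 0 < δ ∧ 0 ≤ C ∧
    ∀ (c : C3) (s R R' d ε : ℝ) (X X' : P2 → C3) (q q' : P2 → Jt) (β β' : T) (k : P2 → E3)
      (Y Y' : E3 → C3), c ⬝ᵥ c = 1 → s < R → R ≤ R' → R ≤ s + L → R' - R ≤ d → d < δ → 0 < ε →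
      ‖β‖ ≤ r → ‖β' - β‖ ≤ d → Ext s R X q → Ext s R' X' q' →
      (∀ y : P2, y.1 ∈ Ioo s R → el (jet2 X y) = 0) →
      (∀ y : P2, y.1 ∈ Icc s R → q y ∈ Kj M η ∧ ‖q' y - q y‖ ≤ d) →
      (∀ y : P2, y.1 ∈ Icc R R' → ‖q' y - q (R, y.2)‖ ≤ d) →
      (∀ θ, Neu c (q (R, θ)) ∧ c ⬝ᵥ (q' (R, θ)).1 = c ⬝ᵥ (q (R, θ)).1) →
      (∀ θ, ContDiffAt ℝ 1 (fun z => Y (k z)) (0, θ) ∧ ContDiffAt ℝ 1 (fun z => Y' (k z)) (0, θ)) →
      (∀ y : P2, y.1 ∈ Ioo 0 ε → Y (k y) = O β (X (s + y.1, y.2)) ∧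
        Y' (k y) = O β' (X' (s + y.1, y.2))) →
      ‖Est X' s R' - Est X s R + Fl k Y (fun x => Y' x - Y x) - tau O β q R (β' - β) -
        ((R' - R : ℝ) : ℂ) * ∫ θ in (0 : ℝ)..2 * π, lag (q (R, θ))‖ ≤ C * d ^ 2 := by
  obtain ⟨δ, C₁, hδ, h1, H1⟩ := strip_incr M η L hη
  obtain ⟨C₂, h2, H2⟩ := rot_flux h M η hη
  refine ⟨min δ (min r 1), C₁ + C₂, lt_min hδ (lt_min h.pos one_pos), by positivity,
    fun c s R R' d ε X X' q q' β β' k Y Y' hc hs hR hL hd hdδ hε hβ hβ' hX hX' he hb hsl hN hk hg =>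
      ?_⟩
  have a1 := H1 s R R' d X X' q q' hs.le hR hL hd (hdδ.trans_le (min_le_left _ _)) hX hX' he hb hsl
  have a2 := H2 β β' s d q q' hβ hβ' (hdδ.trans_le ((min_le_right _ _).trans (min_le_left _ _)))
    (hdδ.le.trans ((min_le_right _ _).trans (min_le_right _ _)))
    (cont_circle (left_mem_Icc.2 hs.le) hX.cont)
    (cont_circle (left_mem_Icc.2 (hs.le.trans hR)) hX'.cont) fun θ => hb (s, θ) ⟨le_rfl, hs.le⟩
  have a3 : fx q (fun y => (q' y - q y).1) R = 0 := by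
    rw [fx, intervalIntegral.integral_congr (g := fun _ => 0) fun θ _ => ?_,
      intervalIntegral.integral_zero]
    simp only
    rw [(hN θ).1.mom1 hc (Kj_good hη (hb (R, θ) ⟨hs.le, le_rfl⟩).1), smul_dotProduct, Prod.fst_sub,
      dotProduct_sub, (hN θ).2, sub_self, smul_zero]
  rw [Fl_eq hX hX' hs (hs.trans_le hR) hε _ _ hk hg,
    ← noether h hβ hs.le hX (fun y hy => Kj_good hη (hb y hy).1) he, add_mul]
  rw [a3] at a1
  refine le_trans (le_of_eq ?_) ((norm_add_le _ _).trans (add_le_add a1 a2))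
  congr 1
  ring

end cyl

/-! ### Conical ends -/

/-- normalised jets of conical ends -/
def Kc (M η : ℝ) : Set Jt := Kj M η ∩ {q | 1 / 2 ≤ (q.1 ⬝ᵥ q.1).re}

theorem gdet_smul (t : ℂ) (D : P2 →L[ℝ] C3) : gdet (t • D) = t ^ 4 * gdet D := by
  simp only [gdet, t1, t2, _root_.smul_apply, smul_dotProduct, dotProduct_smul, smul_eq_mul]
  ring

theorem good_smul {t : ℝ} (ht : 0 < t) {q : Jt} (h : q ∈ good) : (t : ℂ) • q ∈ good := by
  have e : gdet ((t : ℂ) • q).2 = ((t ^ 4 : ℝ) : ℂ) * gdet q.2 := by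
    rw [Prod.smul_snd, gdet_smul]; push_cast; rfl
  have h4 : 0 < t ^ 4 := by positivity
  show gdet ((t : ℂ) • q).2 ∈ Complex.slitPlane
  rw [e, Complex.mem_slitPlane_iff, Complex.re_ofReal_mul, Complex.im_ofReal_mul]
  exact h.imp (mul_pos h4) (mul_ne_zero h4.ne')

theorem gauss_le {t : ℝ} (ht : 0 < t) : Real.exp (-(t ^ 2 / 4) / 4) * t ^ 2 ≤ 512 / t ^ 2 := by
  have h1 := Real.pow_div_factorial_le_exp (t ^ 2 / 16) (by positivity) 2
  rw [show -(t ^ 2 / 4) / 4 = -(t ^ 2 / 16) by ring, Real.exp_neg, le_div_iff₀ (by positivity),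
    mul_assoc, inv_mul_le_iff₀ (Real.exp_pos _)]
  norm_num [Nat.factorial] at h1
  nlinarith

theorem taylor_cone (M η : ℝ) (hη : 0 < η) : ∃ δ C : ℝ, 0 < δ ∧ 0 ≤ C ∧ ∀ t : ℝ, 0 < t →
    ∀ q ∈ Kc M η, (∀ ζ, ‖dlag ((t : ℂ) • q) ((t : ℂ) • ζ)‖ ≤ C / t ^ 2 * ‖ζ‖) ∧
      ∀ q', ‖q' - q‖ < δ → (t : ℂ) • q' ∈ good ∧ ‖lag ((t : ℂ) • q')‖ ≤ C / t ^ 2 ∧
        ‖lag ((t : ℂ) • q') - lag ((t : ℂ) • q) - dlag ((t : ℂ) • q) ((t : ℂ) • (q' - q))‖ ≤
          C / t ^ 2 * ‖q' - q‖ ^ 2 := by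
  have cd : Continuous fun q : Jt => (q.1 ⬝ᵥ q.1).re :=
    Complex.continuous_re.comp (continuous_fst.dotProduct continuous_fst)
  have hK : IsCompact (Kc M η) :=
    (isCompact_Kj M η).inter_right (isClosed_le continuous_const cd)
  obtain ⟨δ₀, hδ₀, hs⟩ := hK.exists_cthickening_subset_open
    (isOpen_good.inter (isOpen_lt (continuous_const (y := (1 / 4 : ℝ))) cd))
    fun q hq => ⟨Kj_good hη hq.1,
      lt_of_lt_of_le (show (1 / 4 : ℝ) < 1 / 2 by norm_num) hq.2⟩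
  set δ := min δ₀ 1 with hδd
  have hδ : 0 < δ := lt_min hδ₀ one_pos
  set A := 512 * (5 * (|M| + 1) ^ 2) with hA
  have A0 : 0 ≤ A := by positivity
  have a1 : 0 ≤ 2 * A / δ := by positivity
  have a2 : 0 ≤ 4 * A / δ ^ 2 := by positivity
  refine ⟨δ, A + 2 * A / δ + 4 * A / δ ^ 2, hδ, by positivity, fun t ht q hq => ?_⟩
  have hb : ∀ p ∈ ball q δ, p ∈ good ∧ 1 / 4 < (p.1 ⬝ᵥ p.1).re := fun p hp =>
    hs (closedBall_subset_cthickening hq δ₀
      (ball_subset_closedBall (ball_subset_ball (min_le_left _ _) hp)))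
  let L : Jt →L[ℂ] Jt := (t : ℂ) • ContinuousLinearMap.id ℂ Jt
  have hf : ∀ p ∈ ball q δ, HasFDerivAt (fun p => lag ((t : ℂ) • p))
      ((fderiv ℂ lag ((t : ℂ) • p)).comp L) p := fun p hp =>
    HasFDerivAt.comp (g := lag) (f := L) p
      (an_lag (good_smul ht (hb p hp).1)).differentiableAt.hasFDerivAt L.hasFDerivAt
  have hd : DifferentiableOn ℂ (fun p => lag ((t : ℂ) • p)) (ball q δ) := fun p hp =>
    (hf p hp).differentiableAt.differentiableWithinAt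
  have hB : ∀ p ∈ ball q δ, ‖lag ((t : ℂ) • p)‖ ≤ A / t ^ 2 := fun p hp => by
    refine (norm_lag_le _).trans ?_
    have n1 : ‖p.2‖ ≤ |M| + 1 := by
      have b1 := mem_ball_iff_norm.1 hp
      have b2 := norm_add_le q (p - q)
      rw [add_sub_cancel] at b2
      linarith [norm_snd_le p, hq.1.1, le_abs_self M, min_le_right δ₀ 1]
    have e1 : (((t : ℂ) • p).1 ⬝ᵥ ((t : ℂ) • p).1).re = t ^ 2 * (p.1 ⬝ᵥ p.1).re := by
      rw [Prod.smul_fst, smul_dotProduct, dotProduct_smul, smul_eq_mul, smul_eq_mul,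
        Complex.re_ofReal_mul, Complex.re_ofReal_mul]
      ring
    rw [e1, Prod.smul_snd, norm_smul, Complex.norm_real, Real.norm_of_nonneg ht.le]
    calc _ ≤ Real.exp (-(t ^ 2 / 4) / 4) * (5 * (t * (|M| + 1)) ^ 2) := by
          gcongr
          nlinarith [(hb p hp).2, sq_nonneg t]
      _ = Real.exp (-(t ^ 2 / 4) / 4) * t ^ 2 * (5 * (|M| + 1) ^ 2) := by ring
      _ ≤ 512 / t ^ 2 * (5 * (|M| + 1) ^ 2) := by gcongr; exact gauss_le ht
      _ = A / t ^ 2 := by rw [hA]; ring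
  have hq0 := mem_ball_self (x := q) hδ
  have hD : ∀ ζ, dlag ((t : ℂ) • q) ((t : ℂ) • ζ) = fderiv ℂ (fun p => lag ((t : ℂ) • p)) q ζ :=
    fun ζ => by rw [(hf q hq0).fderiv, ← fderiv_lag (good_smul ht (hb q hq0).1)]; rfl
  refine ⟨fun ζ => ?_, fun q' hq' => ?_⟩
  · rw [hD]
    refine (ContinuousLinearMap.le_opNorm _ ζ).trans ?_
    gcongr
    refine (fderiv_le hδ hd hB).trans (le_trans (le_of_eq (by ring : _ = 2 * A / δ / t ^ 2)) ?_)
    gcongr
    linarith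
  · have hm : q' ∈ ball q δ := mem_ball_iff_norm.2 hq'
    refine ⟨good_smul ht (hb q' hm).1, (hB q' hm).trans (by gcongr; linarith), ?_⟩
    rw [hD]
    refine (rem_le hd hB hm).trans (mul_le_mul_of_nonneg_right ?_ (sq_nonneg _))
    refine le_trans (le_of_eq (by ring : _ = 4 * A / δ ^ 2 / t ^ 2)) ?_
    gcongr
    linarith

/-- the scaling factor of the cone chart -/
def ey (y : P2) : ℂ := (Real.exp y.1 : ℝ)

theorem div_exp_sq (C z : ℝ) : C / Real.exp z ^ 2 = C * Real.exp (-2 * z) := by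
  rw [div_eq_mul_inv, ← Real.exp_nat_mul, ← Real.exp_neg]
  congr 2
  push_cast
  ring

theorem int_exp (C s : ℝ) : IntegrableOn (fun z => C * Real.exp (-2 * z)) (Ioi s) :=
  (integrableOn_exp_mul_Ioi (by norm_num) s).const_mul C

theorem half_bound {f : P2 → ℂ} {s C : ℝ} (hc : ContinuousOn f (Ioi s ×ˢ univ))
    (hf : ∀ y : P2, s < y.1 → ‖f y‖ ≤ C / Real.exp y.1 ^ 2) :
    IntegrableOn f (Ioi s ×ˢ Ioc 0 (2 * π)) ∧
      ‖∫ y in Ioi s ×ˢ Ioc 0 (2 * π), f y‖ ≤ C * (π * Real.exp (-2 * s)) := by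
  have hm : MeasurableSet (Ioi s ×ˢ Ioc 0 (2 * π) : Set P2) :=
    measurableSet_Ioi.prod measurableSet_Ioc
  obtain ⟨h1, h2⟩ := prod_bound (f := f) measurableSet_Ioi (int_exp C s)
    fun y hy => by rw [← div_exp_sq]; exact hf y hy
  refine ⟨h1.mono' ((hc.mono (prod_mono subset_rfl (subset_univ _))).aestronglyMeasurable hm) ?_,
    h2.trans (le_of_eq ?_)⟩
  · filter_upwards [ae_restrict_mem hm] with y hy
    rw [← div_exp_sq]
    exact hf y hy.1
  · rw [integral_const_mul, integral_exp_mul_Ioi (by norm_num)]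
    ring

theorem cOn_half {V : Type} [TopologicalSpace V] {f : P2 → V} {s : ℝ}
    (h : ∀ b, ContinuousOn f (Icc s b ×ˢ univ)) : ContinuousOn f (Ioi s ×ˢ univ) := fun y hy =>
  ((h (y.1 + 1)).continuousAt (prod_mem_nhds (Icc_mem_nhds hy.1 (by linarith))
    univ_mem)).continuousWithinAt

theorem eh_eq {s : ℝ} {X : P2 → C3} {q : P2 → Jt} (h : ∀ b, Ext s b X q) :
    Eh X s = ∫ v in Ioi s ×ˢ Ioc 0 (2 * π), lag (q v) :=
  setIntegral_congr_fun (measurableSet_Ioi.prod measurableSet_Ioc) fun v hv => by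
    simp only [(h (v.1 + 1)).jet v ⟨hv.1, by linarith⟩]

/-- first variation of an exact half strip -/
theorem var_half {s C : ℝ} {X W : P2 → C3} {q ζ : P2 → Jt} (h : ∀ b, Ext s b X q)
    (hW : ∀ b, Ext s b W ζ) (hg : ∀ y : P2, s ≤ y.1 → q y ∈ good)
    (he : ∀ y : P2, s < y.1 → el (jet2 X y) = 0)
    (hi : IntegrableOn (fun y => dlag (q y) (ζ y)) (Ioi s ×ˢ Ioc 0 (2 * π)))
    (hf : ∀ y : P2, s < y.1 → ‖mom1 (q y) ⬝ᵥ (ζ y).1‖ ≤ C / Real.exp y.1 ^ 2) :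
    ∫ y in Ioi s ×ˢ Ioc 0 (2 * π), dlag (q y) (ζ y) = -fx q (fun y => (ζ y).1) s := by
  have hu : ⋃ b : ℝ, (Ioc s b ×ˢ Ioc 0 (2 * π) : Set P2) = Ioi s ×ˢ Ioc 0 (2 * π) := by
    ext y
    simp only [mem_iUnion, mem_prod, mem_Ioc, mem_Ioi]
    exact ⟨fun ⟨_, a, b⟩ => ⟨a.1, b⟩, fun ⟨a, b⟩ => ⟨y.1, ⟨a, le_rfl⟩, b⟩⟩
  have l1 := tendsto_setIntegral_of_monotone (μ := volume) (f := fun y => dlag (q y) (ζ y))
    (s := fun b : ℝ => (Ioc s b ×ˢ Ioc 0 (2 * π) : Set P2))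
    (fun _ => measurableSet_Ioc.prod measurableSet_Ioc)
    (fun _ _ hb => prod_mono (Ioc_subset_Ioc_right hb) subset_rfl) (by rw [hu]; exact hi)
  rw [hu] at l1
  have l2 : Tendsto (fun b => fx q (fun y => (ζ y).1) b) atTop (𝓝 0) := by
    have : Tendsto (fun b : ℝ => C / Real.exp b ^ 2 * (2 * π)) atTop (𝓝 (0 * (2 * π))) :=
      (tendsto_const_nhds.div_atTop ((tendsto_pow_atTop two_ne_zero).comp
        Real.tendsto_exp_atTop)).mul_const _
    rw [zero_mul] at this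
    refine squeeze_zero_norm' ?_ this
    filter_upwards [eventually_gt_atTop s] with b hb using circle_bound fun θ => hf (b, θ) hb
  have l3 := l2.sub_const (fx q (fun y => (ζ y).1) s)
  rw [zero_sub] at l3
  refine tendsto_nhds_unique l1 (l3.congr' ?_)
  filter_upwards [eventually_ge_atTop s] with b hb
  rw [← var_ext hb (h b) (hW b) (fun y hy => hg y hy.1) fun y hy => he y hy.1]
  exact setIntegral_congr_set (Measure.set_prod_ae_eq Ioc_ae_eq_Icc Ioc_ae_eq_Icc).symm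

theorem e1J_smul (t : ℂ) (v : C3) : e1J (t • v) = t • e1J v :=
  Prod.ext (smul_zero t).symm (ContinuousLinearMap.ext fun u => smul_comm u.1 t v)

/-- the area of a conical end is bounded -/
theorem eh_bound (M η : ℝ) (hη : 0 < η) : ∃ C : ℝ, ∀ (s : ℝ) (X : P2 → C3) (p : P2 → Jt), 0 ≤ s →
    (∀ b, Ext s b X fun y => ey y • p y) → (∀ y : P2, s < y.1 → p y ∈ Kc M η) →
      IntegrableOn (fun v => lag (jet1 X v)) (Ioi s ×ˢ Ioc 0 (2 * π)) ∧ ‖Eh X s‖ ≤ C := by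
  obtain ⟨δ, C, hδ, hC, hT⟩ := taylor_cone M η hη
  refine ⟨C * π, fun s X p hs h hp => ?_⟩
  have k := fun (y : P2) (hy : s < y.1) =>
    (hT _ (Real.exp_pos y.1) _ (hp y hy)).2 (p y) (by rwa [sub_self, norm_zero])
  obtain ⟨h1, h2⟩ := half_bound (f := fun y => lag (ey y • p y))
    (cOn_lag (cOn_half fun b => (h b).cont) fun y hy => (k y hy.1).1) fun y hy => (k y hy).2.1
  refine ⟨h1.congr_fun (fun v hv => ?_) (measurableSet_Ioi.prod measurableSet_Ioc), ?_⟩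
  · simp only [← (h (v.1 + 1)).jet v ⟨hv.1, by linarith⟩]
  · rw [eh_eq h]
    refine h2.trans (mul_le_mul_of_nonneg_left ?_ hC)
    exact mul_le_of_le_one_right Real.pi_pos.le (Real.exp_le_one_iff.2 (by linarith))

/-- **Increment of the area of a conical end** -/
theorem cone_incr (M η : ℝ) (hη : 0 < η) : ∃ δ C : ℝ, 0 < δ ∧ 0 ≤ C ∧
    ∀ (s d ε : ℝ) (X X' : P2 → C3) (p p' : P2 → Jt) (k : P2 → E3) (Y Y' : E3 → C3), 0 ≤ s →
      d < δ → 0 < ε → (∀ b, Ext s b X fun y => ey y • p y) → (∀ b, Ext s b X' fun y => ey y • p' y) →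
      (∀ y : P2, s < y.1 → el (jet2 X y) = 0) →
      (∀ y : P2, s ≤ y.1 → p y ∈ Kc M η ∧ ‖p' y - p y‖ ≤ d) →
      (∀ θ, ContDiffAt ℝ 1 (fun z => Y (k z)) (0, θ) ∧ ContDiffAt ℝ 1 (fun z => Y' (k z)) (0, θ)) →
      (∀ y : P2, y.1 ∈ Ioo 0 ε → Y (k y) = X (s + y.1, y.2) ∧ Y' (k y) = X' (s + y.1, y.2)) →
      ‖Eh X' s - Eh X s + Fl k Y (fun x => Y' x - Y x)‖ ≤ C * d ^ 2 := by
  obtain ⟨δ, C, hδ, hC, hT⟩ := taylor_cone M η hη
  refine ⟨δ, C * π, hδ, by positivity, fun s d ε X X' p p' k Y Y' hs hd hε h h' he hp hk hg => ?_⟩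
  have d0 : 0 ≤ d := (norm_nonneg _).trans (hp (s, 0) le_rfl).2
  have k0 := fun (y : P2) (hy : s ≤ y.1) => hT _ (Real.exp_pos y.1) _ (hp y hy).1
  have k1 := fun (y : P2) (hy : s ≤ y.1) => (k0 y hy).2 (p y) (by rwa [sub_self, norm_zero])
  have k2 := fun (y : P2) (hy : s ≤ y.1) => (k0 y hy).2 (p' y) ((hp y hy).2.trans_lt hd)
  have c := cOn_half fun b => (h b).cont
  have c' := cOn_half fun b => (h' b).cont
  have i0 := (half_bound (f := fun y => lag (ey y • p y))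
    (cOn_lag c fun y hy => (k1 y hy.1.le).1) fun y hy => (k1 y hy.le).2.1).1
  have i1 := (half_bound (f := fun y => lag (ey y • p' y))
    (cOn_lag c' fun y hy => (k2 y hy.1.le).1) fun y hy => (k2 y hy.le).2.1).1
  have cd := cOn_dlag c (c'.sub c) fun y hy => (k1 y hy.1.le).1
  have i2 := (half_bound (C := C * d) cd fun y hy => by
    rw [Pi.sub_apply, ← smul_sub, mul_div_right_comm]
    exact ((k0 y hy.le).1 _).trans (by gcongr; exact (hp y hy.le).2)).1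
  have v := var_half (C := C * d) h (fun b => (h' b).sub (h b)) (fun y hy => (k1 y hy).1) he i2
    fun y hy => by
      rw [← smul_sub, Prod.smul_fst, ← dlag_e1J, e1J_smul, mul_div_right_comm]
      refine ((k0 y hy.le).1 _).trans ?_
      gcongr
      exact (norm_e1J _).trans ((norm_fst_le _).trans (hp y hy.le).2)
  have b := (half_bound (C := C * d ^ 2) (f := fun y => lag (ey y • p' y) - lag (ey y • p y) -
    dlag (ey y • p y) (ey y • p' y - ey y • p y))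
    (((cOn_lag c' fun y hy => (k2 y hy.1.le).1).sub
      (cOn_lag c fun y hy => (k1 y hy.1.le).1)).sub cd) fun y hy => by
        rw [← smul_sub, mul_div_right_comm]
        exact (k2 y hy.le).2.2.trans (by gcongr; exact (hp y hy.le).2)).2
  rw [integral_sub (f := fun y => lag (ey y • p' y) - lag (ey y • p y))
    (g := fun y => dlag (ey y • p y) (ey y • p' y - ey y • p y)) (i1.sub i0) i2,
    integral_sub i1 i0, v, sub_neg_eq_add] at b
  rw [eh_eq h, eh_eq h', Fl_eq (h (s + 1)) (h' (s + 1)) (by linarith) (by linarith) hε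
    (ContinuousLinearMap.id ℂ C3) (ContinuousLinearMap.id ℂ C3) hk hg]
  refine b.trans (le_trans (mul_le_mul_of_nonneg_left (mul_le_of_le_one_right Real.pi_pos.le
    (Real.exp_le_one_iff.2 (by linarith))) (by positivity)) (le_of_eq (by ring)))

/-! ### The core -/

section core

variable {S C0 : Set E3} {J : Type} {K : J → P2 → E3}

/-- a finite atlas of the core: compact pieces `Q k` of charts `φ k` -/
structure Atlas (S C0 : Set E3) {A : Type} (φ : A → P2 → E3) (Q : A → Set P2) : Prop where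
  cpt : ∀ k, IsCompact (Q k)
  par : ∀ k, ∀ y ∈ Q k, Par S (φ k) y
  cover : ∀ x ∈ C0, ∃ k, ∃ y ∈ Q k, φ k y = x

/-- finite atlases exist, subordinate to any choice of radii -/
theorem exists_Atlas (hP : ParStmt) (hG : Geo S C0 K) (ρ : (P2 → E3) → P2 → ℝ)
    (hρ : ∀ φ y, Par S φ y → φ y ∈ C0 → 0 < ρ φ y) :
    ∃ (n : ℕ) (φ : Fin n → P2 → E3) (y : Fin n → P2) (Q : Fin n → Set P2), Atlas S C0 φ Q ∧
      ∀ k, Par S (φ k) (y k) ∧ φ k (y k) ∈ C0 ∧ Q k ⊆ ball (y k) (ρ (φ k) (y k)) := by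
  have h : ∀ x ∈ C0, ∃ (φ : P2 → E3) (y : P2) (Q : Set P2) (U : Set E3), U ∈ 𝓝 x ∧ Par S φ y ∧
      φ y ∈ C0 ∧ Q ⊆ ball y (ρ φ y) ∧ IsCompact Q ∧ (∀ z ∈ Q, Par S φ z) ∧
      ∀ u ∈ U, u ∈ S → ∃ z ∈ Q, φ z = u := fun x hx => by
    obtain ⟨φ, y, a, rfl⟩ := (hP S hG.surf).1 x (hG.sub hx)
    obtain ⟨Q, q1, q2, q3⟩ := local_compact_nhds
      (inter_mem (ball_mem_nhds y (hρ φ y a hx)) (par_ev a))
    obtain ⟨O, U, ψ, -, -, o3, u1, u2, -, -, -, h3⟩ := exists_chart hP hG.surf a q1 univ_mem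
    exact ⟨φ, y, Q, U, u1.mem_nhds u2, a, hx, fun z hz => (q2 hz).1, q3, fun z hz => (q2 hz).2,
      fun u b c => ⟨ψ u, o3 (h3 u b c).1, (h3 u b c).2⟩⟩
  choose! φ y Q U h1 h2 h3 h4 h5 h6 h7 using h
  obtain ⟨t, t1, t2⟩ := hG.cpt.elim_nhds_subcover U h1
  have m : ∀ k : Fin t.card, (t.equivFin.symm k : E3) ∈ C0 := fun k => t1 _ (t.equivFin.symm k).2
  refine ⟨t.card, fun k => φ (t.equivFin.symm k), fun k => y (t.equivFin.symm k),
    fun k => Q (t.equivFin.symm k), ⟨fun k => h5 _ (m k), fun k => h6 _ (m k), fun x hx => ?_⟩,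
    fun k => ⟨h2 _ (m k), h3 _ (m k), h4 _ (m k)⟩⟩
  obtain ⟨u, u1, u2⟩ := mem_iUnion₂.1 (t2 hx)
  refine ⟨t.equivFin ⟨u, u1⟩, ?_⟩
  simp only [Equiv.symm_apply_apply]
  exact h7 u (t1 u u1) x u2 (hG.sub hx)

variable {A : Type} [Finite A] {φ : A → P2 → E3} {Q : A → Set P2}

/-- integrals of densities which are bounded in the charts -/
theorem Atlas.bound (hA : Atlas S C0 φ Q) (hP : ParStmt) (hG : Geo S C0 K) : ∃ C : ℝ, 0 ≤ C ∧
    ∀ (F : Den) (b : ℝ), 0 ≤ b → (∀ x ∈ C0, Inv S F x) →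
      (∀ k, ∀ y ∈ Q k, φ k y ∈ C0 → ‖F (φ k) y‖ ≤ b) → (∀ x ∈ C0, ‖den S F x‖ ≤ C * b) ∧
        ‖∫ x in C0, den S F x ∂(μHE[2] : Measure E3)‖ ≤ C * b := by
  have h : ∀ k, ∃ C : ℝ, ∀ y ∈ Q k, ‖(ael (φ k) y)⁻¹‖ ≤ C := fun k =>
    (hA.cpt k).exists_bound_of_continuousOn fun y hy =>
      ((continuousAt_ael (hA.par k y hy)).inv₀ (ael_pos (hA.par k y hy)).ne').continuousWithinAt
  choose c hc using h
  obtain ⟨C, hC⟩ := (finite_range c).bddAbove
  set m := (μHE[2] : Measure E3).real C0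
  have m0 : 0 ≤ m := measureReal_nonneg
  have C0' : 0 ≤ |C| := abs_nonneg C
  refine ⟨|C| * (1 + m), by positivity, fun F b hb hI hF => ?_⟩
  have key : ∀ x ∈ C0, ‖den S F x‖ ≤ |C| * b := fun x hx => by
    obtain ⟨k, y, hy, rfl⟩ := hA.cover x hx
    rw [den_eq (hI _ hx) (hA.par k y hy), div_eq_inv_mul, norm_mul, ← Complex.ofReal_inv,
      Complex.norm_real]
    exact mul_le_mul (((hc k y hy).trans (hC ⟨k, rfl⟩)).trans (le_abs_self C)) (hF k y hy hx)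
      (norm_nonneg _) C0'
  have e : 0 ≤ |C| * b := by positivity
  refine ⟨fun x hx => (key x hx).trans (by nlinarith), (norm_setIntegral_le_of_norm_le_const
    (area_lt_top hP hG.surf hG.sub hG.cpt) key).trans (by nlinarith)⟩

/-- the area over the core is bounded -/
theorem ec_bound (hA : Atlas S C0 φ Q) (hP : ParStmt) (hG : Geo S C0 K) (M : ℝ) : ∃ C : ℝ,
    ∀ Y : E3 → C3, (∀ x ∈ C0, Reg S 1 Y x) →
      (∀ k, ∀ y ∈ Q k, φ k y ∈ C0 → ‖jet1 (fun z => Y (φ k z)) y‖ ≤ M) →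
      (∀ x ∈ C0, ‖den S (lagD Y) x‖ ≤ C) ∧ ‖Ec S C0 Y‖ ≤ C := by
  obtain ⟨C, -, h⟩ := hA.bound hP hG
  refine ⟨C * (Real.exp (3 * M ^ 2 / 4) * (5 * M ^ 2)), fun Y hY hb => h _ _ (by positivity)
    (fun x hx => inv_lag hP hG.surf (hY x hx)) fun k y hy hx => (norm_lag_le _).trans ?_⟩
  have b := hb k y hy hx
  generalize jet1 (fun z => Y (φ k z)) y = q at b
  have b1 := (norm_fst_le q).trans b
  have b2 := (norm_snd_le q).trans b
  have b3 : ‖q.1 ⬝ᵥ q.1‖ ≤ 3 * M ^ 2 := (norm_dot_le _ _).trans (by rw [← sq]; gcongr)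
  have b4 := (abs_le.1 ((Complex.abs_re_le_norm _).trans b3)).1
  gcongr
  linarith

/-- **Increment of the area over the core** -/
theorem core_incr [Fintype J] (hA : Atlas S C0 φ Q) (hP : ParStmt) (hG : Geo S C0 K) (M η : ℝ)
    (hη : 0 < η) : ∃ δ C : ℝ, 0 < δ ∧ 0 ≤ C ∧ ∀ (Y Y' : E3 → C3) (d : ℝ), d < δ →
      (∀ x ∈ C0, Reg S 2 Y x ∧ Reg S 1 Y' x) →
      (∀ k, ∀ y ∈ Q k, φ k y ∈ C0 → jet1 (fun z => Y (φ k z)) y ∈ Kj M η ∧
        ‖jet1 (fun z => Y' (φ k z)) y - jet1 (fun z => Y (φ k z)) y‖ ≤ d) →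
      ‖Ec S C0 Y' - Ec S C0 Y - ∑ j, Fl (K j) Y (fun x => Y' x - Y x) +
        ∫ x in C0, den S (srcD Y fun x => Y' x - Y x) x ∂(μHE[2] : Measure E3)‖ ≤ C * d ^ 2 := by
  obtain ⟨δ, C, hδ, hC, hT⟩ := exists_taylor (isCompact_Kj M η) (Kj_good hη)
  obtain ⟨C₁, h1, hB⟩ := hA.bound hP hG
  refine ⟨δ, C₁ * C, hδ, by positivity, fun Y Y' d hd hr hb => ?_⟩
  have r1 : ∀ x ∈ C0, Reg S 1 Y x := fun x hx => (hr x hx).1.mono one_le_two
  have g : ∀ x ∈ C0, Gd S Y x ∧ Gd S Y' x := fun x hx => by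
    obtain ⟨k, y, hy, rfl⟩ := hA.cover x hx
    obtain ⟨a, b⟩ := hb k y hy hx
    exact ⟨gd_of_one hP hG.surf (hA.par k y hy) (r1 _ hx) (Kj_good hη a),
      gd_of_one hP hG.surf (hA.par k y hy) (hr _ hx).2 ((hT _ a).2.2 _ (b.trans_lt hd)).1⟩
  have rz : ∀ x ∈ C0, Reg S 1 (fun x => Y' x - Y x) x := fun x hx => (hr x hx).2.sub (r1 x hx)
  have i0 := integrableOn_core hP hG.surf hG.sub hG.cpt
    (cont_lag hP hG.surf hG.sub fun x hx => ⟨r1 x hx, (g x hx).1⟩)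
  have i1 := integrableOn_core hP hG.surf hG.sub hG.cpt
    (cont_lag hP hG.surf hG.sub fun x hx => ⟨(hr x hx).2, (g x hx).2⟩)
  have i2 := integrableOn_core hP hG.surf hG.sub hG.cpt
    (cont_dlag hP hG.surf hG.sub (fun x hx => ⟨r1 x hx, (g x hx).1⟩) rz)
  have b := (hB (fun φ y => lagD Y' φ y - lagD Y φ y - dlagD Y (fun x => Y' x - Y x) φ y)
    (C * d ^ 2) (by positivity) (fun x hx => ((inv_lag hP hG.surf (hr x hx).2).sub
      (inv_lag hP hG.surf (r1 x hx))).sub (inv_dlag hP hG.surf (r1 x hx) (rz x hx) (g x hx).1))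
    fun k y hy hx => by
      obtain ⟨a, b⟩ := hb k y hy hx
      simp only [lagD, dlagD]
      rw [jet1_sub ((hr _ hx).2.diff (hA.par k y hy) rfl) ((r1 _ hx).diff (hA.par k y hy) rfl)]
      exact ((hT _ a).2.2 _ (b.trans_lt hd)).2.2.trans (by gcongr)).2
  simp only [den_sub] at b
  rw [integral_sub (f := fun x => den S (lagD Y') x - den S (lagD Y) x) (i1.sub i0) i2,
    integral_sub i1 i0, var_core hP hG (fun x hx => ⟨(hr x hx).1, (g x hx).1⟩) rz] at b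
  refine le_trans (le_of_eq ?_) (b.trans (le_of_eq (by ring)))
  congr 1
  simp only [Ec]
  ring

end core

/-! ### The Euler-Lagrange equation, reality -/

section el

variable {S C0 : Set E3} {ι : Type} [Fintype ι] {P W : (ι → ℂ) → E3 → C3} {F : ι → E3 → ℝ}
  {a : ι → ℂ} {w : E3 → ℂ} {φ : P2 → E3} {y : P2} {x : E3}

/-- the surface `P a + w W a` -/
def sur (P W : (ι → ℂ) → E3 → C3) (a : ι → ℂ) (w : E3 → ℂ) (x : E3) : C3 := P a x + w x • W a x

omit [Fintype ι] in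
theorem reg_sur {n : ℕ} (hP : Reg S n (P a) x) (hW : Reg S n (W a) x) (hw : Reg S n w x) :
    Reg S n (sur P W a w) x := hP.add (hw.csmul hW)

omit [Fintype ι] in
theorem jet2_sur (hP : ContDiffAt ℝ 2 (fun z => P a (φ z)) y)
    (hW : ContDiffAt ℝ 2 (fun z => W a (φ z)) y) (hw : ContDiffAt ℝ 2 (fun z => w (φ z)) y) :
    jet2 (fun z => sur P W a w (φ z)) y = surJ P W a φ y (jet2 (fun z => w (φ z)) y) := by
  rw [surJ, ← jet2_smul hw hW]
  exact jet2_add hP (hw.smul hW)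

theorem lag_par (h : Par S φ y) : lag (jet1 (fun z => cE (φ z)) y) =
    ((Real.exp (-‖φ y‖ ^ 2 / 4) * ael φ y : ℝ) : ℂ) :=
  lag_jet1 ((par_cd h 1).differentiableAt (by simp))

/-- the operator of the core problem is the Euler-Lagrange expression -/
theorem elOp_eq (h : Par S φ y) (hP : ContDiffAt ℝ 2 (fun z => P a (φ z)) y)
    (hW : ContDiffAt ℝ 2 (fun z => W a (φ z)) y) (hw : ContDiffAt ℝ 2 (fun z => w (φ z)) y)
    (ht : W a (φ y) ⬝ᵥ nor (fderiv ℝ (fun z => sur P W a w (φ z)) y) ≠ 0)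
    (he : elOp P W F a φ y (jet2 (fun z => w (φ z)) y) = 0) :
    srcD (sur P W a w) (W a) φ y =
      (∑ i, a i * F i (φ y)) * ((Real.exp (-‖φ y‖ ^ 2 / 4) * ael φ y : ℝ) : ℂ) := by
  have h0 : ((Real.exp (-‖φ y‖ ^ 2 / 4) * ael φ y : ℝ) : ℂ) ≠ 0 :=
    Complex.ofReal_ne_zero.2 (mul_pos (Real.exp_pos _) (ael_pos h)).ne'
  simp only [elOp, ← jet2_sur hP hW hw, lag_par h, sub_eq_zero] at he
  rw [← he, srcD, src_eq_Shr (V := fun z => W a (φ z)) ht, Shr, jet2_one]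
  simp only [jet2]
  generalize ((Real.exp (-‖φ y‖ ^ 2 / 4) * ael φ y : ℝ) : ℂ) = l at h0
  rw [show ∀ A B C : ℂ, A * (B / l) * C * l = A * B * C from fun A B C => by field_simp]
  ring

/-- the source term of the increment -/
theorem src_sur (h : Par S φ y) (hP : ContDiffAt ℝ 2 (fun z => P a (φ z)) y)
    (hW : ContDiffAt ℝ 2 (fun z => W a (φ z)) y) (hw : ContDiffAt ℝ 2 (fun z => w (φ z)) y)
    (ht : W a (φ y) ⬝ᵥ nor (fderiv ℝ (fun z => sur P W a w (φ z)) y) ≠ 0)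
    (he : elOp P W F a φ y (jet2 (fun z => w (φ z)) y) = 0) {Z : E3 → C3} {u : ℂ}
    (hZ : (∀ i, F i (φ y) = 0) ∨ Z (φ y) = u • W a (φ y)) :
    srcD (sur P W a w) Z φ y =
      u * (∑ i, a i * F i (φ y)) * ((Real.exp (-‖φ y‖ ^ 2 / 4) * ael φ y : ℝ) : ℂ) := by
  have e := elOp_eq h hP hW hw ht he
  rcases hZ with h0 | h0
  · simp only [h0, Complex.ofReal_zero, mul_zero, Finset.sum_const_zero, zero_mul] at e ⊢
    rw [srcD, src, (mul_eq_zero.1 e).resolve_right ht, zero_mul]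
  · rw [mul_assoc, ← e, srcD, srcD, src, src, h0, smul_dotProduct, smul_eq_mul]
    ring

theorem Reg.continuousOn {V : Type} [NormedAddCommGroup V] [NormedSpace ℝ V] (hP : ParStmt)
    (hS : IsSurf S) {C : Set E3} (hC : C ⊆ S) {f : E3 → V} (h : ∀ x ∈ C, Reg S 0 f x) :
    ContinuousOn f C := by
  intro x hx
  obtain ⟨φ, y, a, rfl⟩ := (hP S hS).1 x (hC hx)
  obtain ⟨O, U, ψ, -, o2, -, u1, u2, -, h1, h2, h3⟩ := exists_chart hP hS a univ_mem univ_mem
  have hc : ContinuousAt (fun x => f (φ (ψ x))) (φ y) := by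
    refine ContinuousAt.comp (f := ψ) (g := fun z => f (φ z)) ?_ (h2 _ u2)
    rw [(h1 y o2).2]
    exact (h _ hx φ y a rfl).continuousAt
  refine hc.continuousWithinAt.congr_of_eventuallyEq ?_ (by rw [(h1 y o2).2])
  filter_upwards [mem_nhdsWithin_of_mem_nhds (u1.mem_nhds u2), self_mem_nhdsWithin] with x b c
  rw [(h3 x b (hC c)).2]

theorem int_mo {J : Type} {K : J → P2 → E3} (hP : ParStmt) (hG : Geo S C0 K) {G : E3 → ℝ}
    (hF : ContinuousOn G C0) {u : E3 → ℂ} (hu : ContinuousOn u C0) :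
    IntegrableOn (fun x => u x * (G x * Real.exp (-‖x‖ ^ 2 / 4) : ℝ)) C0 (μHE[2] : Measure E3) :=
  integrableOn_core hP hG.surf hG.sub hG.cpt
    (hu.mul (Complex.continuous_ofReal.comp_continuousOn (hF.mul (by fun_prop))))

theorem mo_sub {J : Type} {K : J → P2 → E3} (hP : ParStmt) (hG : Geo S C0 K) {G : E3 → ℝ}
    (hF : ContinuousOn G C0) {u v : E3 → ℂ} (hu : ContinuousOn u C0) (hv : ContinuousOn v C0) :
    mo C0 G (fun x => u x - v x) = mo C0 G u - mo C0 G v := by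
  rw [mo, mo, mo, ← integral_sub (int_mo hP hG hF hu) (int_mo hP hG hF hv)]
  simp only [sub_mul]

/-- **The source term of the increment is given by the moments** -/
theorem el_core {J : Type} {K : J → P2 → E3} (hP : ParStmt) (hG : Geo S C0 K)
    (hF : ∀ i, ContinuousOn (F i) C0) {a' : ι → ℂ} {w' : E3 → ℂ}
    (hr : ∀ x ∈ C0, Reg S 2 (P a) x ∧ Reg S 2 (W a) x ∧ Reg S 2 w x ∧ Reg S 0 w' x)
    (ht : ∀ φ y, Par S φ y → φ y ∈ C0 →
      W a (φ y) ⬝ᵥ nor (fderiv ℝ (fun z => sur P W a w (φ z)) y) ≠ 0)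
    (he : ∀ φ y, Par S φ y → φ y ∈ C0 → elOp P W F a φ y (jet2 (fun z => w (φ z)) y) = 0)
    (hs : ∀ x ∈ C0, (∀ i, F i x = 0) ∨ (P a' x = P a x ∧ W a' x = W a x)) :
    ∫ x in C0, den S (srcD (sur P W a w) fun x => sur P W a' w' x - sur P W a w x) x
      ∂(μHE[2] : Measure E3) = ∑ i, a i * (mo C0 (F i) w' - mo C0 (F i) w) := by
  have c := Reg.continuousOn hP hG.surf hG.sub fun x hx => (hr x hx).2.2.1.mono zero_le_two
  have c' := Reg.continuousOn hP hG.surf hG.sub fun x hx => (hr x hx).2.2.2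
  rw [Finset.sum_congr rfl fun i _ => by
      rw [← mo_sub hP hG (hF i) c' c, mo, ← integral_const_mul],
    ← integral_finsetSum _ fun i _ =>
      (int_mo hP hG (hF i) (u := fun x => w' x - w x) (c'.sub c)).const_mul (a i)]
  refine setIntegral_congr_fun hG.cpt.measurableSet fun x hx => ?_
  obtain ⟨h, e⟩ := pick_spec hP hG.surf (hG.sub hx)
  have hx' := e.symm ▸ hx
  obtain ⟨r1, r2, r3, -⟩ := hr x hx
  simp only [den]
  rw [src_sur h (r1 _ _ h e) (r2 _ _ h e) (r3 _ _ h e) (ht _ _ h hx') (he _ _ h hx')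
    (u := w' x - w x) (by
      rw [e]
      refine (hs x hx).imp id fun b => ?_
      rw [sur, sur, b.1, b.2, add_sub_add_left_eq_sub, sub_smul]), e, div_eq_iff (ael_ne h),
    Finset.mul_sum, Finset.sum_mul, Finset.sum_mul]
  refine Finset.sum_congr rfl fun i _ => ?_
  push_cast
  ring

end el

theorem exists_cE' {v : C3} (h : IsRe v) : ∃ x : E3, cE x = v :=
  ⟨WithLp.toLp 2 fun i => (v i).re, funext fun i => Complex.ext (by simp) (by simp [h i])⟩

/-- the Lagrangian of a real jet is real -/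
theorem lag_im {q : Jt} (h0 : IsRe q.1) (h1 : IsRe (t1 q.2)) (h2 : IsRe (t2 q.2)) :
    (lag q).im = 0 := by
  obtain ⟨x, e0⟩ := exists_cE' h0
  obtain ⟨u, e1⟩ := exists_cE' h1
  obtain ⟨v, e2⟩ := exists_cE' h2
  have e : q = (cE x, cE.comp ((ContinuousLinearMap.fst ℝ ℝ ℝ).smulRight u +
      (ContinuousLinearMap.snd ℝ ℝ ℝ).smulRight v)) := by
    refine Prod.ext e0.symm (ContinuousLinearMap.ext fun z => ?_)
    rw [lin_eq q.2 z]
    simp only [ContinuousLinearMap.comp_apply, _root_.add_apply,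
      ContinuousLinearMap.smulRight_apply, map_add, map_smul, e1, e2]
    rfl
  rw [e, lag_cE, Complex.ofReal_im]

theorem lag_jet_im {X : P2 → C3} {y : P2} (hX : DifferentiableAt ℝ X y)
    (h : ∀ᶠ z in 𝓝 y, IsRe (X z)) : (lag (jet1 X y)).im = 0 := by
  have k : ∀ v, IsRe (fderiv ℝ X y v) := fun v i => by
    let L : C3 →L[ℝ] ℝ := Complex.imCLM.comp (ContinuousLinearMap.proj i)
    have d1 : HasFDerivAt (fun z => L (X z)) _ y := L.hasFDerivAt.comp y hX.hasFDerivAt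
    have d2 : HasFDerivAt (fun z => L (X z)) (0 : P2 →L[ℝ] ℝ) y :=
      (hasFDerivAt_const (0 : ℝ) y).congr_of_eventuallyEq (h.mono fun z hz => hz i)
    exact congrArg (fun T : P2 →L[ℝ] ℝ => T v) (d1.unique d2)
  exact lag_im h.self_of_nhds (k _) (k _)

theorem setInt_im {α : Type} [MeasurableSpace α] {μ : Measure α} {s : Set α} (hs : MeasurableSet s)
    {f : α → ℂ} (h : ∀ x ∈ s, (f x).im = 0) : (∫ x in s, f x ∂μ).im = 0 := by
  rw [setIntegral_congr_fun (g := fun x => ((f x).re : ℂ)) hs fun x hx =>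
    Complex.ext (by simp) (by simp [h x hx]), integral_complex_ofReal, Complex.ofReal_im]

theorem est_im {X : P2 → C3} {s R : ℝ}
    (h : ∀ y : P2, y.1 ∈ Ioo s R → DifferentiableAt ℝ X y ∧ IsRe (X y)) : (Est X s R).im = 0 :=
  setInt_im (measurableSet_Ioo.prod measurableSet_Ioc) fun y hy => lag_jet_im (h y hy.1).1
    ((continuousAt_fst.eventually (Ioo_mem_nhds hy.1.1 hy.1.2)).mono fun z hz => (h z hz).2)

theorem eh_im {X : P2 → C3} {s : ℝ}
    (h : ∀ y : P2, s < y.1 → DifferentiableAt ℝ X y ∧ IsRe (X y)) : (Eh X s).im = 0 :=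
  setInt_im (measurableSet_Ioi.prod measurableSet_Ioc) fun y hy => lag_jet_im (h y hy.1).1
    ((continuousAt_fst.eventually (Ioi_mem_nhds hy.1)).mono fun z hz => (h z hz).2)

theorem den_im {S : Set E3} (hP : ParStmt) (hS : IsSurf S) {Y : E3 → C3} {x : E3} (hx : x ∈ S)
    (hY : Reg S 1 Y x) (h : ∀ᶠ u in 𝓝 x, u ∈ S → IsRe (Y u)) : (den S (lagD Y) x).im = 0 := by
  obtain ⟨a, e⟩ := pick_spec hP hS hx
  rw [den, Complex.div_ofReal_im, lagD, lag_jet_im (hY.diff a e), zero_div]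
  filter_upwards [(par_cd a 0).continuousAt.eventually (by rw [e]; exact h), a.mem] with z b c
  exact b c

theorem ec_im {S C0 : Set E3} {J : Type} {K : J → P2 → E3} (hP : ParStmt) (hG : Geo S C0 K)
    {Y : E3 → C3} (hY : ∀ x ∈ C0, Reg S 1 Y x ∧ ∀ᶠ u in 𝓝 x, u ∈ S → IsRe (Y u)) :
    (Ec S C0 Y).im = 0 :=
  setInt_im hG.cpt.measurableSet fun x hx => den_im hP hG.surf (hG.sub hx) (hY x hx).1 (hY x hx).2

end Vale.Agent.P218F.LS
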