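import Vale.Agent.P218F.EndGeom
import Vale.Agent.P218F.LSDefs
import Vale.Agent.P218F.NormSpec
import Vale.Agent.P218F.CoreHol

/-! Cylindrical ends: jets of triples, low modes, the length of the boundary circle. -/

set_option maxSynthPendingDepth 3

namespace Vale.Agent.P218F.LS.EB

open Set Filter Topology Metric Wien Core
open Cone (W A T3 BC fn fn1 fn2 vT vYT vTT lin2)
open scoped Real

noncomputable section

variable {s : ℕ}

/-! ### Jets -/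

lemma lin2_apply {V : Type*} [NormedAddCommGroup V] [NormedSpace ℝ V] (x y : V) (v : P2) :
    lin2 (x, y) v = v.1 • x + v.2 • y := by simp [lin2]

lemma norm_lin2_le {V : Type*} [NormedAddCommGroup V] [NormedSpace ℝ V] {x y : V} {M : ℝ}
    (hx : ‖x‖ ≤ M) (hy : ‖y‖ ≤ M) : ‖lin2 (x, y)‖ ≤ 2 * M := by
  refine ContinuousLinearMap.opNorm_le_bound _ (by linarith [norm_nonneg x]) fun v => ?_
  rw [lin2_apply]
  refine (norm_add_le _ _).trans ?_
  rw [norm_smul, norm_smul]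
  have h1 := mul_le_mul (norm_fst_le v) hx (norm_nonneg _) (norm_nonneg _)
  have h2 := mul_le_mul (norm_snd_le v) hy (norm_nonneg _) (norm_nonneg _)
  linarith

/-- the two-jet of a triple -/
def jt0 (p : T3 s) (z : P2) : J2 P2 ℂ := (fn p z, fn1 p z, fn2 p z)

lemma norm_jt0_le (p : T3 s) (z : P2) : ‖jt0 p z‖ ≤ 4 * ‖p‖ := by
  have h0 : ‖p.1‖ ≤ ‖p‖ := norm_fst_le p
  have h1 : ‖p.2.1‖ ≤ ‖p‖ := (norm_fst_le p.2).trans (norm_snd_le p)
  have h2 : ‖p.2.2‖ ≤ ‖p‖ := (norm_snd_le p.2).trans (norm_snd_le p)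
  have h3 : ‖dth (s + 1) BC p.1‖ ≤ ‖p‖ := (norm_dth_apply_le _).trans h0
  have a1 := (Cone.norm_val_le _ z.1 z.2).trans h1
  have a2 := (Cone.norm_val_le _ z.1 z.2).trans h2
  have a3 : ‖vT p z.1 z.2‖ ≤ ‖p‖ := (Cone.norm_val_le _ _ _).trans h3
  have a4 : ‖vYT p z.1 z.2‖ ≤ ‖p‖ :=
    (Cone.norm_val_le _ _ _).trans ((norm_dth_apply_le _).trans h1)
  have a5 : ‖vTT p z.1 z.2‖ ≤ ‖p‖ :=
    (Cone.norm_val_le _ _ _).trans ((norm_dth_apply_le _).trans h3)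
  have b0 : ‖fn p z‖ ≤ ‖p‖ := (Cone.norm_val_le _ _ _).trans h0
  have b1 : ‖fn1 p z‖ ≤ 2 * ‖p‖ := norm_lin2_le a1 a3
  have b2 : ‖fn2 p z‖ ≤ 2 * (2 * ‖p‖) := norm_lin2_le (norm_lin2_le a2 a4) (norm_lin2_le a4 a5)
  simp only [jt0, Prod.norm_def, max_le_iff]
  simp only [← Prod.norm_def]
  refine ⟨?_, ?_, ?_⟩ <;> linarith [norm_nonneg p]

/-- the two-jet as a linear map -/
def jt (s : ℕ) (z : P2) : T3 s →L[ℂ] J2 P2 ℂ :=
  LinearMap.mkContinuous
    { toFun := fun p => jt0 p z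
      map_add' := fun p q => by
        refine Prod.ext (by simp [jt0, fn, Cone.val_eq]) (Prod.ext ?_ ?_)
        · ext <;> simp [jt0, fn1, vT, Cone.val_eq]
        · ext <;> simp [jt0, fn2, vYT, vTT, Cone.val_eq]
      map_smul' := fun c p => by
        refine Prod.ext (by simp [jt0, fn, Cone.val_eq]) (Prod.ext ?_ ?_)
        · ext <;> simp [jt0, fn1, vT, Cone.val_eq]
        · ext <;> simp [jt0, fn2, vYT, vTT, Cone.val_eq] } 4 fun p => norm_jt0_le p z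

lemma jt_apply (p : T3 s) (z : P2) : jt s z p = (fn p z, fn1 p z, fn2 p z) := rfl

lemma norm_jt_le (p : T3 s) (z : P2) : ‖jt s z p‖ ≤ 4 * ‖p‖ := norm_jt0_le p z

/-- the one-jet of a two-jet -/
def oneL : J2 P2 ℂ →L[ℂ] J1 P2 ℂ :=
  (ContinuousLinearMap.fst ℂ _ _).prod ((ContinuousLinearMap.fst ℂ _ _).comp (.snd ℂ _ _))

lemma oneL_apply (q : J2 P2 ℂ) : oneL q = q.one := rfl

lemma norm_one_le (q : J2 P2 ℂ) : ‖q.one‖ ≤ ‖q‖ :=
  max_le (norm_fst_le q) ((norm_fst_le q.2).trans (norm_snd_le q))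

lemma continuous_jt (p : T3 s) : Continuous fun z => jt s z p :=
  (Cone.continuous_fn p).prodMk ((Cone.continuous_fn1 p).prodMk (Cone.continuous_fn2 p))

lemma jt_per (p : T3 s) (y θ : ℝ) : jt s (y, θ + 2 * π) p = jt s (y, θ) p := by
  simp only [jt_apply, fn, fn1, fn2, vT, vYT, vTT, Cone.val_eq, val_periodic _ y θ]

lemma fn_per (p : T3 s) (z : P2) : fn p (z.1, z.2 + 2 * π) = fn p z := val_periodic _ _ _

lemma val_res {a b : ℝ} (u : W s) {z : ℝ} (hz : z ∈ Icc a b) (θ : ℝ) :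
    Cone.val (End.res a b s u) z θ = Cone.val u z θ := by
  simp [Cone.val, End.res, Mode.cl_of_mem hz]

lemma dth_res (a b : ℝ) (u : W (s + 1)) :
    dth s BC (End.res a b (s + 1) u) = End.res a b s (dth s BC u) := by
  ext k z
  simp [End.res]

lemma jt_res3 {a b : ℝ} (p : T3 0) {z : P2} (hz : z.1 ∈ Icc a b) :
    jt 0 z (End.res3 a b p) = jt 0 z p := by
  simp only [jt_apply, fn, fn1, fn2, vT, vYT, vTT, End.res3, dth_res, val_res _ hz]

lemma tr_res {a b : ℝ} (u : W s) {z : ℝ} (hz : z ∈ Icc a b) :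
    Cone.tr s z (End.res a b s u) = Cone.tr s z u := by
  ext k
  simp [End.res, Mode.cl_of_mem hz]

lemma norm_tr_apply_le (z : ℝ) (u : W s) : ‖Cone.tr s z u‖ ≤ ‖u‖ :=
  ((Cone.tr s z).le_opNorm u).trans (mul_le_of_le_one_left (norm_nonneg _) (Cone.norm_tr_le _ _))

lemma jt_cyl (z : P2) : jt 0 z End.cyl = (((√2 : ℝ) : ℂ), 0, 0) := by
  have e : algebraMap ℂ (W 2) (√2 : ℝ) = ((√2 : ℝ) : ℂ) • 1 := Algebra.algebraMap_eq_smul_one _
  have e1 : dth 1 BC (1 : W 2) = 0 := dth_const (1 : BC)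
  refine Prod.ext (by simp [jt_apply, fn, End.cyl, Cone.val_eq]) (Prod.ext ?_ ?_)
  · ext <;> simp [jt_apply, fn1, vT, End.cyl, Cone.val_eq, e, e1]
  · ext <;> simp [jt_apply, fn2, vYT, vTT, End.cyl, Cone.val_eq, e, e1]

lemma jw2_tri {a b : ℝ} (hab : a < b) {p : T3 0} (h : End.Tri a b p) {z : P2}
    (hz : z ∈ Icc a b ×ˢ (univ : Set ℝ)) : jw2 (Icc a b ×ˢ univ) (fn p) z = jt 0 z p := by
  have hu := (uniqueDiffOn_Icc hab).prod (uniqueDiffOn_univ (𝕜 := ℝ) (E := ℝ))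
  have e : EqOn (fderivWithin ℝ (fn p) (Icc a b ×ˢ univ)) (fn1 p) (Icc a b ×ˢ univ) :=
    fun w hw => (h.hasFDerivWithinAt hw.1).fderivWithin (hu w hw)
  rw [jw2, e hz, fderivWithin_congr e (e hz), (h.hasFDerivWithinAt1 hz.1).fderivWithin (hu z hz)]
  rfl

lemma jw1_tri {a b : ℝ} (hab : a < b) {p : T3 0} (h : End.Tri a b p) {z : P2}
    (hz : z ∈ Icc a b ×ˢ (univ : Set ℝ)) : jw1 (Icc a b ×ˢ univ) (fn p) z = (jt 0 z p).one := by
  rw [← jw2_tri hab h hz]; rfl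

lemma gC_jt (p : T3 s) (z : P2) : gC (jt s z p).one =
    fn p z ^ 2 * (1 + Cone.val p.2.1 z.1 z.2 ^ 2) + vT p z.1 z.2 ^ 2 := by
  simp [gC, jt_apply, J2.one]

lemma im_val {u : W s} (h : star u = u) (y θ : ℝ) : (Cone.val u y θ).im = 0 :=
  Complex.conj_eq_iff_im.1 (by rw [← Complex.star_def, ← Cone.val_star, h])

/-! ### The chart -/

section chart

variable {a b c : P218FT.E3}

/-- the axis -/
abbrev Ba (c : P218FT.E3) : P2 → C3 := fun p => cE (p.1 • c)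

lemma Ba_eq (c : P218FT.E3) : Ba c = fun z : P2 => (z.1 : ℂ) • cE c := by
  funext z i
  simp

lemma cylY_eq (a b c : P218FT.E3) (u : P2 → ℂ) :
    (fun η => Ba c η + u η • End.eR a b η) = End.cylY a b c u := by
  funext z
  rw [Ba_eq, add_comm]; rfl

lemma cd_Ba (c : P218FT.E3) : ContDiff ℝ 2 (Ba c) :=
  Ba_eq c ▸ (End.contDiff_axis c).of_le P218FT.two_le_inf

lemma cd_eR (a b : P218FT.E3) : ContDiff ℝ 2 (End.eR a b) :=
  (End.contDiff_eR a b).of_le P218FT.two_le_inf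

lemma jet2_cyl {u : P2 → ℂ} {z : P2} (hu : ContDiffAt ℝ 2 u z) : jet2 (End.cylY a b c u) z =
    jet2 (Ba c) z + (jet2 u z).smul (jet2 (End.eR a b) z) := by
  rw [← cylY_eq, ← jet2_smul hu (cd_eR a b).contDiffAt]
  exact jet2_add (cd_Ba c).contDiffAt (hu.smul (cd_eR a b).contDiffAt)

lemma shrG_cyl {u : P2 → ℂ} {z : P2} (hu : ContDiffAt ℝ 2 u z) :
    shrG (Ba c) (End.eR a b) z (jet2 u z) = Shr (End.cylY a b c u) (End.eR a b) z := by
  rw [shrG, Shr, jet2_cyl hu]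

/-- the polynomial form of the equation -/
def ep (z : ℝ) (q : J2 P2 ℂ) : ℂ :=
  End.epol (z : ℂ) q.1 (q.2.1 (1, 0)) (q.2.1 (0, 1)) (q.2.2 (1, 0) (1, 0)) (q.2.2 (1, 0) (0, 1))
    (q.2.2 (0, 1) (0, 1))

lemma ep_jt {α β : ℝ} {p : T3 0} (h : End.PtEq α β p) {z : P2} (hz : z.1 ∈ Icc α β) :
    ep z.1 (jt 0 z p) = 0 := by
  simp only [ep, jt_apply, Cone.fn1_y, Cone.fn1_t, Cone.fn2_yy, Cone.fn2_yt, Cone.fn2_tt]
  exact h z.1 hz z.2

lemma geom (T : P218FT.Triple a b c) {u : P2 → ℂ} {z : P2} (hu : ContDiffAt ℝ 2 u z)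
    (h1 : u z ≠ 0) : gdet (fderiv ℝ (End.cylY a b c u) z) = gC (jet2 u z).one ∧
    End.eR a b z ⬝ᵥ nor (fderiv ℝ (End.cylY a b c u) z) ≠ 0 ∧ (gC (jet2 u z).one ≠ 0 →
      (Shr (End.cylY a b c u) (End.eR a b) z = 0 ↔ ep z.1 (jet2 u z) = 0)) := by
  obtain ⟨g1, -, g2, g3⟩ := End.geom_proof a b c T u z hu
  refine ⟨g1, fun h => h1 ?_, fun h2 => ?_⟩
  · rw [h] at g2
    simpa using g2.symm
  · rw [show ep z.1 (jet2 u z) = _ from (g3 h1 h2).symm]
    exact (mul_eq_zero_iff_left (mul_ne_zero h1 h2)).symm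

end chart

/-! ### The modes `0`, `± 1` -/

/-- real coordinates of the modes `0`, `± 1` -/
def lowL : A 2 →L[ℂ] Fin 3 → ℂ := ContinuousLinearMap.pi
  ![cfL 2 ℂ 0, cfL 2 ℂ 1 + cfL 2 ℂ (-1), Complex.I • (cfL 2 ℂ 1 - cfL 2 ℂ (-1))]

lemma lowL_zero (u : A 2) : lowL u 0 = cf u 0 := rfl
lemma lowL_one (u : A 2) : lowL u 1 = cf u 1 + cf u (-1) := rfl
lemma lowL_two (u : A 2) : lowL u 2 = Complex.I * (cf u 1 - cf u (-1)) := rfl

lemma norm_cf_le' (u : A 2) (k : ℤ) : ‖cf u k‖ ≤ ‖u‖ := by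
  rw [← coef_ev]; exact norm_coef_le (fun θ _ => norm_ev_apply_le θ u) k

lemma norm_lowL_le (u : A 2) : ‖lowL u‖ ≤ 2 * ‖u‖ := by
  have h := norm_cf_le' u
  refine (pi_norm_le_iff_of_nonneg (by positivity)).2 fun i => ?_
  fin_cases i
  · exact (h 0).trans (by linarith [norm_nonneg u])
  · change ‖lowL u 1‖ ≤ _
    rw [lowL_one]
    exact (norm_add_le _ _).trans (by linarith [h 1, h (-1)])
  · change ‖lowL u 2‖ ≤ _
    rw [lowL_two, norm_mul, Complex.norm_I, one_mul]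
    exact (norm_sub_le _ _).trans (by linarith [h 1, h (-1)])

lemma eq_zero_of_low {u : A 2} (h : lowL u = 0) (hh : ∀ k : ℤ, 2 ≤ |k| → cf u k = 0) : u = 0 := by
  have h0 : cf u 0 = 0 := congrFun h 0
  have h1 : cf u 1 + cf u (-1) = 0 := congrFun h 1
  have h2 : cf u 1 - cf u (-1) = 0 :=
    (mul_eq_zero.1 (congrFun h 2 :)).resolve_left Complex.I_ne_zero
  ext k
  rw [cf_zero]
  by_cases hk : 2 ≤ |k|
  · exact hh k hk
  · obtain rfl | rfl | rfl : k = 0 ∨ k = 1 ∨ k = -1 := by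
      have := abs_lt.1 (not_le.1 hk); omega
    · exact h0
    · linear_combination (h1 + h2) / 2
    · linear_combination (h1 - h2) / 2

lemma isRe_lowL {u : A 2} (h : star u = u) : IsRe (lowL u) := by
  have e : ∀ k, cf u k = star (cf u (-k)) := fun k => by rw [← cf_star, h]
  have e0 := congrArg Complex.im (e 0)
  have e1 := e 1
  intro i
  fin_cases i
  · change (cf u 0).im = 0
    simp at e0; linarith
  · change (lowL u 1).im = 0
    rw [lowL_one, e1]; simp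
  · change (lowL u 2).im = 0
    rw [lowL_two, e1]; simp

/-! ### The length of the boundary circle -/

lemma sqrt_sq' (x : ℂ) : Complex.sqrt x ^ 2 = x := Complex.cpow_ofNat_inv_pow x 2

lemma abs_im_sqrt_lt {x : ℂ} (hx : 0 < x.re) : |(Complex.sqrt x).im| < (Complex.sqrt x).re := by
  have h0 : 0 ≤ (Complex.sqrt x).re := by
    rw [Complex.sqrt, Complex.cpow_inv_two_re]; positivity
  refine abs_lt_of_sq_lt_sq ?_ h0
  rw [← sqrt_sq' x, sq, Complex.mul_re] at hx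
  nlinarith

lemma sqrt_mul_of_re {x y : ℂ} (hx : 0 < x.re) (hy : 0 < y.re) :
    Complex.sqrt (x * y) = Complex.sqrt x * Complex.sqrt y := by
  have h : 0 < (Complex.sqrt x * Complex.sqrt y).re := by
    have := mul_lt_mul'' (abs_im_sqrt_lt hx) (abs_im_sqrt_lt hy) (abs_nonneg _) (abs_nonneg _)
    rw [← abs_mul] at this
    rw [Complex.mul_re]
    linarith [le_abs_self ((Complex.sqrt x).im * (Complex.sqrt y).im)]
  have := Complex.sq_cpow_two_inv h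
  rwa [mul_pow, sqrt_sq', sqrt_sq'] at this

lemma norm_sqrt' (x : ℂ) : ‖Complex.sqrt x‖ = √‖x‖ := by
  conv_rhs => rw [← sqrt_sq' x, norm_pow, Real.sqrt_sq (norm_nonneg _)]

lemma integral_ev (u : A s) : ∫ θ in (0 : ℝ)..2 * π, ev s ℂ θ u = 2 * π * cf u 0 := by
  have : (2 * π : ℂ) ≠ 0 := by simp [Real.pi_ne_zero]
  rw [← coef_ev, coef]
  simp only [neg_zero, ch_zero, smul_eq_mul, one_mul]
  field_simp

lemma re_X {v : ℂ × ℂ} (hv : ‖v‖ < 1 / 4) :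
    0 < ((1 + v.1) ^ 2 + v.2 ^ 2).re ∧ ‖(1 + v.1) ^ 2‖ ≤ 2 ∧ ‖(1 + v.1) ^ 2 + v.2 ^ 2‖ ≤ 4 := by
  have h1 := (norm_fst_le v).trans_lt hv
  have h2 := (norm_snd_le v).trans_lt hv
  have h3 : ‖1 + v.1‖ ≤ 5 / 4 := (norm_add_le _ _).trans (by rw [norm_one]; linarith)
  have h4 : ‖(1 + v.1) ^ 2‖ ≤ 2 := by rw [norm_pow]; nlinarith [norm_nonneg (1 + v.1)]
  have h5 : ‖v.2 ^ 2‖ ≤ 1 / 16 := by rw [norm_pow]; nlinarith [norm_nonneg v.2]
  have h6 : ‖v.1 ^ 2‖ ≤ 1 / 16 := by rw [norm_pow]; nlinarith [norm_nonneg v.1]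
  refine ⟨?_, h4, (norm_add_le _ _).trans (by linarith)⟩
  rw [show (1 + v.1) ^ 2 + v.2 ^ 2 = 1 + 2 * v.1 + v.1 ^ 2 + v.2 ^ 2 by ring]
  have a1 := (abs_le.1 ((Complex.abs_re_le_norm _).trans h1.le)).1
  have a2 := (abs_le.1 ((Complex.abs_re_le_norm _).trans h5)).1
  have a3 := (abs_le.1 ((Complex.abs_re_le_norm _).trans h6)).1
  simp only [Complex.add_re, Complex.one_re, Complex.mul_re, Complex.re_ofNat, Complex.im_ofNat]
  linarith

/-- the first order term has mean zero -/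
theorem main_le {y : ℂ} (hy : 0 < y.re) (hy8 : ‖y‖ ≤ 8) {u : A 2} (h0 : cf u 0 = y ^ (1 / 2 : ℂ))
    {t : ℝ} (ht : t < 1 / 4) (hu : ‖u - algebraMap ℂ (A 2) (y ^ (1 / 2 : ℂ))‖ ≤ t * √‖y‖) :
    ‖(∫ θ in (0 : ℝ)..2 * π, Complex.exp (-ev 2 ℂ θ u ^ 2 / 4) *
        Complex.sqrt (ev 2 ℂ θ u ^ 2 + ev 1 ℂ θ (dth 1 ℂ u) ^ 2)) - Nm.bet y‖ ≤
      2 * π * (128 * Real.exp 4) * t ^ 2 * √‖y‖ := by
  have hw : y ^ (1 / 2 : ℂ) = Complex.sqrt y := by rw [one_div]; rfl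
  rw [hw] at h0 hu
  rw [Nm.bet, hw]
  set w := Complex.sqrt y with hwd
  have hw2 : w ^ 2 = y := sqrt_sq' y
  have hw0 : w ≠ 0 := fun e => by rw [← hw2, e] at hy; simp at hy
  have hwn : ‖w‖ = √‖y‖ := norm_sqrt' y
  have hwp : 0 < ‖w‖ := norm_pos_iff.2 hw0
  rw [← hwn] at hu ⊢
  set d : A 2 := w⁻¹ • (u - algebraMap ℂ (A 2) w) with hd
  have hdn : ‖d‖ ≤ t := by rw [hd, norm_smul, norm_inv, inv_mul_le_iff₀ hwp, mul_comm]; exact hu
  have ha : algebraMap ℂ (A 2) w = const ℤ 2 ℂ w := by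
    refine ext_ev fun θ => ?_
    rw [ev_const]; exact (evA 2 ℂ θ).commutes w
  have hud : u = w • d + const ℤ 2 ℂ w := by rw [hd, smul_inv_smul₀ hw0, ha, sub_add_cancel]
  have hd0 : cf d 0 = 0 := by simp [hd, ha, h0, const_apply]
  let v : ℝ → ℂ × ℂ := fun θ => (ev 2 ℂ θ d, ev 1 ℂ θ (dth 1 ℂ d))
  have hv : ∀ θ, ‖v θ‖ ≤ t := fun θ => max_le ((norm_ev_apply_le θ d).trans hdn)
    (((norm_ev_apply_le θ _).trans (norm_dth_apply_le d)).trans hdn)
  have hvc : Continuous v := (continuous_ev _).prodMk (continuous_ev _)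
  let G : ℂ × ℂ → ℂ := fun v => Complex.exp (-(y * (1 + v.1) ^ 2) / 4) *
    Complex.sqrt ((1 + v.1) ^ 2 + v.2 ^ 2)
  have hGd : DifferentiableOn ℂ G (ball 0 (1 / 4)) := fun x hx =>
    (DifferentiableAt.mul (by fun_prop) (DifferentiableAt.comp (g := Complex.sqrt) x
      (Complex.hasDerivAt_sqrt (Or.inl (re_X (mem_ball_zero_iff.1 hx)).1)).differentiableAt
      (by fun_prop))).differentiableWithinAt
  have hGb : ∀ x ∈ ball (0 : ℂ × ℂ) (1 / 4), ‖G x‖ ≤ 2 * Real.exp 4 := fun x hx => by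
    obtain ⟨-, h2, h3⟩ := re_X (mem_ball_zero_iff.1 hx)
    rw [norm_mul, norm_sqrt', mul_comm]
    refine mul_le_mul (Real.sqrt_le_iff.2 ⟨by norm_num, by linarith⟩)
      ((Complex.norm_exp_le_exp_norm _).trans (Real.exp_le_exp.2 ?_)) (norm_nonneg _) (by norm_num)
    rw [norm_div, norm_neg, norm_mul, Complex.norm_ofNat]
    nlinarith [mul_le_mul hy8 h2 (norm_nonneg _) (by norm_num)]
  have hm : ∀ θ, v θ ∈ ball (0 : ℂ × ℂ) (1 / 4) := fun θ => mem_ball_zero_iff.2 ((hv θ).trans_lt ht)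
  have e1 : ∀ θ, Complex.exp (-ev 2 ℂ θ u ^ 2 / 4) *
      Complex.sqrt (ev 2 ℂ θ u ^ 2 + ev 1 ℂ θ (dth 1 ℂ u) ^ 2) = w * G (v θ) := fun θ => by
    have a1 : ev 2 ℂ θ u = w * (1 + (v θ).1) := by rw [hud]; simp [v]; ring
    have a2 : ev 1 ℂ θ (dth 1 ℂ u) = w * (v θ).2 := by rw [hud]; simp [v]
    rw [a1, a2, mul_pow, mul_pow, hw2, ← mul_add,
      sqrt_mul_of_re hy (re_X (mem_ball_zero_iff.1 (hm θ))).1]
    simp only [G]; ring
  have cG : Continuous fun θ => G (v θ) := hGd.continuousOn.comp_continuous hvc hm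
  have e2 : ∫ θ in (0 : ℝ)..2 * π, fderiv ℂ G 0 (v θ - 0) = 0 := by
    have : ∀ θ, fderiv ℂ G 0 (v θ - 0) = (v θ).1 * fderiv ℂ G 0 (1, 0) +
        (v θ).2 * fderiv ℂ G 0 (0, 1) := fun θ => by
      rw [← smul_eq_mul, ← smul_eq_mul, ← map_smul, ← map_smul, ← map_add]; simp
    simp only [this]
    rw [intervalIntegral.integral_add (Continuous.intervalIntegrable (by fun_prop) _ _)
      (Continuous.intervalIntegrable (by fun_prop) _ _), intervalIntegral.integral_mul_const,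
      intervalIntegral.integral_mul_const]
    simp [v, integral_ev, hd0]
  have e3 : (∫ θ in (0 : ℝ)..2 * π, w * G (v θ)) - 2 * π * w * Complex.exp (-y / 4) =
      w * ∫ θ in (0 : ℝ)..2 * π, (G (v θ) - G 0 - fderiv ℂ G 0 (v θ - 0)) := by
    rw [intervalIntegral.integral_sub (f := fun θ => G (v θ) - G 0)
      ((cG.sub continuous_const).intervalIntegrable _ _) (Continuous.intervalIntegrable (by fun_prop) _ _), e2, intervalIntegral.integral_sub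
      (cG.intervalIntegrable _ _) (continuous_const.intervalIntegrable _ _),
      intervalIntegral.integral_const_mul]
    simp [G]; ring
  simp only [e1]
  rw [e3, norm_mul, mul_comm]
  gcongr
  refine (intervalIntegral.norm_integral_le_of_norm_le_const (C := 128 * Real.exp 4 * t ^ 2)
    fun θ _ => (rem_le hGd hGb (hm θ)).trans ?_).trans_eq ?_
  · rw [sub_zero, show 4 * (2 * Real.exp 4) / (1 / 4) ^ 2 = 128 * Real.exp 4 by ring]
    gcongr; exact hv θ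
  · rw [sub_zero, abs_of_pos (by positivity)]; ring

end

end Vale.Agent.P218F.LS.EB
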