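import Vale.Agent.P218F.LSEndA
import Vale.Agent.P218F.LSSpec

/-! Cylindrical ends: the fields (X4), (X5), (X6) of the family on finite cylinders. -/

set_option maxSynthPendingDepth 3

namespace Vale.Agent.P218F.LS.EX

open Set Filter Topology Metric Wien Core EB
open Cone (W A T3 BC fn fn1 fn2 vT)
open scoped Real

noncomputable section

theorem y_bd {C Λ R₀ : ℝ} {cc Y : ℝ → ℂ → ℂ} (h : Sym.Inv C Λ R₀ cc Y) (hΛ : 0 ≤ Λ) {R : ℝ}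
    (hR : R₀ ≤ R) {c : ℂ} (hc : c ∈ Sym.Om (2 * Λ) R) :
    Y R c ∈ Sym.D Λ R ∧ 0 < (Y R c).re ∧ ‖Y R c‖ ≤ 8 := by
  have h1 : Y R c ∈ Sym.D Λ R := by
    refine ball_subset_ball ?_ (h.mem R hR _ le_rfl c hc)
    gcongr
    linarith [h.room]
  have h2 := mem_ball_iff_norm.1 h1
  have h3 := (abs_lt.1 ((Complex.abs_re_le_norm _).trans_lt h2)).1
  have h4 := norm_sub_norm_le (Y R c) 4
  have h5 : 0 ≤ 4 * Λ / R ^ 2 := by positivity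
  simp only [Complex.sub_re, Complex.re_ofNat, Complex.norm_ofNat] at h3 h4
  exact ⟨h1, by linarith, by linarith⟩

theorem y_lip {C Λ R₀ : ℝ} {cc Y : ℝ → ℂ → ℂ} (h : Sym.Inv C Λ R₀ cc Y) (hΛ : 0 ≤ Λ) {R R' B : ℝ}
    (hR : R₀ ≤ R) (h1 : 1 ≤ R) (hB : R ≤ B) (h2 : R ≤ R') (h3 : R' ≤ R + 1) {c c' : ℂ}
    (hc : c ∈ Sym.Om (2 * Λ) R) (hc' : c' ∈ Sym.Om (2 * Λ) R') :
    ‖Y R' c' - Y R c‖ ≤ (|C| + 2 * B ^ 2) * (R' - R + ‖c' - c‖) := by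
  have a1 := h.lipR R R' hR h2 h3 c' hc'
  have a2 := h.lip R hR c' (h.nest R R' hR h2 _ (by linarith) (by linarith) hc') c hc
  have a3 : C * (R' - R) / R ≤ |C| * (R' - R) :=
    (div_le_div_of_nonneg_right (mul_le_mul_of_nonneg_right (le_abs_self C) (by linarith))
      (by linarith)).trans (div_le_self (by have := abs_nonneg C; nlinarith) h1)
  have a4 : 2 * R ^ 2 * ‖c' - c‖ ≤ 2 * B ^ 2 * ‖c' - c‖ := by gcongr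
  have a5 := norm_sub_le_norm_sub_add_norm_sub (Y R' c') (Y R c') (Y R c)
  nlinarith [mul_nonneg (abs_nonneg C) (norm_nonneg (c' - c)),
    mul_nonneg (sq_nonneg B) (sub_nonneg.2 h2)]

/-- the one-jet of a triple -/
abbrev j1 (p : T3 0) (z : P2) : J1 P2 ℂ := (fn p z, fn1 p z)

theorem continuous_gC : Continuous gC := by unfold gC; fun_prop

theorem margin (p : T3 0) {a b : ℝ} (h : ∀ z ∈ Icc a b, ∀ θ, 0 < (gC (j1 p (z, θ))).re) :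
    ∃ η ρ : ℝ, 0 < η ∧ 0 < ρ ∧ ∀ z ∈ Icc a b, ∀ θ, ∀ q, ‖q - j1 p (z, θ)‖ < ρ → η ≤ (gC q).re := by
  have hc : Continuous (j1 p) := (Cone.continuous_fn p).prodMk (Cone.continuous_fn1 p)
  have hK := ((isCompact_Icc (a := a) (b := b)).prod (isCompact_Icc (a := (0 : ℝ))
    (b := 2 * π))).image hc
  have hg : Continuous fun q => (gC q).re := Complex.continuous_re.comp continuous_gC
  obtain ⟨η, hη, h1⟩ := hK.exists_forall_le' hg.continuousOn (a := 0) (by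
    rintro _ ⟨z, hz, rfl⟩; exact h z.1 hz.1 z.2)
  obtain ⟨ρ, hρ, h2⟩ := hK.exists_thickening_subset_open (isOpen_lt (continuous_const (y := η / 2)) hg)
    fun q hq => (half_lt_self hη).trans_le (h1 q hq)
  refine ⟨η / 2, ρ, half_pos hη, hρ, fun z hz θ q hq => le_of_lt (h2 ?_)⟩
  have hp : Function.Periodic (fun θ => j1 p (z, θ)) (2 * π) := fun θ =>
    congrArg J2.one (jt_per p z θ)
  obtain ⟨θ', h3, h4⟩ := hp.exists_mem_Ico₀ Real.two_pi_pos θ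
  exact mem_thickening_iff.2 ⟨_, ⟨(z, θ'), ⟨hz, Ico_subset_Icc_self h3⟩, rfl⟩, by
    rw [dist_eq_norm, ← show j1 p (z, θ) = j1 p (z, θ') from h4]; exact hq⟩

theorem j1_mv {a b : ℝ} {p : T3 0} (h : End.Tri a b p) {z z' : ℝ} (hz : z ∈ Icc a b)
    (hz' : z' ∈ Icc a b) (θ : ℝ) : ‖j1 p (z', θ) - j1 p (z, θ)‖ ≤ 4 * ‖p‖ * |z' - z| := by
  have cv : Convex ℝ (Icc a b ×ˢ (univ : Set ℝ)) := (convex_Icc a b).prod convex_univ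
  have e : ‖((z', θ) : P2) - (z, θ)‖ = |z' - z| := by simp
  have b1 : ∀ w, ‖fn1 p w‖ ≤ 4 * ‖p‖ := fun w =>
    ((norm_fst_le (jt 0 w p).2).trans (norm_snd_le _)).trans (norm_jt_le p w)
  have b2 : ∀ w, ‖fn2 p w‖ ≤ 4 * ‖p‖ := fun w =>
    ((norm_snd_le (jt 0 w p).2).trans (norm_snd_le _)).trans (norm_jt_le p w)
  rw [← e]
  exact max_le (cv.norm_image_sub_le_of_norm_hasFDerivWithin_le
      (fun w hw => h.hasFDerivWithinAt hw.1) (fun w _ => b1 w) ⟨hz, trivial⟩ ⟨hz', trivial⟩)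
    (cv.norm_image_sub_le_of_norm_hasFDerivWithin_le
      (fun w hw => h.hasFDerivWithinAt1 hw.1) (fun w _ => b2 w) ⟨hz, trivial⟩ ⟨hz', trivial⟩)

theorem jet1_tri {a b : ℝ} {p : T3 0} (h : End.Tri a b p) {z : P2} (hz : z.1 ∈ Ioo a b) :
    jet1 (fn p) z = j1 p z := congrArg J2.one (h.jet2_eq hz)

variable {Λ δ' C₁ s Ra C₂ C₀ Rb R0 δ : ℝ} {cc Y : ℝ → ℂ → ℂ} {E : ℝ → A 2 × ℂ → T3 0}
  {g0 : AA} {hi : AA → A 2}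

theorem lipj (hE : End.IsEnd Λ δ' C₁ s Ra C₂ cc Y E) (hI : Sym.Inv C₀ Λ Rb cc Y) (hΛ : 0 ≤ Λ)
    (hs : 0 ≤ s) (ha : Ra ≤ R0) (hb : Rb ≤ R0) (hl : ∀ g g', ‖hi g' - hi g‖ ≤ ‖g' - g‖)
    (hm : ∀ g ∈ ball g0 δ, hi g ∈ ball (0 : A 2) δ') {R₁ : ℝ} (hR₁ : R0 ≤ R₁) {g₁ : AA}
    (hg₁ : g₁ ∈ ball g0 δ) {c₁ : ℂ} (hc₁ : c₁ ∈ Sym.Om (2 * Λ) R₁) :
    ∃ K ε₁ : ℝ, 0 ≤ K ∧ 0 < ε₁ ∧ ∀ {R R' g g' c c'}, R0 ≤ R → R ≤ R' → |R - R₁| < ε₁ →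
      |R' - R₁| < ε₁ → g ∈ ball g0 δ → g' ∈ ball g0 δ → ‖g - g₁‖ < ε₁ → ‖g' - g₁‖ < ε₁ →
      c ∈ Sym.Om (2 * Λ) R → c' ∈ Sym.Om (2 * Λ) R' → ‖c - c₁‖ < ε₁ → ‖c' - c₁‖ < ε₁ →
      ∀ z ∈ Icc s R, ∀ θ, ‖j1 (E R' (hi g', Y R' c')) (z, θ) - j1 (E R (hi g, Y R c)) (z, θ)‖ ≤
        K * (R' - R + ‖g' - g‖ + ‖c' - c‖) := by
  have big := hE.big
  have mem : ∀ {R g c}, R0 ≤ R → g ∈ ball g0 δ → c ∈ Sym.Om (2 * Λ) R →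
      (hi g, Y R c) ∈ End.Dm δ' Λ R := fun hR hg hc =>
    ⟨hm _ hg, (y_bd hI hΛ (hb.trans hR) hc).1⟩
  obtain ⟨K, ε, hε, hK⟩ := hE.lip R₁ (ha.trans hR₁) _ (mem hR₁ hg₁ hc₁)
  obtain ⟨L, hL⟩ : ∃ L, L = |C₀| + 2 * (R₁ + 1) ^ 2 + 1 := ⟨_, rfl⟩
  have L1 : 1 ≤ L := by rw [hL]; linarith [abs_nonneg C₀, sq_nonneg (R₁ + 1)]
  have xl : ∀ {R R' g g' c c'}, R0 ≤ R → R ≤ R' → R ≤ R₁ + 1 → R' ≤ R + 1 →
      c ∈ Sym.Om (2 * Λ) R → c' ∈ Sym.Om (2 * Λ) R' →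
      ‖((hi g', Y R' c') : A 2 × ℂ) - (hi g, Y R c)‖ ≤ L * (R' - R + ‖g' - g‖ + ‖c' - c‖) := by
    intro R R' g g' c c' h1 h2 h3 h4 hc hc'
    have a3 : 0 ≤ R' - R + ‖c' - c‖ := by linarith [norm_nonneg (c' - c)]
    refine max_le ((hl g g').trans ?_)
      ((y_lip hI hΛ (hb.trans h1) (by linarith) h3 h2 h4 hc hc').trans ?_)
    · exact le_trans (by linarith) (le_mul_of_one_le_left (by linarith [norm_nonneg (g' - g)]) L1)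
    · exact mul_le_mul (by linarith) (by linarith [norm_nonneg (g' - g)]) a3 (by linarith)
  obtain ⟨ε₁, e0, e1, e2⟩ : ∃ ε₁ : ℝ, 0 < ε₁ ∧ ε₁ ≤ 1 / 2 ∧ L * (3 * ε₁) ≤ ε := by
    refine ⟨min (1 / 2) (ε / (L * 3)), by positivity, min_le_left _ _, ?_⟩
    rw [← mul_assoc, ← le_div_iff₀' (by positivity)]; exact min_le_right _ _
  have e4 : ε₁ ≤ ε := le_trans (by linarith) ((le_mul_of_one_le_left (by positivity) L1).trans e2)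
  have near : ∀ {R g c}, R0 ≤ R → |R - R₁| < ε₁ → ‖g - g₁‖ < ε₁ → c ∈ Sym.Om (2 * Λ) R →
      ‖c - c₁‖ < ε₁ → ‖((hi g, Y R c) : A 2 × ℂ) - (hi g₁, Y R₁ c₁)‖ < ε := by
    intro R g c h1 h2 h3 hc h4
    obtain ⟨h5, h6⟩ := abs_lt.1 h2
    rcases le_total R R₁ with h | h
    · rw [norm_sub_rev] at h3 h4 ⊢
      exact (xl h1 h (by linarith) (by linarith) hc hc₁).trans_lt
        ((mul_lt_mul_of_pos_left (by linarith) (by linarith)).trans_le e2)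
    · exact (xl hR₁ h (by linarith) (by linarith) hc₁ hc).trans_lt
        ((mul_lt_mul_of_pos_left (by linarith) (by linarith)).trans_le e2)
  refine ⟨|K| * (L + 1), ε₁, by positivity, e0, ?_⟩
  intro R R' g g' c c' h1 h2 h3 h3' hg hg' h4 h4' hc hc' h5 h5' z hz θ
  obtain ⟨a1, a2⟩ := hK R R' _ _ (ha.trans h1) h2 (h3.trans_le e4) (h3'.trans_le e4)
    (mem h1 hg hc) (mem (h1.trans h2) hg' hc') (near h1 h3 h4 hc h5)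
    (near (h1.trans h2) h3' h4' hc' h5') z hz θ
  obtain ⟨h6, h7⟩ := abs_lt.1 h3
  obtain ⟨h6', h7'⟩ := abs_lt.1 h3'
  have a3 := xl (g := g) (g' := g') h1 h2 (by linarith) (by linarith) hc hc'
  refine (max_le a1 a2).trans ((mul_le_mul_of_nonneg_right (le_abs_self K)
    (by linarith [norm_nonneg (((hi g', Y R' c') : A 2 × ℂ) - (hi g, Y R c))])).trans ?_)
  rw [mul_assoc]
  exact mul_le_mul_of_nonneg_left
    (by linarith [norm_nonneg (g' - g), norm_nonneg (c' - c)]) (abs_nonneg K)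

/-- (X4) -/
theorem x4 (hE : End.IsEnd Λ δ' C₁ s Ra C₂ cc Y E) (hI : Sym.Inv C₀ Λ Rb cc Y) (hΛ : 0 ≤ Λ)
    (hs : 0 ≤ s) (ha : Ra ≤ R0) (hb : Rb ≤ R0) (hl : ∀ g g', ‖hi g' - hi g‖ ≤ ‖g' - g‖)
    (hm : ∀ g ∈ ball g0 δ, hi g ∈ ball (0 : A 2) δ') :
    ∀ R₁, R0 ≤ R₁ → ∀ g₁ ∈ ball g0 δ, ∀ c₁ ∈ Sym.Om (2 * Λ) R₁, ∃ M η ε₁ : ℝ, 0 < η ∧ 0 < ε₁ ∧
    ∀ R, R0 ≤ R → |R - R₁| < ε₁ → ∀ g ∈ ball g0 δ, ‖g - g₁‖ < ε₁ → ∀ c ∈ Sym.Om (2 * Λ) R,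
      ‖c - c₁‖ < ε₁ →
      (∀ p ∈ Icc s R ×ˢ (univ : Set ℝ),
        ‖jw2 (Icc s R ×ˢ univ) (fn (E R (hi g, Y R c))) p‖ ≤ M ∧
        η ≤ (gC (jw1 (Icc s R ×ˢ univ) (fn (E R (hi g, Y R c))) p)).re) ∧
      ∀ R', R ≤ R' → |R' - R₁| < ε₁ → ∀ g' ∈ ball g0 δ, ‖g' - g₁‖ < ε₁ →
        ∀ c' ∈ Sym.Om (2 * Λ) R', ‖c' - c₁‖ < ε₁ → ∀ p : P2, s < p.1 → p.1 < R →
          ‖jet1 (fn (E R' (hi g', Y R' c'))) p - jet1 (fn (E R (hi g, Y R c))) p‖ ≤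
            M * (R' - R + ‖g' - g‖ + ‖c' - c‖) := by
  intro R₁ hR₁ g₁ hg₁ c₁ hc₁
  have big := hE.big
  have mem : ∀ {R g c}, R0 ≤ R → g ∈ ball g0 δ → c ∈ Sym.Om (2 * Λ) R →
      (hi g, Y R c) ∈ End.Dm δ' Λ R := fun hR hg hc =>
    ⟨hm _ hg, (y_bd hI hΛ (hb.trans hR) hc).1⟩
  obtain ⟨K, ε, K0, hε, lip⟩ := lipj hE hI hΛ hs ha hb hl hm hR₁ hg₁ hc₁
  obtain ⟨η, ρ, hη, hρ, hG⟩ := margin (E R₁ (hi g₁, Y R₁ c₁)) (a := s) (b := R₁) fun z hz θ => by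
    have := (hE.good R₁ (ha.trans hR₁) _ (mem hR₁ hg₁ hc₁) z hz θ).2
    rwa [← gC_jt (E R₁ (hi g₁, Y R₁ c₁)) (z, θ)] at this
  obtain ⟨B, hB⟩ : ∃ B, B = 4 * (|C₂| * (R₁ + 1)) := ⟨_, rfl⟩
  have B0 : 0 ≤ B := hB ▸ mul_nonneg (by norm_num) (mul_nonneg (abs_nonneg _) (by linarith))
  obtain ⟨ε₁, e0, e1, e2, e3⟩ : ∃ ε₁ : ℝ, 0 < ε₁ ∧ ε₁ ≤ 1 ∧ ε₁ ≤ ε ∧ (3 * K + B + 1) * ε₁ ≤ ρ := by
    refine ⟨min 1 (min ε (ρ / (3 * K + B + 1))), by positivity, min_le_left _ _,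
      (min_le_right _ _).trans (min_le_left _ _), ?_⟩
    rw [← le_div_iff₀' (by positivity)]; exact (min_le_right _ _).trans (min_le_right _ _)
  refine ⟨B + K, η, ε₁, hη, e0, fun R hR h1 g hg h2 c hc h3 => ⟨fun p hp => ?_,
    fun R' h4 h5 g' hg' h6 c' hc' h7 p p1 p2 => ?_⟩⟩
  · obtain ⟨h6, h7⟩ := abs_lt.1 h1
    have T := hE.tri R (ha.trans hR) _ (mem hR hg hc)
    have hsR : s < R := by linarith
    have nb : 4 * ‖E R (hi g, Y R c)‖ ≤ B := by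
      rw [hB]
      exact mul_le_mul_of_nonneg_left ((hE.bdd R (ha.trans hR) _ (mem hR hg hc)).trans
        (mul_le_mul (le_abs_self _) (by linarith) (by linarith) (abs_nonneg _))) (by norm_num)
    have z0 : |R₁ - R₁| < ε := by simpa using hε
    have z1 : ‖g₁ - g₁‖ < ε := by simpa using hε
    have z2 : ‖c₁ - c₁‖ < ε := by simpa using hε
    rw [jw2_tri hsR T hp, jw1_tri hsR T hp]
    refine ⟨(norm_jt_le _ _).trans (by linarith), ?_⟩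
    change η ≤ (gC (j1 (E R (hi g, Y R c)) (p.1, p.2))).re
    rcases le_total R R₁ with h | h
    · refine hG p.1 ⟨hp.1.1, hp.1.2.trans h⟩ p.2 _ ?_
      have a1 := lip hR h (h1.trans_le e2) z0 hg hg₁ (h2.trans_le e2) z1 hc hc₁ (h3.trans_le e2) z2
        p.1 hp.1 p.2
      rw [norm_sub_rev] at h2 h3 ⊢
      linarith [mul_le_mul_of_nonneg_left
        (show R₁ - R + ‖g₁ - g‖ + ‖c₁ - c‖ ≤ 3 * ε₁ by linarith) K0, mul_nonneg B0 e0.le]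
    · have m1 : min p.1 R₁ ∈ Icc s R₁ := ⟨le_min hp.1.1 (by linarith), min_le_right _ _⟩
      refine hG _ m1 p.2 _ ?_
      have a1 := lip hR₁ h z0 (h1.trans_le e2) hg₁ hg z1 (h2.trans_le e2) hc₁ hc z2
        (h3.trans_le e2) _ m1 p.2
      have a2 := j1_mv T ⟨m1.1, m1.2.trans h⟩ hp.1 p.2
      have a3 : |p.1 - min p.1 R₁| ≤ ε₁ := by
        rcases le_total p.1 R₁ with h' | h'
        · simp [min_eq_left h', e0.le]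
        · rw [min_eq_right h', abs_of_nonneg (by linarith)]; linarith [hp.1.2]
      refine (norm_sub_le_norm_sub_add_norm_sub _ (j1 (E R (hi g, Y R c)) (min p.1 R₁, p.2))
        _).trans_lt ?_
      linarith [mul_le_mul_of_nonneg_left
        (show R - R₁ + ‖g - g₁‖ + ‖c - c₁‖ ≤ 3 * ε₁ by linarith) K0,
        mul_le_mul nb a3 (abs_nonneg _) B0]
  · rw [jet1_tri (hE.tri R (ha.trans hR) _ (mem hR hg hc)) ⟨p1, p2⟩,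
      jet1_tri (hE.tri R' (ha.trans (hR.trans h4)) _ (mem (hR.trans h4) hg' hc'))
        ⟨p1, p2.trans_le h4⟩]
    refine (lip hR h4 (h1.trans_le e2) (h5.trans_le e2) hg hg' (h2.trans_le e2) (h6.trans_le e2)
      hc hc' (h3.trans_le e2) (h7.trans_le e2) p.1 ⟨p1.le, p2.le⟩ p.2).trans ?_
    exact mul_le_mul_of_nonneg_right (by linarith)
      (by linarith [norm_nonneg (g' - g), norm_nonneg (c' - c)])

/-- (X5) -/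
theorem x5 (hE : End.IsEnd Λ δ' C₁ s Ra C₂ cc Y E) (hI : Sym.Inv C₀ Λ Rb cc Y) (hΛ : 0 ≤ Λ)
    (ha : Ra ≤ R0) (hb : Rb ≤ R0) (h0 : 4 * |C₂| + 1 ≤ R0) {C : ℝ}
    (hC : 2 * π * (128 * Real.exp 4) * C₂ ^ 2 * 8 ≤ C)
    (hm : ∀ g ∈ ball g0 δ, hi g ∈ ball (0 : A 2) δ') :
    ∀ R, R0 ≤ R → ∀ g ∈ ball g0 δ, ∀ c ∈ Sym.Om (2 * Λ) R,
    ‖(∫ θ in (0 : ℝ)..2 * π, Complex.exp (-fn (E R (hi g, Y R c)) (R, θ) ^ 2 / 4) *
        Complex.sqrt (fn (E R (hi g, Y R c)) (R, θ) ^ 2 +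
          deriv (fun t => fn (E R (hi g, Y R c)) (R, t)) θ ^ 2)) -
      Nm.bet (Y R c)‖ ≤ C * R ^ (-2 - 3 / 5 : ℝ) * ‖Y R c‖ ^ (-(1 / 2) : ℝ) := by
  intro R hR g hg c hc
  obtain ⟨y1, y2, y3⟩ := y_bd hI hΛ (hb.trans hR) hc
  have m : (hi g, Y R c) ∈ End.Dm δ' Λ R := ⟨hm _ hg, y1⟩
  have R1 : 1 ≤ R := by linarith [abs_nonneg C₂]
  have R0' : 0 < R := by linarith
  have t1 : R ^ (-(19 / 10) : ℝ) ≤ R⁻¹ := by
    rw [← Real.rpow_neg_one]; exact Real.rpow_le_rpow_of_exponent_le R1 (by norm_num)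
  have t0 : 0 ≤ R ^ (-(19 / 10) : ℝ) := by positivity
  have ht : C₂ * R ^ (-(19 / 10) : ℝ) < 1 / 4 := by
    refine (mul_le_mul (le_abs_self _) t1 t0 (abs_nonneg _)).trans_lt ?_
    rw [mul_inv_lt_iff₀ R0']; linarith
  have h := main_le y2 y3 (u := Cone.tr 2 R (E R (hi g, Y R c)).1)
    (by rw [Cone.cf_tr]; exact hE.tip0 R (ha.trans hR) _ m) ht
    (by rw [mul_right_comm]; exact hE.tip R (ha.trans hR) _ m)
  have e : ∀ θ, fn (E R (hi g, Y R c)) (R, θ) = ev 2 ℂ θ (Cone.tr 2 R (E R (hi g, Y R c)).1) :=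
    fun θ => Cone.val_eq_tr _ _ _
  simp only [e, (hasDerivAt_ev _ _).deriv]
  refine h.trans ?_
  have yp : 0 < ‖Y R c‖ := y2.trans_le (Complex.re_le_norm _)
  have a1 : √‖Y R c‖ ≤ 8 * ‖Y R c‖ ^ (-(1 / 2) : ℝ) := by
    rw [Real.sqrt_eq_rpow, show (1 / 2 : ℝ) = 1 + -(1 / 2) by norm_num, Real.rpow_add yp,
      Real.rpow_one, show -(1 + -(1 / 2) : ℝ) = -(1 / 2) by norm_num]
    gcongr
  have a2 : (R ^ (-(19 / 10) : ℝ)) ^ 2 ≤ R ^ (-2 - 3 / 5 : ℝ) := by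
    rw [← Real.rpow_natCast, ← Real.rpow_mul R0'.le]
    exact Real.rpow_le_rpow_of_exponent_le R1 (by norm_num)
  calc _ ≤ 2 * π * (128 * Real.exp 4) * (C₂ ^ 2 * R ^ (-2 - 3 / 5 : ℝ)) *
        (8 * ‖Y R c‖ ^ (-(1 / 2) : ℝ)) := by rw [mul_pow]; gcongr
    _ = 2 * π * (128 * Real.exp 4) * C₂ ^ 2 * 8 * R ^ (-2 - 3 / 5 : ℝ) *
        ‖Y R c‖ ^ (-(1 / 2) : ℝ) := by ring
    _ ≤ _ := by gcongr

/-- smallness of a triple gives smallness of its graph -/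
theorem cylSm_of {a b ε : ℝ} {p : T3 0} (T : End.Tri a b p) {z : P2} (hz : z.1 ∈ Ioo a b)
    (h1 : 4 * ‖p - End.cyl‖ ≤ ε) (h2 : |z.1| * ‖Cone.val p.2.1 z.1 z.2‖ ≤ ε) :
    CylSm ε (fn p) z := by
  refine ⟨?_, ?_⟩
  · rw [jet2_sub (T.contDiffAt hz) contDiffAt_const, jet2_const, T.jet2_eq hz, ← jt_cyl z,
      ← jt_apply, ← map_sub]
    exact (norm_jt_le _ _).trans h1
  · rw [(T.hasFDerivAt hz).fderiv, Cone.fn1_y, norm_mul, Complex.norm_real]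
    exact h2

/-- (X6) -/
theorem x6 (hE : End.IsEnd Λ δ' C₁ s Ra C₂ cc Y E) (hI : Sym.Inv C₀ Λ Rb cc Y) (hΛ : 0 ≤ Λ)
    (hs : 0 ≤ s) (ha : Ra ≤ R0) (hb : Rb ≤ R0) {δ₁ ε : ℝ} (h1 : δ₁ ≤ 1 / 2)
    (hε : ∀ g ∈ ball g0 δ, 4 * (|C₁| * (‖hi g‖ + δ₁)) ≤ ε)
    (hm : ∀ g ∈ ball g0 δ, hi g ∈ ball (0 : A 2) δ') :
    ∀ R, R0 ≤ R → ∀ g ∈ ball g0 δ, ∀ c ∈ Sym.Om (2 * Λ) R, ‖c‖ ≤ δ₁ / R ^ 2 →
    ∀ p : P2, s < p.1 → p.1 < R → CylSm ε (fn (E R (hi g, Y R c))) p := by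
  intro R hR g hg c hc h2 p p1 p2
  have m : (hi g, Y R c) ∈ End.Dm δ' Λ R := ⟨hm _ hg, (y_bd hI hΛ (hb.trans hR) hc).1⟩
  have T := hE.tri R (ha.trans hR) _ m
  have R0' : 0 < R := by linarith
  rw [le_div_iff₀ (by positivity)] at h2
  have h := hE.small R (ha.trans hR) _ m R ⟨by linarith, le_rfl⟩
  simp only [hI.right R (hb.trans hR) c hc, T.cl] at h
  obtain ⟨a1, a2⟩ := h (h2.trans h1)
  have a3 : C₁ * (‖hi g‖ + ‖c‖ * R ^ 2) ≤ |C₁| * (‖hi g‖ + δ₁) :=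
    mul_le_mul (le_abs_self _) (by linarith) (by positivity) (abs_nonneg _)
  have a4 := hε g hg
  refine cylSm_of T ⟨p1, p2⟩ (by linarith) ?_
  rw [abs_of_nonneg (by linarith)]
  linarith [a2 p.1 ⟨p1.le, p2.le⟩ p.2, norm_nonneg (E R (hi g, Y R c) - End.cyl)]

end

end Vale.Agent.P218F.LS.EX
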