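import Vale.Agent.P218F.LSEndX

/-! Cylindrical ends: the qualitative fields and (X3) of the family on finite cylinders. -/

set_option maxSynthPendingDepth 3

namespace Vale.Agent.P218F.LS.EX

open Set Filter Topology Metric Wien Core EB
open Cone (W A T3 BC fn fn1 fn2 vT)
open scoped Real

noncomputable section

variable {Λ δ' C₁ s Ra C₂ C₀ Rb R0 δ C : ℝ} {cc Y : ℝ → ℂ → ℂ} {E : ℝ → A 2 × ℂ → T3 0}
  {g0 : AA} {hi : AA → A 2}

/-- the standing hypotheses -/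
structure Hy (Λ δ' C₁ s Ra C₂ C₀ Rb R0 δ : ℝ) (cc Y : ℝ → ℂ → ℂ) (E : ℝ → A 2 × ℂ → T3 0)
    (g0 : AA) (hi : AA → A 2) : Prop where
  hE : End.IsEnd Λ δ' C₁ s Ra C₂ cc Y E
  hI : Sym.Inv C₀ Λ Rb cc Y
  lam : 0 ≤ Λ
  hs : 0 ≤ s
  ha : Ra ≤ R0
  hb : Rb ≤ R0
  hm : ∀ g ∈ ball g0 δ, hi g ∈ ball (0 : A 2) δ'

namespace Hy

variable (H : Hy Λ δ' C₁ s Ra C₂ C₀ Rb R0 δ cc Y E g0 hi)
include H

theorem mem {R : ℝ} {g : AA} {c : ℂ} (hR : R0 ≤ R) (hg : g ∈ ball g0 δ)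
    (hc : c ∈ Sym.Om (2 * Λ) R) : (hi g, Y R c) ∈ End.Dm δ' Λ R :=
  ⟨H.hm _ hg, (y_bd H.hI H.lam (H.hb.trans hR) hc).1⟩

theorem big : 2 * s + 20 ≤ R0 := H.hE.big.trans H.ha

theorem tri {R : ℝ} {g : AA} {c : ℂ} (hR : R0 ≤ R) (hg : g ∈ ball g0 δ)
    (hc : c ∈ Sym.Om (2 * Λ) R) : End.Tri s R (E R (hi g, Y R c)) :=
  H.hE.tri R (H.ha.trans hR) _ (H.mem hR hg hc)

theorem fc2 : ∀ R, R0 ≤ R → ∀ g ∈ ball g0 δ, ∀ c ∈ Sym.Om (2 * Λ) R,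
    ContDiffOn ℝ 2 (fn (E R (hi g, Y R c))) (Icc s R ×ˢ univ) :=
  fun _ hR _ hg _ hc => (H.tri hR hg hc).contDiffOn

omit H in
theorem fper : ∀ R, R0 ≤ R → ∀ g ∈ ball g0 δ, ∀ c ∈ Sym.Om (2 * Λ) R, ∀ p : P2,
    fn (E R (hi g, Y R c)) (p.1, p.2 + 2 * π) = fn (E R (hi g, Y R c)) p :=
  fun _ _ _ _ _ _ p => fn_per _ p

theorem feq {a b c : P218FT.E3} (T : P218FT.Triple a b c) (h8 : 8 ≤ C) (h1 : C₁ ≤ C) :
    ∀ R, R0 ≤ R → ∀ g ∈ ball g0 δ, ∀ t ∈ Sym.Om (2 * Λ) R, ∀ p : P2, s < p.1 → p.1 < R →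
    fn (E R (hi g, Y R t)) p ≠ 0 ∧
      shrG (Ba c) (End.eR a b) p (jet2 (fn (E R (hi g, Y R t))) p) = 0 ∧
      ‖jet1 (fn (E R (hi g, Y R t))) p‖ ≤ C := by
  intro R hR g hg t ht p p1 p2
  have m := H.mem hR hg ht
  have Tr := H.tri hR hg ht
  obtain ⟨g1, g2⟩ := H.hE.good R (H.ha.trans hR) _ m p.1 ⟨p1.le, p2.le⟩ p.2
  obtain ⟨b1, b2⟩ := H.hE.bd1 R (H.ha.trans hR) _ m p.1 ⟨p1.le, p2.le⟩ p.2
  have n1 : fn (E R (hi g, Y R t)) p ≠ 0 := fun e => by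
    rw [show (p.1, p.2) = p from rfl, e] at g1; simp at g1
  refine ⟨n1, ?_, ?_⟩
  · rw [shrG_cyl (Tr.contDiffAt ⟨p1, p2⟩)]
    exact Tr.shr_eq_zero T (H.hE.eqn R (H.ha.trans hR) _ m) ⟨p1, p2⟩ n1 fun e => by
      rw [show (p.1, p.2) = p from rfl, e] at g2; simp at g2
  · rw [jet1_tri Tr ⟨p1, p2⟩]
    exact max_le (b1.trans h8) (b2.trans h1)

theorem neu : ∀ R, R0 ≤ R → ∀ g ∈ ball g0 δ, ∀ c ∈ Sym.Om (2 * Λ) R, ∀ θ,
    fderivWithin ℝ (fn (E R (hi g, Y R c))) (Icc s R ×ˢ univ) (R, θ) (1, 0) = 0 := by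
  intro R hR g hg c hc θ
  have hsR : s < R := by linarith [H.big, H.hs]
  have e := congrArg Prod.snd
    (jw1_tri hsR (H.tri hR hg hc) (z := (R, θ)) ⟨⟨hsR.le, le_rfl⟩, trivial⟩)
  have z : Cone.tr 1 R (E R (hi g, Y R c)).2.1 = 0 := by
    ext k
    rw [Cone.cf_tr, cf_zero]
    exact H.hE.neu R (H.ha.trans hR) _ (H.mem hR hg hc) k
  change fderivWithin ℝ _ _ _ = fn1 _ _ at e
  rw [e, Cone.fn1_y, Cone.val_eq_tr, z, map_zero]

theorem fmat (hh : ∀ g (k : ℤ), 2 ≤ |k| → cf (hi g) k = cf g k) :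
    ∀ R, R0 ≤ R → ∀ g ∈ ball g0 δ, ∀ c ∈ Sym.Om (2 * Λ) R,
      lowL (Cone.tr 2 s (E R (hi g, Y R c)).1 - g) = 0 →
      ∀ θ, fn (E R (hi g, Y R c)) (s, θ) = Wien.ev 2 ℂ θ g := by
  intro R hR g hg c hc h θ
  have := eq_zero_of_low h fun k hk => by
    rw [cf_sub, Cone.cf_tr, H.hE.trace R (H.ha.trans hR) _ (H.mem hR hg hc) k hk, hh g k hk,
      sub_self]
  exact (Cone.val_eq_tr _ _ _).trans (congrArg _ (sub_eq_zero.1 this))

theorem freal (hst : ∀ g, star g = g → star (hi g) = hi g) :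
    ∀ R, R0 ≤ R → ∀ g ∈ ball g0 δ, ∀ c ∈ Sym.Om (2 * Λ) R, ReA g → c.im = 0 →
    (∀ p : P2, s ≤ p.1 → p.1 ≤ R → (fn (E R (hi g, Y R c)) p).im = 0) ∧
      IsRe (lowL (Cone.tr 2 s (E R (hi g, Y R c)).1 - g)) := by
  intro R hR g hg c hc h1 h2
  have sg : star g = g :=
    ((star_eq_iff_ev g).trans (forall_congr' fun _ => Complex.conj_eq_iff_im)).2 h1
  have e : star (E R (hi g, Y R c)).1 = (E R (hi g, Y R c)).1 :=
    congrArg Prod.fst (H.hE.real R (H.ha.trans hR) _ (H.mem hR hg hc) (hst g sg)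
      (H.hI.real R (H.hb.trans hR) c hc h2))
  exact ⟨fun p _ _ => im_val e _ _, isRe_lowL (by rw [star_sub, Cone.star_tr, e, sg])⟩

theorem hol (hd : Differentiable ℂ hi) {R : ℝ} (hR : R0 ≤ R) : DifferentiableOn ℂ
    (fun q : AA × ℂ => E R (hi q.1, Y R q.2)) (ball g0 δ ×ˢ Sym.Om (2 * Λ) R) :=
  (H.hE.hol R (H.ha.trans hR)).comp ((hd.comp differentiable_fst).differentiableOn.prodMk
    ((H.hI.hol R (H.hb.trans hR)).comp differentiableOn_snd fun _ h => h.2))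
    fun _ h => H.mem hR h.1 h.2

theorem fhol (hd : Differentiable ℂ hi) : ∀ R, R0 ≤ R →
    (∀ p : P2, s < p.1 → p.1 < s + 6 → DifferentiableOn ℂ
      (fun q : AA × ℂ => jet1 (fn (E R (hi q.1, Y R q.2))) p) (ball g0 δ ×ˢ Sym.Om (2 * Λ) R)) ∧
    DifferentiableOn ℂ (fun q : AA × ℂ => lowL (Cone.tr 2 s (E R (hi q.1, Y R q.2)).1 - q.1))
      (ball g0 δ ×ˢ Sym.Om (2 * Λ) R) := by
  intro R hR
  refine ⟨fun p p1 p2 => ?_, ?_⟩
  · refine ((oneL.comp (jt 0 p)).differentiable.comp_differentiableOn (H.hol hd hR)).congr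
      fun q hq => jet1_tri (H.tri hR hq.1 hq.2) ⟨p1, by linarith [H.big, H.hs]⟩
  · exact lowL.differentiable.comp_differentiableOn
      (((Cone.tr 2 s).differentiable.comp_differentiableOn (H.hol hd hR).fst).sub
        differentiableOn_fst)

/-- (X3) -/
theorem x3 (hC : 4 * (|C₂| * (s + 6) ^ 2) ≤ C) :
    ∀ R R', R0 ≤ R → R ≤ R' → R' ≤ R + 1 → ∀ g ∈ ball g0 δ, ∀ c ∈ Sym.Om (2 * Λ) R',
    ‖lowL (Cone.tr 2 s (E R' (hi g, Y R' c)).1 - g) - lowL (Cone.tr 2 s (E R (hi g, Y R c)).1 - g)‖ ≤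
        C * (R' - R) * R ^ (-5 - 3 / 5 : ℝ) ∧
      ∀ p : P2, s < p.1 → p.1 < s + 6 →
        ‖jet2 (fn (E R' (hi g, Y R' c))) p - jet2 (fn (E R (hi g, Y R c))) p‖ ≤
          C * (R' - R) * R ^ (-5 - 3 / 5 : ℝ) := by
  intro R R' hR h1 h2 g hg c hc
  have big := H.big
  have hs := H.hs
  have hc0 := H.hI.nest R R' (H.hb.trans hR) h1 _ (by linarith [H.lam]) (by linarith [H.lam]) hc
  have h := H.hE.lipR R R' (H.ha.trans hR) h1 h2 _ (H.hm g hg) c hc (s + 6)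
    ⟨by linarith, by linarith⟩
  have hb : 4 * ‖End.res3 s (s + 6) (E R' (hi g, Y R' c)) - End.res3 s (s + 6) (E R (hi g, Y R c))‖
      ≤ C * (R' - R) * R ^ (-5 - 3 / 5 : ℝ) := by
    have p0 : 0 ≤ (R' - R) * R ^ (-5 - 3 / 5 : ℝ) :=
      mul_nonneg (by linarith) (Real.rpow_nonneg (by linarith) _)
    rw [show (-(28 / 5) : ℝ) = -5 - 3 / 5 by norm_num] at h
    linarith [mul_le_mul_of_nonneg_right hC p0, mul_le_mul_of_nonneg_right (le_abs_self C₂)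
      (mul_nonneg (sq_nonneg (s + 6)) p0)]
  refine ⟨?_, fun p p1 p2 => ?_⟩
  · have m : s ∈ Icc s (s + 6) := ⟨le_rfl, by linarith⟩
    rw [← map_sub, sub_sub_sub_cancel_right, ← tr_res _ m, ← tr_res (E R _).1 m, ← map_sub]
    refine (norm_lowL_le _).trans (le_trans ?_ hb)
    have := (norm_tr_apply_le s _).trans (norm_fst_le
      (End.res3 s (s + 6) (E R' (hi g, Y R' c)) - End.res3 s (s + 6) (E R (hi g, Y R c))))
    exact mul_le_mul (by norm_num) this (norm_nonneg _) (by norm_num)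
  · rw [(H.tri hR hg hc0).jet2_eq ⟨p1, by linarith⟩,
      (H.tri (hR.trans h1) hg hc).jet2_eq ⟨p1, by linarith⟩, ← jt_apply, ← jt_apply,
      ← jt_res3 _ (a := s) (b := s + 6) ⟨p1.le, p2.le⟩,
      ← jt_res3 (E R _) (a := s) (b := s + 6) ⟨p1.le, p2.le⟩, ← map_sub]
    exact (norm_jt_le _ _).trans hb

end Hy

/-- the trace minus the trace of the cylinder -/
def hh (g : AA) : A 2 := g - algebraMap ℂ (A 2) (√2 : ℝ)

theorem hh_lip (g g' : AA) : ‖hh g' - hh g‖ ≤ ‖g' - g‖ := by simp [hh]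

theorem hh_diff : Differentiable ℂ hh := differentiable_id.sub_const _

theorem alg_eq (w : ℂ) : algebraMap ℂ (A 2) w = const ℤ 2 ℂ w := by
  refine ext_ev fun θ => ?_
  rw [ev_const]; exact (evA 2 ℂ θ).commutes w

theorem hh_cf (g : AA) (k : ℤ) (hk : 2 ≤ |k|) : cf (hh g) k = cf g k := by
  have : k ≠ 0 := by rintro rfl; simp at hk
  simp [hh, alg_eq, const_apply, cf_single, this]

theorem hh_star (g : AA) (h : star g = g) : star (hh g) = hh g := by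
  refine ext_ev fun θ => ?_
  rw [hh, star_sub, h, map_sub, map_sub, ev_star, alg_eq, ev_const]
  simp

end

end Vale.Agent.P218F.LS.EX
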