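import Vale.Agent.P218F.LSEnd
import Vale.Agent.P218F.LSEl
import Vale.Agent.P218F.LSChart

/-! The Gaussian area of the reduced family: the limit `R → ∞` and the value at the shrinker. -/

open MeasureTheory Set Filter Topology Metric Matrix
open scoped ContDiff RealInnerProductSpace Real

set_option maxSynthPendingDepth 3

noncomputable section

namespace Vale.Agent.P218F.LS

open Vale.Agent.P218FT hiding P2
open Vale.Agent.P218F.Core Vale.Agent.P218F.Ends Vale.Agent.P218F.Ft Vale.Agent.P218F.Mesh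

namespace Lm

/-! ### One-jets of graphs -/

/-- the one-jet of `B + u W` -/
def gj (B W : Jt) (u : J1 P2 ℂ) : Jt := B + (u.1 • W.1, u.1 • W.2 + u.2.smulRight W.1)

theorem jet1_graph {B W : P2 → C3} {u : P2 → ℂ} {p : P2} (hB : DifferentiableAt ℝ B p)
    (hW : DifferentiableAt ℝ W p) (hu : DifferentiableAt ℝ u p) :
    jet1 (fun η => B η + u η • W η) p = gj (jet1 B p) (jet1 W p) (jet1 u p) := by
  rw [jet1_add (g := fun η => u η • W η) hB (hu.smul hW), gj]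
  congr 1
  exact Prod.ext rfl (fderiv_fun_smul hu hW)

theorem continuous_gj : Continuous fun v : Jt × Jt × J1 P2 ℂ => gj v.1 v.2.1 v.2.2 := by
  have e : ∀ (a : P2 →L[ℝ] ℂ) (w : C3), a.smulRight w =
      ((ContinuousLinearMap.lsmul ℝ ℂ (E := C3)).flip w).comp a := fun a w => by ext <;> simp
  simp only [gj, e]
  refine continuous_fst.add (Continuous.prodMk (by fun_prop) (Continuous.add (by fun_prop)
    (Continuous.clm_comp ((ContinuousLinearMap.continuous _).comp (by fun_prop)) (by fun_prop))))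

theorem tendsto_gj {ι : Type} {l : Filter ι} {B W : ι → Jt} {u : ι → J1 P2 ℂ} {B₀ W₀ : Jt}
    {u₀ : J1 P2 ℂ} (hB : Tendsto B l (𝓝 B₀)) (hW : Tendsto W l (𝓝 W₀)) (hu : Tendsto u l (𝓝 u₀)) :
    Tendsto (fun i => gj (B i) (W i) (u i)) l (𝓝 (gj B₀ W₀ u₀)) :=
  (continuous_gj.tendsto (B₀, W₀, u₀)).comp (hB.prodMk_nhds (hW.prodMk_nhds hu))

theorem norm_gj_le {B W : Jt} {u : J1 P2 ℂ} {b w c : ℝ} (hB : ‖B.2‖ ≤ b) (hW : ‖W‖ ≤ w)
    (hu : ‖u‖ ≤ c) : ‖u.1 • W.1‖ ≤ c * w ∧ ‖(gj B W u).2‖ ≤ b + 2 * (c * w) := by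
  have c0 : 0 ≤ c := (norm_nonneg _).trans hu
  have h1 : ‖u.1 • W.1‖ ≤ c * w := (norm_smul_le _ _).trans
    (mul_le_mul ((norm_fst_le u).trans hu) ((norm_fst_le W).trans hW) (norm_nonneg _) c0)
  have h2 : ‖u.1 • W.2‖ ≤ c * w := (norm_smul_le _ _).trans
    (mul_le_mul ((norm_fst_le u).trans hu) ((norm_snd_le W).trans hW) (norm_nonneg _) c0)
  have h3 : ‖u.2.smulRight W.1‖ ≤ c * w := by
    refine ContinuousLinearMap.opNorm_le_bound _ ((norm_nonneg _).trans h1) fun v => ?_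
    rw [ContinuousLinearMap.smulRight_apply, norm_smul, mul_right_comm]
    exact mul_le_mul (u.2.le_of_opNorm_le ((norm_snd_le u).trans hu) v)
      ((norm_fst_le W).trans hW) (norm_nonneg _) (by positivity)
  refine ⟨h1, (norm_add_le _ _).trans (add_le_add hB ((norm_add_le _ _).trans ?_))⟩
  linarith

theorem norm_jet1_le {V : Type} [NormedAddCommGroup V] [NormedSpace ℝ V] (q : J2 P2 V) :
    ‖q.one‖ ≤ ‖q‖ := max_le (norm_fst_le q) ((norm_fst_le q.2).trans (norm_snd_le q))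

/-! ### Dominated convergence on the ends -/

theorem aesm_lag {q : P2 → Jt} {s : Set P2} (hs : MeasurableSet s) (h : ContinuousOn q s) :
    AEStronglyMeasurable (fun v => lag (q v)) (volume.restrict s) := by
  refine AEStronglyMeasurable.mul (ContinuousOn.aestronglyMeasurable ?_ hs) ?_
  · exact (Complex.continuous_exp.comp ((continuous_fst.dotProduct continuous_fst).neg.div_const
      4)).comp_continuousOn h
  · exact (((continuous_gdet.comp continuous_snd).comp_continuousOn h).aemeasurable hs).pow_const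
      (2⁻¹ : ℂ) |>.aestronglyMeasurable

theorem int_end {q : P2 → Jt} {s : ℝ} {g : ℝ → ℝ} (hg : IntegrableOn g (Ioi s))
    (hc : ContinuousOn q (Ioi s ×ˢ univ))
    (hb : ∀ v : P2, s < v.1 → v.2 ∈ Icc 0 (2 * π) → ‖lag (q v)‖ ≤ g v.1) :
    IntegrableOn (fun v => lag (q v)) (Ioi s ×ˢ Ioc 0 (2 * π)) := by
  have hm : MeasurableSet (Ioi s ×ˢ Ioc 0 (2 * π) : Set P2) :=
    measurableSet_Ioi.prod measurableSet_Ioc
  have i : IntegrableOn (fun y : P2 => g y.1) (Ioi s ×ˢ Ioc 0 (2 * π)) := by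
    rw [IntegrableOn, Measure.volume_eq_prod, ← Measure.prod_restrict]
    exact Integrable.comp_fst hg _
  refine i.mono' (aesm_lag hm (hc.mono (prod_mono subset_rfl (subset_univ _)))) ?_
  filter_upwards [ae_restrict_mem hm] with v hv using hb v hv.1 (Ioc_subset_Icc_self hv.2)

theorem dct_end {A : ℝ → Set ℝ} {s : ℝ} {q : ℝ → P2 → Jt} {q₀ : P2 → Jt} {g : ℝ → ℝ}
    (hA : ∀ R, MeasurableSet (A R)) (hs : ∀ R, A R ⊆ Ioi s)
    (hev : ∀ z, s < z → ∀ᶠ R in atTop, z ∈ A R) (hg : IntegrableOn g (Ioi s)) (g0 : ∀ z, 0 ≤ g z)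
    (hc : ∀ᶠ R in atTop, ContinuousOn (q R) (A R ×ˢ univ) ∧
      ∀ v : P2, v.1 ∈ A R → v.2 ∈ Icc 0 (2 * π) → ‖lag (q R v)‖ ≤ g v.1)
    (hl : ∀ v : P2, s < v.1 → q₀ v ∈ good ∧ Tendsto (fun R => q R v) atTop (𝓝 (q₀ v))) :
    Tendsto (fun R => ∫ v in A R ×ˢ Ioc 0 (2 * π), lag (q R v)) atTop
      (𝓝 (∫ v in Ioi s ×ˢ Ioc 0 (2 * π), lag (q₀ v))) := by
  have hm : MeasurableSet (Ioi s ×ˢ Ioc 0 (2 * π) : Set P2) :=
    measurableSet_Ioi.prod measurableSet_Ioc
  have hm' : ∀ R, MeasurableSet (A R ×ˢ Ioc 0 (2 * π) : Set P2) := fun R =>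
    (hA R).prod measurableSet_Ioc
  have hsub : ∀ R, (A R ×ˢ Ioc 0 (2 * π) : Set P2) ⊆ Ioi s ×ˢ Ioc 0 (2 * π) := fun R =>
    prod_mono (hs R) subset_rfl
  have i : IntegrableOn (fun y : P2 => g y.1) (Ioi s ×ˢ Ioc 0 (2 * π)) := by
    rw [IntegrableOn, Measure.volume_eq_prod, ← Measure.prod_restrict]
    exact Integrable.comp_fst hg _
  have e : ∀ R, ∫ v in A R ×ˢ Ioc 0 (2 * π), lag (q R v) = ∫ v in Ioi s ×ˢ Ioc 0 (2 * π),
      (A R ×ˢ Ioc 0 (2 * π) : Set P2).indicator (fun v => lag (q R v)) v := fun R => by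
    rw [setIntegral_indicator (hm' R), inter_eq_self_of_subset_right (hsub R)]
  simp only [e]
  refine tendsto_integral_filter_of_dominated_convergence (fun y : P2 => g y.1) ?_ ?_ i ?_
  · filter_upwards [hc] with R hR
    rw [aestronglyMeasurable_indicator_iff (hm' R), Measure.restrict_restrict (hm' R),
      inter_eq_self_of_subset_left (hsub R)]
    exact aesm_lag (hm' R) (hR.1.mono (prod_mono subset_rfl (subset_univ _)))
  · filter_upwards [hc] with R hR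
    refine Eventually.of_forall fun v => ?_
    by_cases hv : v ∈ (A R ×ˢ Ioc 0 (2 * π) : Set P2)
    · rw [indicator_of_mem hv]
      exact hR.2 v hv.1 (Ioc_subset_Icc_self hv.2)
    · rw [indicator_of_notMem hv, norm_zero]
      exact g0 _
  · filter_upwards [ae_restrict_mem hm] with v hv
    refine (((an_lag (hl v hv.1).1).continuousAt.tendsto).comp (hl v hv.1).2).congr' ?_
    filter_upwards [hev v.1 hv.1] with R hR
    rw [indicator_of_mem (show v ∈ (A R ×ˢ Ioc 0 (2 * π) : Set P2) from ⟨hR, hv.2⟩)]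
    rfl

/-- one-jets of functions of the angle are bounded -/
theorem angle_bound {f : ℝ → C3} (hf : ContDiff ℝ 1 f) : ∃ M, 0 ≤ M ∧ ∀ p : P2,
    p.2 ∈ Icc 0 (2 * π) → ‖jet1 (fun η : P2 => f η.2) p‖ ≤ M := by
  obtain ⟨M, hM⟩ := isCompact_Icc.exists_bound_of_continuousOn (s := Icc 0 (2 * π))
    (f := jet1 f) fun θ _ => (continuousAt_jet1 hf.contDiffAt).continuousWithinAt
  refine ⟨max M 0, le_max_right _ _, fun p hp => le_max_of_le_left (max_le
    ((norm_fst_le (jet1 f p.2)).trans (hM _ hp)) ?_)⟩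
  have := ((hf.differentiable (by simp) p.2).hasFDerivAt.comp p hasFDerivAt_snd).fderiv
  refine (congrArg norm this).trans_le ((ContinuousLinearMap.opNorm_comp_le _ _).trans ?_)
  exact (mul_le_of_le_one_right (norm_nonneg _) (ContinuousLinearMap.norm_snd_le ..)).trans
    ((norm_snd_le (jet1 f p.2)).trans (hM _ hp))

theorem hasFDerivAt_ey (p : P2) : HasFDerivAt ey
    (Complex.ofRealCLM.comp (Real.exp p.1 • ContinuousLinearMap.fst ℝ ℝ ℝ)) p :=
  Complex.ofRealCLM.hasFDerivAt.comp p (HasFDerivAt.exp (f := Prod.fst) hasFDerivAt_fst)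

theorem ey_bound {f : ℝ → C3} (hf : ContDiff ℝ 1 f) : ∃ M, 0 ≤ M ∧ ∀ p : P2,
    p.2 ∈ Icc 0 (2 * π) → ‖jet1 (fun η : P2 => ey η • f η.2) p‖ ≤ M * Real.exp p.1 := by
  obtain ⟨M, M0, hM⟩ := angle_bound hf
  refine ⟨2 * M, by positivity, fun p hp => ?_⟩
  have e0 := Real.exp_pos p.1
  have h1 : ‖jet1 ey p‖ ≤ Real.exp p.1 := by
    refine max_le (by simp [jet1, ey]) ?_
    show ‖fderiv ℝ ey p‖ ≤ _
    rw [(hasFDerivAt_ey p).fderiv]
    refine ContinuousLinearMap.opNorm_le_bound _ e0.le fun v => ?_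
    simpa using mul_le_mul_of_nonneg_left (norm_fst_le v) e0.le
  have h2 := jet1_graph (B := fun _ => 0) (W := fun η : P2 => f η.2) (differentiableAt_const _)
    ((hf.differentiable (by simp) p.2).comp p differentiableAt_snd)
    (hasFDerivAt_ey p).differentiableAt
  simp only [zero_add] at h2
  obtain ⟨h3, h4⟩ := norm_gj_le (B := jet1 (fun _ : P2 => (0 : C3)) p) (b := 0)
    (by simp [jet1]) (hM p hp) h1
  rw [← h2] at h4
  refine max_le (h3.trans ?_) (h4.trans ?_) <;> nlinarith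

variable {S : Set E3} (D : EndData S)

theorem diff_B (j : JJ D) (p : P2) : DifferentiableAt ℝ (Bx D j) p :=
  (cE.contDiff.comp (Ch.smooth D j).1).differentiable (by simp) p

theorem diff_W (j : JJ D) (p : P2) : DifferentiableAt ℝ (Wx D j) p :=
  (cE.contDiff.comp (Ch.smooth D j).2.1).differentiable (by simp) p

theorem jet1_Ye (j : JJ D) {e : P2 → ℂ} {p : P2} (he : DifferentiableAt ℝ e p) :
    jet1 (Ye D j e) p = gj (jet1 (Bx D j) p) (jet1 (Wx D j) p) (jet1 e p) :=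
  jet1_graph (diff_B D j p) (diff_W D j p) he

theorem cOn_Ye (j : JJ D) {e : P2 → ℂ} {I : Set ℝ}
    (he : ∀ p : P2, p.1 ∈ I → ContDiffAt ℝ 2 e p) : ContinuousOn (jet1 (Ye D j e)) (I ×ˢ univ) :=
  fun p hp => (continuousAt_jet1 (W := Ye D j e)
    (((cE.contDiff.comp (Ch.smooth D j).1).of_le (by simp)).contDiffAt.add
      (((he p hp.1).of_le one_le_two).smul ((cE.contDiff.comp (Ch.smooth D j).2.1).of_le
        (by simp)).contDiffAt))).continuousWithinAt

theorem cyl_bound (j : Fin D.m) (C : ℝ) : ∃ K, 0 ≤ K ∧ ∀ (e : P2 → ℂ) (p : P2),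
    DifferentiableAt ℝ e p → ‖jet1 e p‖ ≤ C → p.2 ∈ Icc 0 (2 * π) →
      ‖lag (jet1 (Ye D (.inl j) e) p)‖ ≤ K * Real.exp (-p.1 ^ 2 / 4) := by
  have T := (D.cyl j).tri
  obtain ⟨M, M0, hM⟩ := angle_bound (f := fun θ => cE (Real.cos θ • D.a j + Real.sin θ • D.b j))
    (cE.contDiff.comp (by fun_prop))
  let L : P2 →L[ℝ] C3 := cE.comp ((ContinuousLinearMap.fst ℝ ℝ ℝ).smulRight (D.c j))
  refine ⟨Real.exp (3 * (‖L‖ + 2 * (C * M)) ^ 2 / 4) * (5 * (‖L‖ + 2 * (C * M)) ^ 2),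
    by positivity, fun e p he hb hp => ?_⟩
  obtain ⟨h1, h2⟩ := norm_gj_le (B := jet1 (Bx D (.inl j)) p) (W := jet1 (Wx D (.inl j)) p)
    (b := ‖L‖) (le_of_eq (congrArg norm L.fderiv)) (hM p hp) hb
  rw [← jet1_Ye D _ he] at h2
  have h0 := (norm_nonneg _).trans h1
  refine norm_lag_cyl (c := cE (D.c j)) (by rw [cE_dot, real_inner_self_eq_norm_sq, T.nc]; simp)
    ?_ ?_ h2
  · simp only [jet1, Ye, Bs, Wd, dotProduct_add, dotProduct_smul, cE_dot, inner_add_right,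
      inner_smul_right, real_inner_self_eq_norm_sq, T.nc, real_inner_comm (D.a j),
      real_inner_comm (D.b j), T.ac, T.bc]
    simp
  · refine le_trans (le_of_eq ?_) (h1.trans (by linarith [norm_nonneg L]))
    simp only [jet1, Ye, Bs, map_smul, Complex.coe_smul, add_sub_cancel_left]

theorem Ye_cone (i : Fin D.k) (e : P2 → ℂ) : Ye D (.inr i) e =
    fun p => ey p • cE (D.γ i p.2) + scl e p • (ey p • cE (D.n i p.2)) := by
  funext p
  have : scl e p * ey p = e p := by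
    rw [scl, ey, mul_right_comm, ← Complex.ofReal_mul, ← Real.exp_add]
    simp
  simp only [Ye, Bs, Wd, map_smul, smul_smul, this]
  rw [ey, Complex.coe_smul]

theorem diff_ey {f : ℝ → E3} (hf : ContDiff ℝ ∞ f) (p : P2) :
    DifferentiableAt ℝ (fun η : P2 => ey η • cE (f η.2)) p :=
  (hasFDerivAt_ey p).differentiableAt.smul
    ((((cE.contDiff.comp hf).differentiable (by simp)) p.2).comp p differentiableAt_snd)

theorem diff_scl {e : P2 → ℂ} {p : P2} (he : DifferentiableAt ℝ e p) :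
    DifferentiableAt ℝ (scl e) p :=
  DifferentiableAt.mul (Complex.ofRealCLM.differentiableAt.comp p (by fun_prop)) he

theorem jet1_cone (i : Fin D.k) {e : P2 → ℂ} {p : P2} (he : DifferentiableAt ℝ e p) :
    jet1 (Ye D (.inr i) e) p = gj (jet1 (fun η : P2 => ey η • cE (D.γ i η.2)) p)
      (jet1 (fun η : P2 => ey η • cE (D.n i η.2)) p) (jet1 (scl e) p) := by
  rw [Ye_cone]
  exact jet1_graph (diff_ey (D.cone i).crv.smooth p) (diff_ey (D.cone i).crv.smooth_n p)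
    (diff_scl he)

theorem cone_bound (i : Fin D.k) : ∃ K, 0 ≤ K ∧ ∀ (e : P2 → ℂ) (p : P2),
    DifferentiableAt ℝ e p → ‖jet1 (scl e) p‖ ≤ 1 / 2 → p.2 ∈ Icc 0 (2 * π) →
      ‖lag (jet1 (Ye D (.inr i) e) p)‖ ≤ K * Real.exp (-2 * p.1) := by
  obtain ⟨M, M0, hM⟩ := ey_bound (f := fun θ => cE (D.γ i θ))
    ((cE.contDiff.comp (D.cone i).crv.smooth).of_le (by simp))
  obtain ⟨N, N0, hN⟩ := ey_bound (f := fun θ => cE (D.n i θ))
    ((cE.contDiff.comp (D.cone i).crv.smooth_n).of_le (by simp))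
  refine ⟨512 * (5 * (M + N) ^ 2), by positivity, fun e p he hb hp => ?_⟩
  have h2 := (norm_gj_le ((norm_snd_le _).trans (hM p hp)) (hN p hp) hb).2
  rw [← jet1_cone D i he] at h2
  have T := (D.cone i).crv.tri p.2
  have e0 := Real.exp_pos p.1
  have h1 : (jet1 (Ye D (.inr i) e) p).1 ⬝ᵥ (jet1 (Ye D (.inr i) e) p).1 =
      ((Real.exp p.1 ^ 2 : ℝ) : ℂ) * (1 + scl e p ^ 2) := by
    simp only [jet1, Ye_cone, add_dotProduct, dotProduct_add, smul_dotProduct, dotProduct_smul,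
      cE_dot, real_inner_self_eq_norm_sq, T.na, T.nc, real_inner_comm (D.γ i p.2), T.ac, ey]
    simp only [smul_eq_mul]
    push_cast
    ring
  have h3 : ‖scl e p ^ 2‖ ≤ 1 / 4 := by
    have := (norm_fst_le (jet1 (scl e) p)).trans hb
    rw [norm_pow]
    exact (pow_le_pow_left₀ (norm_nonneg _) this 2).trans (by norm_num)
  have h4 := (abs_le.1 ((Complex.abs_re_le_norm _).trans h3)).1
  refine (norm_lag_le _).trans ?_
  rw [h1, Complex.re_ofReal_mul, Complex.add_re, Complex.one_re, ← div_exp_sq]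
  calc _ ≤ Real.exp (-(Real.exp p.1 ^ 2 / 4) / 4) * (5 * ((M + N) * Real.exp p.1) ^ 2) := by
        gcongr
        · nlinarith [sq_nonneg (Real.exp p.1)]
        · exact h2.trans (le_of_eq (by ring))
    _ = Real.exp (-(Real.exp p.1 ^ 2 / 4) / 4) * Real.exp p.1 ^ 2 * (5 * (M + N) ^ 2) := by ring
    _ ≤ 512 / Real.exp p.1 ^ 2 * (5 * (M + N) ^ 2) := by gcongr; exact gauss_le e0
    _ = _ := by ring

/-! ### The core -/

theorem cAt_jet {A : Type} [NormedAddCommGroup A] [NormedSpace ℝ A] {G : A × P2 → C3} {v : A × P2}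
    (h : ContDiffAt ℝ 1 G v) : ContinuousAt (fun w : A × P2 => jet1 (fun t => G (w.1, t)) w.2) v :=
  h.continuousAt.prodMk (ContDiffAt.fderiv (m := 0) (f := fun (w : A × P2) (t : P2) => G (w.1, t))
    (g := Prod.snd) (ContDiffAt.comp (g := G) (f := fun w : (A × P2) × P2 => (w.1.1, w.2)) _ h
      (by fun_prop)) contDiffAt_snd (by simp)).continuousAt

variable {F : Frm S} {q : ℕ} {Z : Type} [NormedAddCommGroup Z] [NormedSpace ℂ Z]
  {χ : Fin q ⊕ Fin F.D.m → E3 → ℝ} {val : Z →ₗ[ℂ] E3 → ℂ} {tr : Un F q Z →L[ℂ] JJ F.D → AA}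

/-- the jets of the base point and of the direction -/
def fr (F : Frm S) {κ : Type} (φ : P2 → E3) (v : (F.Ix κ → ℂ) × P2) : Jt × Jt :=
  (jet1 (fun t => rot (F.om (F.tl v.1) (φ t)) (cE (φ t))) v.2,
    jet1 (fun t => F.W (F.tl v.1) (φ t)) v.2)

theorem cd_fr (h : F.OK) {κ : Type} [Fintype κ] {φ : P2 → E3} {y : P2} (hP : Par S φ y)
    {a : F.Ix κ → ℂ} (ha : ‖a‖ ≤ 1 / 2) : ContDiffAt ℝ 1 (fun v : (F.Ix κ → ℂ) × P2 =>
      (rot (F.om (F.tl v.1) (φ v.2)) (cE (φ v.2)), F.W (F.tl v.1) (φ v.2))) (a, y) :=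
  ContDiffAt.comp (f := fun v : (F.Ix κ → ℂ) × P2 => (v.1, φ v.2)) (a, y)
    ((h.joint (chart_proof S F.D h.eq0.shr.1) hP.mem.self_of_nhds ha).of_le (by simp))
    (contDiffAt_fst.prodMk (ContDiffAt.comp (g := φ) _ (par_cd hP 1) contDiffAt_snd))

theorem cAt_fr (h : F.OK) {κ : Type} [Fintype κ] {φ : P2 → E3} {y : P2} (hP : Par S φ y)
    {a : F.Ix κ → ℂ} (ha : ‖a‖ ≤ 1 / 2) : ContinuousAt (fr F φ) (a, y) :=
  (cAt_jet (cd_fr h hP ha).fst).prodMk (cAt_jet (cd_fr h hP ha).snd)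

theorem jet1_Y (h : F.OK) {κ : Type} [Fintype κ] {φ : P2 → E3} {y : P2} (hP : Par S φ y)
    {a : F.Ix κ → ℂ} (ha : ‖a‖ ≤ 1 / 2) {U : E3 → ℂ}
    (hU : DifferentiableAt ℝ (fun t => U (φ t)) y) : jet1 (fun t => F.Y U (F.tl a) (φ t)) y =
      gj (fr F φ (a, y)).1 (fr F φ (a, y)).2 (jet1 (fun t => U (φ t)) y) := by
  have d := ((cd_fr h hP ha).comp (f := fun t : P2 => (a, t)) y (by fun_prop)).differentiableAt
    (by simp)
  simp only [Frm.Y, rot_add, rot_smul]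
  exact jet1_graph d.fst d.snd hU

theorem core_lim (h : F.OK) (hne : S.Nonempty) (hS : Sp χ val tr) {ρ : ℝ} (hρ : ρ ≤ 1 / 2)
    (hg : GoodAt (F := F) (q := q) val ρ) {u : ℝ → Un F q Z} {u₀ : Un F q Z}
    (hu : ∀ᶠ R in atTop, ‖u R‖ ≤ ρ) (h0 : ‖u₀‖ ≤ ρ) (hl : Tendsto u atTop (𝓝 u₀)) :
    Tendsto (fun R => Ec S F.C0 (F.Y (val (u R).1) (F.tl (u R).2))) atTop
      (𝓝 (Ec S F.C0 (F.Y (val u₀.1) (F.tl u₀.2)))) := by
  have hG := h.geo hne
  choose! r hr C hC using hS.jet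
  obtain ⟨n, φ, y, Q, hA, hy⟩ := exists_Atlas par_proof hG r fun φ y a b => hr φ y a (Or.inl b)
  have hb : ∀ k, ∃ M : ℝ, ∀ v ∈ closedBall (0 : F.Ix (Fin q ⊕ Fin F.D.m) → ℂ) (1 / 2) ×ˢ Q k,
      ‖fr F (φ k) v‖ ≤ M := fun k =>
    ((isCompact_closedBall _ _).prod (hA.cpt k)).exists_bound_of_continuousOn fun v hv =>
      (cAt_fr h (hA.par k _ hv.2) (mem_closedBall_zero_iff.1 hv.1)).continuousWithinAt
  choose M hM using hb
  obtain ⟨B, hB⟩ := (finite_range fun k => M k + 2 * (|C (φ k) (y k)| * M k)).bddAbove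
  obtain ⟨K, hK⟩ := ec_bound hA par_proof hG B
  have : IsFiniteMeasure ((μHE[2] : Measure E3).restrict F.C0) :=
    isFiniteMeasure_restrict.2 (area_lt_top par_proof hG.surf hG.sub hG.cpt).ne
  refine tendsto_integral_filter_of_norm_le_const ?_ ⟨K, ?_⟩ ?_
  · filter_upwards [hu] with R hR
    exact (cont_lag par_proof hG.surf hG.sub fun x hx =>
      ⟨(hg _ hR x hx).1.mono one_le_two, (hg _ hR x hx).2⟩).aestronglyMeasurable
        hG.cpt.measurableSet
  · filter_upwards [hu] with R hR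
    filter_upwards [ae_restrict_mem hG.cpt.measurableSet] with x hx
    refine (hK _ (fun x hx => (hg _ hR x hx).1.mono one_le_two) fun k t ht _ => ?_).1 x hx
    have a2 := (norm_snd_le (u R)).trans (hR.trans hρ)
    have a1 := (norm_fst_le (u R)).trans (hR.trans hρ)
    obtain ⟨b1, b2⟩ := hC _ _ (hy k).1 (Or.inl (hy k).2.1) (u R).1 t ((hy k).2.2 ht)
    have b3 := hM k ((u R).2, t) ⟨mem_closedBall_zero_iff.2 a2, ht⟩
    have b4 : ‖jet1 (fun t => val (u R).1 (φ k t)) t‖ ≤ |C (φ k) (y k)| :=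
      (norm_jet1_le (jet2 _ t)).trans (b2.trans ((mul_le_mul_of_nonneg_right (le_abs_self _)
        (norm_nonneg _)).trans (mul_le_of_le_one_right (abs_nonneg _) (by linarith))))
    rw [jet1_Y h (hA.par k t ht) a2 (b1.differentiableAt (by simp))]
    have b5 := (norm_fst_le _).trans b3
    obtain ⟨c1, c2⟩ := norm_gj_le ((norm_snd_le _).trans b5) ((norm_snd_le _).trans b3) b4
    refine le_trans (max_le ((norm_add_le _ _).trans ?_) c2) (hB ⟨k, rfl⟩)
    have := (norm_fst_le _).trans b5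
    have := (norm_nonneg _).trans c1
    dsimp only
    linarith
  · filter_upwards [ae_restrict_mem hG.cpt.measurableSet] with x hx
    obtain ⟨a, e⟩ := pick_spec par_proof hG.surf (hG.sub hx)
    refine Tendsto.div_const ?_ _
    generalize (pick S x).1 = ψ at a e
    generalize (pick S x).2 = t at a e
    subst e
    have a0 := (norm_snd_le u₀).trans (h0.trans hρ)
    have k := fun z => hC _ _ a (Or.inl hx) z t (mem_ball_self (hr _ _ a (Or.inl hx)))
    have d := fun z => (k z).1.differentiableAt (by simp)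
    refine ((an_lag ((hg _ h0 _ hx).2 _ _ a rfl)).continuousAt.tendsto).comp ?_
    have l1 : Tendsto (fun R => fr F ψ ((u R).2, t)) atTop (𝓝 (fr F ψ (u₀.2, t))) :=
      (cAt_fr h a a0).tendsto.comp (hl.snd_nhds.prodMk_nhds tendsto_const_nhds)
    have l2 : Tendsto (fun R => jet1 (fun t => val (u R).1 (ψ t)) t) atTop
        (𝓝 (jet1 (fun t => val u₀.1 (ψ t)) t)) := by
      refine tendsto_iff_norm_sub_tendsto_zero.2 (squeeze_zero (fun _ => norm_nonneg _)
        (g := fun R => C ψ t * ‖(u R).1 - u₀.1‖) (fun R => ?_) ?_)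
      · rw [← jet1_sub (d _) (d _)]
        simpa [jet2_one] using (norm_jet1_le (jet2 _ t)).trans (k ((u R).1 - u₀.1)).2
      · simpa using (tendsto_iff_norm_sub_tendsto_zero.1 hl.fst_nhds).const_mul (C ψ t)
    rw [jet1_Y h a a0 (d _)]
    refine (tendsto_gj l1.fst_nhds l1.snd_nhds l2).congr' ?_
    filter_upwards [hu] with R hR
    rw [jet1_Y h a ((norm_snd_le (u R)).trans (hR.trans hρ)) (d _)]

/-! ### The ends -/

section inf

variable {B W : P2 → C3} {gr : P2 → ℝ} {s δ C : ℝ} {g0 g : AA} {ei : AA → P2 → ℂ}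
  {lowi : AA → Fin 3 → ℂ} {e' : AA →ₗ[ℂ] P2 → ℂ} {low' : AA →L[ℂ] Fin 3 → ℂ} {p : P2}

theorem inf_cd (h : InfFam B W gr s δ C g0 ei lowi e' low') (hg : g ∈ ball g0 δ) (hp : s < p.1) :
    ContDiffAt ℝ 2 (ei g) p := (h.c2 g hg).contDiffAt (prod_mem_nhds (Ioi_mem_nhds hp) univ_mem)

theorem inf_good (h : InfFam B W gr s δ C g0 ei lowi e' low') (hg : g ∈ ball g0 δ) (hp : s < p.1) :
    jet1 (fun η => B η + ei g η • W η) p ∈ good := Or.inl (h.pos g hg p hp).2

end inf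

theorem estr_zero (X : P2 → C3) (s : ℝ) :
    Estr X s 0 = ∫ v in Ioi s ×ˢ Ioc 0 (2 * π), lag (jet1 X v) := by
  simp [Estr, Ioi]

theorem tendsto_of_lip {V : Type} [NormedAddCommGroup V] {f : AA → V} {g : ℝ → AA} {g₀ : AA}
    {U : Set AA} {C : ℝ} (h : ∀ a ∈ U, ‖f a - f g₀‖ ≤ C * ‖a - g₀‖) (hg : ∀ᶠ R in atTop, g R ∈ U)
    (hl : Tendsto g atTop (𝓝 g₀)) : Tendsto (fun R => f (g R)) atTop (𝓝 (f g₀)) := by
  refine tendsto_iff_norm_sub_tendsto_zero.2 (squeeze_zero' (Eventually.of_forall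
    fun _ => norm_nonneg _) (hg.mono fun R hR => h _ hR) ?_)
  simpa using (tendsto_iff_norm_sub_tendsto_zero.1 hl).const_mul C

variable {H : EF F}

theorem zero_mem (hH : H.OK) {R : ℝ} (hR : H.R0 ≤ R) : (0 : ℂ) ∈ Sym.Om (2 * H.Λ) R := by
  obtain ⟨C₀, R₀, cc, h1, h2, h3⟩ := hH.inv
  have h4 : 0 < R := by linarith
  refine ball_subset_ball ?_ (h1.small R (h3.trans hR) (mem_ball_self (by positivity)))
  have := hH.lam
  gcongr
  norm_num

theorem g_mem (h : F.OK) {t : JJ F.D → AA} (ht : ‖t‖ < H.δ) (j : JJ F.D) :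
    H.g t j ∈ ball (H.g0 j) H.δ := by
  rw [mem_ball_iff_norm, EF.g, add_sub_cancel_left, norm_smul]
  refine lt_of_le_of_lt ?_ ((norm_le_pi_norm t j).trans_lt ht)
  rcases h.sign j with e | e <;> simp [e]

theorem g_lim {t : ℝ → JJ F.D → AA} {t₀ : JJ F.D → AA} (hl : Tendsto t atTop (𝓝 t₀))
    (j : JJ F.D) : Tendsto (fun R => H.g (t R) j) atTop (𝓝 (H.g t₀ j)) :=
  ((tendsto_pi_nhds.1 hl j).const_smul _).const_add _

theorem cyl_lim (hH : H.OK) (j : Fin F.D.m) {g : ℝ → AA} {g₀ : AA}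
    (hg : ∀ᶠ R in atTop, g R ∈ ball (H.g0 (.inl j)) H.δ) (h0 : g₀ ∈ ball (H.g0 (.inl j)) H.δ)
    (hl : Tendsto g atTop (𝓝 g₀)) :
    Tendsto (fun R => Estr (Ye F.D (.inl j) (H.e j R (g R) 0)) (F.z₀ + 11) R⁻¹) atTop
      (𝓝 (Estr (Ye F.D (.inl j) (H.ei (.inl j) g₀)) (F.z₀ + 11) 0)) := by
  have c := hH.cyl j
  obtain ⟨K, K0, hK⟩ := cyl_bound F.D j H.C
  have cd : ∀ R, H.R0 ≤ R → g R ∈ ball (H.g0 (.inl j)) H.δ → ∀ p : P2, F.z₀ + 11 < p.1 → p.1 < R →
      ContDiffAt ℝ 2 (H.e j R (g R) 0) p := fun R a b p h1 h2 =>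
    (c.fc2 R a _ b 0 (zero_mem hH a)).contDiffAt (prod_mem_nhds (Icc_mem_nhds h1 h2) univ_mem)
  rw [estr_zero]
  refine dct_end (A := fun R => {z | F.z₀ + 11 < z ∧ R⁻¹ * z < 1})
    (g := fun z => K * Real.exp (-z ^ 2 / 4))
    (fun R => measurableSet_Ioi.inter (measurableSet_lt (measurable_const_mul _) measurable_const))
    (fun R z hz => hz.1) (fun z hz => ?_) (integrable_gauss.const_mul K).integrableOn
    (fun z => by positivity) ?_ fun v hv => ⟨inf_good c.toInfFam h0 hv, ?_⟩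
  · filter_upwards [eventually_gt_atTop z, eventually_gt_atTop 0] with R a b
    exact ⟨hz, by rwa [inv_mul_lt_iff₀ b, mul_one]⟩
  · filter_upwards [hg, eventually_ge_atTop H.R0, eventually_gt_atTop 0] with R a b d
    have e : ∀ z, R⁻¹ * z < 1 → z < R := fun z hz => by rwa [inv_mul_lt_iff₀ d, mul_one] at hz
    exact ⟨cOn_Ye F.D _ fun p hp => cd R b a p hp.1 (e _ hp.2), fun v h1 h2 => hK _ v
      ((cd R b a v h1.1 (e _ h1.2)).differentiableAt (by simp))
      (c.feq R b _ a 0 (zero_mem hH b) v h1.1 (e _ h1.2)).2.2 h2⟩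
  · have l1 := tendsto_of_lip (f := fun a => jet1 (H.ei (.inl j) a) v)
      (fun a ha => c.lipi _ h0 a ha v hv) hg hl
    have l2 : Tendsto (fun R => jet1 (H.e j R (g R) 0) v - jet1 (H.ei (.inl j) (g R)) v) atTop
        (𝓝 0) := by
      refine (NormedAddGroup.tendsto_nhds_zero).2 fun ε hε => ?_
      obtain ⟨R₁, hR⟩ := c.x7 (v.1 + 1) (ε / 2) (by positivity)
      filter_upwards [hg, eventually_ge_atTop H.R0, eventually_ge_atTop R₁] with R a b d
      exact ((norm_jet1_le (jet2 (H.e j R (g R) 0) v - jet2 (H.ei (.inl j) (g R)) v)).trans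
        ((hR R d _ a 0 (zero_mem hH b)).2 v hv (by linarith))).trans_lt (by linarith)
    have l3 := l2.add l1
    simp only [sub_add_cancel, zero_add] at l3
    rw [jet1_Ye F.D _ ((inf_cd c.toInfFam h0 hv).differentiableAt (by simp))]
    refine (tendsto_gj tendsto_const_nhds tendsto_const_nhds l3).congr' ?_
    filter_upwards [hg, eventually_ge_atTop H.R0, eventually_gt_atTop v.1] with R a b d
    rw [jet1_Ye F.D _ ((cd R b a v hv d).differentiableAt (by simp))]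

theorem cone_small (hH : H.OK) (i : Fin F.D.k) {g : AA} (hg : g ∈ ball (H.g0 (.inr i)) H.δ) {p : P2}
    (hp : F.ya < p.1) : ‖jet1 (scl (H.ei (.inr i) g)) p‖ ≤ 1 / 2 :=
  ((norm_jet1_le (jet2 _ p)).trans ((hH.cone i).small g hg p hp).1).trans (by linarith [hH.eps.2])

theorem cone_lim (hH : H.OK) (i : Fin F.D.k) {g : ℝ → AA} {g₀ : AA}
    (hg : ∀ᶠ R in atTop, g R ∈ ball (H.g0 (.inr i)) H.δ) (h0 : g₀ ∈ ball (H.g0 (.inr i)) H.δ)
    (hl : Tendsto g atTop (𝓝 g₀)) :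
    Tendsto (fun R => Estr (Ye F.D (.inr i) (H.ei (.inr i) (g R))) F.ya 0) atTop
      (𝓝 (Estr (Ye F.D (.inr i) (H.ei (.inr i) g₀)) F.ya 0)) := by
  have c := hH.cone i
  obtain ⟨K, K0, hK⟩ := cone_bound F.D i
  simp only [estr_zero]
  refine dct_end (A := fun _ => Ioi F.ya) (g := fun z => K * Real.exp (-2 * z))
    (fun _ => measurableSet_Ioi) (fun _ => subset_rfl) (fun z hz => Eventually.of_forall fun _ => hz)
    (int_exp K _) (fun z => by positivity) ?_ fun v hv => ⟨inf_good c.toInfFam h0 hv, ?_⟩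
  · filter_upwards [hg] with R a
    exact ⟨cOn_Ye F.D _ fun p hp => inf_cd c.toInfFam a hp, fun v h1 h2 => hK _ v
      ((inf_cd c.toInfFam a h1).differentiableAt (by simp)) (cone_small hH i a h1) h2⟩
  · rw [jet1_cone F.D _ ((inf_cd c.toInfFam h0 hv).differentiableAt (by simp))]
    refine (tendsto_gj tendsto_const_nhds tendsto_const_nhds (tendsto_of_lip
      (f := fun a => jet1 (scl (H.ei (.inr i) a)) v) (fun a ha => c.lip _ h0 a ha v hv)
      hg hl)).congr' ?_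
    filter_upwards [hg] with R a
    rw [jet1_cone F.D _ ((inf_cd c.toInfFam a hv).differentiableAt (by simp))]

/-! ### The area of the shrinker -/

/-- the end `j` above the trace circle -/
def Nd (F : Frm S) (j : JJ F.D) : Set E3 := Kd F.D j '' (Ioi (F.s1 j) ×ˢ Ioc 0 (2 * π))

theorem injOn_Kd (h : F.OK) (j : JJ F.D) : InjOn (Kd F.D j) (Ioi (F.s1 j) ×ˢ Ioc 0 (2 * π)) := by
  rintro ⟨s, θ⟩ ⟨h1, h2⟩ ⟨s', θ'⟩ ⟨h3, h4⟩ e
  have := h.st_lt j
  simp only [mem_Ioi] at h1 h3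
  obtain ⟨-, e1, k, e2⟩ := Ch.inj F.D j j _ _ (by dsimp only; linarith) (by dsimp only; linarith) e
  simp only at e1 e2 h2 h4
  have hp := Real.pi_pos
  have k1 : (k : ℝ) < 1 := by nlinarith [h2.1, h4.2]
  have k2 : (-1 : ℝ) < k := by nlinarith [h2.2, h4.1]
  have k0 : k = 0 := by
    have : k < 1 := by exact_mod_cast k1
    have : -1 < k := by exact_mod_cast k2
    omega
  rw [e1, e2, k0]
  simp

theorem mem_Nd (j : JJ F.D) {p : P2} (hp : F.s1 j < p.1) : Kd F.D j p ∈ Nd F j := by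
  have hπ := Real.two_pi_pos
  refine ⟨(p.1, toIocMod hπ 0 p.2), ⟨hp, by simpa using toIocMod_mem_Ioc hπ 0 p.2⟩, ?_⟩
  have := Function.Periodic.int_mul (f := fun θ => Kd F.D j (p.1, θ))
    (fun θ => Ch.Kd_per F.D j (p.1, θ)) (-toIocDiv hπ 0 p.2) p.2
  refine Eq.trans ?_ this
  rw [toIocMod]
  congr 2
  simp [sub_eq_add_neg]

theorem S_eq (h : F.OK) : S = F.C0 ∪ ⋃ j, Nd F j := by
  refine Subset.antisymm (fun x hx => ?_) (union_subset (fun x hx => hx.1) (iUnion_subset ?_))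
  · by_cases e : x ∈ F.C0
    · exact Or.inl e
    · simp only [Frm.C0, mem_ofPred_eq, hx, true_and, not_forall, not_not] at e
      obtain ⟨j, p, hp, rfl⟩ := e
      exact Or.inr (mem_iUnion.2 ⟨j, mem_Nd j hp⟩)
  · rintro j _ ⟨p, hp, rfl⟩
    exact Ch.mem F.D j p (by linarith [h.st_lt j, mem_Ioi.1 hp.1])

theorem end_int (hH : H.OK) (j : JJ F.D) : IntegrableOn
    (fun v => lag (jet1 (Ye F.D j (H.ei j (H.g0 j))) v)) (Ioi (F.s1 j) ×ˢ Ioc 0 (2 * π)) := by
  have m := mem_ball_self (x := H.g0 j) hH.δpos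
  rcases j with j | i
  · have c := hH.cyl j
    obtain ⟨K, -, hK⟩ := cyl_bound F.D j 3
    refine int_end (g := fun z => K * Real.exp (-z ^ 2 / 4))
      (integrable_gauss.const_mul K).integrableOn
      (cOn_Ye F.D _ fun p hp => inf_cd c.toInfFam m hp) fun v h1 h2 => hK _ v
        ((inf_cd c.toInfFam m h1).differentiableAt (by simp)) ?_ h2
    have b := ((norm_jet1_le (jet2 _ v)).trans (c.smalli _ m v h1).1).trans hH.eps.2
    have b1 := (norm_fst_le _).trans b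
    have b2 := (norm_snd_le _).trans b
    simp only [jet2, J2.one, fderiv_sub_const] at b1 b2
    have b3 : ‖((√2 : ℝ) : ℂ)‖ ≤ 2 := by
      rw [Complex.norm_real, Real.norm_of_nonneg (Real.sqrt_nonneg _)]
      exact Real.sqrt_le_iff.2 (by norm_num)
    refine max_le ((norm_le_norm_add_norm_sub' _ ((√2 : ℝ) : ℂ)).trans ?_) (b2.trans (by norm_num))
    simp only [jet1]
    linarith
  · have c := hH.cone i
    obtain ⟨K, -, hK⟩ := cone_bound F.D i
    exact int_end (g := fun z => K * Real.exp (-2 * z)) (int_exp K _)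
      (cOn_Ye F.D _ fun p hp => inf_cd c.toInfFam m hp) fun v h1 h2 => hK _ v
        ((inf_cd c.toInfFam m h1).differentiableAt (by simp)) (cone_small hH i m h1) h2

theorem end_area (h : F.OK) (hH : H.OK) (j : JJ F.D) : MeasurableSet (Nd F j) ∧
    IntegrableOn (fun x => (gw x : ℂ)) (Nd F j) (μHE[2] : Measure E3) ∧
      ∫ x in Nd F j, (gw x : ℂ) ∂(μHE[2] : Measure E3) =
        Estr (Ye F.D j (H.ei j (H.g0 j))) (F.s1 j) 0 := by
  have hm : MeasurableSet (Ioi (F.s1 j) ×ˢ Ioc 0 (2 * π) : Set P2) :=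
    measurableSet_Ioi.prod measurableSet_Ioc
  have hO : IsOpen (Ioi (F.s1 j) ×ˢ univ : Set P2) := isOpen_Ioi.prod isOpen_univ
  have hc : ContDiffOn ℝ 1 (Kd F.D j) (Ioi (F.s1 j) ×ˢ univ) :=
    ((Ch.contDiff_Kd F.D j).of_le (by simp)).contDiffOn
  have hi : ∀ u ∈ (Ioi (F.s1 j) ×ˢ univ : Set P2), rn (fderiv ℝ (Kd F.D j) u) ≠ 0 :=
    fun u hu => h.imm j u (by linarith [mem_Ioi.1 hu.1])
  have hs : (Ioi (F.s1 j) ×ˢ Ioc 0 (2 * π) : Set P2) ⊆ Ioi (F.s1 j) ×ˢ univ :=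
    prod_mono subset_rfl (subset_univ _)
  have hb : ∀ p : P2, F.s1 j ≤ p.1 → H.ei j (H.g0 j) p = gS F.D j p := by
    rcases j with j | i
    exacts [(hH.cyl j).base, (hH.cone i).base]
  have e : EqOn (fun v => lag (jet1 (Ye F.D j (H.ei j (H.g0 j))) v))
      (fun u => ‖rn (fderiv ℝ (Kd F.D j) u)‖ • (gw (Kd F.D j u) : ℂ))
      (Ioi (F.s1 j) ×ˢ Ioc 0 (2 * π)) := fun v hv => by
    have : Ye F.D j (H.ei j (H.g0 j)) =ᶠ[𝓝 v] fun u => cE (Kd F.D j u) := by
      filter_upwards [continuousAt_fst.eventually (Ioi_mem_nhds hv.1)] with u hu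
      rw [cE_Kd, Ye, Ye, hb u (le_of_lt hu)]
    simp only
    rw [jet1_congr this, lag_jet1 ((Ch.contDiff_Kd F.D j).differentiable (by simp) v), gw,
      Complex.real_smul, ← Complex.ofReal_mul, mul_comm]
  refine ⟨measurableSet_param hc.continuousOn hm hs (injOn_Kd h j),
    (integrableOn_param hO hc hi hm hs (injOn_Kd h j) _).2 ((end_int hH j).congr_fun e hm), ?_⟩
  rw [Nd, integral_param hO hc hi hm hs (injOn_Kd h j), estr_zero, setIntegral_congr_fun hm e]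

end Lm

open Lm

variable {S : Set E3} {F : Frm S} {H : EF F} {q : ℕ} {Z : Type} [NormedAddCommGroup Z]
  [NormedSpace ℂ Z] {χ : Fin q ⊕ Fin F.D.m → E3 → ℝ} {val : Z →ₗ[ℂ] E3 → ℂ}
  {tr : Un F q Z →L[ℂ] JJ F.D → AA} {ρ R0 r C : ℝ} {s : ℝ → Nm.X q F.D.m → Un F q Z}
  {si : (Fin q → ℂ) → Un F q Z}

/-- **the field `lim` of `EnOut`** -/
theorem en_lim (h : F.OK) (hne : S.Nonempty) (hH : H.OK) (hS : Sp χ val tr) {ρ₁ : ℝ}
    (h1 : ρ₁ ≤ 1 / 2) (hg : GoodAt (F := F) (q := q) val ρ₁) (hρ : ρ ≤ ρ₁)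
    (hR : Red H χ val tr ρ R0 r C s si) (b : Fin q → ℂ) (hb : ‖b‖ < r) (hr : IsRe b) :
    Tendsto (fun R => F.en R⁻¹ (val (s R (b, 0)).1) (F.tl (s R (b, 0)).2)
      (H.eR R 0 (tr (s R (b, 0))))) atTop
      (𝓝 (F.en 0 (val (si b).1) (F.tl (si b).2) (H.eI (tr (si b))))) := by
  have a : ∀ᶠ R in atTop, ‖s R (b, 0)‖ ≤ ρ ∧ ‖tr (s R (b, 0))‖ ≤ ρ := by
    filter_upwards [eventually_ge_atTop R0] with R c
    have := hR.sol R c (b, 0) ⟨hb, fun _ => zero_mem hH (hR.big.trans c)⟩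
    exact ⟨this.norm, this.trn⟩
  have a0 := (hR.soli b hb hr).1
  have l := hR.lim b hb
  have lt : Tendsto (fun R => tr (s R (b, 0))) atTop (𝓝 (tr (si b))) := (tr.continuous.tendsto _).comp l
  have m : ∀ j, ∀ᶠ R in atTop, H.g (tr (s R (b, 0))) j ∈ ball (H.g0 j) H.δ := fun j =>
    a.mono fun R c => g_mem h (c.2.trans_lt hR.rho) j
  have m0 := g_mem (H := H) h (a0.trn.trans_lt hR.rho)
  exact ((core_lim h hne hS h1 hg (a.mono fun R c => c.1.trans hρ) (a0.norm.trans hρ) l).add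
    (tendsto_finsetSum _ fun j _ => cyl_lim hH j (m _) (m0 _) (g_lim lt _))).add
    (tendsto_finsetSum _ fun i _ => cone_lim hH i (m _) (m0 _) (g_lim lt _))

/-- **the field `base` of `EnOut`** -/
theorem en_base (h : F.OK) (hne : S.Nonempty) (hH : H.OK) (hR : Red H χ val tr ρ R0 r C s si) :
    F.en 0 (val (si 0).1) (F.tl (si 0).2) (H.eI (tr (si 0))) =
      ((∫ p, gw p ∂(area S) : ℝ) : ℂ) := by
  have hG := h.geo hne
  have k := end_area h hH
  have d : Pairwise (Function.onFun Disjoint (Nd F)) := fun j j' hj => by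
    refine Set.disjoint_left.2 ?_
    rintro _ ⟨p, hp, rfl⟩ ⟨p', hp', e⟩
    exact hj (Ch.inj F.D j j' p p' (by linarith [h.st_lt j, mem_Ioi.1 hp.1])
      (by linarith [h.st_lt j', mem_Ioi.1 hp'.1]) e.symm).1
  have d0 : Disjoint F.C0 (⋃ j, Nd F j) := by
    refine Set.disjoint_left.2 fun x hx hx' => ?_
    obtain ⟨j, p, hp, e⟩ := mem_iUnion.1 hx'
    exact hx.2 j p hp.1 e.symm
  have e0 : Ec S F.C0 (F.Y 0 0) = ∫ x in F.C0, (gw x : ℂ) ∂(μHE[2] : Measure E3) := by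
    refine setIntegral_congr_fun hG.cpt.measurableSet fun x hx => ?_
    obtain ⟨a, e⟩ := pick_spec par_proof hG.surf (hG.sub hx)
    simp only [den, lagD, Frm.Y, Frm.om_zero, rot_zero, Pi.zero_apply, zero_smul, add_zero]
    rw [lag_par a, e, Complex.ofReal_mul, mul_div_cancel_right₀ _ (ael_ne a), gw]
  rw [← integral_complex_ofReal, area]
  conv_rhs => rw [S_eq h]
  rw [setIntegral_union d0 (MeasurableSet.iUnion fun j => (k j).1)
    (integrableOn_core par_proof hG.surf hG.sub hG.cpt (by unfold gw; fun_prop))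
    (integrableOn_finite_iUnion.2 fun j => (k j).2.1),
    integral_iUnion_fintype (fun j => (k j).1) d fun j => (k j).2.1, Fintype.sum_sum_type, ← e0,
    hR.zero, Frm.en, add_assoc]
  simp only [(k _).2.2, EF.eI, EF.g, map_zero, Pi.zero_apply, smul_zero, add_zero, Prod.fst_zero]
  rfl

end Vale.Agent.P218F.LS
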