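import Vale.Agent.P218F.LSChart
import Vale.Agent.P218F.LSEl
import Vale.Agent.P218F.LSCore
import Vale.Agent.P218F.LSFam
import Vale.Agent.P218F.FtSpec

/-! From a real parameter family of solutions of the reduction to the data of block FT. -/

open MeasureTheory Set Filter Topology Metric Matrix
open scoped ContDiff RealInnerProductSpace Real

set_option maxSynthPendingDepth 3
set_option linter.unusedSectionVars false

noncomputable section

namespace Vale.Agent.P218F.LS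

open Vale.Agent.P218FT hiding P2
open Vale.Agent.P218F.Core Vale.Agent.P218F.Ends Vale.Agent.P218F.Ft Vale.Agent.P218F.Mesh
open Vale.Agent.P218.H313 (rho grad)

/-! ### Real rotations and real parts -/

theorem rotE_apply (a x : E3) : rotE a x = rotR a x := rfl

@[simp] theorem rotR_zero (x : E3) : rotR 0 x = x := cE_injective (by rw [cE_rotR, map_zero, rot_zero])

section cd

variable {E : Type} [NormedAddCommGroup E] [NormedSpace ℝ E] {n : WithTop ℕ∞} {f g : E → E3}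

theorem cd_crs (hf : ContDiff ℝ n f) (hg : ContDiff ℝ n g) : ContDiff ℝ n fun x => crs (f x) (g x) := by
  have f' := contDiff_euclidean.1 hf
  have g' := contDiff_euclidean.1 hg
  refine contDiff_euclidean.2 fun i => ?_
  fin_cases i <;> simp [crs, cross_apply] <;> exact ((f' _).mul (g' _)).sub ((f' _).mul (g' _))

theorem cd_rotR (hf : ContDiff ℝ n f) (hg : ContDiff ℝ n g) :
    ContDiff ℝ n fun x => rotR (f x) (g x) :=
  hg.add ((contDiff_const.div (contDiff_const.add (hf.norm_sq ℝ)) fun _ => by positivity).smul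
    ((cd_crs hf hg).add (cd_crs hf (cd_crs hf hg))))

end cd

theorem continuous_rotE : Continuous rotE :=
  continuous_clm_apply.2 fun _ => (cd_rotR (n := 0) contDiff_id contDiff_const).continuous

theorem jet2_re {f : P2 → ℂ} {y : P2} (hf : ContDiffAt ℝ 2 f y) :
    ContDiffAt ℝ 2 (fun t => (f t).re) y ∧ ‖jet2 (fun t => (f t).re) y‖ ≤ ‖jet2 f y‖ := by
  refine ⟨Complex.reCLM.contDiff.contDiffAt.comp y hf, ?_⟩
  rw [show (fun t => (f t).re) = fun t => Complex.reCLM (f t) from rfl, jet2_clm _ hf]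
  have h1 : ∀ A : P2 →L[ℝ] ℂ, ‖Complex.reCLM.comp A‖ ≤ ‖A‖ := fun A =>
    ContinuousLinearMap.opNorm_le_bound _ (norm_nonneg _) fun v =>
      (Complex.abs_re_le_norm _).trans (A.le_opNorm v)
  refine max_le ((Complex.abs_re_le_norm _).trans (norm_fst_le _)) (max_le ?_ ?_)
  · exact (h1 _).trans ((norm_fst_le _).trans (norm_snd_le (jet2 f y)))
  · refine le_trans (ContinuousLinearMap.opNorm_le_bound _ (norm_nonneg _) fun v =>
      (h1 _).trans ((jet2 f y).2.2.le_opNorm v)) ((norm_snd_le _).trans (norm_snd_le (jet2 f y)))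

theorem fderiv_re {f : P2 → ℂ} {y : P2} (hf : DifferentiableAt ℝ f y) (v : P2) :
    fderiv ℝ (fun t => (f t).re) y v = (fderiv ℝ f y v).re := by
  rw [show fderiv ℝ (fun t => (f t).re) y = _ from
    (Complex.reCLM.hasFDerivAt.comp y hf.hasFDerivAt).fderiv]
  rfl

theorem re_coe {z : ℂ} (h : z.im = 0) : ((z.re : ℝ) : ℂ) = z := Complex.ext rfl h.symm

variable {S : Set E3}

theorem cylY_eq (D : EndData S) (j : Fin D.m) :
    cylY (D.a j) (D.b j) (D.c j) (D.r j) = Kd D (.inl j) := funext fun v => (Kd_inl D j v).symm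

theorem coneY_eq (D : EndData S) (i : Fin D.k) :
    coneY (D.γ i) (D.n i) (D.ψ i) = Kd D (.inr i) := funext fun v => (Kd_inr D i v).symm

theorem cE_cylY (D : EndData S) (j : Fin D.m) {u : P2 → ℂ} {v : P2} (h : (u v).im = 0) :
    cE (cylY (D.a j) (D.b j) (D.c j) (fun t => (u t).re) v) = Ye D (.inl j) u v := by
  rw [Ye, ← re_coe h, Complex.coe_smul, ← map_smul, ← map_add]
  simp only [cylY, cylPt, Bs, Wd, smul_add, smul_smul]
  congr 1
  abel

theorem cE_coneY (D : EndData S) (i : Fin D.k) {u : P2 → ℂ} {v : P2} (h : (u v).im = 0) :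
    cE (coneY (D.γ i) (D.n i) (fun t => (scl u t).re) v) = Ye D (.inr i) u v := by
  rw [Ye, ← re_coe h, Complex.coe_smul, ← map_smul, ← map_add]
  simp only [coneY, conePt, Bs, Wd, smul_add, smul_smul, scl, Complex.re_ofReal_mul]
  rw [← mul_assoc, ← Real.exp_add, add_neg_cancel, Real.exp_zero, one_mul]

theorem cda_scl {u : P2 → ℂ} {v : P2} (h : ContDiffAt ℝ 2 u v) : ContDiffAt ℝ 2 (scl u) v :=
  (Complex.ofRealCLM.contDiff.comp (Real.contDiff_exp.comp contDiff_fst.neg)).contDiffAt.mul h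

namespace Frm

variable (F : Frm S)

/-- the real tilts -/
def reT {κ : Type} (a : F.Ix κ → ℂ) : Tilt F.D.m ℝ := fun j i => (F.tl a j i).re

theorem cE_omR {κ : Type} {a : F.Ix κ → ℂ} (ha : IsRe a) (x : E3) :
    cE (F.omR (F.reT a) x) = F.om (F.tl a) x := by
  simp only [omR, om, map_sum, map_smul, map_add, reT, tl, ← Complex.coe_smul, re_coe (ha _)]

variable {F}

theorem OK.omR_core (h : F.OK) (β : Tilt F.D.m ℝ) {x : E3} (hx : x ∈ S) (hn : ‖x‖ < F.z₀ + 8) :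
    F.omR β x = 0 :=
  Finset.sum_eq_zero fun j _ => by
    rw [h.chi_out j x hx fun p hp e => by linarith [Ch.fst_le_norm F.D (.inl j) p, e ▸ hn], zero_smul]

theorem OK.trans_nu (h : F.OK) {x : E3} (hx : x ∈ S) : ⟪F.V x, nu S x⟫ ≠ 0 := by
  have h1 := h.eq0.unit x hx
  have h2 : IsEqn S x F.V₀ := ⟨h.eq0.smooth, fun h0 => by simp [h0] at h1,
    Eventually.of_forall h.eq0.zero⟩
  obtain ⟨ε, hε, h3, -⟩ := h2.nu_sh hx
  rw [h3, nuw, h1, inv_one, one_smul, real_inner_smul_right]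
  refine mul_ne_zero ?_ (h.trans x hx).ne'
  rcases hε with rfl | rfl <;> norm_num

end Frm

/-! ### The data -/

section data

variable (F : Frm S) {κ : Type} [Fintype κ] {Z : Type} [NormedAddCommGroup Z] [NormedSpace ℂ Z]
  {P : Type} [NormedAddCommGroup P] [NormedSpace ℝ P]

/-- what is used of the space of functions -/
structure ValOK (val : Z →ₗ[ℂ] E3 → ℂ) : Prop where
  jet : ∀ φ y, Par S φ y → φ y ∈ Mo F.C0 F.Kc → ∃ r > 0, ∃ C : ℝ, ∀ z, ∀ y' ∈ ball y r,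
    ContDiffAt ℝ 2 (fun t => val z (φ t)) y' ∧ ‖jet2 (fun t => val z (φ t)) y'‖ ≤ C * ‖z‖
  sup : ∃ C : ℝ, ∀ z, ∀ p ∈ F.C0, ‖val z p‖ ≤ C * ‖z‖
  cont : ∀ z, ContinuousOn (val z) F.C0

/-- the data of block FT -/
def Frm.fd (χ : κ → E3 → ℝ) (val : Z →ₗ[ℂ] E3 → ℂ) (G : P → Z × (F.Ix κ → ℂ))
    (G' : P →L[ℝ] Z × (F.Ix κ → ℂ)) (ε : P → ℝ) (u : P → JJ F.D → P2 → ℂ) :
    FamData F.D P κ (Tilt F.D.m ℝ) where
  z₁ := F.z₀ + 11
  y₁ := F.ya
  V := F.V
  PP β p := rotR (F.omR β p) p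
  WW β p := rotR (F.omR β p) (F.V p)
  β x := F.reT (G x).2
  w x p := (val (G x).1 p).re
  w' :=
    { toFun := fun b p => (val (G' b).1 p).re
      map_add' := fun a b => funext fun p => by simp
      map_smul' := fun c b => funext fun p => by
        rw [map_smul, Prod.smul_fst, ← Complex.coe_smul, map_smul]
        simp }
  ε := ε
  Q x j := rotE (F.reT (G x).2 j 0 • F.D.a j + F.reT (G x).2 j 1 • F.D.b j)
  e x j v := (u x (.inl j) v).re
  g x i v := (scl (u x (.inr i)) v).re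
  χ := χ
  kap x i := -((G x).2 (.inl i)).re
  den x p := (den S (lagD (F.Y (val (G x).1) (F.tl (G x).2))) p).re

/-- where the graph functions of the ends are defined -/
def Frm.EDom (ε : ℝ) (j : JJ F.D) (v : P2) : Prop := F.s1 j < v.1 ∧ (j.isLeft → ε * v.1 < 1)

/-- a real parameter family of solutions of the reduction -/
structure RealIn (χ : κ → E3 → ℝ) (val : Z →ₗ[ℂ] E3 → ℂ) (G : P → Z × (F.Ix κ → ℂ))
    (G' : P →L[ℝ] Z × (F.Ix κ → ℂ)) (ε : P → ℝ) (u : P → JJ F.D → P2 → ℂ) (η₀ : ℝ) : Prop where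
  ok : F.OK
  ne : S.Nonempty
  chi : F.Src χ
  vok : ValOK F val
  strict : HasStrictFDerivAt G G' 0
  zero : G 0 = 0
  real : ∀ᶠ x in 𝓝 (0 : P), IsRe (G x).2 ∧ ∀ p ∈ Mo F.C0 F.Kc, (val (G x).1 p).im = 0
  eq : ∀ᶠ x in 𝓝 (0 : P), F.Eqn χ (val (G x).1) (G x).2
  glue : ∀ᶠ x in 𝓝 (0 : P), F.Glue (val (G x).1) (u x)
  ε0 : Tendsto ε (𝓝 0) (𝓝 0)
  εnn : ∀ᶠ x in 𝓝 (0 : P), 0 ≤ ε x
  per : ∀ᶠ x in 𝓝 (0 : P), ∀ j (v : P2), u x j (v.1, v.2 + 2 * π) = u x j v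
  sol : ∀ᶠ x in 𝓝 (0 : P), ∀ j (v : P2), F.EDom (ε x) j v → ContDiffAt ℝ 2 (u x j) v ∧
    (u x j v).im = 0 ∧ shrE F.D j v (jet2 (u x j) v) = 0
  cyl : ∀ᶠ x in 𝓝 (0 : P), ∀ j (v : P2), F.z₀ + 11 < v.1 → ε x * v.1 < 1 →
    CylSm (1 / 10) (u x (.inl j)) v
  cone : ∀ᶠ x in 𝓝 (0 : P), ∀ i (v : P2), F.ya < v.1 → ‖jet2 (scl (u x (.inr i))) v‖ ≤ η₀
  lim : ∀ Z η : ℝ, 0 < η → ∀ᶠ x in 𝓝 (0 : P), ∀ j (v : P2), F.s1 j < v.1 → v.1 ≤ Z →
    ‖u x j v - gS F.D j v‖ ≤ η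
  mom : ∀ i, ∃ L : Z →L[ℂ] ℂ, ∀ z, L z = mo F.C0 (χ i) (val z)
  inj : ∀ b, (∀ i, mo F.C0 (χ i) (val (G' b).1) = 0) → b = 0
  dim : Module.finrank ℝ P = Fintype.card κ

end data

namespace RealIn

variable {F : Frm S} {κ : Type} [Fintype κ] {Z : Type} [NormedAddCommGroup Z] [NormedSpace ℂ Z]
  {P : Type} [NormedAddCommGroup P] [NormedSpace ℝ P] {χ : κ → E3 → ℝ} {val : Z →ₗ[ℂ] E3 → ℂ}
  {G : P → Z × (F.Ix κ → ℂ)} {G' : P →L[ℝ] Z × (F.Ix κ → ℂ)} {ε : P → ℝ}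
  {u : P → JJ F.D → P2 → ℂ} {η₀ : ℝ}

theorem cE_Φ {x : P} (h1 : IsRe (G x).2) {p : E3} (h2 : (val (G x).1 p).im = 0) :
    cE ((F.fd χ val G G' ε u).Φ x p) = F.Y (val (G x).1) (F.tl (G x).2) p := by
  simp only [FamData.Φ, Frm.fd, map_add, map_smul, cE_rotR, F.cE_omR h1, Frm.Y, rot_add, rot_smul]
  rw [← Complex.coe_smul, re_coe h2]

theorem cE_WW {x : P} (h1 : IsRe (G x).2) (p : E3) :
    cE ((F.fd χ val G G' ε u).WW ((F.fd χ val G G' ε u).β x) p) = F.W (F.tl (G x).2) p := by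
  simp only [Frm.fd, cE_rotR, F.cE_omR h1, Frm.W]

variable (h : RealIn F χ val G G' ε u η₀)
include h

theorem surf : IsSurf S := h.ok.eq0.shr.1

theorem ch : Charts S F.D := chart_proof S F.D h.surf

theorem geo : Geo S F.C0 F.Kc := h.ok.geo h.ne

theorem G0 : Tendsto G (𝓝 0) (𝓝 0) := h.zero ▸ h.strict.continuousAt.tendsto

theorem G1 : Tendsto (fun x => ‖(G x).1‖) (𝓝 0) (𝓝 0) := by
  simpa using ((continuous_fst.tendsto _).comp h.G0).norm

theorem G2 : Tendsto (fun x => (G x).2) (𝓝 0) (𝓝 0) := (continuous_snd.tendsto _).comp h.G0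

theorem half : ∀ᶠ x in 𝓝 (0 : P), ‖(G x).2‖ ≤ 1 / 2 :=
  h.G2.norm.eventually_le_const (by simp)

theorem re0 (i : F.Ix κ) : Tendsto (fun x => ((G x).2 i).re) (𝓝 0) (𝓝 0) :=
  (Complex.continuous_re.tendsto _).comp (tendsto_pi_nhds.1 h.G2 i)

theorem β0 : Tendsto (fun x => F.reT (G x).2) (𝓝 0) (𝓝 0) :=
  tendsto_pi_nhds.2 fun _ => tendsto_pi_nhds.2 fun _ => h.re0 _

theorem dom : ∀ᶠ x in 𝓝 (0 : P), ∀ j (v : P2), F.s1 j < v.1 → v.1 < F.s1 j + 3 →
    F.EDom (ε x) j v := by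
  have h0 : 0 < F.z₀ + 14 := by linarith [h.ok.z_big, h.ok.R0_pos]
  filter_upwards [h.εnn, (h.ε0.mul_const (F.z₀ + 14)).eventually_lt_const (by simp : 0 * (F.z₀ + 14) < 1)]
    with x h1 h2 j v h3 h4
  refine ⟨h3, fun hj => ?_⟩
  rcases j with j | i
  · exact lt_of_le_of_lt (mul_le_mul_of_nonneg_left (by simp only [Frm.s1] at h4; linarith) h1) h2
  · simp at hj

/-- the surface on the collars -/
theorem collar : ∀ᶠ x in 𝓝 (0 : P), ∀ j (v : P2), F.s1 j < v.1 → v.1 < F.s1 j + 3 →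
    F.Y (val (G x).1) (F.tl (G x).2) (Kd F.D j v) = rot (F.omE (F.tl (G x).2) j) (Ye F.D j (u x j) v) ∧
    F.W (F.tl (G x).2) (Kd F.D j v) =
      rot (F.omE (F.tl (G x).2) j) ((F.σ j : ℂ) • cE (Wd F.D j v)) := by
  filter_upwards [h.glue] with x h1 j v h2 h3
  rw [Frm.Y, Frm.W, h.ok.om_end h.ch _ j (by linarith), h.ok.ends j v (by linarith), Ye,
    ← h1 j v ⟨h2.le, h3.le⟩, Frm.e, map_smul, ← Complex.coe_smul]
  refine ⟨?_, rfl⟩
  rw [Kd, map_add, map_smul, ← Complex.coe_smul, add_smul, smul_smul, mul_comm, add_assoc]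

theorem shrY : ∀ᶠ x in 𝓝 (0 : P), ∀ j (v : P2), F.EDom (ε x) j v →
    Shr (Ye F.D j (u x j)) (fun t => cE (Wd F.D j t)) v = 0 := by
  filter_upwards [h.sol] with x h1 j v h2
  obtain ⟨h3, -, h4⟩ := h1 j v h2
  rwa [shrE, Fam.shrG_jet2 (cd_B h.ch j v) (cd_W h.ch j v) h3] at h4

omit h in
theorem eDom_ev {e : ℝ} {j : JJ F.D} {v : P2} (hv : F.EDom e j v) :
    ∀ᶠ t in 𝓝 v, F.EDom e j t := by
  have h1 := continuous_fst.continuousAt.eventually (lt_mem_nhds hv.1)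
  by_cases hj : j.isLeft
  · filter_upwards [h1, (continuous_const.mul continuous_fst).continuousAt.eventually
      (gt_mem_nhds (hv.2 hj))] with t h2 h3 using ⟨h2, fun _ => h3⟩
  · filter_upwards [h1] with t h2 using ⟨h2, fun h => absurd h hj⟩

theorem wc (φ : P2 → E3) (y : P2) (h1 : Par S φ y) (h2 : φ y ∈ Mo F.C0 F.Kc) :
    ∃ ρ > 0, ∀ η > 0, ∀ᶠ x in 𝓝 (0 : P), ∀ v ∈ ball y ρ,
      ContDiffAt ℝ 2 (fun t => (val (G x).1 (φ t)).re) v ∧
        ‖jet2 (fun t => (val (G x).1 (φ t)).re) v‖ ≤ η := by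
  obtain ⟨r, hr, C, h3⟩ := h.vok.jet φ y h1 h2
  refine ⟨r, hr, fun η hη => ?_⟩
  filter_upwards [(h.G1.const_mul C).eventually_le_const (by simpa using hη)] with x h4 v hv
  obtain ⟨h5, h6⟩ := h3 (G x).1 v hv
  exact ⟨(jet2_re h5).1, (jet2_re h5).2.trans (h6.trans h4)⟩

theorem cdv {φ : P2 → E3} {y : P2} (h1 : Par S φ y) (h2 : φ y ∈ Mo F.C0 F.Kc) (z : Z) :
    ContDiffAt ℝ 2 (fun t => val z (φ t)) y := by
  obtain ⟨r, hr, C, h3⟩ := h.vok.jet φ y h1 h2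
  exact (h3 z y (mem_ball_self hr)).1

theorem cdPW {φ : P2 → E3} {y : P2} (h1 : Par S φ y) {a : F.Ix κ → ℂ} (ha : ‖a‖ ≤ 1 / 2) :
    ContDiffAt ℝ 2 (fun t => rot (F.om (F.tl a) (φ t)) (cE (φ t))) y ∧
      ContDiffAt ℝ 2 (fun t => F.W (F.tl a) (φ t)) y := by
  have h2 := ((h.ok.joint h.ch h1.self_mem ha).comp y
    (f := fun t => (a, φ t)) (contDiffAt_const.prodMk h1.contDiffAt)).of_le
      (WithTop.coe_le_coe.2 (le_top : (2 : ℕ∞) ≤ ⊤))
  exact ⟨h2.fst, h2.snd⟩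

theorem cdY {φ : P2 → E3} {y : P2} (h1 : Par S φ y) (h2 : φ y ∈ Mo F.C0 F.Kc) (z : Z)
    {a : F.Ix κ → ℂ} (ha : ‖a‖ ≤ 1 / 2) : ContDiffAt ℝ 2 (fun t => F.Y (val z) (F.tl a) (φ t)) y := by
  simp only [Frm.Y, rot_add, rot_smul]
  exact (h.cdPW h1 ha).1.add ((h.cdv h1 h2 z).smul (h.cdPW h1 ha).2)

theorem ΦY : ∀ᶠ x in 𝓝 (0 : P), ∀ φ y, Par S φ y → φ y ∈ Mo F.C0 F.Kc →
    (fun t => cE ((F.fd χ val G G' ε u).Φ x (φ t))) =ᶠ[𝓝 y]
      fun t => F.Y (val (G x).1) (F.tl (G x).2) (φ t) := by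
  filter_upwards [h.real] with x h1 φ y h2 h3
  filter_upwards [h.geo.mo_nhds h2 h3] with t ht using cE_Φ h1.1 (h1.2 _ ht)

theorem eqn : ∀ᶠ x in 𝓝 (0 : P), ∀ φ y, Par S φ y → φ y ∈ F.Cr (5 / 2) →
    elR (fun t => (F.fd χ val G G' ε u).Φ x (φ t))
      ((F.fd χ val G G' ε u).WW ((F.fd χ val G G' ε u).β x) (φ y)) φ y =
      -((∑ i, -((G x).2 (.inl i)).re * χ i (φ y) : ℝ) : ℂ) := by
  filter_upwards [h.real, h.eq, h.half, h.ΦY] with x h1 h2 h3 h4 φ y hp hc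
  have hm := Frm.Cr_sub (by norm_num) hc
  rw [elR, jet2_congr (h4 φ y hp hm), cE_WW h1.1]
  have e1 := h2 φ y hp hc
  have e2 : jet2 (fun t => F.Y (val (G x).1) (F.tl (G x).2) (φ t)) y =
      surJ (fun a x => rot (F.om (F.tl a) x) (cE x)) (fun a x => F.W (F.tl a) x) (G x).2 φ y
        (jet2 (fun t => val (G x).1 (φ t)) y) := by
    simp only [Frm.Y, rot_add, rot_smul]
    exact Fam.jet2_graph (h.cdPW hp h3).1 (h.cdPW hp h3).2 (h.cdv hp hm _)
  rw [Frm.op, elOp, ← e2, sub_eq_zero, Fintype.sum_sum_type] at e1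
  rw [e1]
  simp [re_coe (h1.1 _)]

theorem re' (b : P) {p : E3} (hp : p ∈ F.C0) : (val (G' b).1 p).im = 0 := by
  obtain ⟨C, hC⟩ := h.vok.sup
  let l : Z × (F.Ix κ → ℂ) →L[ℝ] ℝ := LinearMap.mkContinuous
    { toFun := fun s => (val s.1 p).im
      map_add' := fun a b => by simp
      map_smul' := fun c b => by
        rw [Prod.smul_fst, ← Complex.coe_smul, map_smul]
        simp } |C| fun s => (Complex.abs_im_le_norm _).trans ((hC _ p hp).trans
      (mul_le_mul (le_abs_self _) (norm_fst_le s) (norm_nonneg _) (abs_nonneg _)))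
  have h1 := l.hasFDerivAt.comp (0 : P) h.strict.hasFDerivAt
  have h2 : HasFDerivAt (l ∘ G) (0 : P →L[ℝ] ℝ) 0 := (hasFDerivAt_const (0 : ℝ) (0 : P)).congr_of_eventuallyEq
    (h.real.mono fun x hx => hx.2 p (Or.inl hp))
  exact DFunLike.congr_fun (h1.unique h2) b

theorem denOK : ∀ᶠ x in 𝓝 (0 : P), ContinuousOn (den S (lagD (F.Y (val (G x).1) (F.tl (G x).2)))) F.C0 ∧
    ∀ φ y, Par S φ y → φ y ∈ Mo F.C0 F.Kc → lagD (F.Y (val (G x).1) (F.tl (G x).2)) φ y =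
      lagR (fun t => (F.fd χ val G G' ε u).Φ x (φ t)) y := by
  filter_upwards [h.ΦY, h.half] with x h1 h2
  have a0 : ∀ φ y, Par S φ y → φ y ∈ Mo F.C0 F.Kc →
      ContDiffAt ℝ 2 (fun t => (F.fd χ val G G' ε u).Φ x (φ t)) y := fun φ y hp hm => by
    have := (h.cdY hp hm _ h2).congr_of_eventuallyEq (h1 φ y hp hm)
    refine contDiffAt_euclidean.2 fun i => ?_
    exact Complex.reCLM.contDiff.contDiffAt.comp y (contDiffAt_pi.1 this i)
  have a1 : ∀ φ y, Par S φ y → φ y ∈ Mo F.C0 F.Kc → lagD (F.Y (val (G x).1) (F.tl (G x).2)) φ y =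
      lagR (fun t => (F.fd χ val G G' ε u).Φ x (φ t)) y := fun φ y hp hm => by
    rw [lagD, ← jet1_congr (h1 φ y hp hm), lag_jet1 ((a0 φ y hp hm).differentiableAt (by simp))]
    rfl
  refine ⟨continuousOn_den par_proof h.surf h.geo.sub (fun p hp => inv_lag par_proof h.surf
    fun φ y a b => (h.cdY a (Or.inl (b ▸ hp)) _ h2).of_le (by norm_num)) fun φ y hp hm => ?_, a1⟩
  have a2 := a0 φ y hp (Or.inl hm)
  have a3 : ContinuousAt (fun y => ((lagR (fun t => (F.fd χ val G G' ε u).Φ x (φ t)) y : ℝ) : ℂ)) y := by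
    refine Complex.continuous_ofReal.continuousAt.comp (ContinuousAt.mul ?_
      (continuous_rn.continuousAt.comp (a2.continuousAt_fderiv (by simp))).norm)
    exact ((a2.continuousAt.norm.pow 2).neg.div_const 4).rexp
  refine a3.congr ?_
  filter_upwards [hp.eventually, h.geo.mo_nhds hp (Or.inl hm)] with t t1 t2 using (a1 φ t t1 t2).symm

theorem cylF : ∀ᶠ x in 𝓝 (0 : P), ∀ j, (∀ v : P2, (u x (.inl j) (v.1, v.2 + 2 * π)).re =
    (u x (.inl j) v).re) ∧ ∀ v : P2, F.z₀ + 11 < v.1 → ε x * v.1 < 1 →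
      ContDiffAt ℝ 2 (fun t => (u x (.inl j) t).re) v ∧
      ‖jet2 (fun t => (u x (.inl j) t).re - √2) v‖ ≤ 1 / 10 ∧
      |v.1 * fderiv ℝ (fun t => (u x (.inl j) t).re) v (1, 0)| ≤ 1 ∧
      ShrR (cylY (F.D.a j) (F.D.b j) (F.D.c j) fun t => (u x (.inl j) t).re)
        (cylV (F.D.a j) (F.D.b j)) v := by
  filter_upwards [h.per, h.sol, h.cyl, h.shrY] with x h1 h2 h3 h4 j
  refine ⟨fun v => congrArg Complex.re (h1 _ v), fun v v1 v2 => ?_⟩
  have hd : F.EDom (ε x) (.inl j) v := ⟨v1, fun _ => v2⟩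
  have h5 := (h2 _ v hd).1
  obtain ⟨h6, h7⟩ := h3 j v v1 v2
  refine ⟨(jet2_re h5).1, ?_, ?_, ?_⟩
  · simpa using (jet2_re (h5.sub contDiffAt_const)).2.trans h6
  · rw [fderiv_re (h5.differentiableAt (by simp)), ← Complex.re_ofReal_mul]
    exact (Complex.abs_re_le_norm _).trans (h7.trans (by norm_num))
  · rw [ShrR, ← h4 _ v hd]
    refine Shr_congr ?_ rfl
    filter_upwards [eDom_ev hd] with t ht using cE_cylY F.D j (h2 _ t ht).2.1

theorem coneF : ∀ᶠ x in 𝓝 (0 : P), ∀ i, (∀ v : P2, (scl (u x (.inr i)) (v.1, v.2 + 2 * π)).re =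
    (scl (u x (.inr i)) v).re) ∧ ∀ v : P2, F.ya < v.1 →
      ContDiffAt ℝ 2 (fun t => (scl (u x (.inr i)) t).re) v ∧
      ‖jet2 (fun t => (scl (u x (.inr i)) t).re) v‖ ≤ η₀ ∧
      ShrR (coneY (F.D.γ i) (F.D.n i) fun t => (scl (u x (.inr i)) t).re)
        (fun t => F.D.n i t.2) v := by
  filter_upwards [h.per, h.sol, h.cone, h.shrY] with x h1 h2 h3 h4 i
  refine ⟨fun v => by simp only [scl, h1], fun v v1 => ?_⟩
  have hd : F.EDom (ε x) (.inr i) v := ⟨v1, by simp⟩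
  have h5 := jet2_re (cda_scl (h2 _ v hd).1)
  refine ⟨h5.1, h5.2.trans (h3 i v v1), ?_⟩
  rw [ShrR, ← h4 _ v hd]
  refine Shr_congr ?_ rfl
  filter_upwards [eDom_ev hd] with t ht using cE_coneY F.D i (h2 _ t ht).2.1

theorem cone0 (Y η : ℝ) (hη : 0 < η) : ∀ᶠ x in 𝓝 (0 : P), ∀ i (v : P2), F.ya < v.1 → v.1 ≤ Y →
    |(scl (u x (.inr i)) v).re - F.D.ψ i v| ≤ η := by
  filter_upwards [h.lim Y η hη] with x h1 i v v1 v2
  have h2 := (Complex.abs_re_le_norm _).trans (h1 (.inr i) v v1 v2)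
  have h3 : 0 ≤ v.1 := by
    have := Real.log_nonneg (show 1 ≤ F.z₀ + 8 by linarith [h.ok.z_big, h.ok.R0_pos])
    linarith [h.ok.y_big]
  have h4 : (scl (u x (.inr i)) v).re - F.D.ψ i v =
      Real.exp (-v.1) * (u x (.inr i) v - gS F.D (.inr i) v).re := by
    simp only [scl, gS, Complex.re_ofReal_mul, Complex.sub_re, Complex.ofReal_re]
    rw [mul_sub, ← mul_assoc, ← Real.exp_add, neg_add_cancel, Real.exp_zero, one_mul]
  rw [h4, abs_mul, abs_of_pos (Real.exp_pos _)]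
  exact (mul_le_of_le_one_left (abs_nonneg _) (Real.exp_le_one_iff.2 (by linarith))).trans h2

theorem cylGlue : ∀ᶠ x in 𝓝 (0 : P), ∀ j (v : P2), v.1 ∈ Ioo (F.z₀ + 11) (F.z₀ + 11 + 3) →
    (F.fd χ val G G' ε u).Φ x (cylY (F.D.a j) (F.D.b j) (F.D.c j) (F.D.r j) v) =
      rotR (F.reT (G x).2 j 0 • F.D.a j + F.reT (G x).2 j 1 • F.D.b j)
        (cylY (F.D.a j) (F.D.b j) (F.D.c j) (fun t => (u x (.inl j) t).re) v) := by
  filter_upwards [h.real, h.collar, h.dom, h.sol] with x h1 h2 h3 h4 j v hv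
  have hv2 : v.1 < F.s1 (.inl j) + 6 := lt_trans hv.2 (show F.z₀ + 11 + 3 < F.z₀ + 11 + 6 by linarith)
  apply cE_injective
  rw [cylY_eq, cE_Φ h1.1 (h1.2 _ (Frm.Kd_mem_Mo (j := .inl j) hv.1 hv2)), (h2 (.inl j) v hv.1 hv.2).1,
    ← cE_cylY F.D j (h4 _ v (h3 (.inl j) v hv.1 hv.2)).2.1, cE_rotR]
  simp only [Frm.omE, map_add, map_smul, Frm.reT, Frm.tl, ← Complex.coe_smul, re_coe (h1.1 _)]

theorem coneGlue : ∀ᶠ x in 𝓝 (0 : P), ∀ i (v : P2), v.1 ∈ Ioo F.ya (F.ya + 3) →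
    (F.fd χ val G G' ε u).Φ x (coneY (F.D.γ i) (F.D.n i) (F.D.ψ i) v) =
      coneY (F.D.γ i) (F.D.n i) (fun t => (scl (u x (.inr i)) t).re) v := by
  filter_upwards [h.real, h.collar, h.dom, h.sol] with x h1 h2 h3 h4 i v hv
  have hv2 : v.1 < F.s1 (.inr i) + 6 := lt_trans hv.2 (show F.ya + 3 < F.ya + 6 by linarith)
  apply cE_injective
  rw [coneY_eq, cE_Φ h1.1 (h1.2 _ (Frm.Kd_mem_Mo (j := .inr i) hv.1 hv2)), (h2 (.inr i) v hv.1 hv.2).1,
    ← cE_coneY F.D i (h4 _ v (h3 (.inr i) v hv.1 hv.2)).2.1, Frm.omE, rot_zero]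

theorem ustrict (η : ℝ) (hη : 0 < η) : ∀ᶠ q : P × P in 𝓝 (0, 0), ∀ p ∈ S, ‖p‖ ≤ F.z₀ + 5 + 1 →
    |(val (G q.1).1 p).re - (val (G q.2).1 p).re - (val (G' (q.1 - q.2)).1 p).re| ≤
      η * ‖q.1 - q.2‖ := by
  obtain ⟨C, hC⟩ := h.vok.sup
  filter_upwards [h.strict.isLittleO.def (show 0 < η / (|C| + 1) by positivity)] with q hq p hp hn
  have h1 := hC (G q.1 - G q.2 - G' (q.1 - q.2)).1 p (h.ok.ball_sub hp (by linarith))
  have h2 := (norm_fst_le _).trans hq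
  have h3 := (Complex.abs_re_le_norm _).trans h1
  simp only [Prod.fst_sub, map_sub val, Pi.sub_apply, Complex.sub_re] at h3 h2
  refine h3.trans ((mul_le_mul (le_abs_self C) h2 (norm_nonneg _) (abs_nonneg _)).trans ?_)
  rw [← mul_assoc]
  gcongr
  rw [mul_div_assoc', div_le_iff₀ (by positivity)]
  nlinarith

theorem area_C0 : (area S).restrict F.C0 = (μHE[2] : Measure E3).restrict F.C0 := by
  rw [area, Measure.restrict_restrict h.geo.cpt.measurableSet, inter_eq_left.2 h.geo.sub]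

theorem mo_eq (b : P) (i : κ) : mo F.C0 (χ i) (val (G' b).1) =
    (∫ p, (val (G' b).1 p).re * χ i p * rho p ∂(area S) : ℝ) := by
  have h0 : ∀ p ∈ S, p ∉ F.C0 → χ i p = 0 := fun p hp hc => by
    by_contra h0
    have h1 := mem_ball_zero_iff.1 ((h.chi i).2 (subset_tsupport _ h0))
    exact hc (h.ok.ball_sub hp (by linarith))
  rw [mo, ← h.area_C0, ← setIntegral_eq_integral_of_ae_compl_eq_zero (s := F.C0) (μ := area S)
    ((ae_restrict_mem h.surf.1.measurableSet).mono fun p hp hc => by simp [h0 p hp hc]),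
    ← integral_complex_ofReal]
  refine setIntegral_congr_fun h.geo.cpt.measurableSet fun p hp => ?_
  rw [← re_coe (h.re' b hp), mul_assoc, ← Complex.ofReal_mul]
  rfl

theorem onto (t : κ → ℝ) : ∃ b, ∀ i, mo F.C0 (χ i) (val (G' b).1) = t i := by
  choose L hL using h.mom
  let A : P →ₗ[ℝ] κ → ℝ :=
    { toFun := fun b i => (L i (G' b).1).re
      map_add' := fun a b => funext fun i => by simp
      map_smul' := fun c b => funext fun i => by
        rw [map_smul, Prod.smul_fst, ← Complex.coe_smul, map_smul]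
        simp }
  have hA : ∀ b i, mo F.C0 (χ i) (val (G' b).1) = A b i := fun b i => by
    show _ = (((L i (G' b).1).re : ℝ) : ℂ)
    rw [hL, h.mo_eq, Complex.ofReal_re]
  have hi : Function.Injective A := (injective_iff_map_eq_zero A).2 fun b hb =>
    h.inj b fun i => by simp [hA, hb]
  have := Module.Finite.of_injective A hi
  obtain ⟨b, hb⟩ := (LinearMap.injective_iff_surjective_of_finrank_eq_finrank
    (by rw [h.dim, Module.finrank_fintype_fun_eq_card])).1 hi t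
  exact ⟨b, fun i => by rw [hA, hb]⟩

theorem denF : ∀ᶠ x in 𝓝 (0 : P), IntegrableOn ((F.fd χ val G G' ε u).den x) F.C0 (area S) ∧
    ∀ p ∈ F.C0, ∃ φ y, Par S φ y ∧ φ y = p ∧ (F.fd χ val G G' ε u).den x p * ‖rn (fderiv ℝ φ y)‖ =
      lagR (fun t => (F.fd χ val G G' ε u).Φ x (φ t)) y := by
  filter_upwards [h.denOK] with x h1
  refine ⟨?_, fun p hp => ?_⟩
  · rw [IntegrableOn, h.area_C0]
    exact integrableOn_core par_proof h.surf h.geo.sub h.geo.cpt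
      (Complex.continuous_re.comp_continuousOn h1.1)
  · obtain ⟨a, b⟩ := pick_spec par_proof h.surf (h.geo.sub hp)
    refine ⟨_, _, a, b, ?_⟩
    show (den S (lagD (F.Y (val (G x).1) (F.tl (G x).2))) p).re * _ = _
    rw [LS.den, h1.2 _ _ a (Or.inl (b.symm ▸ hp)), ← Complex.ofReal_div, Complex.ofReal_re]
    exact div_mul_cancel₀ _ (ael_pos a).ne'

/-- **the family of block FT** -/
theorem fam {L β : ℝ} {M : ℕ} (hβ : 1 < β)
    (hε : ∀ᶠ x in 𝓝 (0 : P), ε x ^ M ≤ L * ‖(F.fd χ val G G' ε u).kap x‖)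
    (hl : ∀ᶠ x in 𝓝 (0 : P), (F.fd χ val G G' ε u).act x - ∫ p, rho p ∂(area S) ≤
      L * ‖(F.fd χ val G G' ε u).kap x‖ ^ β) :
    Ft.Fam F.V₀ (F.fd χ val G G' ε u) η₀ (F.z₀ + 5) L M β where
  big := by
    have h1 := h.ok.R0_pos
    have h2 := h.ok.z_big
    have h3 := h.ok.y_big
    have h4 := Real.log_le_log h1 (show F.D.R₀ ≤ F.z₀ + 8 by linarith)
    have h5 := Real.exp_le_exp.2 (show Real.log (F.z₀ + 8) ≤ F.ya by linarith)
    rw [Real.exp_log (by linarith)] at h5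
    exact ⟨show _ ≤ F.z₀ + 11 by linarith, show _ ≤ F.ya by linarith,
      show _ ≤ F.z₀ + 11 by linarith, show _ ≤ Real.exp F.ya by linarith⟩
  smooth := by
    have h1 : ContDiff ℝ ∞ fun q : Tilt F.D.m ℝ × E3 => F.omR q.1 q.2 := by
      refine ContDiff.sum fun j _ => ((h.ok.chi_smooth j).comp contDiff_snd).smul ?_
      fun_prop
    exact ⟨1, one_pos, ((cd_rotR h1 contDiff_snd).prodMk
      (cd_rotR h1 (h.ok.smooth.comp contDiff_snd))).contDiffOn⟩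
  base p := by simp [Frm.fd, Frm.omR]
  β0 := h.β0
  trans p hp := h.ok.trans_nu hp.1
  normal := Eventually.of_forall fun x p hp hn => by
    simp only [Frm.fd, h.ok.omR_core _ hp (by linarith), rotR_zero, true_and]
    exact h.ok.core p hp (by linarith)
  wc φ y h1 h2 := h.wc φ y h1 (Frm.Cr_sub (t := 5 / 2) (by norm_num) (F.Cr_eq _ ▸ h2))
  eq := h.eqn.mono fun x hx φ y h1 h2 => hx φ y h1 (F.Cr_eq _ ▸ h2)
  chi i := ⟨(h.chi i).1, (h.chi i).2.trans (ball_subset_ball (by linarith))⟩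
  kap0 := tendsto_pi_nhds.2 fun i => by simpa [Frm.fd] using (h.re0 (.inl i)).neg
  ε0 := h.ε0
  εle := h.εnn.and hε
  iso := Eventually.of_forall fun x j v => norm_rotR _ _
  Q0 j := by
    have h1 := ((h.re0 (.inr (j, 0))).smul_const (F.D.a j)).add
      ((h.re0 (.inr (j, 1))).smul_const (F.D.b j))
    rw [zero_smul, zero_smul, add_zero] at h1
    have h2 := (continuous_rotE.tendsto 0).comp h1
    rwa [show rotE 0 = ContinuousLinearMap.id ℝ E3 from ContinuousLinearMap.ext rotR_zero] at h2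
  cyl := h.cylF
  cyl0 Z η hη := by
    filter_upwards [h.lim Z η hη] with x h1 j v v1 v2
    simpa [Frm.fd, gS] using (Complex.abs_re_le_norm _).trans (h1 (.inl j) v v1 v2)
  cylGlue := h.cylGlue
  cone := h.coneF
  cone0 := h.cone0
  coneGlue := h.coneGlue
  ucont' b := Complex.continuous_re.comp_continuousOn ((h.vok.cont _).mono fun p hp =>
    h.ok.ball_sub hp.1 (by linarith [mem_closedBall_zero_iff.1 hp.2]))
  ustrict := h.ustrict
  onto t := by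
    obtain ⟨b, hb⟩ := h.onto t
    exact ⟨b, funext fun i => Complex.ofReal_injective ((h.mo_eq b i).symm.trans (hb i))⟩
  den := by
    rw [show core F.D (F.fd χ val G G' ε u).z₁ (F.fd χ val G G' ε u).y₁ 0 = F.C0 from
      (F.Cr_eq 0).symm.trans F.Cr_zero]
    exact h.denF
  beta := hβ
  loj := hl

end RealIn

end Vale.Agent.P218F.LS
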