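import Vale.Agent.P218F.LSReal

/-! The glued family of the reduction is a real parameter family. -/

open MeasureTheory Set Filter Topology Metric Matrix
open scoped ContDiff RealInnerProductSpace Real

set_option maxSynthPendingDepth 3
set_option linter.unusedSectionVars false

noncomputable section

namespace Vale.Agent.P218F.LS

open Vale.Agent.P218FT hiding P2
open Vale.Agent.P218F.Core Vale.Agent.P218F.Ends Vale.Agent.P218F.Ft Vale.Agent.P218F.Mesh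
open Vale.Agent.P218.H313 (rho grad)

variable {S : Set E3} {F : Frm S} {q : ℕ} {Z : Type} [NormedAddCommGroup Z] [NormedSpace ℂ Z]

/-! ### Real parameters -/

/-- the inclusion of the real parameters -/
def ofC (q m : ℕ) : XR q m →L[ℝ] Nm.X q m := LinearMap.toContinuousLinearMap ofR

theorem norm_ofR_snd {m : ℕ} (x : XR q m) : ‖(ofR x).2‖ = ‖x.2‖ := by
  simp [ofR, Pi.norm_def]

theorem isRe_ofR {m : ℕ} (x : XR q m) : Nm.IsRe (ofR x) :=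
  ⟨fun _ => Complex.ofReal_im _, fun _ => Complex.ofReal_im _⟩

theorem tendsto_ofR {m : ℕ} : Tendsto (fun x : XR q m => ofR x) (𝓝 0) (𝓝 0) :=
  (ofC q m).continuous.tendsto' 0 0 (map_zero _)

theorem Rof_facts {m : ℕ} {δ : ℝ} (hδ : 0 < δ) {x : Nm.X q m} (hx : x.2 ≠ 0) :
    0 < Nm.Rof δ x ∧ ‖x.2‖ = δ / Nm.Rof δ x ^ 2 ∧ √(‖x.2‖ / δ) * Nm.Rof δ x = 1 := by
  have h1 := norm_pos_iff.2 hx
  refine ⟨Real.sqrt_pos.2 (by positivity), ?_, ?_⟩
  · rw [Nm.Rof, Real.sq_sqrt (by positivity)]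
    field_simp
  · rw [Nm.Rof, ← Real.sqrt_mul (by positivity), div_mul_div_cancel₀ hδ.ne', div_self h1.ne',
      Real.sqrt_one]

theorem ev_Rof {m : ℕ} {δ : ℝ} (hδ : 0 < δ) (R1 : ℝ) :
    ∀ᶠ x : Nm.X q m in 𝓝 0, x.2 ≠ 0 → R1 ≤ Nm.Rof δ x := by
  have h1 : 0 < max R1 1 := lt_max_of_lt_right one_pos
  filter_upwards [(continuous_snd.norm.tendsto' (0 : Nm.X q m) 0 (by simp)).eventually_lt_const
    (show 0 < δ / max R1 1 ^ 2 by positivity)] with x h2 hx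
  have h3 := norm_pos_iff.2 hx
  refine (le_max_left _ 1).trans (Real.le_sqrt_of_sq_le ?_)
  rw [lt_div_iff₀ (by positivity)] at h2
  rw [le_div_iff₀ h3]
  linarith

/-! ### The end solutions -/

theorem EF.OK.inf {H : EF F} (h : H.OK) : ∀ j, ∃ low low', InfFam (Bx F.D j) (Wx F.D j) (gS F.D j)
    (F.s1 j) H.δ H.C (H.g0 j) (H.ei j) low (H.e' j) low'
  | .inl j => ⟨_, _, (h.cyl j).toInfFam⟩
  | .inr i => ⟨_, _, (h.cone i).toInfFam⟩

theorem EF.OK.small {H : EF F} (h : H.OK) {R : ℝ} (hR : H.R0 ≤ R) (h0 : 0 < R) {c : ℂ}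
    (hc : ‖c‖ < 1 / R ^ 2) : c ∈ Sym.Om (2 * H.Λ) R := by
  obtain ⟨C₀, R₀, cc, h1, -, h2⟩ := h.inv
  refine ball_subset_ball ?_ (h1.small R (h2.trans hR) (mem_ball_zero_iff.2 hc))
  have := h.lam
  gcongr
  linarith

/-- a real solution `s`, glued to end solutions `e` which are defined up to the height `1 / ε` -/
structure At (H : EF F) (χ : Fin q ⊕ Fin F.D.m → E3 → ℝ) (val : Z →ₗ[ℂ] E3 → ℂ)
    (tr : Un F q Z →L[ℂ] JJ F.D → AA) (ρ R1 ε : ℝ) (s : Un F q Z) (e : JJ F.D → P2 → ℂ) : Prop where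
  sol : ∃ b, Sol χ val tr ρ b s e
  re : ReU val s
  cases : ∀ j, e j = H.ei j (H.g (tr s) j) ∨ ∃ j' R c, j = .inl j' ∧ R1 ≤ R ∧ H.R0 ≤ R ∧
    (∀ z, ε * z < 1 → z < R) ∧ c ∈ Sym.Om (2 * H.Λ) R ∧ c.im = 0 ∧ ‖c‖ ≤ H.δ₁ / R ^ 2 ∧
    e j = H.e j' R (H.g (tr s) j) c

/-- the hypotheses -/
structure AdIn (H : EF F) (χ : Fin q ⊕ Fin F.D.m → E3 → ℝ) (val : Z →ₗ[ℂ] E3 → ℂ)
    (tr : Un F q Z →L[ℂ] JJ F.D → AA) (ρ R0 r C : ℝ) (s : ℝ → Nm.X q F.D.m → Un F q Z)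
    (si : (Fin q → ℂ) → Un F q Z) (T : Nm.X q F.D.m → Un F q Z)
    (Dz : Nm.X q F.D.m →L[ℂ] Un F q Z) (δ : ℝ) : Prop where
  ok : F.OK
  ne : S.Nonempty
  hok : H.OK
  chi : F.Src χ
  sp : Sp χ val tr
  red : Red H χ val tr ρ R0 r C s si
  pl : PLim r s T Dz
  nd : Nondeg χ val Dz
  pos : 0 < δ
  le1 : δ ≤ 1 / 4
  le2 : δ ≤ H.δ₁

namespace AdIn

variable {H : EF F} {χ : Fin q ⊕ Fin F.D.m → E3 → ℝ} {val : Z →ₗ[ℂ] E3 → ℂ}
  {tr : Un F q Z →L[ℂ] JJ F.D → AA} {ρ R0 r C : ℝ} {s : ℝ → Nm.X q F.D.m → Un F q Z}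
  {si : (Fin q → ℂ) → Un F q Z} {T : Nm.X q F.D.m → Un F q Z} {Dz : Nm.X q F.D.m →L[ℂ] Un F q Z}
  {δ : ℝ} (h : AdIn H χ val tr ρ R0 r C s si T Dz δ)
include h

theorem norm_g (t : JJ F.D → AA) (j : JJ F.D) : ‖H.g t j - H.g0 j‖ ≤ ‖t‖ := by
  rw [EF.g, add_sub_cancel_left, norm_smul]
  rcases h.ok.sign j with e | e <;> simpa [e] using norm_le_pi_norm t j

section pt

variable {R1 ε : ℝ} {a : Un F q Z} {e : JJ F.D → P2 → ℂ} (ha : At H χ val tr ρ R1 ε a e)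
include ha

theorem g_mem (j : JJ F.D) : H.g (tr a) j ∈ ball (H.g0 j) H.δ := by
  obtain ⟨b, hb⟩ := ha.sol
  exact mem_ball_iff_norm.2 (((h.norm_g _ j).trans hb.trn).trans_lt h.red.rho)

theorem g_re (j : JJ F.D) : ReA (H.g (tr a) j) := fun θ => by
  obtain ⟨_, _, h1⟩ := h.hok.inf j
  have h2 := ha.re.2 _ (Or.inl (((h.ok.geo h.ne).mem j (0, θ) (by norm_num)).2 le_rfl))
  rw [EF.g, map_add, map_smul, h1.ev0, h.sp.tr]
  simp [h2]

theorem at_per (j : JJ F.D) (v : P2) : e j (v.1, v.2 + 2 * π) = e j v := by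
  obtain ⟨_, _, h1⟩ := h.hok.inf j
  rcases ha.cases j with e1 | ⟨j, R, c, rfl, -, h2, -, h3, -, -, e1⟩
  · rw [e1, h1.per _ (h.g_mem ha j)]
  · rw [e1, (h.hok.cyl j).fper R h2 _ (h.g_mem ha _) c h3]

theorem at_sol (j : JJ F.D) (v : P2) (hv : F.EDom ε j v) : ContDiffAt ℝ 2 (e j) v ∧
    (e j v).im = 0 ∧ shrE F.D j v (jet2 (e j) v) = 0 := by
  obtain ⟨_, _, h1⟩ := h.hok.inf j
  have hg := h.g_mem ha j
  rcases ha.cases j with e1 | ⟨j, R, c, rfl, -, h2, h4, h3, h5, -, e1⟩ <;> rw [e1]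
  · exact ⟨(h1.c2 _ hg).contDiffAt (prod_mem_nhds (Ioi_mem_nhds hv.1) univ_mem),
      (h1.real _ hg (h.g_re ha j)).1 v hv.1.le, h1.eq _ hg v hv.1⟩
  · have h6 := h4 _ (hv.2 rfl)
    have h7 := h.hok.cyl j
    exact ⟨(h7.fc2 R h2 _ hg c h3).contDiffAt (prod_mem_nhds (Icc_mem_nhds hv.1 h6) univ_mem),
      (h7.freal R h2 _ hg c h3 (h.g_re ha _) h5).1 v hv.1.le h6.le,
      (h7.feq R h2 _ hg c h3 v hv.1 h6).2.1⟩

theorem at_cyl (j : Fin F.D.m) (v : P2) (h1 : F.z₀ + 11 < v.1) (h2 : ε * v.1 < 1) :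
    CylSm (1 / 10) (e (.inl j)) v := by
  have hg := h.g_mem ha (.inl j)
  have h7 := h.hok.cyl j
  have h8 : CylSm H.ε (e (.inl j)) v := by
    rcases ha.cases (.inl j) with e1 | ⟨j, R, c, e0, -, h3, h4, h5, -, h6, e1⟩ <;> rw [e1]
    · exact h7.smalli _ hg v h1
    · obtain rfl := Sum.inl_injective e0
      exact h7.x6 R h3 _ hg c h5 h6 v h1 (h4 _ h2)
  exact ⟨h8.1.trans h.hok.eps.2, h8.2.trans h.hok.eps.2⟩

theorem at_cone_eq (i : Fin F.D.k) : e (.inr i) = H.ei (.inr i) (H.g (tr a) (.inr i)) :=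
  (ha.cases (.inr i)).resolve_right fun ⟨_, _, _, e0, _⟩ => Sum.inr_ne_inl e0

theorem inf_lim (j : JJ F.D) (v : P2) (h1 : F.s1 j < v.1) :
    ‖H.ei j (H.g (tr a) j) v - gS F.D j v‖ ≤ Real.exp |v.1| * (|H.C| * ‖tr a‖) := by
  obtain ⟨_, _, h2⟩ := h.hok.inf j
  have hg := h.g_mem ha j
  have h0 := mem_ball_self (x := H.g0 j) h.hok.δpos
  have h3 : H.C * ‖H.g (tr a) j - H.g0 j‖ ≤ |H.C| * ‖tr a‖ :=
    mul_le_mul (le_abs_self _) (h.norm_g _ j) (norm_nonneg _) (abs_nonneg _)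
  rw [← h2.base v h1.le]
  rcases j with j | i
  · exact (((norm_fst_le _).trans ((h.hok.cyl j).lipi _ h0 _ hg v h1)).trans h3).trans
      (le_mul_of_one_le_left (by positivity) (Real.one_le_exp (abs_nonneg _)))
  · have h4 := ((norm_fst_le _).trans ((h.hok.cone i).lip _ h0 _ hg v h1)).trans h3
    simp only [Prod.fst_sub, jet1, scl, ← mul_sub, norm_mul, Complex.norm_real, Real.norm_eq_abs,
      Real.abs_exp] at h4
    rw [Real.exp_neg, inv_mul_le_iff₀ (Real.exp_pos _)] at h4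
    exact h4.trans (by gcongr; exact le_abs_self _)

end pt

theorem T_eq {b : Fin q → ℂ} (hb : ‖b‖ < r) : T (b, 0) = si b :=
  tendsto_nhds_unique (h.pl.lim b hb) (h.red.lim b hb)

theorem ev_at (R1 : ℝ) : ∀ᶠ x : XR q F.D.m in 𝓝 0, At H χ val tr ρ R1 √(‖x.2‖ / δ)
    (Nm.glue δ s T (ofR x)) (H.eG δ (ofR x) (tr (Nm.glue δ s T (ofR x)))) := by
  filter_upwards [tendsto_ofR.eventually (ev_Rof h.pos (max R1 R0)), tendsto_ofR.eventually
    ((continuous_fst.norm.tendsto' (0 : Nm.X q F.D.m) 0 (by simp)).eventually_lt_const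
      h.red.fam.rpos)] with x h1 h2
  have h3 := isRe_ofR x
  rw [← norm_ofR_snd]
  generalize ofR x = y at h1 h2 h3
  by_cases hy : y.2 = 0
  · have e1 : T y = si y.1 := by rw [← h.T_eq h2, ← hy]
    simp only [Nm.glue, EF.eG, if_pos hy, e1]
    obtain ⟨h4, h5⟩ := h.red.soli _ h2 h3.1
    exact ⟨⟨_, h4⟩, h5, fun j => Or.inl rfl⟩
  · simp only [Nm.glue, EF.eG, if_neg hy]
    obtain ⟨h4, h5, h6⟩ := Rof_facts h.pos hy
    have h7 := (le_max_right _ _).trans (h1 hy)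
    have h8 := h.red.big.trans h7
    have h9 : ∀ j, ‖y.2 j‖ ≤ δ / Nm.Rof δ y ^ 2 := fun j => h5 ▸ norm_le_pi_norm _ j
    have hd : y ∈ Nm.dom q F.D.m r (Sym.Om (2 * H.Λ) (Nm.Rof δ y)) := ⟨h2, fun j =>
      h.hok.small h8 h4 ((h9 j).trans_lt (by gcongr; linarith [h.le1]))⟩
    refine ⟨⟨_, h.red.sol _ h7 _ hd⟩, h.red.real _ h7 _ hd h3, fun j => ?_⟩
    rcases j with j | i
    · refine Or.inr ⟨j, _, y.2 j, rfl, (le_max_left _ _).trans (h1 hy), h8, fun z hz => ?_, hd.2 j,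
        h3.2 j, (h9 j).trans (by gcongr; exact h.le2), rfl⟩
      exact lt_of_mul_lt_mul_left (h6 ▸ hz) (Real.sqrt_nonneg _)
    · exact Or.inl rfl

theorem strict : HasStrictFDerivAt (fun x : XR q F.D.m => Nm.glue δ s T (ofR x))
    ((Dz.restrictScalars ℝ).comp (ofC q F.D.m)) 0 := by
  refine HasStrictFDerivAt.comp (g := Nm.glue δ s T) 0 ?_ (ofC q F.D.m).hasStrictFDerivAt
  rw [map_zero]
  exact (h.pl.strict δ h.pos h.le1).restrictScalars ℝ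

theorem zero : Nm.glue δ s T (ofR 0) = 0 := by
  rw [map_zero, Nm.glue, if_pos Prod.snd_zero, ← h.red.zero, ← h.T_eq (by simpa using h.red.fam.rpos)]
  rfl

theorem tr0 : Tendsto (fun x : XR q F.D.m => ‖tr (Nm.glue δ s T (ofR x))‖) (𝓝 0) (𝓝 0) := by
  have h1 := (tr.continuous.tendsto _).comp h.strict.continuousAt.tendsto
  rw [h.zero, map_zero] at h1
  simpa using h1.norm

theorem lim (Y η : ℝ) (hη : 0 < η) : ∀ᶠ x : XR q F.D.m in 𝓝 0, ∀ j (v : P2), F.s1 j < v.1 →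
    v.1 ≤ Y → ‖H.eG δ (ofR x) (tr (Nm.glue δ s T (ofR x))) j v - gS F.D j v‖ ≤ η := by
  choose R₁ hR using fun j => (h.hok.cyl j).x7 (Y + 1) (η / 2) (half_pos hη)
  obtain ⟨R1, h1⟩ := (finite_range R₁).bddAbove
  obtain ⟨s0, h0⟩ := (finite_range F.s1).bddBelow
  filter_upwards [h.ev_at R1, ((h.tr0.const_mul |H.C|).const_mul
    (Real.exp (max |s0| |Y|))).eventually_le_const (show _ < η / 2 by simpa using hη)] with x h2 h3 j v v1 v2
  have h4 := (h.inf_lim h2 j v v1).trans (le_trans (by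
    gcongr
    exact abs_le_max_abs_abs ((h0 ⟨j, rfl⟩).trans v1.le) v2) h3)
  rcases h2.cases j with e1 | ⟨j, R, c, rfl, h5, -, -, h6, -, -, e1⟩ <;> rw [e1]
  · linarith
  · have h7 := (norm_fst_le _).trans ((hR j R ((h1 ⟨j, rfl⟩).trans h5) _ (h.g_mem h2 _) c h6).2 v v1
      (by linarith))
    exact (norm_sub_le_norm_sub_add_norm_sub _ _ _).trans ((add_le_add h7 h4).trans_eq (add_halves η))

theorem realIn : RealIn F χ val (fun x => Nm.glue δ s T (ofR x))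
    ((Dz.restrictScalars ℝ).comp (ofC q F.D.m)) (fun x => √(‖x.2‖ / δ))
    (fun x => H.eG δ (ofR x) (tr (Nm.glue δ s T (ofR x)))) H.ε where
  ok := h.ok
  ne := h.ne
  chi := h.chi
  vok := ⟨h.sp.jet, h.sp.sup, h.sp.cont⟩
  strict := h.strict
  zero := h.zero
  real := (h.ev_at 0).mono fun _ hx => hx.re
  eq := (h.ev_at 0).mono fun _ hx => hx.sol.elim fun _ hb => hb.eq
  glue := (h.ev_at 0).mono fun _ hx => hx.sol.elim fun _ hb => hb.glue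
  ε0 := ((continuous_snd.norm.div_const δ).sqrt.tendsto' 0 0 (by simp))
  εnn := Eventually.of_forall fun _ => Real.sqrt_nonneg _
  per := (h.ev_at 0).mono fun _ hx => h.at_per hx
  sol := (h.ev_at 0).mono fun _ hx => h.at_sol hx
  cyl := (h.ev_at 0).mono fun _ hx => h.at_cyl hx
  cone := (h.ev_at 0).mono fun _ hx i v hv => by
    rw [h.at_cone_eq hx]
    exact ((h.hok.cone i).small _ (h.g_mem hx _) v hv).1
  lim := h.lim
  mom := h.sp.mom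
  inj b hb := by
    have h1 : (ofR b).1 = 0 := funext fun i => (h.nd.mom _ i).symm.trans (hb (.inl i))
    have h2 := h.nd.inj _ h1 fun j => hb (.inr j)
    exact Prod.ext (funext fun i => Complex.ofReal_eq_zero.1 (congrFun h1 i))
      (funext fun j => Complex.ofReal_eq_zero.1 (congrFun h2 j))
  dim := by simp

theorem fam {L β : ℝ} {M : ℕ} (hβ : 1 < β)
    (hε : ∀ᶠ x in 𝓝 (0 : XR q F.D.m), (famData H χ val tr δ (Nm.glue δ s T) Dz).ε x ^ M ≤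
      L * ‖(famData H χ val tr δ (Nm.glue δ s T) Dz).kap x‖)
    (hl : ∀ᶠ x in 𝓝 (0 : XR q F.D.m), (famData H χ val tr δ (Nm.glue δ s T) Dz).act x -
      ∫ p, rho p ∂(area S) ≤ L * ‖(famData H χ val tr δ (Nm.glue δ s T) Dz).kap x‖ ^ β) :
    Ft.Fam F.V₀ (famData H χ val tr δ (Nm.glue δ s T) Dz) H.ε (F.z₀ + 5) L M β :=
  h.realIn.fam hβ hε hl

end AdIn

end Vale.Agent.P218F.LS
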