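import Vale.Agent.P218F.LgbSpec
import Vale.Agent.P218FT.Chart
import Vale.Agent.P218FT.Local2
import Mathlib.MeasureTheory.Function.Jacobian
import Mathlib.MeasureTheory.Measure.Haar.InnerProductSpace

/-! The area formula with multiplicity for the map `(x, σ) ↦ σ ν(x) - ∇β(x)`, whose fibres are the
critical points of the functions `⟪v, ·⟫ + β` on a surface. -/

open MeasureTheory Set Filter Topology Metric
open scoped ENNReal NNReal RealInnerProductSpace ContDiff

namespace Vale.Agent.P218F.Lgb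

open Vale.Agent.P218FT Vale.Agent.P218GA

/-! ### Counting preimages -/

lemma encard_iUnion_nat {α : Type*} {S : ℕ → Set α} (hd : Pairwise (Function.onFun Disjoint S)) :
    ((⋃ n, S n).encard : ℝ≥0∞) = ∑' n, ((S n).encard : ℝ≥0∞) := by
  let _ : MeasurableSpace α := ⊤
  have h := measure_iUnion (μ := Measure.count) hd (fun n => MeasurableSpace.measurableSet_top)
  simpa only [Measure.count_apply MeasurableSpace.measurableSet_top] using h

lemma encard_fiber {α β : Type*} {f : α → β} {t : Set α} (h : InjOn f t) (v : β) :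
    ((t ∩ f ⁻¹' {v}).encard : ℝ≥0∞) = (f '' t).indicator 1 v := by
  by_cases hv : v ∈ f '' t
  · rw [indicator_of_mem hv]
    obtain ⟨x, hx, rfl⟩ := hv
    have : t ∩ f ⁻¹' {f x} = {x} := by
      ext y
      constructor
      · rintro ⟨hy, hy'⟩
        exact h hy hx hy'
      · rintro rfl
        exact ⟨hx, rfl⟩
    simp [this]
  · rw [indicator_of_notMem hv]
    have : t ∩ f ⁻¹' {v} = ∅ := eq_empty_of_forall_notMem fun y hy => hv ⟨y, hy.1, hy.2⟩
    simp [this]

/-- **Area formula with multiplicity** in `ℝ³`. -/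
theorem count_formula {f : E3 → E3} (hf : ContDiff ℝ 1 f) {s : Set E3} (hs : MeasurableSet s)
    (hd : ∀ x ∈ s, (fderiv ℝ f x).det ≠ 0) :
    Measurable (fun v => ((s ∩ f ⁻¹' {v}).encard : ℝ≥0∞)) ∧ ∀ W, MeasurableSet W →
      ∫⁻ v in W, ((s ∩ f ⁻¹' {v}).encard : ℝ≥0∞)
        = ∫⁻ x in s ∩ f ⁻¹' W, ENNReal.ofReal |(fderiv ℝ f x).det| := by
  have loc : ∀ x ∈ s, ∃ t ∈ 𝓝 x, InjOn f t := by
    intro x hx
    have hi : Function.Injective (fderiv ℝ f x) := by
      have : LinearMap.ker (fderiv ℝ f x : E3 →ₗ[ℝ] E3) = ⊥ := by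
        by_contra h0
        exact hd x hx (LinearMap.det_eq_zero_iff_ker_ne_bot.2 h0)
      exact LinearMap.ker_eq_bot.1 this
    obtain ⟨t, ht, -, h2⟩ := exists_biLip (hf.contDiffAt.hasStrictFDerivAt one_ne_zero) hi
      (K := 2) (by norm_num)
    refine ⟨t, ht, fun a ha b hb hab => hi ?_⟩
    have := h2 a ha b hb
    rw [hab, dist_self, mul_zero] at this
    exact dist_le_zero.1 this
  choose! t ht hinj using loc
  obtain ⟨A, hAm, hAd, hAc, hAt⟩ := exists_partition ht
  have hi : ∀ n, InjOn f (s ∩ A n) := by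
    intro n
    rcases hAt n with h0 | ⟨x, hx, hxt⟩
    · simp [h0]
    · exact (hinj x hx).mono (inter_subset_right.trans hxt)
  have hm : ∀ n, MeasurableSet (s ∩ A n) := fun n => hs.inter (hAm n)
  have hfd : ∀ (u : Set E3), ∀ x ∈ u, HasFDerivWithinAt f (fderiv ℝ f x) u x := fun u x _ =>
    (hf.differentiable one_ne_zero x).hasFDerivAt.hasFDerivWithinAt
  have him : ∀ n, MeasurableSet (f '' (s ∩ A n)) := fun n =>
    measurable_image_of_fderivWithin (hm n) (hfd _) (hi n)
  have hsU : ∀ u : Set E3, s ∩ u = ⋃ n, s ∩ A n ∩ u := by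
    intro u
    rw [← iUnion_inter, ← inter_iUnion, inter_eq_left.2 hAc]
  have hdis : ∀ u : Set E3, Pairwise (Function.onFun Disjoint fun n => s ∩ A n ∩ u) :=
    fun u i j hij => (hAd hij).mono (inter_subset_left.trans inter_subset_right)
      (inter_subset_left.trans inter_subset_right)
  have e : (fun v => ((s ∩ f ⁻¹' {v}).encard : ℝ≥0∞))
      = fun v => ∑' n, (f '' (s ∩ A n)).indicator 1 v := by
    ext v
    rw [hsU, encard_iUnion_nat (hdis _)]
    exact tsum_congr fun n => encard_fiber (hi n) v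
  have hmi : ∀ n, Measurable ((f '' (s ∩ A n)).indicator (1 : E3 → ℝ≥0∞)) := fun n =>
    measurable_one.indicator (him n)
  refine ⟨by rw [e]; exact Measurable.tsum hmi, fun W hW => ?_⟩
  have hW' : MeasurableSet (f ⁻¹' W) := hf.continuous.measurable hW
  rw [e, lintegral_tsum fun n => (hmi n).aemeasurable, hsU,
    lintegral_iUnion (fun n => (hm n).inter hW') (hdis _)]
  refine tsum_congr fun n => ?_
  rw [lintegral_indicator_one (him n), Measure.restrict_apply (him n),
    lintegral_abs_det_fderiv_eq_addHaar_image volume ((hm n).inter hW') (hfd _)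
      ((hi n).mono inter_subset_left), image_inter_preimage]

/-! ### Determinants -/

lemma det_triple {a b c : E3} (h : Triple a b c) (L : E3 →L[ℝ] E3) :
    L.det = ⟪a, L a⟫ * (⟪b, L b⟫ * ⟪c, L c⟫ - ⟪b, L c⟫ * ⟪c, L b⟫)
      - ⟪a, L b⟫ * (⟪b, L a⟫ * ⟪c, L c⟫ - ⟪b, L c⟫ * ⟪c, L a⟫)
      + ⟪a, L c⟫ * (⟪b, L a⟫ * ⟪c, L b⟫ - ⟪b, L b⟫ * ⟪c, L a⟫) := by
  obtain ⟨B, h0, h1, h2⟩ := h.exists_basis
  rw [ContinuousLinearMap.det, ← LinearMap.det_toMatrix B.toBasis, Matrix.det_fin_three]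
  simp only [LinearMap.toMatrix_apply, OrthonormalBasis.coe_toBasis,
    OrthonormalBasis.coe_toBasis_repr_apply, OrthonormalBasis.repr_apply_apply, h0, h1, h2,
    ContinuousLinearMap.coe_coe]
  ring

/-- the determinant of `L` on the plane orthogonal to `n` -/
noncomputable def tdet (n : E3) (L : E3 →L[ℝ] E3) : ℝ :=
  (L.comp (pt n) + (innerSL ℝ n).smulRight n).det

lemma tdet_eq {a b n : E3} (h : Triple a b n) (L : E3 →L[ℝ] E3) :
    tdet n L = ⟪L a, a⟫ * ⟪L b, b⟫ - ⟪L a, b⟫ * ⟪L b, a⟫ := by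
  have na : ⟪n, a⟫ = 0 := by rw [real_inner_comm]; exact h.ac
  have nb : ⟪n, b⟫ = 0 := by rw [real_inner_comm]; exact h.bc
  have nn : ⟪n, n⟫ = 1 := by rw [real_inner_self_eq_norm_sq, h.nc]; norm_num
  rw [tdet, det_triple h]
  simp only [_root_.add_apply, ContinuousLinearMap.comp_apply, ContinuousLinearMap.smulRight_apply,
    innerSL_apply_apply, pt_of_orth na, pt_of_orth nb, pt_self h.nc, na, nb, nn, zero_smul,
    add_zero, map_zero, zero_add, one_smul, h.ac, h.bc]
  rw [real_inner_comm a (L a), real_inner_comm b (L b), real_inner_comm b (L a),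
    real_inner_comm a (L b)]
  ring

lemma tdet_sign {ε : ℝ} (hε : ε = 1 ∨ ε = -1) (n : E3) (L : E3 →L[ℝ] E3) :
    tdet (ε • n) L = tdet n L := by
  rw [tdet, tdet, pt_sign hε]
  congr 2
  ext1 v
  rcases hε with h | h <;> simp [h]

lemma tdet_neg {n : E3} (hn : ‖n‖ = 1) (L : E3 →L[ℝ] E3) : tdet n (-L) = tdet n L := by
  obtain ⟨a, b, h⟩ := exists_triple hn
  simp [tdet_eq h]

/-- the Hessian -/
noncomputable def hes (β : E3 → ℝ) (x : E3) : E3 →L[ℝ] E3 := fderiv ℝ (gradient β) x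

/-- the Jacobian of the map `(x, σ) ↦ σ ν(x) - ∇β(x)` -/
noncomputable def Jd (N : Set E3) (β : E3 → ℝ) (x : E3) (σ : ℝ) : ℝ :=
  tdet (nu N x) (hes β x + σ • sh N x)

/-- the critical points of `⟪v, ·⟫ + β` on `N` -/
def critB (N : Set E3) (β : E3 → ℝ) (v : E3) : Set E3 :=
  {x | x ∈ N ∧ pt (nu N x) (v + gradient β x) = 0}

/-- the determinant of the Hessian of `⟪v, ·⟫ + β` on `N`, at a critical point -/
noncomputable def DB (N : Set E3) (β : E3 → ℝ) (v x : E3) : ℝ :=
  Jd N β x ⟪nu N x, v + gradient β x⟫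

/-! ### The formula in a chart -/

open Vale.Agent.P218FT.Chart (E2 Frame gr jac IsChart)

variable {N U : Set E3} {n : E3} {J : E2 →L[ℝ] E3} {pr : E3 →L[ℝ] E2} {h : E2 → ℝ} {β : E3 → ℝ}

lemma frame_mp (F : Frame n J pr) :
    MeasurePreserving (fun q : E2 × ℝ => J q.1 + q.2 • n) volume volume := by
  let L : WithLp 2 (E2 × ℝ) →ₗᵢ[ℝ] E3 :=
    { toFun := fun q => J q.fst + q.snd • n
      map_add' := fun a b => by simp [add_smul]; abel
      map_smul' := fun c a => by simp [smul_smul]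
      norm_map' := fun q => by
        change ‖J q.fst + q.snd • n‖ = ‖q‖
        rw [← sq_eq_sq₀ (norm_nonneg _) (norm_nonneg _), F.norm_sq_add,
          WithLp.prod_norm_sq_eq_of_L2, Real.norm_eq_abs, sq_abs] }
  have hs : Function.Surjective L := fun x =>
    ⟨WithLp.toLp 2 (pr x, ⟪n, x⟫), F.decomp x⟩
  exact (LinearIsometryEquiv.ofSurjective L hs).measurePreserving.comp
    (WithLp.volume_preserving_toLp E2 ℝ)

lemma frame_triple (F : Frame n J pr) :
    Triple (J (EuclideanSpace.single 0 1)) (J (EuclideanSpace.single 1 1)) n where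
  na := by rw [F.norm_J]; simp
  nb := by rw [F.norm_J]; simp
  nc := F.unit
  ab := by rw [F.inner_J]; simp [EuclideanSpace.inner_single_left]
  ac := F.orth' _
  bc := F.orth' _

/-- the equation of a graph -/
noncomputable def weq (n : E3) (pr : E3 →L[ℝ] E2) (h : E2 → ℝ) (y : E3) : ℝ := ⟪n, y⟫ - h (pr y)

lemma contDiff_weq (C : IsChart N n J pr h U) : ContDiff ℝ ∞ (weq n pr h) :=
  (innerSL ℝ n).contDiff.sub (C.smooth.comp pr.contDiff)

lemma inner_grad_weq (C : IsChart N n J pr h U) (y : E3) : ⟪n, gradient (weq n pr h) y⟫ = 1 := by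
  have h1 : HasFDerivAt (weq n pr h) (innerSL ℝ n - (fderiv ℝ h (pr y)).comp pr) y :=
    (innerSL ℝ n).hasFDerivAt.sub
      ((C.smooth.differentiable (by simp) (pr y)).hasFDerivAt.comp y pr.hasFDerivAt)
  rw [real_inner_comm, inner_grad, h1.fderiv]
  simp [C.frame.pr_n, C.frame.unit]

lemma grad_weq_ne (C : IsChart N n J pr h U) (y : E3) : gradient (weq n pr h) y ≠ 0 := by
  intro h0
  have := inner_grad_weq C y
  rw [h0, inner_zero_right] at this
  exact zero_ne_one this

lemma isEqn_weq (C : IsChart N n J pr h U) {y : E3} (hU : y ∈ U) : IsEqn N y (weq n pr h) := by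
  refine ⟨contDiff_weq C, grad_weq_ne C y, ?_⟩
  filter_upwards [C.isOpen.mem_nhds hU] with z hz
  rw [C.mem_iff z hz, weq, sub_eq_zero, eq_comm]

lemma nuw_weq (C : IsChart N n J pr h U) {y : E3} (hy : y ∈ N) (hU : y ∈ U) :
    nuw (weq n pr h) y = (jac h (pr y))⁻¹ • (n - J (gradient h (pr y))) := by
  have hw := isEqn_weq C hU
  have e := C.gradient_eq hy hU (hw.1.differentiable (by simp) y) (hw.2.2.mono fun z hz => hz.1)
  rw [inner_grad_weq C, one_smul] at e
  rw [nuw, e, IsChart.norm_normal C.frame]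

/-- the map `(x, σ) ↦ σ ν(x) - ∇β(x)` in a chart -/
noncomputable def Psi (n : E3) (J : E2 →L[ℝ] E3) (pr : E3 →L[ℝ] E2) (h : E2 → ℝ) (β : E3 → ℝ)
    (z : E3) : E3 :=
  ⟪n, z⟫ • nuw (weq n pr h) (gr n J h (pr z)) - gradient β (gr n J h (pr z))

lemma contDiff_nuw_weq (C : IsChart N n J pr h U) : ContDiff ℝ ∞ (nuw (weq n pr h)) :=
  contDiff_iff_contDiffAt.2 fun y => (fderiv_nuw (contDiff_weq C) (grad_weq_ne C y)).1

lemma contDiff_Psi (C : IsChart N n J pr h U) (hβ : ContDiff ℝ 2 β) :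
    ContDiff ℝ 1 (Psi n J pr h β) := by
  have h1 : ContDiff ℝ 1 fun z => gr n J h (pr z) :=
    ((Chart.contDiff_gr C.smooth).of_le one_le_inf).comp pr.contDiff
  exact ((innerSL ℝ n).contDiff.smul (((contDiff_nuw_weq C).of_le one_le_inf).comp h1)).sub
    ((contDiff_grad_one hβ).comp h1)

lemma det_Psi (C : IsChart N n J pr h U) (hβ : ContDiff ℝ 2 β) {z : E3}
    (hU : gr n J h (pr z) ∈ U) :
    (fderiv ℝ (Psi n J pr h β) z).det = jac h (pr z) * tdet (nuw (weq n pr h) (gr n J h (pr z)))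
      (hes β (gr n J h (pr z)) + ⟪n, z⟫ • shw (weq n pr h) (gr n J h (pr z))) := by
  have F := C.frame
  set y := gr n J h (pr z) with hy
  have hyN : y ∈ N := C.gr_mem hU
  have hpy : pr y = pr z := F.pr_gr h _
  set ν := nuw (weq n pr h) y with hν
  have hν1 : ‖ν‖ = 1 := norm_nuw (grad_weq_ne C y)
  have hνe : ν = (jac h (pr z))⁻¹ • (n - J (gradient h (pr z))) := by
    rw [hν, nuw_weq C hyN hU, hpy]
  set A : E3 →L[ℝ] E3 := (J + (fderiv ℝ h (pr z)).smulRight n).comp pr with hA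
  have d1 : HasFDerivAt (fun z => gr n J h (pr z)) A z :=
    (Chart.hasFDerivAt_gr (C.smooth.differentiable (by simp) _)).comp z pr.hasFDerivAt
  have d2 := ((contDiff_nuw_weq C).differentiable (by simp) y).hasFDerivAt
  have d3 := ((contDiff_grad_one hβ).differentiable one_ne_zero y).hasFDerivAt
  have d4 := ((innerSL ℝ n).hasFDerivAt.smul (d2.comp z d1)).sub (d3.comp z d1)
  have tan : ∀ v, ⟪ν, A v⟫ = 0 := by
    intro v
    rw [hνe, real_inner_smul_left, hA]
    simp only [ContinuousLinearMap.comp_apply, _root_.add_apply,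
      ContinuousLinearMap.smulRight_apply, inner_sub_left, inner_add_right, F.orth, F.inner_J,
      real_inner_smul_right, F.inner_n, F.orth', Chart.inner_gradient]
    ring
  set L := -(hes β y + ⟪n, z⟫ • shw (weq n pr h) y) with hL
  have e : fderiv ℝ (Psi n J pr h β) z = (L.comp (pt ν) + (innerSL ℝ ν).smulRight ν).comp
      (A + (innerSL ℝ n).smulRight ν) := by
    have := d4.fderiv
    change fderiv ℝ (Psi n J pr h β) z = _ at this
    rw [this]
    ext1 v
    have a1 := (fderiv_nuw (contDiff_weq C) (grad_weq_ne C y)).2 _ (tan v)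
    have a2 : ⟪ν, ν⟫ = 1 := by rw [real_inner_self_eq_norm_sq, hν1]; norm_num
    simp only [sub_apply, _root_.add_apply, smul_apply, ContinuousLinearMap.comp_apply, a1,
      ContinuousLinearMap.smulRight_apply, innerSL_apply_apply, map_add, map_smul,
      pt_of_orth (tan v), pt_self hν1, tan, a2, hL, neg_apply, hes, Function.comp_apply,
      map_zero]
    simp only [← hy, ← hν]
    module
  have e2 : (A + (innerSL ℝ n).smulRight ν).det = jac h (pr z) := by
    have hj := Chart.jac_pos h (pr z)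
    have hj2 := Chart.jac_sq h (pr z)
    have e3 : ‖gradient h (pr z)‖ ^ 2 = (fderiv ℝ h (pr z) (EuclideanSpace.single 0 1)) ^ 2
        + (fderiv ℝ h (pr z) (EuclideanSpace.single 1 1)) ^ 2 := by
      rw [EuclideanSpace.real_norm_sq_eq, Fin.sum_univ_two, ← Chart.inner_gradient,
        ← Chart.inner_gradient, EuclideanSpace.inner_single_right,
        EuclideanSpace.inner_single_right]
      simp
    have i1 : ∀ u, ⟪u, gradient h (pr z)⟫ = fderiv ℝ h (pr z) u := fun u => by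
      rw [real_inner_comm, Chart.inner_gradient]
    rw [det_triple (frame_triple F)]
    simp only [hA, hνe, ContinuousLinearMap.comp_apply, _root_.add_apply,
      ContinuousLinearMap.smulRight_apply, innerSL_apply_apply, F.pr_J, F.pr_n, F.orth, F.inner_n,
      map_zero, zero_smul, add_zero, inner_add_right, real_inner_smul_right, F.inner_J, F.orth',
      one_smul, zero_add, inner_sub_right, i1]
    simp only [EuclideanSpace.inner_single_left, PiLp.single_apply]
    rw [e3] at hj2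
    simp
    field_simp
    linarith
  have hc : ∀ X Y : E3 →L[ℝ] E3, (X.comp Y).det = X.det * Y.det := fun X Y =>
    LinearMap.det_comp (X : E3 →ₗ[ℝ] E3) Y
  rw [e, hc]
  change tdet ν L * (A + (innerSL ℝ n).smulRight ν).det = _
  rw [e2, hL, tdet_neg hν1, mul_comm]

/-- the Jacobian in a chart -/
lemma exists_sign_Psi (C : IsChart N n J pr h U) (hβ : ContDiff ℝ 2 β) {u : E2}
    (hU : gr n J h u ∈ U) : ∃ ε : ℝ, (ε = 1 ∨ ε = -1) ∧ ∀ z, pr z = u →
      Psi n J pr h β z = (ε * ⟪n, z⟫) • nu N (gr n J h u) - gradient β (gr n J h u) ∧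
      (fderiv ℝ (Psi n J pr h β) z).det = jac h u * Jd N β (gr n J h u) (ε * ⟪n, z⟫) := by
  obtain ⟨ε, hε, e1, e2⟩ := (isEqn_weq C hU).nu_sh (C.gr_mem hU)
  refine ⟨ε, hε, fun z hz => ?_⟩
  subst hz
  have e3 : ε * ⟪n, z⟫ * ε = ⟪n, z⟫ := by rw [mul_right_comm, sign_mul_self hε, one_mul]
  constructor
  · rw [Psi, e1, smul_smul, e3]
  · rw [det_Psi C hβ hU, Jd, e1, e2, tdet_sign hε, smul_smul, e3]

lemma DB_Psi (hN : IsSurf N) (C : IsChart N n J pr h U) (hβ : ContDiff ℝ 2 β) {z : E3}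
    (hU : gr n J h (pr z) ∈ U) : gr n J h (pr z) ∈ critB N β (Psi n J pr h β z) ∧
      (fderiv ℝ (Psi n J pr h β) z).det
        = jac h (pr z) * DB N β (Psi n J pr h β z) (gr n J h (pr z)) := by
  obtain ⟨ε, -, H⟩ := exists_sign_Psi C hβ hU
  obtain ⟨e1, e2⟩ := H z rfl
  have hy := C.gr_mem hU
  refine ⟨⟨hy, ?_⟩, ?_⟩
  · rw [e1, sub_add_cancel, map_smul, pt_self (hN.norm_nu hy), smul_zero]
  · rw [e2, DB, e1, sub_add_cancel, real_inner_smul_right, Chart.inner_nu_self hN hy, mul_one]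

lemma exists_Psi_eq (C : IsChart N n J pr h U) {x v : E3} (hx : x ∈ critB N β v) (hU : x ∈ U) :
    ∃ z, gr n J h (pr z) = x ∧ Psi n J pr h β z = v := by
  have F := C.frame
  set σ := ⟪nuw (weq n pr h) x, v + gradient β x⟫
  have e1 : pr (J (pr x) + σ • n) = pr x := by simp [F.pr_J, F.pr_n]
  have e2 : ⟪n, J (pr x) + σ • n⟫ = σ := by
    rw [inner_add_right, F.orth, real_inner_smul_right, F.inner_n]; ring
  refine ⟨J (pr x) + σ • n, by rw [e1, C.gr_pr hx.1 hU], ?_⟩
  have e3 := hx.2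
  rw [(isEqn_weq C hU).pt_eq hx.1, pt_apply, sub_eq_zero] at e3
  rw [Psi, e1, e2, C.gr_pr hx.1 hU, sub_eq_iff_eq_add]
  exact e3.symm

lemma Psi_inj (C : IsChart N n J pr h U) {z z' : E3} (h1 : gr n J h (pr z) = gr n J h (pr z'))
    (h2 : Psi n J pr h β z = Psi n J pr h β z') : z = z' := by
  have F := C.frame
  have e1 : pr z = pr z' := F.gr_injective h h1
  rw [Psi, Psi, h1, sub_left_inj] at h2
  have hν : nuw (weq n pr h) (gr n J h (pr z')) ≠ 0 := by
    rw [← norm_ne_zero_iff, norm_nuw (grad_weq_ne C _)]; exact one_ne_zero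
  have e2 := smul_left_injective ℝ hν h2
  rw [← F.decomp z, ← F.decomp z', e1, e2]

/-- the density of the counting integral -/
noncomputable def dI (N : Set E3) (β : E3 → ℝ) (e : ℝ) (W : Set E3) (x : E3) : ℝ≥0∞ :=
  ∫⁻ σ : ℝ, {σ | σ • nu N x - gradient β x ∈ W}.indicator
    (fun σ => ENNReal.ofReal (e * Jd N β x σ)) σ

/-- the number of critical points in `S` with a sign of the Hessian determinant -/
noncomputable def cnt (N : Set E3) (β : E3 → ℝ) (e : ℝ) (S : Set E3) (v : E3) : ℝ≥0∞ :=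
  {x ∈ critB N β v | x ∈ S ∧ 0 < e * DB N β v x}.encard

lemma lintegral_sign {ε : ℝ} (hε : ε = 1 ∨ ε = -1) (g : ℝ → ℝ≥0∞) :
    ∫⁻ σ, g (ε * σ) = ∫⁻ σ, g σ := by
  rcases hε with rfl | rfl
  · simp
  · simpa using lintegral_neg_eq_self g

theorem chart_count (hN : IsSurf N) (C : IsChart N n J pr h U) (hβ : ContDiff ℝ 2 β) {e : ℝ}
    (he : e = 1 ∨ e = -1) {S : Set E3} (hS : S ⊆ N ∩ U) (hm : MeasurableSet S) :
    Measurable (cnt N β e S) ∧ ∀ W, MeasurableSet W →
      ∫⁻ v in W, cnt N β e S v = ∫⁻ x in S, dI N β e W x ∂(area N) := by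
  have F := C.frame
  set Ψ := Psi n J pr h β with hΨ
  have hΨ1 : ContDiff ℝ 1 Ψ := contDiff_Psi C hβ
  have hdc : Continuous fun z => (fderiv ℝ Ψ z).det :=
    ContinuousLinearMap.continuous_det.comp (hΨ1.continuous_fderiv one_ne_zero)
  have hφ : Continuous fun z => gr n J h (pr z) := C.continuous_gr.comp pr.continuous
  set s : Set E3 := {z | gr n J h (pr z) ∈ S ∧ 0 < e * (fderiv ℝ Ψ z).det} with hs
  have hsm : MeasurableSet s := (hφ.measurable hm).inter
    (isOpen_lt continuous_const (continuous_const.mul hdc)).measurableSet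
  obtain ⟨k1, k2⟩ := count_formula hΨ1 hsm fun z hz h0 => by
    have := hz.2
    rw [h0, mul_zero] at this
    exact lt_irrefl _ this
  have e1 : cnt N β e S = fun v => ((s ∩ Ψ ⁻¹' {v}).encard : ℝ≥0∞) := by
    ext v
    have hi : InjOn (fun z => gr n J h (pr z)) (s ∩ Ψ ⁻¹' {v}) := fun z hz z' hz' hzz =>
      Psi_inj C hzz (hz.2.trans hz'.2.symm)
    rw [cnt, ← hi.encard_image]
    congr 2
    ext x
    constructor
    · rintro ⟨hx, hxS, hxD⟩
      obtain ⟨z, hz1, hz2⟩ := exists_Psi_eq C hx (hS hxS).2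
      refine ⟨z, ⟨⟨hz1 ▸ hxS, ?_⟩, hz2⟩, hz1⟩
      rw [(DB_Psi hN C hβ (hz1 ▸ (hS hxS).2)).2, hz1, hz2, mul_left_comm]
      exact mul_pos (Chart.jac_pos _ _) hxD
    · rintro ⟨z, ⟨⟨hz1, hz2⟩, hz3⟩, rfl⟩
      obtain ⟨a1, a2⟩ := DB_Psi hN C hβ (hS hz1).2
      have hz3' : Psi n J pr h β z = v := hz3
      rw [a2, mul_left_comm, hz3'] at hz2
      rw [hz3'] at a1
      exact ⟨a1, hz1, (mul_pos_iff_of_pos_left (Chart.jac_pos _ _)).1 hz2⟩
  refine ⟨e1 ▸ k1, fun W hW => ?_⟩
  have hsW : MeasurableSet (s ∩ Ψ ⁻¹' W) := hsm.inter (hΨ1.continuous.measurable hW)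
  have hG : Measurable ((s ∩ Ψ ⁻¹' W).indicator fun z => ENNReal.ofReal |(fderiv ℝ Ψ z).det|) :=
    (hdc.abs.measurable.ennreal_ofReal).indicator hsW
  rw [e1, k2 W hW, ← lintegral_indicator hsW, ← (frame_mp F).lintegral_comp hG, Measure.volume_eq_prod,
    lintegral_prod (fun q : E2 × ℝ => (s ∩ Ψ ⁻¹' W).indicator
      (fun z => ENNReal.ofReal |(fderiv ℝ Ψ z).det|) (J q.1 + q.2 • n))
      (hG.comp (frame_mp F).measurable).aemeasurable, C.lintegral hS hm,
    ← lintegral_indicator (C.measurableSet_image hS hm), C.image_pr hS]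
  refine lintegral_congr fun u => ?_
  have p1 : ∀ σ : ℝ, pr (J u + σ • n) = u := fun σ => by simp [F.pr_J, F.pr_n]
  have p2 : ∀ σ : ℝ, ⟪n, J u + σ • n⟫ = σ := fun σ => by
    rw [inner_add_right, F.orth, real_inner_smul_right, F.inner_n]; ring
  by_cases hu : gr n J h u ∈ S
  · obtain ⟨ε, hε, H⟩ := exists_sign_Psi C hβ (hS hu).2
    rw [indicator_of_mem (show u ∈ gr n J h ⁻¹' S from hu), dI, ← lintegral_sign hε,
      ← lintegral_const_mul' _ _ ENNReal.ofReal_ne_top]
    refine lintegral_congr fun σ => ?_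
    obtain ⟨a1, a2⟩ := H (J u + (ε * σ) • n) (p1 _)
    rw [p2, ← mul_assoc, sign_mul_self hε, one_mul] at a1 a2
    have hj := Chart.jac_pos h u
    have m1 : J u + (ε * σ) • n ∈ s ∩ Ψ ⁻¹' W ↔ 0 < e * (jac h u * Jd N β (gr n J h u) σ) ∧
        σ • nu N (gr n J h u) - gradient β (gr n J h u) ∈ W := by
      simp only [mem_inter_iff, hs, mem_ofPred_eq, mem_preimage, p1, hu, true_and, hΨ, a1, a2]
    by_cases b1 : σ • nu N (gr n J h u) - gradient β (gr n J h u) ∈ W
    · rw [indicator_of_mem (show σ ∈ {σ : ℝ | σ • nu N (gr n J h u) - gradient β (gr n J h u) ∈ W}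
        from b1), ← ENNReal.ofReal_mul hj.le, mul_left_comm]
      by_cases b2 : 0 < e * (jac h u * Jd N β (gr n J h u) σ)
      · rw [indicator_of_mem (m1.2 ⟨b2, b1⟩), hΨ, a2]
        congr 1
        rcases he with rfl | rfl
        · rw [one_mul] at b2 ⊢; exact abs_of_pos b2
        · rw [neg_one_mul] at b2 ⊢; exact abs_of_neg (neg_pos.1 b2)
      · rw [indicator_of_notMem fun hh => b2 (m1.1 hh).1, ENNReal.ofReal_of_nonpos (not_lt.1 b2)]
    · rw [indicator_of_notMem fun hh => b1 (m1.1 hh).2, indicator_of_notMem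
        (show σ ∉ {σ : ℝ | σ • nu N (gr n J h u) - gradient β (gr n J h u) ∈ W} from b1), mul_zero]
  · rw [indicator_of_notMem (show u ∉ gr n J h ⁻¹' S from hu)]
    refine (lintegral_congr fun σ => ?_).trans lintegral_zero
    refine indicator_of_notMem (fun hh => hu ?_) _
    have := hh.1.1
    rwa [p1] at this

/-- a countable measurable partition of a surface into pieces of charts -/
lemma exists_pieces (hN : IsSurf N) : ∃ A : ℕ → Set E3, (∀ k, MeasurableSet (A k)) ∧
    Pairwise (Function.onFun Disjoint A) ∧ ⋃ k, A k = N ∧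
    ∀ k, A k = ∅ ∨ ∃ n J pr h U, IsChart N n J pr h U ∧ A k ⊆ N ∩ U := by
  choose! J pr h U hxU hC _ using fun x (hx : x ∈ N) => Chart.exists_chart_tangent hN hx
  obtain ⟨A, hAm, hAd, hAc, hAt⟩ := exists_partition (O := N) (t := U)
    fun x hx => (hC x hx).isOpen.mem_nhds (hxU x hx)
  refine ⟨fun k => N ∩ A k, fun k => hN.1.measurableSet.inter (hAm k), fun i j hij =>
    (hAd hij).mono inter_subset_right inter_subset_right, ?_, fun k => ?_⟩
  · rw [← inter_iUnion, inter_eq_left.2 hAc]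
  · rcases hAt k with h0 | ⟨x, hx, hxt⟩
    · left; simp [h0]
    · exact Or.inr ⟨_, _, _, _, _, hC x hx, inter_subset_inter_right _ hxt⟩

/-- **Area formula with multiplicity** for critical points. -/
theorem area_count (hN : IsSurf N) (hβ : ContDiff ℝ 2 β) {e : ℝ} (he : e = 1 ∨ e = -1)
    {S : Set E3} (hm : MeasurableSet S) :
    Measurable (cnt N β e S) ∧ ∀ W, MeasurableSet W →
      ∫⁻ v in W, cnt N β e S v = ∫⁻ x in S, dI N β e W x ∂(area N) := by
  obtain ⟨A, hAm, hAd, hAN, hA⟩ := exists_pieces hN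
  have hd : Pairwise (Function.onFun Disjoint fun k => S ∩ A k) := fun i j hij =>
    (hAd hij).mono inter_subset_right inter_subset_right
  have hm' : ∀ k, MeasurableSet (S ∩ A k) := fun k => hm.inter (hAm k)
  have key : ∀ k, Measurable (cnt N β e (S ∩ A k)) ∧ ∀ W, MeasurableSet W →
      ∫⁻ v in W, cnt N β e (S ∩ A k) v = ∫⁻ x in S ∩ A k, dI N β e W x ∂(area N) := by
    intro k
    rcases hA k with h0 | ⟨n, J, pr, h, U, C, hk⟩
    · have : cnt N β e (S ∩ A k) = fun _ => 0 := by ext v; simp [cnt, h0]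
      rw [this]
      exact ⟨measurable_const, fun W _ => by simp [h0]⟩
    · exact chart_count hN C hβ he (inter_subset_right.trans hk) (hm' k)
  have e1 : cnt N β e S = fun v => ∑' k, cnt N β e (S ∩ A k) v := by
    ext v
    simp only [cnt]
    rw [← encard_iUnion_nat fun i j hij => (hd hij).mono (fun x hx => hx.2.1) (fun x hx => hx.2.1)]
    congr 2
    ext x
    simp only [mem_iUnion, mem_ofPred_eq, mem_inter_iff]
    constructor
    · rintro ⟨h1, h2, h3⟩
      have : x ∈ ⋃ k, A k := hAN ▸ h1.1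
      obtain ⟨k, hk⟩ := mem_iUnion.1 this
      exact ⟨k, h1, ⟨h2, hk⟩, h3⟩
    · rintro ⟨k, h1, h2, h3⟩
      exact ⟨h1, h2.1, h3⟩
  refine ⟨by rw [e1]; exact Measurable.tsum fun k => (key k).1, fun W hW => ?_⟩
  have e2 : (area N).restrict S = (area N).restrict (⋃ k, S ∩ A k) := by
    rw [← inter_iUnion, hAN, area, Measure.restrict_restrict hm,
      Measure.restrict_restrict (hm.inter hN.1.measurableSet), inter_assoc, inter_self]
  rw [e1, lintegral_tsum fun k => (key k).1.aemeasurable, e2, lintegral_iUnion hm' hd]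
  exact tsum_congr fun k => (key k).2 W hW

/-- **Sard's theorem**: for almost every `v` the critical points are nondegenerate. -/
theorem ae_nondeg (hN : IsSurf N) (hβ : ContDiff ℝ 2 β) :
    ∀ᵐ v : E3, ∀ x ∈ critB N β v, DB N β v x ≠ 0 := by
  obtain ⟨A, -, -, hAN, hA⟩ := exists_pieces hN
  have key : ∀ k, ∀ᵐ v : E3, ∀ x ∈ critB N β v, x ∈ A k → DB N β v x ≠ 0 := by
    intro k
    rcases hA k with h0 | ⟨n, J, pr, h, U, C, hk⟩
    · exact Eventually.of_forall fun v x _ hx => by simp [h0] at hx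
    · have h1 := addHaar_image_eq_zero_of_det_fderivWithin_eq_zero (volume : Measure E3)
        (s := {z | (fderiv ℝ (Psi n J pr h β) z).det = 0}) (f := Psi n J pr h β)
        (f' := fderiv ℝ (Psi n J pr h β))
        (fun z _ => ((contDiff_Psi C hβ).differentiable one_ne_zero z).hasFDerivAt.hasFDerivWithinAt)
        (fun z hz => hz)
      filter_upwards [measure_eq_zero_iff_ae_notMem.1 h1] with v hv x hx hxA h0
      obtain ⟨z, hz1, hz2⟩ := exists_Psi_eq C hx (hk hxA).2
      refine hv ⟨z, ?_, hz2⟩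
      rw [mem_ofPred_eq, (DB_Psi hN C hβ (hz1 ▸ (hk hxA).2)).2, hz1, hz2, h0, mul_zero]
  filter_upwards [ae_all_iff.2 key] with v hv x hx
  have : x ∈ ⋃ k, A k := hAN ▸ hx.1
  obtain ⟨k, hk⟩ := mem_iUnion.1 this
  exact hv k x hx hk

end Vale.Agent.P218F.Lgb
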