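import Vale.Agent.P218F.LgbArea
import Vale.Agent.P218FT.NC1
import Vale.Agent.P218FS.Spec
import Mathlib.Analysis.SpecialFunctions.Integrals.Basic

/-! The local Gauss-Bonnet estimate, from the count of critical points and the constancy of the
total curvature. -/

open MeasureTheory Set Filter Topology Metric Asymptotics
open scoped ENNReal NNReal RealInnerProductSpace ContDiff

namespace Vale.Agent.P218F.Lgb

open Vale.Agent.P218FT

variable {N : Set E3} {β : E3 → ℝ}

/-! ### Local minima -/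

lemma coef_nonneg {b c : ℝ} {φ : ℝ → ℝ} (h0 : ∀ᶠ σ in 𝓝 (0 : ℝ), 0 ≤ φ σ)
    (h : (fun σ => φ σ - (σ * b + σ ^ 2 / 2 * c)) =o[𝓝 0] fun σ : ℝ => σ ^ 2) : b = 0 ∧ 0 ≤ c := by
  have key : ∀ η : ℝ, 0 < η → ∃ δ > 0, ∀ σ, |σ| < δ → 0 ≤ σ * b + σ ^ 2 * (c / 2 + η) := by
    intro η hη
    obtain ⟨δ, hδ, H⟩ := Metric.eventually_nhds_iff.1 (h0.and (h.def hη))
    refine ⟨δ, hδ, fun σ hσ => ?_⟩
    obtain ⟨h1, h2⟩ := H (show dist σ 0 < δ by simpa using hσ)
    rw [Real.norm_eq_abs, Real.norm_eq_abs, abs_of_nonneg (sq_nonneg σ)] at h2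
    linarith [le_abs_self (φ σ - (σ * b + σ ^ 2 / 2 * c))]
  have hb : b = 0 := by
    obtain ⟨δ, hδ, H⟩ := key 1 one_pos
    have : |b| ≤ 0 := by
      refine le_of_forall_pos_le_add fun ε hε => ?_
      set K := |c / 2 + 1| + 1 with hK
      have hK0 : 0 < K := by positivity
      set σ := min (δ / 2) (ε / K) with hσ
      have hσ0 : 0 < σ := lt_min (half_pos hδ) (div_pos hε hK0)
      have hσ1 : σ < δ := (min_le_left _ _).trans_lt (half_lt_self hδ)
      have hσ2 : σ * K ≤ ε := (le_div_iff₀ hK0).1 (min_le_right _ _)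
      have a1 := H σ (by rwa [abs_of_pos hσ0])
      have a2 := H (-σ) (by rwa [abs_neg, abs_of_pos hσ0])
      have a3 : c / 2 + 1 ≤ K := by linarith [le_abs_self (c / 2 + 1)]
      have a4 : σ * (c / 2 + 1) ≤ ε := (mul_le_mul_of_nonneg_left a3 hσ0.le).trans hσ2
      rw [zero_add, abs_le]
      constructor
      · by_contra hh
        nlinarith
      · by_contra hh
        nlinarith
    exact abs_nonpos_iff.1 this
  refine ⟨hb, le_of_forall_pos_le_add fun ε hε => ?_⟩
  obtain ⟨δ, hδ, H⟩ := key (ε / 2) (half_pos hε)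
  have a1 := H (δ / 2) (by rw [abs_of_pos (half_pos hδ)]; exact half_lt_self hδ)
  rw [hb, mul_zero, zero_add] at a1
  have := nonneg_of_mul_nonneg_right a1 (by positivity)
  linarith

lemma grad_add_inner (hβ : ContDiff ℝ 2 β) (v : E3) :
    gradient (fun y => ⟪v, y⟫ + β y) = fun y => v + gradient β y := by
  ext1 y
  refine ext_inner_right ℝ fun u => ?_
  have h1 : HasFDerivAt (fun y => ⟪v, y⟫ + β y) (innerSL ℝ v + fderiv ℝ β y) y :=
    (innerSL ℝ v).hasFDerivAt.add (hβ.differentiable (by norm_num) y).hasFDerivAt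
  rw [inner_grad, h1.fderiv, inner_add_left, inner_grad]
  rfl

lemma hes_symm (hβ : ContDiff ℝ 2 β) (x u v : E3) : ⟪hes β x u, v⟫ = ⟪hes β x v, u⟫ := by
  rw [hes, hess_symm hβ, real_inner_comm]

lemma min_cond (hN : IsSurf N) (hβ : ContDiff ℝ 2 β) {v x : E3} (hx : x ∈ N)
    (hm : IsLocalMinOn (fun y => ⟪v, y⟫ + β y) N x) : x ∈ critB N β v ∧ 0 ≤ DB N β v x := by
  have hf : ContDiff ℝ 2 fun y => ⟪v, y⟫ + β y := (innerSL ℝ v).contDiff.add hβ
  have key : ∀ a, ⟪nu N x, a⟫ = 0 → ⟪v + gradient β x, a⟫ = 0 ∧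
      0 ≤ ⟪(hes β x + ⟪nu N x, v + gradient β x⟫ • sh N x) a, a⟫ := by
    intro a ha
    obtain ⟨p, hp, hj⟩ := hN.jet hx ha
    have T := taylor_jet hf hj
    have h1 : Tendsto p (𝓝 0) (𝓝[N] x) := tendsto_nhdsWithin_iff.2 ⟨tendsto_of_jet hj, hp⟩
    rw [grad_add_inner hβ, fderiv_const_add] at T
    have h2 := coef_nonneg (φ := fun σ => ⟪v, p σ⟫ + β (p σ) - (⟪v, x⟫ + β x))
      (b := ⟪v + gradient β x, a⟫) (c := ⟪fderiv ℝ (gradient β) x a, a⟫
        + ⟪v + gradient β x, ⟪sh N x a, a⟫ • nu N x⟫)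
      ((h1.eventually hm).mono fun σ hσ => sub_nonneg.2 hσ) (T.congr_left fun σ => by ring)
    refine ⟨h2.1, h2.2.trans_eq ?_⟩
    simp only [hes, _root_.add_apply, smul_apply, inner_add_left (fderiv ℝ (gradient β) x a),
      real_inner_smul_left, real_inner_smul_right]
    rw [real_inner_comm (nu N x)]
    ring
  have hν := hN.norm_nu hx
  refine ⟨⟨hx, ?_⟩, ?_⟩
  · have := (key _ (inner_pt_nrm hν (v + gradient β x))).1
    rw [← pt_pt hν, ← inner_pt_left, real_inner_self_eq_norm_sq, sq_eq_zero_iff,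
      norm_eq_zero] at this
    exact this
  · obtain ⟨a, b, ht⟩ := exists_triple hν
    rw [DB, Jd, tdet_eq ht]
    set L := hes β x + ⟪nu N x, v + gradient β x⟫ • sh N x with hL
    have sy : ⟪L b, a⟫ = ⟪L a, b⟫ := by
      simp only [hL, _root_.add_apply, smul_apply, inner_add_left, real_inner_smul_left]
      rw [hes_symm hβ, hN.sh_symm hx b a, real_inner_comm (sh N x a) b]
    have na : ⟪nu N x, a⟫ = 0 := by rw [real_inner_comm]; exact ht.ac
    have nb : ⟪nu N x, b⟫ = 0 := by rw [real_inner_comm]; exact ht.bc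
    have := discrim_le_zero (a := ⟪L a, a⟫) (b := 2 * ⟪L a, b⟫) (c := ⟪L b, b⟫) fun s => by
      have h1 := (key (s • a + b) (by rw [inner_add_right, real_inner_smul_right, na, nb]; ring)).2
      simp only [map_add, map_smul, inner_add_left, inner_add_right, real_inner_smul_left,
        real_inner_smul_right, sy] at h1
      linarith
    rw [discrim] at this
    rw [sy]
    linarith

/-! ### The densities -/

lemma Jd_le (hN : IsSurf N) (hβ : ContDiff ℝ 2 β) {x : E3} (hx : x ∈ N) (σ : ℝ) :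
    Jd N β x σ ≤ 2 * ‖hes β x‖ ^ 2 + σ ^ 2 * ‖Hv N x‖ ^ 2 := by
  obtain ⟨a, b, ht⟩ := exists_triple (hN.norm_nu hx)
  have key : ∀ u : E3, ‖u‖ = 1 → |⟪hes β x u, u⟫| ≤ ‖hes β x‖ := by
    intro u hu
    refine (abs_real_inner_le_norm _ _).trans ?_
    simpa [hu] using (hes β x).le_opNorm u
  have k1 := abs_le.1 (key a ht.na)
  have k2 := abs_le.1 (key b ht.nb)
  rw [Jd, tdet_eq ht, hN.norm_Hv hx, sq_abs, hN.tr_sh hx ht]
  simp only [_root_.add_apply, smul_apply, inner_add_left, real_inner_smul_left]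
  rw [hes_symm hβ x b a, hN.sh_symm hx b a, real_inner_comm (sh N x a) b]
  generalize ⟪hes β x a, a⟫ = p at *
  generalize ⟪hes β x b, b⟫ = q at *
  generalize ⟪sh N x a, a⟫ = s
  generalize ⟪sh N x b, b⟫ = t
  have h1 : (p + q) ^ 2 ≤ (2 * ‖hes β x‖) ^ 2 := sq_le_sq' (by linarith) (by linarith)
  nlinarith [sq_nonneg (⟪hes β x a, b⟫ + σ * ⟪sh N x a, b⟫), sq_nonneg (p + σ * s - (q + σ * t)),
    sq_nonneg (p + q - σ * (s + t)), sq_nonneg (σ * (s + t))]

lemma dI_le (hN : IsSurf N) (hβ : ContDiff ℝ 2 β) {x : E3} (hx : x ∈ N) {K L : ℝ}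
    (h1 : ‖gradient β x‖ ≤ K) (h2 : ‖hes β x‖ ≤ L) :
    dI N β 1 (closedBall 0 1) x ≤
      ENNReal.ofReal (2 * (1 + K) * (2 * L ^ 2 + (1 + K) ^ 2 * ‖Hv N x‖ ^ 2)) := by
  have hK : 0 ≤ K := (norm_nonneg _).trans h1
  calc dI N β 1 (closedBall 0 1) x ≤ ∫⁻ σ : ℝ, (Icc (-(1 + K)) (1 + K)).indicator
        (fun _ => ENNReal.ofReal (2 * L ^ 2 + (1 + K) ^ 2 * ‖Hv N x‖ ^ 2)) σ := by
        refine lintegral_mono (indicator_le fun σ hσ => ?_)
        have a1 : ‖σ • nu N x - gradient β x‖ ≤ 1 := mem_closedBall_zero_iff.1 hσ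
        have a2 : |σ| ≤ 1 + K := by
          have := norm_sub_norm_le (σ • nu N x) (gradient β x)
          rw [norm_smul, hN.norm_nu hx, mul_one, Real.norm_eq_abs] at this
          linarith
        rw [indicator_of_mem (show σ ∈ Icc (-(1 + K)) (1 + K) from abs_le.1 a2), one_mul]
        refine ENNReal.ofReal_le_ofReal ((Jd_le hN hβ hx σ).trans ?_)
        have a3 : σ ^ 2 ≤ (1 + K) ^ 2 := by rw [← sq_abs]; gcongr
        gcongr
    _ = _ := by
        rw [lintegral_indicator_const measurableSet_Icc, Real.volume_Icc,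
          ← ENNReal.ofReal_mul (by positivity)]
        congr 1
        ring

lemma Jd_zero (hN : IsSurf N) {x : E3} (hx : x ∈ N) (σ : ℝ) :
    Jd N (fun _ => 0) x σ = σ ^ 2 * gK N x := by
  obtain ⟨a, b, ht⟩ := exists_triple (hN.norm_nu hx)
  have : hes (fun _ => 0) x = 0 := by
    have : gradient (fun _ : E3 => (0 : ℝ)) = fun _ => 0 := by ext1 y; simp
    rw [hes, this]; simp
  rw [Jd, this, tdet_eq ht, gK, hN.norm_Hv hx, sq_abs, hN.tr_sh hx ht, hN.a2_eq hx ht]
  simp only [zero_add, smul_apply, real_inner_smul_left]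
  rw [hN.sh_symm hx b a, real_inner_comm (sh N x a) b]
  ring

lemma dI_zero (hN : IsSurf N) {x : E3} (hx : x ∈ N) (e : ℝ) :
    dI N (fun _ => 0) e (closedBall 0 1) x = ENNReal.ofReal (2 / 3) * ENNReal.ofReal (e * gK N x) := by
  have e1 : {σ : ℝ | σ • nu N x - gradient (fun _ : E3 => (0 : ℝ)) x ∈ closedBall (0 : E3) 1}
      = Icc (-1) 1 := by
    ext σ
    simp [norm_smul, hN.norm_nu hx, abs_le]
  have e2 : ∫⁻ σ in Icc (-1 : ℝ) 1, ENNReal.ofReal (σ ^ 2) = ENNReal.ofReal (2 / 3) := by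
    rw [← ofReal_integral_eq_lintegral_ofReal (continuous_pow 2).integrableOn_Icc
      (Eventually.of_forall fun σ => sq_nonneg σ), integral_Icc_eq_integral_Ioc,
      ← intervalIntegral.integral_of_le (by norm_num), integral_pow]
    norm_num
  rw [dI, e1, lintegral_indicator measurableSet_Icc, ← e2,
    ← lintegral_mul_const' _ _ ENNReal.ofReal_ne_top]
  refine lintegral_congr fun σ => ?_
  rw [Jd_zero hN hx, ← ENNReal.ofReal_mul (sq_nonneg σ), mul_left_comm]

lemma critB_zero (N : Set E3) (v : E3) : critB N (fun _ => 0) v = critV N v := by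
  simp [critB, critV]

lemma DB_zero (hN : IsSurf N) {v x : E3} (hv : v ≠ 0) (hx : x ∈ critV N v) :
    ∃ c : ℝ, 0 < c ∧ DB N (fun _ => 0) v x = c * gK N x := by
  refine ⟨⟪nu N x, v⟫ ^ 2, sq_pos_of_ne_zero fun h0 => hv ?_, ?_⟩
  · have := hx.2
    rwa [pt_apply, h0, zero_smul, sub_zero] at this
  · rw [DB, Jd_zero hN hx.1]; simp

lemma cnt_zero (hN : IsSurf N) {v : E3} (hv : v ≠ 0) (e : ℝ) (S : Set E3) :
    cnt N (fun _ => 0) e S v = {x ∈ critV N v | x ∈ S ∧ 0 < e * gK N x}.encard := by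
  rw [cnt, critB_zero]
  congr 2
  ext x
  refine and_congr_right fun hx => and_congr_right fun _ => ?_
  obtain ⟨c, hc, h1⟩ := DB_zero hN hv hx
  rw [h1, mul_left_comm, mul_pos_iff_of_pos_left hc]

/-! ### The ridge function -/

lemma exists_ridge : ∃ K : ℝ, 0 ≤ K ∧ ∀ (p : E3) (r : ℝ), 0 < r → ∃ β : E3 → ℝ, ContDiff ℝ 2 β ∧
    (∀ x, 0 ≤ β x) ∧ (∀ x ∈ ball p r, β x = 0) ∧ (∀ x, dist x p = 2 * r → 5 * r ≤ β x) ∧
    ∀ x ∈ ball p (2 * r), ‖gradient β x‖ ≤ K ∧ ‖hes β x‖ ≤ K / r := by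
  let χ : ContDiffBump (0 : E3) := ⟨1, 2, one_pos, one_lt_two⟩
  set g : E3 → ℝ := fun y => 5 * (1 - χ y) with hg
  have hg2 : ContDiff ℝ 2 g := contDiff_const.mul (contDiff_const.sub χ.contDiff)
  have hg1 := contDiff_grad_one hg2
  obtain ⟨K₁, hK₁⟩ := (isCompact_closedBall (0 : E3) 2).exists_bound_of_continuousOn
    hg1.continuous.continuousOn
  obtain ⟨K₂, hK₂⟩ := (isCompact_closedBall (0 : E3) 2).exists_bound_of_continuousOn
    (hg1.continuous_fderiv one_ne_zero).continuousOn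
  refine ⟨max 0 (max K₁ K₂), le_max_left _ _, fun p r hr => ?_⟩
  have hT : ∀ x : E3, HasFDerivAt (fun x : E3 => r⁻¹ • (x - p))
      (r⁻¹ • ContinuousLinearMap.id ℝ E3) x := fun x =>
    ((hasFDerivAt_id x).sub_const p).const_smul r⁻¹
  have hn : ∀ x : E3, ‖r⁻¹ • (x - p)‖ = r⁻¹ * dist x p := fun x => by
    rw [norm_smul, dist_eq_norm, Real.norm_eq_abs, abs_of_pos (inv_pos.2 hr)]
  have e1 : gradient (fun x => r * g (r⁻¹ • (x - p))) = fun x => gradient g (r⁻¹ • (x - p)) := by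
    ext1 x
    refine ext_inner_right ℝ fun u => ?_
    have := ((hg2.differentiable (by norm_num) _).hasFDerivAt.comp x (hT x)).const_mul r
    rw [inner_grad, inner_grad]
    erw [this.fderiv]
    simp [hr.ne']
  refine ⟨fun x => r * g (r⁻¹ • (x - p)), contDiff_const.mul (hg2.comp
    ((contDiff_id.sub contDiff_const).const_smul r⁻¹)), fun x => ?_, fun x hx => ?_,
    fun x hx => ?_, fun x hx => ?_⟩
  · exact mul_nonneg hr.le (mul_nonneg (by norm_num) (sub_nonneg.2 χ.le_one))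
  · have : χ (r⁻¹ • (x - p)) = 1 := χ.one_of_mem_closedBall (by
      rw [mem_closedBall_zero_iff, hn, inv_mul_le_iff₀ hr]
      simpa [χ] using (mem_ball.1 hx).le)
    simp [hg, this]
  · have : χ (r⁻¹ • (x - p)) = 0 := χ.zero_of_le_dist (by
      rw [dist_zero_right, hn, hx, le_inv_mul_iff₀ hr]
      simp [χ, mul_comm])
    simp [hg, this, mul_comm]
  · have hm : r⁻¹ • (x - p) ∈ closedBall (0 : E3) 2 := by
      rw [mem_closedBall_zero_iff, hn, inv_mul_le_iff₀ hr]
      linarith [mem_ball.1 hx]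
    rw [hes, e1]
    refine ⟨(hK₁ _ hm).trans ((le_max_left _ _).trans (le_max_right _ _)), ?_⟩
    have := (hg1.differentiable one_ne_zero _).hasFDerivAt.comp x (hT x)
    erw [this.fderiv]
    rw [ContinuousLinearMap.comp_smul, ContinuousLinearMap.comp_id, norm_smul, Real.norm_eq_abs,
      abs_of_pos (inv_pos.2 hr), div_eq_inv_mul]
    gcongr
    exact (hK₂ _ hm).trans ((le_max_right _ _).trans (le_max_right _ _))

/-! ### Integration of the counting inequality -/

lemma ae_mem_area (hN : IsSurf N) : ∀ᵐ x ∂(area N), x ∈ N := ae_restrict_mem hN.1.measurableSet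

lemma contOn_gK (hN : IsSurf N) : ContinuousOn (gK N) N :=
  (((NC.contOn_Hv hN).norm.pow 2).sub (NC.contOn_a2 hN)).div_const 2

lemma integrable_gK (hN : IsSurf N) (hc : IsCompact N) : Integrable (gK N) (area N) := by
  have := Chart.locFin_proof N hN
  have h1 : IntegrableOn (gK N) N (area N) := (contOn_gK hN).integrableOn_compact hc
  rwa [IntegrableOn, Measure.restrict_eq_self_of_ae_mem (ae_mem_area hN)] at h1

lemma aemeas_Hv (hN : IsSurf N) (c : ℝ) (S : Set E3) :
    AEMeasurable (fun x => ENNReal.ofReal (c * ‖Hv N x‖ ^ 2)) ((area N).restrict S) :=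
  ((continuousOn_const.mul ((NC.contOn_Hv hN).norm.pow 2)).aemeasurable
    hN.1.measurableSet).ennreal_ofReal.restrict

lemma int_cnt_zero (hN : IsSurf N) {e : ℝ} (he : e = 1 ∨ e = -1) {S : Set E3}
    (hS : MeasurableSet S) : ∫⁻ v in closedBall 0 1, cnt N (fun _ => 0) e S v
      = ENNReal.ofReal (2 / 3) * ∫⁻ x in S, ENNReal.ofReal (e * gK N x) ∂(area N) := by
  rw [(area_count hN contDiff_const he hS).2 _ measurableSet_closedBall,
    ← lintegral_const_mul' _ _ ENNReal.ofReal_ne_top]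
  refine lintegral_congr_ae ?_
  filter_upwards [ae_restrict_of_ae (ae_mem_area hN)] with x hx using dI_zero hN hx e

lemma lint_gK_ne_top (hN : IsSurf N) (hc : IsCompact N) (e : ℝ) :
    ∫⁻ x, ENNReal.ofReal (e * gK N x) ∂(area N) ≠ ⊤ :=
  ((integrable_gK hN hc).const_mul e).lintegral_lt_top.ne

lemma card_minV_le (hN : IsSurf N) (hβ : ContDiff ℝ 2 β) (B : Set E3) :
    ∀ᵐ v : E3, ((minV N β v B).encard : ℝ≥0∞) ≤ cnt N β 1 B v := by
  filter_upwards [ae_nondeg hN hβ] with v hv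
  refine ENat.toENNReal_le.2 (encard_le_encard fun x hx => ?_)
  obtain ⟨h1, h2⟩ := min_cond hN hβ hx.1 hx.2.2
  exact ⟨h1, hx.2.1, by rw [one_mul]; exact lt_of_le_of_ne h2 (hv x h1).symm⟩

/-- the integrated counting inequality -/
lemma int_count (hC : CountStmt) (hN : IsSurf N) (hc : IsCompact N) (hn : IsConnected N) {p : E3}
    {r : ℝ} (hr : 0 < r) (hβ : ContDiff ℝ 2 β) (h0 : ∀ x, 0 ≤ β x) (h1 : ∀ x ∈ ball p r, β x = 0)
    (h2 : ∀ x, dist x p = 2 * r → 5 * r ≤ β x) :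
    ENNReal.ofReal (2 / 3) * ∫⁻ x in ball p r, ENNReal.ofReal (-1 * gK N x) ∂(area N)
      + ENNReal.ofReal (2 / 3) * ∫⁻ x, ENNReal.ofReal (1 * gK N x) ∂(area N) ≤
      2 * volume (closedBall (0 : E3) 1)
        + ENNReal.ofReal (2 / 3) * ∫⁻ x, ENNReal.ofReal (-1 * gK N x) ∂(area N)
        + 2 * ∫⁻ x in ball p (2 * r), dI N β 1 (closedBall 0 1) x ∂(area N) := by
  have m0 : ∀ {e : ℝ}, e = 1 ∨ e = -1 → Measurable (cnt N (fun _ => 0) e univ) := fun he =>
    (area_count hN contDiff_const he MeasurableSet.univ).1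
  have i0 : ∀ {e : ℝ}, e = 1 ∨ e = -1 → ∫⁻ v in closedBall 0 1, cnt N (fun _ => 0) e univ v
      = ENNReal.ofReal (2 / 3) * ∫⁻ x, ENNReal.ofReal (e * gK N x) ∂(area N) := fun he => by
    rw [int_cnt_zero hN he MeasurableSet.univ, Measure.restrict_univ]
  have f0 : ∀ {e : ℝ}, e = 1 ∨ e = -1 →
      ∀ᵐ v ∂(volume.restrict (closedBall (0 : E3) 1)), cnt N (fun _ => 0) e univ v < ⊤ :=
    fun he => ae_lt_top (m0 he) (by
      rw [i0 he]; exact ENNReal.mul_ne_top ENNReal.ofReal_ne_top (lint_gK_ne_top hN hc _))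
  obtain ⟨mb, ib⟩ := area_count hN hβ (Or.inl rfl) (measurableSet_ball (x := p) (ε := 2 * r))
  have ng := Measure.measurePreserving_neg (volume : Measure E3)
  have ib' : ∫⁻ v in closedBall 0 1, cnt N β 1 (ball p (2 * r)) (-v)
      = ∫⁻ v in closedBall 0 1, cnt N β 1 (ball p (2 * r)) v := by
    have := ng.setLIntegral_comp_preimage (measurableSet_closedBall (x := (0 : E3)) (ε := 1)) mb
    rwa [show Neg.neg ⁻¹' closedBall (0 : E3) 1 = closedBall 0 1 by ext v; simp] at this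
  have key : ∀ᵐ v ∂(volume.restrict (closedBall (0 : E3) 1)),
      cnt N (fun _ => 0) (-1) (ball p r) v + cnt N (fun _ => 0) 1 univ v ≤
        2 + cnt N (fun _ => 0) (-1) univ v + cnt N β 1 (ball p (2 * r)) v
          + cnt N β 1 (ball p (2 * r)) (-v) := by
    filter_upwards [ae_restrict_of_ae (hC N hN hc hn), ae_restrict_mem measurableSet_closedBall,
      f0 (Or.inl rfl), f0 (Or.inr rfl), ae_restrict_of_ae (ae_nondeg hN contDiff_const),
      ae_restrict_of_ae (card_minV_le hN hβ (ball p (2 * r))),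
      ae_restrict_of_ae (ng.quasiMeasurePreserving.ae (card_minV_le hN hβ (ball p (2 * r)))),
      ae_restrict_of_ae (Measure.ae_ne volume (0 : E3))] with v a1 a2 a3 a4 a5 a6 a7 hv
    have nd : ∀ x ∈ critV N v, gK N x ≠ 0 := by
      intro x hx h0
      obtain ⟨c, -, e⟩ := DB_zero hN hv hx
      exact a5 x (by rwa [critB_zero]) (by rw [e, h0, mul_zero])
    rw [cnt_zero hN hv] at a3 a4
    have fin : (critV N v).Finite := by
      refine ((encard_lt_top_iff.1 (ENat.toENNReal_lt_top.1 a3)).union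
        (encard_lt_top_iff.1 (ENat.toENNReal_lt_top.1 a4))).subset fun x hx => ?_
      rcases lt_or_gt_of_ne (nd x hx) with h | h
      · exact Or.inr ⟨hx, trivial, by linarith⟩
      · exact Or.inl ⟨hx, trivial, by linarith⟩
    have b1 := ENat.toENNReal_le.2
      (a1 (mem_closedBall_zero_iff.1 a2) fin nd β p r hr hβ.continuous h0 h1 h2)
    simp only [ENat.toENNReal_add, ENat.toENNReal_ofNat] at b1
    simp only [cnt_zero hN hv, mem_univ, true_and, neg_mul, one_mul, neg_pos]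
    exact b1.trans (by gcongr)
  have m1 : Measurable fun v => 2 + cnt N (fun _ => 0) (-1) univ v :=
    measurable_const.add (m0 (Or.inr rfl))
  have m2 : Measurable fun v => 2 + cnt N (fun _ => 0) (-1) univ v
      + cnt N β 1 (ball p (2 * r)) v := m1.add mb
  calc _ = (∫⁻ v in closedBall 0 1, cnt N (fun _ => 0) (-1) (ball p r) v)
        + ∫⁻ v in closedBall 0 1, cnt N (fun _ => 0) 1 univ v := by
        rw [int_cnt_zero hN (Or.inr rfl) measurableSet_ball, i0 (Or.inl rfl)]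
    _ ≤ _ := le_lintegral_add _ _
    _ ≤ _ := lintegral_mono_ae key
    _ = _ := by
        rw [lintegral_add_left m2, lintegral_add_left m1, lintegral_add_left measurable_const, ib', ib _ measurableSet_closedBall,
          i0 (Or.inr rfl), setLIntegral_const]
        ring

/-- **The local Gauss-Bonnet estimate** for a closed connected surface. -/
theorem lgb_static (hC : CountStmt) (D X : ℝ) : ∃ G : ℝ, ∀ N : Set E3, IsSurf N → IsCompact N →
    IsConnected N → AreaRatio D N → -X ≤ ∫ x, gK N x ∂(area N) → LGB G N := by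
  obtain ⟨K, hK, hβ⟩ := exists_ridge
  set V := volume (closedBall (0 : E3) 1) with hV
  have hVt : V ≠ ⊤ := measure_closedBall_lt_top.ne
  set a : ℝ≥0∞ := ENNReal.ofReal (2 * (1 + K) * (2 * K ^ 2)) * ENNReal.ofReal (4 * D) with ha
  set b : ℝ≥0∞ := ENNReal.ofReal (2 * (1 + K) * (1 + K) ^ 2) with hb
  set c : ℝ≥0∞ := ENNReal.ofReal (2 / 3) with hc
  set G : ℝ≥0∞ := 3 * (2 * V + c * ENNReal.ofReal X + 2 * a) + (1 + 6 * b) with hG
  have hGt : G ≠ ⊤ := by rw [hG, ha, hb, hc]; finiteness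
  refine ⟨G.toReal, fun N hN hcp hn hD hX p r hr => ?_⟩
  rw [ENNReal.ofReal_toReal hGt]
  obtain ⟨β, b1, b2, b3, b4, b5⟩ := hβ p r hr
  have k1 := int_count hC hN hcp hn hr b1 b2 b3 b4
  set H := ∫⁻ x in ball p (2 * r), ENNReal.ofReal (‖Hv N x‖ ^ 2) ∂(area N) with hH
  set Kb := ∫⁻ x in ball p r, ENNReal.ofReal (-1 * gK N x) ∂(area N) with hKb
  set Kp := ∫⁻ x, ENNReal.ofReal (1 * gK N x) ∂(area N) with hKp
  set Km := ∫⁻ x, ENNReal.ofReal (-1 * gK N x) ∂(area N) with hKm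
  have hp : Kp ≠ ⊤ := lint_gK_ne_top hN hcp _
  have hm : Km ≠ ⊤ := lint_gK_ne_top hN hcp _
  have k2 : Km ≤ Kp + ENNReal.ofReal X := by
    rw [integral_eq_lintegral_pos_part_sub_lintegral_neg_part (integrable_gK hN hcp)] at hX
    simp only [neg_mul, one_mul] at hKp hKm
    rw [← hKp, ← hKm] at hX
    rw [← ENNReal.ofReal_toReal hm, ← ENNReal.ofReal_toReal hp]
    refine le_trans (ENNReal.ofReal_le_ofReal
      (by linarith [le_max_left X 0] : Km.toReal ≤ Kp.toReal + max X 0)) ?_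
    rw [ENNReal.ofReal_add ENNReal.toReal_nonneg (le_max_right _ _), ENNReal.ofReal_max]
    simp
  have k3 : ∫⁻ x in ball p (2 * r), dI N β 1 (closedBall 0 1) x ∂(area N) ≤ a + b * H := by
    calc _ ≤ ∫⁻ x in ball p (2 * r), ENNReal.ofReal (2 * (1 + K) * (2 * K ^ 2) / r ^ 2)
          + b * ENNReal.ofReal (‖Hv N x‖ ^ 2) ∂(area N) := by
          refine lintegral_mono_ae ?_
          filter_upwards [ae_restrict_of_ae (ae_mem_area hN), ae_restrict_mem measurableSet_ball]
            with x hx hx'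
          refine (dI_le hN b1 hx (b5 x hx').1 (b5 x hx').2).trans_eq ?_
          rw [hb, ← ENNReal.ofReal_mul (by positivity),
            ← ENNReal.ofReal_add (by positivity) (by positivity)]
          congr 1
          field_simp
      _ = ENNReal.ofReal (2 * (1 + K) * (2 * K ^ 2) / r ^ 2) * area N (ball p (2 * r)) + b * H := by
          rw [lintegral_add_left measurable_const, setLIntegral_const,
            lintegral_const_mul' _ _ ENNReal.ofReal_ne_top]
      _ ≤ _ := by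
          refine add_le_add_left ?_ _
          refine (mul_le_mul_right (hD p (2 * r) (by positivity)) _).trans_eq ?_
          rw [ha, ← ENNReal.ofReal_mul (by positivity), ← ENNReal.ofReal_mul (by positivity)]
          congr 1
          field_simp
          ring
  have k4 : c * Kb ≤ 2 * V + c * ENNReal.ofReal X + 2 * (a + b * H) := by
    have hcp' : c * Kp ≠ ⊤ := ENNReal.mul_ne_top ENNReal.ofReal_ne_top hp
    refine (ENNReal.add_le_add_iff_right hcp').1 (k1.trans ?_)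
    calc _ ≤ 2 * V + c * (Kp + ENNReal.ofReal X) + 2 * (a + b * H) := by gcongr
      _ = _ := by ring
  have k5 : 2 * Kb = 3 * (c * Kb) := by
    rw [← mul_assoc, hc, ← ENNReal.ofReal_ofNat 3, ← ENNReal.ofReal_mul (by norm_num)]
    norm_num
  calc ∫⁻ x in ball p r, ENNReal.ofReal (a2 N x) ∂(area N)
      ≤ ∫⁻ x in ball p r, ENNReal.ofReal (1 * ‖Hv N x‖ ^ 2)
          + 2 * ENNReal.ofReal (-1 * gK N x) ∂(area N) := by
        refine lintegral_mono fun x => ?_
        have : a2 N x = 1 * ‖Hv N x‖ ^ 2 + 2 * (-1 * gK N x) := by rw [gK]; ring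
        rw [this]
        refine ENNReal.ofReal_add_le.trans_eq ?_
        rw [ENNReal.ofReal_mul zero_le_two, ENNReal.ofReal_ofNat]
    _ = ∫⁻ x in ball p r, ENNReal.ofReal (‖Hv N x‖ ^ 2) ∂(area N) + 2 * Kb := by
        rw [lintegral_add_left' (aemeas_Hv hN 1 _), lintegral_const_mul' _ _ (by simp)]
        simp only [one_mul, hKb]
    _ ≤ H + 3 * (2 * V + c * ENNReal.ofReal X + 2 * (a + b * H)) := by
        rw [k5]
        gcongr
        exact lintegral_mono_set (ball_subset_ball (by linarith))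
    _ = 3 * (2 * V + c * ENNReal.ofReal X + 2 * a) + (1 + 6 * b) * H := by ring
    _ ≤ G * 1 + G * H := by
        rw [mul_one]
        gcongr
        · exact le_self_add
        · exact le_add_self
    _ = _ := by rw [mul_add]

/-- **The local Gauss-Bonnet estimate** along a flow of closed connected surfaces. -/
theorem lgbFlow_of (hC : CountStmt) (hK : KConstStmt) (hR : P218FS.RatioStmt) :
    P218FS.LGBFlowStmt := by
  intro M a b hM a' ha'
  obtain ⟨D, hD⟩ := hR M a b hM a' ha'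
  obtain ⟨R, hb⟩ := hM.bdd
  obtain ⟨G, hG⟩ := lgb_static hC D (-∫ x, gK (M a') x ∂(area (M a')))
  refine ⟨G, fun t ht => ?_⟩
  have ht' : t ∈ Ioo a b := ⟨ha'.1.trans ht.1, ht.2⟩
  have hs := hM.mcf.isSurf ht'
  refine hG _ hs ((isCompact_closedBall 0 R).of_isClosed_subset hs.1 (hb t ht')) (hM.conn t ht')
    (hD t ht) ?_
  rw [neg_neg, hK M a b R hM.mcf hb a' ha' t ht']

end Vale.Agent.P218F.Lgb
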