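import Vale.Agent.P218F.LgbTop
import Mathlib.Analysis.Calculus.InverseFunctionTheorem.FDeriv
import Mathlib.Analysis.Calculus.ContDiff.RCLike
import Mathlib.Analysis.Calculus.ContDiff.Operations
import Mathlib.Analysis.SpecialFunctions.Sqrt
import Mathlib.Analysis.Normed.Module.FiniteDimension
import Mathlib.MeasureTheory.Integral.IntervalIntegral.FundThmCalculus

/-! The Morse lemma in the plane, with a topological chart. -/

open Set Filter Topology Metric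

namespace Vale.Agent.P218F.Lgb

variable {X : Type*} [TopologicalSpace X]

theorem model_of_homeo {h : X → ℝ} {x : X} {Q : ℝ × ℝ → ℝ} (e : OpenPartialHomeomorph X (ℝ × ℝ))
    (hx : x ∈ e.source) (h0 : e x = 0) (hQ : ∀ᶠ y in 𝓝 x, h y = h x + Q (e y)) : Model h x Q := by
  have ht : (0 : ℝ × ℝ) ∈ e.target := h0 ▸ e.map_source hx
  have hs : e.symm 0 = x := h0 ▸ e.left_inv hx
  have h1 : ∀ᶠ u in 𝓝 (0 : ℝ × ℝ), h (e.symm u) = h x + Q (e (e.symm u)) :=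
    (e.continuousAt_symm ht).eventually (p := fun y => h y = h x + Q (e y)) (by rwa [hs])
  obtain ⟨δ, hδ, hb⟩ := Metric.mem_nhds_iff.1 (inter_mem (e.open_target.mem_nhds ht) h1)
  have hb1 : ball 0 δ ⊆ e.target := fun u hu => (hb hu).1
  refine ⟨e.symm, δ, hδ, hs, e.continuousOn_symm.mono hb1, e.symm.injOn.mono hb1,
    fun W hW hWo => e.isOpen_image_symm_of_subset_target hWo (hW.trans hb1), fun u hu => ?_⟩
  have := (hb hu).2
  rwa [mem_ofPred_eq, e.right_inv (hb1 hu)] at this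

theorem Model.trans {h : X → ℝ} {x : X} {G Q : ℝ × ℝ → ℝ} (H : Model h x G) (H' : Model G 0 Q) :
    Model h x Q := by
  obtain ⟨κ, δ, H⟩ := H
  obtain ⟨ψ, ε, H'⟩ := H'
  obtain ⟨ε, H', hε⟩ := H'.small (ball_mem_nhds 0 H.pos)
  have hm : MapsTo ψ (ball 0 ε) (ball 0 δ) := fun u hu => hε ⟨u, hu, rfl⟩
  have h0 : G 0 = 0 := by
    have := H.val 0 (mem_ball_self H.pos)
    rw [H.zero] at this
    linarith
  refine ⟨κ ∘ ψ, ε, H'.pos, by simp [H'.zero, H.zero], H.cont.comp H'.cont hm,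
    H.inj.comp H'.inj hm, fun W hW hWo => ?_, fun u hu => ?_⟩
  · rw [image_comp]
    exact H.opn _ ((image_mono hW).trans hε) (H'.opn W hW hWo)
  · rw [Function.comp_apply, H.val _ (hm hu), H'.val u hu, h0, zero_add]

theorem model_of_strict {G Q : ℝ × ℝ → ℝ} {T : ℝ × ℝ → ℝ × ℝ} {L : ℝ × ℝ →L[ℝ] ℝ × ℝ}
    (hT : HasStrictFDerivAt T L 0) (hL : ∀ u, L u = 0 → u = 0) (h0 : T 0 = 0)
    (hG : ∀ᶠ u in 𝓝 0, G u = G 0 + Q (T u)) : Model G 0 Q := by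
  have hi : Function.Injective L.toLinearMap := (injective_iff_map_eq_zero _).2 hL
  let E : (ℝ × ℝ) ≃L[ℝ] ℝ × ℝ :=
    (LinearEquiv.ofInjectiveEndo L.toLinearMap hi).toContinuousLinearEquiv
  have hE : HasStrictFDerivAt T (E : ℝ × ℝ →L[ℝ] ℝ × ℝ) 0 := by
    convert hT using 1
    ext <;> rfl
  exact model_of_homeo (hE.toOpenPartialHomeomorph T) hE.mem_toOpenPartialHomeomorph_source h0 hG

theorem model_linear {G Q : ℝ × ℝ → ℝ} (L : ℝ × ℝ →L[ℝ] ℝ × ℝ) (hL : ∀ u, L u = 0 → u = 0)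
    (hG : ∀ u, G u = G 0 + Q (L u)) : Model G 0 Q :=
  model_of_strict L.hasStrictFDerivAt hL (map_zero L) (Eventually.of_forall hG)

/-- Lipschitz near the origin -/
def LipAt {F : Type*} [NormedAddCommGroup F] (f : ℝ × ℝ → F) : Prop :=
  ∃ K, ∃ s ∈ 𝓝 (0 : ℝ × ℝ), LipschitzOnWith K f s

section lip

variable {F F' : Type*} [NormedAddCommGroup F] [NormedSpace ℝ F] [NormedAddCommGroup F']
  [NormedSpace ℝ F']

omit [NormedSpace ℝ F] in
theorem LipAt.continuousAt {f : ℝ × ℝ → F} (h : LipAt f) : ContinuousAt f 0 :=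
  let ⟨_, _, hs, h⟩ := h; h.continuousOn.continuousAt hs

theorem LipAt.comp {f : ℝ × ℝ → F} (h : LipAt f) {g : F → F'} (hg : ContDiffAt ℝ 1 g (f 0)) :
    LipAt fun u => g (f u) := by
  obtain ⟨K', t, ht, hg⟩ := hg.exists_lipschitzOnWith
  have hc := h.continuousAt.preimage_mem_nhds ht
  obtain ⟨K, s, hs, h⟩ := h
  exact ⟨K' * K, s ∩ f ⁻¹' t, inter_mem hs hc,
    hg.comp (h.mono inter_subset_left) fun u hu => hu.2⟩

omit [NormedSpace ℝ F] in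
theorem LipAt.comp_linear {f : ℝ × ℝ → F} (h : LipAt f) (L : ℝ × ℝ →L[ℝ] ℝ × ℝ) :
    LipAt fun u => f (L u) := by
  obtain ⟨K, s, hs, h⟩ := h
  exact ⟨K * ‖L‖₊, L ⁻¹' s, L.continuous.continuousAt.preimage_mem_nhds (by simpa using hs),
    h.comp L.lipschitz.lipschitzOnWith fun u hu => hu⟩

theorem LipAt.hasStrictFDerivAt {L : ℝ × ℝ → (ℝ × ℝ →L[ℝ] F)} (h : LipAt L) :
    HasStrictFDerivAt (fun u => L u u) (L 0) 0 := by
  obtain ⟨K, s, hs, h⟩ := h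
  refine HasStrictFDerivAt.of_isLittleO (Asymptotics.isLittleO_iff.2 fun c hc => ?_)
  have h1 : ∀ᶠ p : (ℝ × ℝ) × (ℝ × ℝ) in 𝓝 (0, 0), K * (‖p.1‖ + ‖p.2‖) < c := by
    have : Continuous fun p : (ℝ × ℝ) × (ℝ × ℝ) => K * (‖p.1‖ + ‖p.2‖) := by fun_prop
    exact this.continuousAt.eventually_lt continuousAt_const (by simpa using hc)
  filter_upwards [h1, prod_mem_nhds hs hs] with p hp hps
  have e : L p.1 p.1 - L p.2 p.2 - L 0 (p.1 - p.2) =
      (L p.1 - L 0) (p.1 - p.2) + (L p.1 - L p.2) p.2 := by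
    simp only [sub_apply, map_sub]; abel
  have a1 : ‖L p.1 - L 0‖ ≤ K * ‖p.1‖ := by
    simpa using h.norm_sub_le hps.1 (mem_of_mem_nhds hs)
  have a2 : ‖L p.1 - L p.2‖ ≤ K * ‖p.1 - p.2‖ := h.norm_sub_le hps.1 hps.2
  rw [e]
  calc _ ≤ ‖L p.1 - L 0‖ * ‖p.1 - p.2‖ + ‖L p.1 - L p.2‖ * ‖p.2‖ :=
        (norm_add_le _ _).trans (add_le_add (ContinuousLinearMap.le_opNorm _ _)
          (ContinuousLinearMap.le_opNorm _ _))
    _ ≤ K * ‖p.1‖ * ‖p.1 - p.2‖ + K * ‖p.1 - p.2‖ * ‖p.2‖ := by gcongr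
    _ = K * (‖p.1‖ + ‖p.2‖) * ‖p.1 - p.2‖ := by ring
    _ ≤ c * ‖p.1 - p.2‖ := by gcongr

end lip

/-- the coefficients of a quadratic form -/
noncomputable def coefs (m : ℝ × ℝ →L[ℝ] ℝ × ℝ →L[ℝ] ℝ) : ℝ × ℝ × ℝ :=
  (m (1, 0) (1, 0), (m (1, 0) (0, 1) + m (0, 1) (1, 0)) / 2, m (0, 1) (0, 1))

theorem coefs_eq (m : ℝ × ℝ →L[ℝ] ℝ × ℝ →L[ℝ] ℝ) (u : ℝ × ℝ) : m u u =
    (coefs m).1 * u.1 ^ 2 + 2 * (coefs m).2.1 * u.1 * u.2 + (coefs m).2.2 * u.2 ^ 2 := by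
  have : u = u.1 • ((1 : ℝ), (0 : ℝ)) + u.2 • ((0 : ℝ), (1 : ℝ)) := by simp
  conv_lhs => rw [this]
  simp only [coefs, map_add, map_smul, add_apply, smul_apply, smul_eq_mul]
  ring

/-- Hadamard's lemma of order two -/
theorem hadamard {G : ℝ × ℝ → ℝ} (hG : ContDiff ℝ 3 G) (h1 : fderiv ℝ G 0 = 0) :
    ∃ q : ℝ × ℝ → ℝ × ℝ × ℝ, LipAt q ∧ q 0 = (1 / 2 : ℝ) • coefs (fderiv ℝ (fderiv ℝ G) 0) ∧
      ∀ u, G u = G 0 + ((q u).1 * u.1 ^ 2 + 2 * (q u).2.1 * u.1 * u.2 + (q u).2.2 * u.2 ^ 2) := by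
  have d1 : ContDiff ℝ 2 (fderiv ℝ G) := hG.fderiv_right (m := 2) (by norm_num)
  have d2 : ContDiff ℝ 1 (fderiv ℝ (fderiv ℝ G)) := d1.fderiv_right (m := 1) (by norm_num)
  set D : ℝ × ℝ → ℝ × ℝ × ℝ := fun z => coefs (fderiv ℝ (fderiv ℝ G) z) with hD
  have d3 : ContDiff ℝ 1 D := by
    simp only [hD, coefs]
    fun_prop
  have hc : ∀ u : ℝ × ℝ, Continuous fun t : ℝ => (1 - t) • D (t • u) := fun u => by
    have := d3.continuous
    fun_prop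
  refine ⟨fun u => ∫ t in (0 : ℝ)..1, (1 - t) • D (t • u), ?_, ?_, fun u => ?_⟩
  · obtain ⟨K, s, hs, h⟩ := (d3.contDiffAt (x := 0)).exists_lipschitzOnWith
    obtain ⟨r, hr, hb⟩ := Metric.mem_nhds_iff.1 hs
    refine ⟨K, ball 0 r, ball_mem_nhds 0 hr, LipschitzOnWith.of_dist_le_mul fun u hu w hw => ?_⟩
    rw [dist_eq_norm, ← intervalIntegral.integral_sub ((hc u).intervalIntegrable _ _)
      ((hc w).intervalIntegrable _ _)]
    refine (intervalIntegral.norm_integral_le_of_norm_le_const (C := K * dist u w)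
      fun t ht => ?_).trans (by simp)
    rw [uIoc_of_le zero_le_one] at ht
    have hm : ∀ z ∈ ball (0 : ℝ × ℝ) r, t • z ∈ s := fun z hz =>
      hb ((convex_ball 0 r).smul_mem_of_zero_mem (mem_ball_self hr) hz ⟨ht.1.le, ht.2⟩)
    have := h.norm_sub_le (hm u hu) (hm w hw)
    rw [← smul_sub, norm_smul, Real.norm_eq_abs, abs_of_pos ht.1] at this
    rw [← smul_sub, norm_smul, Real.norm_eq_abs, abs_of_nonneg (by linarith [ht.2]), dist_eq_norm]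
    have h2 : (0 : ℝ) ≤ K * ‖u - w‖ := by positivity
    nlinarith [norm_nonneg (D (t • u) - D (t • w)), ht.1, ht.2]
  · simp only [smul_zero]
    rw [intervalIntegral.integral_smul_const]
    congr 1
    have : ∀ t ∈ uIcc (0 : ℝ) 1, HasDerivAt (fun t : ℝ => t - t ^ 2 / 2) (1 - t) t := fun t _ =>
      ((hasDerivAt_id t).sub ((hasDerivAt_pow 2 t).div_const 2)).congr_deriv (by simp)
    rw [intervalIntegral.integral_eq_sub_of_hasDerivAt this
      ((by fun_prop : Continuous fun t : ℝ => 1 - t).intervalIntegrable _ _)]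
    norm_num
  · let l : ℝ × ℝ × ℝ →L[ℝ] ℝ := u.1 ^ 2 • ContinuousLinearMap.fst ℝ ℝ (ℝ × ℝ) +
      (2 * u.1 * u.2) • (ContinuousLinearMap.fst ℝ ℝ ℝ).comp (ContinuousLinearMap.snd ℝ ℝ (ℝ × ℝ)) +
      u.2 ^ 2 • (ContinuousLinearMap.snd ℝ ℝ ℝ).comp (ContinuousLinearMap.snd ℝ ℝ (ℝ × ℝ))
    have hl0 : ∀ m : ℝ × ℝ × ℝ,
        m.1 * u.1 ^ 2 + 2 * m.2.1 * u.1 * u.2 + m.2.2 * u.2 ^ 2 = l m := fun m => by
      simp [l]; ring
    have hl : ∀ t : ℝ, HasDerivAt (fun t : ℝ => t • u) u t := fun t => by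
      simpa using (hasDerivAt_id t).smul_const u
    have hd : ∀ t ∈ uIcc (0 : ℝ) 1,
        HasDerivAt (fun t : ℝ => (1 - t) * fderiv ℝ G (t • u) u + G (t • u))
          (l ((1 - t) • D (t • u))) t := fun t _ => by
      have a1 : HasDerivAt (fun t : ℝ => G (t • u)) (fderiv ℝ G (t • u) u) t :=
        (hG.differentiable (by norm_num) _).hasFDerivAt.comp_hasDerivAt t (hl t)
      have a2 : HasDerivAt (fun t : ℝ => fderiv ℝ G (t • u))
          (fderiv ℝ (fderiv ℝ G) (t • u) u) t :=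
        (d1.differentiable (by norm_num) _).hasFDerivAt.comp_hasDerivAt t (hl t)
      have a3 : HasDerivAt (fun t : ℝ => fderiv ℝ G (t • u) u)
          (fderiv ℝ (fderiv ℝ G) (t • u) u u) t := by
        simpa using a2.clm_apply (hasDerivAt_const t u)
      refine ((((hasDerivAt_id t).const_sub 1).mul a3).add a1).congr_deriv ?_
      rw [map_smul, ← hl0, coefs_eq]
      simp [hD]
    rw [hl0, ← l.intervalIntegral_comp_comm ((hc u).intervalIntegrable _ _),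
      intervalIntegral.integral_eq_sub_of_hasDerivAt hd
        ((l.continuous.comp (hc u)).intervalIntegrable _ _)]
    simp [h1]

/-- completing the square -/
theorem model_squares {G : ℝ × ℝ → ℝ} {q : ℝ × ℝ → ℝ × ℝ × ℝ} (hq : LipAt q)
    (hG : ∀ u, G u = G 0 + ((q u).1 * u.1 ^ 2 + 2 * (q u).2.1 * u.1 * u.2 + (q u).2.2 * u.2 ^ 2))
    {σ τ : ℝ} (hσ : σ * σ = 1) (hτ : τ * τ = 1) (ha : 0 < σ * (q 0).1)
    (hd : 0 < τ * ((q 0).2.2 - (q 0).2.1 ^ 2 / (q 0).1)) :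
    Model G 0 fun u => σ * u.1 ^ 2 + τ * u.2 ^ 2 := by
  have ha0 : (q 0).1 ≠ 0 := fun e => by simp [e] at ha
  let F : ℝ × ℝ × ℝ → (ℝ × ℝ →L[ℝ] ℝ × ℝ) := fun m =>
    √(σ * m.1) • (ContinuousLinearMap.inl ℝ ℝ ℝ).comp (ContinuousLinearMap.fst ℝ ℝ ℝ) +
      (√(σ * m.1) * (m.2.1 / m.1)) •
        (ContinuousLinearMap.inl ℝ ℝ ℝ).comp (ContinuousLinearMap.snd ℝ ℝ ℝ) +
      √(τ * (m.2.2 - m.2.1 ^ 2 / m.1)) •
        (ContinuousLinearMap.inr ℝ ℝ ℝ).comp (ContinuousLinearMap.snd ℝ ℝ ℝ)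
  have hF : ∀ m u, F m u = (√(σ * m.1) * (u.1 + m.2.1 / m.1 * u.2),
      √(τ * (m.2.2 - m.2.1 ^ 2 / m.1)) * u.2) := fun m u => by
    ext <;> simp [F]
    ring
  have c1 : ContDiffAt ℝ 1 (fun m : ℝ × ℝ × ℝ => √(σ * m.1)) (q 0) :=
    ContDiffAt.sqrt (by fun_prop) ha.ne'
  have c2 : ContDiffAt ℝ 1 (fun m : ℝ × ℝ × ℝ => m.2.1 / m.1) (q 0) :=
    ContDiffAt.div (by fun_prop) (by fun_prop) ha0
  have c3 : ContDiffAt ℝ 1 (fun m : ℝ × ℝ × ℝ => τ * (m.2.2 - m.2.1 ^ 2 / m.1)) (q 0) :=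
    contDiffAt_const.mul (ContDiffAt.sub (by fun_prop)
      (ContDiffAt.div (by fun_prop) (by fun_prop) ha0))
  have cF : ContDiffAt ℝ 1 F (q 0) :=
    ((c1.smul contDiffAt_const).add ((c1.mul c2).smul contDiffAt_const)).add
      ((c3.sqrt hd.ne').smul contDiffAt_const)
  refine model_of_strict (hq.comp cF).hasStrictFDerivAt (fun u hu => ?_) (by simp) ?_
  · rw [hF, Prod.mk_eq_zero, mul_eq_zero, mul_eq_zero] at hu
    have g2 : u.2 = 0 := hu.2.resolve_left (Real.sqrt_pos.2 hd).ne'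
    have g1 := hu.1.resolve_left (Real.sqrt_pos.2 ha).ne'
    rw [g2, mul_zero, add_zero] at g1
    exact Prod.ext g1 g2
  · have e1 : ∀ᶠ u in 𝓝 (0 : ℝ × ℝ), 0 < σ * (q u).1 :=
      continuousAt_const.eventually_lt (continuousAt_const.mul hq.continuousAt.fst) ha
    have e2 : ∀ᶠ u in 𝓝 (0 : ℝ × ℝ), 0 < τ * ((q u).2.2 - (q u).2.1 ^ 2 / (q u).1) :=
      continuousAt_const.eventually_lt (c3.continuousAt.comp hq.continuousAt) hd
    filter_upwards [e1, e2] with u g1 g2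
    have g0 : (q u).1 ≠ 0 := fun e => by simp [e] at g1
    rw [hG u, hF, mul_pow, mul_pow, Real.sq_sqrt g1.le, Real.sq_sqrt g2.le, ← mul_assoc σ,
      ← mul_assoc σ, ← mul_assoc τ, ← mul_assoc τ, hσ, hτ]
    field_simp
    ring

theorem model_quad' {G : ℝ × ℝ → ℝ} {q : ℝ × ℝ → ℝ × ℝ × ℝ} (hq : LipAt q)
    (hG : ∀ u, G u = G 0 + ((q u).1 * u.1 ^ 2 + 2 * (q u).2.1 * u.1 * u.2 + (q u).2.2 * u.2 ^ 2))
    (ha : (q 0).1 ≠ 0) :
    ((q 0).1 * (q 0).2.2 - (q 0).2.1 ^ 2 < 0 → Model G 0 qSad) ∧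
      (0 < (q 0).1 * (q 0).2.2 - (q 0).2.1 ^ 2 → Model G 0 qMin ∨ Model G 0 qMax) := by
  have e : (q 0).1 * (q 0).2.2 - (q 0).2.1 ^ 2 =
      (q 0).1 * ((q 0).2.2 - (q 0).2.1 ^ 2 / (q 0).1) := by field_simp
  rw [e]
  constructor
  · intro hd
    rcases mul_neg_iff.1 hd with ⟨g1, g2⟩ | ⟨g1, g2⟩
    · refine (model_squares hq hG (σ := 1) (τ := -1) (by simp) (by simp) (by simpa using g1)
        (by linarith)).trans (model_linear
          ((ContinuousLinearMap.fst ℝ ℝ ℝ - ContinuousLinearMap.snd ℝ ℝ ℝ).prod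
            (ContinuousLinearMap.fst ℝ ℝ ℝ + ContinuousLinearMap.snd ℝ ℝ ℝ)) (fun u hu => ?_)
          fun u => by simp [qSad]; ring)
      simp at hu
      exact Prod.ext (by simp; linarith [hu.1, hu.2]) (by simp; linarith [hu.1, hu.2])
    · refine (model_squares hq hG (σ := -1) (τ := 1) (by simp) (by simp) (by linarith)
        (by linarith)).trans (model_linear
          ((ContinuousLinearMap.snd ℝ ℝ ℝ - ContinuousLinearMap.fst ℝ ℝ ℝ).prod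
            (ContinuousLinearMap.fst ℝ ℝ ℝ + ContinuousLinearMap.snd ℝ ℝ ℝ)) (fun u hu => ?_)
          fun u => by simp [qSad]; ring)
      simp at hu
      exact Prod.ext (by simp; linarith [hu.1, hu.2]) (by simp; linarith [hu.1, hu.2])
  · intro hd
    rcases mul_pos_iff.1 hd with ⟨g1, g2⟩ | ⟨g1, g2⟩
    · left
      convert model_squares hq hG (σ := 1) (τ := 1) (by simp) (by simp) (by simpa using g1)
        (by linarith) using 1
      ext u; simp [qMin]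
    · right
      convert model_squares hq hG (σ := -1) (τ := -1) (by simp) (by simp) (by linarith)
        (by linarith) using 1
      ext u; simp [qMax]; ring

theorem model_quad {G : ℝ × ℝ → ℝ} {q : ℝ × ℝ → ℝ × ℝ × ℝ} (hq : LipAt q)
    (hG : ∀ u, G u = G 0 + ((q u).1 * u.1 ^ 2 + 2 * (q u).2.1 * u.1 * u.2 + (q u).2.2 * u.2 ^ 2)) :
    ((q 0).1 * (q 0).2.2 - (q 0).2.1 ^ 2 < 0 → Model G 0 qSad) ∧
      (0 < (q 0).1 * (q 0).2.2 - (q 0).2.1 ^ 2 → Model G 0 qMin ∨ Model G 0 qMax) := by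
  by_cases hd : (q 0).1 * (q 0).2.2 - (q 0).2.1 ^ 2 = 0
  · simp [hd]
  obtain ⟨t, ht⟩ : ∃ t : ℝ, (q 0).1 + 2 * t * (q 0).2.1 + t ^ 2 * (q 0).2.2 ≠ 0 := by
    by_contra hc
    push Not at hc
    have h0 := hc 0
    have h1 := hc 1
    have h2 := hc (-1)
    have g1 : (q 0).1 = 0 := by linarith
    have g2 : (q 0).2.1 = 0 := by linarith
    exact hd (by simp [g1, g2])
  let S : ℝ → (ℝ × ℝ →L[ℝ] ℝ × ℝ) := fun t => (ContinuousLinearMap.fst ℝ ℝ ℝ).prod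
    (ContinuousLinearMap.snd ℝ ℝ ℝ + t • ContinuousLinearMap.fst ℝ ℝ ℝ)
  have hS : ∀ t u, S t u = (u.1, u.2 + t * u.1) := fun t u => rfl
  let F : ℝ × ℝ × ℝ → ℝ × ℝ × ℝ := fun m =>
    (m.1 + 2 * t * m.2.1 + t ^ 2 * m.2.2, m.2.1 + t * m.2.2, m.2.2)
  have hq' : LipAt fun u => F (q (S t u)) := (hq.comp_linear (S t)).comp (by fun_prop)
  have m1 : Model G 0 fun u => G (S t u) - G 0 := model_linear (S (-t))
    (fun u hu => by
      rw [hS, Prod.mk_eq_zero] at hu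
      exact Prod.ext hu.1 (by simpa [hu.1] using hu.2))
    fun u => by simp [hS]
  have m2 := model_quad' (G := fun u => G (S t u) - G 0) hq'
    (fun u => by rw [hG (S t u), map_zero]; simp only [hS, F]; ring) (by simpa [F] using ht)
  have e : (F (q (S t 0))).1 * (F (q (S t 0))).2.2 - (F (q (S t 0))).2.1 ^ 2 =
      (q 0).1 * (q 0).2.2 - (q 0).2.1 ^ 2 := by
    simp only [F, map_zero]; ring
  simp only [e] at m2
  exact ⟨fun g => m1.trans (m2.1 g), fun g => (m2.2 g).imp m1.trans m1.trans⟩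

/-- **The Morse lemma** in the plane -/
theorem morse_plane {G : ℝ × ℝ → ℝ} (hG : ContDiff ℝ 3 G) (h1 : fderiv ℝ G 0 = 0) {A B C : ℝ}
    (h2 : ∀ u : ℝ × ℝ,
      fderiv ℝ (fderiv ℝ G) 0 u u = A * u.1 ^ 2 + 2 * B * u.1 * u.2 + C * u.2 ^ 2) :
    (A * C - B ^ 2 < 0 → Model G 0 qSad) ∧
      (0 < A * C - B ^ 2 → Model G 0 qMin ∨ Model G 0 qMax) := by
  obtain ⟨q, hq, h0, hv⟩ := hadamard hG h1
  have key := model_quad hq hv
  have k : ∀ u : ℝ × ℝ, (q 0).1 * u.1 ^ 2 + 2 * (q 0).2.1 * u.1 * u.2 +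
      (q 0).2.2 * u.2 ^ 2 = (A * u.1 ^ 2 + 2 * B * u.1 * u.2 + C * u.2 ^ 2) / 2 := fun u => by
    rw [h0, ← h2, coefs_eq]
    simp only [Prod.smul_fst, Prod.smul_snd, smul_eq_mul]
    ring
  have k1 : (q 0).1 = A / 2 := by simpa using k (1, 0)
  have k2 : (q 0).2.2 = C / 2 := by simpa using k (0, 1)
  have k3 : (q 0).2.1 = B / 2 := by
    have := k (1, 1)
    rw [k1, k2] at this
    simp at this
    linarith
  simp only [k1, k2, k3] at key
  exact ⟨fun g => key.1 (by linarith), fun g => key.2 (by linarith)⟩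

end Vale.Agent.P218F.Lgb
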