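import Mathlib.Topology.Connected.LocallyConnected
import Mathlib.Topology.Separation.Hausdorff
import Mathlib.Topology.Order.Compact
import Mathlib.Topology.MetricSpace.Pseudo.Lemmas
import Mathlib.Analysis.Convex.Topology
import Mathlib.Analysis.Normed.Module.Convex
import Mathlib.Order.WellFounded
import Mathlib.SetTheory.Cardinal.Order

/-! Counting critical points of a function with local Morse models on a compact surface: the
topological part of the local Gauss-Bonnet estimate. -/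

open Set Filter Topology Metric

namespace Vale.Agent.P218F.Lgb

variable {X : Type*} [TopologicalSpace X]

/-! ### A compact one-dimensional set does not have exactly one end -/

/-- `γ` parametrises a relatively open arc of `Y` -/
structure Arc (Y : Set X) (γ : ℝ → X) (δ : ℝ) : Prop where
  pos : 0 < δ
  cont : ContinuousOn γ (Ioo (-δ) δ)
  inj : InjOn γ (Ioo (-δ) δ)
  opn : ∀ W ⊆ Ioo (-δ) δ, IsOpen W → ∃ V, IsOpen V ∧ γ '' W = V ∩ Y

theorem Arc.symm {Y : Set X} {γ : ℝ → X} {δ : ℝ} (h : Arc Y γ δ) : Arc Y (fun s => γ (-s)) δ := by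
  have hm : MapsTo (fun s : ℝ => -s) (Ioo (-δ) δ) (Ioo (-δ) δ) := fun s hs =>
    ⟨by linarith [hs.2], by linarith [hs.1]⟩
  refine ⟨h.pos, h.cont.comp continuous_neg.continuousOn hm, ?_, ?_⟩
  · intro s hs t ht hst
    have := h.inj (hm hs) (hm ht) hst
    linarith
  · intro W hW hWo
    obtain ⟨V, hV, hVe⟩ := h.opn ((fun s : ℝ => -s) '' W) (by
      rintro _ ⟨s, hs, rfl⟩; exact hm (hW hs)) ((Homeomorph.neg ℝ).isOpenMap W hWo)
    exact ⟨V, hV, by rw [← hVe, image_image]⟩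

theorem Arc.mem {Y : Set X} {γ : ℝ → X} {δ : ℝ} (h : Arc Y γ δ) {s : ℝ} (hs : s ∈ Ioo (-δ) δ) :
    γ s ∈ Y := by
  obtain ⟨V, -, hV⟩ := h.opn _ subset_rfl isOpen_Ioo
  have : γ s ∈ V ∩ Y := hV ▸ mem_image_of_mem γ hs
  exact this.2

/-- `O` is a relatively open part of `Y` whose only boundary point is `x`, from one side -/
structure Inv (Y O : Set X) (x : X) : Prop where
  opn : ∃ V, IsOpen V ∧ O = V ∩ Y
  cl : closure O ⊆ insert x O
  mem : x ∈ Y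
  nmem : x ∉ O
  cl1 : x ∈ closure O
  cl2 : x ∈ closure (Y \ insert x O)

theorem Inv.side {Y O : Set X} {x : X} (h : Inv Y O x) {W : Set X} (hW : IsPreconnected W)
    (hWY : W ⊆ Y) (hx : x ∉ W) : W ⊆ O ∨ Disjoint W O := by
  obtain ⟨V, hV, hO⟩ := h.opn
  by_contra hc
  push Not at hc
  obtain ⟨h1, h2⟩ := hc
  obtain ⟨a, haW, haO⟩ := not_subset.1 h1
  obtain ⟨b, hbW, hbO⟩ := not_disjoint_iff.1 h2
  have key : ∀ y ∈ W, y ∉ O → y ∈ (closure O)ᶜ := fun y hy hyO hc =>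
    (h.cl hc).elim (fun e => hx (e ▸ hy)) hyO
  obtain ⟨z, hzW, hzV, hz⟩ := hW V (closure O)ᶜ hV isClosed_closure.isOpen_compl
    (fun y hy => by
      by_cases hyO : y ∈ O
      · exact Or.inl (hO ▸ hyO : y ∈ V ∩ Y).1
      · exact Or.inr (key y hy hyO))
    ⟨b, hbW, (hO ▸ hbO : b ∈ V ∩ Y).1⟩ ⟨a, haW, key a haW haO⟩
  exact hz (subset_closure (hO ▸ ⟨hzV, hWY hzW⟩))

theorem Inv.step' [T2Space X] {Y O : Set X} {γ : ℝ → X} {δ ξ : ℝ} (ha : Arc Y γ δ)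
    (hξ : ξ ∈ Ioo (-(δ / 2)) (δ / 2)) (h : Inv Y O (γ ξ)) (h1 : γ '' Ioo (-δ) ξ ⊆ O)
    (h2 : Disjoint (γ '' Ioo ξ δ) O) :
    ∃ O' x', Inv Y O' x' ∧ O ⊆ O' ∧ γ '' Ioo (-(δ / 2)) (δ / 2) ⊆ O' := by
  have hδ := ha.pos
  obtain ⟨hξ1, hξ2⟩ := hξ
  have hη : 3 * δ / 4 ∈ Ioo (-δ) δ := ⟨by linarith, by linarith⟩
  have hsub : Ioo (-δ) (3 * δ / 4) ⊆ Ioo (-δ) δ := Ioo_subset_Ioo_right (by linarith)
  have hcw : ContinuousAt γ (3 * δ / 4) := ha.cont.continuousAt (isOpen_Ioo.mem_nhds hη)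
  refine ⟨O ∪ γ '' Ioo (-δ) (3 * δ / 4), γ (3 * δ / 4), ⟨?_, ?_, ha.mem hη, ?_, ?_, ?_⟩,
    subset_union_left, ?_⟩
  · obtain ⟨V, hV, hO⟩ := h.opn
    obtain ⟨V', hV', hO'⟩ := ha.opn _ hsub isOpen_Ioo
    exact ⟨V ∪ V', hV.union hV', by rw [hO', union_inter_distrib_right, ← hO]⟩
  · have hK : IsClosed (γ '' Icc ξ (3 * δ / 4)) :=
      (isCompact_Icc.image_of_continuousOn (ha.cont.mono
        (Icc_subset_Ioo (by linarith) (by linarith)))).isClosed
    have hKs : γ '' Icc ξ (3 * δ / 4) ⊆ insert (γ (3 * δ / 4)) (O ∪ γ '' Ioo (-δ) (3 * δ / 4)) := by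
      rintro _ ⟨s, hs, rfl⟩
      rcases hs.2.eq_or_lt with e | e
      · exact Or.inl (by rw [e])
      · exact Or.inr (Or.inr ⟨s, ⟨by linarith [hs.1], e⟩, rfl⟩)
    have : O ∪ γ '' Ioo (-δ) (3 * δ / 4) ⊆ closure O ∪ γ '' Icc ξ (3 * δ / 4) := by
      rintro y (hy | ⟨s, hs, rfl⟩)
      · exact Or.inl (subset_closure hy)
      · rcases lt_or_ge s ξ with e | e
        · exact Or.inl (subset_closure (h1 ⟨s, ⟨hs.1, e⟩, rfl⟩))
        · exact Or.inr ⟨s, ⟨e, hs.2.le⟩, rfl⟩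
    refine (closure_minimal this (isClosed_closure.union hK)).trans ?_
    rintro y (hy | hy)
    · rcases h.cl hy with e | e
      · exact hKs (e ▸ ⟨ξ, ⟨le_rfl, by linarith⟩, rfl⟩)
      · exact Or.inr (Or.inl e)
    · exact hKs hy
  · rintro (hy | ⟨s, hs, e⟩)
    · exact disjoint_left.1 h2 ⟨_, ⟨by linarith, hη.2⟩, rfl⟩ hy
    · exact hs.2.ne (ha.inj (hsub hs) hη e)
  · refine closure_mono subset_union_right (hcw.continuousWithinAt.mem_closure_image ?_)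
    rw [closure_Ioo (by linarith)]
    exact ⟨by linarith, le_rfl⟩
  · refine closure_mono (s := γ '' Ioo (3 * δ / 4) δ) ?_
      (hcw.continuousWithinAt.mem_closure_image ?_)
    · rintro _ ⟨s, hs, rfl⟩
      have hs' : s ∈ Ioo (-δ) δ := ⟨by linarith [hs.1], hs.2⟩
      refine ⟨ha.mem hs', ?_⟩
      rintro (e | hy | ⟨t, ht, e⟩)
      · exact hs.1.ne' (ha.inj hs' hη e)
      · exact disjoint_left.1 h2 ⟨_, ⟨by linarith [hs.1], hs.2⟩, rfl⟩ hy
      · have := ha.inj (hsub ht) hs' e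
        linarith [hs.1, ht.2]
    · rw [closure_Ioo (by linarith)]
      exact ⟨le_rfl, by linarith⟩
  · rintro _ ⟨s, hs, rfl⟩
    exact Or.inr ⟨s, ⟨by linarith [hs.1], by linarith [hs.2]⟩, rfl⟩

theorem Inv.step [T2Space X] {Y O : Set X} {γ : ℝ → X} {δ ξ : ℝ} (ha : Arc Y γ δ)
    (hξ : ξ ∈ Ioo (-(δ / 2)) (δ / 2)) (h : Inv Y O (γ ξ)) :
    ∃ O' x', Inv Y O' x' ∧ O ⊆ O' ∧ γ '' Ioo (-(δ / 2)) (δ / 2) ⊆ O' := by
  have hδ := ha.pos
  have hξ' : ξ ∈ Ioo (-δ) δ := ⟨by linarith [hξ.1], by linarith [hξ.2]⟩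
  have hL : Ioo (-δ) ξ ⊆ Ioo (-δ) δ := Ioo_subset_Ioo_right hξ'.2.le
  have hR : Ioo ξ δ ⊆ Ioo (-δ) δ := Ioo_subset_Ioo_left hξ'.1.le
  have sL := h.side (isPreconnected_Ioo.image γ (ha.cont.mono hL))
    (by rintro _ ⟨s, hs, rfl⟩; exact ha.mem (hL hs))
    (by rintro ⟨s, hs, e⟩; exact hs.2.ne (ha.inj (hL hs) hξ' e))
  have sR := h.side (isPreconnected_Ioo.image γ (ha.cont.mono hR))
    (by rintro _ ⟨s, hs, rfl⟩; exact ha.mem (hR hs))
    (by rintro ⟨s, hs, e⟩; exact hs.1.ne' (ha.inj (hR hs) hξ' e))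
  obtain ⟨V, hV, hVe⟩ := ha.opn _ subset_rfl isOpen_Ioo
  have hxV : γ ξ ∈ V := (hVe ▸ mem_image_of_mem γ hξ' : γ ξ ∈ V ∩ Y).1
  have tri : ∀ y ∈ V, y ∈ Y → y ∈ γ '' Ioo (-δ) ξ ∨ y = γ ξ ∨ y ∈ γ '' Ioo ξ δ := by
    intro y h1 h2
    obtain ⟨s, hs, rfl⟩ : y ∈ γ '' Ioo (-δ) δ := hVe ▸ ⟨h1, h2⟩
    rcases lt_trichotomy s ξ with e | e | e
    · exact Or.inl ⟨s, ⟨hs.1, e⟩, rfl⟩
    · exact Or.inr (Or.inl (by rw [e]))
    · exact Or.inr (Or.inr ⟨s, ⟨e, hs.2⟩, rfl⟩)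
  rcases sL with sL | sL <;> rcases sR with sR | sR
  · obtain ⟨y, hyV, hyY, hy⟩ := mem_closure_iff.1 h.cl2 V hV hxV
    rcases tri y hyV hyY with e | e | e
    · exact absurd (Or.inr (sL e)) hy
    · exact absurd (Or.inl e) hy
    · exact absurd (Or.inr (sR e)) hy
  · exact Inv.step' ha hξ h sL sR
  · have hξ2 : -ξ ∈ Ioo (-(δ / 2)) (δ / 2) := ⟨by linarith [hξ.2], by linarith [hξ.1]⟩
    obtain ⟨O', x', h1, h2, h3⟩ := Inv.step' (O := O) ha.symm hξ2 (by simpa using h)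
      (by
        rintro _ ⟨s, hs, rfl⟩
        exact sR ⟨-s, ⟨by linarith [hs.2], by linarith [hs.1]⟩, rfl⟩)
      (by
        refine sL.mono_left ?_
        rintro _ ⟨s, hs, rfl⟩
        exact ⟨-s, ⟨by linarith [hs.2], by linarith [hs.1]⟩, rfl⟩)
    refine ⟨O', x', h1, h2, ?_⟩
    rintro _ ⟨s, hs, rfl⟩
    exact h3 ⟨-s, ⟨by linarith [hs.2], by linarith [hs.1]⟩, by simp⟩
  · obtain ⟨y, hyV, hyO⟩ := mem_closure_iff.1 h.cl1 V hV hxV
    obtain ⟨V', -, hO⟩ := h.opn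
    rcases tri y hyV (hO ▸ hyO : y ∈ V' ∩ Y).2 with e | e | e
    · exact absurd hyO (disjoint_left.1 sL e)
    · exact absurd (e ▸ hyO) h.nmem
    · exact absurd hyO (disjoint_left.1 sR e)

/-- A compact set which is locally an arc outside `O` cannot leave `O` through a single end. -/
theorem one_end [T2Space X] {Y O : Set X} {x : X} (hY : IsCompact Y) (h : Inv Y O x)
    (harc : ∀ y ∈ Y, y ∉ O → ∃ γ δ, Arc Y γ δ ∧ γ 0 = y) : False := by
  classical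
  obtain ⟨V₀, hV₀, hO⟩ := h.opn
  have hK : IsCompact (Y \ V₀) := hY.diff hV₀
  have harc' : ∀ y : X, ∃ (γ : ℝ → X) (δ : ℝ) (V : Set X), y ∈ Y \ V₀ →
      Arc Y γ δ ∧ IsOpen V ∧ γ '' Ioo (-(δ / 2)) (δ / 2) = V ∩ Y ∧ y ∈ V := by
    intro y
    by_cases hy : y ∈ Y \ V₀
    · obtain ⟨γ, δ, ha, h0⟩ := harc y hy.1 (fun hc => hy.2 (hO ▸ hc : y ∈ V₀ ∩ Y).1)
      have hδ := ha.pos
      obtain ⟨V, hV, hVe⟩ := ha.opn (Ioo (-(δ / 2)) (δ / 2))
        (Ioo_subset_Ioo (by linarith) (by linarith)) isOpen_Ioo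
      refine ⟨γ, δ, V, fun _ => ⟨ha, hV, hVe, ?_⟩⟩
      have : y ∈ V ∩ Y := hVe ▸ ⟨0, ⟨by linarith, by linarith⟩, h0⟩
      exact this.1
    · exact ⟨fun _ => y, 0, ∅, fun hc => absurd hc hy⟩
  choose γ δ V hV using harc'
  obtain ⟨T, hT, hcov⟩ := hK.elim_nhds_subcover V
    (fun y hy => (hV y hy).2.1.mem_nhds (hV y hy).2.2.2)
  have main : ∀ k : ℕ, ∃ O' x', Inv Y O' x' ∧ O ⊆ O' ∧
      k ≤ (T.filter (fun y => V y ∩ Y ⊆ O')).card := by
    intro k
    induction k with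
    | zero => exact ⟨O, x, h, subset_rfl, Nat.zero_le _⟩
    | succ k ih =>
      obtain ⟨O', x', h1, h2, h3⟩ := ih
      have hx' : x' ∈ Y \ V₀ := ⟨h1.mem, fun hc => h1.nmem (h2 (hO ▸ ⟨hc, h1.mem⟩))⟩
      obtain ⟨y, hyT, hy⟩ := mem_iUnion₂.1 (hcov hx')
      obtain ⟨ha, -, hVe, -⟩ := hV y (hT y hyT)
      obtain ⟨ξ, hξ, rfl⟩ : x' ∈ γ y '' Ioo (-(δ y / 2)) (δ y / 2) := hVe ▸ ⟨hy, h1.mem⟩
      obtain ⟨O'', x'', g1, g2, g3⟩ := h1.step ha hξ
      refine ⟨O'', x'', g1, h2.trans g2, Nat.succ_le_of_lt (h3.trans_lt ?_)⟩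
      refine Finset.card_lt_card ⟨fun z hz => ?_, fun hc => ?_⟩
      · rw [Finset.mem_filter] at hz ⊢
        exact ⟨hz.1, hz.2.trans g2⟩
      · have : y ∈ T.filter (fun y => V y ∩ Y ⊆ O') :=
          hc (Finset.mem_filter.2 ⟨hyT, hVe ▸ g3⟩)
        exact h1.nmem ((Finset.mem_filter.1 this).2 ⟨hy, h1.mem⟩)
  obtain ⟨O', x', -, -, h3⟩ := main (T.card + 1)
  have := Finset.card_filter_le T (fun y => V y ∩ Y ⊆ O')
  omega

/-! ### Components of sublevel sets -/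

/-- the component of `a` in `{h < c}` -/
abbrev cc (h : X → ℝ) (c : ℝ) (a : X) : Set X := connectedComponentIn {y | h y < c} a

/-- `p` merges two components of `{h < h p}` -/
def SubM (h : X → ℝ) (p : X) : Prop :=
  ∀ U ∈ 𝓝 p, ∃ A B : Set X, A ⊆ U ∧ B ⊆ U ∧ IsPreconnected A ∧ IsPreconnected B ∧
    A ⊆ {y | h y < h p} ∧ B ⊆ {y | h y < h p} ∧ p ∈ closure A ∧ p ∈ closure B ∧
    ∀ a ∈ A, ∀ b ∈ B, b ∉ cc h (h p) a

theorem cc_lt {h : X → ℝ} {c : ℝ} {a y : X} (hy : y ∈ cc h c a) : h y < c :=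
  connectedComponentIn_subset {y | h y < c} a hy

theorem cc_self {h : X → ℝ} {c : ℝ} {a : X} (ha : h a < c) : a ∈ cc h c a :=
  mem_connectedComponentIn ha

theorem cc_base {h : X → ℝ} {c : ℝ} {a y : X} (hy : y ∈ cc h c a) : h a < c :=
  (connectedComponentIn_nonempty_iff (F := {y | h y < c})).1 ⟨y, hy⟩

theorem cc_symm {h : X → ℝ} {c : ℝ} {a y : X} (hy : y ∈ cc h c a) : a ∈ cc h c y := by
  have := cc_self (cc_base hy)
  rwa [cc, connectedComponentIn_eq hy] at this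

theorem cc_trans {h : X → ℝ} {c : ℝ} {a y z : X} (hy : y ∈ cc h c a) (hz : z ∈ cc h c y) :
    z ∈ cc h c a := by
  rwa [cc, connectedComponentIn_eq hy]

theorem cc_mono {h f : X → ℝ} {c d : ℝ} (H : ∀ y, f y < c → h y < d) (a : X) :
    cc f c a ⊆ cc h d a := connectedComponentIn_mono _ H

theorem subset_cc {h : X → ℝ} {c : ℝ} {A : Set X} (hA : IsPreconnected A)
    (hAc : A ⊆ {y | h y < c}) {a z : X} (hz : z ∈ A) (hza : z ∈ cc h c a) : A ⊆ cc h c a :=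
  fun _ hy => cc_trans hza (hA.subset_connectedComponentIn hz hAc hy)

theorem SubM.transfer {h f : X → ℝ} {p : X} (H : SubM h p) (hf : ∀ y, h y ≤ f y)
    (he : f =ᶠ[𝓝 p] h) : SubM f p := by
  intro U hU
  have hp : f p = h p := he.eq_of_nhds
  obtain ⟨A, B, hA, hB, cA, cB, lA, lB, pA, pB, hAB⟩ := H _ (inter_mem hU he)
  refine ⟨A, B, fun y hy => (hA hy).1, fun y hy => (hB hy).1, cA, cB, fun y hy => ?_,
    fun y hy => ?_, pA, pB, fun a ha b hb hc => hAB a ha b hb ?_⟩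
  · have h1 : f y = h y := (hA hy).2
    have h2 : h y < h p := lA hy
    change f y < f p
    linarith
  · have h1 : f y = h y := (hB hy).2
    have h2 : h y < h p := lB hy
    change f y < f p
    linarith
  · exact cc_mono (fun y hy => by linarith [hf y]) a hc

theorem isOpen_cc [LocallyConnectedSpace X] {h : X → ℝ} (hh : Continuous h) (c : ℝ) (a : X) :
    IsOpen (cc h c a) := (isOpen_lt hh continuous_const).connectedComponentIn

theorem mem_cc_of_closure {h : X → ℝ} {c : ℝ} {a y : X} (hy : y ∈ closure (cc h c a))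
    (hc : h y < c) : y ∈ cc h c a := by
  obtain ⟨z, hz⟩ : (cc h c a).Nonempty := closure_nonempty_iff.1 ⟨y, hy⟩
  have h1 : IsPreconnected (insert y (cc h c a)) :=
    isPreconnected_connectedComponentIn.subset_closure (subset_insert _ _)
      (insert_subset hy subset_closure)
  exact subset_cc h1 (insert_subset hc (fun _ hw => cc_lt hw)) (Or.inr hz) hz (Or.inl rfl)

theorem exists_isLocalMin [CompactSpace X] [LocallyConnectedSpace X] {f : X → ℝ}
    (hf : Continuous f) {c : ℝ} {a : X} (ha : f a < c) : ∃ m ∈ cc f c a, IsLocalMin f m := by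
  obtain ⟨m, hm, hmin⟩ := (isClosed_closure (s := cc f c a)).isCompact.exists_isMinOn
    ⟨a, subset_closure (cc_self ha)⟩ hf.continuousOn
  have h1 : f m ≤ f a := hmin (subset_closure (cc_self ha))
  have h2 := mem_cc_of_closure hm (h1.trans_lt ha)
  exact ⟨m, h2, (hmin.on_subset subset_closure).isLocalMin ((isOpen_cc hf c a).mem_nhds h2)⟩

/-- merging points with distinct values are at most as many as the local minima below them -/
theorem forest_upper [CompactSpace X] [LocallyConnectedSpace X] {f : X → ℝ} (hf : Continuous f)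
    (S P : Finset X) (hinj : InjOn f S) (hS : ∀ p ∈ S, SubM f p)
    (hP : ∀ x, IsLocalMin f x → (∃ p ∈ S, f x < f p) → x ∈ P) : S.card ≤ P.card := by
  classical
  obtain ⟨lo, -⟩ := exists_wellFoundedLT X
  have hm : ∀ p ∈ S, ∀ a, f a < f p →
      ∃ m ∈ P, m ∈ cc f (f p) a ∧ ∀ m' ∈ P, m' ∈ cc f (f p) a → m ≤ m' := by
    intro p hp a ha
    obtain ⟨m, h1, h2⟩ := exists_isLocalMin hf ha
    have hne : (P.filter (· ∈ cc f (f p) a)).Nonempty :=
      ⟨m, Finset.mem_filter.2 ⟨hP m h2 ⟨p, hp, cc_lt h1⟩, h1⟩⟩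
    obtain ⟨m₀, h3, h4⟩ := Finset.exists_min_image _ id hne
    exact ⟨m₀, (Finset.mem_filter.1 h3).1, (Finset.mem_filter.1 h3).2,
      fun m' g1 g2 => h4 m' (Finset.mem_filter.2 ⟨g1, g2⟩)⟩
  have key : ∀ p : X, ∃ d e : X, p ∈ S → d ∈ P ∧ e ∈ P ∧ e < d ∧ f d < f p ∧
      (∀ m' ∈ P, m' ∈ cc f (f p) d → d ≤ m') ∧ ∀ c, f p < c → e ∈ cc f c d := by
    intro p
    by_cases hp : p ∈ S
    swap
    · exact ⟨p, p, fun hc => absurd hc hp⟩
    obtain ⟨A, B, -, -, cA, cB, lA, lB, pA, pB, hAB⟩ := hS p hp univ univ_mem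
    obtain ⟨a, ha⟩ : A.Nonempty := closure_nonempty_iff.1 ⟨p, pA⟩
    obtain ⟨b, hb⟩ : B.Nonempty := closure_nonempty_iff.1 ⟨p, pB⟩
    obtain ⟨m₁, p1, c1, k1⟩ := hm p hp a (lA ha)
    obtain ⟨m₂, p2, c2, k2⟩ := hm p hp b (lB hb)
    have hne : m₁ ≠ m₂ := fun e => hAB a ha b hb (cc_trans c1 (cc_symm (e ▸ c2)))
    have hj : ∀ c, f p < c → m₂ ∈ cc f c m₁ := by
      intro c hc
      have q1 : IsPreconnected (insert p A) :=
        cA.subset_closure (subset_insert _ _) (insert_subset pA subset_closure)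
      have q2 : IsPreconnected (insert p B) :=
        cB.subset_closure (subset_insert _ _) (insert_subset pB subset_closure)
      have q3 : IsPreconnected (insert p A ∪ insert p B) :=
        q1.union p (Or.inl rfl) (Or.inl rfl) q2
      have q4 : insert p A ∪ insert p B ⊆ {y | f y < c} :=
        union_subset (insert_subset hc fun y hy => (lA hy : f y < f p).trans hc)
          (insert_subset hc fun y hy => (lB hy : f y < f p).trans hc)
      have q5 : b ∈ cc f c a :=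
        q3.subset_connectedComponentIn (Or.inl (Or.inr ha)) q4 (Or.inr (Or.inr hb))
      have r1 : m₁ ∈ cc f c a := cc_mono (fun y hy => hy.trans hc) a c1
      have r2 : m₂ ∈ cc f c b := cc_mono (fun y hy => hy.trans hc) b c2
      exact cc_trans (cc_symm r1) (cc_trans q5 r2)
    rcases lt_or_gt_of_ne hne with e | e
    · exact ⟨m₂, m₁, fun _ => ⟨p2, p1, e, cc_lt c2, fun m' g1 g2 => k2 m' g1 (cc_trans c2 g2),
        fun c hc => cc_symm (hj c hc)⟩⟩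
    · exact ⟨m₁, m₂, fun _ => ⟨p1, p2, e, cc_lt c1, fun m' g1 g2 => k1 m' g1 (cc_trans c1 g2),
        hj⟩⟩
  choose d e hde using key
  refine Finset.card_le_card_of_injOn d (fun p hp => (hde p hp).1) ?_
  have aux : ∀ p ∈ S, ∀ q ∈ S, d p = d q → ¬ f p < f q := by
    intro p hp q hq hd hlt
    obtain ⟨-, g2, g3, -, -, g6⟩ := hde p hp
    obtain ⟨-, -, -, -, g5, -⟩ := hde q hq
    have := g5 _ g2 (hd ▸ g6 _ hlt)
    rw [← hd] at this
    exact absurd g3 (not_lt.2 this)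
  intro p hp q hq hd
  exact hinj hp hq (le_antisymm (not_lt.1 (aux q hq p hp hd.symm)) (not_lt.1 (aux p hp q hq hd)))

theorem exists_lt_of_mem_cc [LocallyConnectedSpace X] {h : X → ℝ} (hh : Continuous h) {c : ℝ}
    {a y : X} (hy : y ∈ cc h c a) : ∃ c' < c, y ∈ cc h c' a := by
  by_contra hc
  push Not at hc
  have ha := cc_base hy
  obtain ⟨z, -, hz1, hz2⟩ := (isPreconnected_connectedComponentIn (x := a) (F := {y | h y < c}))
    (⋃ c' < c, cc h c' a) (⋃ c' < c, ⋃ w ∈ {w | ∀ c' < c, w ∉ cc h c' a}, cc h c' w)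
    (isOpen_biUnion fun c' _ => isOpen_cc hh _ _)
    (isOpen_biUnion fun c' _ => isOpen_biUnion fun w _ => isOpen_cc hh _ _)
    (fun w hw => by
      by_cases hw' : ∀ c' < c, w ∉ cc h c' a
      · obtain ⟨c', h1, h2⟩ := exists_between (cc_lt hw : h w < c)
        exact Or.inr (mem_iUnion₂.2 ⟨c', h2, mem_iUnion₂.2 ⟨w, hw', cc_self h1⟩⟩)
      · push Not at hw'
        obtain ⟨c', h1, h2⟩ := hw'
        exact Or.inl (mem_iUnion₂.2 ⟨c', h1, h2⟩))
    (by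
      obtain ⟨c', h1, h2⟩ := exists_between ha
      exact ⟨a, cc_self ha, mem_iUnion₂.2 ⟨c', h2, cc_self h1⟩⟩)
    (by
      obtain ⟨c', h1, h2⟩ := exists_between (cc_lt hy : h y < c)
      exact ⟨y, hy, mem_iUnion₂.2 ⟨c', h2, mem_iUnion₂.2 ⟨y, hc, cc_self h1⟩⟩⟩)
  obtain ⟨c₁, h1, hz1⟩ := mem_iUnion₂.1 hz1
  obtain ⟨c₂, h2, hz2⟩ := mem_iUnion₂.1 hz2
  obtain ⟨w, hw, hz2⟩ := mem_iUnion₂.1 hz2
  refine hw (max c₁ c₂) (max_lt h1 h2) (cc_trans (y := z) ?_ (cc_symm ?_))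
  · exact cc_mono (fun y hy => hy.trans_le (le_max_left _ _)) a hz1
  · exact cc_mono (fun y hy => hy.trans_le (le_max_right _ _)) w hz2

/-- near `x` the set `{h < h x}` is connected, and it accumulates at `x` -/
def One (h : X → ℝ) (x : X) : Prop :=
  x ∈ closure {y | h y < h x} ∧ ∃ U ∈ 𝓝 x, IsPreconnected (U ∩ {y | h y < h x})

/-- near `x` the set `{h < h x}` is a union of two connected sets accumulating at `x` -/
def Two (h : X → ℝ) (x : X) : Prop :=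
  ∀ U ∈ 𝓝 x, ∃ V ∈ 𝓝 x, V ⊆ U ∧ ∃ A B : Set X, IsPreconnected A ∧ IsPreconnected B ∧
    V ∩ {y | h y < h x} = A ∪ B ∧ x ∈ closure A ∧ x ∈ closure B

theorem Two.subM {h : X → ℝ} {x a b : X} (H : Two h x) (ha : x ∈ closure (cc h (h x) a))
    (hb : x ∈ closure (cc h (h x) b)) (hab : b ∉ cc h (h x) a) : SubM h x := by
  intro U hU
  obtain ⟨V, hV, hVU, A, B, cA, cB, hAB, pA, pB⟩ := H U hU
  have sA : A ⊆ V ∩ {y | h y < h x} := hAB ▸ subset_union_left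
  have sB : B ⊆ V ∩ {y | h y < h x} := hAB ▸ subset_union_right
  refine ⟨A, B, fun y hy => hVU (sA hy).1, fun y hy => hVU (sB hy).1, cA, cB,
    fun y hy => (sA hy).2, fun y hy => (sB hy).2, pA, pB, fun a' ha' b' hb' hc => hab ?_⟩
  have all : ∀ y ∈ A ∪ B, y ∈ cc h (h x) a' := by
    rintro y (hy | hy)
    · exact subset_cc cA (fun y hy => (sA hy).2) ha' (cc_self (sA ha').2) hy
    · exact subset_cc cB (fun y hy => (sB hy).2) hb' hc hy
  obtain ⟨y, hyV, hy⟩ := mem_closure_iff_nhds.1 ha V hV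
  obtain ⟨z, hzV, hz⟩ := mem_closure_iff_nhds.1 hb V hV
  have y1 := all y (hAB ▸ ⟨hyV, cc_lt hy⟩)
  have z1 := all z (hAB ▸ ⟨hzV, cc_lt hz⟩)
  exact cc_trans hy (cc_trans (cc_symm y1) (cc_trans z1 (cc_symm hz)))

/-- every component of `{h < h p}` adjacent to `p` meets `M` -/
def Inside (h : X → ℝ) (M : Finset X) (p : X) : Prop :=
  ∀ a, p ∈ closure (cc h (h p) a) → ∃ m ∈ M, m ∈ cc h (h p) a

theorem One.not_isLocalMin {h : X → ℝ} {x : X} (H : x ∈ closure {y | h y < h x}) :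
    ¬ IsLocalMin h x := fun hc => by
  obtain ⟨y, h1, h2⟩ := mem_closure_iff_nhds.1 H _ hc
  have h3 : h x ≤ h y := h1
  exact absurd h3 (not_le.2 h2)

theorem Two.mem_closure {h : X → ℝ} {x : X} (H : Two h x) : x ∈ closure {y | h y < h x} := by
  obtain ⟨V, -, -, A, B, -, -, hAB, pA, -⟩ := H univ univ_mem
  have sA : A ⊆ V ∩ {y | h y < h x} := hAB ▸ subset_union_left
  exact closure_mono (fun y hy => (sA hy).2) pA

theorem crossing [CompactSpace X] [T2Space X] [LocallyConnectedSpace X] [PreconnectedSpace X]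
    [DecidableEq X] {h : X → ℝ} (hh : Continuous h) (Mn Sd : Finset X)
    (hloc : ∀ x, (x ∈ Mn ∧ IsLocalMin h x) ∨ (x ∉ Mn ∧ (One h x ∨ (x ∈ Sd ∧ Two h x))))
    (M₁ : Finset X) (hM : M₁ ⊆ Mn) {m₁ m₂ : X} (h1 : m₁ ∈ M₁) (h2 : m₂ ∈ Mn) (h3 : m₂ ∉ M₁) :
    ∃ p ∈ Sd, SubM h p ∧ ¬ Inside h M₁ p ∧ ∃ m ∈ Mn, m ∉ M₁ ∧ Inside h (insert m M₁) p := by
  by_contra hcon
  have hmin : ∀ c a, h a < c → ∃ m ∈ Mn, m ∈ cc h c a := by
    intro c a ha
    obtain ⟨m, g1, g2⟩ := exists_isLocalMin hh ha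
    refine ⟨m, ?_, g1⟩
    rcases hloc m with g | ⟨-, g | g⟩
    · exact g.1
    · exact absurd g2 (One.not_isLocalMin g.1)
    · exact absurd g2 (One.not_isLocalMin g.2.mem_closure)
  set P : ℝ → Prop := fun c => ∀ a ∈ M₁, ∀ b ∈ Mn, b ∉ M₁ → b ∉ cc h c a with hP
  have Pmono : ∀ c d, c ≤ d → P d → P c := fun c d hcd H a ha b hb hb' hc =>
    H a ha b hb hb' (cc_mono (fun y hy => hy.trans_le hcd) a hc)
  have Plim : ∀ c, (∀ c' < c, P c') → P c := fun c H a ha b hb hb' hc => by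
    obtain ⟨c', g1, g2⟩ := exists_lt_of_mem_cc hh hc
    exact H c' g1 a ha b hb hb' g2
  have Pstep : ∀ c, P c → ∃ d, c < d ∧ P d := by
    intro c H
    set Z₁ : Set X := ⋃ a ∈ M₁, cc h c a with hZ₁
    set Z₂ : Set X := ⋃ b ∈ Mn \ M₁, cc h c b with hZ₂
    have o1 : IsOpen Z₁ := isOpen_biUnion fun a _ => isOpen_cc hh _ _
    have o2 : IsOpen Z₂ := isOpen_biUnion fun a _ => isOpen_cc hh _ _
    have dj : ∀ y, y ∈ Z₁ → y ∈ Z₂ → False := by
      intro y g1 g2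
      obtain ⟨a, ha, g1⟩ := mem_iUnion₂.1 g1
      obtain ⟨b, hb, g2⟩ := mem_iUnion₂.1 g2
      exact H a ha b (Finset.mem_sdiff.1 hb).1 (Finset.mem_sdiff.1 hb).2 (cc_trans g1 (cc_symm g2))
    have cv : ∀ y, h y < c → y ∈ Z₁ ∨ y ∈ Z₂ := by
      intro y hy
      obtain ⟨m, g1, g2⟩ := hmin c y hy
      by_cases g3 : m ∈ M₁
      · exact Or.inl (mem_iUnion₂.2 ⟨m, g3, cc_symm g2⟩)
      · exact Or.inr (mem_iUnion₂.2 ⟨m, Finset.mem_sdiff.2 ⟨g1, g3⟩, cc_symm g2⟩)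
    have l1 : Z₁ ⊆ {y | h y < c} := fun y hy => by
      obtain ⟨a, -, g⟩ := mem_iUnion₂.1 hy
      exact cc_lt g
    have l2 : Z₂ ⊆ {y | h y < c} := fun y hy => by
      obtain ⟨a, -, g⟩ := mem_iUnion₂.1 hy
      exact cc_lt g
    have lc : closure {y | h y < c} ⊆ {y | h y ≤ c} :=
      closure_minimal (fun y (hy : h y < c) => (hy.le : h y ≤ c)) (isClosed_le hh continuous_const)
    have nm : ∀ y ∈ Mn, h y = c → y ∉ closure {y | h y < c} := by
      intro y hy hc hcl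
      rcases hloc y with g | g
      · exact One.not_isLocalMin (hc ▸ hcl) g.2
      · exact g.1 hy
    have djc : ∀ y, y ∈ closure Z₁ → y ∈ closure Z₂ → False := by
      intro y g1 g2
      have hyc : h y ≤ c := lc (closure_mono l1 g1)
      rcases hyc.lt_or_eq with hy | hy
      · rcases cv y hy with g | g
        · obtain ⟨z, k1, k2⟩ := mem_closure_iff.1 g2 _ o1 g
          exact dj z k1 k2
        · obtain ⟨z, k1, k2⟩ := mem_closure_iff.1 g1 _ o2 g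
          exact dj z k2 k1
      · rw [hZ₁, Finset.closure_biUnion] at g1
        rw [hZ₂, Finset.closure_biUnion] at g2
        obtain ⟨a, ha, g1⟩ := mem_iUnion₂.1 g1
        obtain ⟨b, hb, g2⟩ := mem_iUnion₂.1 g2
        obtain ⟨hb1, hb2⟩ := Finset.mem_sdiff.1 hb
        have hab := H a ha b hb1 hb2
        rcases hloc y with g | ⟨-, ⟨-, U, hU, cU⟩ | ⟨hS, g⟩⟩
        · exact nm y g.1 hy (closure_mono (fun _ hw => cc_lt hw) g1)
        · rw [hy] at cU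
          obtain ⟨z, z1, z2⟩ := mem_closure_iff_nhds.1 g1 U hU
          obtain ⟨w, w1, w2⟩ := mem_closure_iff_nhds.1 g2 U hU
          have := subset_cc cU inter_subset_right ⟨z1, cc_lt z2⟩ z2 ⟨w1, cc_lt w2⟩
          exact hab (cc_trans this (cc_symm w2))
        · subst hy
          refine hcon ⟨y, hS, g.subM g1 g2 hab, fun hin => ?_, b, hb1, hb2, fun a' ha' => ?_⟩
          · obtain ⟨m, k1, k2⟩ := hin b g2
            exact H m k1 b hb1 hb2 (cc_symm k2)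
          · obtain ⟨V, hV, -, A, B, cA, cB, hAB, -, -⟩ := g univ univ_mem
            have sA : A ⊆ {z | h z < h y} := fun z hz =>
              (hAB ▸ Or.inl hz : z ∈ V ∩ {z | h z < h y}).2
            have sB : B ⊆ {z | h z < h y} := fun z hz =>
              (hAB ▸ Or.inr hz : z ∈ V ∩ {z | h z < h y}).2
            obtain ⟨z, z1, z2⟩ := mem_closure_iff_nhds.1 g1 V hV
            obtain ⟨w, w1, w2⟩ := mem_closure_iff_nhds.1 g2 V hV
            obtain ⟨u, u1, u2⟩ := mem_closure_iff_nhds.1 ha' V hV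
            have z3 : z ∈ A ∪ B := hAB ▸ ⟨z1, cc_lt z2⟩
            have w3 : w ∈ A ∪ B := hAB ▸ ⟨w1, cc_lt w2⟩
            have u3 : u ∈ A ∪ B := hAB ▸ ⟨u1, cc_lt u2⟩
            have fa : u ∈ cc h (h y) a → ∃ m ∈ insert b M₁, m ∈ cc h (h y) a' := fun k =>
              ⟨a, Finset.mem_insert_of_mem ha, cc_trans u2 (cc_symm k)⟩
            have fb : u ∈ cc h (h y) b → ∃ m ∈ insert b M₁, m ∈ cc h (h y) a' := fun k =>
              ⟨b, Finset.mem_insert_self _ _, cc_trans u2 (cc_symm k)⟩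
            rcases z3 with z3 | z3 <;> rcases w3 with w3 | w3
            · exact absurd (cc_trans (subset_cc cA sA z3 z2 w3) (cc_symm w2)) hab
            · exact u3.elim (fun k => fa (subset_cc cA sA z3 z2 k))
                (fun k => fb (subset_cc cB sB w3 w2 k))
            · exact u3.elim (fun k => fb (subset_cc cA sA w3 w2 k))
                (fun k => fa (subset_cc cB sB z3 z2 k))
            · exact absurd (cc_trans (subset_cc cB sB z3 z2 w3) (cc_symm w2)) hab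
    set K₁ : Set X := closure Z₁ ∪ ↑(M₁.filter (fun y => h y = c)) with hK₁
    set K₂ : Set X := closure Z₂ ∪ ↑((Mn \ M₁).filter (fun y => h y = c)) with hK₂
    have k1 : IsCompact K₁ := isClosed_closure.isCompact.union (Finset.finite_toSet _).isCompact
    have k2 : IsCompact K₂ := isClosed_closure.isCompact.union (Finset.finite_toSet _).isCompact
    have kd : Disjoint K₁ K₂ := by
      rw [disjoint_left]
      rintro y (g1 | g1) (g2 | g2)
      · exact djc y g1 g2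
      · obtain ⟨g3, g4⟩ := Finset.mem_filter.1 g2
        exact nm y (Finset.mem_sdiff.1 g3).1 g4 (closure_mono l1 g1)
      · obtain ⟨g3, g4⟩ := Finset.mem_filter.1 g1
        exact nm y (hM g3) g4 (closure_mono l2 g2)
      · exact (Finset.mem_sdiff.1 (Finset.mem_filter.1 g2).1).2 (Finset.mem_filter.1 g1).1
    have kc : ∀ y, h y ≤ c → y ∈ K₁ ∨ y ∈ K₂ := by
      intro y hy
      have hcl : y ∈ closure {z | h z < c} → y ∈ K₁ ∨ y ∈ K₂ := fun g => by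
        have : y ∈ closure (Z₁ ∪ Z₂) := closure_mono (fun z hz => cv z hz) g
        rw [closure_union] at this
        exact this.imp Or.inl Or.inl
      rcases hy.lt_or_eq with hy | hy
      · exact hcl (subset_closure hy)
      · rcases hloc y with g | ⟨-, g | g⟩
        · by_cases g3 : y ∈ M₁
          · exact Or.inl (Or.inr (Finset.mem_filter.2 ⟨g3, hy⟩))
          · exact Or.inr (Or.inr (Finset.mem_filter.2 ⟨Finset.mem_sdiff.2 ⟨g.1, g3⟩, hy⟩))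
        · exact hcl (hy ▸ g.1)
        · exact hcl (hy ▸ g.2.mem_closure)
    obtain ⟨V₁, V₂, v1, v2, s1, s2, vd⟩ := SeparatedNhds.of_isCompact_isCompact k1 k2 kd
    have hW : IsCompact ((V₁ ∪ V₂)ᶜ ∪ ↑(Mn.filter (fun y => c < h y))) :=
      (v1.union v2).isClosed_compl.isCompact.union (Finset.finite_toSet _).isCompact
    obtain ⟨d, hd, hdW⟩ : ∃ d, c < d ∧
        ∀ y ∈ ((V₁ ∪ V₂)ᶜ ∪ ↑(Mn.filter (fun y => c < h y)) : Set X), d ≤ h y := by
      rcases ((V₁ ∪ V₂)ᶜ ∪ ↑(Mn.filter (fun y => c < h y)) : Set X).eq_empty_or_nonempty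
        with e | e
      · exact ⟨c + 1, by linarith, fun y hy => absurd (e ▸ hy) (notMem_empty y)⟩
      · obtain ⟨y, hy, hmin⟩ := hW.exists_isMinOn e hh.continuousOn
        refine ⟨h y, ?_, fun z hz => hmin hz⟩
        rcases hy with hy | hy
        · by_contra hc
          exact hy ((kc y (not_lt.1 hc)).imp (fun g => s1 g) (fun g => s2 g))
        · exact (Finset.mem_filter.1 hy).2
    refine ⟨d, hd, fun a ha b hb hb' hc => ?_⟩
    have lev : ∀ y ∈ Mn, h y < d → h y ≤ c := fun y hy hyd => by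
      by_contra hc
      exact absurd (hdW y (Or.inr (Finset.mem_filter.2 ⟨hy, not_le.1 hc⟩))) (not_le.2 hyd)
    have a1 : a ∈ V₁ := by
      rcases (lev a (hM ha) (cc_base hc)).lt_or_eq with e | e
      · exact s1 (Or.inl (subset_closure (mem_iUnion₂.2 ⟨a, ha, cc_self e⟩)))
      · exact s1 (Or.inr (Finset.mem_filter.2 ⟨ha, e⟩))
    have b1 : b ∈ V₂ := by
      have hb2 := Finset.mem_sdiff.2 ⟨hb, hb'⟩
      rcases (lev b hb (cc_lt hc)).lt_or_eq with e | e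
      · exact s2 (Or.inl (subset_closure (mem_iUnion₂.2 ⟨b, hb2, cc_self e⟩)))
      · exact s2 (Or.inr (Finset.mem_filter.2 ⟨hb2, e⟩))
    obtain ⟨z, -, hz⟩ := (isPreconnected_connectedComponentIn (x := a) (F := {y | h y < d}))
      V₁ V₂ v1 v2
      (fun y hy => by
        by_contra hn
        exact absurd (hdW y (Or.inl hn)) (not_le.2 (cc_lt hy)))
      ⟨a, cc_self (cc_base hc), a1⟩ ⟨b, hc, b1⟩
    exact disjoint_left.1 vd hz.1 hz.2
  obtain ⟨lo, hlo⟩ := (isCompact_range hh).bddBelow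
  obtain ⟨hi, hhi⟩ := (isCompact_range hh).bddAbove
  have P0 : P lo := fun a _ b _ _ hc => absurd (hlo ⟨b, rfl⟩) (not_le.2 (cc_lt hc))
  have P1 : ¬ P (hi + 1) := fun H => H m₁ h1 m₂ h2 h3
    (isPreconnected_univ.subset_connectedComponentIn (mem_univ m₁)
      (fun y _ => by have := hhi ⟨y, rfl⟩; change h y < hi + 1; linarith) (mem_univ m₂))
  have hb : BddAbove {c | P c} :=
    ⟨hi + 1, fun c hc => not_lt.1 fun g => P1 (Pmono _ _ g.le hc)⟩
  have Ps : P (sSup {c | P c}) := Plim _ fun c' hc' => by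
    obtain ⟨d, g1, g2⟩ := exists_lt_of_lt_csSup (s := {c | P c}) ⟨lo, P0⟩ hc'
    exact Pmono _ _ g2.le g1
  obtain ⟨d, g1, g2⟩ := Pstep _ Ps
  exact absurd (le_csSup hb g2) (not_le.2 g1)

/-- on a connected space all local minima but one are paid for by merging points -/
theorem forest_lower [CompactSpace X] [T2Space X] [LocallyConnectedSpace X] [PreconnectedSpace X]
    {h : X → ℝ} (hh : Continuous h) (Mn Sd Sb : Finset X)
    (hloc : ∀ x, (x ∈ Mn ∧ IsLocalMin h x) ∨ (x ∉ Mn ∧ (One h x ∨ (x ∈ Sd ∧ Two h x))))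
    (hSb : ∀ p ∈ Sd, SubM h p → p ∈ Sb) : Mn.card ≤ Sb.card + 1 := by
  classical
  have main : ∀ k, k + 1 ≤ Mn.card → ∃ M₁ ⊆ Mn, ∃ E ⊆ Sb, M₁.card = k + 1 ∧ E.card = k ∧
      ∀ p ∈ E, Inside h M₁ p := by
    intro k
    induction k with
    | zero =>
      intro hk
      obtain ⟨m, hm⟩ := Finset.card_pos.1 hk
      exact ⟨{m}, by simpa using hm, ∅, by simp, by simp, by simp, by simp⟩
    | succ k ih =>
      intro hk
      obtain ⟨M₁, g1, E, g2, g3, g4, g5⟩ := ih (by omega)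
      obtain ⟨m₁, hm₁⟩ : M₁.Nonempty := Finset.card_pos.1 (by omega)
      obtain ⟨m₂, hm₂, hm₂'⟩ := Finset.exists_mem_notMem_of_card_lt_card (s := M₁) (t := Mn)
        (by omega)
      obtain ⟨p, p1, p2, p3, m, m1, m2, m3⟩ := crossing hh Mn Sd hloc M₁ g1 hm₁ hm₂ hm₂'
      have hpE : p ∉ E := fun hc => p3 (g5 p hc)
      refine ⟨insert m M₁, Finset.insert_subset m1 g1, insert p E,
        Finset.insert_subset (hSb p p1 p2) g2, by rw [Finset.card_insert_of_notMem m2, g3],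
        by rw [Finset.card_insert_of_notMem hpE, g4], fun q hq => ?_⟩
      rcases Finset.mem_insert.1 hq with e | e
      · exact e ▸ m3
      · intro a ha
        obtain ⟨m', k1, k2⟩ := g5 q e a ha
        exact ⟨m', Finset.mem_insert_of_mem k1, k2⟩
  rcases Nat.eq_zero_or_pos Mn.card with e | e
  · omega
  · obtain ⟨M₁, -, E, g2, -, g4, -⟩ := main (Mn.card - 1) (by omega)
    have := Finset.card_le_card g2
    omega

/-! ### Local models -/

/-- `ψ` parametrises a neighbourhood of `x`, and `h ∘ ψ = h x + Q` -/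
structure Par (h : X → ℝ) (x : X) (Q : ℝ × ℝ → ℝ) (ψ : ℝ × ℝ → X) (δ : ℝ) : Prop where
  pos : 0 < δ
  zero : ψ 0 = x
  cont : ContinuousOn ψ (ball 0 δ)
  inj : InjOn ψ (ball 0 δ)
  opn : ∀ W ⊆ ball 0 δ, IsOpen W → IsOpen (ψ '' W)
  val : ∀ u ∈ ball 0 δ, h (ψ u) = h x + Q u

/-- near `x` the function `h - h x` is `Q` in a topological chart -/
def Model (h : X → ℝ) (x : X) (Q : ℝ × ℝ → ℝ) : Prop := ∃ ψ δ, Par h x Q ψ δ

/-- regular point -/
def qReg (u : ℝ × ℝ) : ℝ := u.1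
/-- nondegenerate minimum -/
def qMin (u : ℝ × ℝ) : ℝ := u.1 ^ 2 + u.2 ^ 2
/-- nondegenerate maximum -/
def qMax (u : ℝ × ℝ) : ℝ := -(u.1 ^ 2 + u.2 ^ 2)
/-- saddle -/
def qSad (u : ℝ × ℝ) : ℝ := u.1 * u.2

theorem mem_sq {u : ℝ × ℝ} {δ : ℝ} : u ∈ ball (0 : ℝ × ℝ) δ ↔ |u.1| < δ ∧ |u.2| < δ := by
  simp [Prod.norm_def]

section par

variable {h : X → ℝ} {x : X} {Q : ℝ × ℝ → ℝ} {ψ : ℝ × ℝ → X} {δ : ℝ}

theorem Par.mono (H : Par h x Q ψ δ) {ε : ℝ} (h0 : 0 < ε) (h1 : ε ≤ δ) : Par h x Q ψ ε :=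
  have hs : ball (0 : ℝ × ℝ) ε ⊆ ball 0 δ := ball_subset_ball h1
  ⟨h0, H.zero, H.cont.mono hs, H.inj.mono hs, fun W hW => H.opn W (hW.trans hs),
    fun u hu => H.val u (hs hu)⟩

theorem Par.nhds (H : Par h x Q ψ δ) : ψ '' ball 0 δ ∈ 𝓝 x :=
  (H.opn _ subset_rfl isOpen_ball).mem_nhds ⟨0, mem_ball_self H.pos, H.zero⟩

theorem Par.small (H : Par h x Q ψ δ) {U : Set X} (hU : U ∈ 𝓝 x) :
    ∃ ε, Par h x Q ψ ε ∧ ψ '' ball 0 ε ⊆ U := by
  have hc : ContinuousAt ψ 0 := H.cont.continuousAt (ball_mem_nhds 0 H.pos)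
  obtain ⟨ε, h0, h1⟩ := Metric.mem_nhds_iff.1 (hc.preimage_mem_nhds (H.zero.symm ▸ hU))
  refine ⟨min ε δ, H.mono (lt_min h0 H.pos) (min_le_right _ _), ?_⟩
  rintro _ ⟨u, hu, rfl⟩
  exact h1 (ball_subset_ball (min_le_left _ _) hu)

theorem Par.mem_closure (H : Par h x Q ψ δ) {A : Set (ℝ × ℝ)} (hA : A ⊆ ball 0 δ) {u : ℝ × ℝ}
    (hu : u ∈ ball 0 δ) (h1 : u ∈ closure A) : ψ u ∈ closure (ψ '' A) :=
  ((H.cont u hu).mono hA).mem_closure_image h1

theorem Par.closure_mem (H : Par h x Q ψ δ) {C : Set X} {u : ℝ × ℝ} (hu : u ∈ ball 0 δ)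
    (h1 : ψ u ∈ closure C) : u ∈ closure {w | w ∈ ball 0 δ ∧ ψ w ∈ C} := by
  rw [_root_.mem_closure_iff]
  intro W hW huW
  obtain ⟨_, ⟨w, hw, rfl⟩, h2⟩ := mem_closure_iff.1 h1 _
    (H.opn (W ∩ ball 0 δ) inter_subset_right (hW.inter isOpen_ball)) ⟨u, ⟨huW, hu⟩, rfl⟩
  exact ⟨w, hw.1, hw.2, h2⟩

theorem Par.conn (H : Par h x Q ψ δ) {A : Set (ℝ × ℝ)} (hA : Convex ℝ A) :
    IsPreconnected (ψ '' (ball 0 δ ∩ A)) :=
  ((convex_ball 0 δ).inter hA).isPreconnected.image ψ (H.cont.mono inter_subset_left)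

theorem Par.inter_lt (H : Par h x Q ψ δ) :
    ψ '' ball 0 δ ∩ {y | h y < h x} = ψ '' (ball 0 δ ∩ {u | Q u < 0}) := by
  ext y
  constructor
  · rintro ⟨⟨u, hu, rfl⟩, h1⟩
    have h2 : h (ψ u) < h x := h1
    refine ⟨u, ⟨hu, ?_⟩, rfl⟩
    change Q u < 0
    linarith [H.val u hu]
  · rintro ⟨u, ⟨hu, h1⟩, rfl⟩
    have h2 : Q u < 0 := h1
    refine ⟨⟨u, hu, rfl⟩, ?_⟩
    change h (ψ u) < h x
    linarith [H.val u hu]

theorem Par.neg (H : Par h x Q ψ δ) {Q' : ℝ × ℝ → ℝ} (hQ : ∀ u, Q' u = -Q (-u.1, u.2)) :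
    Par (fun y => -h y) x Q' (fun u => ψ (-u.1, u.2)) δ := by
  let σ : ℝ × ℝ ≃ₜ ℝ × ℝ := (Homeomorph.neg ℝ).prodCongr (Homeomorph.refl ℝ)
  have hσ : ∀ u : ℝ × ℝ, σ u = (-u.1, u.2) := fun u => rfl
  have hm : MapsTo σ (ball 0 δ) (ball 0 δ) := fun u hu => by
    rw [hσ, mem_sq]; simpa using mem_sq.1 hu
  refine ⟨H.pos, by rw [← H.zero]; simp; rfl, H.cont.comp σ.continuous.continuousOn hm,
    H.inj.comp σ.injective.injOn hm, fun W hW hWo => ?_, fun u hu => ?_⟩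
  · have := H.opn (σ '' W) (by rintro _ ⟨u, hu, rfl⟩; exact hm (hW hu)) (σ.isOpenMap W hWo)
    rwa [image_image] at this
  · have := H.val _ (hm hu)
    rw [hσ] at this
    rw [this, hQ]; ring

end par

theorem mem_closure_ray {A : Set (ℝ × ℝ)} {δ : ℝ} {u : ℝ × ℝ} (hu : u ∈ ball (0 : ℝ × ℝ) δ)
    (w : ℝ × ℝ) (hA : ∀ t : ℝ, 0 < t → u + t • w ∈ A) : u ∈ closure (ball 0 δ ∩ A) := by
  have hc : Tendsto (fun t : ℝ => u + t • w) (𝓝[>] 0) (𝓝 u) := by
    have : Continuous fun t : ℝ => u + t • w := by fun_prop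
    simpa using (this.tendsto 0).mono_left nhdsWithin_le_nhds
  refine mem_closure_of_tendsto hc ?_
  filter_upwards [hc.eventually (isOpen_ball.mem_nhds hu), self_mem_nhdsWithin] with t h1 h2
  exact ⟨h1, hA t h2⟩

theorem convex_lt1 : Convex ℝ {u : ℝ × ℝ | u.1 < 0} :=
  convex_halfSpace_lt (LinearMap.fst ℝ ℝ ℝ).isLinear 0
theorem convex_gt1 : Convex ℝ {u : ℝ × ℝ | 0 < u.1} :=
  convex_halfSpace_gt (LinearMap.fst ℝ ℝ ℝ).isLinear 0
theorem convex_lt2 : Convex ℝ {u : ℝ × ℝ | u.2 < 0} :=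
  convex_halfSpace_lt (LinearMap.snd ℝ ℝ ℝ).isLinear 0
theorem convex_gt2 : Convex ℝ {u : ℝ × ℝ | 0 < u.2} :=
  convex_halfSpace_gt (LinearMap.snd ℝ ℝ ℝ).isLinear 0

section model

variable {h : X → ℝ} {x : X}

theorem Model.neg_reg (H : Model h x qReg) : Model (fun y => -h y) x qReg :=
  let ⟨_, δ, H⟩ := H; ⟨_, δ, H.neg fun u => by simp [qReg]⟩
theorem Model.neg_sad (H : Model h x qSad) : Model (fun y => -h y) x qSad :=
  let ⟨_, δ, H⟩ := H; ⟨_, δ, H.neg fun u => by simp [qSad]⟩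
theorem Model.neg_min (H : Model h x qMin) : Model (fun y => -h y) x qMax :=
  let ⟨_, δ, H⟩ := H; ⟨_, δ, H.neg fun u => by simp [qMin, qMax]⟩
theorem Model.neg_max (H : Model h x qMax) : Model (fun y => -h y) x qMin :=
  let ⟨_, δ, H⟩ := H; ⟨_, δ, H.neg fun u => by simp [qMin, qMax]⟩

theorem Model.isLocalMin (H : Model h x qMin) : IsLocalMin h x := by
  obtain ⟨ψ, δ, H⟩ := H
  filter_upwards [H.nhds]
  rintro _ ⟨u, hu, rfl⟩
  rw [H.val u hu, qMin]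
  nlinarith [sq_nonneg u.1, sq_nonneg u.2]

theorem Model.one_reg (H : Model h x qReg) : One h x := by
  obtain ⟨ψ, δ, H⟩ := H
  refine ⟨?_, _, H.nhds, H.inter_lt ▸ H.conn convex_lt1⟩
  have := H.mem_closure inter_subset_left (mem_ball_self H.pos)
    (mem_closure_ray (A := {u | qReg u < 0}) (mem_ball_self H.pos) (-1, 0)
      fun t ht => by simp [qReg, ht])
  rw [H.zero, ← H.inter_lt] at this
  exact closure_mono inter_subset_right this

theorem Model.one_max (H : Model h x qMax) : One h x := by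
  obtain ⟨ψ, δ, H⟩ := H
  have hδ := H.pos
  refine ⟨?_, _, H.nhds, ?_⟩
  · have := H.mem_closure inter_subset_left (mem_ball_self H.pos)
      (mem_closure_ray (A := {u | qMax u < 0}) (mem_ball_self H.pos) (1, 0)
        fun t ht => by simp [qMax]; positivity)
    rw [H.zero, ← H.inter_lt] at this
    exact closure_mono inter_subset_right this
  · have hb : ∀ a b : ℝ, |a| = δ / 2 → |b| = δ / 2 → (a, b) ∈ ball (0 : ℝ × ℝ) δ :=
      fun a b ha hb => mem_sq.2 ⟨by rw [ha]; linarith, by rw [hb]; linarith⟩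
    have e1 : |δ / 2| = δ / 2 := abs_of_pos (by linarith)
    have e2 : |-(δ / 2)| = δ / 2 := by rw [abs_neg, e1]
    have mi : ∀ (u : ℝ × ℝ) (A : Set (ℝ × ℝ)), u ∈ ball (0 : ℝ × ℝ) δ → u ∈ A →
        ψ u ∈ ψ '' (ball 0 δ ∩ A) := fun u A h1 h2 => ⟨u, ⟨h1, h2⟩, rfl⟩
    have c1 := (H.conn convex_gt1).union (ψ (δ / 2, δ / 2))
      (mi _ _ (hb _ _ e1 e1) (by simp [hδ])) (mi _ _ (hb _ _ e1 e1) (by simp [hδ]))
      (H.conn convex_gt2)
    have c2 := c1.union (ψ (-(δ / 2), δ / 2))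
      (Or.inr (mi _ _ (hb _ _ e2 e1) (by simp [hδ]))) (mi _ _ (hb _ _ e2 e1) (by simp [hδ]))
      (H.conn convex_lt1)
    have c3 := c2.union (ψ (-(δ / 2), -(δ / 2)))
      (Or.inr (mi _ _ (hb _ _ e2 e2) (by simp [hδ]))) (mi _ _ (hb _ _ e2 e2) (by simp [hδ]))
      (H.conn convex_lt2)
    rw [H.inter_lt]
    convert c3 using 1
    simp only [← image_union, ← inter_union_distrib_left]
    congr 2
    ext u
    simp only [qMax, mem_union, mem_ofPred_eq]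
    constructor
    · intro hu
      by_contra hc
      push Not at hc
      obtain ⟨⟨⟨h1, h2⟩, h3⟩, h4⟩ := hc
      rw [le_antisymm h1 h3, le_antisymm h2 h4] at hu
      simp at hu
    · rintro (((g | g) | g) | g) <;> nlinarith [sq_nonneg u.1, sq_nonneg u.2]

theorem Par.sad_lt {ψ : ℝ × ℝ → X} {δ : ℝ} (H : Par h x qSad ψ δ) :
    ψ '' ball 0 δ ∩ {y | h y < h x} = ψ '' (ball 0 δ ∩ ({u | 0 < u.1} ∩ {u | u.2 < 0})) ∪
      ψ '' (ball 0 δ ∩ ({u | u.1 < 0} ∩ {u | 0 < u.2})) := by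
  rw [H.inter_lt, ← image_union, ← inter_union_distrib_left]
  congr 2
  ext u
  simp [qSad, mul_neg_iff]

theorem Model.two (H : Model h x qSad) : Two h x := by
  obtain ⟨ψ, δ, H⟩ := H
  intro U hU
  obtain ⟨ε, H, hε⟩ := H.small hU
  refine ⟨_, H.nhds, hε, _, _, H.conn (convex_gt1.inter convex_lt2),
    H.conn (convex_lt1.inter convex_gt2), H.sad_lt, ?_, ?_⟩
  · exact H.zero ▸ H.mem_closure inter_subset_left (mem_ball_self H.pos)
      (mem_closure_ray (mem_ball_self H.pos) (1, -1) fun t ht => by simp [ht])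
  · exact H.zero ▸ H.mem_closure inter_subset_left (mem_ball_self H.pos)
      (mem_closure_ray (mem_ball_self H.pos) (-1, 1) fun t ht => by simp [ht])

/-- at a merging saddle, the component containing one sector meets the chart in this sector -/
theorem Par.sad_comp {ψ : ℝ × ℝ → X} {δ : ℝ} (H : Par h x qSad ψ δ) (hs : SubM h x) :
    ∃ a, ∀ u ∈ ball (0 : ℝ × ℝ) δ, ψ u ∈ cc h (h x) a ↔ 0 < u.1 ∧ u.2 < 0 := by
  have hδ := H.pos
  set A₁ := ψ '' (ball 0 δ ∩ ({u | 0 < u.1} ∩ {u | u.2 < 0})) with hA₁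
  set A₂ := ψ '' (ball 0 δ ∩ ({u | u.1 < 0} ∩ {u | 0 < u.2})) with hA₂
  have c1 : IsPreconnected A₁ := H.conn (convex_gt1.inter convex_lt2)
  have c2 : IsPreconnected A₂ := H.conn (convex_lt1.inter convex_gt2)
  have hU : ψ '' ball 0 δ ∩ {y | h y < h x} = A₁ ∪ A₂ := H.sad_lt
  have l1 : A₁ ⊆ {y | h y < h x} := fun y hy =>
    (hU ▸ Or.inl hy : y ∈ ψ '' ball 0 δ ∩ {y | h y < h x}).2
  have l2 : A₂ ⊆ {y | h y < h x} := fun y hy =>
    (hU ▸ Or.inr hy : y ∈ ψ '' ball 0 δ ∩ {y | h y < h x}).2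
  have m1 : ψ (δ / 2, -(δ / 2)) ∈ A₁ :=
    ⟨_, ⟨mem_sq.2 ⟨by rw [abs_of_pos] <;> linarith, by rw [abs_neg, abs_of_pos] <;> linarith⟩,
      by simp [hδ], by simp [hδ]⟩, rfl⟩
  have s1 : A₁ ⊆ cc h (h x) (ψ (δ / 2, -(δ / 2))) := c1.subset_connectedComponentIn m1 l1
  refine ⟨ψ (δ / 2, -(δ / 2)), fun u hu => ⟨fun hc => ?_, fun hc => s1 ⟨u, ⟨hu, hc⟩, rfl⟩⟩⟩
  have : ψ u ∈ A₁ ∪ A₂ := hU ▸ ⟨⟨u, hu, rfl⟩, cc_lt hc⟩
  rcases this with ⟨w, hw, e⟩ | g
  · exact H.inj hw.1 hu e ▸ hw.2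
  · exfalso
    have s2 : A₂ ⊆ cc h (h x) (ψ (δ / 2, -(δ / 2))) := subset_cc c2 l2 g hc
    obtain ⟨A, B, hA, hB, -, -, lA, lB, pA, pB, hAB⟩ := hs _ H.nhds
    obtain ⟨a, ha⟩ : A.Nonempty := closure_nonempty_iff.1 ⟨x, pA⟩
    obtain ⟨b, hb⟩ : B.Nonempty := closure_nonempty_iff.1 ⟨x, pB⟩
    have a1 : a ∈ A₁ ∪ A₂ := hU ▸ ⟨hA ha, lA ha⟩
    have b1 : b ∈ A₁ ∪ A₂ := hU ▸ ⟨hB hb, lB hb⟩
    exact hAB a ha b hb (cc_trans (cc_symm (union_subset s1 s2 a1)) (union_subset s1 s2 b1))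

theorem Par.sad_closure {ψ : ℝ × ℝ → X} {δ : ℝ} (H : Par h x qSad ψ δ) (hs : SubM h x) :
    ∃ a, ∀ u ∈ ball (0 : ℝ × ℝ) δ, ψ u ∈ closure (cc h (h x) a) ↔ 0 ≤ u.1 ∧ u.2 ≤ 0 := by
  obtain ⟨a, ha⟩ := H.sad_comp hs
  refine ⟨a, fun u hu => ⟨fun hc => ?_, fun hc => ?_⟩⟩
  · have hcl : IsClosed {w : ℝ × ℝ | 0 ≤ w.1 ∧ w.2 ≤ 0} :=
      (isClosed_le continuous_const continuous_fst).inter
        (isClosed_le continuous_snd continuous_const)
    exact closure_minimal (t := {w : ℝ × ℝ | 0 ≤ w.1 ∧ w.2 ≤ 0})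
      (fun w hw => ⟨((ha w hw.1).1 hw.2).1.le, ((ha w hw.1).1 hw.2).2.le⟩)
      hcl (H.closure_mem hu hc)
  · refine closure_mono ?_ (H.mem_closure inter_subset_left hu
      (mem_closure_ray (A := {w | 0 < w.1 ∧ w.2 < 0}) hu (1, -1) fun t ht => ?_))
    · rintro _ ⟨w, hw, rfl⟩
      exact (ha w hw.1).2 hw.2
    · constructor
      · simp; linarith [hc.1]
      · simp; linarith [hc.2]

/-- at a regular point in the closure of a component, the level set is in this closure -/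
theorem Par.reg_closure {ψ : ℝ × ℝ → X} {δ : ℝ} (H : Par h x qReg ψ δ) {a : X}
    (hx : x ∈ closure (cc h (h x) a)) {u : ℝ × ℝ} (hu : u ∈ ball (0 : ℝ × ℝ) δ) (h0 : u.1 = 0) :
    ψ u ∈ closure (cc h (h x) a) := by
  obtain ⟨z, z1, z2⟩ := mem_closure_iff_nhds.1 hx _ H.nhds
  have hL : IsPreconnected (ψ '' ball 0 δ ∩ {y | h y < h x}) := H.inter_lt ▸ H.conn convex_lt1
  refine closure_mono (subset_cc hL inter_subset_right ⟨z1, cc_lt z2⟩ z2) ?_
  rw [H.inter_lt]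
  exact H.mem_closure inter_subset_left hu
    (mem_closure_ray hu (-1, 0) fun t ht => by simp [qReg, h0, ht])

end model

/-- a saddle which is alone on its level does not merge both sublevel and superlevel components -/
theorem not_both [CompactSpace X] [T2Space X] {h : X → ℝ} (hh : Continuous h) {p : X}
    (hp : Model h p qSad)
    (hl : ∀ y, h y = h p → y ≠ p → Model h y qReg ∨ Model h y qMin ∨ Model h y qMax)
    (h1 : SubM h p) (h2 : SubM (fun y => -h y) p) : False := by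
  obtain ⟨ψ, δ, H⟩ := hp
  have hδ := H.pos
  obtain ⟨a, ha⟩ := H.sad_closure h1
  obtain ⟨b, hb⟩ := (H.neg (Q' := qSad) fun u => by simp [qSad]).sad_closure h2
  set C := closure (cc h (h p) a) with hC
  set D := closure (cc (fun y => -h y) (-h p) b) with hD
  have hb' : ∀ u ∈ ball (0 : ℝ × ℝ) δ, ψ u ∈ D ↔ u.1 ≤ 0 ∧ u.2 ≤ 0 := fun u hu => by
    have := hb (-u.1, u.2) (by rw [mem_sq]; simpa using mem_sq.1 hu)
    simpa using this
  have hY : ∀ u ∈ ball (0 : ℝ × ℝ) δ, ψ u ∈ C ∩ D ↔ u.1 = 0 ∧ u.2 ≤ 0 := fun u hu => by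
    rw [mem_inter_iff, ha u hu, hb' u hu]
    exact ⟨fun g => ⟨le_antisymm g.2.1 g.1.1, g.1.2⟩,
      fun g => ⟨⟨g.1.ge, g.2⟩, g.1.le, g.2⟩⟩
  have lC : C ⊆ closure {y | h y < h p} := closure_mono fun _ hy => cc_lt hy
  have lD : D ⊆ closure {y | -h y < -h p} :=
    closure_mono fun _ hy => cc_lt (h := fun y => -h y) hy
  have lev : ∀ y ∈ C ∩ D, h y = h p := fun y hy => by
    have g1 : h y ≤ h p := closure_minimal (fun z (hz : h z < h p) => (hz.le : h z ≤ h p))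
      (isClosed_le hh continuous_const) (lC hy.1)
    have g2 : -h y ≤ -h p := closure_minimal (fun z (hz : -h z < -h p) => (hz.le : -h z ≤ -h p))
      (isClosed_le hh.neg continuous_const) (lD hy.2)
    linarith
  set γ : ℝ → X := fun s => ψ (0, -s) with hγ
  have gb : ∀ s ∈ Ico 0 δ, ((0 : ℝ), -s) ∈ ball (0 : ℝ × ℝ) δ := fun s hs =>
    mem_sq.2 ⟨by simpa using hδ, by rw [abs_neg, abs_of_nonneg hs.1]; exact hs.2⟩
  have gY : ∀ s ∈ Ico 0 δ, γ s ∈ C ∩ D := fun s hs =>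
    (hY _ (gb s hs)).2 ⟨rfl, by simpa using hs.1⟩
  have gc : ContinuousOn γ (Ico 0 δ) := H.cont.comp (by fun_prop) gb
  have gi : InjOn γ (Ico 0 δ) := fun s hs t ht e => by
    simpa using H.inj (gb s hs) (gb t ht) e
  have hm : δ / 2 ∈ Ico 0 δ := ⟨by linarith, by linarith⟩
  have s1 : Ico 0 (δ / 2) ⊆ Ico 0 δ := Ico_subset_Ico_right (by linarith)
  have s2 : Icc 0 (δ / 2) ⊆ Ico 0 δ := Icc_subset_Ico_right (by linarith)
  have s3 : Ioo (δ / 2) δ ⊆ Ico 0 δ := fun s hs => ⟨by linarith [hs.1], hs.2⟩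
  refine one_end (Y := C ∩ D) (O := γ '' Ico 0 (δ / 2)) (x := γ (δ / 2))
    (isClosed_closure.inter isClosed_closure).isCompact
    ⟨⟨ψ '' ball 0 (δ / 2), H.opn _ (ball_subset_ball (by linarith)) isOpen_ball, ?_⟩, ?_,
      gY _ hm, ?_, ?_, ?_⟩ ?_
  · ext y
    constructor
    · rintro ⟨s, hs, rfl⟩
      refine ⟨⟨_, mem_sq.2 ⟨by simpa using hδ, ?_⟩, rfl⟩, gY s (s1 hs)⟩
      rw [abs_neg, abs_of_nonneg hs.1]; exact hs.2
    · rintro ⟨⟨u, hu, rfl⟩, hy⟩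
      obtain ⟨g1, g2⟩ := (hY u (ball_subset_ball (by linarith) hu)).1 hy
      refine ⟨-u.2, ⟨by linarith, ?_⟩, ?_⟩
      · linarith [neg_abs_le u.2, (mem_sq.1 hu).2]
      · simp only [hγ, neg_neg, ← g1]
  · refine (closure_minimal (image_mono Ico_subset_Icc_self)
      (isCompact_Icc.image_of_continuousOn (gc.mono s2)).isClosed).trans ?_
    rintro _ ⟨s, hs, rfl⟩
    rcases hs.2.eq_or_lt with e | e
    · exact Or.inl (by rw [e])
    · exact Or.inr ⟨s, ⟨hs.1, e⟩, rfl⟩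
  · rintro ⟨s, hs, e⟩
    exact hs.2.ne (gi (s1 hs) hm e)
  · refine ((gc _ hm).mono s1).mem_closure_image ?_
    rw [closure_Ico (by linarith)]
    exact ⟨by linarith, le_rfl⟩
  · refine closure_mono ?_ (((gc _ hm).mono s3).mem_closure_image ?_)
    · rintro _ ⟨s, hs, rfl⟩
      refine ⟨gY s (s3 hs), ?_⟩
      rintro (e | ⟨t, ht, e⟩)
      · exact hs.1.ne' (gi (s3 hs) hm e)
      · have := gi (s1 ht) (s3 hs) e
        linarith [hs.1, ht.2]
    · rw [closure_Ioo (by linarith)]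
      exact ⟨le_rfl, by linarith⟩
  · intro y hy hyO
    have hyp : y ≠ p := fun e => hyO ⟨0, ⟨le_rfl, by linarith⟩, by simp [hγ, e, ← H.zero]; rfl⟩
    have hc := lev y hy
    rcases hl y hc hyp with ⟨φ, ε, G⟩ | G | G
    · have G' := G.neg (Q' := qReg) fun u => by simp [qReg]
      have fb : ∀ s ∈ Ioo (-ε) ε, ((0 : ℝ), s) ∈ ball (0 : ℝ × ℝ) ε := fun s hs =>
        mem_sq.2 ⟨by simpa using G.pos, abs_lt.2 hs⟩
      refine ⟨fun s => φ (0, s), ε, ⟨G.pos, G.cont.comp (by fun_prop) fb,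
        fun s hs t ht e => by simpa using G.inj (fb s hs) (fb t ht) e, fun W hW hWo => ?_⟩, G.zero⟩
      refine ⟨φ '' (ball 0 ε ∩ Prod.snd ⁻¹' W),
        G.opn _ inter_subset_left (isOpen_ball.inter (hWo.preimage continuous_snd)), ?_⟩
      ext z
      constructor
      · rintro ⟨s, hs, rfl⟩
        refine ⟨⟨(0, s), ⟨fb s (hW hs), hs⟩, rfl⟩, ?_, ?_⟩
        · have := G.reg_closure (a := a) (hc.symm ▸ hy.1) (fb s (hW hs)) rfl
          rwa [hc] at this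
        · have := G'.reg_closure (a := b) (by simpa only [hc] using hy.2) (fb s (hW hs)) rfl
          simpa only [hc, neg_zero] using this
      · rintro ⟨⟨u, hu, rfl⟩, hz⟩
        have g1 := lev _ hz
        have g2 : u.1 = 0 := by
          have := G.val u hu.1
          rw [qReg] at this
          linarith
        exact ⟨u.2, hu.2, by simp only [← g2]⟩
    · exact (One.not_isLocalMin (hc.symm ▸ lC hy.1) G.isLocalMin).elim
    · exact (One.not_isLocalMin (h := fun y => -h y) (by simpa only [hc] using lD hy.2)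
        G.neg_max.isLocalMin).elim

/-- **Counting saddles.** -/
theorem top_count [CompactSpace X] [T2Space X] [PreconnectedSpace X] {h f g : X → ℝ}
    (hh : Continuous h) (hf : Continuous f) (hg : Continuous g) (Mn Mx Sd S P Q : Finset X)
    (hMn : ∀ x ∈ Mn, Model h x qMin) (hMx : ∀ x ∈ Mx, Model h x qMax)
    (hSd : ∀ x ∈ Sd, Model h x qSad) (hreg : ∀ x, x ∉ Mn → x ∉ Mx → x ∉ Sd → Model h x qReg)
    (hinj : InjOn h Sd) (hS : S ⊆ Sd) (hhf : ∀ y, h y ≤ f y) (hhg : ∀ y, -h y ≤ g y)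
    (hfe : ∀ p ∈ S, f =ᶠ[𝓝 p] h) (hge : ∀ p ∈ S, g =ᶠ[𝓝 p] fun y => -h y)
    (hP : ∀ x, IsLocalMin f x → (∃ p ∈ S, f x < h p) → x ∈ P)
    (hQ : ∀ x, IsLocalMin g x → (∃ p ∈ S, g x < -h p) → x ∈ Q) :
    S.card + Mn.card + Mx.card ≤ P.card + Q.card + Sd.card + 2 := by
  classical
  have hall : ∀ x, ∃ Q, Model h x Q := fun x => by
    by_cases g1 : x ∈ Mn
    · exact ⟨_, hMn x g1⟩
    by_cases g2 : x ∈ Mx
    · exact ⟨_, hMx x g2⟩
    by_cases g3 : x ∈ Sd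
    · exact ⟨_, hSd x g3⟩
    exact ⟨_, hreg x g1 g2 g3⟩
  have : LocallyConnectedSpace X := locallyConnectedSpace_iff_connected_subsets.2 fun x U hU => by
    obtain ⟨Q, ψ, δ, H⟩ := hall x
    obtain ⟨ε, H, hε⟩ := H.small hU
    exact ⟨_, H.nhds, by simpa using H.conn convex_univ, hε⟩
  set Sb := Sd.filter (SubM h) with hSb
  set Sp := Sd.filter (SubM fun y => -h y) with hSp
  have l1 : Mn.card ≤ Sb.card + 1 := forest_lower hh Mn Sd Sb (fun x => by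
    by_cases g1 : x ∈ Mn
    · exact Or.inl ⟨g1, (hMn x g1).isLocalMin⟩
    refine Or.inr ⟨g1, ?_⟩
    by_cases g2 : x ∈ Mx
    · exact Or.inl (hMx x g2).one_max
    by_cases g3 : x ∈ Sd
    · exact Or.inr ⟨g3, (hSd x g3).two⟩
    exact Or.inl (hreg x g1 g2 g3).one_reg) fun p h1 h2 => Finset.mem_filter.2 ⟨h1, h2⟩
  have l2 : Mx.card ≤ Sp.card + 1 := forest_lower hh.neg Mx Sd Sp (fun x => by
    by_cases g1 : x ∈ Mx
    · exact Or.inl ⟨g1, (hMx x g1).neg_max.isLocalMin⟩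
    refine Or.inr ⟨g1, ?_⟩
    by_cases g2 : x ∈ Mn
    · exact Or.inl (hMn x g2).neg_min.one_max
    by_cases g3 : x ∈ Sd
    · exact Or.inr ⟨g3, (hSd x g3).neg_sad.two⟩
    exact Or.inl (hreg x g2 g1 g3).neg_reg.one_reg) fun p h1 h2 => Finset.mem_filter.2 ⟨h1, h2⟩
  have dj : Disjoint Sb Sp := Finset.disjoint_left.2 fun p h1 h2 => by
    obtain ⟨g1, g2⟩ := Finset.mem_filter.1 h1
    refine not_both hh (hSd p g1) (fun y hy hne => ?_) g2 (Finset.mem_filter.1 h2).2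
    by_cases k1 : y ∈ Mn
    · exact Or.inr (Or.inl (hMn y k1))
    by_cases k2 : y ∈ Mx
    · exact Or.inr (Or.inr (hMx y k2))
    exact Or.inl (hreg y k1 k2 fun k3 => hne (hinj k3 g1 hy))
  have u1 : (S ∩ Sb).card ≤ P.card := by
    have e : ∀ p ∈ S ∩ Sb, f p = h p := fun p hp => (hfe p (Finset.mem_inter.1 hp).1).eq_of_nhds
    refine forest_upper hf _ P (fun p hp q hq hpq => ?_) (fun p hp => ?_) fun x h1 h2 => ?_
    · exact hinj (hS (Finset.mem_inter.1 hp).1) (hS (Finset.mem_inter.1 hq).1)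
        (by rw [← e p hp, ← e q hq, hpq])
    · obtain ⟨g1, g2⟩ := Finset.mem_inter.1 hp
      exact (Finset.mem_filter.1 g2).2.transfer hhf (hfe p g1)
    · obtain ⟨p, g1, g2⟩ := h2
      exact hP x h1 ⟨p, (Finset.mem_inter.1 g1).1, e p g1 ▸ g2⟩
  have u2 : (S ∩ Sp).card ≤ Q.card := by
    have e : ∀ p ∈ S ∩ Sp, g p = -h p := fun p hp => (hge p (Finset.mem_inter.1 hp).1).eq_of_nhds
    refine forest_upper hg _ Q (fun p hp q hq hpq => ?_) (fun p hp => ?_) fun x h1 h2 => ?_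
    · exact hinj (hS (Finset.mem_inter.1 hp).1) (hS (Finset.mem_inter.1 hq).1)
        (by linarith [e p hp, e q hq])
    · obtain ⟨g1, g2⟩ := Finset.mem_inter.1 hp
      exact (Finset.mem_filter.1 g2).2.transfer hhg (hge p g1)
    · obtain ⟨p, g1, g2⟩ := h2
      exact hQ x h1 ⟨p, (Finset.mem_inter.1 g1).1, e p g1 ▸ g2⟩
  have c1 : S.card ≤ (S ∩ Sb).card + (S ∩ Sp).card + (Sd \ (Sb ∪ Sp)).card := by
    refine (Finset.card_le_card (t := (S ∩ Sb ∪ S ∩ Sp) ∪ Sd \ (Sb ∪ Sp)) fun p hp => ?_).trans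
      ((Finset.card_union_le _ _).trans (Nat.add_le_add_right (Finset.card_union_le _ _) _))
    have := hS hp
    simp only [Finset.mem_union, Finset.mem_inter, Finset.mem_sdiff]
    tauto
  have c2 : (Sd \ (Sb ∪ Sp)).card + (Sb ∪ Sp).card = Sd.card :=
    Finset.card_sdiff_add_card_eq_card
      (Finset.union_subset (Finset.filter_subset _ _) (Finset.filter_subset _ _))
  have c3 := Finset.card_union_of_disjoint dj
  omega

end Vale.Agent.P218F.Lgb
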