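import Vale.Agent.P277Z.Hir.All

/-!
# P218F, block LOJ: the resolution principle for a family of holomorphic germs
-/

open Filter Topology Set Metric Function

noncomputable section

namespace Vale.Agent.P218F.Loj

open Vale.Agent.P277Z.Hir Vale.Agent.P277

variable {n m : ℕ}

/-- holomorphic functions on a ball -/
def HolB (r : ℝ) (g : ball (0 : Fin n → ℂ) r → ℂ) (x : ball (0 : Fin n → ℂ) r) : Prop :=
  ∃ G : (Fin n → ℂ) → ℂ, AnalyticAt ℂ G x.1 ∧ g =ᶠ[𝓝 x] G ∘ Subtype.val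

/-- a ball with a family of holomorphic functions, as a base of the resolution theorem -/
def baseB (r : ℝ) (f : Fin m → (Fin n → ℂ) → ℂ)
    (hf : ∀ k, ∀ x ∈ ball (0 : Fin n → ℂ) r, AnalyticAt ℂ (f k) x) : Base where
  X := ball (0 : Fin n → ℂ) r
  lc := isOpen_ball.locallyCompactSpace
  Hol := HolB r
  comp := by
    intro x ι _ g G F hg hG hF
    choose H hH hH' using hg
    have h1 : ∀ᶠ y in 𝓝 x, ∀ l, g y l = H l y.1 := eventually_all.2 hH'
    refine ⟨fun z => G fun l => H l z, ?_, ?_⟩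
    · exact hG.comp_of_eq (AnalyticAt.pi hH) (funext fun l => (h1.self_of_nhds l).symm)
    · filter_upwards [h1, hF] with y hy hy'
      rw [hy']
      exact congrArg G (funext hy)
  cont := by
    rintro g x ⟨G, hG, h⟩
    exact (hG.continuousAt.comp continuous_subtype_val.continuousAt).congr h.symm
  ev := by
    rintro g x ⟨G, hG, h⟩
    filter_upwards [continuous_subtype_val.continuousAt.eventually hG.eventually_analyticAt,
      h.eventually_nhds] with y h1 h2 using ⟨G, h1, h2⟩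
  Bad := {x | ∀ k, f k x.1 = 0}
  closed := by
    rw [ofPred_forall]
    refine isClosed_iInter fun k => isClosed_eq ?_ continuous_const
    exact continuous_iff_continuousAt.2 fun x =>
      (hf k x.1 x.2).continuousAt.comp continuous_subtype_val.continuousAt
  Γ := Unit
  XO := fun _ => univ
  isOpen := fun _ => isOpen_univ
  cover := fun _ => ⟨(), trivial⟩
  m := fun _ => m
  f := fun _ k x => f k x.1
  hol := fun _ k x _ => ⟨f k, hf k x.1 x.2, EventuallyEq.rfl⟩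
  zero := fun _ _ _ => Iff.rfl
  cpb := fun _ _ _ _ _ => ⟨1, one_pos, Eventually.of_forall fun _ => by simp⟩

theorem isModel_ball (r : ℝ) : IsModel (HolB (n := n) r) univ (ball 0 r)
    (Fin.elim0 : Fin 0 → (Fin n → ℂ) → ℂ) Subtype.val where
  isOpen := isOpen_univ
  isOpen' := isOpen_ball
  holo := fun i => i.elim0
  image := by
    ext z
    simp
  emb := IsEmbedding.subtypeVal.comp IsEmbedding.subtypeVal
  hol := fun _ _ _ => Iff.rfl

theorem baseB_sp {r : ℝ} (hr : 0 < r) {f : Fin m → (Fin n → ℂ) → ℂ}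
    (hf : ∀ k, ∀ x ∈ ball (0 : Fin n → ℂ) r, AnalyticAt ℂ (f k) x)
    (hne : ∃ k, ¬ f k =ᶠ[𝓝 0] 0) : (baseB r f hf).Sp n where
  model := fun _ => ⟨n, 0, univ, ball 0 r, Fin.elim0, Subtype.val, trivial, isModel_ball r⟩
  reg := fun _ _ => ⟨univ, ball 0 r, Fin.elim0, Subtype.val, trivial, isModel_ball r⟩
  dense := by
    obtain ⟨k, hk⟩ := hne
    rw [← interior_eq_empty_iff_dense_compl]
    refine eq_empty_of_forall_notMem fun x hx => hk ?_
    have h1 : ∀ᶠ y in 𝓝 x, f k y.1 = 0 :=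
      mem_of_superset (mem_interior_iff_mem_nhds.1 hx) fun y hy => hy k
    have h2 : f k =ᶠ[𝓝 x.1] 0 := by
      rw [← isOpen_ball.isOpenEmbedding_subtypeVal.map_nhds_eq x]
      exact h1
    have h3 := AnalyticOnNhd.eqOn_zero_of_preconnected_of_eventuallyEq_zero (hf k)
      (convex_ball 0 r).isPreconnected x.2 h2
    filter_upwards [ball_mem_nhds 0 hr] with y hy using h3 hy

/-- **Resolution principle.** A property `Q` of sets, stable under subsets and finite unions, which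
holds for the images of small neighbourhoods under holomorphic maps which make the family `f`
monomial, holds for a neighbourhood of `0` minus the common zeros of the family. -/
theorem resolve (hn : 1 ≤ n) {f : Fin m → (Fin n → ℂ) → ℂ} (hf : ∀ k, AnalyticAt ℂ (f k) 0)
    (hne : ∃ k, ¬ f k =ᶠ[𝓝 0] 0) (Q : Set (Fin n → ℂ) → Prop) (empty : Q ∅)
    (mono : ∀ ⦃s t⦄, s ⊆ t → Q t → Q s) (union : ∀ ⦃s t⦄, Q s → Q t → Q (s ∪ t))
    (hloc : ∀ (p : (Fin n → ℂ) → Fin n → ℂ) (z₀ : Fin n → ℂ) (e : Fin n → ℕ) (C : ℝ),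
      AnalyticAt ℂ p z₀ → p z₀ = 0 → 0 < C →
      (∀ᶠ z in 𝓝 z₀, ∑ k, ‖f k (p z)‖ ≤ C * ‖∏ i, z i ^ e i‖ ∧
        ‖∏ i, z i ^ e i‖ ≤ C * ∑ k, ‖f k (p z)‖) → ∃ U ∈ 𝓝 z₀, Q (p '' U)) :
    ∃ W ∈ 𝓝 (0 : Fin n → ℂ), Q (W ∩ {x | ∃ k, f k x ≠ 0}) := by
  obtain ⟨r, hr, hf'⟩ := Metric.eventually_nhds_iff_ball.1
    (eventually_all.2 fun k => (hf k).eventually_analyticAt)
  have hf2 : ∀ k, ∀ x ∈ ball (0 : Fin n → ℂ) r, AnalyticAt ℂ (f k) x := fun k x hx => hf' x hx k
  set S := baseB r f hf2 with hS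
  let x₀ : S.X := ⟨0, mem_ball_self hr⟩
  obtain ⟨R⟩ := stMain S n {x₀} hn (baseB_sp hr hf2 hne) isCompact_singleton
  let := R.top
  let := R.cs
  have hP : IsCompact (R.π ⁻¹' {x₀}) := R.proper _ R.sub isCompact_singleton
  let val : S.X → Fin n → ℂ := Subtype.val
  have key : ∃ U, IsOpen U ∧ R.π ⁻¹' {x₀} ⊆ U ∧ Q ((fun y => val (R.π y)) '' U) := by
    refine hP.induction_on (p := fun s => ∃ U, IsOpen U ∧ s ⊆ U ∧ Q ((fun y => val (R.π y)) '' U))
      ⟨∅, isOpen_empty, subset_rfl, by rw [image_empty]; exact empty⟩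
      (fun s t hst ⟨U, h1, h2, h3⟩ => ⟨U, h1, hst.trans h2, h3⟩)
      (fun s t ⟨U, h1, h2, h3⟩ ⟨V, h4, h5, h6⟩ => ⟨U ∪ V, h1.union h4, union_subset_union h2 h5,
        by rw [image_union]; exact union h3 h6⟩) fun y hy => ?_
    set c := chartAt (Fin n → ℂ) y with hc
    have hy' : y ∈ c.source := mem_chart_source _ y
    have han : AnalyticAt ℂ (fun z => val (R.π (c.symm z))) (c y) := by
      refine AnalyticAt.pi fun i => R.hol y (fun x => val x i) ⟨fun z => z i, ?_, EventuallyEq.rfl⟩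
      exact (ContinuousLinearMap.proj (R := ℂ) (φ := fun _ : Fin n => ℂ) i).analyticAt _
    obtain ⟨e, -, C, hC, h⟩ := R.prin y () trivial
    have ht : Tendsto c.symm (𝓝 (c y)) (𝓝 y) := c.tendsto_symm hy'
    obtain ⟨U, hU, hQ⟩ := hloc (fun z => val (R.π (c.symm z))) (c y) e C han
      (by
        simp only [c.left_inv hy']
        rw [show R.π y = x₀ from hy])
      hC
      (by
        filter_upwards [ht.eventually h, c.open_target.mem_nhds (c.map_source hy')] with z h1 h2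
        rw [← hc, c.right_inv h2] at h1
        exact h1)
    have hU' : c.source ∩ c ⁻¹' U ∈ 𝓝 y :=
      inter_mem (c.open_source.mem_nhds hy') (c.continuousAt hy' hU)
    refine ⟨interior (c.source ∩ c ⁻¹' U), mem_nhdsWithin_of_mem_nhds (interior_mem_nhds.2 hU'),
      _, isOpen_interior, subset_rfl, mono ?_ hQ⟩
    rintro _ ⟨y', h1, rfl⟩
    have h2 := interior_subset h1
    exact ⟨c y', h2.2, by simp only [c.left_inv h2.1]⟩
  obtain ⟨U, hU, hPU, hQ⟩ := key
  obtain ⟨L, hL, hLO, hLc⟩ := local_compact_nhds (R.isOpen.mem_nhds (R.sub rfl))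
  have h1 : IsClosed (R.π '' (R.π ⁻¹' L \ U)) :=
    (((R.proper L hLO hLc).diff hU).image R.cont).isClosed
  have h2 : L ∩ (R.π '' (R.π ⁻¹' L \ U))ᶜ ∈ 𝓝 x₀ := by
    refine inter_mem hL (h1.isOpen_compl.mem_nhds ?_)
    rintro ⟨y, hy, hy'⟩
    exact hy.2 (hPU hy')
  refine ⟨val '' (L ∩ (R.π '' (R.π ⁻¹' L \ U))ᶜ),
    isOpen_ball.isOpenEmbedding_subtypeVal.image_mem_nhds.2 h2, mono ?_ hQ⟩
  rintro _ ⟨⟨x, hx, rfl⟩, k, hk⟩
  obtain ⟨y, rfl⟩ := R.surj x (hLO hx.1) fun h => hk (h k)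
  by_contra h3
  exact hx.2 ⟨y, ⟨hx.1, fun h4 => h3 ⟨y, h4, rfl⟩⟩, rfl⟩

end Vale.Agent.P218F.Loj
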