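import Vale.Agent.P218F.MeshSpec
import Vale.Agent.P218FT.Chart
import Vale.Agent.P218FT.WGeo

/-! The static graph lemma: a surface with a two-point bound is a graph over a disc of definite
size in each tangent plane. -/

open MeasureTheory Set Filter Topology Metric
open scoped ENNReal NNReal RealInnerProductSpace ContDiff

namespace Vale.Agent.P218F.Mesh

open Vale.Agent.P218FT
open Vale.Agent.P218FT.Chart (E2 Frame gr jac IsChart)

variable {N : Set E3} {x n : E3} {J : E2 →L[ℝ] E3} {pr : E3 →L[ℝ] E2} {h : E2 → ℝ} {δ C r₀ : ℝ}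

lemma inner_split (F : Frame n J pr) (v w : E3) :
    ⟪v, w⟫ = ⟪pr v, pr w⟫ + ⟪n, v⟫ * ⟪n, w⟫ := by
  conv_lhs => rw [← F.decomp w]
  rw [inner_add_right, F.adj, inner_smul_right, real_inner_comm n v, mul_comm]

/-- `N` is, near `x`, the graph of `h` over the disc of radius `δ` -/
structure Disc (N : Set E3) (x n : E3) (J : E2 →L[ℝ] E3) (pr : E3 →L[ℝ] E2) (h : E2 → ℝ)
    (δ : ℝ) : Prop where
  frame : Frame n J pr
  smooth : ∀ u ∈ ball (pr x) δ, ContDiffAt ℝ ∞ h u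
  mem : ∀ u ∈ ball (pr x) δ, gr n J h u ∈ N
  near : ∀ u ∈ ball (pr x) δ, ‖gr n J h u - x‖ ≤ 11 / 10 * ‖u - pr x‖
  jac_le : ∀ u ∈ ball (pr x) δ, jac h u ≤ 2
  tang : ∀ u ∈ ball (pr x) δ, ∀ v, ⟪nu N (gr n J h u), J v + fderiv ℝ h u v • n⟫ = 0
  onto : ∀ y ∈ N, ‖y - x‖ < δ → gr n J h (pr y) = y

/-- the hypotheses of the graph lemma -/
structure Hyp (N : Set E3) (x : E3) (J : E2 →L[ℝ] E3) (pr : E3 →L[ℝ] E2) (δ C r₀ : ℝ) : Prop where
  surf : IsSurf N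
  mem : x ∈ N
  frame : Frame (nu N x) J pr
  pos : 0 < δ
  nonneg : 0 ≤ C
  small : C * δ ≤ 1 / 20
  rad : 4 * δ ≤ r₀
  tp : ∀ y ∈ N, ‖y - x‖ ≤ 2 * δ → TwoPt N y r₀ C

namespace Hyp

lemma norm_le (H : Hyp N x J pr δ C r₀) {v : E3} (h1 : ‖pr v‖ ≤ δ) (h2 : |⟪nu N x, v⟫| ≤ δ) :
    ‖v‖ ≤ 2 * δ := by
  have h3 := H.frame.norm_sq_eq v
  have h4 : ‖pr v‖ ^ 2 ≤ δ ^ 2 := pow_le_pow_left₀ (norm_nonneg _) h1 2
  have h5 : ⟪nu N x, v⟫ ^ 2 ≤ δ ^ 2 := by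
    rw [← sq_abs]; exact pow_le_pow_left₀ (abs_nonneg _) h2 2
  have := H.pos
  exact (pow_le_pow_iff_left₀ (norm_nonneg _) (by positivity) two_ne_zero).1 (by nlinarith)

lemma height (H : Hyp N x J pr δ C r₀) {y : E3} (hy : y ∈ N) (h1 : ‖pr (y - x)‖ ≤ δ)
    (h2 : |⟪nu N x, y - x⟫| ≤ δ) : |⟪nu N x, y - x⟫| ≤ 2 * C * ‖pr (y - x)‖ ^ 2 := by
  have hp := H.pos
  have h3 := H.tp x H.mem (by rw [sub_self, norm_zero]; positivity) y hy
    (by linarith [H.norm_le h1 h2, H.rad])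
  rw [real_inner_comm, H.frame.norm_sq_eq, ← sq_abs ⟪nu N x, y - x⟫] at h3
  have h4 : C * |⟪nu N x, y - x⟫| ≤ 1 / 20 :=
    (mul_le_mul_of_nonneg_left h2 H.nonneg).trans H.small
  have h5 := abs_nonneg ⟪nu N x, y - x⟫
  have h6 : 0 ≤ C * ‖pr (y - x)‖ ^ 2 := mul_nonneg H.nonneg (sq_nonneg _)
  nlinarith

lemma height' (H : Hyp N x J pr δ C r₀) {y : E3} (hy : y ∈ N) (h1 : ‖pr (y - x)‖ ≤ δ)
    (h2 : |⟪nu N x, y - x⟫| ≤ δ) : |⟪nu N x, y - x⟫| ≤ ‖pr (y - x)‖ / 10 := by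
  refine (H.height hy h1 h2).trans ?_
  have h4 : C * ‖pr (y - x)‖ ≤ 1 / 20 := (mul_le_mul_of_nonneg_left h1 H.nonneg).trans H.small
  nlinarith [norm_nonneg (pr (y - x))]

lemma uniq (H : Hyp N x J pr δ C r₀) {y y' : E3} (hy : y ∈ N) (hy' : y' ∈ N)
    (h1 : ‖pr (y - x)‖ ≤ δ) (h2 : |⟪nu N x, y - x⟫| ≤ δ) (h2' : |⟪nu N x, y' - x⟫| ≤ δ)
    (e : pr y' = pr y) (ht : 1 / 4 ≤ ⟪nu N y, nu N x⟫ ^ 2) : y' = y := by
  set t := ⟪nu N x, y' - y⟫ with htd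
  have e1 : y' - y = t • nu N x := by
    conv_lhs => rw [← H.frame.decomp (y' - y)]
    rw [map_sub pr, e, sub_self, map_zero, zero_add]
  have e2 : t = ⟪nu N x, y' - x⟫ - ⟪nu N x, y - x⟫ := by
    rw [htd, ← inner_sub_right]; congr 1; abel
  have h3 : |t| ≤ 2 * δ := by rw [e2]; linarith [abs_sub ⟪nu N x, y' - x⟫ ⟪nu N x, y - x⟫]
  have h4 : ‖y' - y‖ = |t| := by rw [e1, norm_smul, H.frame.unit, mul_one, Real.norm_eq_abs]
  have h5 := H.tp y hy (H.norm_le h1 h2) y' hy' (by linarith [H.rad, H.pos])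
  rw [h4, e1, real_inner_smul_left, abs_mul, real_inner_comm] at h5
  have h6 : 1 / 2 ≤ |⟪nu N y, nu N x⟫| := by
    rw [← sq_abs] at ht
    nlinarith [abs_nonneg ⟪nu N y, nu N x⟫]
  have h7 : C * |t| ≤ 1 / 10 := by nlinarith [H.nonneg, H.small]
  have h8 : |t| = 0 := by
    by_contra h0
    have : 0 < |t| := lt_of_le_of_ne (abs_nonneg t) (Ne.symm h0)
    nlinarith
  rwa [h8, norm_eq_zero, sub_eq_zero] at h4

lemma isCompact_cyl (H : Hyp N x J pr δ C r₀) (β : ℝ) :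
    IsCompact (N ∩ {y | ‖pr (y - x)‖ ≤ β ∧ |⟪nu N x, y - x⟫| ≤ δ}) := by
  refine (isCompact_closedBall x (|β| + δ)).of_isClosed_subset (H.surf.1.inter ?_) ?_
  · have h1 : IsClosed {y : E3 | ‖pr (y - x)‖ ≤ β} := isClosed_le (by fun_prop) continuous_const
    have h2 : IsClosed {y : E3 | |⟪nu N x, y - x⟫| ≤ δ} :=
      isClosed_le (by fun_prop) continuous_const
    exact h1.inter h2
  · rintro y ⟨-, h1, h2⟩
    rw [mem_closedBall_iff_norm, ← H.frame.decomp (y - x)]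
    refine (norm_add_le _ _).trans ?_
    rw [H.frame.norm_J, norm_smul, H.frame.unit, mul_one, Real.norm_eq_abs]
    linarith [le_abs_self β]

/-- a local chart moves a point of the surface along with its projection -/
lemma local_chart (H : Hyp N x J pr δ C r₀) {y : E3} (hy : y ∈ N)
    (h2 : |⟪nu N x, y - x⟫| < δ) (ht : ⟪nu N y, nu N x⟫ ≠ 0) :
    ∃ h' U, y ∈ U ∧ IsChart N (nu N x) J pr h' U ∧ ∀ᶠ u in 𝓝 (pr y),
      gr (nu N x) J h' u ∈ U ∧ |⟪nu N x, gr (nu N x) J h' u - x⟫| < δ := by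
  obtain ⟨h', U, hU, K⟩ := Chart.exists_chart H.surf hy H.frame ht
  refine ⟨h', U, hU, K, ?_⟩
  have ht : Tendsto (gr (nu N x) J h') (𝓝 (pr y)) (𝓝 y) := by
    have := K.continuous_gr.continuousAt (x := pr y) |>.tendsto
    rwa [K.gr_pr hy hU] at this
  have ho : IsOpen {z : E3 | |⟪nu N x, z - x⟫| < δ} := isOpen_lt (by fun_prop) continuous_const
  exact (ht.eventually (K.isOpen.mem_nhds hU)).and (ht.eventually (ho.mem_nhds h2))

/-- continuation over a disc on which the tilt is bounded -/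
lemma disc (H : Hyp N x J pr δ C r₀) {β : ℝ} (hβ : β ≤ δ)
    (ht : ∀ y ∈ N, ‖pr (y - x)‖ ≤ β → |⟪nu N x, y - x⟫| ≤ δ → ⟪nu N y, nu N x⟫ ≠ 0)
    {u : E2} (hu : ‖u - pr x‖ ≤ β) : ∃ y ∈ N, pr y = u ∧ |⟪nu N x, y - x⟫| ≤ δ := by
  have hp := H.pos
  set O : Set E2 := {u | ∃ y ∈ N, pr y = u ∧ |⟪nu N x, y - x⟫| < δ ∧ ⟪nu N y, nu N x⟫ ≠ 0}
  have hO : IsOpen O := by
    rw [isOpen_iff_mem_nhds]
    rintro _ ⟨y, hy, rfl, h2, h3⟩
    obtain ⟨h', U, hU, K, he⟩ := H.local_chart hy h2 h3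
    filter_upwards [he] with v hv
    refine ⟨_, K.gr_mem hv.1, H.frame.pr_gr h' v, hv.2, ?_⟩
    rw [← abs_pos, K.abs_inner_nu H.surf (K.gr_mem hv.1) hv.1]
    exact inv_pos.2 (Chart.jac_pos _ _)
  have hβ0 : 0 ≤ β := (norm_nonneg _).trans hu
  have key : closedBall (pr x) β ⊆ O := by
    refine (convex_closedBall (pr x) β).isPreconnected.subset_of_closure_inter_subset hO
      ⟨pr x, mem_closedBall_self hβ0, x, H.mem, rfl, by simpa using hp, ?_⟩ ?_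
    · rw [H.frame.inner_n]; exact one_ne_zero
    · rintro v ⟨hv, hvβ⟩
      have hc := ((H.isCompact_cyl (β + 1)).image pr.continuous).isClosed
      have h1 : v ∈ closure (ball (pr x) (β + 1) ∩ O) :=
        isOpen_ball.inter_closure ⟨closedBall_subset_ball (by linarith) hvβ, hv⟩
      have h2 : ball (pr x) (β + 1) ∩ O ⊆
          pr '' (N ∩ {y | ‖pr (y - x)‖ ≤ β + 1 ∧ |⟪nu N x, y - x⟫| ≤ δ}) := by
        rintro _ ⟨hb, y, hy, rfl, h3, -⟩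
        exact ⟨y, ⟨hy, by rw [map_sub]; exact (mem_ball_iff_norm.1 hb).le, h3.le⟩, rfl⟩
      obtain ⟨y, ⟨hy, -, h4⟩, rfl⟩ := closure_minimal h2 hc h1
      have h5 : ‖pr (y - x)‖ ≤ β := by rw [map_sub]; exact mem_closedBall_iff_norm.1 hvβ
      exact ⟨y, hy, rfl, by linarith [H.height' hy (h5.trans hβ) h4], ht y hy h5 h4⟩
  obtain ⟨y, hy, e, h2, -⟩ := key (mem_closedBall_iff_norm.2 hu)
  exact ⟨y, hy, e, h2.le⟩

lemma arith {β z z₁ c d C : ℝ} (hβ : 0 < β) (hC : 0 ≤ C) (hCβ : C * β ≤ 1 / 20)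
    (hz : |z| ≤ β / 10) (hz₁ : |z₁| ≤ β / 20) (hc : c ^ 2 ≤ 1 / 4) (hd : 0 ≤ d)
    (hd' : d ≤ 3 / 2 * β)
    (h : |β / 2 * (1 - c ^ 2) + z₁ * c| ≤ C * (β ^ 2 + (-z) ^ 2) + C * (d ^ 2 + (z₁ - z) ^ 2)) :
    False := by
  have h5 : |c| ≤ 1 := by
    rw [← sq_le_one_iff_abs_le_one]; linarith
  have h7 : |z₁ * c| ≤ β / 20 := by
    rw [abs_mul]; nlinarith [abs_nonneg z₁, abs_nonneg c]
  have h8 : d ^ 2 ≤ (3 / 2 * β) ^ 2 := pow_le_pow_left₀ hd hd' 2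
  have h10 : |z₁ - z| ≤ β := by linarith [abs_sub z₁ z]
  have h11 : (-z) ^ 2 ≤ β ^ 2 := by
    rw [neg_sq, ← sq_abs]; exact pow_le_pow_left₀ (abs_nonneg _) (by linarith) 2
  have h12 : (z₁ - z) ^ 2 ≤ β ^ 2 := by
    rw [← sq_abs]; exact pow_le_pow_left₀ (abs_nonneg _) h10 2
  have h13 := (abs_le.1 h).2
  have h14 := (abs_le.1 h7).1
  have h15 : C * (β ^ 2 + (-z) ^ 2) + C * (d ^ 2 + (z₁ - z) ^ 2) ≤ C * (21 / 4 * β ^ 2) := by
    rw [← mul_add]; exact mul_le_mul_of_nonneg_left (by nlinarith) hC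
  have h16 : C * (21 / 4 * β ^ 2) ≤ 21 / 80 * β := by nlinarith
  nlinarith

/-- the tilt is bounded in the whole cylinder -/
lemma tilt (H : Hyp N x J pr δ C r₀) {y₀ : E3} (hy₀ : y₀ ∈ N) (h1 : ‖pr (y₀ - x)‖ ≤ δ)
    (h2 : |⟪nu N x, y₀ - x⟫| ≤ δ) : 1 / 4 ≤ ⟪nu N y₀, nu N x⟫ ^ 2 := by
  by_contra hcon
  have hp := H.pos
  set B : Set E3 := (N ∩ {y | ‖pr (y - x)‖ ≤ δ ∧ |⟪nu N x, y - x⟫| ≤ δ}) ∩
    (N ∩ (fun y => ⟪nu N y, nu N x⟫ ^ 2) ⁻¹' Iic (1 / 4)) with hB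
  have hBc : IsCompact B := (H.isCompact_cyl δ).inter_right
    ((W.continuousOn_nu_sq H.surf _).preimage_isClosed_of_isClosed H.surf.1 isClosed_Iic)
  obtain ⟨y, ⟨⟨hy, hb, hz⟩, -, htl⟩, hmin⟩ := hBc.exists_isMinOn (f := fun y => ‖pr (y - x)‖)
    ⟨y₀, ⟨hy₀, h1, h2⟩, hy₀, (not_le.1 hcon).le⟩ (by fun_prop)
  have htl' : ⟪nu N y, nu N x⟫ ^ 2 ≤ 1 / 4 := htl
  have hzb := H.height' hy hb hz
  set β := ‖pr (y - x)‖ with hβ
  have hb0 : 0 < β := by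
    rcases (norm_nonneg (pr (y - x))).eq_or_lt with h0 | h0
    · exfalso
      have h3 := H.frame.norm_sq_eq (y - x)
      have h4 : ⟪nu N x, y - x⟫ = 0 := abs_nonpos_iff.1 (by rw [hβ, ← h0] at hzb; linarith)
      rw [← h0, h4] at h3
      have h5 : y = x := sub_eq_zero.1 (norm_eq_zero.1 (by nlinarith [norm_nonneg (y - x)]))
      rw [h5, H.frame.inner_n] at htl'
      norm_num at htl'
    · exact h0
  have hn1 : ‖nu N y‖ = 1 := H.surf.norm_nu hy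
  have hna : ‖pr (nu N y)‖ ^ 2 = 1 - ⟪nu N x, nu N y⟫ ^ 2 := by
    have := H.frame.norm_sq_eq (nu N y)
    rw [hn1] at this
    linarith
  have hna1 : ‖pr (nu N y)‖ ≤ 1 := by rw [← hn1]; exact H.frame.norm_pr_le _
  have hal : ‖(β / 2) • pr (nu N y)‖ ≤ β / 2 := by
    rw [norm_smul, Real.norm_eq_abs, abs_of_pos (by positivity)]
    nlinarith
  obtain ⟨y₁, hy₁, e₁, hz₁⟩ := H.disc (β := β / 2) (u := pr x + (β / 2) • pr (nu N y))
    (by linarith) (fun y' hy' h3 h4 h5 => by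
      have := hmin (a := y') ⟨⟨hy', by linarith, h4⟩, hy', by simp [h5]⟩
      simp only [mem_ofPred_eq] at this
      linarith) (by rwa [add_sub_cancel_left])
  have e₂ : pr (y₁ - x) = (β / 2) • pr (nu N y) := by rw [map_sub, e₁, add_sub_cancel_left]
  have hb₁ : ‖pr (y₁ - x)‖ ≤ β / 2 := by rwa [e₂]
  have hz₁' := H.height' hy₁ (by linarith) hz₁
  have hT := H.tp y hy (H.norm_le hb hz)
  have n1 := H.norm_le hb hz
  have n2 := H.norm_le (v := y₁ - x) (by linarith) hz₁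
  have e3 : y₁ - y = (y₁ - x) - (y - x) := by abel
  have e4 : x - y = -(y - x) := by abel
  have a1 := hT x H.mem (by rw [norm_sub_rev]; linarith [H.rad])
  have a2 := hT y₁ hy₁ (by rw [e3]; linarith [norm_sub_le (y₁ - x) (y - x), H.rad])
  have e5 : ⟪y₁ - x, nu N y⟫ = ⟪y₁ - y, nu N y⟫ - ⟪x - y, nu N y⟫ := by
    rw [← inner_sub_left]; congr 1; abel
  have e6 : ⟪y₁ - x, nu N y⟫ = β / 2 * (1 - ⟪nu N x, nu N y⟫ ^ 2) +
      ⟪nu N x, y₁ - x⟫ * ⟪nu N x, nu N y⟫ := by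
    rw [inner_split H.frame, e₂, real_inner_smul_left, real_inner_self_eq_norm_sq, hna]
  rw [H.frame.norm_sq_eq, e4, map_neg, norm_neg, inner_neg_right, ← e4] at a1
  rw [H.frame.norm_sq_eq (y₁ - y)] at a2
  have e7 : ⟪nu N x, y₁ - y⟫ = ⟪nu N x, y₁ - x⟫ - ⟪nu N x, y - x⟫ := by rw [e3, inner_sub_right]
  rw [e7] at a2
  refine arith (z := ⟪nu N x, y - x⟫) (z₁ := ⟪nu N x, y₁ - x⟫) (c := ⟪nu N x, nu N y⟫)
    (d := ‖pr (y₁ - y)‖) hb0 H.nonneg ((mul_le_mul_of_nonneg_left hb H.nonneg).trans H.small)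
    hzb (by linarith) (by rwa [real_inner_comm]) (norm_nonneg _) ?_ ?_
  · rw [e3, map_sub pr (y₁ - x)]
    linarith [norm_sub_le (pr (y₁ - x)) (pr (y - x))]
  · rw [← e6, e5]
    linarith [abs_sub ⟪y₁ - y, nu N y⟫ ⟪x - y, nu N y⟫]

/-- **Graph lemma.** -/
theorem exists_disc (H : Hyp N x J pr δ C r₀) : ∃ h, Disc N x (nu N x) J pr h δ := by
  have hp := H.pos
  have ex : ∀ u : E2, ∃ y, u ∈ ball (pr x) δ → y ∈ N ∧ pr y = u ∧ |⟪nu N x, y - x⟫| ≤ δ := by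
    intro u
    by_cases hu : u ∈ ball (pr x) δ
    · obtain ⟨y, hy⟩ := H.disc le_rfl (fun y hy h1 h2 h3 => by
        have := H.tilt hy h1 h2
        rw [h3] at this
        norm_num at this) (mem_ball_iff_norm.1 hu).le
      exact ⟨y, fun _ => hy⟩
    · exact ⟨x, fun h => absurd h hu⟩
  choose Y hY using ex
  set h : E2 → ℝ := fun u => ⟪nu N x, Y u⟫ with hh
  have e : ∀ u ∈ ball (pr x) δ, gr (nu N x) J h u = Y u := fun u hu => by
    conv_rhs => rw [← H.frame.decomp (Y u), (hY u hu).2.1]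
    rfl
  have hb : ∀ u ∈ ball (pr x) δ, ‖pr (Y u - x)‖ = ‖u - pr x‖ := fun u hu => by
    rw [map_sub, (hY u hu).2.1]
  have hb' : ∀ u ∈ ball (pr x) δ, ‖pr (Y u - x)‖ ≤ δ := fun u hu => by
    rw [hb u hu]; exact (mem_ball_iff_norm.1 hu).le
  have un : ∀ u ∈ ball (pr x) δ, ∀ y ∈ N, pr y = u → |⟪nu N x, y - x⟫| ≤ δ → y = Y u :=
    fun u hu y hy e1 h2 => H.uniq (hY u hu).1 hy (hb' u hu) (hY u hu).2.2 h2
      (e1.trans (hY u hu).2.1.symm) (H.tilt (hY u hu).1 (hb' u hu) (hY u hu).2.2)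
  have loc : ∀ u ∈ ball (pr x) δ, ∃ h' U, Y u ∈ U ∧ IsChart N (nu N x) J pr h' U ∧
      h =ᶠ[𝓝 u] h' := by
    intro u hu
    have t1 := H.tilt (hY u hu).1 (hb' u hu) (hY u hu).2.2
    obtain ⟨h', U, hU, K, he⟩ := H.local_chart (hY u hu).1
      (by linarith [H.height' (hY u hu).1 (hb' u hu) (hY u hu).2.2, hb' u hu])
      (fun h3 => by rw [h3] at t1; norm_num at t1)
    refine ⟨h', U, hU, K, ?_⟩
    rw [(hY u hu).2.1] at he
    filter_upwards [he, isOpen_ball.mem_nhds hu] with v hv hv'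
    have := un v hv' _ (K.gr_mem hv.1) (H.frame.pr_gr h' v) hv.2.le
    rw [hh]
    simp only
    rw [← this, H.frame.inner_gr]
  refine ⟨h, H.frame, fun u hu => ?_, fun u hu => ?_, fun u hu => ?_, fun u hu => ?_,
    fun u hu v => ?_, fun y hy h1 => ?_⟩
  · obtain ⟨h', U, -, K, he⟩ := loc u hu
    exact K.smooth.contDiffAt.congr_of_eventuallyEq he
  · rw [e u hu]; exact (hY u hu).1
  · rw [e u hu, ← hb u hu, ← H.frame.decomp (Y u - x)]
    refine (norm_add_le _ _).trans ?_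
    rw [H.frame.norm_J, norm_smul, H.frame.unit, mul_one, Real.norm_eq_abs, H.frame.decomp]
    linarith [H.height' (hY u hu).1 (hb' u hu) (hY u hu).2.2]
  · obtain ⟨h', U, hU, K, he⟩ := loc u hu
    have e1 : jac h u = jac h' u := by rw [jac, jac, he.gradient_eq]
    have h1 := K.abs_inner_nu H.surf (hY u hu).1 hU
    have t1 := H.tilt (hY u hu).1 (hb' u hu) (hY u hu).2.2
    rw [← sq_abs, h1, (hY u hu).2.1, ← e1] at t1
    have h2 := Chart.jac_pos h u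
    rw [inv_pow, one_div, inv_le_inv₀ (by norm_num) (by positivity)] at t1
    nlinarith
  · obtain ⟨h', U, hU, K, he⟩ := loc u hu
    obtain ⟨σ, -, e1⟩ := K.nu_eq H.surf (hY u hu).1 hU
    rw [e u hu, e1, (hY u hu).2.1, he.fderiv_eq, real_inner_smul_left, inner_sub_left,
      inner_add_right, inner_add_right, H.frame.orth, inner_smul_right, H.frame.inner_n,
      H.frame.inner_J, inner_smul_right, H.frame.orth', Chart.inner_gradient]
    ring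
  · have h2 : pr y ∈ ball (pr x) δ := by
      rw [mem_ball_iff_norm, ← map_sub]
      exact (H.frame.norm_pr_le _).trans_lt h1
    rw [e _ h2]
    refine (un _ h2 y hy rfl ?_).symm
    have := abs_real_inner_le_norm (nu N x) (y - x)
    rw [H.frame.unit, one_mul] at this
    linarith

end Hyp

/-- **Graph lemma**, with the frame. -/
theorem exists_disc (hN : IsSurf N) (hx : x ∈ N) (hδ : 0 < δ) (hC : C * δ ≤ 1 / 20)
    (hr : 4 * δ ≤ r₀) (hT : ∀ y ∈ N, ‖y - x‖ ≤ 2 * δ → TwoPt N y r₀ C) :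
    ∃ J pr h, Disc N x (nu N x) J pr h δ := by
  obtain ⟨J, pr, F⟩ := Chart.exists_frame (hN.norm_nu hx)
  have H : Hyp N x J pr δ (max C 0) r₀ := ⟨hN, hx, F, hδ, le_max_right _ _, by
    rcases le_total C 0 with h | h
    · rw [max_eq_right h]; norm_num
    · rwa [max_eq_left h], hr, fun y hy h1 z hz h2 => (hT y hy h1 z hz h2).trans
      (mul_le_mul_of_nonneg_right (le_max_left _ _) (sq_nonneg _))⟩
  exact ⟨J, pr, H.exists_disc⟩

end Vale.Agent.P218F.Mesh
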