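import Vale.Agent.P218F.MeshB
import Vale.Agent.P218FT.EVMain
import Mathlib.Geometry.Manifold.PartitionOfUnity

/-! Ecker's inequality on a self-shrinker and the global coercivity estimate for functions which
are orthogonal to the mesh bumps. -/

open MeasureTheory Set Filter Topology Metric
open scoped ENNReal NNReal RealInnerProductSpace ContDiff Manifold

namespace Vale.Agent.P218F.Mesh

open Vale.Agent.P218FT

variable {N : Set E3} {x : E3}

/-- tangency of chords, locally uniformly -/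
lemma exists_twoPt_near (hN : IsSurf N) (hx : x ∈ N) :
    ∃ r C : ℝ, 0 < r ∧ 0 < C ∧ ∀ᶠ q in 𝓝 x, q ∈ N → TwoPt N q r C := by
  obtain ⟨w, hw⟩ := hN.2 x hx
  set g := ‖gradient w x‖ with hg
  set K := ‖fderiv ℝ (gradient w) x‖ + 1 with hK
  have hg0 : 0 < g := norm_pos_iff.2 hw.2.1
  have hK0 : 0 < K := by positivity
  have hs := contDiff_grad hw.1
  have e1 : ∀ᶠ q in 𝓝 x, g / 2 < ‖gradient w q‖ :=
    hs.continuous.norm.continuousAt.eventually (lt_mem_nhds (by simp only; linarith))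
  have e2 : ∀ᶠ q in 𝓝 x, ‖fderiv ℝ (gradient w) q‖ < K :=
    (hs.continuous_fderiv (by simp)).norm.continuousAt.eventually
      (gt_mem_nhds (by simp only; linarith))
  obtain ⟨δ, hδ, hδ'⟩ := Metric.eventually_nhds_iff.1 ((e1.and e2).and hw.eventually)
  refine ⟨δ / 2, 2 * K / g, by positivity, by positivity, ?_⟩
  filter_upwards [ball_mem_nhds x (half_pos hδ)] with q hq hqM y hy hyq
  have hq' : dist q x < δ / 2 := hq
  have hin : ∀ z ∈ closedBall q ‖y - q‖, dist z x < δ := fun z hz => by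
    linarith [dist_triangle z q x, mem_closedBall.1 hz]
  have hq2 : q ∈ closedBall q ‖y - q‖ := mem_closedBall_self (norm_nonneg _)
  have hy2 : y ∈ closedBall q ‖y - q‖ := by rw [mem_closedBall, dist_eq_norm]
  have lip : ∀ z ∈ closedBall q ‖y - q‖, ‖gradient w z - gradient w q‖ ≤ K * ‖y - q‖ := by
    intro z hz
    have := (convex_closedBall q ‖y - q‖).norm_image_sub_le_of_norm_fderiv_le (𝕜 := ℝ)
      (f := gradient w) (C := K) (fun u _ => hs.differentiable (by simp) u)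
      (fun u hu => (hδ' (hin u hu)).1.2.le) hq2 hz
    refine this.trans ?_
    have : ‖z - q‖ ≤ ‖y - q‖ := by rw [← dist_eq_norm]; exact mem_closedBall.1 hz
    gcongr
  have mv := (convex_closedBall q ‖y - q‖).norm_image_sub_le_of_norm_fderiv_le' (𝕜 := ℝ)
    (f := w) (C := K * ‖y - q‖) (φ := fderiv ℝ w q) (fun u _ => hw.1.differentiable (by simp) u)
    (fun u hu => by
      have e : fderiv ℝ w u - fderiv ℝ w q = innerSL ℝ (gradient w u - gradient w q) := by
        ext1 v; simp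
      rw [e, innerSL_apply_norm]; exact lip u hu) hq2 hy2
  have hE := (hδ' (hin q hq2)).2
  rw [hE.zero hqM, (hδ' (hin y hy2)).2.zero hy, sub_zero, zero_sub, norm_neg, ← inner_grad,
    Real.norm_eq_abs] at mv
  have hgq := (hδ' (hin q hq2)).1.1
  rw [hE.abs_inner_eq hqM (y - q), nuw, real_inner_smul_right, abs_mul, abs_inv, abs_norm,
    real_inner_comm, inv_mul_le_iff₀ (by linarith)]
  refine mv.trans ?_
  have : K * ‖y - q‖ * ‖y - q‖ = g / 2 * (2 * K / g * ‖y - q‖ ^ 2) := by field_simp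
  rw [this]
  gcongr

/-- tangency of chords, uniformly on bounded parts of a surface -/
lemma exists_twoPt (hN : IsSurf N) (R : ℝ) :
    ∃ r C : ℝ, 0 < r ∧ 0 < C ∧ ∀ y ∈ N, ‖y‖ ≤ R → TwoPt N y r C := by
  have key := ((isCompact_closedBall (0 : E3) R).inter_left hN.1).induction_on
    (p := fun S => ∃ r C : ℝ, 0 < r ∧ 0 < C ∧ ∀ q ∈ S, q ∈ N → TwoPt N q r C)
    ⟨1, 1, one_pos, one_pos, by simp⟩
    (fun S T hST ⟨r, C, hr, hC, H⟩ => ⟨r, C, hr, hC, fun q hq => H q (hST hq)⟩)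
    (fun S T ⟨r, C, hr, hC, H⟩ ⟨r', C', hr', hC', H'⟩ =>
      ⟨min r r', max C C', by positivity, by positivity, fun q hq hM y hy hyq => by
        rcases hq with hq | hq
        · exact (H q hq hM y hy (hyq.trans (min_le_left _ _))).trans
            (by gcongr; exact le_max_left _ _)
        · exact (H' q hq hM y hy (hyq.trans (min_le_right _ _))).trans
            (by gcongr; exact le_max_right _ _)⟩)
    (fun q hq => by
      obtain ⟨r, C, hr, hC, H⟩ := exists_twoPt_near hN hq.1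
      exact ⟨_, nhdsWithin_le_nhds H, r, C, hr, hC, fun q' hq' => hq'⟩)
  obtain ⟨r, C, hr, hC, H⟩ := key
  exact ⟨r, C, hr, hC, fun y hy hR => H y ⟨hy, mem_closedBall_zero_iff.2 hR⟩ hy⟩

/-- the gradient of a function which vanishes on the surface is normal -/
lemma pt_gradient_eq_zero (hN : IsSurf N) (hx : x ∈ N) {w : E3 → ℝ} (hw : DifferentiableAt ℝ w x)
    (h0 : ∀ᶠ z in 𝓝 x, z ∈ N → w z = 0) : pt (nu N x) (gradient w x) = 0 := by
  obtain ⟨J, pr, h, U, hU, K, hg⟩ := Chart.exists_chart_tangent hN hx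
  rw [K.gradient_eq hx hU hw h0, hg, map_zero, sub_zero, map_smul, pt_self (hN.norm_nu hx),
    smul_zero]

/-- the tangential gradient only depends on the values on the surface -/
lemma pt_gradient_congr (hN : IsSurf N) (hx : x ∈ N) {f g : E3 → ℝ} (hf : DifferentiableAt ℝ f x)
    (hg : DifferentiableAt ℝ g x) (h0 : ∀ᶠ z in 𝓝 x, z ∈ N → f z = g z) :
    pt (nu N x) (gradient f x) = pt (nu N x) (gradient g x) := by
  have h := pt_gradient_eq_zero hN hx (hf.sub hg) (h0.mono fun z hz h1 => by simp [hz h1])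
  have e : gradient (f - g) x = gradient f x - gradient g x := by
    rw [gradient, fderiv_sub hf hg, map_sub]; rfl
  rwa [e, map_sub, sub_eq_zero] at h

/-- a function which is `C¹` along a surface has a `C¹` extension -/
theorem exists_ext (hN : IsSurf N) {f G : E3 → ℝ} (hf : ∀ R, GradLe N R f G) :
    ∃ F : E3 → ℝ, ContDiff ℝ 1 F ∧ ∀ y ∈ N, F y = f y ∧ ‖pt (nu N y) (gradient F y)‖ ≤ G y := by
  obtain ⟨F, hF⟩ := exists_contMDiffMap_forall_mem_convex_of_local (n := 1) 𝓘(ℝ, E3) (M := E3)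
    (F := ℝ) (t := fun y => {c | y ∈ N → c = f y})
    (fun y => by
      by_cases hy : y ∈ N
      · simp [hy]
      · simpa [hy] using convex_univ)
    (fun y => by
      by_cases hy : y ∈ N
      · obtain ⟨f', h1, h2, -⟩ := hf _ y hy le_rfl
        obtain ⟨U, hU, h3⟩ := h1.contDiffOn le_rfl (by simp)
        exact ⟨_, inter_mem hU h2, f', (h3.mono inter_subset_left).contMDiffOn,
          fun z hz h4 => (hz.2 h4).symm⟩
      · exact ⟨Nᶜ, hN.1.isOpen_compl.mem_nhds hy, fun _ => 0, contMDiffOn_const,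
          fun z hz h4 => absurd h4 hz⟩)
  have hc : ContDiff ℝ 1 F := F.contMDiff.contDiff
  refine ⟨F, hc, fun y hy => ⟨hF y hy, ?_⟩⟩
  obtain ⟨f', h1, h2, h3⟩ := hf _ y hy le_rfl
  rwa [pt_gradient_congr hN hy (hc.differentiable one_ne_zero y) (h1.differentiableAt one_ne_zero)
    (h2.mono fun z hz h4 => (hF z h4).trans (hz h4))]

lemma exists_fderiv_bump_le : ∃ M : ℝ, 0 < M ∧ ∀ (p : E3) (r : ℝ), 0 < r → ∀ y,
    ‖fderiv ℝ (bump p r) y‖ ≤ M / r := by
  have hb : ContDiff ℝ 1 beta := beta.contDiff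
  obtain ⟨M, hM⟩ := (beta.hasCompactSupport.fderiv (𝕜 := ℝ)).exists_bound_of_continuous
    (hb.continuous_fderiv one_ne_zero)
  refine ⟨|M| + 1, by positivity, fun p r hr y => ?_⟩
  have h1 : HasFDerivAt (fun y : E3 => r⁻¹ • (y - p)) (r⁻¹ • ContinuousLinearMap.id ℝ E3) y :=
    ((hasFDerivAt_id y).sub_const p).const_smul r⁻¹
  have h2 := (hb.differentiable one_ne_zero _).hasFDerivAt.comp y h1
  rw [show bump p r = beta ∘ fun y : E3 => r⁻¹ • (y - p) from rfl, h2.fderiv]
  refine (ContinuousLinearMap.opNorm_comp_le _ _).trans ?_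
  rw [norm_smul, ContinuousLinearMap.norm_id, mul_one, norm_inv, Real.norm_eq_abs, abs_of_pos hr,
    div_eq_mul_inv]
  gcongr
  linarith [hM (r⁻¹ • (y - p)), le_abs_self M]

lemma hasFDerivAt_gw (x : E3) : HasFDerivAt gw ((-gw x / 2) • innerSL ℝ x) x := by
  have h := (((hasStrictFDerivAt_norm_sq x).hasFDerivAt.neg).const_smul (1 / 4 : ℝ)).exp
  have e : gw = fun y : E3 => Real.exp ((1 / 4 : ℝ) • -‖y‖ ^ 2) := by
    funext y; rw [gw]; congr 1; rw [smul_eq_mul]; ring
  rw [e]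
  refine h.congr_fderiv ?_
  ext v
  simp
  ring

lemma contDiff_gw : ContDiff ℝ ∞ gw :=
  ((contDiff_norm_sq ℝ).neg.div_const 4).exp

lemma divT_radial (hn : ‖nu N x‖ = 1) {g : E3 → ℝ} (hg : DifferentiableAt ℝ g x) :
    divT N (fun y => g y • y) x = 2 * g x + fderiv ℝ g x (pt (nu N x) x) := by
  have h := (hg.hasFDerivAt.smul (hasFDerivAt_id x)).fderiv
  obtain ⟨a, b, T⟩ := exists_triple hn
  change fderiv ℝ (fun y => g y • y) x = _ at h
  have e : pt (nu N x) x = ⟪a, x⟫ • a + ⟪b, x⟫ • b := by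
    rw [pt_apply, sub_eq_iff_eq_add]; exact T.expand x
  rw [divT, h, T.tr_eq, e]
  simp only [_root_.add_apply, _root_.smul_apply, ContinuousLinearMap.id_apply,
    ContinuousLinearMap.smulRight_apply, inner_add_left, real_inner_smul_left, id,
    real_inner_self_eq_norm_sq, map_add, map_smul, smul_eq_mul, T.na, T.nb, real_inner_comm x]
  ring

/-- the pointwise form of Ecker's inequality -/
lemma ecker_pt (hN : IsSurf N) (hx : x ∈ N) (hsh : relV N 0 1 x = 0) {u : E3 → ℝ}
    (hu : DifferentiableAt ℝ u x) :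
    ‖x‖ ^ 2 * (u x ^ 2 * gw x) ≤ -4 * (divT N (fun y => (u y ^ 2 * gw y) • y) x +
      ⟪(u x ^ 2 * gw x) • x, Hv N x⟫) + 8 * (u x ^ 2 * gw x) +
      16 * (‖pt (nu N x) (gradient u x)‖ ^ 2 * gw x) := by
  have hn := hN.norm_nu hx
  have hd := (hu.hasFDerivAt.pow 2).mul (hasFDerivAt_gw x)
  change HasFDerivAt (fun y => u y ^ 2 * gw y) _ x at hd
  have hH : Hv N x = -(((2 * 1 : ℝ)⁻¹ * ⟪x - 0, nu N x⟫) • nu N x) := eq_neg_of_add_eq_zero_left hsh
  have e1 : ⟪x, pt (nu N x) x⟫ = ‖x‖ ^ 2 - ⟪x, nu N x⟫ ^ 2 := by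
    rw [pt_apply, inner_sub_right, real_inner_self_eq_norm_sq, inner_smul_right,
      real_inner_comm x]
    ring
  have e2 : fderiv ℝ u x (pt (nu N x) x) = ⟪pt (nu N x) (gradient u x), x⟫ := by
    rw [inner_pt_left, inner_grad]
  rw [divT_radial hn hd.differentiableAt, hd.fderiv, hH]
  simp only [_root_.add_apply, _root_.smul_apply, innerSL_apply_apply, smul_eq_mul, e1, e2,
    real_inner_smul_left, inner_neg_right, inner_smul_right, sub_zero, nsmul_eq_mul]
  have h1 := abs_real_inner_le_norm (pt (nu N x) (gradient u x)) x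
  set t := ⟪pt (nu N x) (gradient u x), x⟫
  set a := ‖pt (nu N x) (gradient u x)‖
  have h2 : -(8 * (u x * t)) ≥ -(u x ^ 2 * ‖x‖ ^ 2 + 16 * a ^ 2) := by
    have h3 : u x * t ≤ |u x| * (a * ‖x‖) := by
      refine (le_abs_self _).trans ?_
      rw [abs_mul]
      exact mul_le_mul_of_nonneg_left h1 (abs_nonneg _)
    rw [← sq_abs (u x)]
    nlinarith [sq_nonneg (|u x| * ‖x‖ - 4 * a)]
  have h4 := mul_le_mul_of_nonneg_right h2 (gw_pos x).le
  norm_num
  nlinarith

/-- **Ecker's inequality** for the tail of the Gaussian `L²` norm on a self-shrinker -/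
theorem ecker (hN : IsSurf N) (hsh : ∀ x ∈ N, relV N 0 1 x = 0) {f G : E3 → ℝ}
    (hf : ∀ R, GradLe N R f G) (i1 : Integrable (fun y => f y ^ 2 * gw y) (area N))
    (i2 : Integrable (fun y => G y ^ 2 * gw y) (area N)) {R : ℝ} (hR : 0 ≤ R) :
    R ^ 2 * ∫ y, f y ^ 2 * gw y ∂(area N) ≤
      R ^ 2 * ∫ y in closedBall (0 : E3) R, f y ^ 2 * gw y ∂(area N) +
        40 * ∫ y, f y ^ 2 * gw y ∂(area N) + 32 * ∫ y, G y ^ 2 * gw y ∂(area N) := by
  obtain ⟨F, hF, hFf⟩ := exists_ext hN hf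
  obtain ⟨M, hM, hb⟩ := exists_fderiv_bump_le
  have lim := (tendsto_setIntegral_of_monotone (μ := area N) (f := fun y => f y ^ 2 * gw y)
    (s := fun k : ℕ => closedBall (0 : E3) k) (fun _ => measurableSet_closedBall)
    (fun a b hab => closedBall_subset_closedBall (by exact_mod_cast hab))
    i1.integrableOn).const_mul (R ^ 2)
  rw [iUnion_closedBall_nat, Measure.restrict_univ] at lim
  refine le_of_tendsto lim ?_
  filter_upwards [tendsto_natCast_atTop_atTop.eventually_ge_atTop M] with k hk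
  have k0 : (0 : ℝ) < 4 * k := by linarith
  set u : E3 → ℝ := fun y => F y * bump 0 (4 * k) y with hu
  have hb1 : ContDiff ℝ 1 (bump 0 (4 * k)) := (contDiff_bump _ _).of_le (by simp)
  have uc : ContDiff ℝ 1 u := hF.mul hb1
  have us : HasCompactSupport fun y => (u y ^ 2 * gw y) • y := by
    refine (hasCompactSupport_bump 0 k0).mono fun y hy h0 => hy ?_
    simp [hu, h0]
  obtain ⟨j1, j2, j3⟩ := EV.fv_full hN (X := fun y => (u y ^ 2 * gw y) • y)
    (((uc.pow 2).mul (contDiff_gw.of_le (by simp))).smul contDiff_id) us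
  set Z : E3 → ℝ := fun x =>
    divT N (fun y => (u y ^ 2 * gw y) • y) x + ⟪(u x ^ 2 * gw x) • x, Hv N x⟫ with hZ
  have j4 : ∫ x, Z x ∂(area N) = 0 := (integral_add j1 j2).trans (add_eq_zero_iff_eq_neg.2 j3)
  have j5 : Integrable Z (area N) := j1.add j2
  have a1 := (i1.indicator (measurableSet_closedBall (x := (0 : E3)) (ε := k))).const_mul (R ^ 2)
  have a2 := (i1.indicator (measurableSet_closedBall (x := (0 : E3)) (ε := R))).const_mul (R ^ 2)
  have a3 := a2.add (j5.const_mul (-4))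
  have a4 := a3.add (i1.const_mul 40)
  have key := integral_mono_ae a1 (a4.add (i2.const_mul 32)) ?_
  · rw [integral_add' a4 (i2.const_mul 32), integral_add' a3 (i1.const_mul 40),
      integral_add' a2 (j5.const_mul (-4))] at key
    simp only [integral_const_mul, integral_indicator measurableSet_closedBall, j4] at key
    linarith
  filter_upwards [ae_mem hN] with x hx
  have h1 := ecker_pt hN hx (hsh x hx) (uc.differentiable one_ne_zero x)
  have g0 := (gw_pos x).le
  have b0 := bump_nonneg 0 (4 * k) x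
  have b1 := bump_le_one 0 (4 * k) x
  have h2 : u x ^ 2 ≤ f x ^ 2 := by
    rw [hu, ← (hFf x hx).1]
    simp only [mul_pow]
    exact mul_le_of_le_one_right (sq_nonneg _) (pow_le_one₀ b0 b1)
  have h3 : ‖pt (nu N x) (gradient u x)‖ ≤ |G x| + |f x| := by
    have e : gradient u x = F x • gradient (bump 0 (4 * k)) x + bump 0 (4 * k) x • gradient F x := by
      rw [gradient, hu, fderiv_fun_mul (hF.differentiable one_ne_zero x)
        (hb1.differentiable one_ne_zero x), map_add, map_smul, map_smul]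
      rfl
    rw [e, map_add, map_smul, map_smul, add_comm]
    refine (norm_add_le _ _).trans (add_le_add ?_ ?_)
    · rw [norm_smul, Real.norm_eq_abs, abs_of_nonneg b0]
      exact (mul_le_of_le_one_left (norm_nonneg _) b1).trans ((hFf x hx).2.trans (le_abs_self _))
    · rw [norm_smul, Real.norm_eq_abs, (hFf x hx).1]
      refine mul_le_of_le_one_right (abs_nonneg _) ((norm_pt_le (hN.norm_nu hx) _).trans ?_)
      rw [norm_grad]
      exact (hb 0 _ k0 x).trans ((div_le_one k0).2 (by linarith))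
  have h4 : ‖pt (nu N x) (gradient u x)‖ ^ 2 ≤ 2 * G x ^ 2 + 2 * f x ^ 2 := by
    refine (pow_le_pow_left₀ (norm_nonneg _) h3 2).trans ?_
    rw [← sq_abs (G x), ← sq_abs (f x)]
    nlinarith [sq_nonneg (|G x| - |f x|)]
  have h5 := mul_le_mul_of_nonneg_right h2 g0
  have h6 := mul_le_mul_of_nonneg_right h4 g0
  have h7 : 0 ≤ u x ^ 2 * gw x := mul_nonneg (sq_nonneg _) g0
  have h8 : R ^ 2 * (closedBall (0 : E3) k).indicator (fun y => f y ^ 2 * gw y) x ≤
      R ^ 2 * (closedBall (0 : E3) R).indicator (fun y => f y ^ 2 * gw y) x +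
        ‖x‖ ^ 2 * (u x ^ 2 * gw x) := by
    have h9 : 0 ≤ f x ^ 2 * gw x := mul_nonneg (sq_nonneg _) g0
    by_cases c1 : x ∈ closedBall (0 : E3) R
    · rw [indicator_of_mem c1]
      refine le_add_of_le_of_nonneg (mul_le_mul_of_nonneg_left ?_ (sq_nonneg _)) (by positivity)
      exact indicator_le_self' (fun _ _ => mul_nonneg (sq_nonneg _) (gw_pos _).le) x
    · rw [indicator_of_notMem c1, mul_zero, zero_add]
      by_cases c2 : x ∈ closedBall (0 : E3) k
      · have e : u x = f x := by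
          rw [hu, ← (hFf x hx).1]
          simp only
          rw [bump_eq_one k0 (by rw [sub_zero]; linarith [mem_closedBall_zero_iff.1 c2]), mul_one]
        rw [indicator_of_mem c2, e]
        exact mul_le_mul_of_nonneg_right (pow_le_pow_left₀ hR
          (not_le.1 (mt mem_closedBall_zero_iff.2 c1)).le 2) h9
      · rw [indicator_of_notMem c2, mul_zero]
        positivity
  simp only [Pi.add_apply, hZ]
  linarith

/-- **Global Poincaré inequality** on a self-shrinker, modulo the mesh averages -/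
theorem global_poinc (hN : IsSurf N) (hsh : ∀ x ∈ N, relV N 0 1 x = 0) (A : ℝ) :
    ∃ R₂ : ℝ, ∀ R, R₂ ≤ R → ∃ r₂ : ℝ, 0 < r₂ ∧ ∀ r, 0 < r → r ≤ r₂ → ∃ B : ℝ, 0 < B ∧
      ∀ P, IsMesh N R r P → ∀ f G : E3 → ℝ, (∀ R', GradLe N R' f G) →
        Integrable (fun y => f y ^ 2 * gw y) (area N) →
        Integrable (fun y => G y ^ 2 * gw y) (area N) →
        A * ∫ y, f y ^ 2 * gw y ∂(area N) ≤ ∫ y, G y ^ 2 * gw y ∂(area N) +
          B * ∑ p ∈ P, (∫ y, f y * bump p r y * gw y ∂(area N)) ^ 2 := by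
  set a := |A| + 1 with ha
  have a1 : 1 ≤ a := by linarith [abs_nonneg A]
  refine ⟨12 * a, fun R hR => ?_⟩
  obtain ⟨r₀, C, hr₀, hC, hT⟩ := exists_twoPt hN (R + 1)
  obtain ⟨A₀, r₁, A0, r1, -, H⟩ := poinc_proof R C r₀ 1 hr₀ one_pos
  refine ⟨min r₁ (1 / (4 * a * A₀ + 1)), by positivity, fun r hr h1 =>
    ⟨2 * a * (A₀ * (r ^ 2)⁻¹), by positivity, fun P hP f G hf i1 i2 => ?_⟩⟩
  rw [le_min_iff, le_div_iff₀ (by positivity)] at h1
  have h2 := H r hr h1.1 N N P hP hN hT (hClose_self N R (by positivity)) f G (hf _)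
    (by rw [one_smul]; exact i2.integrableOn)
  simp only [one_smul] at h2
  have h3 := ecker hN hsh hf i1 i2 (R := R) (by linarith)
  have h4 := setIntegral_le_integral (s := closedBall (0 : E3) (R + 1)) i2
    (Eventually.of_forall fun y => mul_nonneg (sq_nonneg _) (gw_pos y).le)
  have I0 : 0 ≤ ∫ y, f y ^ 2 * gw y ∂(area N) :=
    integral_nonneg fun y => mul_nonneg (sq_nonneg _) (gw_pos y).le
  have E0 : 0 ≤ ∫ y, G y ^ 2 * gw y ∂(area N) :=
    integral_nonneg fun y => mul_nonneg (sq_nonneg _) (gw_pos y).le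
  set I := ∫ y, f y ^ 2 * gw y ∂(area N)
  set E := ∫ y, G y ^ 2 * gw y ∂(area N)
  set I' := ∫ y in closedBall (0 : E3) R, f y ^ 2 * gw y ∂(area N)
  set E' := ∫ y in closedBall (0 : E3) (R + 1), G y ^ 2 * gw y ∂(area N)
  set L := ∑ p ∈ P, (∫ y, f y * bump p r y * gw y ∂(area N)) ^ 2
  have R2 : 144 * a ≤ R ^ 2 := by nlinarith
  have h5 : I ≤ 2 * I' + E / (2 * a) := by
    have h6 : R ^ 2 * I ≤ R ^ 2 * (I' + I / 2 + E / (4 * a)) := by
      have b1 : 40 * I ≤ R ^ 2 * (I / 2) := by nlinarith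
      have b2 : 32 * E ≤ R ^ 2 * (E / (4 * a)) := by
        rw [← mul_div_assoc, le_div_iff₀ (by positivity)]
        nlinarith
      linarith
    have h7 := le_of_mul_le_mul_left h6 (by linarith)
    have : E / (2 * a) = 2 * (E / (4 * a)) := by field_simp; ring
    linarith
  have h8 : 2 * a * (A₀ * r ^ 2) ≤ 1 / 2 := by
    have : 0 < a * A₀ := by positivity
    have b1 : r ≤ 1 := by nlinarith
    nlinarith
  have h9 : a * I ≤ 2 * a * I' + E / 2 := by
    have := mul_le_mul_of_nonneg_left h5 (by linarith : 0 ≤ a)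
    rwa [mul_add, show a * (E / (2 * a)) = E / 2 by field_simp, ← mul_assoc, mul_comm a 2] at this
  have h10 : 2 * a * I' ≤ 2 * a * (A₀ * r ^ 2) * E + 2 * a * (A₀ * (r ^ 2)⁻¹) * L := by
    have b1 : I' ≤ A₀ * (r ^ 2 * E + (r ^ 2)⁻¹ * L) := h2.trans (by gcongr)
    have := mul_le_mul_of_nonneg_left b1 (by linarith : 0 ≤ 2 * a)
    linarith
  have h11 := mul_le_mul_of_nonneg_right h8 E0
  have h12 : A * I ≤ a * I := mul_le_mul_of_nonneg_right (by linarith [le_abs_self A]) I0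
  linarith

/-- **Coercivity**: functions which are orthogonal to the bumps of a fine mesh -/
theorem coercive (hN : IsSurf N) (hsh : ∀ x ∈ N, relV N 0 1 x = 0) (A : ℝ) :
    ∃ R₂ : ℝ, ∀ R, R₂ ≤ R → ∃ r₂ : ℝ, 0 < r₂ ∧ ∀ r, 0 < r → r ≤ r₂ →
      ∀ P, IsMesh N R r P → ∀ f G : E3 → ℝ, (∀ R', GradLe N R' f G) →
        Integrable (fun y => f y ^ 2 * gw y) (area N) →
        Integrable (fun y => G y ^ 2 * gw y) (area N) →
        (∀ p ∈ P, ∫ y, f y * bump p r y * gw y ∂(area N) = 0) →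
        A * ∫ y, f y ^ 2 * gw y ∂(area N) ≤ ∫ y, G y ^ 2 * gw y ∂(area N) := by
  obtain ⟨R₂, H⟩ := global_poinc hN hsh A
  refine ⟨R₂, fun R hR => ?_⟩
  obtain ⟨r₂, h2, H⟩ := H R hR
  refine ⟨r₂, h2, fun r hr h1 P hP f G hf i1 i2 h0 => ?_⟩
  obtain ⟨B, -, H⟩ := H r hr h1
  have := H P hP f G hf i1 i2
  rwa [Finset.sum_eq_zero fun p hp => by rw [h0 p hp]; ring, mul_zero, add_zero] at this

end Vale.Agent.P218F.Mesh
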