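import Vale.Agent.P218F.NormSpec
import Vale.Agent.P218F.CoreHol
import Vale.Agent.P281.MF.Hol

/-!
# P218, block NORMAL, part 1: general lemmas (chains, Dini lemma, Taylor polynomial in `c`)
-/

noncomputable section

namespace Vale.Agent.P218F.Nm

open Set Metric Filter Topology Asymptotics
open Vale.Agent.P218F.Core

variable {V : Type*} [NormedAddCommGroup V]

/-- summation of bounds for steps of length at most one -/
theorem chain {φ : ℝ → V} {B : ℝ → ℝ} {a b : ℝ} (hab : a ≤ b)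
    (h : ∀ s s', a ≤ s → s ≤ s' → s' ≤ b → s' ≤ s + 1 → ‖φ s' - φ s‖ ≤ B s' - B s) :
    ‖φ b - φ a‖ ≤ B b - B a := by
  have key : ∀ n : ℕ, ∀ t, a ≤ t → t ≤ b → t ≤ a + n → ‖φ t - φ a‖ ≤ B t - B a := by
    intro n
    induction n with
    | zero =>
      intro t h1 _ h3
      have : t = a := le_antisymm (by simpa using h3) h1
      simp [this]
    | succ n ih =>
      intro t h1 h2 h3
      rcases le_total t (a + n) with h4 | h4
      · exact ih t h1 h2 h4
      · have h0 : a ≤ a + n := le_add_of_nonneg_right n.cast_nonneg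
        have h5 := ih (a + n) h0 (h4.trans h2) le_rfl
        have h6 := h (a + n) t h0 h4 h2 (by push_cast at h3; linarith)
        have h7 := norm_add_le (φ t - φ (a + n)) (φ (a + n) - φ a)
        rw [sub_add_sub_cancel] at h7
        linarith
  obtain ⟨n, hn⟩ := exists_nat_ge (b - a)
  exact key n b hab le_rfl (by linarith)

theorem pot {d s s' : ℝ} (hd : 0 < d) (hd1 : d ≤ 1) (hs : 1 ≤ s) (h1 : s ≤ s') (h2 : s' ≤ s + 1) :
    (s' - s) * s ^ (-1 - d) ≤ 4 / d * (s ^ (-d) - s' ^ (-d)) := by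
  have hs0 : 0 < s := by linarith
  have hs'0 : 0 < s' := by linarith
  set u := (s' - s) / s' with hu
  have hu0 : 0 ≤ u := div_nonneg (by linarith) hs'0.le
  have hu1 : u ≤ 1 := (div_le_one hs'0).2 (by linarith)
  have h3 : (1 + -u) ^ d ≤ 1 + d * -u := rpow_one_add_le_one_add_mul_self (by linarith) hd.le hd1
  have h4 : 1 + -u = s / s' := by rw [hu]; field_simp; ring
  have h5 : s' ^ (-d) = s ^ (-d) * (s / s') ^ d := by
    rw [Real.div_rpow hs0.le hs'0.le, Real.rpow_neg hs0.le, Real.rpow_neg hs'0.le]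
    have := (Real.rpow_pos_of_pos hs0 d).ne'
    field_simp
  have h6 : 0 < s ^ (-d) := Real.rpow_pos_of_pos hs0 _
  have h7 : s ^ (-1 - d) = s ^ (-d) / s := by
    rw [show -1 - d = -d - 1 by ring, Real.rpow_sub_one hs0.ne']
  rw [h4] at h3
  have h8 : s ^ (-d) * (d * u) ≤ s ^ (-d) - s' ^ (-d) := by
    rw [h5]; nlinarith
  have h9 : (s' - s) / s ≤ 4 * u := by
    rw [hu, ← mul_div_assoc, div_le_div_iff₀ hs0 hs'0]
    nlinarith
  calc (s' - s) * s ^ (-1 - d) = s ^ (-d) * ((s' - s) / s) := by rw [h7]; ring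
    _ ≤ s ^ (-d) * (4 * u) := by gcongr
    _ = 4 / d * (s ^ (-d) * (d * u)) := by field_simp
    _ ≤ _ := by gcongr

/-- the Dini lemma -/
theorem dini {h M : ℝ → ℂ} {E : ℝ → ℝ} {a b : ℝ} (hab : a ≤ b) (hM : ContinuousOn M (Icc a b))
    (hE : ContinuousOn E (Icc a b))
    (H : ∀ t ∈ Icc a b, ∃ K ε : ℝ, 0 < ε ∧ ∀ s s', a ≤ s → s ≤ s' → s' ≤ b → |s - t| < ε →
      |s' - t| < ε → (s = t ∨ s' = t) →
      ‖h s' - h s - ((s' - s : ℝ) : ℂ) * M s‖ ≤ (s' - s) * E s + K * (s' - s) ^ 2) :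
    ‖h b - h a - ∫ s in a..b, M s‖ ≤ ∫ s in a..b, E s := by
  let p : ℝ → ℝ := fun s => (projIcc a b hab s : ℝ)
  have hp : Continuous p := continuous_subtype_val.comp continuous_projIcc
  have hpm : ∀ s, p s ∈ Icc a b := fun s => (projIcc a b hab s).2
  have hpe : ∀ s ∈ Icc a b, p s = s := fun s hs => by simp [p, projIcc_of_mem hab hs]
  have hM' : Continuous fun s => M (p s) := hM.comp_continuous hp hpm
  have hE' : Continuous fun s => E (p s) := hE.comp_continuous hp hpm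
  have e1 : ∫ s in a..b, M s = ∫ s in a..b, M (p s) :=
    intervalIntegral.integral_congr fun s hs => by rw [hpe s (by rwa [uIcc_of_le hab] at hs)]
  have e2 : ∫ s in a..b, E s = ∫ s in a..b, E (p s) :=
    intervalIntegral.integral_congr fun s hs => by rw [hpe s (by rwa [uIcc_of_le hab] at hs)]
  rw [e1, e2]
  let I : ℝ → ℂ := fun t => ∫ s in a..t, M (p s)
  let J : ℝ → ℝ := fun t => ∫ s in a..t, E (p s)
  have hI : ∀ t, HasDerivAt I (M (p t)) t := fun t => (hM'.integral_hasStrictDerivAt a t).hasDerivAt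
  have hJ : ∀ t, HasDerivAt J (E (p t)) t := fun t => (hE'.integral_hasStrictDerivAt a t).hasDerivAt
  have hc : ContinuousOn h (Icc a b) := by
    intro t ht
    obtain ⟨K, ε, hε, hK⟩ := H t ht
    have hb : Tendsto (fun s => |s - t| * (‖M (p s)‖ + ‖M (p t)‖ + |E (p s)| + |E (p t)|) +
        |K| * (s - t) ^ 2) (𝓝[Icc a b] t) (𝓝 0) := by
      have hcont : Continuous fun s => |s - t| * (‖M (p s)‖ + ‖M (p t)‖ + |E (p s)| + |E (p t)|) +
          |K| * (s - t) ^ 2 :=
        (((continuous_id.sub continuous_const).abs).mul (((hM'.norm.add continuous_const).add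
          hE'.abs).add continuous_const)).add (by fun_prop)
      have := hcont.tendsto t
      simp only [sub_self, abs_zero, zero_mul, ne_eq, OfNat.ofNat_ne_zero, not_false_eq_true,
        zero_pow, mul_zero, add_zero] at this
      exact this.mono_left nhdsWithin_le_nhds
    refine tendsto_iff_norm_sub_tendsto_zero.2 (squeeze_zero' (Eventually.of_forall fun _ =>
      norm_nonneg _) ?_ hb)
    have hev : ∀ᶠ s in 𝓝[Icc a b] t, |s - t| < ε := by
      refine mem_nhdsWithin_of_mem_nhds ?_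
      filter_upwards [ball_mem_nhds t hε] with s hs using by rwa [mem_ball, Real.dist_eq] at hs
    filter_upwards [hev, self_mem_nhdsWithin] with s hs hsm
    rw [hpe s hsm, hpe t ht]
    have hK2 : K * (s - t) ^ 2 ≤ |K| * (s - t) ^ 2 := by gcongr; exact le_abs_self K
    rcases le_total s t with hst | hst
    · have h1 := hK s t hsm.1 hst ht.2 hs (by simpa using hε) (Or.inr rfl)
      have h2 := norm_add_le (h t - h s - ((t - s : ℝ) : ℂ) * M s) (((t - s : ℝ) : ℂ) * M s)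
      rw [sub_add_cancel, norm_mul, Complex.norm_real, Real.norm_of_nonneg (by linarith)] at h2
      rw [norm_sub_rev, abs_sub_comm, abs_of_nonneg (show 0 ≤ t - s by linarith)]
      have h3 : (t - s) ^ 2 = (s - t) ^ 2 := by ring
      rw [h3] at h1
      have h4 := le_abs_self (E s)
      have h5 : 0 ≤ t - s := by linarith
      nlinarith [norm_nonneg (M t), abs_nonneg (E t), mul_le_mul_of_nonneg_left h4 h5,
        mul_nonneg h5 (norm_nonneg (M t)), mul_nonneg h5 (abs_nonneg (E t))]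
    · have h1 := hK t s ht.1 hst hsm.2 (by simpa using hε) hs (Or.inl rfl)
      have h2 := norm_add_le (h s - h t - ((s - t : ℝ) : ℂ) * M t) (((s - t : ℝ) : ℂ) * M t)
      rw [sub_add_cancel, norm_mul, Complex.norm_real, Real.norm_of_nonneg (by linarith)] at h2
      rw [abs_of_nonneg (show 0 ≤ s - t by linarith)]
      have h4 := le_abs_self (E t)
      have h5 : 0 ≤ s - t := by linarith
      nlinarith [mul_le_mul_of_nonneg_left h4 h5,
        mul_nonneg h5 (norm_nonneg (M s)), mul_nonneg h5 (abs_nonneg (E s))]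
  have hIc : Continuous I := continuous_iff_continuousAt.2 fun t => (hI t).continuousAt
  have hJc : Continuous J := continuous_iff_continuousAt.2 fun t => (hJ t).continuousAt
  refine image_le_of_liminf_slope_right_le_deriv_boundary (f := fun t => ‖h t - h a - I t‖)
    (B := J) (B' := fun t => E (p t)) (a := a) (b := b)
    ((hc.sub continuousOn_const).sub hIc.continuousOn).norm (by simp [I, J]) hJc.continuousOn
    (fun t _ => (hJ t).hasDerivWithinAt) (fun t ht r hr => ?_) (right_mem_Icc.2 hab)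
  obtain ⟨K, ε, hε, hK⟩ := H t (Ico_subset_Icc_self ht)
  have hpt := hpe t (Ico_subset_Icc_self ht)
  simp only [hpt] at hr
  set η := (r - E t) / 3 with hη
  have hη0 : 0 < η := by rw [hη]; linarith
  have h1 : ∀ᶠ z in 𝓝 t, ‖I z - I t - (z - t) • M (p t)‖ ≤ η * ‖z - t‖ :=
    (hasDerivAt_iff_isLittleO.1 (hI t)).bound hη0
  have h2 : ∀ᶠ z in 𝓝 t, K * (z - t) < η :=
    (show ContinuousAt (fun z => K * (z - t)) t by fun_prop).eventually_lt continuousAt_const
      (by simpa using hη0)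
  have h3 : ∀ᶠ z in 𝓝 t, |z - t| < ε := by
    filter_upwards [ball_mem_nhds t hε] with s hs using by rwa [mem_ball, Real.dist_eq] at hs
  have h4 : ∀ᶠ z in 𝓝 t, z < b := eventually_lt_nhds ht.2
  refine Eventually.frequently ?_
  filter_upwards [mem_nhdsWithin_of_mem_nhds h1, mem_nhdsWithin_of_mem_nhds h2,
    mem_nhdsWithin_of_mem_nhds h3, mem_nhdsWithin_of_mem_nhds h4, self_mem_nhdsWithin]
    with z z1 z2 z3 z4 z5
  have z6 : 0 < z - t := sub_pos.2 z5
  have z7 := hK t z ht.1 (by linarith) z4.le (by simpa using hε) z3 (Or.inl rfl)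
  rw [hpt, Real.norm_of_nonneg z6.le, Complex.real_smul] at z1
  rw [slope_def_field, div_lt_iff₀ z6]
  have z8 : h z - h a - I z = (h t - h a - I t) + ((h z - h t - ((z - t : ℝ) : ℂ) * M t) -
      (I z - I t - ((z - t : ℝ) : ℂ) * M t)) := by ring
  have z9 := norm_add_le (h t - h a - I t) ((h z - h t - ((z - t : ℝ) : ℂ) * M t) -
      (I z - I t - ((z - t : ℝ) : ℂ) * M t))
  have z10 := norm_sub_le (h z - h t - ((z - t : ℝ) : ℂ) * M t) (I z - I t - ((z - t : ℝ) : ℂ) * M t)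
  rw [← z8] at z9
  have z11 : K * (z - t) ^ 2 ≤ η * (z - t) := by nlinarith
  have z12 : r = E t + 3 * η := by rw [hη]; ring
  rw [z12]
  nlinarith [mul_pos hη0 z6]

variable [NormedSpace ℂ V]

/-- a uniform limit of holomorphic maps is holomorphic -/
theorem diffOn_of_unif [CompleteSpace V] {P : Type*} [NormedAddCommGroup P] [NormedSpace ℂ P]
    {U : Set P} (hU : IsOpen U) {f : ℝ → P → V} {T : P → V} {e : ℝ → ℝ}
    (he : Tendsto e atTop (𝓝 0))
    (hf : ∀ᶠ R in atTop, DifferentiableOn ℂ (f R) U ∧ ∀ x ∈ U, ‖f R x - T x‖ ≤ e R) :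
    DifferentiableOn ℂ T U := by
  intro a ha
  obtain ⟨r, hr, hrU⟩ := Metric.isOpen_iff.1 hU a ha
  obtain ⟨R₁, hR₁⟩ := eventually_atTop.1 (hf.and (he.eventually_lt_const one_pos))
  have hfd : ∀ R, R₁ ≤ R → DifferentiableAt ℂ (f R) a := fun R hR =>
    (hR₁ R hR).1.1.differentiableAt (hU.mem_nhds ha)
  have hb : ∀ R R', R₁ ≤ R → R₁ ≤ R' → ∀ x ∈ ball a r, ‖f R x - f R' x‖ ≤ e R + e R' := by
    intro R R' h1 h2 x hx
    have h3 := norm_sub_le (f R x - T x) (f R' x - T x)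
    rw [sub_sub_sub_cancel_right] at h3
    linarith [(hR₁ R h1).1.2 x (hrU hx), (hR₁ R' h2).1.2 x (hrU hx)]
  have hd : ∀ R R', R₁ ≤ R → R₁ ≤ R' → DifferentiableOn ℂ (fun x => f R x - f R' x) (ball a r) :=
    fun R R' h1 h2 => ((hR₁ R h1).1.1.mono hrU).sub ((hR₁ R' h2).1.1.mono hrU)
  have hcs : CauchySeq fun R => fderiv ℂ (f R) a := by
    rw [Metric.cauchySeq_iff']
    intro ε hε
    obtain ⟨N, hN⟩ := eventually_atTop.1 (he.eventually_lt_const (show 0 < ε * r / 4 by positivity))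
    refine ⟨max N R₁, fun R hR => ?_⟩
    have h1 := le_trans (le_max_right _ _) hR
    have h2 := fderiv_le hr (hd R _ h1 (le_max_right N R₁)) (hb R _ h1 (le_max_right N R₁))
    rw [fderiv_fun_sub (hfd R h1) (hfd _ (le_max_right N R₁))] at h2
    rw [dist_eq_norm]
    refine h2.trans_lt ?_
    rw [div_lt_iff₀ hr]
    linarith [hN R (le_trans (le_max_left _ _) hR), hN _ (le_max_left N R₁)]
  obtain ⟨L, hL⟩ := cauchySeq_tendsto_of_complete hcs
  have hT : ∀ x ∈ U, Tendsto (fun R => f R x) atTop (𝓝 (T x)) := fun x hx =>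
    tendsto_iff_norm_sub_tendsto_zero.2 (squeeze_zero' (Eventually.of_forall fun _ => norm_nonneg _)
      (hf.mono fun R hR => hR.2 x hx) he)
  have h1 : HasFDerivAt (fun x => T x - f R₁ x) (L - fderiv ℂ (f R₁) a) a := by
    refine hasFDerivAt_of_quad (C := 4 * 2 / r ^ 2) hr fun q hq => ?_
    have h2 : Tendsto (fun R => ‖(f R q - f R₁ q) - (f R a - f R₁ a) -
        (fderiv ℂ (f R) a - fderiv ℂ (f R₁) a) (q - a)‖) atTop
        (𝓝 ‖(T q - f R₁ q) - (T a - f R₁ a) - (L - fderiv ℂ (f R₁) a) (q - a)‖) := by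
      refine Tendsto.norm (Tendsto.sub (((hT q (hrU hq)).sub_const _).sub ((hT a ha).sub_const _))
        ?_)
      exact ((ContinuousLinearMap.apply ℂ V (q - a)).continuous.tendsto _).comp (hL.sub_const _)
    refine le_of_tendsto h2 ?_
    filter_upwards [eventually_ge_atTop R₁] with R hR
    have h3 := rem_le (M := 2) (hd R R₁ hR le_rfl) (fun x hx => (hb R R₁ hR le_rfl x hx).trans
      (by linarith [(hR₁ R hR).2, (hR₁ R₁ le_rfl).2])) hq
    rwa [fderiv_fun_sub (hfd R hR) (hfd R₁ le_rfl)] at h3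
  have h2 := h1.differentiableAt.add (hfd R₁ le_rfl)
  refine DifferentiableAt.differentiableWithinAt ?_
  convert h2 using 1
  ext x
  simp

/-- closed real subspaces -/
structure RS (A : Set V) : Prop where
  closed : IsClosed A
  zero : (0 : V) ∈ A
  sub : ∀ u ∈ A, ∀ v ∈ A, u - v ∈ A
  smul : ∀ t : ℝ, ∀ v ∈ A, (t : ℂ) • v ∈ A

theorem RS.add {A : Set V} (hA : RS A) {u v : V} (hu : u ∈ A) (hv : v ∈ A) : u + v ∈ A := by
  have := hA.sub u hu _ (hA.sub 0 hA.zero v hv)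
  simpa using this

theorem RS.deriv_mem {A : Set V} (hA : RS A) {h : ℂ → V} {h' : V} {t₀ : ℝ}
    (hd : HasDerivAt h h' (t₀ : ℂ)) (hr : ∀ᶠ t : ℝ in 𝓝 t₀, h t ∈ A) : h' ∈ A := by
  have h1 : Tendsto (fun t : ℝ => (t : ℂ)) (𝓝[≠] 0) (𝓝[≠] 0) := by
    refine tendsto_nhdsWithin_iff.2 ⟨?_, ?_⟩
    · have := Complex.continuous_ofReal.tendsto 0
      rw [Complex.ofReal_zero] at this
      exact this.mono_left nhdsWithin_le_nhds
    · filter_upwards [self_mem_nhdsWithin] with t ht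
      exact Complex.ofReal_ne_zero.2 ht
  refine hA.closed.mem_of_tendsto (hd.tendsto_slope_zero.comp h1) ?_
  have h2 : Tendsto (fun t : ℝ => t₀ + t) (𝓝[≠] 0) (𝓝 t₀) := by
    have : Tendsto (fun t : ℝ => t₀ + t) (𝓝 0) (𝓝 (t₀ + 0)) := tendsto_id.const_add t₀
    rw [add_zero] at this
    exact this.mono_left nhdsWithin_le_nhds
  filter_upwards [h2.eventually hr] with t ht
  have h3 := hA.smul t⁻¹ _ (hA.sub _ ht _ hr.self_of_nhds)
  simpa using h3

theorem RS.iteratedDeriv_mem [CompleteSpace V] {A : Set V} (hA : RS A) {h : ℂ → V} {s : ℝ}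
    (hd : DifferentiableOn ℂ h (ball 0 s)) (hr : ∀ t : ℝ, |t| < s → h t ∈ A) (n : ℕ) :
    ∀ t : ℝ, |t| < s → iteratedDeriv n h t ∈ A := by
  induction n generalizing h with
  | zero => simpa using hr
  | succ n ih =>
    rw [iteratedDeriv_succ']
    refine ih (hd.deriv isOpen_ball) fun t ht => ?_
    have h1 : (t : ℂ) ∈ ball (0 : ℂ) s := by simpa using ht
    refine hA.deriv_mem (hd.differentiableAt (isOpen_ball.mem_nhds h1)).hasDerivAt ?_
    have : ∀ᶠ u : ℝ in 𝓝 t, |u| < s := continuous_abs.continuousAt.eventually_lt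
      continuousAt_const ht
    exact this.mono hr

/-- the real vectors -/
theorem rs_pi (ι : Type*) [Fintype ι] : RS {v : ι → ℂ | ∀ j, (v j).im = 0} where
  closed := by
    rw [ofPred_forall]
    exact isClosed_iInter fun j => isClosed_eq (by fun_prop) continuous_const
  zero := fun j => rfl
  sub := fun u hu v hv j => by simp [hu j, hv j]
  smul := fun t v hv j => by simp [hv j]

variable {q m : ℕ}

/-- polydisc -/
def W (q m : ℕ) (r ρ : ℝ) : Set (X q m) := {x | ‖x.1‖ < r ∧ ‖x.2‖ < ρ}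

theorem isOpen_W (r ρ : ℝ) : IsOpen (W q m r ρ) :=
  IsOpen.inter (isOpen_lt continuous_fst.norm continuous_const)
    (isOpen_lt continuous_snd.norm continuous_const)

theorem isOpen_dom (r : ℝ) {U : Set ℂ} (hU : IsOpen U) : IsOpen (dom q m r U) := by
  refine IsOpen.inter (isOpen_lt continuous_fst.norm continuous_const) ?_
  show IsOpen {x : X q m | ∀ j, x.2 j ∈ U}
  rw [ofPred_forall]
  exact isOpen_iInter_of_finite fun j => hU.preimage (by fun_prop)

theorem W_subset_dom {r ρ : ℝ} {U : Set ℂ} (h : ball 0 ρ ⊆ U) : W q m r ρ ⊆ dom q m r U :=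
  fun x hx => ⟨hx.1, fun j => h (mem_ball_zero_iff.2 ((norm_le_pi_norm x.2 j).trans_lt hx.2))⟩

theorem dom_mono {r r' : ℝ} {U U' : Set ℂ} (hr : r ≤ r') (h : U ⊆ U') :
    dom q m r U ⊆ dom q m r' U' := fun _ hx => ⟨hx.1.trans_le hr, fun j => h (hx.2 j)⟩

/-- homogeneous component of degree `n` in `c` -/
def hc (n : ℕ) (g : X q m → V) (x : X q m) : V :=
  (n.factorial : ℂ)⁻¹ • iteratedDeriv n (fun t : ℂ => g (x.1, t • x.2)) 0

/-- Taylor polynomial of order two in `c` -/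
def tp (g : X q m → V) (x : X q m) : V := ∑ n ∈ Finset.range 3, hc n g x

variable {g g' : X q m → V} {r ρ M ν : ℝ} {x : X q m}

theorem ray_mem (hx : ‖x.1‖ < r) (hν : ‖x.2‖ ≤ ν) (hν0 : 0 < ν) {t : ℂ} (ht : ‖t‖ < ρ / ν) :
    ((x.1, t • x.2) : X q m) ∈ W q m r ρ := by
  refine ⟨hx, ?_⟩
  show ‖t • x.2‖ < ρ
  rw [norm_smul]
  rw [lt_div_iff₀ hν0] at ht
  exact (mul_le_mul_of_nonneg_left hν (norm_nonneg t)).trans_lt ht

theorem ray_diff (hd : DifferentiableOn ℂ g (W q m r ρ)) (hx : ‖x.1‖ < r) (hν : ‖x.2‖ ≤ ν)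
    (hν0 : 0 < ν) : DifferentiableOn ℂ (fun t : ℂ => g (x.1, t • x.2)) (ball 0 (ρ / ν)) :=
  hd.comp (by fun_prop) fun t ht => ray_mem hx hν hν0 (mem_ball_zero_iff.1 ht)

variable [CompleteSpace V]

theorem norm_hc_le (hρ : 0 < ρ) (hd : DifferentiableOn ℂ g (W q m r ρ))
    (hb : ∀ z ∈ W q m r ρ, ‖g z‖ ≤ M) (hx : ‖x.1‖ < r) (hν : ‖x.2‖ ≤ ν) (hν0 : 0 < ν) (n : ℕ) :
    ‖hc n g x‖ ≤ M * (2 * ν / ρ) ^ n := by
  have hs : 0 < ρ / (2 * ν) := by positivity
  have hlt : ρ / (2 * ν) < ρ / ν := div_lt_div_of_pos_left hρ hν0 (by linarith)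
  have h1 := Complex.norm_iteratedDeriv_le_of_forall_mem_sphere_norm_le n hs
    ((ray_diff hd hx hν hν0).diffContOnCl_ball (closedBall_subset_ball hlt))
    (fun t ht => hb _ (ray_mem hx hν hν0 (by rw [mem_sphere_zero_iff_norm.1 ht]; exact hlt)))
  have hn : (0 : ℝ) < n.factorial := by exact_mod_cast n.factorial_pos
  rw [hc, norm_smul, norm_inv, Complex.norm_natCast, inv_mul_le_iff₀ hn]
  refine h1.trans (le_of_eq ?_)
  rw [div_pow, div_pow]
  field_simp

theorem norm_tp_le (hρ : 0 < ρ) (hd : DifferentiableOn ℂ g (W q m r ρ))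
    (hb : ∀ z ∈ W q m r ρ, ‖g z‖ ≤ M) (hx : ‖x.1‖ < r) (hν : ‖x.2‖ ≤ ν) (hν0 : 0 < ν) :
    ‖tp g x‖ ≤ M * (1 + 2 * ν / ρ + (2 * ν / ρ) ^ 2) := by
  refine (norm_sum_le_of_le _ fun n _ => norm_hc_le hρ hd hb hx hν hν0 n).trans (le_of_eq ?_)
  simp only [Finset.sum_range_succ, Finset.sum_range_zero]
  ring

theorem norm_sub_tp_le (hρ : 0 < ρ) (hd : DifferentiableOn ℂ g (W q m r ρ))
    (hb : ∀ z ∈ W q m r ρ, ‖g z‖ ≤ M) (hx : ‖x.1‖ < r) (hν : ‖x.2‖ ≤ ν) (hν0 : 0 < ν)
    (h4 : 4 * ν ≤ ρ) : ‖g x - tp g x‖ ≤ 2 * M * (2 * ν / ρ) ^ 3 := by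
  have h1 : (1 : ℂ) ∈ ball (0 : ℂ) (ρ / ν) := by
    rw [mem_ball_zero_iff, norm_one, lt_div_iff₀ hν0]; linarith
  have h2 := Complex.hasSum_taylorSeries_on_ball (ray_diff hd hx hν hν0) h1
  simp only [sub_zero, one_pow, one_smul] at h2
  have hκ : 2 * ν / ρ ≤ 1 / 2 := by rw [div_le_iff₀ hρ]; linarith
  have h3 := norm_sub_le_of_geometric_bound_of_hasSum (show 2 * ν / ρ < 1 by linarith)
    (fun n => norm_hc_le hρ hd hb hx hν hν0 n) h2 3
  have hM : 0 ≤ M := (norm_nonneg _).trans (hb x ⟨hx, by linarith⟩)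
  rw [norm_sub_rev]
  refine h3.trans ?_
  rw [div_le_iff₀ (by linarith)]
  have : 0 ≤ M * (2 * ν / ρ) ^ 3 := by positivity
  nlinarith

theorem tp_sub (hρ : 0 < ρ) (hd : DifferentiableOn ℂ g (W q m r ρ))
    (hd' : DifferentiableOn ℂ g' (W q m r ρ)) (hx : ‖x.1‖ < r) :
    tp (fun z => g z - g' z) x = tp g x - tp g' x := by
  have hν0 : 0 < ‖x.2‖ + 1 := by positivity
  have hν : ‖x.2‖ ≤ ‖x.2‖ + 1 := by linarith
  have h0 : ball (0 : ℂ) (ρ / (‖x.2‖ + 1)) ∈ 𝓝 (0 : ℂ) := ball_mem_nhds _ (by positivity)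
  rw [tp, tp, tp, ← Finset.sum_sub_distrib]
  refine Finset.sum_congr rfl fun n _ => ?_
  rw [hc, hc, hc, ← smul_sub, ← iteratedDeriv_sub
    ((ray_diff hd hx hν hν0).analyticAt h0).contDiffAt
    ((ray_diff hd' hx hν hν0).analyticAt h0).contDiffAt]
  rfl

theorem tp_mem {A : Set V} (hA : RS A) (hρ : 0 < ρ) (hd : DifferentiableOn ℂ g (W q m r ρ))
    (hr : ∀ z ∈ W q m r ρ, IsRe z → g z ∈ A) (hx : ‖x.1‖ < r) (hre : IsRe x) : tp g x ∈ A := by
  have hν0 : 0 < ‖x.2‖ + 1 := by positivity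
  have hν : ‖x.2‖ ≤ ‖x.2‖ + 1 := by linarith
  have h1 : ∀ n, hc n g x ∈ A := fun n => by
    have h2 := hA.iteratedDeriv_mem (ray_diff hd hx hν hν0) (fun t ht => hr _
      (ray_mem hx hν hν0 (by simpa using ht)) ⟨hre.1, fun j => by simp [hre.2 j]⟩) n 0
      (by simp; positivity)
    have h3 := hA.smul ((n.factorial : ℝ)⁻¹) _ h2
    simpa [hc] using h3
  simp only [tp, Finset.sum_range_succ, Finset.sum_range_zero, zero_add]
  exact hA.add (hA.add (h1 0) (h1 1)) (h1 2)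

theorem tp_diff (hρ : 0 < ρ) (hd : DifferentiableOn ℂ g (W q m r ρ)) (N : ℝ) :
    DifferentiableOn ℂ (tp g) (W q m r N) := by
  refine DifferentiableOn.fun_sum fun n _ => DifferentiableOn.const_smul ?_ _
  have hm : ∀ x ∈ W q m r N, ((x.1, 0) : X q m) ∈ W q m r ρ := fun x hx => ⟨hx.1, by simpa using hρ⟩
  have h1 : ∀ x ∈ W q m r N, iteratedDeriv n (fun t : ℂ => g (x.1, t • x.2)) 0 =
      iteratedFDeriv ℂ n g (x.1, 0) fun _ => (0, x.2) := fun x hx => by
    have := P281.MF.iteratedDeriv_line (isOpen_W r ρ)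
      (P281.MF.contDiffOn_of_differentiableOn (isOpen_W r ρ) hd n) (x := (x.1, 0)) (y := (0, x.2))
      (t := 0) (by simpa using hm x hx)
    simpa using this
  refine DifferentiableOn.congr (fun x hx => ?_) h1
  have h2 : DifferentiableAt ℂ (iteratedFDeriv ℂ n g) (x.1, 0) :=
    ((P281.MF.contDiffOn_of_differentiableOn (isOpen_W r ρ) hd (n + 1)).contDiffAt
      ((isOpen_W r ρ).mem_nhds (hm x hx))).differentiableAt_iteratedFDeriv
      (by exact_mod_cast Nat.lt_succ_self n)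
  have h3 : DifferentiableAt ℂ (fun x : X q m => iteratedFDeriv ℂ n g (x.1, 0)) x :=
    h2.comp x (f := fun x : X q m => ((x.1, 0) : X q m)) (by fun_prop)
  have h4 : DifferentiableAt ℂ (fun x : X q m => ((0, x.2) : X q m)) x := by fun_prop
  exact (h3.hasFDerivAt.continuousMultilinearMap_apply
    fun _ => h4.hasFDerivAt).differentiableAt.differentiableWithinAt

end Vale.Agent.P218F.Nm
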