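import Vale.Agent.P218F.Norm2

/-!
# P218, block NORMAL, part 3: the true coordinates
-/

noncomputable section

namespace Vale.Agent.P218F.Nm

open Set Metric Filter Topology Asymptotics
open Vale.Agent.P218F.Core

variable {q m : ℕ}

/-- real vectors -/
def Re (m : ℕ) : Set (Fin m → ℂ) := {v | ∀ j, (v j).im = 0}

theorem rs_Re (m : ℕ) : RS (Re m) := rs_pi (Fin m)

theorem shift_mem {p : X q m} {z : Fin m → ℂ} {s : ℝ} (hz : ‖z‖ < s) :
    ((p.1, p.2 + z) : X q m) ∈ ball p s := by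
  rw [mem_ball_iff_norm, show ((p.1, p.2 + z) : X q m) - p = (0, z) by ext <;> simp]
  simpa using hz

theorem exists_zeta {G H T : X q m → Fin m → ℂ} {D U : Set (X q m)}
    {A B : (Fin m → ℂ) →L[ℂ] (Fin m → ℂ)} {ρ η K : ℝ} (hρ : 0 < ρ) (hU : IsOpen U)
    (hG : DifferentiableOn ℂ G D) (hH : DifferentiableOn ℂ H U) (hD : ∀ p ∈ U, ball p (2 * ρ) ⊆ D)
    (hGT : ∀ x ∈ D, ‖G x - T x‖ ≤ η) (hHT : ∀ p ∈ U, ‖H p - T p‖ ≤ η)
    (hT : ∀ p ∈ U, ∀ z, ‖z‖ < 2 * ρ → K * ‖T (p.1, p.2 + z) - T p - A z‖ ≤ ‖z‖ / 16)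
    (hBA : ∀ v, B (A v) = v) (hAB : ∀ v, A (B v) = v) (hB : ∀ v, ‖B v‖ ≤ K * ‖v‖) (hK : 0 ≤ K)
    (hη : K * η ≤ ρ / 16) (hBr : ∀ v ∈ Re m, B v ∈ Re m) (hGr : ∀ x ∈ D, IsRe x → G x ∈ Re m)
    (hHr : ∀ x ∈ U, IsRe x → H x ∈ Re m) :
    ∃ ζ : X q m → Fin m → ℂ, DifferentiableOn ℂ ζ U ∧ ∀ p ∈ U, ‖ζ p‖ ≤ ρ / 4 ∧
      ‖ζ p‖ ≤ 4 * K * η ∧ G (p.1, p.2 + ζ p) = H p ∧
      (∀ z, ‖z‖ < ρ → ‖z - ζ p‖ ≤ 2 * K * ‖G (p.1, p.2 + z) - H p‖) ∧ (IsRe p → ζ p ∈ Re m) := by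
  obtain ⟨ζ, h1, h2⟩ := exists_fix_param
    (R := fun w : (Fin m → ℂ) × X q m => w.1 - B (G (w.2.1, w.2.2 + w.1) - H w.2)) hρ hU
    (by
      refine differentiableOn_fst.sub (B.differentiable.comp_differentiableOn ?_)
      refine DifferentiableOn.sub (hG.comp (by fun_prop) fun w hw => ?_)
        (hH.comp differentiableOn_snd fun w hw => hw.2)
      exact hD _ hw.2 (shift_mem (mem_ball_zero_iff.1 hw.1)))
    (fun z hz p hp => by
      have hz' := mem_ball_zero_iff.1 hz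
      have a1 := hGT _ (hD p hp (shift_mem hz'))
      have a2 := hHT p hp
      have a3 := hT p hp z hz'
      have a4 : z - B (G (p.1, p.2 + z) - H p) = -B ((G (p.1, p.2 + z) - T (p.1, p.2 + z)) -
          (H p - T p) + (T (p.1, p.2 + z) - T p - A z)) := by
        rw [show (G (p.1, p.2 + z) - T (p.1, p.2 + z)) - (H p - T p) +
          (T (p.1, p.2 + z) - T p - A z) = (G (p.1, p.2 + z) - H p) - A z by abel, map_sub B _ (A z),
          hBA]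
        abel
      show ‖z - B (G (p.1, p.2 + z) - H p)‖ ≤ ρ / 4
      rw [a4, norm_neg]
      refine (hB _).trans ?_
      have a5 := (norm_add_le _ (T (p.1, p.2 + z) - T p - A z)).trans (add_le_add_left
        ((norm_sub_le _ _).trans (add_le_add a1 a2)) _)
      linarith [mul_le_mul_of_nonneg_left a5 hK])
  have h3 : ∀ p ∈ U, ∀ z, ‖z‖ < ρ → ‖z - ζ p‖ ≤ 2 * K * ‖G (p.1, p.2 + z) - H p‖ :=
    fun p hp z hz => by
      have := (h2 p hp).2.2.1 z (mem_ball_zero_iff.2 hz)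
      simp only [sub_sub_cancel] at this
      linarith [hB (G (p.1, p.2 + z) - H p)]
  refine ⟨ζ, h1, fun p hp => ⟨(h2 p hp).1, ?_, ?_, h3 p hp, fun hre => ?_⟩⟩
  · have a1 := h3 p hp 0 (by simpa using hρ)
    have a2 := hGT p (hD p hp (mem_ball_self (by positivity)))
    have a3 := norm_sub_le (G p - T p) (H p - T p)
    rw [sub_sub_sub_cancel_right] at a3
    simp only [zero_sub, norm_neg, add_zero, Prod.mk.eta] at a1
    have a4 : ‖G p - H p‖ ≤ 2 * η := by linarith [hHT p hp]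
    linarith [mul_le_mul_of_nonneg_left a4 hK]
  · have a1 := (h2 p hp).2.1
    simp only [sub_eq_self] at a1
    have a2 := hAB (G (p.1, p.2 + ζ p) - H p)
    rw [a1, map_zero] at a2
    exact sub_eq_zero.1 a2.symm
  · refine (h2 p hp).2.2.2 (Re m) (rs_Re m).closed (rs_Re m).zero fun z hz hz' => ?_
    refine (rs_Re m).sub _ hz _ (hBr _ ((rs_Re m).sub _ (hGr _ (hD p hp (shift_mem (by linarith)))
      ⟨hre.1, fun j => ?_⟩) _ (hHr p hp hre)))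
    simp [hre.2 j, hz j]

theorem exists_inverse {A : (Fin m → ℂ) →L[ℂ] (Fin m → ℂ)} {K : ℝ} (hA : ∀ w, ‖w‖ ≤ K * ‖A w‖)
    (hr : ∀ v ∈ Re m, A v ∈ Re m) : ∃ B : (Fin m → ℂ) →L[ℂ] (Fin m → ℂ), (∀ v, B (A v) = v) ∧
      (∀ v, A (B v) = v) ∧ (∀ v, ‖B v‖ ≤ K * ‖v‖) ∧ ∀ v ∈ Re m, B v ∈ Re m := by
  have h0 : ∀ w, A w = 0 → w = 0 := fun w hw => by simpa [hw] using hA w
  let e := (LinearEquiv.ofInjectiveEndo (A : (Fin m → ℂ) →ₗ[ℂ] (Fin m → ℂ))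
    ((injective_iff_map_eq_zero _).2 h0)).toContinuousLinearEquiv
  have h1 : ∀ v, A (e.symm v) = v := fun v => e.apply_symm_apply v
  refine ⟨e.symm, fun v => e.symm_apply_apply v, h1, fun v => ?_, fun v hv => ?_⟩
  · have := hA (e.symm v)
    rwa [h1] at this
  · let u : Fin m → ℂ := fun j => (e.symm v j).re
    let u' : Fin m → ℂ := fun j => (e.symm v j).im
    have h2 : e.symm v = u + Complex.I • u' := by
      ext j
      simp only [u, u', Pi.add_apply, Pi.smul_apply, smul_eq_mul]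
      rw [mul_comm, Complex.re_add_im]
    have h3 := hr u fun j => by simp [u]
    have h4 := hr u' fun j => by simp [u']
    have h5 := h1 v
    rw [h2, map_add, map_smul] at h5
    have h6 : A u' = 0 := by
      ext j
      have a1 := congrArg (fun w => (w j).im) h5
      simp only [Pi.add_apply, Pi.smul_apply, smul_eq_mul, Complex.add_im, Complex.mul_im,
        Complex.I_re, Complex.I_im, h3 j, hv j, zero_mul, one_mul, zero_add] at a1
      exact Complex.ext a1 (h4 j)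
    intro j
    have := congrFun (h0 u' h6) j
    simpa [u'] using this

/-- the change of coordinates `c = w + ζ R (b, w)` -/
structure Zeta (d Λ R1 r2 K : ℝ) (a : ℝ → X q m → Fin m → ℂ) (T : X q m → Fin m → ℂ)
    (ζ : ℝ → X q m → Fin m → ℂ) : Prop where
  nonneg : 0 ≤ K
  hol : ∀ R, R1 ≤ R → DifferentiableOn ℂ (ζ R) (dom q m r2 (Sym.Om (4 * Λ) R))
  le : ∀ R, R1 ≤ R → ∀ p ∈ dom q m r2 (Sym.Om (4 * Λ) R), ‖ζ R p‖ ≤ 1 / R ^ 4 / 4
  le' : ∀ R, R1 ≤ R → ∀ p ∈ dom q m r2 (Sym.Om (4 * Λ) R), ‖ζ R p‖ ≤ K * R ^ (-4 - d)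
  eq : ∀ R, R1 ≤ R → ∀ p ∈ dom q m r2 (Sym.Om (4 * Λ) R), a R (p.1, p.2 + ζ R p) = T p
  uniq : ∀ R, R1 ≤ R → ∀ p ∈ dom q m r2 (Sym.Om (4 * Λ) R), ∀ z, ‖z‖ < 1 / R ^ 4 →
    ‖z - ζ R p‖ ≤ K * ‖a R (p.1, p.2 + z) - T p‖
  real : ∀ R, R1 ≤ R → ∀ p ∈ dom q m r2 (Sym.Om (4 * Λ) R), IsRe p → ζ R p ∈ Re m
  back : ∀ R, R1 ≤ R → ∀ x ∈ dom q m r2 (Sym.Om (4 * Λ) R), IsRe x → ∃ z ∈ Re m,
    ‖z‖ ≤ 1 / R ^ 4 / 4 ∧ ‖z‖ ≤ K * R ^ (-4 - d) ∧ T (x.1, x.2 + z) = a R x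

theorem tendsto_inv_pow (c : ℝ) {n : ℕ} (hn : n ≠ 0) :
    Tendsto (fun R : ℝ => c / R ^ n) atTop (𝓝 0) :=
  tendsto_const_nhds.div_atTop (tendsto_pow_atTop hn)

theorem exists_Zeta {d Λ R0 r C C' : ℝ} {a : ℝ → X q m → Fin m → ℂ} {T : X q m → Fin m → ℂ}
    (hd : 0 < d) (hΛ : 1 ≤ Λ) (hN : Nest R0 (Sym.Om (2 * Λ))) (ha : PFam d (2 * Λ) R0 r C a)
    (hT : IsLim d (2 * Λ) R0 r C' a T)
    (hre : ∀ R, R0 ≤ R → ∀ x ∈ dom q m r (Sym.Om (2 * Λ) R), IsRe x → a R x ∈ Re m)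
    (hnd : ∀ R, R0 ≤ R → ∀ w : Fin m → ℂ, ‖w‖ ≤ C * ‖fderiv ℂ (a R) 0 (0, w)‖) :
    ∃ (R1 r2 K : ℝ) (ζ : ℝ → X q m → Fin m → ℂ), R0 ≤ R1 ∧ 2 ≤ R1 ∧ 0 < r2 ∧ r2 ≤ r / 2 ∧
      (∀ R, R1 ≤ R → 1 / R ^ 4 ≤ min (r2 / 2) (1 / 2)) ∧ Zeta d Λ R1 r2 K a T ζ := by
  have hC := ha.nonneg hN
  have hC' := hT.nonneg
  have hr := ha.rpos
  have hTr := hT.real _ (rs_Re m) hre
  have h0 : (0 : X q m) ∈ W q m r 7 := ⟨by simpa using hr, by simp⟩
  have h1 : HasStrictFDerivAt T (fderiv ℂ T 0) 0 :=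
    (P281.MF.analyticAt_of_differentiableOn (isOpen_W r 7) hT.hol h0).hasStrictFDerivAt
  set A : (Fin m → ℂ) →L[ℂ] (Fin m → ℂ) :=
    (fderiv ℂ T 0).comp (ContinuousLinearMap.inr ℂ (Fin q → ℂ) (Fin m → ℂ)) with hA
  have hAw : ∀ w, A w = fderiv ℂ T 0 (0, w) := fun w => rfl
  obtain ⟨B, hBA, hAB, hB, hBr⟩ := exists_inverse (A := A) (K := C) (fun w => by
      have a1 := ((ContinuousLinearMap.apply ℂ (Fin m → ℂ) ((0, w) : X q m)).continuous.tendsto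
        _).comp (hT.tendsto_fderiv ha hd hN)
      refine ge_of_tendsto (a1.norm.const_mul C) ?_
      filter_upwards [eventually_ge_atTop R0] with R hR using hnd R hR w)
    (fun v hv => by
      have a1 : HasDerivAt (fun t : ℂ => t • ((0, v) : X q m)) (0, v) ((0 : ℝ) : ℂ) := by
        simpa using (hasDerivAt_id ((0 : ℝ) : ℂ)).smul_const ((0, v) : X q m)
      have a2 := HasFDerivAt.comp_hasDerivAt_of_eq ((0 : ℝ) : ℂ) h1.hasFDerivAt a1 (by simp)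
      refine (rs_Re m).deriv_mem a2 ?_
      have a3 : ContinuousAt (fun t : ℝ => (t : ℂ) • ((0, v) : X q m)) 0 := by fun_prop
      filter_upwards [a3.eventually ((isOpen_W r 7).mem_nhds (by simpa using h0))] with t ht
      exact hTr _ ht ⟨fun i => by simp, fun j => by simp [hv j]⟩)
  obtain ⟨δ, hδ, h2⟩ := Metric.eventually_nhds_iff_ball.1
    ((hasStrictFDerivAt_iff_isLittleO.1 h1).bound (show 0 < 1 / (16 * (C + 1)) by positivity))
  set r2 := min (δ / 2) (r / 2) with hr2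
  have hr20 : 0 < r2 := lt_min (by positivity) (by positivity)
  have hr21 : r2 ≤ δ / 2 := min_le_left _ _
  have hr22 : r2 ≤ r / 2 := min_le_right _ _
  have e1 : Tendsto (fun R : ℝ => C * C' * R ^ (-d)) atTop (𝓝 0) := by
    simpa using (tendsto_rpow_neg_atTop hd).const_mul (C * C')
  obtain ⟨R1, hR1⟩ := eventually_atTop.1 ((eventually_ge_atTop R0).and ((eventually_ge_atTop 2).and
    ((e1.eventually_lt_const (show (0 : ℝ) < 1 / 16 by norm_num)).and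
    (((tendsto_inv_pow 6 two_ne_zero).eventually_lt_const (half_pos hδ)).and
    ((tendsto_inv_pow 1 four_ne_zero).eventually_lt_const
      (show 0 < min (r2 / 2) (1 / 2) from lt_min (by positivity) (by norm_num)))))))
  have key : ∀ R, R1 ≤ R → (∀ p ∈ dom q m r2 (Sym.Om (4 * Λ) R), ball p (2 * (1 / R ^ 4)) ⊆
      dom q m r (Sym.Om (2 * Λ) R)) ∧ (∀ p ∈ dom q m r2 (Sym.Om (4 * Λ) R), ∀ z,
        ‖z‖ < 2 * (1 / R ^ 4) → C * ‖T (p.1, p.2 + z) - T p - A z‖ ≤ ‖z‖ / 16) ∧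
      C * (C' * R ^ (-4 - d)) ≤ 1 / R ^ 4 / 16 := fun R hR => by
    obtain ⟨b1, b2, b3, b4, b5⟩ := hR1 R hR
    have b6 := (lt_min_iff.1 b5).1
    have b0 : 0 < R := by linarith
    refine ⟨fun p hp => ball_subset_dom (by linarith [hp.1]) fun j => (ball_subset_ball ?_).trans
      (om_room (l := 2 * Λ) (by rw [show 2 * Λ + 2 * Λ = 4 * Λ by ring]; exact hp.2 j)),
      fun p hp z hz => ?_, ?_⟩
    · rw [mul_one_div]; gcongr; linarith
    · have c1 : ‖p‖ < δ / 2 := by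
        rw [Prod.norm_def, max_lt_iff]
        exact ⟨by linarith [hp.1], (hN.snd_le b1 (dom_mono le_rfl (om_mono (by linarith) R)
          hp)).trans_lt b4⟩
      have c2 : ((p.1, p.2 + z) : X q m) - p = (0, z) := by ext <;> simp
      have c3 : ‖((0, z) : X q m)‖ = ‖z‖ := by simp
      have c4 := norm_add_le (((p.1, p.2 + z) : X q m) - p) p
      rw [sub_add_cancel, c2, c3] at c4
      have c5 := h2 ((p.1, p.2 + z), p) (by
        rw [mem_ball, Prod.dist_eq, max_lt_iff, dist_zero_right, dist_zero_right]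
        exact ⟨by linarith, by linarith⟩)
      simp only [c2, c3] at c5
      rw [hAw]
      calc _ ≤ (C + 1) * (1 / (16 * (C + 1)) * ‖z‖) := by gcongr; linarith
        _ = _ := by field_simp
    · rw [show -4 - d = -d - (4 : ℕ) by push_cast; ring, rpow_split b0]
      calc C * (C' * (R ^ (-d) / R ^ 4)) = C * C' * R ^ (-d) * (1 / R ^ 4) := by ring
        _ ≤ 1 / 16 * (1 / R ^ 4) := by gcongr
        _ = _ := by ring
  have hsub : ∀ R, dom q m r2 (Sym.Om (4 * Λ) R) ⊆ dom q m r (Sym.Om (2 * Λ) R) := fun R =>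
    dom_mono (by linarith) (om_mono (by linarith) R)
  have hη : ∀ R, R1 ≤ R → 0 ≤ C' * R ^ (-4 - d) := fun R hR => by
    have : 0 < R := by linarith [(hR1 R hR).2.1]
    positivity
  have hρ : ∀ R, R1 ≤ R → 0 < 1 / R ^ 4 := fun R hR => by
    have : 0 < R := by linarith [(hR1 R hR).2.1]
    positivity
  have z1 := fun R (hR : R1 ≤ R) => exists_zeta (G := a R) (H := T) (T := T) (hρ R hR)
    (isOpen_dom r2 isOpen_ball) (ha.hol R (hR1 R hR).1)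
    (hT.hol.mono ((hsub R).trans (hN.sub_W (hR1 R hR).1 r))) (key R hR).1 (hT.app R (hR1 R hR).1)
    (fun p _ => by simpa using hη R hR) (key R hR).2.1 hBA hAB hB hC (key R hR).2.2 hBr
    (hre R (hR1 R hR).1) fun x hx => hTr x (hN.sub_W (hR1 R hR).1 r (hsub R hx))
  have z2 := fun R (hR : R1 ≤ R) => exists_zeta (G := T) (H := a R) (T := T) (hρ R hR)
    (isOpen_dom r2 isOpen_ball) (hT.hol.mono (hN.sub_W (hR1 R hR).1 r))
    ((ha.hol R (hR1 R hR).1).mono (hsub R)) (key R hR).1 (fun p _ => by simpa using hη R hR)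
    (fun p hp => hT.app R (hR1 R hR).1 p (hsub R hp)) (key R hR).2.1 hBA hAB hB hC (key R hR).2.2
    hBr (fun x hx => hTr x (hN.sub_W (hR1 R hR).1 r hx))
    fun x hx => hre R (hR1 R hR).1 x (hsub R hx)
  choose! ζ hζ1 hζ2 using z1
  have hK : ∀ R, R1 ≤ R → 4 * C * (C' * R ^ (-4 - d)) ≤ (2 * C + 4 * C * C') * R ^ (-4 - d) :=
    fun R hR => by
      have : 0 < R := by linarith [(hR1 R hR).2.1]
      have : 0 ≤ C * R ^ (-4 - d) := by positivity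
      linarith
  refine ⟨R1, r2, 2 * C + 4 * C * C', ζ, (hR1 R1 le_rfl).1, (hR1 R1 le_rfl).2.1, hr20, hr22,
    fun R hR => (hR1 R hR).2.2.2.2.le, by positivity, hζ1, fun R hR p hp => (hζ2 R hR p hp).1,
    fun R hR p hp => (hζ2 R hR p hp).2.1.trans (hK R hR), fun R hR p hp => (hζ2 R hR p hp).2.2.1,
    fun R hR p hp z hz => ((hζ2 R hR p hp).2.2.2.1 z hz).trans ?_,
    fun R hR p hp => (hζ2 R hR p hp).2.2.2.2, fun R hR x hx hxr => ?_⟩
  · gcongr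
    exact le_add_of_nonneg_right (by positivity)
  · obtain ⟨ξ, -, hξ⟩ := z2 R hR
    obtain ⟨b1, b2, b3, -, b5⟩ := hξ x hx
    exact ⟨ξ x, b5 hxr, b1, b2.trans (hK R hR), b3⟩

/-! ### the boundary term -/

theorem isq_le {a b : ℝ} (ha : 0 < a) (h : a / 4 ≤ b) :
    b ^ (-(1 / 2) : ℝ) ≤ 2 * a ^ (-(1 / 2) : ℝ) := by
  refine (Real.rpow_le_rpow_of_nonpos (by positivity) h (by norm_num)).trans (le_of_eq ?_)
  have h4 : (4 : ℝ) ^ (-(1 / 2) : ℝ) = 1 / 2 := by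
    rw [show (4 : ℝ) = 2 ^ (2 : ℝ) by norm_num, ← Real.rpow_mul (by norm_num)]
    norm_num
  rw [Real.div_rpow ha.le (by norm_num), h4]
  ring

theorem one_le_isq {a : ℝ} (ha : 0 < a) (h : a ≤ 8) : 1 ≤ 4 * a ^ (-(1 / 2) : ℝ) := by
  have h1 := isq_le (a := a / 4) (b := 1) (by positivity) (by linarith)
  have h2 := isq_le ha le_rfl
  rw [Real.one_rpow] at h1
  linarith

theorem hasDerivAt_bet {z : ℂ} (hz : 0 < z.re) : HasDerivAt bet (2 * Real.pi *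
    (1 / 2 * z ^ (1 / 2 - 1 : ℂ) - z ^ (1 / 2 : ℂ) / 4) * Complex.exp (-z / 4)) z := by
  have h1 : HasDerivAt (fun w : ℂ => w ^ (1 / 2 : ℂ)) (1 / 2 * z ^ (1 / 2 - 1 : ℂ) * 1) z :=
    (hasDerivAt_id z).cpow_const (Or.inl hz)
  have h2 : HasDerivAt (fun w : ℂ => Complex.exp (-w / 4)) (Complex.exp (-z / 4) * (-1 / 4)) z :=
    ((hasDerivAt_id z).neg.div_const 4).cexp
  exact ((h1.const_mul (2 * Real.pi : ℂ)).mul h2).congr_deriv (by ring)

theorem bet_lip {y y' : ℂ} (hy : 0 < y.re) (hy' : 0 < y'.re) (h8 : ‖y‖ ≤ 8)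
    (h : ‖y' - y‖ ≤ ‖y‖ / 2) : ‖bet y' - bet y‖ ≤ 56 * ‖y‖ ^ (-(1 / 2) : ℝ) * ‖y' - y‖ := by
  have hn : 0 < ‖y‖ := hy.trans_le (Complex.re_le_norm y)
  have hc : Convex ℝ (closedBall y (‖y‖ / 2) ∩ {z : ℂ | 0 < z.re}) :=
    (convex_closedBall _ _).inter (convex_halfSpace_re_gt 0)
  refine hc.norm_image_sub_le_of_norm_hasDerivWithin_le
    (fun z hz => (hasDerivAt_bet hz.2).hasDerivWithinAt) (fun z hz => ?_)
    ⟨mem_closedBall_self (by positivity), hy⟩ ⟨mem_closedBall_iff_norm.2 h, hy'⟩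
  have h1 := mem_closedBall_iff_norm.1 hz.1
  have h2 : ‖y‖ / 4 ≤ ‖z‖ := by
    have := norm_sub_norm_le y z
    rw [norm_sub_rev] at this
    linarith
  have h3 : ‖z‖ ≤ 12 := by linarith [norm_sub_norm_le z y]
  have hz0 : 0 < ‖z‖ := by linarith
  have h4 := isq_le hn h2
  have h5 : ‖z ^ (1 / 2 - 1 : ℂ)‖ = ‖z‖ ^ (-(1 / 2) : ℝ) := by
    rw [← Complex.norm_cpow_real]; congr 2; push_cast; ring
  have h6 : ‖z ^ (1 / 2 : ℂ)‖ = ‖z‖ ^ (-(1 / 2) : ℝ) * ‖z‖ := by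
    rw [← Real.rpow_add_one hz0.ne', ← Complex.norm_cpow_real]; congr 2; push_cast; ring
  have h7 : ‖Complex.exp (-z / 4)‖ ≤ 1 := by
    rw [Complex.norm_exp, Real.exp_le_one_iff]
    have : 0 < z.re := hz.2
    simp only [Complex.div_ofNat_re, Complex.neg_re]
    linarith
  have h9 : 0 ≤ ‖z‖ ^ (-(1 / 2) : ℝ) := by positivity
  have h10 : ‖1 / 2 * z ^ (1 / 2 - 1 : ℂ) - z ^ (1 / 2 : ℂ) / 4‖ ≤ 7 * ‖y‖ ^ (-(1 / 2) : ℝ) := by
    refine (norm_sub_le _ _).trans ?_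
    rw [norm_mul, norm_div, norm_div, h5, h6]
    simp only [norm_one, Complex.norm_ofNat]
    linarith [mul_le_mul_of_nonneg_left h3 h9]
  have h11 : ‖(2 * Real.pi : ℂ)‖ ≤ 8 := by
    rw [norm_mul, Complex.norm_real, Real.norm_of_nonneg Real.pi_pos.le]
    simp only [Complex.norm_ofNat]
    linarith [Real.pi_le_four]
  rw [norm_mul, norm_mul]
  calc _ ≤ 8 * (7 * ‖y‖ ^ (-(1 / 2) : ℝ)) * 1 := by gcongr
    _ = _ := by ring

variable {C₀ Λ R0 : ℝ} {cc Y : ℝ → ℂ → ℂ}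

theorem y_facts (h : Sym.Inv C₀ Λ R0 cc Y) (hΛ : 1 ≤ Λ) {R : ℝ} (hR : R0 ≤ R) (hR0 : 0 < R) {c : ℂ}
    (hc : c ∈ Sym.Om (2 * Λ) R) : 4 / R ^ 2 < (Y R c).re ∧ ‖Y R c‖ ≤ 8 := by
  have h1 := mem_ball_iff_norm.1 (h.mem R hR _ le_rfl c hc)
  have h2 : 4 / R ^ 2 ≤ 4 * (2 * Λ - C₀) / R ^ 2 := by gcongr; linarith [h.room]
  have h3 := Complex.abs_re_le_norm (Y R c - 4)
  have h4 := norm_add_le (Y R c - 4) 4
  simp only [Complex.sub_re, Complex.re_ofNat, sub_add_cancel, Complex.norm_ofNat] at h3 h4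
  have h5 : 0 < 4 / R ^ 2 := by positivity
  exact ⟨by linarith [(abs_le.1 h3).1], by linarith⟩

theorem y_cont (h : Sym.Inv C₀ Λ R0 cc Y) (hΛ : 1 ≤ Λ) (h1 : 1 ≤ R0) {a b : ℝ} (ha : R0 ≤ a)
    {c : ℂ} (hc : c ∈ Sym.Om (2 * Λ) b) : ContinuousOn (fun s => Y s c) (Icc a b) := by
  have key : ∀ s ∈ Icc a b, ∀ t ∈ Icc a b, s ≤ t → ‖Y t c - Y s c‖ ≤ |C₀| * (t - s) :=
    fun s hs t ht hst => by
      have := chain (φ := fun s => Y s c) (B := fun s => |C₀| * s) hst fun u u' b1 b2 b3 b4 => by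
        have b5 : R0 ≤ u := ha.trans (hs.1.trans b1)
        refine (h.lipR u u' b5 b2 b4 c (h.nest u' b (b5.trans b2) (b3.trans ht.2) _ (by linarith)
          (by linarith) hc)).trans ?_
        have b6 : 0 ≤ u' - u := by linarith
        calc C₀ * (u' - u) / u ≤ |C₀| * (u' - u) / u := by
              gcongr
              · linarith
              · exact le_abs_self _
          _ ≤ |C₀| * (u' - u) := div_le_self (by positivity) (by linarith)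
          _ = _ := by ring
      linarith
  refine (LipschitzOnWith.of_dist_le' (K := |C₀|) fun s hs t ht => ?_).continuousOn
  rw [dist_eq_norm, Real.dist_eq]
  rcases le_total s t with hst | hst
  · rw [norm_sub_rev, abs_sub_comm, abs_of_nonneg (sub_nonneg.2 hst)]
    exact key s hs t ht hst
  · rw [abs_of_nonneg (sub_nonneg.2 hst)]
    exact key t ht s hs hst

end Vale.Agent.P218F.Nm
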