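import Vale.Agent.P218F.Norm3

/-!
# P218, block NORMAL, part 4: the proof of `NormStmt`
-/

noncomputable section

namespace Vale.Agent.P218F.Nm

open Set Metric Filter Topology Asymptotics
open Vale.Agent.P218F.Core

variable {q m : ℕ} {T : Type} [NormedAddCommGroup T] [NormedSpace ℂ T] {d C₀ Λ R0 r C : ℝ}
  {cc Y : ℝ → ℂ → ℂ} {S : LSF q m T}

theorem LSN.fam_a (h : LSN d Λ R0 r C Y S) : PFam d (2 * Λ) R0 r C S.a :=
  ⟨h.rpos, h.a_hol, fun R hR x hx => (h.bdd R hR x hx).2.1,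
    fun R R' h1 h2 h3 x hx => (h.lipR R R' h1 h2 h3 x hx).1⟩

theorem LSN.fam_bt (h : LSN d Λ R0 r C Y S) : PFam d (2 * Λ) R0 r C S.bt :=
  ⟨h.rpos, h.bt_hol, fun R hR x hx => (h.bdd R hR x hx).2.2,
    fun R R' h1 h2 h3 x hx => (h.lipR R R' h1 h2 h3 x hx).2⟩

/-- the linear model of `f R` at `x` -/
def gx (S : LSF q m T) (R : ℝ) (x x' : X q m) : ℂ :=
  ∑ i, S.kap R x i * x'.1 i + ∑ j, S.mu R x j * S.a R x' j + ∑ j, S.tau R x j (S.bt R x' j)

theorem gx_sub (S : LSF q m T) (R : ℝ) (x u v : X q m) : gx S R x u - gx S R x v =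
    ∑ i, S.kap R x i * (u.1 i - v.1 i) + ∑ j, S.mu R x j * (S.a R u j - S.a R v j) +
      ∑ j, S.tau R x j (S.bt R u j - S.bt R v j) := by
  simp only [gx, mul_sub, map_sub, Finset.sum_sub_distrib]
  ring

theorem norm_gx_sub (S : LSF q m T) (R : ℝ) (x u v : X q m) {t : ℝ} (ht : ∀ j, ‖S.tau R x j‖ ≤ t) :
    ‖gx S R x u - gx S R x v‖ ≤ q * (‖S.kap R x‖ * ‖u - v‖) +
      m * (‖S.mu R x‖ * ‖S.a R u - S.a R v‖) + m * (t * ‖S.bt R u - S.bt R v‖) := by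
  rw [gx_sub]
  refine norm_add₃_le.trans (add_le_add (add_le_add ?_ ?_) ?_)
  · refine (norm_sum_le_of_le _ (n := fun _ => ‖S.kap R x‖ * ‖u - v‖) fun i _ => ?_).trans
      (by simp)
    rw [norm_mul]
    exact mul_le_mul (norm_le_pi_norm _ i) ((norm_le_pi_norm (u.1 - v.1) i).trans
      (norm_fst_le (u - v))) (norm_nonneg _) (norm_nonneg _)
  · refine (norm_sum_le_of_le _ (n := fun _ => ‖S.mu R x‖ * ‖S.a R u - S.a R v‖)
      fun i _ => ?_).trans (by simp)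
    rw [norm_mul]
    exact mul_le_mul (norm_le_pi_norm _ i) (norm_le_pi_norm (S.a R u - S.a R v) i) (norm_nonneg _)
      (norm_nonneg _)
  · refine (norm_sum_le_of_le _ (n := fun _ => t * ‖S.bt R u - S.bt R v‖)
      fun i _ => ?_).trans (by simp)
    exact ((S.tau R x i).le_opNorm _).trans (mul_le_mul (ht i)
      (norm_le_pi_norm (S.bt R u - S.bt R v) i) (norm_nonneg _) ((norm_nonneg _).trans (ht i)))

theorem LSN.hasFDerivAt (h : LSN d Λ R0 r C Y S) {R : ℝ} (hR : R0 ≤ R) {x : X q m}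
    (hx : x ∈ dom q m r (Sym.Om (2 * Λ) R)) :
    HasFDerivAt (fun x' => S.f R x' - gx S R x x') (0 : X q m →L[ℂ] ℂ) x := by
  obtain ⟨K, ε, hε, hK⟩ := h.incr R hR x hx
  obtain ⟨s, hs, hs'⟩ := Metric.isOpen_iff.1 (isOpen_dom r isOpen_ball) x hx
  refine hasFDerivAt_of_quad (r := min ε s) (C := K) (lt_min hε hs) fun z hz => ?_
  have h1 := hK R R x z hR le_rfl (by simpa using hε) (by simpa using hε) hx
    (hs' (ball_subset_ball (min_le_right _ _) hz)) (by simpa using hε)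
    ((mem_ball_iff_norm.1 hz).trans_le (min_le_left _ _))
  have h2 := gx_sub S R x z x
  simp only [sub_self, Complex.ofReal_zero, zero_mul, sub_zero, ne_eq, OfNat.ofNat_ne_zero,
    not_false_eq_true, zero_pow, zero_add] at h1
  refine le_of_eq_of_le (congrArg norm ?_) h1
  simp only [zero_apply]
  linear_combination -h2

theorem LSN.gx_diff (h : LSN d Λ R0 r C Y S) {R : ℝ} (hR : R0 ≤ R) (x : X q m) {z : X q m}
    (hz : z ∈ dom q m r (Sym.Om (2 * Λ) R)) : DifferentiableAt ℂ (gx S R x) z := by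
  have h0 := (isOpen_dom (q := q) (m := m) r (U := Sym.Om (2 * Λ) R) isOpen_ball).mem_nhds hz
  have h1 := differentiableAt_pi.1 ((h.a_hol R hR).differentiableAt h0)
  have h2 := differentiableAt_pi.1 ((h.bt_hol R hR).differentiableAt h0)
  refine ((DifferentiableAt.fun_sum fun i _ => ?_).add (DifferentiableAt.fun_sum fun j _ =>
    (h1 j).const_mul _)).add (DifferentiableAt.fun_sum fun j _ =>
      (S.tau R x j).differentiableAt.comp z (h2 j))
  fun_prop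

/-- holomorphy of the reduced functional -/
theorem LSN.f_hol (h : LSN d Λ R0 r C Y S) {R : ℝ} (hR : R0 ≤ R) :
    DifferentiableOn ℂ (S.f R) (dom q m r (Sym.Om (2 * Λ) R)) := fun x hx => by
  have := (h.hasFDerivAt hR hx).differentiableAt.add (h.gx_diff hR x hx)
  have e : (fun x' => S.f R x' - gx S R x x') + gx S R x = S.f R := by ext; simp
  rw [e] at this
  exact this.differentiableWithinAt

/-- all the data of the construction -/
structure Ctx (d C₀ Λ R0 r C : ℝ) (cc Y : ℝ → ℂ → ℂ) (S : LSF q m T) (R1 r2 K : ℝ)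
    (Ta : X q m → Fin m → ℂ) (ζ : ℝ → X q m → Fin m → ℂ) : Prop where
  d0 : 0 < d
  lam : 1 ≤ Λ
  one : 1 ≤ R0
  inv : Sym.Inv C₀ Λ R0 cc Y
  ls : LSN d Λ R0 r C Y S
  le : R0 ≤ R1
  two : 2 ≤ R1
  r0 : 0 < r2
  r1 : r2 ≤ r / 2
  rho : ∀ R, R1 ≤ R → 1 / R ^ 4 ≤ r2 / 2
  z : Zeta d Λ R1 r2 K S.a Ta ζ
  lip : ∀ R, R1 ≤ R → ∀ p ∈ dom q m r2 (Sym.Om (4 * Λ) R),
    ball p (1 / R ^ 4) ⊆ dom q m r (Sym.Om (2 * Λ) R) ∧ ∀ x ∈ ball p (1 / R ^ 4),
      ∀ y ∈ ball p (1 / R ^ 4), ‖S.a R x - S.a R y‖ ≤ K * ‖x - y‖ ∧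
        ‖S.bt R x - S.bt R y‖ ≤ K * ‖x - y‖

/-- the internal point -/
def ph (ζ : ℝ → X q m → Fin m → ℂ) (R : ℝ) (p : X q m) : X q m := (p.1, p.2 + ζ R p)

variable {R1 r2 K : ℝ} {Ta : X q m → Fin m → ℂ} {ζ : ℝ → X q m → Fin m → ℂ}

namespace Ctx

variable (h : Ctx d C₀ Λ R0 r C cc Y S R1 r2 K Ta ζ)
include h

theorem n2 : Nest R0 (Sym.Om (2 * Λ)) :=
  nest_of_inv h.inv h.one (by linarith [h.lam]) (by linarith [h.lam])

theorem n4 : Nest R0 (Sym.Om (4 * Λ)) :=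
  nest_of_inv h.inv h.one (by linarith [h.lam]) (by linarith [h.lam])

theorem c0 : 0 ≤ C := h.ls.fam_a.nonneg h.n2

theorem pos {R : ℝ} (hR : R1 ≤ R) : 0 < R := by linarith [h.two]

theorem z_lt {R : ℝ} (hR : R1 ≤ R) {p : X q m} (hp : p ∈ dom q m r2 (Sym.Om (4 * Λ) R)) :
    ‖ζ R p‖ < 1 / R ^ 4 := by
  have := h.pos hR
  have : 0 < 1 / R ^ 4 := by positivity
  linarith [h.z.le R hR p hp]

theorem ph_ball {R : ℝ} (hR : R1 ≤ R) {p : X q m} (hp : p ∈ dom q m r2 (Sym.Om (4 * Λ) R)) :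
    ph ζ R p ∈ ball p (1 / R ^ 4) := shift_mem (h.z_lt hR hp)

theorem ph_mem {R : ℝ} (hR : R1 ≤ R) {p : X q m} (hp : p ∈ dom q m r2 (Sym.Om (4 * Λ) R)) :
    ph ζ R p ∈ dom q m r (Sym.Om (2 * Λ) R) := (h.lip R hR p hp).1 (h.ph_ball hR hp)

theorem ph_hol {R : ℝ} (hR : R1 ≤ R) :
    DifferentiableOn ℂ (ph ζ R) (dom q m r2 (Sym.Om (4 * Λ) R)) :=
  differentiableOn_fst.prodMk (differentiableOn_snd.add (h.z.hol R hR))

theorem ph_lip {s s' : ℝ} (hs : R1 ≤ s) (h1 : s ≤ s') (h2 : s' ≤ s + 1) {p : X q m}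
    (hp : p ∈ dom q m r2 (Sym.Om (4 * Λ) s')) :
    ‖ph ζ s' p - ph ζ s p‖ ≤ K * (C * (s' - s) * s ^ (-5 - d)) := by
  have hp' := h.n4.dom_sub (h.le.trans hs) h1 r2 hp
  have h3 : ph ζ s' p - ph ζ s p = (0, ζ s' p - ζ s p) := by ext <;> simp [ph]
  have h4 := h.z.uniq s hs p hp' (ζ s' p) ((h.z_lt (hs.trans h1) hp).trans_le (by
    have := h.pos hs
    gcongr))
  have h5 := (h.ls.lipR s s' (h.le.trans hs) h1 h2 _ (h.ph_mem (hs.trans h1) hp)).1
  rw [← h.z.eq s' (hs.trans h1) p hp, norm_sub_rev (S.a s _)] at h4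
  rw [h3]
  simpa using h4.trans (mul_le_mul_of_nonneg_left h5 h.z.nonneg)

theorem y_pos {R : ℝ} (hR : R1 ≤ R) {c : ℂ} (hc : c ∈ Sym.Om (2 * Λ) R) : 0 < (Y R c).re := by
  have := h.pos hR
  exact lt_trans (by positivity) (y_facts h.inv h.lam (h.le.trans hR) this hc).1

theorem main_est {s : ℝ} (hs : R1 ≤ s) {p : X q m} (hp : p ∈ dom q m r2 (Sym.Om (4 * Λ) s))
    (j : Fin m) : ‖S.main s (ph ζ s p) j - (Real.exp (-s ^ 2 / 4) : ℝ) * bet (Y s (p.2 j))‖ ≤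
      (2 * C + 112 * K) * (Real.exp (-s ^ 2 / 4) * s ^ (-2 - d) *
        ‖Y s (p.2 j)‖ ^ (-(1 / 2) : ℝ)) := by
  have hs0 := h.pos hs
  have hC := h.c0
  have hK := h.z.nonneg
  have hx := h.ph_mem hs hp
  have hc : p.2 j ∈ Sym.Om (2 * Λ) s := om_mono (by linarith [h.lam]) s (hp.2 j)
  obtain ⟨y1, y2⟩ := y_facts h.inv h.lam (h.le.trans hs) hs0 hc
  have y3 : 4 / s ^ 2 < ‖Y s (p.2 j)‖ := y1.trans_le (Complex.re_le_norm _)
  have l1 := h.inv.lip s (h.le.trans hs) _ (hx.2 j) _ hc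
  have l2 : ‖(ph ζ s p).2 j - p.2 j‖ ≤ ‖ζ s p‖ := by simpa [ph] using norm_le_pi_norm (ζ s p) j
  have l3 : ‖Y s ((ph ζ s p).2 j) - Y s (p.2 j)‖ ≤ ‖Y s (p.2 j)‖ / 2 := by
    have a1 : 2 * s ^ 2 * ‖(ph ζ s p).2 j - p.2 j‖ ≤ 2 * s ^ 2 * (1 / s ^ 4 / 4) := by
      gcongr; exact l2.trans (h.z.le s hs p hp)
    have a2 : 2 * s ^ 2 * (1 / s ^ 4 / 4) = 4 / s ^ 2 / 8 := by field_simp; norm_num
    have a3 : 0 < 4 / s ^ 2 := by positivity
    linarith
  have l4 : ‖Y s ((ph ζ s p).2 j) - Y s (p.2 j)‖ ≤ 2 * K * s ^ (-2 - d) := by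
    have a1 : 2 * s ^ 2 * ‖(ph ζ s p).2 j - p.2 j‖ ≤ 2 * s ^ 2 * (K * s ^ (-4 - d)) := by
      gcongr; exact l2.trans (h.z.le' s hs p hp)
    have a2 : 2 * s ^ 2 * (K * s ^ (-4 - d)) = 2 * K * s ^ (-2 - d) := by
      rw [show -4 - d = -2 - d - (2 : ℕ) by push_cast; ring, rpow_split hs0]; field_simp
    linarith
  have m1 := h.ls.main_le s (h.le.trans hs) _ hx j
  have m2 := bet_lip (h.y_pos hs hc) (h.y_pos hs (hx.2 j)) y2 l3
  have m3 := isq_le (a := ‖Y s (p.2 j)‖) (b := ‖Y s ((ph ζ s p).2 j)‖)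
    (lt_trans (by positivity) y3) (by
      have := norm_sub_norm_le (Y s (p.2 j)) (Y s ((ph ζ s p).2 j))
      rw [norm_sub_rev] at this
      linarith [norm_nonneg (Y s (p.2 j))])
  generalize Y s ((ph ζ s p).2 j) = y' at *
  generalize Y s (p.2 j) = y at *
  have he := Real.exp_pos (-s ^ 2 / 4)
  generalize Real.exp (-s ^ 2 / 4) = e at *
  have m4 := norm_add_le (S.main s (ph ζ s p) j - e * bet y') (e * (bet y' - bet y))
  rw [show S.main s (ph ζ s p) j - e * bet y' + e * (bet y' - bet y) =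
    S.main s (ph ζ s p) j - e * bet y by ring, norm_mul, Complex.norm_real,
    Real.norm_of_nonneg he.le] at m4
  have m5 := mul_le_mul_of_nonneg_left m3 (show 0 ≤ C * e * s ^ (-2 - d) by positivity)
  have m6 := mul_le_mul_of_nonneg_left l4 (show 0 ≤ 56 * ‖y‖ ^ (-(1 / 2) : ℝ) by positivity)
  have m7 := mul_le_mul_of_nonneg_left (m2.trans m6) he.le
  linarith

theorem tau_est {s s' : ℝ} (hs : R1 ≤ s) (h1 : s ≤ s') (h2 : s' ≤ s + 1) {p : X q m}
    (hp : p ∈ dom q m r2 (Sym.Om (4 * Λ) s')) (j : Fin m) :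
    ‖S.tau s (ph ζ s p) j (S.bt s' (ph ζ s' p) j - S.bt s (ph ζ s p) j)‖ ≤
      (s' - s) * (4 * C * (C + K * K * C) * (Real.exp (-s ^ 2 / 4) * s ^ (-2 - d) *
        ‖Y s (p.2 j)‖ ^ (-(1 / 2) : ℝ))) := by
  have hs0 := h.pos hs
  have hC := h.c0
  have hK := h.z.nonneg
  have hp' := h.n4.dom_sub (h.le.trans hs) h1 r2 hp
  have hc : p.2 j ∈ Sym.Om (2 * Λ) s := om_mono (by linarith [h.lam]) s (hp'.2 j)
  have a1 := h.ls.tau_le s (h.le.trans hs) _ (h.ph_mem hs hp') j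
  have a2 := (h.ls.lipR s s' (h.le.trans hs) h1 h2 _ (h.ph_mem (hs.trans h1) hp)).2
  have a3 := ((h.lip s hs p hp').2 _ (ball_subset_ball (by gcongr) (h.ph_ball (hs.trans h1) hp)) _
    (h.ph_ball hs hp')).2.trans (mul_le_mul_of_nonneg_left (h.ph_lip hs h1 h2 hp) hK)
  have a4 := norm_add_le (S.bt s' (ph ζ s' p) - S.bt s (ph ζ s' p))
    (S.bt s (ph ζ s' p) - S.bt s (ph ζ s p))
  rw [sub_add_sub_cancel] at a4
  have a5 : s ^ (-5 - d) ≤ s ^ (-2 - d) :=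
    Real.rpow_le_rpow_of_exponent_le (by linarith [h.two]) (by linarith)
  have a6 := one_le_isq ((h.y_pos hs hc).trans_le (Complex.re_le_norm _))
    (y_facts h.inv h.lam (h.le.trans hs) hs0 hc).2
  have a7 : 0 ≤ s' - s := by linarith
  have a8 : ‖S.bt s' (ph ζ s' p) j - S.bt s (ph ζ s p) j‖ ≤
      (C + K * K * C) * (s' - s) * s ^ (-5 - d) :=
    (norm_le_pi_norm (S.bt s' (ph ζ s' p) - S.bt s (ph ζ s p)) j).trans (by linarith)
  calc _ ≤ C * Real.exp (-s ^ 2 / 4) * ((C + K * K * C) * (s' - s) * s ^ (-5 - d)) * 1 := by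
        rw [mul_one]
        exact (ContinuousLinearMap.le_opNorm _ _).trans (by gcongr)
    _ ≤ C * Real.exp (-s ^ 2 / 4) * ((C + K * K * C) * (s' - s) * s ^ (-2 - d)) *
          (4 * ‖Y s (p.2 j)‖ ^ (-(1 / 2) : ℝ)) := by gcongr
    _ = _ := by ring

theorem inc {a b : ℝ} (ha : R1 ≤ a) (hab : a ≤ b) {p : X q m}
    (hp : p ∈ dom q m r2 (Sym.Om (4 * Λ) b)) :
    ‖S.f b (ph ζ b p) - S.f a (ph ζ a p) -
        ∫ s in a..b, ((Real.exp (-s ^ 2 / 4) : ℝ) : ℂ) * ∑ j, bet (Y s (p.2 j))‖ ≤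
      (2 * C + 112 * K + 4 * C * (C + K * K * C)) * ∫ s in a..b,
        Real.exp (-s ^ 2 / 4) * s ^ (-2 - d) * ∑ j, ‖Y s (p.2 j)‖ ^ (-(1 / 2) : ℝ) := by
  have hC := h.c0
  have hK := h.z.nonneg
  have hps : ∀ s, a ≤ s → s ≤ b → p ∈ dom q m r2 (Sym.Om (4 * Λ) s) := fun s h1 h2 =>
    h.n4.dom_sub (h.le.trans (ha.trans h1)) h2 r2 hp
  have hc : ∀ s, a ≤ s → s ≤ b → ∀ j, p.2 j ∈ Sym.Om (2 * Λ) s := fun s h1 h2 j =>
    om_mono (by linarith [h.lam]) s ((hps s h1 h2).2 j)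
  have hy : ∀ j, ContinuousOn (fun s => Y s (p.2 j)) (Icc a b) := fun j =>
    y_cont h.inv h.lam h.one (h.le.trans ha) (hc b hab le_rfl j)
  have hy0 : ∀ j, ∀ s ∈ Icc a b, 0 < (Y s (p.2 j)).re := fun j s hs =>
    h.y_pos (ha.trans hs.1) (hc s hs.1 hs.2 j)
  rw [← intervalIntegral.integral_const_mul]
  refine dini (h := fun s => S.f s (ph ζ s p)) hab ?_ ?_ fun t ht => ?_
  · refine ContinuousOn.mul (by fun_prop) (continuousOn_finsetSum _ fun j _ s hs => ?_)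
    exact ContinuousAt.comp_continuousWithinAt (f := fun s => Y s (p.2 j))
      (hasDerivAt_bet (hy0 j s hs)).continuousAt (hy j s hs)
  · refine continuousOn_const.mul (ContinuousOn.mul (ContinuousOn.mul (by fun_prop)
      (continuousOn_id.rpow_const fun s hs => Or.inl (h.pos (ha.trans hs.1)).ne'))
      (continuousOn_finsetSum _ fun j _ => (hy j).norm.rpow_const fun s hs => Or.inl ?_))
    exact ((hy0 j s hs).trans_le (Complex.re_le_norm _)).ne'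
  obtain ⟨K', ε, hε, hK'⟩ := h.ls.incr t (h.le.trans (ha.trans ht.1)) _
    (h.ph_mem (ha.trans ht.1) (hps t ht.1 ht.2))
  have hl : ∀ s s', a ≤ s → s ≤ s' → s' ≤ b → s' ≤ s + 1 →
      ‖ph ζ s' p - ph ζ s p‖ ≤ K * C * (s' - s) := fun s s' h1 h2 h3 h4 => by
    refine (h.ph_lip (ha.trans h1) h2 h4 (hps s' (h1.trans h2) h3)).trans ?_
    have a1 : s ^ (-5 - d) ≤ 1 :=
      Real.rpow_le_one_of_one_le_of_nonpos (by linarith [h.two]) (by linarith [h.d0])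
    have a2 : 0 ≤ K * C * (s' - s) := mul_nonneg (by positivity) (by linarith)
    linarith [mul_le_mul_of_nonneg_left a1 a2]
  have hε' : 0 < ε / (K * C + 1) := by positivity
  have hε1 : ε / (K * C + 1) ≤ ε := div_le_self hε.le (by linarith [mul_nonneg hK hC])
  refine ⟨|K'| * (1 + (K * C) ^ 2), min 1 (ε / (K * C + 1)), lt_min one_pos hε',
    fun s s' h1 h2 h3 h4 h5 h6 => ?_⟩
  obtain ⟨h4a, h4b⟩ := lt_min_iff.1 h4
  obtain ⟨h5a, h5b⟩ := lt_min_iff.1 h5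
  have h7 : s' - s < 1 ∧ s' - s < ε / (K * C + 1) := by
    rcases h6 with h6 | h6
    · rw [← h6] at h5a h5b
      exact ⟨(le_abs_self _).trans_lt h5a, (le_abs_self _).trans_lt h5b⟩
    · rw [← h6, abs_sub_comm] at h4a h4b
      exact ⟨(le_abs_self _).trans_lt h4a, (le_abs_self _).trans_lt h4b⟩
  have h8 : s' ≤ s + 1 := by linarith [h7.1]
  have h9 := hl s s' h1 h2 h3 h8
  have h10 : 0 ≤ s' - s := by linarith
  have h11 : ‖ph ζ s' p - ph ζ s p‖ < ε := by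
    have := (lt_div_iff₀ (by positivity)).1 h7.2
    linarith
  have hs := hps s h1 (h2.trans h3)
  have hs' := hps s' (h1.trans h2) h3
  have i1 := hK' s s' (ph ζ s p) (ph ζ s' p) (h.le.trans (ha.trans h1)) h2 (h4b.trans_le hε1)
    (h5b.trans_le hε1) (h.ph_mem (ha.trans h1) hs) (h.ph_mem (ha.trans (h1.trans h2)) hs')
    (by rcases h6 with h6 | h6
        · simpa [h6] using hε
        · rwa [← h6, norm_sub_rev])
    (by rcases h6 with h6 | h6
        · rwa [← h6]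
        · simpa [h6] using hε)
  have i2 : S.a s' (ph ζ s' p) = S.a s (ph ζ s p) :=
    (h.z.eq s' (ha.trans (h1.trans h2)) p hs').trans (h.z.eq s (ha.trans h1) p hs).symm
  have i3 : (ph ζ s' p).1 = (ph ζ s p).1 := rfl
  rw [i2, i3] at i1
  simp only [sub_self, mul_zero, Finset.sum_const_zero, sub_zero] at i1
  have i4 := norm_sum_le_of_le Finset.univ fun j _ => h.tau_est (ha.trans h1) h2 h8 hs' j
  have i5 := norm_sum_le_of_le Finset.univ fun j _ => h.main_est (ha.trans h1) hs j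
  rw [← Finset.mul_sum, ← Finset.mul_sum, ← Finset.mul_sum] at i4
  rw [← Finset.mul_sum, ← Finset.mul_sum, Finset.sum_sub_distrib, ← Finset.mul_sum] at i5
  have i6 : K' * ((s' - s) ^ 2 + ‖ph ζ s' p - ph ζ s p‖ ^ 2) ≤
      |K'| * ((s' - s) ^ 2 + (K * C * (s' - s)) ^ 2) := by gcongr; exact le_abs_self _
  generalize ∑ j, S.tau s (ph ζ s p) j (S.bt s' (ph ζ s' p) j - S.bt s (ph ζ s p) j) = u
    at i1 i4
  generalize ∑ j, S.main s (ph ζ s p) j = v at i1 i5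
  generalize ((Real.exp (-s ^ 2 / 4) : ℝ) : ℂ) * ∑ j, bet (Y s (p.2 j)) = w at i5 ⊢
  generalize Real.exp (-s ^ 2 / 4) * s ^ (-2 - d) * ∑ j, ‖Y s (p.2 j)‖ ^ (-(1 / 2) : ℝ) = E
    at i4 i5 ⊢
  have i7 := norm_add₃_le (a := S.f s' (ph ζ s' p) - S.f s (ph ζ s p) - u - ((s' - s : ℝ) : ℂ) * v)
    (b := u) (c := ((s' - s : ℝ) : ℂ) * (v - w))
  rw [show S.f s' (ph ζ s' p) - S.f s (ph ζ s p) - u - ((s' - s : ℝ) : ℂ) * v + u +
    ((s' - s : ℝ) : ℂ) * (v - w) = S.f s' (ph ζ s' p) - S.f s (ph ζ s p) - ((s' - s : ℝ) : ℂ) * w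
    by ring, norm_mul, Complex.norm_real, Real.norm_of_nonneg h10] at i7
  linarith [mul_le_mul_of_nonneg_left i5 h10]

theorem grad {R : ℝ} (hR : R1 ≤ R) {p : X q m} (h1 : ‖p.1‖ < r2 / 2)
    (h2 : ‖p.2‖ + 1 / R ^ 4 ≤ 1 / R ^ 2) :
    ‖fderiv ℂ (fun p => S.f R (ph ζ R p)) p‖ ≤ 2 * (q + m * K + m * (C * K)) *
      (‖S.kap R (ph ζ R p)‖ + ‖S.mu R (ph ζ R p)‖ + Real.exp (-R ^ 2 / 4)) := by
  have hC := h.c0
  have hK := h.z.nonneg
  have hR0 := h.pos hR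
  have hρ : 0 < 1 / R ^ 4 := by positivity
  have b1 : ball p (1 / R ^ 4) ⊆ dom q m r2 (Sym.Om (4 * Λ) R) :=
    (ball_subset_W (by linarith [h.rho R hR]) h2).trans (h.n4.W_sub (h.le.trans hR) r2)
  have hp := b1 (mem_ball_self hρ)
  have hx := h.ph_mem hR hp
  have b2 : DifferentiableAt ℂ (ph ζ R) p :=
    (h.ph_hol hR).differentiableAt ((isOpen_dom r2 isOpen_ball).mem_nhds hp)
  have b3 := (h.ls.hasFDerivAt (h.le.trans hR) hx).comp p b2.hasFDerivAt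
  have b4 := ((h.ls.gx_diff (h.le.trans hR) (ph ζ R p) hx).comp p b2).hasFDerivAt
  have b5 := (b3.add b4).fderiv
  have e : (fun x' => S.f R x' - gx S R (ph ζ R p) x') ∘ ph ζ R + gx S R (ph ζ R p) ∘ ph ζ R =
      fun p => S.f R (ph ζ R p) := by ext; simp
  rw [e, ContinuousLinearMap.zero_comp, zero_add] at b5
  rw [b5]
  refine norm_fderiv_le_of_lip' ℂ (by positivity) ?_
  filter_upwards [ball_mem_nhds p (half_pos hρ)] with z hz
  have hz' := ball_subset_ball (half_le_self hρ.le) hz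
  have c1 := sub_le ((h.z.hol R hR).mono b1) (fun w hw => h.z.le R hR w (b1 hw)) hz'
  rw [show 2 * (1 / R ^ 4 / 4) / (1 / R ^ 4) = 1 / 2 by field_simp; norm_num] at c1
  have c2 : ∀ u v : Fin m → ℂ, ‖((z.1, z.2 + u) : X q m) - (p.1, p.2 + v)‖ ≤ ‖z - p‖ + ‖u - v‖ :=
    fun u v => by
      have := norm_add_le (z - p) ((0, u - v) : X q m)
      rw [show z - p + ((0, u - v) : X q m) = (z.1, z.2 + u) - (p.1, p.2 + v) by
        ext <;> simp; ring] at this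
      simpa using this
  have c3 : ‖ph ζ R z - ph ζ R p‖ ≤ 2 * ‖z - p‖ :=
    (c2 _ _).trans (by linarith [norm_nonneg (z - p)])
  have c4 : ph ζ R z ∈ ball p (1 / R ^ 4) := by
    have a1 := c2 (ζ R z) 0
    simp only [add_zero, Prod.mk.eta, sub_zero] at a1
    have a2 := h.z.le R hR z (b1 hz')
    have a3 := mem_ball_iff_norm.1 hz
    exact mem_ball_iff_norm.2 (a1.trans_lt (by linarith))
  obtain ⟨c5, c6⟩ := (h.lip R hR p hp).2 _ c4 _ (h.ph_ball hR hp)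
  refine (norm_gx_sub S R _ _ _ (h.ls.tau_le R (h.le.trans hR) _ hx)).trans ?_
  have he := Real.exp_pos (-R ^ 2 / 4)
  generalize Real.exp (-R ^ 2 / 4) = e at *
  have k1 := norm_nonneg (S.kap R (ph ζ R p))
  have k2 := norm_nonneg (S.mu R (ph ζ R p))
  generalize ‖S.kap R (ph ζ R p)‖ = κ at *
  generalize ‖S.mu R (ph ζ R p)‖ = μ at *
  calc _ ≤ q * ((κ + μ + e) * (2 * ‖z - p‖)) + m * ((κ + μ + e) * (K * (2 * ‖z - p‖))) +
        m * (C * (κ + μ + e) * (K * (2 * ‖z - p‖))) := by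
        gcongr
        · linarith
        · linarith
        · exact c5.trans (by gcongr)
        · linarith
        · exact c6.trans (by gcongr)
    _ = _ := by ring

theorem transfer : Transfer d R1 (r2 / 2) (K + 2 * (q + m * K + m * (C * K))) S
    fun R p => S.f R (ph ζ R p) := by
  intro R hR x hx h1 h2
  have hC := h.c0
  have hK := h.z.nonneg
  have hR0 := h.pos hR
  have a1 : 1 / R ^ 4 ≤ 1 / R ^ 2 / 4 := by
    have : 2 ^ 2 ≤ R ^ 2 := by gcongr; linarith [h.two]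
    rw [div_div]; gcongr; nlinarith
  have a2 : 1 / (2 * R ^ 2) = 1 / R ^ 2 / 2 := by field_simp
  have a3 : 0 < 1 / R ^ 4 := by positivity
  have a4 : ∀ u : X q m, ‖u.1‖ < r2 / 2 → ‖u.2‖ < 1 / R ^ 2 → u ∈ dom q m r2 (Sym.Om (4 * Λ) R) :=
    fun u b1 b2 => h.n4.W_sub (h.le.trans hR) r2 ⟨by linarith [h.r0], b2⟩
  obtain ⟨z, z1, z2, z3, z4⟩ := h.z.back R hR x (a4 x h1 (by linarith)) hx
  have a5 := norm_add_le x.2 z
  have a6 := h.z.uniq R hR (x.1, x.2 + z) (a4 _ h1 (by dsimp only; linarith)) (-z)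
    (by rw [norm_neg]; linarith)
  simp only [add_neg_cancel_right, Prod.mk.eta, z4, sub_self, norm_zero, mul_zero,
    norm_le_zero_iff, sub_eq_zero] at a6
  have a7 : ph ζ R (x.1, x.2 + z) = x := by simp [ph, ← a6]
  refine ⟨x.2 + z, ⟨hx.1, fun j => by simp [hx.2 j, z1 j]⟩, ?_, by simp only [a7], ?_⟩
  · rw [add_sub_cancel_left]
    refine z3.trans ?_
    gcongr
    exact le_add_of_nonneg_right (by positivity)
  · have := h.grad hR (p := (x.1, x.2 + z)) h1 (by dsimp only; linarith)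
    rw [a7] at this
    refine this.trans ?_
    gcongr
    exact le_add_of_nonneg_left hK

end Ctx

theorem KN.mono {L R r C r' C' : ℝ} {F : ℝ → X q m → ℂ} (h : KN d L R r C Y F) (hR : 0 ≤ R)
    (hr : 0 < r') (hr' : r' ≤ r) (hC : C ≤ C') : KN d L R r' C' Y F :=
  ⟨hr, fun s hs => (h.hol s hs).mono (dom_mono hr' Subset.rfl),
    fun s hs x hx => (h.bdd s hs x (dom_mono hr' Subset.rfl hx)).trans hC,
    fun s hs x hx => h.real s hs x (dom_mono hr' Subset.rfl hx),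
    fun a b ha hab x hx => (h.inc a b ha hab x (dom_mono hr' Subset.rfl hx)).trans
      (mul_le_mul_of_nonneg_right hC (intervalIntegral.integral_nonneg hab fun s hs => by
        have : 0 ≤ s := hR.trans (ha.trans hs.1)
        positivity))⟩

theorem Transfer.mono {R r C C' : ℝ} {F : ℝ → X q m → ℂ} (h : Transfer d R r C S F) (hR : 0 ≤ R)
    (hC : C ≤ C') : Transfer d R r C' S F := fun s hs x hx h1 h2 => by
  obtain ⟨w, a1, a2, a3, a4⟩ := h s hs x hx h1 h2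
  have : 0 ≤ s := hR.trans hs
  exact ⟨w, a1, a2.trans (by gcongr), a3, a4.trans (by gcongr)⟩

theorem norm_proof : NormStmt := by
  intro q m T _ _ _ d C₀ Λ R0 r C cc Y S hd hd1 hΛ hR0 hI hS
  have hN := nest_of_inv hI hR0 (L := 2 * Λ) (by linarith) (by linarith)
  obtain ⟨Ta, Ca, hTa⟩ := hS.fam_a.exists_lim hd hd1 hN
  obtain ⟨Tb, Cb, hTb⟩ := hS.fam_bt.exists_lim hd hd1 hN
  obtain ⟨Ka, hKa, ha⟩ := hTa.lip hS.fam_a hd hN
  obtain ⟨Kb, hKb, hb⟩ := hTb.lip hS.fam_bt hd hN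
  obtain ⟨R1, r2, K, ζ, h1, h2, h3, h4, h5, hZ⟩ := exists_Zeta hd hΛ hN hS.fam_a hTa
    (fun R hR x hx hre => (hS.real R hR x hx hre).2) hS.nondeg
  have hK := hZ.nonneg
  have h : Ctx d C₀ Λ R0 r C cc Y S R1 r2 (K + Ka + Kb) Ta ζ := by
    refine ⟨hd, hΛ, hR0, hI, hS, h1, h2, h3, h4, fun R hR => (h5 R hR).trans (min_le_left _ _),
      ⟨by positivity, hZ.hol, hZ.le, fun R hR p hp => (hZ.le' R hR p hp).trans ?_, hZ.eq,
        fun R hR p hp z hz => (hZ.uniq R hR p hp z hz).trans ?_, hZ.real, fun R hR x hx hre => ?_⟩,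
      fun R hR p hp => ?_⟩
    · have : 0 < R := by linarith
      gcongr; linarith
    · gcongr; linarith
    · obtain ⟨z, z1, z2, z3, z4⟩ := hZ.back R hR x hx hre
      have : 0 < R := by linarith
      exact ⟨z, z1, z2, z3.trans (by gcongr; linarith), z4⟩
    · have a1 : 1 / R ^ 4 ≤ min (r / 4) (1 / 2) :=
        (h5 R hR).trans (min_le_min_right _ (by linarith))
      have a2 : p ∈ dom q m (r / 2) (Sym.Om (2 * Λ + 1) R) :=
        dom_mono h4 (om_mono (by linarith) R) hp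
      obtain ⟨b1, b2⟩ := ha R (h1.trans hR) a1 p a2
      have : 0 < R := by linarith
      have : 0 < 1 / R ^ 4 := by positivity
      refine ⟨(ball_subset_ball (by linarith)).trans b1, fun x hx y hy =>
        ⟨(b2 x hx y hy).trans ?_, ((hb R (h1.trans hR) a1 p a2).2 x hx y hy).trans ?_⟩⟩ <;>
        gcongr <;> linarith
  generalize K + Ka + Kb = K' at h
  have hK' := h.z.nonneg
  have hC := h.c0
  have hF : KN d (4 * Λ) R1 r2 (2 * C + 112 * K' + 4 * C * (C + K' * K' * C)) Y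
      fun R p => S.f R (ph ζ R p) :=
    ⟨h3, fun R hR => (hS.f_hol (h1.trans hR)).comp (h.ph_hol hR) fun p hp => h.ph_mem hR hp,
      fun R hR p hp => (hS.bdd R (h1.trans hR) _ (h.ph_mem hR hp)).1.trans (by
        have : 0 ≤ 4 * C * (C + K' * K' * C) := by positivity
        linarith),
      fun R hR p hp hre => (hS.real R (h1.trans hR) _ (h.ph_mem hR hp)
        ⟨hre.1, fun j => by simp [ph, hre.2 j, h.z.real R hR p hp hre j]⟩).1,
      fun a b h6 h7 p hp => h.inc h6 h7 hp⟩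
  exact ⟨R1, r2 / 2, _, _, h1, by linarith, hF.mono (by linarith) (half_pos h3) (by linarith)
    (le_max_left _ _), h.transfer.mono (by linarith) (le_max_right _ _)⟩

end Vale.Agent.P218F.Nm
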