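import Vale.Agent.P272.K.R.Reg
import Vale.Agent.P218F.GI2
import Vale.Agent.P218F.CoreJet

/-!
# Bounds for third derivatives of solutions of quasilinear elliptic equations
-/

set_option maxSynthPendingDepth 5
set_option linter.unusedSectionVars false

open Set Metric Filter Topology
open scoped ContDiff
open Vale.Agent.P272.K.R Vale.Agent.P218F.GI Vale.Agent.P218F.Core

noncomputable section

namespace Vale.Agent.P218F.Reg

variable {E : Type} [NormedAddCommGroup E] [NormedSpace ℝ E] [FiniteDimensional ℝ E]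

lemma norm_tens_le (a b : E →L[ℝ] ℝ) : ‖(a.smulRight b : Bil E)‖ ≤ ‖a‖ * ‖b‖ :=
  (ContinuousLinearMap.norm_smulRight_apply a b).le

/-- the interior gradient estimate for elliptic equations with Lipschitz coefficients -/
theorem keyE {lam : ℝ} (hlam : 0 < lam) (Lam K : ℝ) : ∃ C : ℝ, 0 ≤ C ∧
    ∀ (r M S : ℝ) (v : E → ℝ) (A : E → Bil E →L[ℝ] ℝ) (x₀ : E), 0 < r →
      (∀ x ∈ closedBall x₀ r, ContDiffAt ℝ 2 v x ∧
        (∀ ℓ : E →L[ℝ] ℝ, lam * ‖ℓ‖ ^ 2 ≤ A x (ℓ.smulRight ℓ)) ∧ ‖A x‖ ≤ Lam ∧ |v x| ≤ M ∧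
        |A x (D2 v x)| ≤ S) →
      (∀ x ∈ closedBall x₀ r, ∀ y ∈ closedBall x₀ r, ‖A x - A y‖ ≤ K / r * ‖x - y‖) →
      ‖fderiv ℝ v x₀‖ ≤ C * (M / r + r * S) := by
  set Eu := EuclideanSpace ℝ (Fin (Module.finrank ℝ E))
  let T : Eu ≃L[ℝ] E := toEuclidean.symm
  set b := EuclideanSpace.basisFun (Fin (Module.finrank ℝ E)) ℝ with hb
  set τ := ‖(T : Eu →L[ℝ] E)‖ + 1 with hτ
  set σ := ‖(T.symm : E →L[ℝ] Eu)‖ + 1 with hσ
  have hτ1 : 1 ≤ τ := le_add_of_nonneg_left (norm_nonneg _)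
  have hσ1 : 1 ≤ σ := le_add_of_nonneg_left (norm_nonneg _)
  have hT : ∀ u, ‖T u‖ ≤ τ * ‖u‖ := fun u =>
    ((T : Eu →L[ℝ] E).le_opNorm u).trans (by gcongr; linarith)
  have hT' : ∀ u, ‖T.symm u‖ ≤ σ * ‖u‖ := fun u =>
    ((T.symm : E →L[ℝ] Eu).le_opNorm u).trans (by gcongr; linarith)
  let e : Fin (Module.finrank ℝ E) → E →L[ℝ] ℝ := fun i =>
    (EuclideanSpace.proj i : Eu →L[ℝ] ℝ).comp (T.symm : E →L[ℝ] Eu)
  have he : ∀ i u, e i u = T.symm u i := fun i u => rfl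
  have hen : ∀ i, ‖e i‖ ≤ σ := fun i => ContinuousLinearMap.opNorm_le_bound _ (by linarith)
    fun u => (PiLp.norm_apply_le (T.symm u) i).trans (hT' u)
  have het : ∀ i j, ‖((e i).smulRight (e j) : Bil E)‖ ≤ σ ^ 2 := fun i j =>
    (norm_tens_le _ _).trans (by rw [sq]; exact mul_le_mul (hen i) (hen j) (norm_nonneg _) (by linarith))
  have hexp : ∀ u : E, u = ∑ i, e i u • T (b i) := fun u => by
    have := b.sum_repr (T.symm u)
    simp only [← map_smul, ← map_sum, he]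
    rw [← T.symm_apply_eq]
    exact this.symm
  have hdec : ∀ H : Bil E, H = ∑ i, ∑ j, H (T (b i)) (T (b j)) • (e i).smulRight (e j) := by
    intro H
    refine ContinuousLinearMap.ext fun u => ContinuousLinearMap.ext fun v => ?_
    conv_lhs => rw [hexp u, hexp v]
    simp only [map_sum, map_smul, sum_apply, smul_apply, smul_eq_mul,
      ContinuousLinearMap.smulRight_apply, Finset.mul_sum]
    rw [Finset.sum_comm]
    exact Finset.sum_congr rfl fun i _ => Finset.sum_congr rfl fun j _ => by ring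
  obtain ⟨C, hC, H⟩ := key b (lam := lam / τ ^ 2) (by positivity) (Lam * σ ^ 2) (|K| * σ ^ 2)
  refine ⟨C * τ * σ, by positivity, fun r M S v A x₀ hr h hl => ?_⟩
  let L : Eu × ℝ →L[ℝ] E := (T : Eu →L[ℝ] E).comp (ContinuousLinearMap.fst ℝ Eu ℝ)
  have hL : ∀ p, L p = T p.1 := fun p => rfl
  have hφ : ∀ p, HasFDerivAt (fun p => x₀ + L p) L p := fun p => L.hasFDerivAt.const_add x₀
  have hφ1 : fderiv ℝ (fun p => x₀ + L p) = fun _ => L := funext fun p => (hφ p).fderiv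
  have hφ2 : ContDiff ℝ 2 fun p => x₀ + L p := contDiff_const.add L.contDiff
  have hin : ∀ p ∈ cyl ((0, 0) : Eu × ℝ) (r / τ), x₀ + L p ∈ closedBall x₀ r := fun p hp => by
    have h1 := (mem_cyl.1 hp).1
    rw [sub_zero, le_div_iff₀ (by linarith)] at h1
    rw [mem_closedBall, dist_eq_norm, add_sub_cancel_left, hL]
    linarith [hT p.1]
  have hM0 : 0 ≤ M := (abs_nonneg _).trans (h x₀ (mem_closedBall_self hr.le)).2.2.2.1
  have hS0 : 0 ≤ S := (abs_nonneg _).trans (h x₀ (mem_closedBall_self hr.le)).2.2.2.2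
  have sym : ∀ (B : Bil E →L[ℝ] ℝ) (c : ℝ), ‖B‖ ≤ c → ∀ i j,
      |(B ((e i).smulRight (e j)) + B ((e j).smulRight (e i))) / 2| ≤ c * σ ^ 2 := by
    intro B c hc i j
    have h1 : ∀ i j, |B ((e i).smulRight (e j))| ≤ c * σ ^ 2 := fun i j =>
      (B.le_opNorm _).trans (mul_le_mul hc (het i j) (norm_nonneg _) ((norm_nonneg _).trans hc))
    rw [abs_div, abs_two]
    linarith [abs_add_le (B ((e i).smulRight (e j))) (B ((e j).smulRight (e i))), h1 i j, h1 j i]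
  have key2 := H (r / τ) M S (fun p => v (x₀ + L p))
    (fun p i j => (A (x₀ + L p) ((e i).smulRight (e j)) + A (x₀ + L p) ((e j).smulRight (e i))) / 2)
    (0, 0) (by positivity) (fun p hp => (h _ (hin p hp)).1.comp p hφ2.contDiffAt)
    (fun p hp => ⟨fun i j => by ring, fun x => by
      have h1 := (h _ (hin p hp)).2.1 (∑ i, x i • e i)
      have h2 : ((∑ i, x i • e i).smulRight (∑ i, x i • e i) : Bil E)
          = ∑ i, ∑ j, (x i * x j) • (e i).smulRight (e j) := by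
        refine ContinuousLinearMap.ext fun u => ContinuousLinearMap.ext fun v => ?_
        simp only [sum_apply, smul_apply, smul_eq_mul,
          ContinuousLinearMap.smulRight_apply, Finset.mul_sum, Finset.sum_mul]
        rw [Finset.sum_comm]
        exact Finset.sum_congr rfl fun i _ => Finset.sum_congr rfl fun j _ => by ring
      rw [h2] at h1
      simp only [map_sum, map_smul, smul_eq_mul] at h1
      have h3 : ∑ i, ∑ j, (A (x₀ + L p) ((e i).smulRight (e j))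
          + A (x₀ + L p) ((e j).smulRight (e i))) / 2 * x i * x j
          = ∑ i, ∑ j, x i * x j * A (x₀ + L p) ((e i).smulRight (e j)) := by
        have h4 : ∑ i, ∑ j, x i * x j * A (x₀ + L p) ((e j).smulRight (e i))
            = ∑ i, ∑ j, x i * x j * A (x₀ + L p) ((e i).smulRight (e j)) := by
          rw [Finset.sum_comm]
          exact Finset.sum_congr rfl fun i _ => Finset.sum_congr rfl fun j _ => by ring
        calc _ = (∑ i, ∑ j, x i * x j * A (x₀ + L p) ((e i).smulRight (e j))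
              + ∑ i, ∑ j, x i * x j * A (x₀ + L p) ((e j).smulRight (e i))) / 2 := by
              simp only [← Finset.sum_add_distrib, Finset.sum_div]
              exact Finset.sum_congr rfl fun i _ => Finset.sum_congr rfl fun j _ => by ring
          _ = _ := by rw [h4]; ring
      rw [h3]
      refine le_trans ?_ h1
      set X : Eu := WithLp.toLp 2 x with hX
      have h5 : ∑ i, x i ^ 2 = ‖X‖ ^ 2 := by rw [EuclideanSpace.real_norm_sq_eq]
      have h6 : (∑ i, x i • e i) (T X) = ‖X‖ ^ 2 := by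
        rw [← h5]
        simp [he, hX, sq]
      have h7 := (le_abs_self _).trans ((∑ i, x i • e i).le_opNorm (T X))
      rw [h6] at h7
      have h8 : ‖X‖ ≤ τ * ‖∑ i, x i • e i‖ := by
        rcases (norm_nonneg X).eq_or_lt with h0 | h0
        · rw [← h0]; positivity
        · refine le_of_mul_le_mul_right ?_ h0
          nlinarith [mul_le_mul_of_nonneg_left (hT X) (norm_nonneg (∑ i, x i • e i))]
      rw [h5, div_mul_eq_mul_div, div_le_iff₀ (by positivity), mul_assoc, ← mul_pow, mul_comm _ τ]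
      gcongr⟩)
    (fun p hp => sym _ _ (h _ (hin p hp)).2.2.1)
    (fun x y t hx hy i j => by
      have h1 := sym _ _ (hl _ (hin _ hx) _ (hin _ hy)) i j
      simp only [sub_apply] at h1
      refine le_trans (le_of_eq (by congr 1; ring)) (h1.trans ?_)
      rw [add_sub_add_left_eq_sub, hL, hL, ← map_sub]
      calc K / r * ‖T (x - y)‖ * σ ^ 2 ≤ |K| / r * (τ * ‖x - y‖) * σ ^ 2 := by
            gcongr
            · exact le_abs_self _
            · exact hT _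
        _ = _ := by field_simp)
    (fun p hp => (h _ (hin p hp)).2.2.2.1)
    (fun p hp => by
      have hv := (h _ (hin p hp)).1
      obtain ⟨-, h1, h2⟩ := jet2_comp (g := v) (φ := fun p => x₀ + L p) hv hφ2.contDiffAt
      simp only [jet2, hφ1, fderiv_fun_const, Pi.zero_apply, zero_apply, map_zero, zero_add] at h1 h2
      have h3 : L (0, 1) = 0 := by simp [hL]
      rw [h1, h3, map_zero, zero_sub, abs_neg]
      refine le_trans (le_of_eq ?_) (h _ (hin p hp)).2.2.2.2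
      congr 1
      refine (Finset.sum_congr rfl fun i _ => Finset.sum_congr rfl fun j _ =>
        congrArg _ (h2 (b i, 0) (b j, 0))).trans ?_
      conv_rhs => rw [hdec (D2 v (x₀ + L p))]
      simp only [map_sum, map_smul, smul_eq_mul, hL]
      have h4 : ∑ i, ∑ j, D2 v (x₀ + T p.1) (T (b i)) (T (b j)) * A (x₀ + T p.1) ((e j).smulRight (e i))
          = ∑ i, ∑ j, D2 v (x₀ + T p.1) (T (b i)) (T (b j)) * A (x₀ + T p.1) ((e i).smulRight (e j)) := by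
        rw [Finset.sum_comm]
        refine Finset.sum_congr rfl fun i _ => Finset.sum_congr rfl fun j _ => ?_
        congr 1
        exact (hv.isSymmSndFDerivAt (by simp)).eq _ _
      calc _ = (∑ i, ∑ j, D2 v (x₀ + T p.1) (T (b i)) (T (b j)) * A (x₀ + T p.1) ((e i).smulRight (e j))
            + ∑ i, ∑ j, D2 v (x₀ + T p.1) (T (b i)) (T (b j))
              * A (x₀ + T p.1) ((e j).smulRight (e i))) / 2 := by
            simp only [← Finset.sum_add_distrib, Finset.sum_div]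
            exact Finset.sum_congr rfl fun i _ => Finset.sum_congr rfl fun j _ => by ring
        _ = _ := by rw [h4]; ring)
  refine ContinuousLinearMap.opNorm_le_bound _ (by positivity) fun u => ?_
  have h1 := key2 (T.symm u)
  have hv := (h x₀ (mem_closedBall_self hr.le)).1
  have h0 : x₀ + L (0, 0) = x₀ := by simp [hL]
  have h2 := (jet2_comp (g := v) (φ := fun p => x₀ + L p) (y := (0, 0)) (by rwa [h0])
    hφ2.contDiffAt).2.1 (T.symm u, 0)
  simp only [jet2, hφ1, h0] at h2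
  rw [h2, hL, T.apply_symm_apply] at h1
  refine h1.trans ?_
  have h3 : M / (r / τ) + r / τ * S ≤ τ * (M / r + r * S) := by
    have : r / τ ≤ τ * r := (div_le_self hr.le hτ1).trans (le_mul_of_one_le_left hr.le hτ1)
    have h4 : M / (r / τ) = τ * (M / r) := by field_simp
    nlinarith
  calc _ ≤ C * (τ * (M / r + r * S)) * (σ * ‖u‖) := by gcongr; exact hT' u
    _ = _ := by ring

section pd2

variable {F G : Type} [NormedAddCommGroup F] [NormedSpace ℝ F] [NormedAddCommGroup G]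
  [NormedSpace ℝ G]

lemma pd_apply {A : E → F →L[ℝ] G} {H : E → F} {x : E} (hA : DifferentiableAt ℝ A x)
    (hH : DifferentiableAt ℝ H x) (a : E) :
    pd a (fun y => A y (H y)) x = pd a A x (H x) + A x (pd a H x) := by
  simp only [pd]
  rw [fderiv_clm_apply hA hH]
  simp [add_comm]

lemma pd2_apply {A : E → F →L[ℝ] G} {H : E → F} {x : E} (hA : ContDiffAt ℝ 2 A x)
    (hH : ContDiffAt ℝ 2 H x) (a b : E) :
    pd a (pd b fun y => A y (H y)) x = pd a (pd b A) x (H x) + pd b A x (pd a H x)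
      + (pd a A x (pd b H x) + A x (pd a (pd b H) x)) := by
  have h1 : (pd b fun y => A y (H y)) =ᶠ[𝓝 x] fun y => pd b A y (H y) + A y (pd b H y) := by
    filter_upwards [ev_diff hA, ev_diff hH] with y h1 h2 using pd_apply h1 h2 b
  have dA := (ev_diff hA).self_of_nhds
  have dH := (ev_diff hH).self_of_nhds
  have dA' := (contDiffAt_pd hA (m := 1) (by norm_num) b).differentiableAt (by simp)
  have dH' := (contDiffAt_pd hH (m := 1) (by norm_num) b).differentiableAt (by simp)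
  rw [pd_congr h1, ← pd_apply dA' dH, ← pd_apply dA dH']
  exact DFunLike.congr_fun (fderiv_fun_add (dA'.clm_apply dH) (dA.clm_apply dH')) a

end pd2

lemma num1 {B t N a b x1 x2 x3 x4 : ℝ} (hB : 0 ≤ B) (ht : 1 ≤ t) (hN : 0 ≤ N) (ha : 0 ≤ a)
    (hb : 0 ≤ b) (t1 : |x1| ≤ B * t * (1 + N) * a * b) (t2 : |x2| ≤ B * (1 + N) * a * b * B)
    (t4 : |x3| ≤ B * b * (N * a)) (t5 : |x4| ≤ B * a * (N * b)) :
    |x1 - x2 - x3 - x4| ≤ (3 * B + B ^ 2) * t * (1 + N) * a * b := by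
  have p1 : B * (1 + N) * a * b * B ≤ B ^ 2 * t * (1 + N) * a * b := by
    have : 0 ≤ (t - 1) * (B ^ 2 * (1 + N) * a * b) := by
      have := sub_nonneg.2 ht; positivity
    linarith
  have p2 : B * b * (N * a) ≤ B * t * (1 + N) * a * b := by
    have : N ≤ t * (1 + N) := by nlinarith
    calc B * b * (N * a) ≤ B * b * (t * (1 + N) * a) := by gcongr
      _ = _ := by ring
  rw [abs_le] at *
  constructor <;> linarith [t1.1, t1.2, t2.1, t2.2, t4.1, t4.2, t5.1, t5.2]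

/-- the twice differentiated equation -/
lemma diff2 {w f : E → ℝ} {A : E → Bil E →L[ℝ] ℝ} {x : E} {B t : ℝ} (ht : 1 ≤ t)
    (h1 : ContDiffAt ℝ 4 w x) (h2 : ContDiffAt ℝ 2 A x) (h3 : ContDiffAt ℝ 2 f x)
    (h6 : ‖fderiv ℝ A x‖ ≤ B) (h7 : ‖D2 w x‖ ≤ B)
    (h8 : ‖fderiv ℝ (fderiv ℝ A) x‖ ≤ B * (1 + ‖fderiv ℝ (D2 w) x‖))
    (h9 : ‖fderiv ℝ (fderiv ℝ f) x‖ ≤ B * t * (1 + ‖fderiv ℝ (D2 w) x‖))
    (he : ∀ᶠ y in 𝓝 x, A y (D2 w y) = f y) (a b : E) :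
    |A x (D2 (fun y => D2 w y a b) x)|
      ≤ (3 * B + B ^ 2) * t * (1 + ‖fderiv ℝ (D2 w) x‖) * ‖a‖ * ‖b‖ := by
  have hB : 0 ≤ B := (norm_nonneg _).trans h7
  have hH : ContDiffAt ℝ 2 (D2 w) x :=
    (h1.fderiv_right (m := 3) (by norm_num)).fderiv_right (m := 2) (by norm_num)
  have e1 : (fun y => D2 w y a b) =ᶠ[𝓝 x] pd a (pd b w) := by
    filter_upwards [h1.eventually (by simp)] with y hy using (pd_pd (hy.of_le (by norm_num)) a b).symm
  have e2 : D2 (pd b w) =ᶠ[𝓝 x] pd b (D2 w) := by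
    filter_upwards [h1.eventually (by simp)] with y hy
      using (fderiv_D2 (hy.of_le (by norm_num)) b).symm
  have e3 : D2 (fun y => D2 w y a b) x = pd a (pd b (D2 w)) x := by
    rw [← pd_congr e2, show D2 (fun y => D2 w y a b) x = _ from e1.fderiv.fderiv_eq]
    exact (fderiv_D2 (contDiffAt_pd h1 (m := 3) (by norm_num) b) a).symm
  have e4 : (pd b fun y => A y (D2 w y)) =ᶠ[𝓝 x] pd b f := by
    filter_upwards [he.eventually_nhds] with y hy using pd_congr hy b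
  have e5 := pd2_apply h2 hH a b
  rw [pd_congr e4, pd_pd h3, pd_pd h2] at e5
  have t3 : ∀ a b : E, ‖pd b A x (pd a (D2 w) x)‖ ≤ B * ‖b‖ * (‖fderiv ℝ (D2 w) x‖ * ‖a‖) :=
    fun a b => ((fderiv ℝ A x).le_opNorm₂ b _).trans (mul_le_mul
      (mul_le_mul_of_nonneg_right h6 (norm_nonneg _)) ((fderiv ℝ (D2 w) x).le_opNorm a)
      (norm_nonneg _) (by positivity))
  have e6 : A x (pd a (pd b (D2 w)) x) = fderiv ℝ (fderiv ℝ f) x a b
      - fderiv ℝ (fderiv ℝ A) x a b (D2 w x) - pd b A x (pd a (D2 w) x)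
      - pd a A x (pd b (D2 w) x) := by rw [e5]; ring
  rw [e3, e6]
  refine num1 hB ht (norm_nonneg _) (norm_nonneg _) (norm_nonneg _) ?_ ?_ (t3 a b) (t3 b a)
  · exact ((fderiv ℝ (fderiv ℝ f) x).le_opNorm₂ a b).trans (mul_le_mul_of_nonneg_right
      (mul_le_mul_of_nonneg_right h9 (norm_nonneg _)) (norm_nonneg _))
  · exact ((fderiv ℝ (fderiv ℝ A) x a b).le_opNorm _).trans (mul_le_mul
      (((fderiv ℝ (fderiv ℝ A) x).le_opNorm₂ a b).trans (mul_le_mul_of_nonneg_right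
      (mul_le_mul_of_nonneg_right h8 (norm_nonneg _)) (norm_nonneg _))) h7 (norm_nonneg _)
      (by positivity))

lemma num2 {C1 B c0 t ρ d n N : ℝ} (hC1 : 0 ≤ C1) (hB : 0 ≤ B) (hc0 : 0 ≤ c0) (ht : 1 ≤ t)
    (hpos : 0 < d) (hdρ : d ≤ ρ) (hn : n = d * N) (hn0 : 0 ≤ n)
    (hfin : N ≤ C1 * (B / (d / (4 * C1 * (c0 * t) * ρ + 2)) + d / (4 * C1 * (c0 * t) * ρ + 2)
      * (c0 * t * (1 + 2 * n / d)))) :
    n ≤ 2 * (C1 * B * (4 * C1 * c0 * ρ + 2) + C1 * c0 * ρ ^ 2) * t := by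
  have hρ : 0 < ρ := by linarith
  set Q := 4 * C1 * (c0 * t) * ρ + 2 with hQ
  have hQ2 : 2 ≤ Q := by
    have : 0 ≤ 4 * C1 * (c0 * t) * ρ := by positivity
    linarith
  have e3 : d * (C1 * (B / (d / Q) + d / Q * (c0 * t * (1 + 2 * n / d)))) =
      C1 * B * Q + C1 * (c0 * t) * (d ^ 2 / Q) + 2 * (C1 * (c0 * t) * d / Q) * n := by
    field_simp
    ring
  have e4 : n ≤ C1 * B * Q + C1 * (c0 * t) * (d ^ 2 / Q) + 2 * (C1 * (c0 * t) * d / Q) * n := by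
    rw [← e3]; exact hn.le.trans (mul_le_mul_of_nonneg_left hfin hpos.le)
  have e5 : C1 * (c0 * t) * d / Q ≤ 1 / 4 := by
    rw [div_le_iff₀ (by linarith)]
    have : C1 * (c0 * t) * d ≤ C1 * (c0 * t) * ρ := by gcongr
    linarith
  have e6 : C1 * (c0 * t) * (d ^ 2 / Q) ≤ C1 * (c0 * t) * ρ ^ 2 := by
    gcongr
    exact (div_le_self (by positivity) (by linarith)).trans (by gcongr)
  have e7 : 2 * (C1 * (c0 * t) * d / Q) * n ≤ 2 * (1 / 4) * n := by gcongr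
  have e8 : C1 * B * Q ≤ C1 * B * ((4 * C1 * c0 * ρ + 2) * t) := by
    gcongr; rw [hQ]; nlinarith
  linarith

/-- third derivatives for the linear equation -/
theorem lin3 {lam : ℝ} (hlam : 0 < lam) (B : ℝ) {ρ : ℝ} (hρ : 0 < ρ) : ∃ C : ℝ,
    ∀ (t : ℝ) (w f : E → ℝ) (A : E → Bil E →L[ℝ] ℝ) (x₀ : E), 1 ≤ t →
      (∀ x ∈ ball x₀ ρ, ContDiffAt ℝ 4 w x ∧ ContDiffAt ℝ 2 A x ∧ ContDiffAt ℝ 2 f x ∧
        (∀ ℓ : E →L[ℝ] ℝ, lam * ‖ℓ‖ ^ 2 ≤ A x (ℓ.smulRight ℓ)) ∧ ‖A x‖ ≤ B ∧ ‖fderiv ℝ A x‖ ≤ B ∧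
        ‖D2 w x‖ ≤ B ∧ ‖fderiv ℝ (fderiv ℝ A) x‖ ≤ B * (1 + ‖fderiv ℝ (D2 w) x‖) ∧
        ‖fderiv ℝ (fderiv ℝ f) x‖ ≤ B * t * (1 + ‖fderiv ℝ (D2 w) x‖) ∧ A x (D2 w x) = f x) →
      ‖fderiv ℝ (D2 w) x₀‖ ≤ C * t := by
  obtain ⟨C1, hC1, hkey⟩ := keyE (E := E) hlam B (|B| * ρ)
  set c0 := 3 * |B| + B ^ 2 with hc0
  refine ⟨2 * (C1 * |B| * (4 * C1 * c0 * ρ + 2) + C1 * c0 * ρ ^ 2) / (ρ / 2),
    fun t w f A x₀ ht h => ?_⟩
  have hB : 0 ≤ B := (norm_nonneg _).trans (h x₀ (mem_ball_self hρ)).2.2.2.2.1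
  rw [abs_of_nonneg hB] at hc0 hkey ⊢
  have hc00 : 0 ≤ c0 := by positivity
  have hH : ∀ x ∈ ball x₀ ρ, ContDiffAt ℝ 2 (D2 w) x := fun x hx =>
    ((h x hx).1.fderiv_right (m := 3) (by norm_num)).fderiv_right (m := 2) (by norm_num)
  have hsub : closedBall x₀ (ρ / 2) ⊆ ball x₀ ρ := closedBall_subset_ball (by linarith)
  set N := fun x => ‖fderiv ℝ (D2 w) x‖ with hN
  have hNc : ContinuousOn N (closedBall x₀ (ρ / 2)) := fun x hx =>
    ((hH x (hsub hx)).fderiv_right (m := 0) (by norm_num)).continuousAt.norm.continuousWithinAt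
  -- the differentiated equation
  have heq : ∀ x ∈ ball x₀ ρ, ∀ a b : E,
      |A x (D2 (fun y => D2 w y a b) x)| ≤ c0 * t * (1 + N x) * ‖a‖ * ‖b‖ := by
    intro x hx a b
    obtain ⟨h1, h2, h3, -, -, h6, h7, h8, h9, -⟩ := h x hx
    rw [hc0]
    exact diff2 ht h1 h2 h3 h6 h7 h8 h9
      (by filter_upwards [isOpen_ball.mem_nhds hx] with y hy using (h y hy).2.2.2.2.2.2.2.2.2) a b
  obtain ⟨x₁, hx₁, hmax⟩ := (isCompact_closedBall x₀ (ρ / 2)).exists_isMaxOn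
    ⟨x₀, mem_closedBall_self (by positivity)⟩ (f := fun x => (ρ / 2 - ‖x - x₀‖) * N x)
    (ContinuousOn.mul (by fun_prop) hNc)
  have hmax' : ∀ x ∈ closedBall x₀ (ρ / 2),
      (ρ / 2 - ‖x - x₀‖) * N x ≤ (ρ / 2 - ‖x₁ - x₀‖) * N x₁ := fun x hx => hmax hx
  have h0 := hmax' x₀ (mem_closedBall_self (by positivity))
  rw [sub_self, norm_zero, sub_zero] at h0
  rw [div_mul_eq_mul_div, le_div_iff₀ (by positivity), mul_comm]
  refine h0.trans ?_
  set d := ρ / 2 - ‖x₁ - x₀‖ with hd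
  rcases le_or_gt d 0 with hneg | hpos
  · exact (mul_nonpos_of_nonpos_of_nonneg hneg (norm_nonneg _)).trans (by positivity)
  have hdρ : d ≤ ρ := by linarith [norm_nonneg (x₁ - x₀)]
  set Q := 4 * C1 * (c0 * t) * ρ + 2 with hQ
  have hQ2 : 2 ≤ Q := by
    have : 0 ≤ 4 * C1 * (c0 * t) * ρ := by positivity
    linarith
  set n := d * N x₁ with hn
  have hn0 : 0 ≤ n := by positivity
  have hr : 0 < d / Q := by positivity
  have hr2 : d / Q ≤ d / 2 := by gcongr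
  have hin : ∀ x ∈ closedBall x₁ (d / Q), x ∈ closedBall x₀ (ρ / 2) ∧ N x ≤ 2 * n / d := by
    intro x hx
    have h1 := norm_sub_le_norm_sub_add_norm_sub x x₁ x₀
    have h2 := mem_closedBall_iff_norm.1 hx
    have h3 : x ∈ closedBall x₀ (ρ / 2) := mem_closedBall_iff_norm.2 (by linarith)
    refine ⟨h3, ?_⟩
    rw [le_div_iff₀ hpos]
    have h4 := hmax' x h3
    have h5 : 0 ≤ N x := norm_nonneg _
    nlinarith
  have hfin : N x₁ ≤ C1 * (B / (d / Q) + d / Q * (c0 * t * (1 + 2 * n / d))) := by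
    refine ContinuousLinearMap.opNorm_le_bound _ (by positivity) fun ξ =>
      ContinuousLinearMap.opNorm_le_bound _ (by positivity) fun a =>
      ContinuousLinearMap.opNorm_le_bound _ (by positivity) fun b => ?_
    have k1 := hkey (d / Q) (B * ‖a‖ * ‖b‖) (c0 * t * (1 + 2 * n / d) * ‖a‖ * ‖b‖)
      (fun y => D2 w y a b) A x₁ hr
      (fun x hx => by
        have hx' := hsub (hin x hx).1
        refine ⟨((hH x hx').clm_apply contDiffAt_const).clm_apply contDiffAt_const,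
          (h x hx').2.2.2.1, (h x hx').2.2.2.2.1, ?_, (heq x hx' a b).trans ?_⟩
        · exact ((D2 w x).le_opNorm₂ a b).trans (mul_le_mul_of_nonneg_right
            (mul_le_mul_of_nonneg_right (h x hx').2.2.2.2.2.2.1 (norm_nonneg _)) (norm_nonneg _))
        · gcongr; exact (hin x hx).2)
      (fun x hx y hy => by
        refine ((convex_ball x₀ ρ).norm_image_sub_le_of_norm_fderiv_le (𝕜 := ℝ) (C := B)
          (fun z hz => (h z hz).2.1.differentiableAt (by simp)) (fun z hz => (h z hz).2.2.2.2.2.1)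
          (hsub (hin y hy).1) (hsub (hin x hx).1)).trans ?_
        gcongr
        rw [le_div_iff₀ hr]
        gcongr
        linarith)
    have hd1 := (hH x₁ (hsub hx₁)).differentiableAt (by simp)
    have k2 : fderiv ℝ (fun y => D2 w y a b) x₁ ξ = fderiv ℝ (D2 w) x₁ ξ a b := by
      have := ((hd1.hasFDerivAt.clm_apply (hasFDerivAt_const a x₁)).clm_apply
        (hasFDerivAt_const b x₁)).fderiv
      rw [this]; simp
    rw [← k2]
    refine ((ContinuousLinearMap.le_opNorm _ _).trans (mul_le_mul_of_nonneg_right k1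
      (norm_nonneg _))).trans_eq ?_
    ring
  exact num2 hC1 hB hc00 ht hpos hdρ hn hn0 hfin

lemma exists_ell {X : Type} [TopologicalSpace X] {K : Set X} (hK : IsCompact K)
    {A : X → Bil E →L[ℝ] ℝ} (hA : ContinuousOn A K)
    (he : ∀ p ∈ K, ∀ ℓ : E →L[ℝ] ℝ, ℓ ≠ 0 → 0 < A p (ℓ.smulRight ℓ)) :
    ∃ lam : ℝ, 0 < lam ∧ ∀ p ∈ K, ∀ ℓ : E →L[ℝ] ℝ, lam * ‖ℓ‖ ^ 2 ≤ A p (ℓ.smulRight ℓ) := by
  have hc : ContinuousOn (fun q : X × (E →L[ℝ] ℝ) => A q.1 (q.2.smulRight q.2)) (K ×ˢ sphere 0 1) :=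
    (hA.comp continuousOn_fst fun q hq => hq.1).clm_apply
      (((ContinuousLinearMap.smulRightL ℝ E (E →L[ℝ] ℝ)).continuous.comp continuous_snd).clm_apply
        continuous_snd).continuousOn
  obtain ⟨lam, hl, H⟩ := (hK.prod (isCompact_sphere (0 : E →L[ℝ] ℝ) 1)).exists_forall_le' hc
    (a := 0) fun q hq => he q.1 hq.1 q.2 (ne_of_mem_sphere hq.2 one_ne_zero)
  refine ⟨lam, hl, fun p hp ℓ => ?_⟩
  by_cases h0 : ℓ = 0
  · simp [h0]
  have hn : 0 < ‖ℓ‖ := norm_pos_iff.2 h0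
  have h1 := H (p, ‖ℓ‖⁻¹ • ℓ) ⟨hp, by simp [norm_smul, hn.ne']⟩
  have h2 : ((‖ℓ‖⁻¹ • ℓ).smulRight (‖ℓ‖⁻¹ • ℓ) : Bil E) = (‖ℓ‖ ^ 2)⁻¹ • ℓ.smulRight ℓ := by
    refine ContinuousLinearMap.ext fun u => ContinuousLinearMap.ext fun v => ?_
    simp only [smul_apply, smul_eq_mul, ContinuousLinearMap.smulRight_apply]
    ring
  simp only [h2, map_smul, smul_eq_mul] at h1
  rwa [le_inv_mul_iff₀ (by positivity), mul_comm] at h1

section comp

variable {X Y : Type} [NormedAddCommGroup X] [NormedSpace ℝ X] [NormedAddCommGroup Y]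
  [NormedSpace ℝ Y]

lemma exists_bd2 {g : X → Y} {K : Set X} (hK : IsCompact K) (hg : ∀ p ∈ K, ContDiffAt ℝ 2 g p) :
    ∃ M : ℝ, 0 ≤ M ∧ ∀ p ∈ K, ‖jet2 g p‖ ≤ M := by
  obtain ⟨M, hM⟩ := hK.exists_bound_of_continuousOn (f := jet2 g) fun p hp =>
    ((hg p hp).continuousAt.prodMk (((hg p hp).fderiv_right (m := 0) (by norm_num)).continuousAt.prodMk
      (((hg p hp).fderiv_right (m := 1) (by norm_num)).fderiv_right (m := 0)
        (by norm_num)).continuousAt)).continuousWithinAt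
  exact ⟨max M 0, le_max_right _ _, fun p hp => (hM p hp).trans (le_max_left _ _)⟩

lemma jet2_le {g : X → Y} {p : X} {M : ℝ} :
    ‖jet2 g p‖ ≤ M ↔ ‖g p‖ ≤ M ∧ ‖fderiv ℝ g p‖ ≤ M ∧ ‖fderiv ℝ (fderiv ℝ g) p‖ ≤ M := by
  simp only [jet2, norm_prod_le_iff]

lemma comp_bd {g : X → Y} {Z : E → X} {x : E} (hg : ContDiffAt ℝ 2 g (Z x))
    (hZ : ContDiffAt ℝ 2 Z x) {M a b : ℝ} (hM : ‖jet2 g (Z x)‖ ≤ M) (ha : ‖fderiv ℝ Z x‖ ≤ a)
    (hb : ‖fderiv ℝ (fderiv ℝ Z) x‖ ≤ b) : ‖fderiv ℝ (fun y => g (Z y)) x‖ ≤ M * a ∧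
      ‖fderiv ℝ (fderiv ℝ fun y => g (Z y)) x‖ ≤ M * b + M * a ^ 2 := by
  obtain ⟨-, h1, h2⟩ := jet2_comp hg hZ
  obtain ⟨m0, m1, m2⟩ := jet2_le.1 hM
  have hM0 := (norm_nonneg _).trans m0
  have ha0 := (norm_nonneg _).trans ha
  have hb0 := (norm_nonneg _).trans hb
  have d1 : ∀ u, ‖fderiv ℝ Z x u‖ ≤ a * ‖u‖ := fun u =>
    (ContinuousLinearMap.le_opNorm _ _).trans (by gcongr)
  refine ⟨ContinuousLinearMap.opNorm_le_bound _ (by positivity) fun u => ?_,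
    ContinuousLinearMap.opNorm_le_bound₂ _ (by positivity) fun u v => ?_⟩
  · refine (congrArg norm (h1 u)).trans_le ((ContinuousLinearMap.le_opNorm _ _).trans ?_)
    rw [mul_assoc]
    exact mul_le_mul m1 (d1 u) (norm_nonneg _) hM0
  · refine (congrArg norm (h2 u v)).trans_le ((norm_add_le _ _).trans ?_)
    have t1 : ‖(jet2 g (Z x)).2.1 (fderiv ℝ (fderiv ℝ Z) x u v)‖ ≤ M * (b * ‖u‖ * ‖v‖) :=
      (ContinuousLinearMap.le_opNorm _ _).trans (mul_le_mul m1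
        ((ContinuousLinearMap.le_opNorm₂ _ _ _).trans (by gcongr)) (norm_nonneg _) hM0)
    have t2 : ‖(jet2 g (Z x)).2.2 (fderiv ℝ Z x u) (fderiv ℝ Z x v)‖ ≤ M * (a * ‖u‖) * (a * ‖v‖) :=
      (ContinuousLinearMap.le_opNorm₂ _ _ _).trans (mul_le_mul (mul_le_mul m2 (d1 u) (norm_nonneg _) hM0)
        (d1 v) (norm_nonneg _) (by positivity))
    linarith

lemma prod_bd {f : E → X} {g : E → Y} {x : E} (hf : ContDiffAt ℝ 2 f x) (hg : ContDiffAt ℝ 2 g x)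
    {a b : ℝ} (h1 : ‖fderiv ℝ f x‖ ≤ a) (h2 : ‖fderiv ℝ g x‖ ≤ a)
    (h3 : ‖fderiv ℝ (fderiv ℝ f) x‖ ≤ b) (h4 : ‖fderiv ℝ (fderiv ℝ g) x‖ ≤ b) :
    ‖fderiv ℝ (fun y => (f y, g y)) x‖ ≤ a ∧ ‖fderiv ℝ (fderiv ℝ fun y => (f y, g y)) x‖ ≤ b := by
  have ha0 := (norm_nonneg _).trans h1
  have hb0 := (norm_nonneg _).trans h3
  have e1 := jet2_clm (ContinuousLinearMap.fst ℝ X Y) (hf.prodMk hg)
  have e2 := jet2_clm (ContinuousLinearMap.snd ℝ X Y) (hf.prodMk hg)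
  simp only [jet2, J2.map, ContinuousLinearMap.coe_fst', ContinuousLinearMap.coe_snd',
    Prod.mk.injEq] at e1 e2
  refine ⟨ContinuousLinearMap.opNorm_le_bound _ ha0 fun u => norm_prod_le_iff.2 ⟨?_, ?_⟩,
    ContinuousLinearMap.opNorm_le_bound₂ _ hb0 fun u v => norm_prod_le_iff.2 ⟨?_, ?_⟩⟩
  · exact (congrArg (fun T => ‖T u‖) e1.2.1).symm.trans_le
      (((fderiv ℝ f x).le_opNorm u).trans (mul_le_mul_of_nonneg_right h1 (norm_nonneg _)))
  · exact (congrArg (fun T => ‖T u‖) e2.2.1).symm.trans_le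
      (((fderiv ℝ g x).le_opNorm u).trans (mul_le_mul_of_nonneg_right h2 (norm_nonneg _)))
  · exact (congrArg (fun T => ‖T u v‖) e1.2.2).symm.trans_le
      (((fderiv ℝ (fderiv ℝ f) x).le_opNorm₂ u v).trans (mul_le_mul_of_nonneg_right
        (mul_le_mul_of_nonneg_right h3 (norm_nonneg _)) (norm_nonneg _)))
  · exact (congrArg (fun T => ‖T u v‖) e2.2.2).symm.trans_le
      (((fderiv ℝ (fderiv ℝ g) x).le_opNorm₂ u v).trans (mul_le_mul_of_nonneg_right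
        (mul_le_mul_of_nonneg_right h4 (norm_nonneg _)) (norm_nonneg _)))

lemma jet_bd {j : E → X} {w : E → ℝ} {x : E} {a : ℝ} (ha1 : 1 ≤ a) (h1 : ContDiffAt ℝ 2 j x)
    (h2 : ContDiffAt ℝ 4 w x) (h3 : ‖fderiv ℝ w x‖ ≤ a) (h4 : ‖fderiv ℝ j x‖ ≤ a)
    (h5 : ‖fderiv ℝ (fderiv ℝ j) x‖ ≤ a) (h6 : ‖fderiv ℝ (fderiv ℝ w) x‖ ≤ a) {g : _ → Y}
    (hg : ContDiffAt ℝ 2 g (j x, w x, fderiv ℝ w x)) {M M' : ℝ} (hM : M ≤ M')
    (hb : ‖jet2 g (j x, w x, fderiv ℝ w x)‖ ≤ M) :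
    ContDiffAt ℝ 2 (fun x => g (j x, w x, fderiv ℝ w x)) x ∧
      ‖g (j x, w x, fderiv ℝ w x)‖ ≤ M' * (a + a ^ 2) ∧
      ‖fderiv ℝ (fun x => g (j x, w x, fderiv ℝ w x)) x‖ ≤ M' * (a + a ^ 2) ∧
      ‖fderiv ℝ (fderiv ℝ fun x => g (j x, w x, fderiv ℝ w x)) x‖
        ≤ M' * (a + a ^ 2) * (1 + ‖fderiv ℝ (D2 w) x‖) := by
  have w2 : ContDiffAt ℝ 2 w x := h2.of_le (by norm_num)
  have w3 : ContDiffAt ℝ 2 (fderiv ℝ w) x := h2.fderiv_right (by norm_num)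
  have hZ := h1.prodMk (w2.prodMk w3)
  obtain ⟨N, hN⟩ : ∃ N, N = ‖fderiv ℝ (D2 w) x‖ := ⟨_, rfl⟩
  rw [← hN]
  have n0 : 0 ≤ N := hN ▸ norm_nonneg _
  have hM0 : 0 ≤ M := (norm_nonneg _).trans hb
  have hb1 : a ≤ a * (1 + N) := by nlinarith
  have hb2 : N ≤ a * (1 + N) := by nlinarith
  have p1 := prod_bd w2 w3 h3 h6 (h6.trans hb1) (hN.ge.trans hb2)
  have p2 := prod_bd h1 (w2.prodMk w3) h4 p1.1 (h5.trans hb1) p1.2
  have c1 := comp_bd (Z := fun x => (j x, w x, fderiv ℝ w x)) hg hZ hb p2.1 p2.2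
  have a2 : 0 ≤ a ^ 2 := by positivity
  have aN : 0 ≤ a ^ 2 * N := by positivity
  have s0 : M * (a + a ^ 2) ≤ M' * (a + a ^ 2) := by gcongr
  refine ⟨ContDiffAt.comp x hg hZ, (jet2_le.1 hb).1.trans (by nlinarith),
    c1.1.trans (by nlinarith), c1.2.trans ?_⟩
  calc M * (a * (1 + N)) + M * a ^ 2 ≤ M * (a + a ^ 2) * (1 + N) := by nlinarith
    _ ≤ _ := by gcongr

lemma norm_D2_mul {g : E → ℝ} {x : E} (hg : ContDiffAt ℝ 2 g x) (t : ℝ) :
    ‖fderiv ℝ (fderiv ℝ fun y => t * g y) x‖ = |t| * ‖fderiv ℝ (fderiv ℝ g) x‖ := by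
  have e := jet2_clm (t • ContinuousLinearMap.id ℝ ℝ) hg
  have e' : fderiv ℝ (fderiv ℝ fun y => t * g y) x = t • fderiv ℝ (fderiv ℝ g) x := by
    refine (congrArg (fun q => q.2.2) e).trans ?_
    ext u v
    simp [J2.map, jet2]
  rw [e', norm_smul, Real.norm_eq_abs]

/-- **Third derivatives of solutions of quasilinear equations** `A(j, w, Dw) D²w = t f(j, w, Dw)`,
`j` a parameter function with bounded first and second derivatives. -/
theorem d3_abs {K : Set (X × ℝ × (E →L[ℝ] ℝ))} (hK : IsCompact K)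
    {A : X × ℝ × (E →L[ℝ] ℝ) → Bil E →L[ℝ] ℝ} {f : X × ℝ × (E →L[ℝ] ℝ) → ℝ}
    (h : ∀ p ∈ K, ContDiffAt ℝ 2 A p ∧ ContDiffAt ℝ 2 f p ∧
      ∀ ℓ : E →L[ℝ] ℝ, ℓ ≠ 0 → 0 < A p (ℓ.smulRight ℓ)) (B : ℝ) {ρ : ℝ} (hρ : 0 < ρ) :
    ∃ C : ℝ, ∀ (t : ℝ) (j : E → X) (w : E → ℝ) (x₀ : E), 1 ≤ t →
      (∀ x ∈ ball x₀ ρ, ContDiffAt ℝ 2 j x ∧ ContDiffAt ℝ 4 w x ∧ (j x, w x, fderiv ℝ w x) ∈ K ∧
        ‖fderiv ℝ j x‖ ≤ B ∧ ‖fderiv ℝ (fderiv ℝ j) x‖ ≤ B ∧ ‖fderiv ℝ (fderiv ℝ w) x‖ ≤ B ∧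
        A (j x, w x, fderiv ℝ w x) (fderiv ℝ (fderiv ℝ w) x) = t * f (j x, w x, fderiv ℝ w x)) →
      ‖fderiv ℝ (fderiv ℝ (fderiv ℝ w)) x₀‖ ≤ C * t := by
  obtain ⟨lam, hlam, hl⟩ := exists_ell hK (fun p hp => (h p hp).1.continuousAt.continuousWithinAt)
    fun p hp => (h p hp).2.2
  obtain ⟨M1, hM1, b1⟩ := exists_bd2 hK fun p hp => (h p hp).1
  obtain ⟨M2, hM2, b2⟩ := exists_bd2 hK fun p hp => (h p hp).2.1
  obtain ⟨R, hR⟩ := hK.isBounded.exists_norm_le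
  obtain ⟨a, ha1, hBa, hRa⟩ : ∃ a : ℝ, 1 ≤ a ∧ B ≤ a ∧ R ≤ a :=
    ⟨max 1 (max B R), le_max_left _ _, le_max_of_le_right (le_max_left _ _),
      le_max_of_le_right (le_max_right _ _)⟩
  obtain ⟨C, hC⟩ := lin3 (E := E) hlam ((M1 + M2 + 1) * (a + a ^ 2)) hρ
  refine ⟨C, fun t j w x₀ ht H => hC t w (fun x => t * f (j x, w x, fderiv ℝ w x))
    (fun x => A (j x, w x, fderiv ℝ w x)) x₀ ht fun x hx => ?_⟩
  obtain ⟨h1, h2, h3, h4, h5, h6, h7⟩ := H x hx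
  have hw1 : ‖fderiv ℝ w x‖ ≤ a :=
    ((norm_snd_le (w x, fderiv ℝ w x)).trans ((norm_snd_le (j x, w x, fderiv ℝ w x)).trans
      (hR _ h3))).trans hRa
  obtain ⟨c1, c2, c3, c4⟩ := jet_bd ha1 h1 h2 hw1 (h4.trans hBa) (h5.trans hBa) (h6.trans hBa)
    (h _ h3).1 (M' := M1 + M2 + 1) (by linarith) (b1 _ h3)
  obtain ⟨d1, -, -, d4⟩ := jet_bd ha1 h1 h2 hw1 (h4.trans hBa) (h5.trans hBa) (h6.trans hBa)
    (h _ h3).2.1 (M' := M1 + M2 + 1) (by linarith) (b2 _ h3)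
  have s1 : a ≤ (M1 + M2 + 1) * (a + a ^ 2) := by
    have : 0 ≤ (M1 + M2) * (a + a ^ 2) := by positivity
    nlinarith [sq_nonneg a]
  refine ⟨h2, c1, contDiffAt_const.mul d1, hl _ h3, c2, c3, (h6.trans hBa).trans s1, c4, ?_, h7⟩
  rw [norm_D2_mul d1, abs_of_nonneg (by linarith), mul_right_comm, mul_comm t]
  exact mul_le_mul_of_nonneg_right d4 (by linarith)

end comp

end Vale.Agent.P218F.Reg
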