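import Vale.Agent.P218F.Reg1
import Vale.Agent.P218F.Reg2
import Vale.Agent.P218F.FtParam

/-!
# Regularity for the shrinker equation of `A + w B`
-/

set_option maxSynthPendingDepth 5
set_option linter.unusedSectionVars false

open Set Metric Filter Topology Matrix
open scoped ContDiff RealInnerProductSpace
open Vale.Agent.P272.K.R Vale.Agent.P218F.Core Vale.Agent.P218F.Ft
open Vale.Agent.P218FT (E3)

noncomputable section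

namespace Vale.Agent.P218F.Reg

section abs

variable {E : Type} [NormedAddCommGroup E] [NormedSpace ℝ E] [FiniteDimensional ℝ E]
  {X : Type} [NormedAddCommGroup X] [NormedSpace ℝ X]

lemma norm_it (f : E → X) (x : E) : ‖iteratedFDeriv ℝ 0 f x‖ = ‖f x‖ ∧
    ‖iteratedFDeriv ℝ 1 f x‖ = ‖fderiv ℝ f x‖ ∧
    ‖iteratedFDeriv ℝ 2 f x‖ = ‖fderiv ℝ (fderiv ℝ f) x‖ ∧
    ‖iteratedFDeriv ℝ 3 f x‖ = ‖fderiv ℝ (fderiv ℝ (fderiv ℝ f)) x‖ ∧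
    ‖iteratedFDeriv ℝ 4 f x‖ = ‖fderiv ℝ (fderiv ℝ (fderiv ℝ (fderiv ℝ f))) x‖ := by
  refine ⟨norm_iteratedFDeriv_zero, norm_iteratedFDeriv_one f, ?_, ?_, ?_⟩
  · rw [← norm_iteratedFDeriv_one, norm_iteratedFDeriv_fderiv]
  · rw [← norm_iteratedFDeriv_one, norm_iteratedFDeriv_fderiv, norm_iteratedFDeriv_fderiv]
  · rw [← norm_iteratedFDeriv_one, norm_iteratedFDeriv_fderiv, norm_iteratedFDeriv_fderiv,
      norm_iteratedFDeriv_fderiv]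

/-- smoothness and a bound for the third derivatives -/
theorem reg_bd {K : Set (X × ℝ × (E →L[ℝ] ℝ))} (hK : IsCompact K)
    {A : X × ℝ × (E →L[ℝ] ℝ) → Bil E →L[ℝ] ℝ} {f : X × ℝ × (E →L[ℝ] ℝ) → ℝ}
    (h : ∀ p ∈ K, ContDiffAt ℝ ∞ A p ∧ ContDiffAt ℝ ∞ f p ∧
      ∀ ℓ : E →L[ℝ] ℝ, ℓ ≠ 0 → 0 < A p (ℓ.smulRight ℓ)) (B : ℝ) {ρ : ℝ} (hρ : 0 < ρ) :
    ∃ C : ℝ, ∀ (t : ℝ) (j : E → X) (w : E → ℝ) (x₀ : E), 1 ≤ t →
      (∀ x ∈ ball x₀ ρ, ContDiffAt ℝ ∞ j x ∧ ContDiffAt ℝ 2 w x ∧ (j x, w x, fderiv ℝ w x) ∈ K ∧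
        ‖fderiv ℝ j x‖ ≤ B ∧ ‖fderiv ℝ (fderiv ℝ j) x‖ ≤ B ∧ ‖fderiv ℝ (fderiv ℝ w) x‖ ≤ B ∧
        A (j x, w x, fderiv ℝ w x) (fderiv ℝ (fderiv ℝ w) x) = t * f (j x, w x, fderiv ℝ w x)) →
      ContDiffAt ℝ ∞ w x₀ ∧ ‖iteratedFDeriv ℝ 3 w x₀‖ ≤ C * t := by
  have h2 : ((2 : ℕ∞) : WithTop ℕ∞) ≤ ∞ := by exact_mod_cast le_top
  have h4 : ((4 : ℕ∞) : WithTop ℕ∞) ≤ ∞ := by exact_mod_cast le_top
  obtain ⟨C, hC⟩ := d3_abs hK (A := A) (f := f)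
    (fun p hp => ⟨(h p hp).1.of_le h2, (h p hp).2.1.of_le h2, (h p hp).2.2⟩) B hρ
  refine ⟨C, fun t j w x₀ ht H => ?_⟩
  have hs : ∀ x ∈ ball x₀ ρ, ContDiffAt ℝ ∞ w x := fun x hx => by
    obtain ⟨a1, a2, a3, -⟩ := H x hx
    have hZ : ContDiffAt ℝ ∞ (fun p : E × ℝ × (E →L[ℝ] ℝ) => (j p.1, p.2))
        (x, w x, fderiv ℝ w x) :=
      (ContDiffAt.comp (x, w x, fderiv ℝ w x) (g := j) a1 contDiffAt_fst).prodMk contDiffAt_snd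
    refine reg_abs (A := fun p => A (j p.1, p.2)) (f := fun p => t * f (j p.1, p.2)) a2
      (ContDiffAt.comp _ (g := A) (h _ a3).1 hZ)
      (contDiffAt_const.mul (ContDiffAt.comp _ (g := f) (h _ a3).2.1 hZ)) ?_ ?_
    · filter_upwards [isOpen_ball.mem_nhds hx] with y hy using (h _ (H y hy).2.2.1).2.2
    · filter_upwards [isOpen_ball.mem_nhds hx] with y hy using (H y hy).2.2.2.2.2.2
  refine ⟨hs x₀ (mem_ball_self hρ), ?_⟩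
  rw [(norm_it w x₀).2.2.2.1]
  exact hC t j w x₀ ht fun x hx => ⟨(H x hx).1.of_le h2, (hs x hx).of_le h4, (H x hx).2.2⟩

/-- smooth, with bounded derivatives up to the order four -/
def Sm (Λ : ℝ) (F : E → X) (x : E) : Prop :=
  ContDiffAt ℝ ∞ F x ∧ ∀ k ≤ 4, ‖iteratedFDeriv ℝ k F x‖ ≤ Λ

/-- smooth, with bounded two-jet -/
def S2 (Λ : ℝ) (F : E → X) (x : E) : Prop := ContDiffAt ℝ ∞ F x ∧ ‖jet2 F x‖ ≤ Λ

lemma S2.prod {Y : Type} [NormedAddCommGroup Y] [NormedSpace ℝ Y] {Λ : ℝ} {F : E → X} {G : E → Y}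
    {x : E} (hF : S2 Λ F x) (hG : S2 Λ G x) : S2 Λ (fun y => (F y, G y)) x := by
  have h2 : ((2 : ℕ∞) : WithTop ℕ∞) ≤ ∞ := by exact_mod_cast le_top
  obtain ⟨a0, a1, a2⟩ := jet2_le.1 hF.2
  obtain ⟨b0, b1, b2⟩ := jet2_le.1 hG.2
  exact ⟨hF.1.prodMk hG.1, jet2_le.2 ⟨norm_prod_le_iff.2 ⟨a0, b0⟩,
    prod_bd (hF.1.of_le h2) (hG.1.of_le h2) a1 b1 a2 b2⟩⟩

lemma S2.const {Λ : ℝ} {c : X} (hc : ‖c‖ ≤ Λ) (x : E) : S2 Λ (fun _ => c) x :=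
  ⟨contDiffAt_const, by
    rw [jet2_const]
    have := (norm_nonneg _).trans hc
    exact norm_prod_le_iff.2 ⟨hc, by simpa using this⟩⟩

lemma Sm.s2 {Λ : ℝ} {F : E → X} {x : E} (h : Sm Λ F x) : S2 Λ F x ∧ S2 Λ (jet2 F) x := by
  obtain ⟨e0, e1, e2, e3, e4⟩ := norm_it F x
  have b0 := e0.ge.trans (h.2 0 (by norm_num))
  have b1 := e1.ge.trans (h.2 1 (by norm_num))
  have b2 := e2.ge.trans (h.2 2 (by norm_num))
  have b3 := e3.ge.trans (h.2 3 (by norm_num))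
  have b4 := e4.ge.trans (h.2 4 (by norm_num))
  have c1 : ContDiffAt ℝ ∞ (fderiv ℝ F) x := h.1.fderiv_right (m := ∞) (by simp)
  have c2 : ContDiffAt ℝ ∞ (fderiv ℝ (fderiv ℝ F)) x := c1.fderiv_right (m := ∞) (by simp)
  have s0 : S2 Λ F x := ⟨h.1, jet2_le.2 ⟨b0, b1, b2⟩⟩
  exact ⟨s0, s0.prod (S2.prod ⟨c1, jet2_le.2 ⟨b1, b2, b3⟩⟩ ⟨c2, jet2_le.2 ⟨b2, b3, b4⟩⟩)⟩

lemma jet2_smul_real {w : E → ℝ} {B : E → X} {x : E} (hw : ContDiffAt ℝ 2 w x)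
    (hB : ContDiffAt ℝ 2 B x) :
    fderiv ℝ (fun t => w t • B t) x = w x • fderiv ℝ B x + (fderiv ℝ w x).smulRight (B x) ∧
    ∀ a b, fderiv ℝ (fderiv ℝ fun t => w t • B t) x a b =
      w x • fderiv ℝ (fderiv ℝ B) x a b + fderiv ℝ w x a • fderiv ℝ B x b +
        fderiv ℝ w x b • fderiv ℝ B x a + fderiv ℝ (fderiv ℝ w) x a b • B x := by
  refine ⟨fderiv_fun_smul (ev_diff hw).self_of_nhds (ev_diff hB).self_of_nhds, fun a b => ?_⟩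
  have h1 : fderiv ℝ (fun z => w z • B z) =ᶠ[𝓝 x]
      fun z => w z • fderiv ℝ B z + (fderiv ℝ w z).smulRight (B z) := by
    filter_upwards [ev_diff hw, ev_diff hB] with z h1 h2 using fderiv_fun_smul h1 h2
  have a1 := (ev_diff hw).self_of_nhds
  have f1 := (ev_diff hB).self_of_nhds
  have a2 := diff_fderiv hw
  have f2 := diff_fderiv hB
  have d1 : DifferentiableAt ℝ (fun z => w z • fderiv ℝ B z) x := a1.smul f2
  have d2 : DifferentiableAt ℝ (fun z => (fderiv ℝ w z).smulRight (B z)) x :=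
    ((hw.fderiv_right (m := 1) (by norm_num)).smulRight (hB.of_le (by norm_num))).differentiableAt
      (by simp)
  have e1 : ∀ (G : E → E →L[ℝ] X), DifferentiableAt ℝ G x →
      fderiv ℝ G x a b = fderiv ℝ (fun z => G z b) x a := fun G hG => by
    rw [fderiv_clm_apply hG (differentiableAt_const b)]
    simp
  rw [h1.fderiv_eq, e1 _ (d1.fun_add d2)]
  have g1 : HasFDerivAt (fun z => fderiv ℝ B z b) ((fderiv ℝ (fderiv ℝ B) x).flip b) x := by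
    simpa using f2.hasFDerivAt.clm_apply (hasFDerivAt_const b x)
  have g2 : HasFDerivAt (fun z => fderiv ℝ w z b) ((fderiv ℝ (fderiv ℝ w) x).flip b) x := by
    simpa using a2.hasFDerivAt.clm_apply (hasFDerivAt_const b x)
  have g3 := (a1.hasFDerivAt.smul g1).add (g2.smul f1.hasFDerivAt)
  rw [show (fun z => (w z • fderiv ℝ B z + (fderiv ℝ w z).smulRight (B z)) b) =
    (w • fun z => fderiv ℝ B z b) + (fun z => fderiv ℝ w z b) • B from rfl, g3.fderiv]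
  simp [add_assoc]

end abs

/-! ### The real form of the operator -/

/-- the real metric trace -/
def gt (D : P2 →L[ℝ] E3) (h : P2 → P2 → ℝ) : ℝ :=
  (⟪D (0, 1), D (0, 1)⟫ * h (1, 0) (1, 0) - ⟪D (1, 0), D (0, 1)⟫ * (h (1, 0) (0, 1) + h (0, 1) (1, 0)) +
    ⟪D (1, 0), D (1, 0)⟫ * h (0, 1) (0, 1)) / ‖rn D‖ ^ 2

lemma gtr_cE (D : P2 →L[ℝ] E3) (h : P2 → P2 → ℝ) :
    gtr (cE.comp D) (fun u v => (h u v : ℂ)) = (gt D h : ℂ) := by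
  simp only [gtr, gt, gdet_cE, t1, t2, ContinuousLinearMap.comp_apply, cE_dot]
  push_cast
  rfl

/-- `g^{ij} ⟨Y_{ij}, Y₁ × Y₂⟩` -/
def nm (q : J2 P2 E3) : ℝ := gt q.2.1 fun a b => ⟪q.2.2 a b, rn q.2.1⟫

theorem shr_real {Y W : P2 → E3} {v : P2} (hY : ContDiffAt ℝ 2 Y v) :
    Shr (fun t => cE (Y t)) (fun t => cE (W t)) v =
      (((nm (jet2 Y v) + ⟪Y v, rn (fderiv ℝ Y v)⟫ / 2) / ⟪W v, rn (fderiv ℝ Y v)⟫ : ℝ) : ℂ) := by
  rw [Shr, jet2_clm cE hY, shr]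
  simp only [J2.map, jet2, ← cE_rn, ContinuousLinearMap.comp_apply,
    ContinuousLinearMap.compL_apply, cE_dot, gtr_cE, nm]
  push_cast
  rfl

/-- evaluation of a bilinear form -/
def ev (u v : P2) : Bil P2 →L[ℝ] ℝ :=
  (ContinuousLinearMap.apply ℝ ℝ v).comp (ContinuousLinearMap.apply ℝ (P2 →L[ℝ] ℝ) u)

/-- the metric trace as a linear map -/
def aR (D : P2 →L[ℝ] E3) : Bil P2 →L[ℝ] ℝ :=
  (‖rn D‖ ^ 2)⁻¹ • (⟪D (0, 1), D (0, 1)⟫ • ev (1, 0) (1, 0) -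
    ⟪D (1, 0), D (0, 1)⟫ • (ev (1, 0) (0, 1) + ev (0, 1) (1, 0)) + ⟪D (1, 0), D (1, 0)⟫ • ev (0, 1) (0, 1))

lemma aR_apply (D : P2 →L[ℝ] E3) (H : Bil P2) : aR D H = gt D fun u v => H u v := by
  simp only [aR, gt, ev, _root_.smul_apply, _root_.add_apply,
    _root_.sub_apply, ContinuousLinearMap.comp_apply, ContinuousLinearMap.apply_apply,
    smul_eq_mul]
  ring

lemma aR_pos {D : P2 →L[ℝ] E3} (hD : rn D ≠ 0) {ℓ : P2 →L[ℝ] ℝ} (hl : ℓ ≠ 0) :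
    0 < aR D (ℓ.smulRight ℓ) := by
  have h1 : D (-ℓ (0, 1), ℓ (1, 0)) ≠ 0 := fun h => hl <| by
    have h2 := injective_of_rn hD (h.trans (map_zero D).symm)
    simp only [Prod.ext_iff, Prod.fst_zero, Prod.snd_zero, neg_eq_zero] at h2
    refine ContinuousLinearMap.ext fun u => ?_
    rw [lin_eq ℓ u, h2.1, h2.2]
    simp
  have h2 : aR D (ℓ.smulRight ℓ) = ‖D (-ℓ (0, 1), ℓ (1, 0))‖ ^ 2 / ‖rn D‖ ^ 2 := by
    rw [aR_apply, gt, ← real_inner_self_eq_norm_sq (D (-ℓ (0, 1), ℓ (1, 0))),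
      lin_eq D (-ℓ (0, 1), ℓ (1, 0))]
    simp only [ContinuousLinearMap.smulRight_apply, _root_.smul_apply, smul_eq_mul,
      inner_add_left, inner_add_right, real_inner_smul_left, real_inner_smul_right,
      real_inner_comm (D (0, 1)) (D (1, 0))]
    ring
  rw [h2]
  exact div_pos (pow_pos (norm_pos_iff.2 h1) 2) (pow_pos (norm_pos_iff.2 hD) 2)

lemma contDiff_rn : ContDiff ℝ ∞ rn := by
  rw [contDiff_euclidean]
  intro i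
  fin_cases i <;> simp [rn, crs, cross_apply] <;> fun_prop

section smooth

variable {Z : Type} [NormedAddCommGroup Z] [NormedSpace ℝ Z] {D : Z → P2 →L[ℝ] E3} {z : Z}

lemma contDiffAt_rn (hD : ContDiffAt ℝ ∞ D z) : ContDiffAt ℝ ∞ (fun z => rn (D z)) z :=
  contDiff_rn.contDiffAt.comp z hD

lemma contDiffAt_met (hD : ContDiffAt ℝ ∞ D z) (u v : P2) :
    ContDiffAt ℝ ∞ (fun z => ⟪D z u, D z v⟫) z :=
  (hD.clm_apply contDiffAt_const).inner ℝ (hD.clm_apply contDiffAt_const)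

lemma contDiffAt_aR (hD : ContDiffAt ℝ ∞ D z) (h0 : rn (D z) ≠ 0) :
    ContDiffAt ℝ ∞ (fun z => aR (D z)) z :=
  (((contDiffAt_rn hD).norm_sq ℝ).inv (pow_ne_zero 2 (norm_ne_zero_iff.2 h0))).smul
    ((((contDiffAt_met hD _ _).smul contDiffAt_const).sub
      ((contDiffAt_met hD _ _).smul contDiffAt_const)).add
      ((contDiffAt_met hD _ _).smul contDiffAt_const))

lemma contDiffAt_gt (hD : ContDiffAt ℝ ∞ D z) (h0 : rn (D z) ≠ 0) {h : Z → P2 → P2 → ℝ}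
    (hh : ∀ u v, ContDiffAt ℝ ∞ (fun z => h z u v) z) :
    ContDiffAt ℝ ∞ (fun z => gt (D z) (h z)) z :=
  ((((contDiffAt_met hD _ _).mul (hh _ _)).sub ((contDiffAt_met hD _ _).mul
    ((hh _ _).add (hh _ _)))).add ((contDiffAt_met hD _ _).mul (hh _ _))).div
    ((contDiffAt_rn hD).norm_sq ℝ) (pow_ne_zero 2 (norm_ne_zero_iff.2 h0))

end smooth

/-- parameters: `(1 / t, σ, p₀)`, the source, the jets of `A` and `B` -/
abbrev XP : Type := (ℝ × ℝ × E3) × ℝ × J2 P2 E3 × J2 P2 E3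

/-- the derivative of `A + w B` -/
def dm (p : XP × ℝ × (P2 →L[ℝ] ℝ)) : P2 →L[ℝ] E3 :=
  p.1.2.2.1.2.1 + (p.2.1 • p.1.2.2.2.2.1 + p.2.2.smulRight p.1.2.2.2.1)

/-- the lower order part of the second derivative of `A + w B` -/
def hm (p : XP × ℝ × (P2 →L[ℝ] ℝ)) (a b : P2) : E3 :=
  p.1.2.2.1.2.2 a b + (p.2.1 • p.1.2.2.2.2.2 a b + p.2.2 a • p.1.2.2.2.2.1 b +
    p.2.2 b • p.1.2.2.2.2.1 a)

/-- the point `A + w B` -/
def ym (p : XP × ℝ × (P2 →L[ℝ] ℝ)) : E3 := p.1.2.2.1.1 + p.2.1 • p.1.2.2.2.1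

/-- the right hand side -/
def fm (p : XP × ℝ × (P2 →L[ℝ] ℝ)) : ℝ :=
  (p.1.2.1 * Real.exp (‖ym p‖ ^ 2 / 4) * ‖rn (dm p)‖ / ⟪p.1.2.2.2.1, rn (dm p)⟫ -
    ⟪p.1.1.2.1 • ym p + p.1.1.2.2, rn (dm p)⟫ -
    p.1.1.1 * gt (dm p) fun a b => ⟪hm p a b, rn (dm p)⟫) / ⟪p.1.2.2.2.1, rn (dm p)⟫

lemma contDiff_dm : ContDiff ℝ ∞ dm := by
  unfold dm
  fun_prop

lemma contDiff_hm (a b : P2) : ContDiff ℝ ∞ fun p => hm p a b := by
  unfold hm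
  fun_prop

lemma contDiff_ym : ContDiff ℝ ∞ ym := by
  unfold ym
  fun_prop

lemma contDiffAt_fm {p : XP × ℝ × (P2 →L[ℝ] ℝ)} (h : ⟪p.1.2.2.2.1, rn (dm p)⟫ ≠ 0) :
    ContDiffAt ℝ ∞ fm p := by
  have h0 : rn (dm p) ≠ 0 := fun h0 => h (by rw [h0, inner_zero_right])
  have c1 := contDiffAt_rn (contDiff_dm.contDiffAt (x := p))
  have c2 : ContDiffAt ℝ ∞ (fun p : XP × ℝ × (P2 →L[ℝ] ℝ) => ⟪p.1.2.2.2.1, rn (dm p)⟫) p :=
    ContDiffAt.inner ℝ (by fun_prop) c1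
  have c3 := contDiff_ym.contDiffAt (x := p)
  have c4 : ContDiffAt ℝ ∞ (fun p : XP × ℝ × (P2 →L[ℝ] ℝ) => p.1.1.2.1) p := by fun_prop
  refine ContDiffAt.div (ContDiffAt.sub (ContDiffAt.sub (ContDiffAt.div (ContDiffAt.mul
    (ContDiffAt.mul (by fun_prop) ((c3.norm_sq ℝ).div_const 4).exp) (c1.norm ℝ h0)) c2 h)
    (ContDiffAt.inner ℝ (ContDiffAt.add (c4.smul c3) (by fun_prop)) c1))
    (ContDiffAt.mul (by fun_prop) (contDiffAt_gt contDiff_dm.contDiffAt h0 fun a b =>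
      (contDiff_hm a b).contDiffAt.inner ℝ c1))) c2 h

/-- **Regularity for the equation of `Y = A + w B`.** -/
theorem master (ρ Λ c : ℝ) (hρ : 0 < ρ) (hc : 0 < c) : ∃ L : ℝ, ∀ (t σ : ℝ) (p₀ : E3)
    (A B : P2 → E3) (f w : P2 → ℝ) (u : P2), 1 ≤ t → |σ| ≤ 1 → ‖p₀‖ ≤ 1 →
    (∀ v ∈ ball u ρ, Sm Λ A v ∧ Sm Λ B v ∧ Sm Λ f v ∧ ContDiffAt ℝ 2 w v ∧ ‖jet2 w v‖ ≤ Λ ∧
      c ≤ |⟪B v, rn (fderiv ℝ (fun t => A t + w t • B t) v)⟫| ∧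
      nm (jet2 (fun t => A t + w t • B t) v) +
        t * ⟪σ • (A v + w v • B v) + p₀, rn (fderiv ℝ (fun t => A t + w t • B t) v)⟫ =
        t * (f v * Real.exp (‖A v + w v • B v‖ ^ 2 / 4) *
          ‖rn (fderiv ℝ (fun t => A t + w t • B t) v)‖ /
            ⟪B v, rn (fderiv ℝ (fun t => A t + w t • B t) v)⟫)) →
    ContDiffAt ℝ ∞ w u ∧ ‖iteratedFDeriv ℝ 3 w u‖ ≤ L * t := by
  have h2 : ((2 : ℕ∞) : WithTop ℕ∞) ≤ ∞ := by exact_mod_cast le_top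
  have : FiniteDimensional ℝ (J2 P2 E3) := inferInstance
  have : ProperSpace (XP × ℝ × (P2 →L[ℝ] ℝ)) := FiniteDimensional.proper_real _
  have hK : IsCompact (closedBall (0 : XP × ℝ × (P2 →L[ℝ] ℝ)) (max 1 Λ) ∩
      {p | c ≤ |⟪p.1.2.2.2.1, rn (dm p)⟫|}) :=
    (isCompact_closedBall _ _).inter_right (isClosed_le continuous_const
      (Continuous.inner (by fun_prop) (continuous_rn.comp contDiff_dm.continuous)).abs)
  obtain ⟨L, hL⟩ := reg_bd hK (A := fun p => aR (dm p)) (f := fm) (fun p hp => by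
    have h : ⟪p.1.2.2.2.1, rn (dm p)⟫ ≠ 0 := abs_pos.1 (hc.trans_le hp.2)
    have h0 : rn (dm p) ≠ 0 := fun h0 => h (by rw [h0, inner_zero_right])
    exact ⟨contDiffAt_aR contDiff_dm.contDiffAt h0, contDiffAt_fm h, fun ℓ hl => aR_pos h0 hl⟩)
    (max 1 Λ) hρ
  refine ⟨L, fun t σ p₀ A B f w u ht hσ hp H => hL t
    (fun v => ((t⁻¹, σ, p₀), f v, jet2 A v, jet2 B v)) w u ht fun v hv => ?_⟩
  obtain ⟨hA, hB, hf, hw, hw2, htr, heq⟩ := H v hv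
  have up : ∀ {X : Type} [NormedAddCommGroup X] [NormedSpace ℝ X] {F : P2 → X},
      S2 Λ F v → S2 (max 1 Λ) F v := fun h => ⟨h.1, h.2.trans (le_max_right _ _)⟩
  have ht0 : 0 < t := by linarith
  have hj : S2 (max 1 Λ) (fun v => (((t⁻¹, σ, p₀), f v, jet2 A v, jet2 B v) : XP)) v :=
    (S2.const (le_max_of_le_left (norm_prod_le_iff.2 ⟨by
      rw [Real.norm_eq_abs, abs_of_pos (inv_pos.2 ht0)]; exact inv_le_one_of_one_le₀ ht,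
      norm_prod_le_iff.2 ⟨hσ, hp⟩⟩)) v).prod
      ((up hf.s2.1).prod ((up hA.s2.2).prod (up hB.s2.2)))
  obtain ⟨j0, j1, j2⟩ := jet2_le.1 hj.2
  obtain ⟨w0, w1, w2⟩ := jet2_le.1 (hw2.trans (le_max_right 1 Λ))
  have A2 := hA.1.of_le h2
  have B2 := hB.1.of_le h2
  obtain ⟨s1, s2⟩ := jet2_smul_real hw B2
  have e := jet2_add A2 (hw.smul B2)
  obtain ⟨p, hp⟩ : ∃ p : XP × ℝ × (P2 →L[ℝ] ℝ),
      p = (((t⁻¹, σ, p₀), f v, jet2 A v, jet2 B v), w v, fderiv ℝ w v) := ⟨_, rfl⟩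
  have e1 : fderiv ℝ (fun t => A t + w t • B t) v = dm p := by
    rw [hp]
    exact (congrArg (fun q => q.2.1) e).trans (congrArg (fderiv ℝ A v + ·) s1)
  have e2 : ∀ a b, (jet2 (fun t => A t + w t • B t) v).2.2 a b =
      hm p a b + fderiv ℝ (fderiv ℝ w) v a b • B v := fun a b => by
    rw [hp]
    exact (congrArg (fun q => q.2.2 a b) e).trans
      ((congrArg (fderiv ℝ (fderiv ℝ A) v a b + ·) (s2 a b)).trans (add_assoc _ _ _).symm)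
  have e3 : (jet2 (fun t => A t + w t • B t) v).2.1 = dm p := e1
  rw [e1] at htr heq
  refine ⟨hj.1, hw, ⟨mem_closedBall_zero_iff.2 (norm_prod_le_iff.2 ⟨j0, norm_prod_le_iff.2 ⟨w0, w1⟩⟩),
    by rw [← hp]; subst hp; exact htr⟩, j1, j2, w2, ?_⟩
  have h : ⟪B v, rn (dm p)⟫ ≠ 0 := abs_pos.1 (hc.trans_le htr)
  have e4 : nm (jet2 (fun t => A t + w t • B t) v) = gt (dm p) (fun a b => ⟪hm p a b, rn (dm p)⟫) +
      aR (dm p) (fderiv ℝ (fderiv ℝ w) v) * ⟪B v, rn (dm p)⟫ := by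
    simp only [nm, e2, e3, aR_apply, gt, inner_add_left, real_inner_smul_left]
    ring
  have e5 : fm p = (f v * Real.exp (‖A v + w v • B v‖ ^ 2 / 4) * ‖rn (dm p)‖ / ⟪B v, rn (dm p)⟫ -
      ⟪σ • (A v + w v • B v) + p₀, rn (dm p)⟫ -
      t⁻¹ * gt (dm p) fun a b => ⟪hm p a b, rn (dm p)⟫) / ⟪B v, rn (dm p)⟫ := by
    subst hp; rfl
  rw [← hp, e5, ← mul_div_assoc, eq_div_iff h, mul_sub, mul_sub, ← heq, e4, ← mul_assoc,
    mul_inv_cancel₀ ht0.ne']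
  ring

end Vale.Agent.P218F.Reg
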