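import Vale.Agent.P218F.FtSpec
import Vale.Agent.P218F.EndGeom
import Vale.Agent.P218F.Reg1
import Vale.Agent.P218F.Reg2

/-! Regularity of the polar graphs on cylindrical ends. -/

open Set Filter Topology Metric
open scoped ContDiff

set_option maxSynthPendingDepth 5

noncomputable section

namespace Vale.Agent.P218F.RegC

open Vale.Agent.P218FT hiding P2
open Vale.Agent.P218F.Core Vale.Agent.P218F.Ft Vale.Agent.P272.K.R

/-- evaluation of bilinear forms -/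
def ev (u v : P2) : Bil P2 →L[ℝ] ℝ :=
  (ContinuousLinearMap.apply ℝ ℝ v).comp (ContinuousLinearMap.apply ℝ (P2 →L[ℝ] ℝ) u)

/-- the principal part -/
def aa (r : ℝ) (l : P2 →L[ℝ] ℝ) : Bil P2 →L[ℝ] ℝ :=
  (r * (r ^ 2 + l (0, 1) ^ 2)) • ev (1, 0) (1, 0) - (2 * r * l (1, 0) * l (0, 1)) • ev (1, 0) (0, 1) +
    (r * (1 + l (1, 0) ^ 2)) • ev (0, 1) (0, 1)

/-- the lower order terms -/
def ff (s z r : ℝ) (l : P2 →L[ℝ] ℝ) : ℝ :=
  s * (r ^ 2 * (1 + l (1, 0) ^ 2) + 2 * l (0, 1) ^ 2) -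
    r * (r ^ 2 * (1 + l (1, 0) ^ 2) + l (0, 1) ^ 2) * (s * r - z * l (1, 0)) / 2

theorem aa_apply (r : ℝ) (l : P2 →L[ℝ] ℝ) (H : Bil P2) : aa r l H =
    r * (r ^ 2 + l (0, 1) ^ 2) * H (1, 0) (1, 0) - 2 * r * l (1, 0) * l (0, 1) * H (1, 0) (0, 1) +
      r * (1 + l (1, 0) ^ 2) * H (0, 1) (0, 1) := rfl

theorem aa_pos {r : ℝ} (hr : 0 < r) (l : P2 →L[ℝ] ℝ) {ξ : P2 →L[ℝ] ℝ} (hξ : ξ ≠ 0) :
    0 < aa r l (ξ.smulRight ξ) := by
  have h : ξ (1, 0) ≠ 0 ∨ ξ (0, 1) ≠ 0 := by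
    by_contra h
    push Not at h
    exact hξ (ContinuousLinearMap.prod_ext (by ext; simpa using h.1) (by ext; simpa using h.2))
  have e : aa r l (ξ.smulRight ξ) = r * ((r * ξ (1, 0)) ^ 2 + ξ (0, 1) ^ 2 +
      (l (0, 1) * ξ (1, 0) - l (1, 0) * ξ (0, 1)) ^ 2) := by
    simp only [aa_apply, ContinuousLinearMap.smulRight_apply, smul_apply,
      smul_eq_mul]
    ring
  rw [e]
  rcases h with h | h <;> positivity

theorem contDiff_aa {X : Type} [NormedAddCommGroup X] [NormedSpace ℝ X] :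
    ContDiff ℝ ∞ fun p : X × ℝ × (P2 →L[ℝ] ℝ) => aa p.2.1 p.2.2 := by
  unfold aa
  fun_prop

/-- the equation in the cylinder chart -/
theorem eqn {a b c : E3} (T : Triple a b c) {e : P2 → ℝ} {v : P2} (he : ContDiffAt ℝ 2 e v)
    (h0 : 0 < e v) (hS : ShrR (cylY a b c e) (cylV a b) v) :
    aa (e v) (fderiv ℝ e v) (fderiv ℝ (fderiv ℝ e) v) = ff 1 v.1 (e v) (fderiv ℝ e v) := by
  have hu : ContDiffAt ℝ 2 (fun t => (e t : ℂ)) v :=
    Complex.ofRealCLM.contDiff.contDiffAt.comp v he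
  have k := (End.geom_proof a b c T _ v hu).2.2.2
  have h1 : End.cylY a b c (fun t => (e t : ℂ)) = fun t => cE (cylY a b c e t) := by
    funext t
    ext i
    simp [End.cylY, End.eR, cylY, Ends.cylPt]
    ring
  have h2 : Shr (End.cylY a b c fun t => (e t : ℂ)) (End.eR a b) v = 0 := by rw [h1]; exact hS
  have h3 : jet2 (fun t => (e t : ℂ)) v = (jet2 e v).map Complex.ofRealCLM :=
    jet2_clm Complex.ofRealCLM he
  rw [h2, mul_zero, h3] at k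
  simp only [J2.map, jet2, ContinuousLinearMap.comp_apply, ContinuousLinearMap.compL_apply,
    Complex.ofRealCLM_apply, End.epol] at k
  have h4 : e v ^ 2 * (1 + fderiv ℝ e v (1, 0) ^ 2) + fderiv ℝ e v (0, 1) ^ 2 ≠ 0 := by positivity
  have h5 := k (by exact_mod_cast h0.ne') (by exact_mod_cast h4)
  rw [aa_apply, ff]
  refine Complex.ofReal_injective ?_
  push_cast
  linear_combination -h5

theorem jet_bd {e : P2 → ℝ} {v : P2} (h : ‖jet2 (fun t => e t - √2) v‖ ≤ 1 / 10) :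
    e v ∈ Icc (1 : ℝ) 2 ∧ ‖fderiv ℝ e v‖ ≤ 1 ∧ ‖fderiv ℝ (fderiv ℝ e) v‖ ≤ 1 := by
  have e1 : fderiv ℝ (fun t => e t - √2) = fderiv ℝ e := funext fun t => fderiv_sub_const _
  have h1 : |e v - √2| ≤ 1 / 10 := (norm_fst_le _).trans h
  have h2 := ((norm_fst_le _).trans (norm_snd_le _)).trans h
  have h3 := ((norm_snd_le _).trans (norm_snd_le _)).trans h
  simp only [jet2, e1] at h2 h3
  have s1 : (13 / 10 : ℝ) ≤ √2 := Real.le_sqrt_of_sq_le (by norm_num)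
  have s2 : √2 ≤ 3 / 2 := Real.sqrt_le_iff.2 ⟨by norm_num, by norm_num⟩
  obtain ⟨h4, h5⟩ := abs_le.1 h1
  exact ⟨⟨by linarith, by linarith⟩, by linarith, by linarith⟩

end Vale.Agent.P218F.RegC

namespace Vale.Agent.P218F.Ft

open Vale.Agent.P218FT hiding P2
open Vale.Agent.P218F.Core Vale.Agent.P218F.RegC

theorem reg_cyl : RegCylStmt := by
  have hK : IsCompact (closedBall (0 : ℝ × ℝ) 2 ×ˢ Icc (1 : ℝ) 2 ×ˢ
      closedBall (0 : P2 →L[ℝ] ℝ) 1) :=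
    (isCompact_closedBall _ _).prod (isCompact_Icc.prod (isCompact_closedBall _ _))
  have hf : ContDiff ℝ ∞ fun p : (ℝ × ℝ) × ℝ × (P2 →L[ℝ] ℝ) => ff p.1.2 p.1.1 p.2.1 p.2.2 := by
    unfold ff
    fun_prop
  have hf' : ContDiff ℝ ∞ fun p : P2 × ℝ × (P2 →L[ℝ] ℝ) => ff 1 p.1.1 p.2.1 p.2.2 := by
    unfold ff
    fun_prop
  obtain ⟨C, hC⟩ := Reg.d3_abs (A := fun p => aa p.2.1 p.2.2)
    (f := fun p => ff p.1.2 p.1.1 p.2.1 p.2.2) hK
    (fun p hp => ⟨contDiff_aa.contDiffAt.of_le (by norm_cast), hf.contDiffAt.of_le (by norm_cast),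
      fun l hl => aa_pos (one_pos.trans_le hp.2.1.1) _ hl⟩) 1 (half_pos one_pos)
  refine ⟨C, 1, fun a b c e u T hu H => ?_⟩
  have h0 : ∀ v ∈ ball u (1 / 2), 0 < e v := fun v hv => one_pos.trans_le (jet_bd (H v hv).2.1).1.1
  have hs : ∀ v ∈ ball u (1 / 2), ContDiffAt ℝ ∞ e v := fun v hv =>
    Reg.reg_abs (A := fun p => aa p.2.1 p.2.2) (f := fun p => ff 1 p.1.1 p.2.1 p.2.2) (H v hv).1
      contDiff_aa.contDiffAt hf'.contDiffAt
      ((isOpen_ball.eventually_mem hv).mono fun x hx l hl => aa_pos (h0 x hx) _ hl)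
      ((isOpen_ball.eventually_mem hv).mono fun x hx => eqn T (H x hx).1 (h0 x hx) (H x hx).2.2)
  refine ⟨hs u (mem_ball_self (half_pos one_pos)), ?_⟩
  have u0 : 0 < u.1 := one_pos.trans_le hu
  set L : P2 →L[ℝ] ℝ × ℝ := (u.1⁻¹ • ContinuousLinearMap.fst ℝ ℝ ℝ).prod 0 with hL
  have hj : ∀ x, HasFDerivAt (fun x : P2 => ((u.1⁻¹ * x.1, u.1⁻¹) : ℝ × ℝ)) L x := fun x =>
    (hasFDerivAt_fst.const_smul u.1⁻¹).prodMk (hasFDerivAt_const _ _)
  have hj' : fderiv ℝ (fun x : P2 => ((u.1⁻¹ * x.1, u.1⁻¹) : ℝ × ℝ)) = fun _ => L :=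
    funext fun x => (hj x).fderiv
  have i1 : u.1⁻¹ ≤ 1 := inv_le_one_of_one_le₀ hu
  have i0 : 0 < u.1⁻¹ := inv_pos.2 u0
  rw [pow_one, ← norm_iteratedFDeriv_fderiv, ← norm_iteratedFDeriv_fderiv,
    ← norm_iteratedFDeriv_fderiv, norm_iteratedFDeriv_zero]
  refine hC u.1 (fun x => (u.1⁻¹ * x.1, u.1⁻¹)) e u hu fun x hx => ?_
  obtain ⟨b1, b2, b3⟩ := jet_bd (H x hx).2.1
  have h1 : |x.1 - u.1| ≤ 1 / 2 := (norm_fst_le (x - u)).trans (mem_ball_iff_norm.1 hx).le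
  obtain ⟨h2, h3⟩ := abs_le.1 h1
  refine ⟨by fun_prop, (hs x hx).of_le (by norm_cast), ⟨?_, b1, mem_closedBall_zero_iff.2 b2⟩, ?_, ?_,
    b3, ?_⟩
  · refine mem_closedBall_zero_iff.2 (max_le ?_ ?_)
    · rw [Real.norm_of_nonneg (mul_nonneg i0.le (by linarith)), inv_mul_le_iff₀ u0]
      linarith
    · rw [Real.norm_of_nonneg i0.le]
      linarith
  · rw [hj']
    refine ContinuousLinearMap.opNorm_le_bound _ zero_le_one fun y => max_le ?_ (by simp [hL])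
    have := norm_fst_le y
    simp only [hL, ContinuousLinearMap.prod_apply, smul_apply, norm_smul,
      ContinuousLinearMap.coe_fst', Real.norm_of_nonneg i0.le]
    nlinarith [norm_nonneg y.1]
  · rw [hj']
    simp
  · rw [eqn T (H x hx).1 (h0 x hx) (H x hx).2.2]
    simp only [ff]
    field_simp

end Vale.Agent.P218F.Ft
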