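import Vale.Agent.P218F.SymSpec2
import Vale.Agent.P218F.EndWt

/-! Block SYM: weights and the estimates of the fixed point map. -/

open Set Filter Topology Metric

namespace Vale.Agent.P218F.Sym

open Vale.Agent.P218F.End

/-- hypotheses on the parameters -/
structure Par (Λ Z₀ R : ℝ) (ys : ℂ) : Prop where
  hΛ : 5000000000 ≤ Λ
  hZ : 0 < Z₀
  hZ2 : 2 * Λ ≤ Z₀ ^ 2
  hR : Z₀ ≤ R
  hy : ‖ys - 4‖ < 4
  hre : 4 * Λ / R ^ 2 ≤ ys.re

/-- a smooth function comparable to `|v|` -/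
noncomputable def dd (R : ℝ) (ys : ℂ) (z : ℝ) : ℝ := ‖ys‖ + (R ^ 2 - z ^ 2) / R ^ 2

/-- the relative distance to the slow manifold -/
noncomputable def lm (R : ℝ) (ys : ℂ) (z : ℝ) : ℝ := 3500000 / (R ^ 2 * dd R ys z) + ex R z

/-- the weight -/
noncomputable def be (R : ℝ) (ys : ℂ) (z : ℝ) : ℝ := z ^ 3 * lm R ys z

theorem ex_pos (R z : ℝ) : 0 < ex R z := Real.exp_pos _

theorem ex_self (R : ℝ) : ex R R = 1 := by simp [ex]

theorem hasDerivAt_ex (R z : ℝ) : HasDerivAt (ex R) (z / 4 * ex R z) z := by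
  have h : HasDerivAt (fun z : ℝ => -(R ^ 2 - z ^ 2) / 8) (z / 4) z := by
    have := (((hasDerivAt_pow 2 z).const_sub (R ^ 2)).neg).div_const 8
    refine this.congr_deriv ?_
    push_cast; ring
  have := h.exp
  refine this.congr_deriv ?_
  rw [mul_comm]; rfl

theorem continuous_ex (R : ℝ) : Continuous (ex R) := by
  unfold ex; fun_prop

theorem v0_re (R : ℝ) (y : ℂ) (z : ℝ) :
    (v0 R y z).re = 2 + (y.re - 2) * ((z ^ 2 - 2) / (R ^ 2 - 2)) := by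
  simp only [v0, Complex.add_re, Complex.mul_re, Complex.sub_re, Complex.ofReal_re,
    Complex.ofReal_im, mul_zero, sub_zero, Complex.re_ofNat]

theorem v0_im (R : ℝ) (y : ℂ) (z : ℝ) :
    (v0 R y z).im = y.im * ((z ^ 2 - 2) / (R ^ 2 - 2)) := by
  simp only [v0, Complex.add_im, Complex.mul_im, Complex.sub_re, Complex.sub_im, Complex.ofReal_re,
    Complex.ofReal_im, mul_zero, sub_zero, Complex.im_ofNat, zero_add]

namespace Par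

variable {Λ Z₀ R z : ℝ} {ys : ℂ}

theorem Z_ge (h : Par Λ Z₀ R ys) : 100000 ≤ Z₀ := by
  have h1 := h.hΛ
  have h2 := h.hZ2
  exact le_of_sq_le_sq (by nlinarith) h.hZ.le
  
theorem z_ge (h : Par Λ Z₀ R ys) (hz : z ∈ Icc Z₀ R) : 100000 ≤ z := h.Z_ge.trans hz.1

theorem z_pos (h : Par Λ Z₀ R ys) (hz : z ∈ Icc Z₀ R) : 0 < z := by linarith [h.z_ge hz]

theorem R_mem (h : Par Λ Z₀ R ys) : R ∈ Icc Z₀ R := ⟨h.hR, le_rfl⟩

theorem Z_mem (h : Par Λ Z₀ R ys) : Z₀ ∈ Icc Z₀ R := ⟨le_rfl, h.hR⟩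

theorem R_pos (h : Par Λ Z₀ R ys) : 0 < R := h.z_pos h.R_mem

theorem zsq (h : Par Λ Z₀ R ys) (hz : z ∈ Icc Z₀ R) : 2 * Λ ≤ z ^ 2 :=
  h.hZ2.trans (pow_le_pow_left₀ h.hZ.le hz.1 2)

theorem zsq' (h : Par Λ Z₀ R ys) (hz : z ∈ Icc Z₀ R) : 10000000000 ≤ z ^ 2 := by
  linarith [h.zsq hz, h.hΛ]

theorem zR (h : Par Λ Z₀ R ys) (hz : z ∈ Icc Z₀ R) : z ^ 2 ≤ R ^ 2 :=
  pow_le_pow_left₀ (h.z_pos hz).le hz.2 2

theorem Λ_pos (h : Par Λ Z₀ R ys) : 0 < Λ := by linarith [h.hΛ]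

theorem re_pos (h : Par Λ Z₀ R ys) : 0 < ys.re :=
  lt_of_lt_of_le (by have := h.Λ_pos; have := h.R_pos; positivity) h.hre

theorem normSq_le (h : Par Λ Z₀ R ys) : ys.re ^ 2 + ys.im ^ 2 ≤ 8 * ys.re := by
  have h1 : ‖ys - 4‖ ^ 2 ≤ 4 ^ 2 := pow_le_pow_left₀ (norm_nonneg _) h.hy.le 2
  rw [Complex.sq_norm, Complex.normSq_apply] at h1
  simp only [Complex.sub_re, Complex.sub_im, Complex.re_ofNat, Complex.im_ofNat] at h1
  nlinarith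

theorem norm_le (h : Par Λ Z₀ R ys) : ‖ys‖ ≤ 8 := by
  have := norm_add_le (ys - 4) 4
  rw [sub_add_cancel] at this
  have h4 : ‖(4 : ℂ)‖ = 4 := by simp
  linarith [h.hy]

theorem norm_sub_two (h : Par Λ Z₀ R ys) : ‖ys - 2‖ ≤ 6 := by
  have := norm_add_le (ys - 4) 2
  have e : ys - 4 + 2 = ys - 2 := by ring
  have h4 : ‖(2 : ℂ)‖ = 2 := by simp
  rw [e] at this
  linarith [h.hy]

theorem T_ge (h : Par Λ Z₀ R ys) : 4 * Λ ≤ R ^ 2 * ‖ys‖ := by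
  have h1 := h.hre.trans (Complex.re_le_norm ys)
  rw [div_le_iff₀ (by have := h.R_pos; positivity)] at h1
  linarith

theorem th_nonneg (h : Par Λ Z₀ R ys) (hz : z ∈ Icc Z₀ R) : 0 ≤ (z ^ 2 - 2) / (R ^ 2 - 2) :=
  div_nonneg (by linarith [h.zsq' hz]) (by linarith [h.zsq' h.R_mem])

theorem th_le (h : Par Λ Z₀ R ys) (hz : z ∈ Icc Z₀ R) : (z ^ 2 - 2) / (R ^ 2 - 2) ≤ 1 :=
  div_le_one_of_le₀ (by linarith [h.zR hz]) (by linarith [h.zsq' h.R_mem])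

theorem th_compl (h : Par Λ Z₀ R ys) (hz : z ∈ Icc Z₀ R) :
    (R ^ 2 - z ^ 2) / R ^ 2 ≤ 1 - (z ^ 2 - 2) / (R ^ 2 - 2) ∧
      1 - (z ^ 2 - 2) / (R ^ 2 - 2) ≤ 1.01 * ((R ^ 2 - z ^ 2) / R ^ 2) := by
  have h1 := h.zsq' h.R_mem
  have h2 := h.zR hz
  have e : 1 - (z ^ 2 - 2) / (R ^ 2 - 2) = (R ^ 2 - z ^ 2) / (R ^ 2 - 2) := by
    have : R ^ 2 - 2 ≠ 0 := by linarith
    field_simp; ring
  rw [e]
  constructor
  · exact div_le_div_of_nonneg_left (by linarith) (by linarith) (by linarith)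
  · rw [← mul_div_assoc, div_le_div_iff₀ (by linarith) (by linarith)]
    nlinarith

theorem frac_nonneg (h : Par Λ Z₀ R ys) (hz : z ∈ Icc Z₀ R) : 0 ≤ (R ^ 2 - z ^ 2) / R ^ 2 :=
  div_nonneg (by linarith [h.zR hz]) (sq_nonneg R)

theorem two_ge (h : Par Λ Z₀ R ys) : 4 * Λ / R ^ 2 ≤ 2 := by
  rw [div_le_iff₀ (by have := h.R_pos; positivity)]
  linarith [h.zsq h.R_mem]

theorem rho_ge (h : Par Λ Z₀ R ys) (hz : z ∈ Icc Z₀ R) : 4 * Λ / R ^ 2 ≤ (v0 R ys z).re := by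
  rw [v0_re]
  have h1 := h.th_nonneg hz
  have h2 := h.th_le hz
  nlinarith [h.hre, h.two_ge, mul_nonneg h1 (sub_nonneg.2 h.hre),
    mul_nonneg (sub_nonneg.2 h2) (sub_nonneg.2 h.two_ge)]

theorem rho_ge' (h : Par Λ Z₀ R ys) (hz : z ∈ Icc Z₀ R) :
    2 * ((R ^ 2 - z ^ 2) / R ^ 2) ≤ (v0 R ys z).re := by
  rw [v0_re]
  nlinarith [(h.th_compl hz).1, mul_nonneg (h.th_nonneg hz) h.re_pos.le]

theorem rho_ge'' (h : Par Λ Z₀ R ys) (hz : z ∈ Icc Z₀ R) :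
    ys.re * ((z ^ 2 - 2) / (R ^ 2 - 2)) ≤ (v0 R ys z).re := by
  rw [v0_re]
  nlinarith [h.th_le hz]

theorem rho_pos (h : Par Λ Z₀ R ys) (hz : z ∈ Icc Z₀ R) : 0 < (v0 R ys z).re :=
  lt_of_lt_of_le (by have := h.Λ_pos; have := h.R_pos; positivity) (h.rho_ge hz)

theorem rho_sq (h : Par Λ Z₀ R ys) (hz : z ∈ Icc Z₀ R) : 2 * Λ ≤ z ^ 2 * (v0 R ys z).re := by
  have h1 := h.rho_ge hz
  have h2 := h.rho_ge' hz
  have hR := h.R_pos
  have h3 := h.zsq hz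
  have hρ := h.rho_pos hz
  set ρ := (v0 R ys z).re
  rw [div_le_iff₀ (by positivity)] at h1
  rw [← mul_div_assoc, div_le_iff₀ (by positivity)] at h2
  -- `2 R² ≤ ρ R² + 2 z²`
  have hΛ := h.Λ_pos
  have h5 : 2 * Λ * (2 * R ^ 2) ≤ z ^ 2 * ρ * (2 * R ^ 2) := by
    have a1 : 2 * Λ * (ρ * R ^ 2) ≤ z ^ 2 * (ρ * R ^ 2) :=
      mul_le_mul_of_nonneg_right h3 (by positivity)
    have a2 : z ^ 2 * (4 * Λ) ≤ z ^ 2 * (ρ * R ^ 2) :=
      mul_le_mul_of_nonneg_left h1 (by positivity)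
    nlinarith
  exact le_of_mul_le_mul_right h5 (by positivity)

theorem v0_sq (h : Par Λ Z₀ R ys) (hz : z ∈ Icc Z₀ R) :
    ‖v0 R ys z‖ ^ 2 ≤ 8 * (v0 R ys z).re := by
  rw [Complex.sq_norm, Complex.normSq_apply, v0_re, v0_im]
  have h1 := h.th_nonneg hz
  have h2 := h.th_le hz
  have h3 := h.normSq_le
  set θ := (z ^ 2 - 2) / (R ^ 2 - 2)
  have h4 : θ * θ * (ys.re ^ 2 + ys.im ^ 2) ≤ θ * θ * (8 * ys.re) :=
    mul_le_mul_of_nonneg_left h3 (by positivity)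
  have h5 := h.re_pos
  nlinarith [mul_nonneg h1 (sub_nonneg.2 h2), mul_nonneg (mul_nonneg h1 (sub_nonneg.2 h2)) h5.le]

theorem dd_le (h : Par Λ Z₀ R ys) (hz : z ∈ Icc Z₀ R) : dd R ys z ≤ 9 * ‖v0 R ys z‖ := by
  have h1 := h.th_nonneg hz
  have h2 := h.th_le hz
  have h3 := h.rho_ge' hz
  have h4 := Complex.re_le_norm (v0 R ys z)
  have h5 := (h.th_compl hz).1
  have h6 : (z ^ 2 - 2) / (R ^ 2 - 2) * ‖ys‖ ≤ ‖v0 R ys z‖ := by
    refine le_of_sq_le_sq ?_ (norm_nonneg _)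
    rw [mul_pow, Complex.sq_norm, Complex.sq_norm, Complex.normSq_apply, Complex.normSq_apply,
      v0_re, v0_im]
    set θ := (z ^ 2 - 2) / (R ^ 2 - 2)
    nlinarith [mul_nonneg (mul_nonneg h1 (sub_nonneg.2 h2)) h.re_pos.le, sq_nonneg (1 - θ)]
  have h7 : 2 * (1 - (z ^ 2 - 2) / (R ^ 2 - 2)) ≤ ‖v0 R ys z‖ := by
    refine le_trans ?_ h4
    rw [v0_re]
    nlinarith [mul_nonneg h1 h.re_pos.le]
  rw [dd]
  have h8 := h.norm_le
  set θ := (z ^ 2 - 2) / (R ^ 2 - 2)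
  nlinarith [mul_le_mul_of_nonneg_left h8 (sub_nonneg.2 h2)]

theorem le_dd (h : Par Λ Z₀ R ys) (hz : z ∈ Icc Z₀ R) : ‖v0 R ys z‖ ≤ 2.1 * dd R ys z := by
  have h1 := h.th_nonneg hz
  have h2 := h.th_le hz
  have h5 := (h.th_compl hz).2
  have e : v0 R ys z = ys * (((z ^ 2 - 2) / (R ^ 2 - 2) : ℝ) : ℂ) +
      ((2 * (1 - (z ^ 2 - 2) / (R ^ 2 - 2)) : ℝ) : ℂ) := by
    rw [v0]; push_cast; ring
  rw [e, dd]
  refine (norm_add_le _ _).trans ?_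
  rw [norm_mul, Complex.norm_real, Complex.norm_real, Real.norm_eq_abs, Real.norm_eq_abs,
    abs_of_nonneg h1, abs_of_nonneg (by linarith)]
  nlinarith [norm_nonneg ys, h.frac_nonneg hz]

theorem Rdd_eq (h : Par Λ Z₀ R ys) (z : ℝ) :
    R ^ 2 * dd R ys z = R ^ 2 * ‖ys‖ + (R ^ 2 - z ^ 2) := by
  have := h.R_pos
  rw [dd]; field_simp

theorem Rdd_ge (h : Par Λ Z₀ R ys) (hz : z ∈ Icc Z₀ R) : 4 * Λ ≤ R ^ 2 * dd R ys z := by
  rw [h.Rdd_eq]; linarith [h.T_ge, h.zR hz]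

theorem Rdd_pos (h : Par Λ Z₀ R ys) (hz : z ∈ Icc Z₀ R) : 0 < R ^ 2 * dd R ys z := by
  linarith [h.Rdd_ge hz, h.Λ_pos]

theorem dd_pos (h : Par Λ Z₀ R ys) (hz : z ∈ Icc Z₀ R) : 0 < dd R ys z :=
  (mul_pos_iff_of_pos_left (pow_pos h.R_pos 2)).1 (h.Rdd_pos hz)

theorem dd_sq (h : Par Λ Z₀ R ys) (hz : z ∈ Icc Z₀ R) : Λ ≤ z ^ 2 * dd R ys z := by
  have h1 := h.Rdd_ge hz
  have h2 := h.Rdd_eq z
  have h3 := h.zsq hz
  have hd := h.dd_pos hz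
  have hR := h.R_pos
  have hΛ := h.Λ_pos
  have h4 : 0 ≤ R ^ 2 * ‖ys‖ := by positivity
  set d := dd R ys z
  have h5 : Λ * R ^ 2 ≤ z ^ 2 * d * R ^ 2 := by
    have a1 : 2 * Λ * (R ^ 2 * d) ≤ z ^ 2 * (R ^ 2 * d) :=
      mul_le_mul_of_nonneg_right h3 (by positivity)
    have a2 : z ^ 2 * (4 * Λ) ≤ z ^ 2 * (R ^ 2 * d) :=
      mul_le_mul_of_nonneg_left h1 (by positivity)
    nlinarith
  exact le_of_mul_le_mul_right h5 (by positivity)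

theorem ex_le (h : Par Λ Z₀ R ys) (hz : z ∈ Icc Z₀ R) : ex R z ≤ 1 :=
  Real.exp_le_one_iff.2 (by linarith [h.zR hz])

theorem frac_le (h : Par Λ Z₀ R ys) (hz : z ∈ Icc Z₀ R) :
    3500000 / (R ^ 2 * dd R ys z) ≤ 1 / 1000 := by
  rw [div_le_iff₀ (h.Rdd_pos hz)]
  linarith [h.Rdd_ge hz, h.hΛ]

theorem lm_pos (h : Par Λ Z₀ R ys) (hz : z ∈ Icc Z₀ R) : 0 < lm R ys z :=
  add_pos (div_pos (by norm_num) (h.Rdd_pos hz)) (ex_pos R z)

theorem lm_le (h : Par Λ Z₀ R ys) (hz : z ∈ Icc Z₀ R) : lm R ys z ≤ 2 := by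
  rw [lm]; linarith [h.frac_le hz, h.ex_le hz]

theorem be_pos (h : Par Λ Z₀ R ys) (hz : z ∈ Icc Z₀ R) : 0 < be R ys z :=
  mul_pos (pow_pos (h.z_pos hz) 3) (h.lm_pos hz)

theorem hasDerivAt_inv_Rdd (h : Par Λ Z₀ R ys) (hz : z ∈ Icc Z₀ R) :
    HasDerivAt (fun z => 1 / (R ^ 2 * dd R ys z)) (2 * z / (R ^ 2 * dd R ys z) ^ 2) z := by
  have h1 : HasDerivAt (fun z => R ^ 2 * ‖ys‖ + (R ^ 2 - z ^ 2)) (-(2 * z)) z := by
    have := ((hasDerivAt_pow 2 z).const_sub (R ^ 2)).const_add (R ^ 2 * ‖ys‖)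
    refine this.congr_deriv ?_
    push_cast; ring
  have e : (fun z => 1 / (R ^ 2 * dd R ys z)) = fun z => (R ^ 2 * ‖ys‖ + (R ^ 2 - z ^ 2))⁻¹ := by
    funext z; rw [h.Rdd_eq, one_div]
  rw [e]
  have := h1.inv (by rw [← h.Rdd_eq]; exact (h.Rdd_pos hz).ne')
  refine this.congr_deriv ?_
  rw [h.Rdd_eq]; ring

theorem continuousOn_lm (h : Par Λ Z₀ R ys) : ContinuousOn (lm R ys) (Icc Z₀ R) := by
  refine ContinuousOn.add (ContinuousOn.div continuousOn_const ?_ fun z hz => (h.Rdd_pos hz).ne')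
    (continuous_ex R).continuousOn
  unfold dd
  fun_prop

theorem continuousOn_be (h : Par Λ Z₀ R ys) : ContinuousOn (be R ys) (Icc Z₀ R) :=
  (continuous_pow 3).continuousOn.mul h.continuousOn_lm

/-- the relaxation estimate -/
theorem relax (h : Par Λ Z₀ R ys) {B B' : ℝ → ℂ} {a b : ℝ} (ha : 0 ≤ a) (hb : 0 ≤ b)
    (hB : Der Z₀ R B B')
    (hN : ∀ z ∈ Icc Z₀ R, ‖B' z - (z / 2 : ℝ) * B z‖ ≤
      z ^ 4 * (3 / 8 * a / (R ^ 2 * dd R ys z) + 3 / 16 * b * ex R z))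
    (hR : ‖B R‖ ≤ R ^ 3 * (a / (R ^ 2 * dd R ys R) + b)) (hz : z ∈ Icc Z₀ R) :
    ‖B z‖ ≤ z ^ 3 * (a / (R ^ 2 * dd R ys z) + b * ex R z) := by
  have hY : Der Z₀ R (fun z => z ^ 3 * (a * (1 / (R ^ 2 * dd R ys z)) + b * ex R z))
      (fun z => 3 * z ^ 2 * (a * (1 / (R ^ 2 * dd R ys z)) + b * ex R z) +
        z ^ 3 * (a * (2 * z / (R ^ 2 * dd R ys z) ^ 2) + b * (z / 4 * ex R z))) :=
    Der.of_at fun z hz => by
      have := (hasDerivAt_pow 3 z).mul (((h.hasDerivAt_inv_Rdd hz).const_mul a).add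
        ((hasDerivAt_ex R z).const_mul b))
      refine this.congr_deriv ?_
      simp only [Pi.add_apply]
      push_cast; ring
  have hA : Der Z₀ R (fun z => z ^ 2 / 4) (fun z => z / 2) := Der.of_at fun z _ => by
    have := (hasDerivAt_pow 2 z).div_const 4
    refine this.congr_deriv ?_
    push_cast; ring
  have := fence1 hB hY hA (fun z hz => ?_) (by simpa [ex_self, div_eq_mul_inv] using hR) hz
  · simpa [div_eq_mul_inv] using this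
  · have h1 := hN z hz
    have hD := h.Rdd_pos hz
    have hD' := h.Rdd_ge hz
    have hz0 := h.z_pos hz
    have hz2 := h.zsq' hz
    have hΛ := h.hΛ
    have he := ex_pos R z
    set D := R ^ 2 * dd R ys z
    set e := ex R z
    have hi : 0 < 1 / D := by positivity
    have e1 : 2 * z / D ^ 2 = 2 * z * (1 / D) * (1 / D) := by field_simp
    have e2 : 3 / 8 * a / D = 3 / 8 * a * (1 / D) := by ring
    have hi' : 1 / D ≤ 1 / 32 := one_div_le_one_div_of_le (by norm_num) (by linarith)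
    rw [e1]
    rw [e2] at h1
    set i := 1 / D
    have a1 : 3 * z ^ 2 ≤ z ^ 4 / 16 := by nlinarith
    have b1 : 3 * z ^ 2 * (a * i) ≤ z ^ 4 / 16 * (a * i) :=
      mul_le_mul_of_nonneg_right a1 (by positivity)
    have b2 : 3 * z ^ 2 * (b * e) ≤ z ^ 4 / 16 * (b * e) :=
      mul_le_mul_of_nonneg_right a1 (by positivity)
    have b3 : z ^ 4 * (a * i) * i ≤ z ^ 4 * (a * i) * (1 / 32) :=
      mul_le_mul_of_nonneg_left hi' (by positivity)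
    nlinarith

theorem g_pos (h : Par Λ Z₀ R ys) (hz : z ∈ Icc Z₀ R) : 0 < z ^ 2 - 2 := by
  linarith [h.zsq' hz]

theorem g_ne (h : Par Λ Z₀ R ys) (hz : z ∈ Icc Z₀ R) : (z : ℂ) ^ 2 - 2 ≠ 0 := by
  exact_mod_cast (h.g_pos hz).ne'

theorem norm_g (h : Par Λ Z₀ R ys) (hz : z ∈ Icc Z₀ R) : ‖(z : ℂ) ^ 2 - 2‖ = z ^ 2 - 2 := by
  have : (z : ℂ) ^ 2 - 2 = ((z ^ 2 - 2 : ℝ) : ℂ) := by push_cast; rfl
  rw [this, Complex.norm_real, Real.norm_eq_abs, abs_of_pos (h.g_pos hz)]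

theorem norm_z (h : Par Λ Z₀ R ys) (hz : z ∈ Icc Z₀ R) : ‖(z : ℂ)‖ = z := by
  rw [Complex.norm_real, Real.norm_eq_abs, abs_of_pos (h.z_pos hz)]

theorem div_g (h : Par Λ Z₀ R ys) (hz : z ∈ Icc Z₀ R) : 1 / (z ^ 2 - 2) ≤ 1.001 / z ^ 2 := by
  rw [div_le_div_iff₀ (h.g_pos hz) (pow_pos (h.z_pos hz) 2)]
  linarith [h.zsq' hz]

theorem div_g2 (h : Par Λ Z₀ R ys) (hz : z ∈ Icc Z₀ R) :
    1 / (z ^ 2 - 2) ^ 2 ≤ 1.01 / z ^ 4 := by
  have h1 := pow_le_pow_left₀ (one_div_pos.2 (h.g_pos hz)).le (h.div_g hz) 2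
  rw [div_pow, div_pow, one_pow, ← pow_mul] at h1
  exact h1.trans (div_le_div_of_nonneg_right (by norm_num) (pow_pos (h.z_pos hz) _).le)

theorem hasDerivAt_ex_div (h : Par Λ Z₀ R ys) (hz : z ∈ Icc Z₀ R) :
    HasDerivAt (fun z => ex R z / z ^ 2) (ex R z * (1 / (4 * z) - 2 / z ^ 3)) z := by
  have hz0 := h.z_pos hz
  have := (hasDerivAt_ex R z).div (hasDerivAt_pow 2 z) (by positivity)
  refine this.congr_deriv ?_
  push_cast
  field_simp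

theorem ex_div_le (h : Par Λ Z₀ R ys) (hz : z ∈ Icc Z₀ R) :
    ex R z / z ≤ 8 * (ex R z * (1 / (4 * z) - 2 / z ^ 3)) := by
  have hz0 := h.z_pos hz
  have h2 := h.zsq' hz
  have he := ex_pos R z
  have : 8 * (ex R z * (1 / (4 * z) - 2 / z ^ 3)) - ex R z / z = ex R z * (z ^ 2 - 16) / z ^ 3 := by
    field_simp; ring
  have h3 : 0 ≤ ex R z * (z ^ 2 - 16) / z ^ 3 :=
    div_nonneg (mul_nonneg he.le (by linarith)) (by positivity)
  linarith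

/-- integration from `R` inwards -/
theorem integ (_h : Par Λ Z₀ R ys) {f f' : ℝ → ℂ} {Y Y' : ℝ → ℝ} (hf : Der Z₀ R f f')
    (hY : Der Z₀ R Y Y') (hle : ∀ z ∈ Icc Z₀ R, ‖f' z‖ ≤ -Y' z) (hz : z ∈ Icc Z₀ R) :
    ‖f z - f R‖ ≤ Y z - Y R := by
  have h1 : Der Z₀ R (fun z => f z - f R) f' := fun z hz => (hf z hz).sub_const _
  have h2 : Der Z₀ R (fun z => Y z - Y R) Y' := fun z hz => (hY z hz).sub_const _
  have h3 : Der Z₀ R (fun _ => (0 : ℝ)) (fun _ => 0) := fun z _ => hasDerivWithinAt_const _ _ _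
  refine fence1 h1 h2 h3 (fun z hz => ?_) (by simp) hz
  have := hle z hz
  simp only [Complex.ofReal_zero, zero_mul, sub_zero]
  linarith

end Par

/-- the slope of the approximate solution -/
noncomputable def Y0 (R : ℝ) (y : ℂ) : ℂ := (y - 2) / ((R : ℂ) ^ 2 - 2)

/-- `v = 2 + g Y₀ A` -/
noncomputable def vv (R : ℝ) (y : ℂ) (z : ℝ) (A : ℂ) : ℂ := 2 + ((z : ℂ) ^ 2 - 2) * Y0 R y * A

/-- `v' = Y₀ pp` -/
noncomputable def pp (z : ℝ) (A B : ℂ) : ℂ := B / ((z : ℂ) ^ 2 - 2) + 2 * z * A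

/-- the third factor of the nonlinearity -/
noncomputable def tt (R : ℝ) (y : ℂ) (z : ℝ) (A B : ℂ) : ℂ :=
  2 * ((z : ℂ) ^ 2 - 2) + 2 * ((z : ℂ) ^ 2 - 2) * Y0 R y * A + z * Y0 R y * B / 2

/-- the nonlinearity: `A' = B / g²`, `B' = z B / 2 + NN` -/
noncomputable def NN (R : ℝ) (y : ℂ) (z : ℝ) (A B : ℂ) : ℂ :=
  Y0 R y * pp z A B ^ 2 * (vv R y z A)⁻¹ / 4 * tt R y z A B

/-- a pair of functions in the weighted ball -/
structure Pre (Λ Z₀ R : ℝ) (ys y : ℂ) (A B : ℝ → ℂ) : Prop where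
  par : Par Λ Z₀ R ys
  hy : ‖y - ys‖ ≤ ys.re / 20
  hA : Der Z₀ R A fun z => B z / ((z : ℂ) ^ 2 - 2) ^ 2
  hA1 : A R = 1
  hB : ∀ z ∈ Icc Z₀ R, ‖B z‖ ≤ 16 * be R ys z

theorem Par.norm_Y0 {Λ Z₀ R : ℝ} {ys y : ℂ} (h : Par Λ Z₀ R ys) (hy : ‖y - ys‖ ≤ ys.re / 20) :
    ‖Y0 R y‖ ≤ 6.5 / R ^ 2 := by
  have h1 : ‖y - 2‖ ≤ 6.4 := by
    have := norm_add_le (y - ys) (ys - 2)
    rw [sub_add_sub_cancel] at this
    linarith [h.norm_sub_two, (Complex.re_le_norm ys).trans h.norm_le]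
  have h2 := h.zsq' h.R_mem
  rw [Y0, norm_div, h.norm_g h.R_mem, div_le_div_iff₀ (h.g_pos h.R_mem) (pow_pos h.R_pos 2)]
  nlinarith

theorem v0_eq (R : ℝ) (y : ℂ) (z : ℝ) : v0 R y z = 2 + ((z : ℂ) ^ 2 - 2) * Y0 R y := by
  rw [v0, Y0]; push_cast; ring

namespace Pre

variable {Λ Z₀ R z : ℝ} {ys y : ℂ} {A B : ℝ → ℂ}

theorem normY (h : Pre Λ Z₀ R ys y A B) : ‖Y0 R y‖ ≤ 6.5 / R ^ 2 := h.par.norm_Y0 h.hy

theorem zY (h : Pre Λ Z₀ R ys y A B) (hz : z ∈ Icc Z₀ R) : z ^ 2 * ‖Y0 R y‖ ≤ 6.5 := by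
  have h1 := h.normY
  rw [le_div_iff₀ (pow_pos h.par.R_pos 2)] at h1
  nlinarith [h.par.zR hz, norm_nonneg (Y0 R y)]

theorem B_le (h : Pre Λ Z₀ R ys y A B) (hz : z ∈ Icc Z₀ R) : ‖B z‖ ≤ 32 * z ^ 3 := by
  have h1 := h.hB z hz
  have h2 := h.par.lm_le hz
  have h3 := pow_pos (h.par.z_pos hz) 3
  rw [be] at h1
  nlinarith

theorem A'_le (h : Pre Λ Z₀ R ys y A B) (hz : z ∈ Icc Z₀ R) :
    ‖B z / ((z : ℂ) ^ 2 - 2) ^ 2‖ ≤ 17 * (lm R ys z / z) := by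
  have hz0 := h.par.z_pos hz
  have hl := h.par.lm_pos hz
  rw [norm_div, norm_pow, h.par.norm_g hz, div_eq_mul_one_div]
  refine (mul_le_mul (h.hB z hz) (h.par.div_g2 hz) (by positivity)
    (by have := h.par.be_pos hz; positivity)).trans ?_
  have : 16 * be R ys z * (1.01 / z ^ 4) = 16.16 * (lm R ys z / z) := by
    rw [be]; field_simp; ring
  rw [this]
  exact mul_le_mul_of_nonneg_right (by norm_num) (by positivity)

theorem A_near (h : Pre Λ Z₀ R ys y A B) (hz : z ∈ Icc Z₀ R) :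
    ‖A z - 1‖ ≤ 17 * (1750000 / Λ * ((R ^ 2 - z ^ 2) / R ^ 2) + 8 / R ^ 2) := by
  have hp := h.par
  have hY : Der Z₀ R (fun z => 17 * (1750000 / Λ * ((R ^ 2 - z ^ 2) / R ^ 2) -
      8 * (ex R z / z ^ 2))) (fun z => 17 * (1750000 / Λ * (-(2 * z) / R ^ 2) -
        8 * (ex R z * (1 / (4 * z) - 2 / z ^ 3)))) := Der.of_at fun z hz => by
    have h1 : HasDerivAt (fun z : ℝ => (R ^ 2 - z ^ 2) / R ^ 2) (-(2 * z) / R ^ 2) z := by
      have := ((hasDerivAt_pow 2 z).const_sub (R ^ 2)).div_const (R ^ 2)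
      refine this.congr_deriv ?_
      push_cast; ring
    exact ((h1.const_mul _).sub ((hp.hasDerivAt_ex_div hz).const_mul 8)).const_mul 17
  have := hp.integ h.hA hY (fun z hz => ?_) hz
  · rw [h.hA1, ex_self] at this
    refine this.trans ?_
    have h1 : 0 ≤ ex R z / z ^ 2 := div_nonneg (ex_pos R z).le (sq_nonneg z)
    simp only [sub_self, zero_div, mul_zero, zero_sub]
    have : 8 / R ^ 2 = 8 * (1 / R ^ 2) := by ring
    linarith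
  · refine (h.A'_le hz).trans ?_
    have h1 := hp.ex_div_le hz
    have h2 : 3500000 / (R ^ 2 * dd R ys z) / z ≤ 1750000 / Λ * (2 * z / R ^ 2) := by
      have hz0 := hp.z_pos hz
      have hd := hp.dd_pos hz
      have hR := hp.R_pos
      have hΛ := hp.Λ_pos
      have e : 1750000 / Λ * (2 * z / R ^ 2) = 3500000 * z / (Λ * R ^ 2) := by
        field_simp; ring
      rw [e, div_div, div_le_div_iff₀ (by positivity) (by positivity)]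
      nlinarith [mul_le_mul_of_nonneg_left (hp.dd_sq hz) (sq_nonneg R)]
    rw [lm, add_div, neg_div]
    linarith

theorem A_near' (h : Pre Λ Z₀ R ys y A B) (hz : z ∈ Icc Z₀ R) : ‖A z - 1‖ ≤ 1 / 100 := by
  refine (h.A_near hz).trans ?_
  have hp := h.par
  have h1 : (R ^ 2 - z ^ 2) / R ^ 2 ≤ 1 :=
    div_le_one_of_le₀ (by nlinarith [sq_nonneg z]) (sq_nonneg R)
  have h2 : 1750000 / Λ ≤ 0.00035 := by
    rw [div_le_iff₀ hp.Λ_pos]; linarith [hp.hΛ]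
  have h3 : 8 / R ^ 2 ≤ 0.00001 := by
    rw [div_le_iff₀ (pow_pos hp.R_pos 2)]; linarith [hp.zsq' hp.R_mem]
  have h4 : 1750000 / Λ * ((R ^ 2 - z ^ 2) / R ^ 2) ≤ 0.00035 * 1 :=
    mul_le_mul h2 h1 (hp.frac_nonneg hz) (by norm_num)
  linarith

theorem A_le (h : Pre Λ Z₀ R ys y A B) (hz : z ∈ Icc Z₀ R) : ‖A z‖ ≤ 1.01 := by
  have := norm_add_le (A z - 1) 1
  rw [sub_add_cancel, norm_one] at this
  linarith [h.A_near' hz]

theorem A_ge (h : Pre Λ Z₀ R ys y A B) (hz : z ∈ Icc Z₀ R) : 0.99 ≤ ‖A z‖ := by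
  have := norm_sub_le (A z) (A z - 1)
  rw [sub_sub_cancel, norm_one] at this
  linarith [h.A_near' hz]

theorem drift (h : Pre Λ Z₀ R ys y A B) (hz : z ∈ Icc Z₀ R) :
    ‖vv R y z (A z) - v0 R y z‖ ≤ 100000000 / Λ * (v0 R ys z).re := by
  have hp := h.par
  have e : vv R y z (A z) - v0 R y z = ((z : ℂ) ^ 2 - 2) * Y0 R y * (A z - 1) := by
    rw [vv, v0_eq]; ring
  have h1 : (z ^ 2 - 2) * ‖Y0 R y‖ ≤ 6.5 := by
    nlinarith [h.zY hz, norm_nonneg (Y0 R y)]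
  rw [e, norm_mul, norm_mul, hp.norm_g hz]
  refine (mul_le_mul h1 (h.A_near hz) (norm_nonneg _) (by norm_num)).trans ?_
  have h2 := hp.rho_ge hz
  have h3 := hp.rho_ge' hz
  have hΛ := hp.Λ_pos
  have hR := hp.R_pos
  have hρ := hp.rho_pos hz
  set ρ := (v0 R ys z).re
  have h4 : 8 / R ^ 2 ≤ 2 * (1 / Λ * ρ) := by
    rw [div_le_iff₀ (by positivity)] at h2 ⊢
    have : 2 * (1 / Λ * ρ) * R ^ 2 = 2 * (ρ * R ^ 2) / Λ := by field_simp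
    rw [this, le_div_iff₀ hΛ]
    linarith
  have h5 : 1750000 / Λ * ((R ^ 2 - z ^ 2) / R ^ 2) ≤ 875000 * (1 / Λ * ρ) := by
    have : 1750000 / Λ * ((R ^ 2 - z ^ 2) / R ^ 2) =
        875000 * (1 / Λ * (2 * ((R ^ 2 - z ^ 2) / R ^ 2))) := by ring
    rw [this]
    gcongr
  have h6 : 100000000 / Λ * ρ = 100000000 * (1 / Λ * ρ) := by ring
  have h7 : 0 ≤ 1 / Λ * ρ := by positivity
  rw [h6]
  linarith

theorem near (h : Pre Λ Z₀ R ys y A B) (hz : z ∈ Icc Z₀ R) :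
    ‖vv R y z (A z) - v0 R ys z‖ ≤ (v0 R ys z).re / 10 := by
  have hp := h.par
  have h1 := h.drift hz
  have h2 : ‖v0 R y z - v0 R ys z‖ ≤ (v0 R ys z).re / 20 := by
    have e : v0 R y z - v0 R ys z = (y - ys) * (((z ^ 2 - 2) / (R ^ 2 - 2) : ℝ) : ℂ) := by
      rw [v0, v0]; ring
    rw [e, norm_mul, Complex.norm_real, Real.norm_eq_abs, abs_of_nonneg (hp.th_nonneg hz)]
    nlinarith [mul_le_mul_of_nonneg_right h.hy (hp.th_nonneg hz), hp.rho_ge'' hz]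
  have h3 : 100000000 / Λ ≤ 1 / 50 := by
    rw [div_le_iff₀ hp.Λ_pos]; linarith [hp.hΛ]
  have h4 := norm_add_le (vv R y z (A z) - v0 R y z) (v0 R y z - v0 R ys z)
  rw [sub_add_sub_cancel] at h4
  nlinarith [mul_le_mul_of_nonneg_right h3 (hp.rho_pos hz).le, hp.rho_pos hz]

theorem re_ge (h : Pre Λ Z₀ R ys y A B) (hz : z ∈ Icc Z₀ R) :
    0.9 * (v0 R ys z).re ≤ (vv R y z (A z)).re := by
  have h1 := (Complex.abs_re_le_norm _).trans (h.near hz)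
  rw [Complex.sub_re, abs_le] at h1
  linarith [h1.1]

theorem re_pos (h : Pre Λ Z₀ R ys y A B) (hz : z ∈ Icc Z₀ R) : 0 < (vv R y z (A z)).re := by
  linarith [h.re_ge hz, h.par.rho_pos hz]

theorem v_ne (h : Pre Λ Z₀ R ys y A B) (hz : z ∈ Icc Z₀ R) : vv R y z (A z) ≠ 0 := fun h0 => by
  have := h.re_pos hz
  rw [h0] at this
  simp at this

theorem norm_ge (h : Pre Λ Z₀ R ys y A B) (hz : z ∈ Icc Z₀ R) :
    0.9 * ‖v0 R ys z‖ ≤ ‖vv R y z (A z)‖ := by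
  have h1 := norm_sub_le (vv R y z (A z)) (vv R y z (A z) - v0 R ys z)
  rw [sub_sub_cancel] at h1
  linarith [h.near hz, Complex.re_le_norm (v0 R ys z)]

theorem norm_le (h : Pre Λ Z₀ R ys y A B) (hz : z ∈ Icc Z₀ R) :
    ‖vv R y z (A z)‖ ≤ 1.1 * ‖v0 R ys z‖ := by
  have h1 := norm_add_le (vv R y z (A z) - v0 R ys z) (v0 R ys z)
  rw [sub_add_cancel] at h1
  linarith [h.near hz, Complex.re_le_norm (v0 R ys z)]

theorem dd_le (h : Pre Λ Z₀ R ys y A B) (hz : z ∈ Icc Z₀ R) :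
    dd R ys z ≤ 10 * ‖vv R y z (A z)‖ := by
  linarith [h.norm_ge hz, h.par.dd_le hz]

theorem le_dd (h : Pre Λ Z₀ R ys y A B) (hz : z ∈ Icc Z₀ R) :
    ‖vv R y z (A z)‖ ≤ 3 * dd R ys z := by
  linarith [h.norm_le hz, h.par.le_dd hz, h.par.dd_pos hz]

theorem inv_le (h : Pre Λ Z₀ R ys y A B) (hz : z ∈ Icc Z₀ R) :
    ‖(vv R y z (A z))⁻¹‖ ≤ 10 / dd R ys z := by
  rw [norm_inv, inv_eq_one_div, div_le_div_iff₀ (norm_pos_iff.2 (h.v_ne hz)) (h.par.dd_pos hz)]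
  linarith [h.dd_le hz]

theorem Bg_le (h : Pre Λ Z₀ R ys y A B) (hz : z ∈ Icc Z₀ R) :
    ‖B z / ((z : ℂ) ^ 2 - 2)‖ ≤ 17 * z * lm R ys z := by
  have hz0 := h.par.z_pos hz
  have hl := h.par.lm_pos hz
  rw [norm_div, h.par.norm_g hz, div_eq_mul_one_div]
  refine (mul_le_mul (h.hB z hz) (h.par.div_g hz) (one_div_pos.2 (h.par.g_pos hz)).le
    (by have := h.par.be_pos hz; positivity)).trans ?_
  have : 16 * be R ys z * (1.001 / z ^ 2) = 16.016 * (z * lm R ys z) := by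
    rw [be]; field_simp; ring
  rw [this, mul_assoc]
  exact mul_le_mul_of_nonneg_right (by norm_num) (by positivity)

theorem zA_le (h : Pre Λ Z₀ R ys y A B) (hz : z ∈ Icc Z₀ R) : ‖2 * (z : ℂ) * A z‖ ≤ 2.02 * z := by
  rw [norm_mul, norm_mul, h.par.norm_z hz, Complex.norm_two]
  nlinarith [h.A_le hz, h.par.z_pos hz]

theorem pp_le (h : Pre Λ Z₀ R ys y A B) (hz : z ∈ Icc Z₀ R) : ‖pp z (A z) (B z)‖ ≤ 37 * z := by
  refine (norm_add_le _ _).trans ?_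
  nlinarith [h.Bg_le hz, h.zA_le hz, h.par.lm_le hz, h.par.z_pos hz]

theorem tt_near (h : Pre Λ Z₀ R ys y A B) (hz : z ∈ Icc Z₀ R) :
    ‖tt R y z (A z) (B z) - 2 * ((z : ℂ) ^ 2 - 2)‖ ≤
      z ^ 2 * (2.02 * ‖Y0 R y‖ + 52 * lm R ys z) := by
  have hp := h.par
  have e : tt R y z (A z) (B z) - 2 * ((z : ℂ) ^ 2 - 2) =
      2 * ((z : ℂ) ^ 2 - 2) * Y0 R y * A z + z * Y0 R y * B z / 2 := by rw [tt]; ring
  rw [e]
  refine (norm_add_le _ _).trans ?_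
  rw [norm_mul, norm_mul, norm_mul, norm_div, norm_mul, norm_mul, hp.norm_g hz, hp.norm_z hz,
    Complex.norm_two]
  have hz0 := hp.z_pos hz
  have hY := norm_nonneg (Y0 R y)
  have h1 : 2 * (z ^ 2 - 2) * ‖Y0 R y‖ * ‖A z‖ ≤ 2 * z ^ 2 * ‖Y0 R y‖ * 1.01 := by
    gcongr
    · linarith
    · exact h.A_le hz
  have h2 : z * ‖Y0 R y‖ * ‖B z‖ ≤ z * ‖Y0 R y‖ * (16 * be R ys z) := by
    gcongr; exact h.hB z hz
  have h3 : z * ‖Y0 R y‖ * (16 * be R ys z) = 16 * (z ^ 2 * ‖Y0 R y‖) * (z ^ 2 * lm R ys z) := by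
    rw [be]; ring
  have h4 : 16 * (z ^ 2 * ‖Y0 R y‖) * (z ^ 2 * lm R ys z) ≤ 16 * 6.5 * (z ^ 2 * lm R ys z) := by
    have := hp.lm_pos hz
    gcongr; exact h.zY hz
  nlinarith

theorem Y_small (h : Pre Λ Z₀ R ys y A B) : ‖Y0 R y‖ ≤ 0.000001 := by
  refine h.normY.trans ?_
  rw [div_le_iff₀ (pow_pos h.par.R_pos 2)]
  linarith [h.par.zsq' h.par.R_mem]

theorem tt_le (h : Pre Λ Z₀ R ys y A B) (hz : z ∈ Icc Z₀ R) :
    ‖tt R y z (A z) (B z)‖ ≤ 107 * z ^ 2 := by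
  have h1 := norm_add_le (tt R y z (A z) (B z) - 2 * ((z : ℂ) ^ 2 - 2)) (2 * ((z : ℂ) ^ 2 - 2))
  rw [sub_add_cancel, norm_mul, h.par.norm_g hz, Complex.norm_two] at h1
  have h2 := h.tt_near hz
  have h3 : 2.02 * ‖Y0 R y‖ + 52 * lm R ys z ≤ 105 := by
    linarith [h.Y_small, h.par.lm_le hz]
  nlinarith [mul_le_mul_of_nonneg_left h3 (sq_nonneg z)]

theorem NN_le (h : Pre Λ Z₀ R ys y A B) (hz : z ∈ Icc Z₀ R) :
    ‖NN R y z (A z) (B z)‖ ≤ 370000 * ‖Y0 R y‖ * z ^ 4 / dd R ys z := by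
  have hd := h.par.dd_pos hz
  have hz0 := h.par.z_pos hz
  rw [NN, norm_mul, norm_div, norm_mul, norm_mul, norm_pow]
  have h4 : ‖(4 : ℂ)‖ = 4 := by simp
  rw [h4]
  calc ‖Y0 R y‖ * ‖pp z (A z) (B z)‖ ^ 2 * ‖(vv R y z (A z))⁻¹‖ / 4 * ‖tt R y z (A z) (B z)‖
      ≤ ‖Y0 R y‖ * (37 * z) ^ 2 * (10 / dd R ys z) / 4 * (107 * z ^ 2) := by
        gcongr
        · exact h.pp_le hz
        · exact h.inv_le hz
        · exact h.tt_le hz
    _ = 366207.5 * (‖Y0 R y‖ * z ^ 4 / dd R ys z) := by field_simp; ring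
    _ ≤ 370000 * (‖Y0 R y‖ * z ^ 4 / dd R ys z) := by gcongr; norm_num
    _ = _ := by ring

/-- the image of the weighted ball -/
theorem self_map (h : Pre Λ Z₀ R ys y A B) {B₁ : ℝ → ℂ}
    (hB₁ : Der Z₀ R B₁ fun z => (z / 2 : ℝ) * B₁ z + NN R y z (A z) (B z))
    (hR : B₁ R = -2 * R * ((R : ℂ) ^ 2 - 2)) (hz : z ∈ Icc Z₀ R) : ‖B₁ z‖ ≤ 2 * be R ys z := by
  have hp := h.par
  have := hp.relax (a := 7000000) (b := 2) (by norm_num) (by norm_num) hB₁ (fun z hz => ?_) ?_ hz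
  · refine this.trans (le_of_eq ?_)
    rw [be, lm]; ring
  · rw [add_sub_cancel_left]
    refine (h.NN_le hz).trans ?_
    have hd := hp.dd_pos hz
    have hR := hp.R_pos
    have hz0 := hp.z_pos hz
    have h1 : 370000 * ‖Y0 R y‖ * z ^ 4 / dd R ys z ≤ 370000 * (6.5 / R ^ 2) * z ^ 4 / dd R ys z := by
      gcongr; exact h.normY
    have h2 : 370000 * (6.5 / R ^ 2) * z ^ 4 / dd R ys z =
        z ^ 4 * (2405000 / (R ^ 2 * dd R ys z)) := by field_simp; ring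
    refine h1.trans (h2.le.trans (mul_le_mul_of_nonneg_left ?_ (by positivity)))
    have h3 : 2405000 / (R ^ 2 * dd R ys z) ≤ 3 / 8 * 7000000 / (R ^ 2 * dd R ys z) := by
      gcongr; norm_num
    have := ex_pos R z
    linarith
  · rw [hR, norm_mul, norm_mul, norm_neg, Complex.norm_two, hp.norm_z hp.R_mem, hp.norm_g hp.R_mem]
    have h1 : 0 ≤ 7000000 / (R ^ 2 * dd R ys R) := (div_pos (by norm_num) (hp.Rdd_pos hp.R_mem)).le
    have hR := hp.R_pos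
    nlinarith [mul_nonneg (pow_pos hR 3).le h1]

end Pre

end Vale.Agent.P218F.Sym
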