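import Vale.Agent.P218F.SymEst
import Vale.Agent.P218F.CoreHol
import Mathlib.MeasureTheory.Integral.IntervalIntegral.FundThmCalculus
import Mathlib.Topology.ContinuousMap.Bounded.Star

/-! Block SYM: existence and holomorphic dependence on the tip value. -/

open Set Filter Topology Metric
open scoped BoundedContinuousFunction

namespace Vale.Agent.P218F.Sym

open Vale.Agent.P218F.End

theorem cl_mem {a b : ℝ} (hab : a ≤ b) (z : ℝ) : cl a b z ∈ Icc a b :=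
  ⟨le_max_left _ _, max_le hab (min_le_right _ _)⟩

theorem cl_of_mem {a b z : ℝ} (hz : z ∈ Icc a b) : cl a b z = z := by
  rw [cl, min_eq_left hz.2, max_eq_right hz.1]

theorem cl_cl (a b z : ℝ) : cl a b (cl a b z) = cl a b z := by
  rcases le_total a b with h | h
  · exact cl_of_mem (cl_mem h z)
  · simp only [cl, max_eq_left ((min_le_right _ _).trans h)]

theorem continuous_cl (a b : ℝ) : Continuous (cl a b) := by unfold cl; fun_prop

open Classical in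
/-- a continuous function on `[a, b]`, extended by constants -/
noncomputable def clB (a b : ℝ) (f : ℝ → ℂ) : BC :=
  if h : a ≤ b ∧ ContinuousOn f (Icc a b) then
    BoundedContinuousFunction.ofNormedAddCommGroup (fun z => f (cl a b z))
      (h.2.comp_continuous (continuous_cl a b) (cl_mem h.1))
      (isCompact_Icc.exists_bound_of_continuousOn h.2).choose
      fun z => (isCompact_Icc.exists_bound_of_continuousOn h.2).choose_spec _ (cl_mem h.1 z)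
  else 0

theorem clB_apply {a b : ℝ} {f : ℝ → ℂ} (hab : a ≤ b) (hf : ContinuousOn f (Icc a b)) (z : ℝ) :
    clB a b f z = f (cl a b z) := by
  rw [clB, dif_pos ⟨hab, hf⟩]; rfl

theorem clB_cl (a b : ℝ) (f : ℝ → ℂ) (z : ℝ) : clB a b f z = clB a b f (cl a b z) := by
  by_cases h : a ≤ b ∧ ContinuousOn f (Icc a b)
  · rw [clB_apply h.1 h.2, clB_apply h.1 h.2, cl_of_mem (cl_mem h.1 z)]
  · rw [clB, dif_neg h]; rfl

theorem hasDerivAt_int (F : BC) (b z : ℝ) : HasDerivAt (fun x => ∫ s in x..b, F s) (-F z) z :=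
  intervalIntegral.integral_hasDerivAt_left (F.continuous.intervalIntegrable _ _)
    (F.continuous.stronglyMeasurableAtFilter _ _) F.continuous.continuousAt

theorem continuous_int (F : BC) (b : ℝ) : Continuous fun x => ∫ s in x..b, F s :=
  continuous_iff_continuousAt.2 fun z => (hasDerivAt_int F b z).continuousAt

theorem norm_int_le (a b : ℝ) (F : BC) (z : ℝ) : ‖∫ s in (cl a b z)..b, F s‖ ≤ |b - a| * ‖F‖ := by
  refine (intervalIntegral.norm_integral_le_of_norm_le_const fun x _ => F.norm_coe_le_norm x).trans ?_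
  rw [mul_comm]
  refine mul_le_mul_of_nonneg_right ?_ (norm_nonneg _)
  rcases le_total a b with h | h
  · have := cl_mem h z
    rw [abs_of_nonneg (by linarith [this.2]), abs_of_nonneg (by linarith)]
    linarith [this.1]
  · rw [cl, max_eq_left ((min_le_right _ _).trans h)]

/-- integration from `z` to `b` -/
noncomputable def JJ (a b : ℝ) : BC →L[ℂ] BC :=
  LinearMap.mkContinuous
    { toFun := fun F => BoundedContinuousFunction.ofNormedAddCommGroup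
        (fun z => ∫ s in (cl a b z)..b, F s) ((continuous_int F b).comp (continuous_cl a b))
        (|b - a| * ‖F‖) (norm_int_le a b F)
      map_add' := fun F G => by
        ext z
        simp only [BoundedContinuousFunction.coe_ofNormedAddCommGroup,
          BoundedContinuousFunction.coe_add, Pi.add_apply]
        exact intervalIntegral.integral_add (F.continuous.intervalIntegrable _ _)
          (G.continuous.intervalIntegrable _ _)
      map_smul' := fun c F => by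
        ext z
        simp only [BoundedContinuousFunction.coe_ofNormedAddCommGroup,
          BoundedContinuousFunction.coe_smul, RingHom.id_apply]
        exact intervalIntegral.integral_smul c _ }
    |b - a| fun F => BoundedContinuousFunction.norm_ofNormedAddCommGroup_le _ (by positivity)
      (norm_int_le a b F)

theorem JJ_apply (a b : ℝ) (F : BC) (z : ℝ) : JJ a b F z = ∫ s in (cl a b z)..b, F s := rfl

theorem JJ_cl (a b : ℝ) (F : BC) (z : ℝ) : JJ a b F z = JJ a b F (cl a b z) := by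
  rw [JJ_apply, JJ_apply, cl_cl]

theorem JJ_der (a b : ℝ) (F : BC) : Der a b (JJ a b F) fun z => -F z := fun z hz =>
  (hasDerivAt_int F b z).hasDerivWithinAt.congr (fun x hx => by rw [JJ_apply, cl_of_mem hx])
    (by rw [JJ_apply, cl_of_mem hz])

theorem JJ_right {a b : ℝ} (hab : a ≤ b) (F : BC) : JJ a b F b = 0 := by
  rw [JJ_apply, cl_of_mem ⟨hab, le_rfl⟩, intervalIntegral.integral_same]

theorem JJ_star (a b : ℝ) (F : BC) : JJ a b (star F) = star (JJ a b F) := by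
  ext z
  simp only [JJ_apply, BoundedContinuousFunction.star_apply]
  exact (Complex.conjCLE : ℂ →L[ℝ] ℂ).intervalIntegral_comp_comm
    (F.continuous.intervalIntegrable _ _)

theorem exists_inv {v : BC} {δ : ℝ} (hδ : 0 < δ) (h : ∀ z, δ ≤ ‖v z‖) :
    IsUnit v ∧ ∀ z, (Ring.inverse v) z = (v z)⁻¹ := by
  have hne : ∀ z, v z ≠ 0 := fun z => norm_pos_iff.1 (hδ.trans_le (h z))
  let w : BC := BoundedContinuousFunction.ofNormedAddCommGroup (fun z => (v z)⁻¹)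
    (v.continuous.inv₀ hne) δ⁻¹ fun z => by rw [norm_inv]; exact inv_anti₀ hδ (h z)
  have h1 : v * w = 1 := by
    ext z
    exact mul_inv_cancel₀ (hne z)
  have hu : IsUnit v := IsUnit.of_mul_eq_one w h1
  refine ⟨hu, fun z => ?_⟩
  have h2 : (Ring.inverse v * v) z = 1 := by rw [Ring.inverse_mul_cancel v hu]; rfl
  exact eq_inv_of_mul_eq_one_left h2

/-! ### The fixed point map -/

section map

variable (Z₀ R : ℝ) (ys : ℂ)

/-- `z` -/
noncomputable def zB : BC := clB Z₀ R fun z => z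
/-- `g = z² - 2` -/
noncomputable def gB : BC := clB Z₀ R fun z => (z : ℂ) ^ 2 - 2
/-- `1 / g` -/
noncomputable def giB : BC := clB Z₀ R fun z => ((z : ℂ) ^ 2 - 2)⁻¹
/-- the weight -/
noncomputable def wB : BC := clB Z₀ R fun z => (be R ys z : ℂ)
/-- the inverse of the weight -/
noncomputable def wiB : BC := clB Z₀ R fun z => (be R ys z : ℂ)⁻¹
/-- `exp (z² / 4)` -/
noncomputable def eB : BC := clB Z₀ R fun z => (Real.exp (z ^ 2 / 4) : ℂ)
/-- `exp (-z² / 4)` -/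
noncomputable def eiB : BC := clB Z₀ R fun z => (Real.exp (-(z ^ 2 / 4)) : ℂ)
/-- the function `B` -/
noncomputable def Bf (α : BC) : BC := wB Z₀ R ys * α
/-- the function `A` -/
noncomputable def Af (B : BC) : BC := 1 - JJ Z₀ R (giB Z₀ R ^ 2 * B)
/-- the function `v` -/
noncomputable def vf (B : BC) (y : ℂ) : BC := 2 + Y0 R y • (gB Z₀ R * Af Z₀ R B)
/-- the function `v' / Y₀` -/
noncomputable def pf (B : BC) : BC := giB Z₀ R * B + 2 * zB Z₀ R * Af Z₀ R B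
/-- the nonlinearity -/
noncomputable def Nf (B : BC) (y : ℂ) : BC :=
  (Y0 R y / 4) • (pf Z₀ R B ^ 2 * Ring.inverse (vf Z₀ R B y) *
    (2 * gB Z₀ R + Y0 R y • (2 * gB Z₀ R * Af Z₀ R B) + (Y0 R y / 2) • (zB Z₀ R * B)))
/-- the new function `B` -/
noncomputable def Bn (B : BC) (y : ℂ) : BC :=
  eB Z₀ R * (BoundedContinuousFunction.const ℝ
    ((Real.exp (-(R ^ 2 / 4)) : ℂ) * (-2 * R * ((R : ℂ) ^ 2 - 2))) - JJ Z₀ R (eiB Z₀ R * Nf Z₀ R B y))
/-- the fixed point map -/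
noncomputable def Tm (q : BC × ℂ) : BC := wiB Z₀ R ys * Bn Z₀ R (Bf Z₀ R ys q.1) q.2

theorem Af_cl (B : BC) (z : ℝ) : Af Z₀ R B z = Af Z₀ R B (cl Z₀ R z) := by
  simp only [Af, BoundedContinuousFunction.coe_sub, BoundedContinuousFunction.coe_one,
    Pi.sub_apply, Pi.one_apply]
  rw [JJ_cl]

theorem vf_cl (B : BC) (y : ℂ) (z : ℝ) :
    vf Z₀ R B y z = vf Z₀ R B y (cl Z₀ R z) := by
  simp only [vf, BoundedContinuousFunction.coe_add, BoundedContinuousFunction.coe_smul,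
    BoundedContinuousFunction.coe_mul, Pi.add_apply, Pi.mul_apply]
  rw [Af_cl, gB, clB_cl]
  rfl

theorem Bn_cl (B : BC) (y : ℂ) (z : ℝ) :
    Bn Z₀ R B y z = Bn Z₀ R B y (cl Z₀ R z) := by
  simp only [Bn, BoundedContinuousFunction.coe_sub, BoundedContinuousFunction.coe_mul,
    Pi.sub_apply, Pi.mul_apply, BoundedContinuousFunction.const_apply]
  rw [JJ_cl, eB, clB_cl]

theorem pf_cl {B : BC} (hB : ∀ z, B z = B (cl Z₀ R z)) (z : ℝ) :
    pf Z₀ R B z = pf Z₀ R B (cl Z₀ R z) := by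
  have : ∀ z, pf Z₀ R B z = giB Z₀ R z * B z + 2 * zB Z₀ R z * Af Z₀ R B z := fun _ => rfl
  rw [this, this, ← hB, ← Af_cl, giB, zB, ← clB_cl, ← clB_cl]

theorem star_clB {f : ℝ → ℂ} (hf : ∀ z, star (f z) = f z) : star (clB Z₀ R f) = clB Z₀ R f := by
  ext z
  rw [BoundedContinuousFunction.star_apply]
  by_cases h : Z₀ ≤ R ∧ ContinuousOn f (Icc Z₀ R)
  · rw [clB_apply h.1 h.2, hf]
  · rw [clB, dif_neg h]; simp

theorem star_zB : star (zB Z₀ R) = zB Z₀ R := star_clB Z₀ R fun z => by simp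
theorem star_gB : star (gB Z₀ R) = gB Z₀ R := star_clB Z₀ R fun z => by simp
theorem star_giB : star (giB Z₀ R) = giB Z₀ R := star_clB Z₀ R fun z => by simp
theorem star_eB : star (eB Z₀ R) = eB Z₀ R := star_clB Z₀ R fun z => Complex.conj_ofReal _
theorem star_eiB : star (eiB Z₀ R) = eiB Z₀ R := star_clB Z₀ R fun z => Complex.conj_ofReal _

theorem star_Y0 (y : ℂ) : star (Y0 R y) = Y0 R (star y) := by simp [Y0]

theorem star_Af (B : BC) : star (Af Z₀ R B) = Af Z₀ R (star B) := by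
  simp only [Af, star_sub, star_one, ← JJ_star, star_mul', star_pow, star_giB]

theorem star_vf (B : BC) (y : ℂ) : star (vf Z₀ R B y) = vf Z₀ R (star B) (star y) := by
  simp only [vf, star_add, star_ofNat, star_smul, star_mul', star_gB, star_Af, star_Y0]

theorem star_pf (B : BC) : star (pf Z₀ R B) = pf Z₀ R (star B) := by
  simp only [pf, star_add, star_ofNat, star_mul', star_giB, star_Af, star_zB]

theorem star_Nf (B : BC) (y : ℂ) : star (Nf Z₀ R B y) = Nf Z₀ R (star B) (star y) := by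
  simp only [Nf, star_add, star_ofNat, star_smul, star_mul', star_gB, star_Af, star_Y0, star_pow,
    star_pf, ← Ring.inverse_star, star_vf, star_zB, star_div₀]

theorem star_Bn (B : BC) (y : ℂ) : star (Bn Z₀ R B y) = Bn Z₀ R (star B) (star y) := by
  have : ∀ c : ℂ, star c = c → star (BoundedContinuousFunction.const ℝ c) =
      BoundedContinuousFunction.const ℝ c := fun c hc => by ext z; exact hc
  rw [Bn, Bn, star_mul', star_sub, ← JJ_star, star_mul', star_eB, star_eiB, star_Nf, this]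
  rw [star_mul', Complex.star_def, Complex.conj_ofReal]
  simp [map_ofNat]

open Classical in
/-- the solution `B` for the tip value `y` -/
noncomputable def BB (y : ℂ) : BC :=
  if h : ∃ B : BC, (∀ z ∈ Icc Z₀ R, ‖B z‖ ≤ 2 * be R y z) ∧ Bn Z₀ R B y = B then h.choose else 0

theorem BB_cl (y : ℂ) (z : ℝ) : BB Z₀ R y z = BB Z₀ R y (cl Z₀ R z) := by
  rw [BB]
  split_ifs with h
  · rw [← h.choose_spec.2]; exact Bn_cl Z₀ R _ y z
  · rfl

end map

namespace Par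

variable {Λ Z₀ R z : ℝ} {ys y : ℂ}

theorem zB_apply (h : Par Λ Z₀ R ys) (hz : z ∈ Icc Z₀ R) : zB Z₀ R z = z := by
  rw [zB, clB_apply h.hR (by fun_prop), cl_of_mem hz]

theorem gB_apply (h : Par Λ Z₀ R ys) (hz : z ∈ Icc Z₀ R) : gB Z₀ R z = (z : ℂ) ^ 2 - 2 := by
  rw [gB, clB_apply h.hR (by fun_prop), cl_of_mem hz]

theorem giB_apply (h : Par Λ Z₀ R ys) (hz : z ∈ Icc Z₀ R) :
    giB Z₀ R z = ((z : ℂ) ^ 2 - 2)⁻¹ := by
  rw [giB, clB_apply (f := fun z : ℝ => ((z : ℂ) ^ 2 - 2)⁻¹) h.hR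
    (ContinuousOn.inv₀ (by fun_prop) fun z hz => h.g_ne hz), cl_of_mem hz]

theorem wB_apply (h : Par Λ Z₀ R ys) (hz : z ∈ Icc Z₀ R) : wB Z₀ R ys z = (be R ys z : ℂ) := by
  rw [wB, clB_apply (f := fun z : ℝ => (be R ys z : ℂ)) h.hR
    (Complex.continuous_ofReal.comp_continuousOn h.continuousOn_be), cl_of_mem hz]

theorem wiB_apply (h : Par Λ Z₀ R ys) (hz : z ∈ Icc Z₀ R) :
    wiB Z₀ R ys z = (be R ys z : ℂ)⁻¹ := by
  rw [wiB, clB_apply (f := fun z : ℝ => (be R ys z : ℂ)⁻¹) h.hR (ContinuousOn.inv₀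
    (Complex.continuous_ofReal.comp_continuousOn h.continuousOn_be) fun z hz => by
      exact_mod_cast (h.be_pos hz).ne'), cl_of_mem hz]

theorem eB_apply (h : Par Λ Z₀ R ys) (hz : z ∈ Icc Z₀ R) :
    eB Z₀ R z = (Real.exp (z ^ 2 / 4) : ℂ) := by
  rw [eB, clB_apply h.hR (by fun_prop), cl_of_mem hz]

theorem eiB_apply (h : Par Λ Z₀ R ys) (hz : z ∈ Icc Z₀ R) :
    eiB Z₀ R z = (Real.exp (-(z ^ 2 / 4)) : ℂ) := by
  rw [eiB, clB_apply h.hR (by fun_prop), cl_of_mem hz]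

theorem Af_der (h : Par Λ Z₀ R ys) (B : BC) :
    Der Z₀ R (Af Z₀ R B) fun z => B z / ((z : ℂ) ^ 2 - 2) ^ 2 := fun z hz => by
  have := (JJ_der Z₀ R (giB Z₀ R ^ 2 * B) z hz).const_sub 1
  refine this.congr_deriv ?_
  simp only [neg_neg, BoundedContinuousFunction.coe_mul, BoundedContinuousFunction.coe_pow,
    Pi.mul_apply, Pi.pow_apply, h.giB_apply hz]
  rw [inv_pow, div_eq_inv_mul]

theorem Af_right (h : Par Λ Z₀ R ys) (B : BC) : Af Z₀ R B R = 1 := by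
  simp [Af, JJ_right h.hR]

theorem vf_apply (h : Par Λ Z₀ R ys) (B : BC) (y : ℂ) (hz : z ∈ Icc Z₀ R) :
    vf Z₀ R B y z = vv R y z (Af Z₀ R B z) := by
  have : vf Z₀ R B y z = 2 + Y0 R y * (gB Z₀ R z * Af Z₀ R B z) := rfl
  rw [this, h.gB_apply hz, vv]; ring

theorem pf_apply (h : Par Λ Z₀ R ys) (B : BC) (hz : z ∈ Icc Z₀ R) :
    pf Z₀ R B z = pp z (Af Z₀ R B z) (B z) := by
  have : pf Z₀ R B z = giB Z₀ R z * B z + 2 * zB Z₀ R z * Af Z₀ R B z := rfl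
  rw [this, h.giB_apply hz, h.zB_apply hz, pp, div_eq_inv_mul]

theorem pre_of (h : Par Λ Z₀ R ys) (hy : ‖y - ys‖ ≤ ys.re / 20) {B : BC}
    (hB : ∀ z ∈ Icc Z₀ R, ‖B z‖ ≤ 16 * be R ys z) : Pre Λ Z₀ R ys y (Af Z₀ R B) B :=
  ⟨h, hy, h.Af_der B, h.Af_right B, hB⟩

theorem Bf_le (h : Par Λ Z₀ R ys) {α : BC} {r : ℝ} (hα : ‖α‖ ≤ r) (hz : z ∈ Icc Z₀ R) :
    ‖Bf Z₀ R ys α z‖ ≤ r * be R ys z := by
  have : Bf Z₀ R ys α z = wB Z₀ R ys z * α z := rfl
  rw [this, h.wB_apply hz, norm_mul, Complex.norm_real, Real.norm_eq_abs,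
    abs_of_pos (h.be_pos hz), mul_comm]
  exact mul_le_mul_of_nonneg_right ((α.norm_coe_le_norm z).trans hα) (h.be_pos hz).le

end Par

namespace Pre

variable {Λ Z₀ R z : ℝ} {ys y : ℂ} {B : BC}

theorem unit (h : Pre Λ Z₀ R ys y (Af Z₀ R B) B) :
    IsUnit (vf Z₀ R B y) ∧ ∀ z, (Ring.inverse (vf Z₀ R B y)) z = (vf Z₀ R B y z)⁻¹ := by
  have hp := h.par
  refine exists_inv (δ := 0.9 * (4 * Λ / R ^ 2))
    (by have := hp.Λ_pos; have := hp.R_pos; positivity) fun z => ?_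
  have hz := cl_mem hp.hR z
  rw [vf_cl, hp.vf_apply B y hz]
  linarith [h.re_ge hz, hp.rho_ge hz, Complex.re_le_norm (vv R y (cl Z₀ R z) (Af Z₀ R B (cl Z₀ R z)))]

theorem Nf_apply (h : Pre Λ Z₀ R ys y (Af Z₀ R B) B) (hz : z ∈ Icc Z₀ R) :
    Nf Z₀ R B y z = NN R y z (Af Z₀ R B z) (B z) := by
  have hp := h.par
  have : Nf Z₀ R B y z = Y0 R y / 4 * (pf Z₀ R B z ^ 2 * Ring.inverse (vf Z₀ R B y) z *
    (2 * gB Z₀ R z + Y0 R y * (2 * gB Z₀ R z * Af Z₀ R B z) + Y0 R y / 2 * (zB Z₀ R z * B z))) :=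
    rfl
  rw [this, h.unit.2, hp.vf_apply B y hz, hp.pf_apply B hz, hp.gB_apply hz, hp.zB_apply hz, NN, tt]
  ring

theorem Bn_right (h : Pre Λ Z₀ R ys y (Af Z₀ R B) B) :
    Bn Z₀ R B y R = -2 * R * ((R : ℂ) ^ 2 - 2) := by
  have hp := h.par
  have : Bn Z₀ R B y R = eB Z₀ R R * ((Real.exp (-(R ^ 2 / 4)) : ℂ) *
      (-2 * R * ((R : ℂ) ^ 2 - 2)) - JJ Z₀ R (eiB Z₀ R * Nf Z₀ R B y) R) := rfl
  rw [this, JJ_right hp.hR, hp.eB_apply hp.R_mem, sub_zero, ← mul_assoc, ← Complex.ofReal_mul,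
    ← Real.exp_add, add_neg_cancel, Real.exp_zero, Complex.ofReal_one, one_mul]

theorem Bn_der (h : Pre Λ Z₀ R ys y (Af Z₀ R B) B) :
    Der Z₀ R (Bn Z₀ R B y) fun z => (z / 2 : ℝ) * Bn Z₀ R B y z + NN R y z (Af Z₀ R B z) (B z) := by
  have hp := h.par
  have e : ∀ z ∈ Icc Z₀ R, Bn Z₀ R B y z = (Real.exp (z ^ 2 / 4) : ℂ) *
      ((Real.exp (-(R ^ 2 / 4)) : ℂ) * (-2 * R * ((R : ℂ) ^ 2 - 2)) -
        JJ Z₀ R (eiB Z₀ R * Nf Z₀ R B y) z) := fun z hz => by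
    rw [← hp.eB_apply hz]; rfl
  refine Der.congr (f' := fun z => ((Real.exp (z ^ 2 / 4) * (z / 2) : ℝ) : ℂ) *
      ((Real.exp (-(R ^ 2 / 4)) : ℂ) * (-2 * R * ((R : ℂ) ^ 2 - 2)) -
        JJ Z₀ R (eiB Z₀ R * Nf Z₀ R B y) z) +
      (Real.exp (z ^ 2 / 4) : ℂ) * (- -(eiB Z₀ R * Nf Z₀ R B y) z)) (fun z hz => ?_) e
    fun z hz => ?_
  · have h1 : HasDerivAt (fun z : ℝ => z ^ 2 / 4) (z / 2) z := by
      have := (hasDerivAt_pow 2 z).div_const 4
      refine this.congr_deriv ?_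
      push_cast; ring
    exact h1.exp.ofReal_comp.hasDerivWithinAt.mul ((JJ_der Z₀ R _ z hz).const_sub _)
  · have e2 : (eiB Z₀ R * Nf Z₀ R B y) z = eiB Z₀ R z * Nf Z₀ R B y z := rfl
    rw [e z hz, neg_neg, e2, hp.eiB_apply hz, h.Nf_apply hz, ← mul_assoc (Real.exp (z ^ 2 / 4) : ℂ)
      (Real.exp (-(z ^ 2 / 4)) : ℂ), ← Complex.ofReal_mul, ← Real.exp_add, add_neg_cancel,
      Real.exp_zero]
    push_cast; ring

theorem Bn_le (h : Pre Λ Z₀ R ys y (Af Z₀ R B) B) (hz : z ∈ Icc Z₀ R) :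
    ‖Bn Z₀ R B y z‖ ≤ 2 * be R ys z := h.self_map h.Bn_der h.Bn_right hz

end Pre

namespace Par

variable {Λ Z₀ R z : ℝ} {ys y : ℂ}

theorem norm_wi_le (h : Par Λ Z₀ R ys) {B : BC} {r : ℝ} (hr : 0 ≤ r)
    (hB : ∀ z ∈ Icc Z₀ R, ‖B z‖ ≤ r * be R ys z) (hc : ∀ z, B z = B (cl Z₀ R z)) :
    ‖wiB Z₀ R ys * B‖ ≤ r := by
  refine (BoundedContinuousFunction.norm_le hr).2 fun z => ?_
  have hz := cl_mem h.hR z
  have : (wiB Z₀ R ys * B) z = wiB Z₀ R ys z * B z := rfl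
  rw [this, hc, wiB, clB_cl, ← wiB, h.wiB_apply hz, norm_mul, norm_inv, Complex.norm_real,
    Real.norm_eq_abs, abs_of_pos (h.be_pos hz), inv_mul_le_iff₀ (h.be_pos hz), mul_comm]
  exact hB _ hz

theorem Bf_wi (h : Par Λ Z₀ R ys) {B : BC} (hc : ∀ z, B z = B (cl Z₀ R z)) :
    Bf Z₀ R ys (wiB Z₀ R ys * B) = B := by
  ext z
  have hz := cl_mem h.hR z
  have : Bf Z₀ R ys (wiB Z₀ R ys * B) z = wB Z₀ R ys z * (wiB Z₀ R ys z * B z) := rfl
  rw [this, wiB, wB, clB_cl, clB_cl Z₀ R _ z, ← wiB, ← wB, h.wiB_apply hz, h.wB_apply hz,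
    mul_inv_cancel_left₀ (by exact_mod_cast (h.be_pos hz).ne')]

theorem Tm_le (h : Par Λ Z₀ R ys) (hy : ‖y - ys‖ ≤ ys.re / 20) {α : BC} (hα : ‖α‖ ≤ 16) :
    ‖Tm Z₀ R ys (α, y)‖ ≤ 2 :=
  h.norm_wi_le (by norm_num) (fun _ hz => (h.pre_of hy fun _ hz => h.Bf_le hα hz).Bn_le hz)
    (Bn_cl Z₀ R _ y)

theorem differentiable_Y0 (R : ℝ) : Differentiable ℂ (Y0 R) := by
  unfold Y0; fun_prop

theorem differentiable_Af (Z₀ R : ℝ) : Differentiable ℂ (Af Z₀ R) := by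
  unfold Af; fun_prop

theorem differentiable_pf (Z₀ R : ℝ) : Differentiable ℂ (pf Z₀ R) := by
  have := differentiable_Af Z₀ R
  unfold pf; fun_prop

theorem differentiable_vf (Z₀ R : ℝ) : Differentiable ℂ fun q : BC × ℂ => vf Z₀ R q.1 q.2 := by
  have := differentiable_Af Z₀ R
  have := differentiable_Y0 R
  unfold vf; fun_prop

theorem differentiableAt_Bn (Z₀ R : ℝ) {q : BC × ℂ} (hu : IsUnit (vf Z₀ R q.1 q.2)) :
    DifferentiableAt ℂ (fun q : BC × ℂ => Bn Z₀ R q.1 q.2) q := by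
  have h1 := differentiable_Af Z₀ R
  have h2 := differentiable_Y0 R
  have h3 := differentiable_pf Z₀ R
  have h4 : DifferentiableAt ℂ (fun q : BC × ℂ => Ring.inverse (vf Z₀ R q.1 q.2)) q :=
    (differentiable_vf Z₀ R q).inverse hu
  have h5 : DifferentiableAt ℂ (fun q : BC × ℂ => Nf Z₀ R q.1 q.2) q := by
    unfold Nf; fun_prop
  unfold Bn; fun_prop

theorem differentiableOn_Tm (h : Par Λ Z₀ R ys) :
    DifferentiableOn ℂ (Tm Z₀ R ys) (ball 0 (2 * 8) ×ˢ ball ys (ys.re / 20)) := by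
  rintro ⟨α, y⟩ ⟨hα, hy⟩
  have hα' : ‖α‖ ≤ 16 := by have := mem_ball_zero_iff.1 hα; linarith
  have hy' : ‖y - ys‖ ≤ ys.re / 20 := (mem_ball_iff_norm.1 hy).le
  have hu := (h.pre_of hy' fun _ hz => h.Bf_le hα' hz).unit.1
  have h1 : DifferentiableAt ℂ (fun q : BC × ℂ => (Bf Z₀ R ys q.1, q.2)) (α, y) := by
    unfold Bf; fun_prop
  have h2 := (differentiableAt_Bn Z₀ R (q := (Bf Z₀ R ys α, y)) hu).comp (α, y) h1
  exact (h2.const_mul (wiB Z₀ R ys)).differentiableWithinAt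

/-- the local holomorphic family, with uniqueness in the weighted ball -/
theorem exists_local (h : Par Λ Z₀ R ys) : ∃ ζ : ℂ → BC,
    DifferentiableOn ℂ ζ (ball ys (ys.re / 20)) ∧ ∀ y ∈ ball ys (ys.re / 20),
      (∀ z ∈ Icc Z₀ R, ‖ζ y z‖ ≤ 2 * be R ys z) ∧ Bn Z₀ R (ζ y) y = ζ y ∧
      ∀ B : BC, (∀ z ∈ Icc Z₀ R, ‖B z‖ ≤ 7 * be R ys z) → Bn Z₀ R B y = B → B = ζ y := by
  obtain ⟨ζ, hd, hζ⟩ := Core.exists_fix_param (r := 8) (by norm_num) isOpen_ball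
    h.differentiableOn_Tm fun α hα y hy => by
      have := h.Tm_le (mem_ball_iff_norm.1 hy).le (α := α)
        (by have := mem_ball_zero_iff.1 hα; linarith)
      linarith
  refine ⟨fun y => Bf Z₀ R ys (ζ y), hd.const_mul _, fun y hy => ?_⟩
  obtain ⟨h1, h2, h3, -⟩ := hζ y hy
  refine ⟨fun z hz => h.Bf_le (by linarith) hz, ?_, fun B hB hf => ?_⟩
  · exact (h.Bf_wi (Bn_cl Z₀ R _ y)).symm.trans (congrArg (Bf Z₀ R ys) h2)
  · have hc : ∀ z, B z = B (cl Z₀ R z) := fun z => by rw [← hf]; exact Bn_cl Z₀ R B y z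
    have h4 := h.norm_wi_le (by norm_num) hB hc
    have h5 := h3 (wiB Z₀ R ys * B) (mem_ball_zero_iff.2 (by linarith))
    have h6 : Tm Z₀ R ys (wiB Z₀ R ys * B, y) = wiB Z₀ R ys * B := by
      simp only [Tm, h.Bf_wi hc, hf]
    rw [h6, sub_self, norm_zero, mul_zero, norm_le_zero_iff, sub_eq_zero] at h5
    simp only [← h5, h.Bf_wi hc]

theorem BB_spec (h : Par Λ Z₀ R y) :
    (∀ z ∈ Icc Z₀ R, ‖BB Z₀ R y z‖ ≤ 2 * be R y z) ∧ Bn Z₀ R (BB Z₀ R y) y = BB Z₀ R y := by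
  obtain ⟨ζ, -, hζ⟩ := h.exists_local
  obtain ⟨h1, h2, -⟩ := hζ y (mem_ball_self (by linarith [h.re_pos]))
  have hex : ∃ B : BC, (∀ z ∈ Icc Z₀ R, ‖B z‖ ≤ 2 * be R y z) ∧ Bn Z₀ R B y = B := ⟨ζ y, h1, h2⟩
  rw [BB, dif_pos hex]
  exact hex.choose_spec

theorem be_le (h : Par Λ Z₀ R ys) (h' : Par Λ Z₀ R y) (hy : ‖y - ys‖ ≤ ys.re / 20)
    (hz : z ∈ Icc Z₀ R) : 2 * be R y z ≤ 7 * be R ys z := by
  have h1 : dd R ys z ≤ 2 * dd R y z := by
    have := norm_sub_le y (y - ys)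
    rw [sub_sub_cancel] at this
    rw [dd, dd]
    linarith [Complex.re_le_norm ys, h.frac_nonneg hz, norm_nonneg y]
  have h2 : 3500000 / (R ^ 2 * dd R y z) ≤ 2 * (3500000 / (R ^ 2 * dd R ys z)) := by
    rw [← mul_div_assoc, div_le_div_iff₀ (h'.Rdd_pos hz) (h.Rdd_pos hz)]
    nlinarith [mul_le_mul_of_nonneg_left h1 (sq_nonneg R)]
  have h3 : 0 < 3500000 / (R ^ 2 * dd R ys z) := div_pos (by norm_num) (h.Rdd_pos hz)
  have h4 := ex_pos R z
  have h5 := pow_pos (h.z_pos hz) 3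
  have h6 : 2 * lm R y z ≤ 7 * lm R ys z := by rw [lm, lm]; linarith
  rw [be, be]
  nlinarith

theorem star_BB (h : Par Λ Z₀ R y) (hy : star y = y) : star (BB Z₀ R y) = BB Z₀ R y := by
  obtain ⟨ζ, -, hζ⟩ := h.exists_local
  obtain ⟨-, -, h3⟩ := hζ y (mem_ball_self (by linarith [h.re_pos]))
  obtain ⟨h1, h2⟩ := h.BB_spec
  have h7 : ∀ z ∈ Icc Z₀ R, ‖BB Z₀ R y z‖ ≤ 7 * be R y z := fun z hz => by
    linarith [h1 z hz, h.be_pos hz]
  rw [h3 (star (BB Z₀ R y)) (fun z hz => by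
    rw [BoundedContinuousFunction.star_apply, norm_star]; exact h7 z hz) (by
      rw [← hy, ← star_Bn, hy, h2]), ← h3 _ h7 h2]

end Par

theorem par_of_mem {Λ Z₀ R : ℝ} {y : ℂ} (hΛ : 5000000000 ≤ Λ) (hZ : 0 < Z₀) (hZ2 : 2 * Λ ≤ Z₀ ^ 2)
    (hR : Z₀ ≤ R) (hy : y ∈ D Λ R) : Par Λ Z₀ R y := by
  have h1 : ‖y - 4‖ < 4 - 4 * Λ / R ^ 2 := mem_ball_iff_norm.1 hy
  have h2 : 0 ≤ 4 * Λ / R ^ 2 := by positivity
  refine ⟨hΛ, hZ, hZ2, hR, by linarith, ?_⟩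
  have h3 := (Complex.abs_re_le_norm (y - 4)).trans h1.le
  rw [abs_le] at h3
  have h4 := h3.1
  simp only [Complex.sub_re, Complex.re_ofNat] at h4
  linarith

theorem differentiableOn_BB {Λ Z₀ R : ℝ} (hΛ : 5000000000 ≤ Λ) (hZ : 0 < Z₀)
    (hZ2 : 2 * Λ ≤ Z₀ ^ 2) (hR : Z₀ ≤ R) : DifferentiableOn ℂ (BB Z₀ R) (D Λ R) := by
  intro ys hys
  have h := par_of_mem hΛ hZ hZ2 hR hys
  obtain ⟨ζ, hd, hζ⟩ := h.exists_local
  have hb : ball ys (ys.re / 20) ∈ 𝓝 ys := ball_mem_nhds _ (by linarith [h.re_pos])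
  refine ((hd.differentiableAt hb).congr_of_eventuallyEq ?_).differentiableWithinAt
  filter_upwards [hb, isOpen_ball.mem_nhds hys] with y hy hy'
  have h' := par_of_mem hΛ hZ hZ2 hR hy'
  exact (hζ y hy).2.2 _ (fun z hz => (h'.BB_spec.1 z hz).trans
    (h.be_le h' (mem_ball_iff_norm.1 hy).le hz)) h'.BB_spec.2

/-! ### The solution -/

/-- a fixed point -/
structure Fix (Λ Z₀ R : ℝ) (y : ℂ) (A B : ℝ → ℂ) : Prop extends Pre Λ Z₀ R y y A B where
  hB' : Der Z₀ R B fun z => (z / 2 : ℝ) * B z + NN R y z (A z) (B z)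
  hBR : B R = -2 * R * ((R : ℂ) ^ 2 - 2)
  hB2 : ∀ z ∈ Icc Z₀ R, ‖B z‖ ≤ 2 * be R y z

theorem Par.fix {Λ Z₀ R : ℝ} {y : ℂ} (h : Par Λ Z₀ R y) :
    Fix Λ Z₀ R y (Af Z₀ R (BB Z₀ R y)) (BB Z₀ R y) := by
  obtain ⟨h1, h2⟩ := h.BB_spec
  have hp := h.pre_of (y := y) (by simp only [sub_self, norm_zero]; linarith [h.re_pos])
    (B := BB Z₀ R y) fun z hz => by linarith [h1 z hz, h.be_pos hz]
  refine ⟨hp, ?_, ?_, h1⟩
  · have := hp.Bn_der
    rwa [h2] at this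
  · have := hp.Bn_right
    rwa [h2] at this

theorem hasDerivAt_z (z : ℝ) : HasDerivAt (fun z : ℝ => (z : ℂ)) 1 z :=
  (hasDerivAt_id z).ofReal_comp

theorem hasDerivAt_g (z : ℝ) :
    HasDerivAt (fun z : ℝ => ((z : ℂ) ^ 2 - 2 : ℂ)) (2 * (z : ℂ)) z := by
  have := ((hasDerivAt_z z).pow 2).sub_const 2
  refine this.congr_deriv ?_
  push_cast; ring

namespace Fix

variable {Λ Z₀ R z : ℝ} {y : ℂ} {A B : ℝ → ℂ}

theorem v_der (h : Fix Λ Z₀ R y A B) :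
    Der Z₀ R (fun z => vv R y z (A z)) fun z => Y0 R y * pp z (A z) (B z) := fun z hz => by
  have := (((hasDerivAt_g z).hasDerivWithinAt.mul_const (Y0 R y)).mul (h.hA z hz)).const_add 2
  refine this.congr_deriv ?_
  have := h.par.g_ne hz
  simp only [pp]; field_simp; ring

theorem Fv_eq (h : Fix Λ Z₀ R y A B) (hz : z ∈ Icc Z₀ R) :
    Fv z (vv R y z (A z)) (Y0 R y * pp z (A z) (B z)) = Y0 R y * (z / 2 * (B z / ((z : ℂ) ^ 2 - 2)) +
      NN R y z (A z) (B z) / ((z : ℂ) ^ 2 - 2) + 2 * A z) := by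
  have h1 := h.par.g_ne hz
  have h2 := h.v_ne hz
  have e : 2 - vv R y z (A z) + z * (Y0 R y * pp z (A z) (B z)) / 2 =
      2 * Y0 R y * A z + z * Y0 R y * B z / (2 * ((z : ℂ) ^ 2 - 2)) := by
    rw [vv, pp]; field_simp; ring
  rw [Fv, e, NN, tt]
  generalize vv R y z (A z) = v at h2 ⊢
  generalize pp z (A z) (B z) = p
  field_simp; ring

theorem p_der (h : Fix Λ Z₀ R y A B) :
    Der Z₀ R (fun z => Y0 R y * pp z (A z) (B z))
      fun z => Fv z (vv R y z (A z)) (Y0 R y * pp z (A z) (B z)) := fun z hz => by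
  have hg := h.par.g_ne hz
  have := (((h.hB' z hz).div (hasDerivAt_g z).hasDerivWithinAt hg).add
    (((hasDerivAt_z z).hasDerivWithinAt.const_mul 2).mul (h.hA z hz))).const_mul (Y0 R y)
  refine this.congr_deriv ?_
  simp only [h.Fv_eq hz]
  push_cast
  field_simp; ring

theorem Y_le_c (h : Fix Λ Z₀ R y A B) : 0.99 * ‖Y0 R y‖ ≤ ‖Y0 R y * A Z₀‖ := by
  rw [norm_mul, mul_comm]
  exact mul_le_mul_of_nonneg_left (h.A_ge h.par.Z_mem) (norm_nonneg _)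

theorem lm_le' (h : Fix Λ Z₀ R y A B) (hz : z ∈ Icc Z₀ R) :
    lm R y z ≤ 10500000 * (1 / (R ^ 2 * ‖vv R y z (A z)‖) + ex R z) := by
  have h1 := h.le_dd hz
  have h2 : 0 < R ^ 2 * ‖vv R y z (A z)‖ :=
    mul_pos (pow_pos h.par.R_pos 2) (norm_pos_iff.2 (h.v_ne hz))
  have h3 : 3500000 / (R ^ 2 * dd R y z) ≤ 10500000 * (1 / (R ^ 2 * ‖vv R y z (A z)‖)) := by
    rw [mul_one_div, div_le_div_iff₀ (h.par.Rdd_pos hz) h2]
    nlinarith [mul_le_mul_of_nonneg_left h1 (sq_nonneg R)]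
  rw [lm]
  linarith [ex_pos R z]

theorem NNg_le (h : Fix Λ Z₀ R y A B) (hz : z ∈ Icc Z₀ R) :
    ‖NN R y z (A z) (B z) / ((z : ℂ) ^ 2 - 2)‖ ≤ z ^ 2 * lm R y z := by
  have hp := h.par
  have hd := hp.dd_pos hz
  have hR := hp.R_pos
  have hz0 := hp.z_pos hz
  rw [norm_div, hp.norm_g hz, div_eq_mul_one_div]
  calc _ ≤ 370000 * (6.5 / R ^ 2) * z ^ 4 / dd R y z * (1.001 / z ^ 2) := by
        refine mul_le_mul ((h.NN_le hz).trans ?_) (hp.div_g hz) (one_div_pos.2 (hp.g_pos hz)).le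
          (by positivity)
        gcongr; exact h.normY
    _ = z ^ 2 * (2407405 / (R ^ 2 * dd R y z)) := by field_simp; ring
    _ ≤ z ^ 2 * lm R y z := by
        have h3 : 2407405 / (R ^ 2 * dd R y z) ≤ 3500000 / (R ^ 2 * dd R y z) := by
          gcongr; norm_num
        have := ex_pos R z
        exact mul_le_mul_of_nonneg_left (by rw [lm]; linarith) (by positivity)

theorem sol (h : Fix Λ Z₀ R y A B) : Sol 200000000 Λ Z₀ R y (Y0 R y * A Z₀)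
    (fun z => vv R y z (A z)) fun z => Y0 R y * pp z (A z) (B z) := by
  have hp := h.par
  have hc := h.Y_le_c
  have hY := norm_nonneg (Y0 R y)
  refine ⟨h.v_der, h.p_der, ?_, ?_, ?_, ?_, fun z hz => ?_, fun z hz => ?_, fun z hz => ?_,
    fun z hz => ?_, fun z hz => ?_, fun z hz => ?_, fun z hz => ?_, fun z hz => ?_, fun z hz => ?_⟩
  · have := hp.g_ne hp.R_mem
    simp only [vv, h.hA1, Y0]; field_simp; ring
  · have := hp.g_ne hp.R_mem
    simp only [pp, h.hA1, h.hBR]; field_simp; ring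
  · simp only [vv]; ring
  · rw [norm_mul]
    calc _ ≤ 6.5 / R ^ 2 * 1.01 := by
          have := hp.R_pos
          gcongr
          · exact h.normY
          · exact h.A_le hp.Z_mem
      _ = 6.565 / R ^ 2 := by ring
      _ ≤ 7 / R ^ 2 := by gcongr; norm_num
  · refine (h.drift hz).trans (mul_le_mul_of_nonneg_right ?_ (hp.rho_pos hz).le)
    have := hp.Λ_pos
    gcongr; norm_num
  · have h1 := h.re_ge hz
    have h2 := pow_le_pow_left₀ (norm_nonneg _) (h.norm_le hz) 2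
    have h3 := hp.v0_sq hz
    have h4 := norm_pos_iff.2 (h.v_ne hz)
    rw [Complex.inv_re, Complex.normSq_eq_norm_sq, le_div_iff₀ (by positivity)]
    nlinarith [hp.rho_pos hz]
  · nlinarith [mul_le_mul_of_nonneg_left (h.re_ge hz) (sq_nonneg z), hp.rho_sq hz, hp.Λ_pos]
  · linarith [h.re_ge hz, hp.rho_ge' hz, hp.frac_nonneg hz]
  · have := h.dd_le hz
    rw [dd] at this
    linarith [norm_nonneg (vv R y z (A z))]
  · have e : vv R y z (A z) - 2 - Y0 R y * A Z₀ * ((z : ℂ) ^ 2 - 2) =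
        ((z : ℂ) ^ 2 - 2) * (Y0 R y * ((A z - 1) - (A Z₀ - 1))) := by rw [vv]; ring
    rw [e, norm_mul, hp.norm_g hz, norm_mul]
    have h1 : ‖A z - 1 - (A Z₀ - 1)‖ ≤ 1 / 50 := by
      linarith [norm_sub_le (A z - 1) (A Z₀ - 1), h.A_near' hz, h.A_near' hp.Z_mem]
    have h2 : ‖Y0 R y‖ * ‖A z - 1 - (A Z₀ - 1)‖ ≤ ‖Y0 R y * A Z₀‖ / 2 := by
      nlinarith [mul_le_mul_of_nonneg_left h1 hY]
    nlinarith [mul_le_mul_of_nonneg_left h2 (hp.g_pos hz).le]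
  · rw [norm_mul]
    have h1 := mul_le_mul_of_nonneg_left (h.pp_le hz) hY
    have h2 := mul_le_mul_of_nonneg_right hc (hp.z_pos hz).le
    nlinarith [mul_nonneg hY (hp.z_pos hz).le]
  · have hg := hp.g_ne hz
    have e : ((z : ℂ) ^ 2 - 2) * (Y0 R y * pp z (A z) (B z)) - 2 * z * (vv R y z (A z) - 2) =
        Y0 R y * B z := by rw [vv, pp]; field_simp; ring
    rw [e, norm_mul]
    have h1 := h.lm_le' hz
    have h3 := pow_pos (hp.z_pos hz) 3
    set w := 1 / (R ^ 2 * ‖vv R y z (A z)‖) + ex R z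
    have hw : 0 ≤ w := by linarith [hp.lm_pos hz]
    have h2 : ‖B z‖ ≤ 21000000 * (z ^ 3 * w) := by
      have := h.hB2 z hz
      rw [be] at this
      nlinarith
    calc _ ≤ ‖Y0 R y‖ * (21000000 * (z ^ 3 * w)) := by gcongr
      _ ≤ 200000000 * (0.99 * ‖Y0 R y‖) * (z ^ 3 * w) := by
          nlinarith [mul_nonneg hY (mul_nonneg h3.le hw)]
      _ ≤ 200000000 * ‖Y0 R y * A Z₀‖ * (z ^ 3 * w) := by gcongr
      _ = _ := by ring
  · rw [h.Fv_eq hz, norm_mul]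
    have h1 := h.lm_le' hz
    have hz0 := hp.z_pos hz
    set w := 1 / (R ^ 2 * ‖vv R y z (A z)‖) + ex R z
    have hw : 0 ≤ w := by linarith [hp.lm_pos hz]
    have h2 : ‖(z : ℂ) / 2 * (B z / ((z : ℂ) ^ 2 - 2))‖ ≤ 8.5 * (z ^ 2 * lm R y z) := by
      rw [norm_mul, norm_div, hp.norm_z hz, Complex.norm_two]
      nlinarith [mul_le_mul_of_nonneg_left (h.Bg_le hz) hz0.le]
    have h3 : ‖2 * A z‖ ≤ 2.02 := by
      rw [norm_mul, Complex.norm_two]; linarith [h.A_le hz]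
    have h4 := norm_add₃_le (a := (z : ℂ) / 2 * (B z / ((z : ℂ) ^ 2 - 2)))
      (b := NN R y z (A z) (B z) / ((z : ℂ) ^ 2 - 2)) (c := 2 * A z)
    have h5 := h.NNg_le hz
    have h6 := mul_le_mul_of_nonneg_left h1 (sq_nonneg z)
    have h7 : 0 ≤ z ^ 2 * w := by positivity
    calc _ ≤ ‖Y0 R y‖ * (100000000 * (1 + z ^ 2 * w)) := by
          gcongr; linarith
      _ ≤ 200000000 * (0.99 * ‖Y0 R y‖) * (1 + z ^ 2 * w) := by
          nlinarith [mul_nonneg hY h7]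
      _ ≤ _ := by gcongr

end Fix

/-- the solution `v` -/
noncomputable def VV (Z₀ R : ℝ) (y : ℂ) : BC := vf Z₀ R (BB Z₀ R y) y
/-- its derivative -/
noncomputable def PP (Z₀ R : ℝ) (y : ℂ) : BC := Y0 R y • pf Z₀ R (BB Z₀ R y)
/-- its parameter -/
noncomputable def cc (Z₀ R : ℝ) (y : ℂ) : ℂ := Y0 R y * Af Z₀ R (BB Z₀ R y) Z₀

theorem Sol.congr {C Λ Z₀ R : ℝ} {y c : ℂ} {v p v' p' : ℝ → ℂ} (h : Sol C Λ Z₀ R y c v p)
    (hR : Z₀ ≤ R) (hv : ∀ z ∈ Icc Z₀ R, v' z = v z) (hp : ∀ z ∈ Icc Z₀ R, p' z = p z) :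
    Sol C Λ Z₀ R y c v' p' := by
  refine ⟨Der.congr h.d0 hv hp, Der.congr h.d1 hp fun z hz => by rw [hv z hz, hp z hz],
    (hv R ⟨hR, le_rfl⟩).trans h.tip, (hp R ⟨hR, le_rfl⟩).trans h.neu,
    (hv Z₀ ⟨le_rfl, hR⟩).trans h.par, h.c_le, ?_, ?_, ?_, ?_, ?_, ?_, ?_, ?_, ?_⟩ <;>
    intro z hz <;> simp only [hv z hz, hp z hz]
  exacts [h.near z hz, h.re_inv z hz, h.re_ge z hz, h.re_ge' z hz, h.norm_ge z hz, h.cmp z hz,
    h.b1 z hz, h.bq z hz, h.b2 z hz]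

theorem Sol.mono {C C' Λ Z₀ R : ℝ} {y c : ℂ} {v p : ℝ → ℂ} (h : Sol C Λ Z₀ R y c v p)
    (hC : C ≤ C') (hp : Par Λ Z₀ R y) : Sol C' Λ Z₀ R y c v p := by
  refine ⟨h.d0, h.d1, h.tip, h.neu, h.par, h.c_le, fun z hz => (h.near z hz).trans ?_, h.re_inv,
    h.re_ge, h.re_ge', h.norm_ge, h.cmp, fun z hz => (h.b1 z hz).trans ?_,
    fun z hz => (h.bq z hz).trans ?_, fun z hz => (h.b2 z hz).trans ?_⟩
  · have := hp.rho_pos hz
    have := hp.Λ_pos
    gcongr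
  · have := hp.z_pos hz
    gcongr
  · have := hp.z_pos hz
    have := ex_pos R z
    gcongr
  · have := ex_pos R z
    gcongr

theorem Par.VV_apply {Λ Z₀ R z : ℝ} {y : ℂ} (h : Par Λ Z₀ R y) (hz : z ∈ Icc Z₀ R) :
    VV Z₀ R y z = vv R y z (Af Z₀ R (BB Z₀ R y) z) := h.vf_apply _ _ hz

theorem Par.sol {Λ Z₀ R : ℝ} {y : ℂ} (h : Par Λ Z₀ R y) :
    Sol 200000000 Λ Z₀ R y (cc Z₀ R y) (VV Z₀ R y) (PP Z₀ R y) :=
  h.fix.sol.congr h.hR (fun _ hz => h.VV_apply hz) fun z hz => by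
    rw [← h.pf_apply _ hz]; rfl

theorem differentiableOn_A {Λ Z₀ R : ℝ} (hΛ : 5000000000 ≤ Λ) (hZ : 0 < Z₀)
    (hZ2 : 2 * Λ ≤ Z₀ ^ 2) (hR : Z₀ ≤ R) (z : ℝ) :
    DifferentiableOn ℂ (fun y => Af Z₀ R (BB Z₀ R y) z) (D Λ R) :=
  (BoundedContinuousFunction.evalCLM ℂ z : BC →L[ℂ] ℂ).differentiable.comp_differentiableOn
    ((Par.differentiable_Af Z₀ R).comp_differentiableOn (differentiableOn_BB hΛ hZ hZ2 hR))

theorem fam {C Λ Z₀ R₀ : ℝ} (hC : 200000000 ≤ C) (hΛ : 5000000000 ≤ Λ) (hZ : 0 < Z₀)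
    (hZ2 : 2 * Λ ≤ Z₀ ^ 2) (hR : Z₀ + 10 ≤ R₀) (hR' : 100 * Λ ≤ R₀ ^ 2) :
    Fam C Λ Z₀ R₀ (VV Z₀) (PP Z₀) (cc Z₀) := by
  have hle : ∀ R, R₀ ≤ R → Z₀ ≤ R := fun R h => by linarith
  refine ⟨⟨hR, hR'⟩, fun R h y hy => ?_, fun R y z => vf_cl Z₀ R _ y z, fun R y z => ?_,
    fun R h => ?_, fun R h => ?_, fun R h => ?_, fun R h y hy him => ?_⟩
  · have hp := par_of_mem hΛ hZ hZ2 (hle R h) hy
    exact hp.sol.mono hC hp
  · exact congrArg (Y0 R y * ·) (pf_cl Z₀ R (BB_cl Z₀ R y) z)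
  · have h1 : DifferentiableOn ℂ (fun y : ℂ => (BB Z₀ R y, y)) (D Λ R) :=
      (differentiableOn_BB hΛ hZ hZ2 (hle R h)).prodMk differentiableOn_id
    have h2 := (Par.differentiable_vf Z₀ R).comp_differentiableOn h1
    exact h2
  · exact (Par.differentiable_Y0 R).differentiableOn.smul ((Par.differentiable_pf Z₀ R).comp_differentiableOn
      (differentiableOn_BB hΛ hZ hZ2 (hle R h)))
  · exact (Par.differentiable_Y0 R).differentiableOn.mul (differentiableOn_A hΛ hZ hZ2 (hle R h) Z₀)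
  · have hp := par_of_mem hΛ hZ hZ2 (hle R h) hy
    have hs : star y = y := Complex.conj_eq_iff_im.2 him
    have hB := hp.star_BB hs
    have key : ∀ F : BC, star F = F → ∀ z, (F z).im = 0 := fun F hF z =>
      Complex.conj_eq_iff_im.1 (by
        have := congrArg (fun G : BC => G z) hF
        exact this)
    refine ⟨Complex.conj_eq_iff_im.1 ?_, fun z => ⟨key _ ?_ z, key _ ?_ z⟩⟩
    · have h1 : star (Af Z₀ R (BB Z₀ R y) Z₀) = Af Z₀ R (BB Z₀ R y) Z₀ :=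
        Complex.conj_eq_iff_im.2 (key _ (by rw [star_Af, hB]) Z₀)
      have h2 : star (cc Z₀ R y) = cc Z₀ R y := by rw [cc, star_mul', star_Y0, hs, h1]
      exact h2
    · rw [VV, star_vf, hB, hs]
    · rw [PP, star_smul, star_pf, star_Y0, hB, hs]

end Vale.Agent.P218F.Sym
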