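import Vale.Agent.P218F.SymSpec3
import Mathlib.Analysis.SpecialFunctions.Complex.LogBounds

/-! Block SYM: the approximate first integral and the expansion of the parameter `c`. -/

open Set Filter Topology Metric

namespace Vale.Agent.P218F.Sym

open Vale.Agent.P218F.End

/-- `∫_a^z f ≤ M z`, witnessed by a differentiable function -/
def Prim (a b : ℝ) (f M : ℝ → ℝ) : Prop :=
  ∃ Y Y' : ℝ → ℝ, Der a b Y Y' ∧ ∀ z ∈ Icc a b, f z ≤ Y' z ∧ Y z - Y a ≤ M z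

namespace Prim

variable {a b z : ℝ} {f M f₁ M₁ f₂ M₂ : ℝ → ℝ} {F F' : ℝ → ℂ}

theorem add (h₁ : Prim a b f₁ M₁) (h₂ : Prim a b f₂ M₂) :
    Prim a b (fun z => f₁ z + f₂ z) fun z => M₁ z + M₂ z := by
  obtain ⟨Y₁, Y₁', d₁, e₁⟩ := h₁
  obtain ⟨Y₂, Y₂', d₂, e₂⟩ := h₂
  exact ⟨fun z => Y₁ z + Y₂ z, fun z => Y₁' z + Y₂' z, fun z hz => (d₁ z hz).add (d₂ z hz),
    fun z hz => ⟨add_le_add (e₁ z hz).1 (e₂ z hz).1, by linarith [(e₁ z hz).2, (e₂ z hz).2]⟩⟩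

theorem smul (h : Prim a b f M) {c : ℝ} (hc : 0 ≤ c) :
    Prim a b (fun z => c * f z) fun z => c * M z := by
  obtain ⟨Y, Y', d, e⟩ := h
  exact ⟨fun z => c * Y z, fun z => c * Y' z, fun z hz => (d z hz).const_mul c,
    fun z hz => ⟨mul_le_mul_of_nonneg_left (e z hz).1 hc, by
      have := mul_le_mul_of_nonneg_left (e z hz).2 hc
      linarith⟩⟩

theorem fwd (h : Prim a b f M) (hF : Der a b F F') (hle : ∀ z ∈ Icc a b, ‖F' z‖ ≤ f z)
    (hz : z ∈ Icc a b) : ‖F z - F a‖ ≤ M z := by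
  obtain ⟨Y, Y', d, e⟩ := h
  refine le_trans ?_ (e z hz).2
  exact image_norm_le_of_norm_deriv_right_le_deriv_boundary' (f := fun z => F z - F a) (f' := F')
    (B := fun z => Y z - Y a) (B' := Y') (hF.cont.sub continuousOn_const)
    (fun x hx => ((hF x (Ico_subset_Icc_self hx)).sub_const _).mono_of_mem_nhdsWithin
      (Icc_mem_nhdsGE_of_mem hx)) (by simp) (d.cont.sub continuousOn_const)
    (fun x hx => ((d x (Ico_subset_Icc_self hx)).sub_const _).mono_of_mem_nhdsWithin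
      (Icc_mem_nhdsGE_of_mem hx))
    (fun x hx => (hle x (Ico_subset_Icc_self hx)).trans (e x (Ico_subset_Icc_self hx)).1) hz

theorem bwd (h : Prim a b f M) (hF : Der a b F F') (hle : ∀ z ∈ Icc a b, ‖F' z‖ ≤ f z)
    (hz : z ∈ Icc a b) : ‖F z - F b‖ ≤ M b := by
  obtain ⟨Y, Y', d, e⟩ := h
  have hb : b ∈ Icc a b := ⟨hz.1.trans hz.2, le_rfl⟩
  have h1 : Der a b (fun z => F z - F b) F' := fun z hz => (hF z hz).sub_const _
  have h2 : Der a b (fun z => Y b - Y z) fun z => -Y' z := fun z hz => (d z hz).const_sub _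
  have h3 : Der a b (fun _ => (0 : ℝ)) (fun _ => 0) := fun z _ => hasDerivWithinAt_const _ _ _
  have h4 := fence1 h1 h2 h3 (fun z hz => by
    have := (hle z hz).trans (e z hz).1
    simp only [Complex.ofReal_zero, zero_mul, sub_zero]
    linarith) (by simp) hz
  have h5 := d.mono_of_nonneg (fun z hz => (norm_nonneg _).trans ((hle z hz).trans (e z hz).1))
    ⟨le_rfl, hb.1⟩ hz hz.1
  linarith [(e b hb).2]

end Prim

/-- `-(1 / (z g²))'` -/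
noncomputable def ph (z : ℝ) : ℝ := 1 / (z ^ 2 * (z ^ 2 - 2) ^ 2) + 4 / (z ^ 2 - 2) ^ 3

namespace Par

variable {Λ Z₀ R z : ℝ} {ys : ℂ}

theorem R_le_D (h : Par Λ Z₀ R ys) (z : ℝ) : R ^ 2 ≤ R ^ 2 * dd R ys z + z ^ 2 := by
  rw [h.Rdd_eq]
  have : 0 ≤ R ^ 2 * ‖ys‖ := by positivity
  linarith

theorem D_ge (h : Par Λ Z₀ R ys) (hz : z ∈ Icc Z₀ R) : 1 ≤ R ^ 2 * dd R ys z := by
  linarith [h.Rdd_ge hz, h.hΛ]

theorem p1 (h : Par Λ Z₀ R ys) : Prim Z₀ R (fun z => R ^ 2 / (z * (R ^ 2 * dd R ys z) ^ 2))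
    fun z => 2 / R + 1 / (R ^ 2 * dd R ys z) := by
  have hR := h.R_pos
  refine ⟨fun z => 2 / R ^ 2 * z + 1 / (R ^ 2 * dd R ys z),
    fun z => 2 / R ^ 2 * 1 + 2 * z / (R ^ 2 * dd R ys z) ^ 2,
    Der.of_at fun z hz => ((hasDerivAt_id z).const_mul _).add (h.hasDerivAt_inv_Rdd hz),
    fun z hz => ⟨?_, ?_⟩⟩
  · have h1 := h.R_le_D z
    have hD := h.Rdd_pos hz
    have hz0 := h.z_pos hz
    have hz1 := h.z_ge hz
    have h2 := h.zR hz
    dsimp only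
    set D := R ^ 2 * dd R ys z
    have e : 2 / R ^ 2 * 1 + 2 * z / D ^ 2 = (2 * z * D ^ 2 + 2 * z ^ 2 * R ^ 2) / R ^ 2 /
        (z * D ^ 2) := by field_simp
    rw [e]
    refine div_le_div_of_nonneg_right ?_ (by positivity)
    rw [le_div_iff₀ (by positivity)]
    have h3 : R ^ 2 * R ^ 2 ≤ (D + z ^ 2) * (D + z ^ 2) :=
      mul_le_mul h1 h1 (by positivity) (by positivity)
    have h4 : z ^ 2 * z ^ 2 ≤ z ^ 2 * R ^ 2 := by gcongr
    have h5 : 1 * D ^ 2 ≤ z * D ^ 2 := by gcongr; linarith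
    nlinarith [sq_nonneg (D - z ^ 2)]
  · have h1 : 2 / R ^ 2 * z ≤ 2 / R := by
      rw [div_mul_eq_mul_div, div_le_div_iff₀ (by positivity) hR]
      nlinarith [hz.2]
    have h2 : 0 ≤ 2 / R ^ 2 * Z₀ := by have := h.hZ; positivity
    have h3 := one_div_pos.2 (h.Rdd_pos h.Z_mem)
    linarith

theorem p6 (h : Par Λ Z₀ R ys) : Prim Z₀ R (fun z => ex R z / z) fun z => 8 / z ^ 2 := by
  refine ⟨fun z => 8 * (ex R z / z ^ 2), fun z => 8 * (ex R z * (1 / (4 * z) - 2 / z ^ 3)),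
    Der.of_at fun z hz => (h.hasDerivAt_ex_div hz).const_mul 8, fun z hz => ⟨h.ex_div_le hz, ?_⟩⟩
  have h1 : ex R z / z ^ 2 ≤ 1 / z ^ 2 := div_le_div_of_nonneg_right (h.ex_le hz) (sq_nonneg z)
  have h2 : 0 ≤ ex R Z₀ / Z₀ ^ 2 := div_nonneg (ex_pos _ _).le (sq_nonneg _)
  have h3 : 8 / z ^ 2 = 8 * (1 / z ^ 2) := by ring
  linarith

theorem p7 (h : Par Λ Z₀ R ys) : Prim Z₀ R (fun z => z * ex R z / (R ^ 2 * dd R ys z))
    fun z => 4 / (R ^ 2 * dd R ys z) := by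
  refine ⟨fun z => 4 * (ex R z * (1 / (R ^ 2 * dd R ys z))), fun z => 4 * (z / 4 * ex R z *
    (1 / (R ^ 2 * dd R ys z)) + ex R z * (2 * z / (R ^ 2 * dd R ys z) ^ 2)),
    Der.of_at fun z hz => ((hasDerivAt_ex R z).mul (h.hasDerivAt_inv_Rdd hz)).const_mul 4,
    fun z hz => ⟨?_, ?_⟩⟩
  · have hD := h.Rdd_pos hz
    have hz0 := h.z_pos hz
    have he := ex_pos R z
    have h1 : 0 ≤ ex R z * (2 * z / (R ^ 2 * dd R ys z) ^ 2) := by positivity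
    have h2 : z * ex R z / (R ^ 2 * dd R ys z) =
        4 * (z / 4 * ex R z * (1 / (R ^ 2 * dd R ys z))) := by ring
    linarith
  · have hD := one_div_pos.2 (h.Rdd_pos hz)
    have h1 := mul_le_mul_of_nonneg_right (h.ex_le hz) hD.le
    have h2 := mul_pos (ex_pos R Z₀) (one_div_pos.2 (h.Rdd_pos h.Z_mem))
    have h3 : 4 / (R ^ 2 * dd R ys z) = 4 * (1 / (R ^ 2 * dd R ys z)) := by ring
    linarith

theorem p3 (h : Par Λ Z₀ R ys) :
    Prim Z₀ R (fun z => 1 / (z * (R ^ 2 * dd R ys z))) fun _ => 2 / R := by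
  have hR := h.R_pos
  refine ⟨fun z => 1 / R ^ 2 * (z + 1 / (2 * R) * z ^ 2 + R / 2 * (1 / (R ^ 2 * dd R ys z))),
    fun z => 1 / R ^ 2 * (1 + 1 / (2 * R) * (2 * z) + R / 2 * (2 * z / (R ^ 2 * dd R ys z) ^ 2)),
    Der.of_at fun z hz => ?_, fun z hz => ⟨?_, ?_⟩⟩
  · have h1 : HasDerivAt (fun z : ℝ => z ^ 2) (2 * z) z := by simpa using hasDerivAt_pow 2 z
    exact (((hasDerivAt_id z).add (h1.const_mul _)).add
      ((h.hasDerivAt_inv_Rdd hz).const_mul _)).const_mul _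
  · have h1 := h.R_le_D z
    have hD := h.Rdd_pos hz
    have hz0 := h.z_pos hz
    have hz1 := h.z_ge hz
    dsimp only
    set D := R ^ 2 * dd R ys z
    have e : 1 / R ^ 2 * (1 + 1 / (2 * R) * (2 * z) + R / 2 * (2 * z / D ^ 2)) =
        (z * R * D ^ 2 + z ^ 2 * (D ^ 2 + R ^ 2)) / (R ^ 3 * D) / (z * D) := by
      field_simp; ring
    rw [e]
    refine div_le_div_of_nonneg_right ?_ (by positivity)
    rw [le_div_iff₀ (by positivity)]
    have h3 : R * D * R ^ 2 ≤ R * D * (D + z ^ 2) := by gcongr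
    have h5 : 1 * (R * D ^ 2) ≤ z * (R * D ^ 2) := by gcongr; linarith
    have h6 : z ^ 2 * (R * D) ≤ z ^ 2 * (D ^ 2 + R ^ 2) := by
      gcongr; nlinarith [sq_nonneg (D - R)]
    nlinarith
  · have h1 : 1 / (R ^ 2 * dd R ys z) ≤ 1 := by
      rw [div_le_one (h.Rdd_pos hz)]; exact h.D_ge hz
    have h2 : 1 / (2 * R) * z ^ 2 ≤ R / 2 := by
      rw [div_mul_eq_mul_div, div_le_div_iff₀ (by positivity) two_pos]
      nlinarith [h.zR hz]
    have h3 : z + 1 / (2 * R) * z ^ 2 + R / 2 * (1 / (R ^ 2 * dd R ys z)) ≤ 2 * R := by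
      nlinarith [hz.2]
    have h4 : 0 ≤ 1 / R ^ 2 * (Z₀ + 1 / (2 * R) * Z₀ ^ 2 + R / 2 * (1 / (R ^ 2 * dd R ys Z₀))) := by
      have := h.hZ
      have := h.Rdd_pos h.Z_mem
      positivity
    have h5 : 1 / R ^ 2 * (2 * R) = 2 / R := by field_simp
    have h6 := mul_le_mul_of_nonneg_left h3 (by positivity : 0 ≤ 1 / R ^ 2)
    linarith

theorem p4 (h : Par Λ Z₀ R ys) : Prim Z₀ R (fun z => ex R z / z ^ 3) fun z => 8 / z ^ 4 := by
  refine ⟨fun z => 8 * (ex R z / z ^ 4), fun z => 8 * (ex R z * (1 / (4 * z ^ 3) - 4 / z ^ 5)),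
    Der.of_at fun z hz => ?_, fun z hz => ⟨?_, ?_⟩⟩
  · have hz0 := h.z_pos hz
    have := (hasDerivAt_ex R z).div (hasDerivAt_pow 4 z) (by positivity)
    refine (this.congr_deriv ?_).const_mul 8
    push_cast
    field_simp
  · have hz0 := h.z_pos hz
    have h2 := h.zsq' hz
    have he := ex_pos R z
    have : 8 * (ex R z * (1 / (4 * z ^ 3) - 4 / z ^ 5)) - ex R z / z ^ 3 =
        ex R z * (z ^ 2 - 32) / z ^ 5 := by
      field_simp; ring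
    have h3 : 0 ≤ ex R z * (z ^ 2 - 32) / z ^ 5 :=
      div_nonneg (mul_nonneg he.le (by linarith)) (by positivity)
    linarith
  · have h1 : ex R z / z ^ 4 ≤ 1 / z ^ 4 :=
      div_le_div_of_nonneg_right (h.ex_le hz) (by positivity)
    have h2 : 0 ≤ ex R Z₀ / Z₀ ^ 4 := div_nonneg (ex_pos _ _).le (by positivity)
    have h3 : 8 / z ^ 4 = 8 * (1 / z ^ 4) := by ring
    linarith

theorem p5 {a b : ℝ} (ha : 0 < a) : Prim a b (fun z => 1 / z ^ 3) fun _ => 1 / a ^ 2 := by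
  refine ⟨fun z => -(1 / 2) * (z ^ 2)⁻¹, fun z => 1 / z ^ 3, Der.of_at fun z hz => ?_,
    fun z hz => ⟨le_rfl, ?_⟩⟩
  · have hz0 : 0 < z := ha.trans_le hz.1
    have := ((hasDerivAt_pow 2 z).inv (by positivity)).const_mul (-(1 / 2))
    refine this.congr_deriv ?_
    push_cast
    field_simp
  · have hz0 : 0 < z := ha.trans_le hz.1
    have h1 : 0 < (z ^ 2)⁻¹ := by positivity
    have h2 : 0 < (a ^ 2)⁻¹ := by positivity
    rw [one_div (a ^ 2)]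
    linarith

theorem split_dd (h : Par Λ Z₀ R ys) (hz : z ∈ Icc Z₀ R) :
    1 / dd R ys z ≤ 1 + z ^ 2 / (R ^ 2 * dd R ys z) := by
  have hd := h.dd_pos hz
  have hR := h.R_pos
  have e : 1 / dd R ys z = R ^ 2 / (R ^ 2 * dd R ys z) := by field_simp
  rw [e, div_le_iff₀ (h.Rdd_pos hz), add_mul, div_mul_cancel₀ _ (h.Rdd_pos hz).ne', one_mul]
  exact h.R_le_D z

theorem ph_le (h : Par Λ Z₀ R ys) (hz : z ∈ Icc Z₀ R) : 0 ≤ ph z ∧ ph z ≤ 5.1 / z ^ 6 := by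
  have hz0 := h.z_pos hz
  have hg := h.g_pos hz
  refine ⟨by rw [ph]; positivity, ?_⟩
  have h1 := h.div_g hz
  have h2 := h.div_g2 hz
  have e : ph z = 1 / (z ^ 2 - 2) ^ 2 * (1 / z ^ 2 + 4 * (1 / (z ^ 2 - 2))) := by
    rw [ph]; field_simp
  rw [e]
  calc _ ≤ 1.01 / z ^ 4 * (1 / z ^ 2 + 4 * (1.001 / z ^ 2)) := by gcongr
    _ = 5.05404 / z ^ 6 := by field_simp; ring
    _ ≤ _ := by gcongr; norm_num

theorem hasDerivAt_psi (h : Par Λ Z₀ R ys) (hz : z ∈ Icc Z₀ R) :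
    HasDerivAt (fun z : ℝ => ((z : ℂ) * ((z : ℂ) ^ 2 - 2) ^ 2)⁻¹) (-(ph z : ℂ)) z := by
  have hg := h.g_ne hz
  have hz0 : (z : ℂ) ≠ 0 := by exact_mod_cast (h.z_pos hz).ne'
  have := ((hasDerivAt_z z).mul ((hasDerivAt_g z).pow 2)).inv
    (by simp only [Pi.mul_apply, Pi.pow_apply]; exact mul_ne_zero hz0 (pow_ne_zero 2 hg))
  refine this.congr_deriv ?_
  simp only [ph, Pi.mul_apply, Pi.pow_apply]
  push_cast
  field_simp
  ring

theorem norm_psi (h : Par Λ Z₀ R ys) (hz : z ∈ Icc Z₀ R) :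
    ‖((z : ℂ) * ((z : ℂ) ^ 2 - 2) ^ 2)⁻¹‖ ≤ 1.01 / z ^ 5 := by
  have hz0 := h.z_pos hz
  have hg := h.g_pos hz
  rw [norm_inv, norm_mul, norm_pow, h.norm_g hz, h.norm_z hz]
  calc _ = 1 / z * (1 / (z ^ 2 - 2) ^ 2) := by field_simp
    _ ≤ 1 / z * (1.01 / z ^ 4) := mul_le_mul_of_nonneg_left (h.div_g2 hz) (by positivity)
    _ = _ := by field_simp

theorem ex_Z (h : Par Λ Z₀ R ys) (hR : Z₀ ^ 2 ≤ R) : ex R Z₀ ≤ 16 / R ^ 2 := by
  have h1 := h.z_ge h.R_mem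
  have h2 : R ^ 2 / 16 ≤ (R ^ 2 - Z₀ ^ 2) / 8 := by nlinarith
  have h3 := Real.add_one_le_exp ((R ^ 2 - Z₀ ^ 2) / 8)
  rw [ex, neg_div, Real.exp_neg, inv_eq_one_div, div_le_div_iff₀ (Real.exp_pos _)
    (pow_pos h.R_pos 2)]
  linarith

theorem D_Z (h : Par Λ Z₀ R ys) (hR : Z₀ ^ 2 ≤ R) : R ^ 2 / 2 ≤ R ^ 2 * dd R ys Z₀ := by
  have h1 := h.z_ge h.R_mem
  rw [h.Rdd_eq]
  have : 0 ≤ R ^ 2 * ‖ys‖ := by positivity
  nlinarith

theorem lm_Z (h : Par Λ Z₀ R ys) (hR : Z₀ ^ 2 ≤ R) : lm R ys Z₀ ≤ 7000016 / R ^ 2 := by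
  have h1 : 3500000 / (R ^ 2 * dd R ys Z₀) ≤ 7000000 / R ^ 2 := by
    rw [div_le_div_iff₀ (h.Rdd_pos h.Z_mem) (pow_pos h.R_pos 2)]
    linarith [h.D_Z hR]
  have h2 : 7000016 / R ^ 2 = 7000000 / R ^ 2 + 16 / R ^ 2 := by ring
  rw [lm]
  linarith [h.ex_Z hR]

end Par

/-- the approximate first integral -/
noncomputable def HH (R : ℝ) (y : ℂ) (A B : ℝ → ℂ) (z : ℝ) : ℂ :=
  (A z)⁻¹ - Y0 R y * Complex.log (((z : ℂ) ^ 2 - 2) / vv R y z (A z)) +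
    2 * B z * ((z : ℂ) * ((z : ℂ) ^ 2 - 2) ^ 2)⁻¹ * (A z)⁻¹ ^ 2

/-- the error in the main term of the nonlinearity -/
noncomputable def r1 (R : ℝ) (y : ℂ) (z : ℝ) (A B : ℂ) : ℂ :=
  pp z A B ^ 2 * tt R y z A B - 8 * z ^ 2 * ((z : ℂ) ^ 2 - 2) * A ^ 2

/-- first error term, without the factor `Y₀` -/
noncomputable def E1 (R : ℝ) (y : ℂ) (z : ℝ) (A B : ℂ) : ℂ :=
  (((z : ℂ) ^ 2 - 2) * vv R y z A)⁻¹ *
    (r1 R y z A B * (2 * z * ((z : ℂ) ^ 2 - 2))⁻¹ * A⁻¹ ^ 2 + Y0 R y * B)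

/-- last error term -/
noncomputable def E4 (z : ℝ) (A B : ℂ) : ℂ :=
  4 * B ^ 2 * ((z : ℂ) * ((z : ℂ) ^ 2 - 2) ^ 2)⁻¹ * (((z : ℂ) ^ 2 - 2) ^ 2)⁻¹ * A⁻¹ ^ 3

namespace Fix

variable {Λ Z₀ R z : ℝ} {y : ℂ} {A B : ℝ → ℂ}

theorem A_ne (h : Fix Λ Z₀ R y A B) (hz : z ∈ Icc Z₀ R) : A z ≠ 0 :=
  norm_pos_iff.1 (by linarith [h.A_ge hz])

theorem inv_A_le (h : Fix Λ Z₀ R y A B) (hz : z ∈ Icc Z₀ R) : ‖(A z)⁻¹‖ ≤ 1.011 := by
  rw [norm_inv, inv_eq_one_div, div_le_iff₀ (norm_pos_iff.2 (h.A_ne hz))]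
  linarith [h.A_ge hz]

theorem slit (h : Fix Λ Z₀ R y A B) (hz : z ∈ Icc Z₀ R) :
    ((z : ℂ) ^ 2 - 2) / vv R y z (A z) ∈ Complex.slitPlane := by
  left
  have e : ((z : ℂ) ^ 2 - 2) / vv R y z (A z) = ((z ^ 2 - 2 : ℝ) : ℂ) * (vv R y z (A z))⁻¹ := by
    push_cast; rw [div_eq_mul_inv]
  rw [e, Complex.re_ofReal_mul, Complex.inv_re]
  exact mul_pos (h.par.g_pos hz) (div_pos (h.re_pos hz) (Complex.normSq_pos.2 (h.v_ne hz)))

theorem H_der (h : Fix Λ Z₀ R y A B) : Der Z₀ R (HH R y A B) fun z =>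
    Y0 R y * E1 R y z (A z) (B z) - 2 * B z * ph z * (A z)⁻¹ ^ 2 - E4 z (A z) (B z) := by
  intro z hz
  have hg := h.par.g_ne hz
  have hA := h.A_ne hz
  have hv := h.v_ne hz
  have hz0 : (z : ℂ) ≠ 0 := by exact_mod_cast (h.par.z_pos hz).ne'
  have d1 := (h.hA z hz).inv hA
  have d2 := (((hasDerivAt_g z).hasDerivWithinAt.div (h.v_der z hz) hv).clog_real
    (h.slit hz)).const_mul (Y0 R y)
  have d3 := (((h.hB' z hz).const_mul 2).mul (h.par.hasDerivAt_psi hz).hasDerivWithinAt).mul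
    (d1.pow 2)
  refine ((d1.sub d2).add d3).congr_deriv ?_
  have e : 2 * z * vv R y z (A z) - ((z : ℂ) ^ 2 - 2) * (Y0 R y * pp z (A z) (B z)) =
      4 * z - Y0 R y * B z := by
    rw [vv, pp]; field_simp; ring
  simp only [Pi.div_apply, Pi.mul_apply, Pi.pow_apply, Pi.inv_apply, e, NN, E1, E4, r1]
  generalize vv R y z (A z) = v at hv ⊢
  generalize pp z (A z) (B z) = p
  generalize tt R y z (A z) (B z) = t
  generalize (z : ℂ) ^ 2 - 2 = g at hg ⊢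
  push_cast
  field_simp
  ring

theorem r1_le (h : Fix Λ Z₀ R y A B) (hz : z ∈ Icc Z₀ R) :
    ‖r1 R y z (A z) (B z)‖ ≤ z ^ 4 * (70000 * lm R y z + 9 * ‖Y0 R y‖) := by
  have hz0 := h.par.z_pos hz
  have hl := h.par.lm_pos hz
  have hl2 := h.par.lm_le hz
  have e : r1 R y z (A z) (B z) = B z / ((z : ℂ) ^ 2 - 2) *
      (2 * (2 * z * A z) + B z / ((z : ℂ) ^ 2 - 2)) * tt R y z (A z) (B z) +
      (2 * z * A z) ^ 2 * (tt R y z (A z) (B z) - 2 * ((z : ℂ) ^ 2 - 2)) := by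
    rw [r1, pp]; ring
  have h1 := h.Bg_le hz
  have h2 := h.zA_le hz
  have h3 : ‖2 * (2 * z * A z) + B z / ((z : ℂ) ^ 2 - 2)‖ ≤ 38.04 * z := by
    refine (norm_add_le _ _).trans ?_
    rw [norm_mul, Complex.norm_two]
    nlinarith
  rw [e]
  refine (norm_add_le _ _).trans ?_
  rw [norm_mul, norm_mul, norm_mul, norm_pow]
  calc _ ≤ 17 * z * lm R y z * (38.04 * z) * (107 * z ^ 2) +
        (2.02 * z) ^ 2 * (z ^ 2 * (2.02 * ‖Y0 R y‖ + 52 * lm R y z)) := by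
        gcongr
        · exact h.tt_le hz
        · exact h.tt_near hz
    _ = z ^ 4 * (69406.9408 * lm R y z + 8.242408 * ‖Y0 R y‖) := by ring
    _ ≤ _ := by gcongr <;> norm_num

theorem E1_le (h : Fix Λ Z₀ R y A B) (hz : z ∈ Icc Z₀ R) : ‖E1 R y z (A z) (B z)‖ ≤
    1295000000000 * (R ^ 2 / (z * (R ^ 2 * dd R y z) ^ 2)) +
      370000 * (ex R z / z + z * ex R z / (R ^ 2 * dd R y z)) +
      330 * (1 / (z * (R ^ 2 * dd R y z))) := by
  have hp := h.par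
  have hz0 := hp.z_pos hz
  have hl := hp.lm_pos hz
  have hd := hp.dd_pos hz
  have hg := hp.g_pos hz
  have hR := hp.R_pos
  have he := ex_pos R z
  have hY := norm_nonneg (Y0 R y)
  have h1 : ‖(((z : ℂ) ^ 2 - 2) * vv R y z (A z))⁻¹‖ ≤ 1.001 / z ^ 2 * (10 / dd R y z) := by
    rw [mul_inv, norm_mul, norm_inv, hp.norm_g hz, inv_eq_one_div]
    exact mul_le_mul (hp.div_g hz) (h.inv_le hz) (norm_nonneg _) (by positivity)
  have h2 : ‖(2 * (z : ℂ) * ((z : ℂ) ^ 2 - 2))⁻¹‖ ≤ 1 / (2 * z) * (1.001 / z ^ 2) := by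
    rw [mul_inv, norm_mul, norm_inv, norm_inv, norm_mul, Complex.norm_two, hp.norm_g hz,
      hp.norm_z hz, inv_eq_one_div, inv_eq_one_div]
    exact mul_le_mul_of_nonneg_left (hp.div_g hz) (by positivity)
  have h3 : ‖r1 R y z (A z) (B z) * (2 * z * ((z : ℂ) ^ 2 - 2))⁻¹ * (A z)⁻¹ ^ 2‖ ≤
      z * (36000 * lm R y z + 5 * ‖Y0 R y‖) := by
    rw [norm_mul, norm_mul, norm_pow]
    calc _ ≤ z ^ 4 * (70000 * lm R y z + 9 * ‖Y0 R y‖) * (1 / (2 * z) * (1.001 / z ^ 2)) *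
          1.011 ^ 2 := by
          gcongr
          · exact h.r1_le hz
          · exact h.inv_A_le hz
      _ = z * (35810.009235 * lm R y z + 4.6041440445 * ‖Y0 R y‖) := by field_simp; ring
      _ ≤ _ := by gcongr <;> norm_num
  have h4 : ‖Y0 R y * B z‖ ≤ z * (104 * lm R y z) := by
    rw [norm_mul]
    calc _ ≤ ‖Y0 R y‖ * (16 * be R y z) := by gcongr; exact h.hB z hz
      _ = 16 * (z ^ 2 * ‖Y0 R y‖) * (z * lm R y z) := by rw [be]; ring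
      _ ≤ 16 * 6.5 * (z * lm R y z) := by gcongr; exact h.zY hz
      _ = _ := by ring
  have h5 := h.normY
  rw [E1, norm_mul]
  calc _ ≤ 1.001 / z ^ 2 * (10 / dd R y z) *
        (z * (36000 * lm R y z + 5 * (6.5 / R ^ 2)) + z * (104 * lm R y z)) := by
        gcongr
        refine (norm_add_le _ _).trans (add_le_add (h3.trans ?_) h4)
        gcongr
    _ = 361401.04 * (lm R y z / (z * dd R y z)) + 325.325 * (1 / (z * (R ^ 2 * dd R y z))) := by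
        field_simp; ring
    _ ≤ 370000 * (lm R y z / (z * dd R y z)) + 330 * (1 / (z * (R ^ 2 * dd R y z))) := by
        gcongr <;> norm_num
    _ ≤ _ := by
        have e : lm R y z / (z * dd R y z) = 3500000 * (R ^ 2 / (z * (R ^ 2 * dd R y z) ^ 2)) +
            ex R z / z * (1 / dd R y z) := by rw [lm]; field_simp
        have h6 : ex R z / z * (1 / dd R y z) ≤
            ex R z / z * (1 + z ^ 2 / (R ^ 2 * dd R y z)) := by
          gcongr; exact hp.split_dd hz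
        have e2 : ex R z / z * (1 + z ^ 2 / (R ^ 2 * dd R y z)) =
            ex R z / z + z * ex R z / (R ^ 2 * dd R y z) := by field_simp
        rw [e]
        linarith

theorem E4_le (h : Fix Λ Z₀ R y A B) (hz : z ∈ Icc Z₀ R) :
    ‖E4 z (A z) (B z)‖ ≤ 17 * (lm R y z ^ 2 / z ^ 3) := by
  have hp := h.par
  have hz0 := hp.z_pos hz
  have hl := hp.lm_pos hz
  have hb := hp.be_pos hz
  have h4 : ‖(4 : ℂ)‖ = 4 := by simp
  rw [E4, norm_mul, norm_mul, norm_mul, norm_mul, norm_pow, norm_pow, norm_inv (_ ^ 2), norm_pow,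
    hp.norm_g hz, h4, inv_eq_one_div ((z ^ 2 - 2) ^ 2)]
  calc _ ≤ 4 * (2 * be R y z) ^ 2 * (1.01 / z ^ 5) * (1.01 / z ^ 4) * 1.011 ^ 3 := by
        have := h.hB2 z hz
        have := hp.norm_psi hz
        have := hp.div_g2 hz
        have := h.inv_A_le hz
        have := hp.g_pos hz
        gcongr
    _ = 16.8661592648496 * (lm R y z ^ 2 / z ^ 3) := by rw [be]; field_simp; ring
    _ ≤ _ := by gcongr; norm_num

theorem E3_le (h : Fix Λ Z₀ R y A B) (hz : z ∈ Icc Z₀ R) :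
    ‖2 * B z * ph z * (A z)⁻¹ ^ 2‖ ≤ 21 * (lm R y z / z ^ 3) := by
  have hp := h.par
  have hz0 := hp.z_pos hz
  have hl := hp.lm_pos hz
  have hb := hp.be_pos hz
  rw [norm_mul, norm_mul, norm_mul, norm_pow, Complex.norm_two, Complex.norm_real,
    Real.norm_eq_abs, abs_of_nonneg (hp.ph_le hz).1]
  calc _ ≤ 2 * (2 * be R y z) * (5.1 / z ^ 6) * 1.011 ^ 2 := by
        have := h.hB2 z hz
        have := (hp.ph_le hz).2
        have := (hp.ph_le hz).1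
        have := h.inv_A_le hz
        gcongr
    _ = 20.8512684 * (lm R y z / z ^ 3) := by rw [be]; field_simp; ring
    _ ≤ _ := by gcongr; norm_num

theorem Bt_le (h : Fix Λ Z₀ R y A B) (hz : z ∈ Icc Z₀ R) :
    ‖2 * B z * ((z : ℂ) * ((z : ℂ) ^ 2 - 2) ^ 2)⁻¹ * (A z)⁻¹ ^ 2‖ ≤ 4.2 * (lm R y z / z ^ 2) := by
  have hp := h.par
  have hz0 := hp.z_pos hz
  have hl := hp.lm_pos hz
  have hb := hp.be_pos hz
  rw [norm_mul, norm_mul, norm_mul, norm_pow, Complex.norm_two]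
  calc _ ≤ 2 * (2 * be R y z) * (1.01 / z ^ 5) * 1.011 ^ 2 := by
        gcongr
        · exact h.hB2 z hz
        · exact hp.norm_psi hz
        · exact h.inv_A_le hz
    _ = 4.12936884 * (lm R y z / z ^ 2) := by rw [be]; field_simp; ring
    _ ≤ _ := by gcongr; norm_num

theorem A_sharp (h : Fix Λ Z₀ R y A B) (hz : z ∈ Icc Z₀ R) : ‖A z - 1‖ ≤ 120000000 / R := by
  have hp := h.par
  have hR := hp.R_pos
  have := (((hp.p3.smul (c := 3500000) (by norm_num)).add hp.p6).smul (c := 17)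
    (by norm_num)).bwd h.hA (fun z hz => (h.A'_le hz).trans (le_of_eq (by
      rw [lm, add_div, div_div, mul_comm (R ^ 2 * dd R y z) z, mul_one_div]))) hz
  rw [h.hA1] at this
  refine this.trans ?_
  have h1 : 8 / R ^ 2 ≤ 8 / R := by
    rw [div_le_div_iff₀ (by positivity) hR]
    nlinarith [hp.z_ge hp.R_mem]
  have e : 17 * (3500000 * (2 / R) + 8 / R) = 119000136 / R := by ring
  have h2 : 119000136 / R ≤ 120000000 / R := by gcongr; norm_num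
  linarith

theorem log_gv (h : Fix Λ Z₀ R y A B) (hz : z ∈ Icc Z₀ R) :
    Complex.log (((z : ℂ) ^ 2 - 2) / vv R y z (A z)) =
      (Real.log (z ^ 2 - 2) : ℝ) - Complex.log (vv R y z (A z)) := by
  have e : ((z : ℂ) ^ 2 - 2) / vv R y z (A z) = ((z ^ 2 - 2 : ℝ) : ℂ) * (vv R y z (A z))⁻¹ := by
    push_cast; rw [div_eq_mul_inv]
  rw [e, Complex.log_ofReal_mul (h.par.g_pos hz) (inv_ne_zero (h.v_ne hz)),
    Complex.log_inv _ (Complex.slitPlane_arg_ne_pi (Or.inl (h.re_pos hz))), ← sub_eq_add_neg]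

theorem v_sub_two (h : Fix Λ Z₀ R y A B) (hz : z ∈ Icc Z₀ R) :
    ‖vv R y z (A z) - 2‖ ≤ 6.6 * z ^ 2 / R ^ 2 := by
  have hR := h.par.R_pos
  rw [vv, add_sub_cancel_left, norm_mul, norm_mul, h.par.norm_g hz]
  calc _ ≤ z ^ 2 * (6.5 / R ^ 2) * 1.01 := by
        have := h.normY
        have := h.A_le hz
        gcongr; linarith
    _ = 6.565 * z ^ 2 / R ^ 2 := by ring
    _ ≤ _ := by gcongr; norm_num

theorem log_Z (h : Fix Λ Z₀ R y A B) (hR : Z₀ ^ 2 ≤ R) :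
    ‖Complex.log (vv R y Z₀ (A Z₀)) - (Real.log 2 : ℝ)‖ ≤ 5 / R := by
  have hp := h.par
  have hR0 := hp.R_pos
  have h1 : ‖(vv R y Z₀ (A Z₀) - 2) / 2‖ ≤ 3.3 / R := by
    rw [norm_div, Complex.norm_two, div_le_iff₀ two_pos]
    refine (h.v_sub_two hp.Z_mem).trans ?_
    rw [div_le_iff₀ (by positivity)]
    have : 3.3 / R * 2 * R ^ 2 = 6.6 * R := by field_simp; ring
    rw [this]; linarith
  have h2 : 3.3 / R ≤ 1 / 2 := by
    rw [div_le_iff₀ hR0]; linarith [hp.z_ge hp.R_mem]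
  have e : vv R y Z₀ (A Z₀) = ((2 : ℝ) : ℂ) * (1 + (vv R y Z₀ (A Z₀) - 2) / 2) := by
    push_cast; ring
  have hne : 1 + (vv R y Z₀ (A Z₀) - 2) / 2 ≠ 0 := fun h0 => h.v_ne hp.Z_mem (by rw [e, h0, mul_zero])
  rw [e, Complex.log_ofReal_mul two_pos hne, add_sub_cancel_left]
  refine (Complex.norm_log_one_add_half_le_self (h1.trans h2)).trans ?_
  calc _ ≤ 3 / 2 * (3.3 / R) := by gcongr
    _ = 4.95 / R := by ring
    _ ≤ _ := by gcongr; norm_num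

theorem vv_R (h : Fix Λ Z₀ R y A B) : vv R y R (A R) = y := h.sol.tip

theorem Bt_R (h : Fix Λ Z₀ R y A B) :
    2 * B R * ((R : ℂ) * ((R : ℂ) ^ 2 - 2) ^ 2)⁻¹ * (A R)⁻¹ ^ 2 = -4 / ((R : ℂ) ^ 2 - 2) := by
  have hg := h.par.g_ne h.par.R_mem
  have hR : (R : ℂ) ≠ 0 := by exact_mod_cast h.par.R_pos.ne'
  rw [h.hA1, h.hBR]
  field_simp; ring

end Fix

theorem Par.pE1 {Λ Z₀ R : ℝ} {y : ℂ} (h : Par Λ Z₀ R y) :
    Prim Z₀ R (fun z => 1295000000000 * (R ^ 2 / (z * (R ^ 2 * dd R y z) ^ 2)) +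
      370000 * (ex R z / z + z * ex R z / (R ^ 2 * dd R y z)) +
      330 * (1 / (z * (R ^ 2 * dd R y z))))
    fun z => 1295000000000 * (2 / R + 1 / (R ^ 2 * dd R y z)) +
      370000 * (8 / z ^ 2 + 4 / (R ^ 2 * dd R y z)) + 330 * (2 / R) :=
  ((h.p1.smul (by norm_num)).add ((h.p6.add h.p7).smul (by norm_num))).add
    (h.p3.smul (by norm_num))

theorem Par.lm_div_le {Λ Z₀ R z : ℝ} {y : ℂ} (h : Par Λ Z₀ R y) (hz : z ∈ Icc Z₀ R) :
    lm R y z / z ^ 3 ≤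
      3500000 / R ^ 2 * (1 / z ^ 3 + 1 / (z * (R ^ 2 * dd R y z))) + ex R z / z ^ 3 := by
  have hz0 := h.z_pos hz
  have hd := h.dd_pos hz
  have hR := h.R_pos
  have e : lm R y z / z ^ 3 = 3500000 / R ^ 2 * (1 / z ^ 3 * (1 / dd R y z)) + ex R z / z ^ 3 := by
    rw [lm]; field_simp
  have e2 : 1 / z ^ 3 + 1 / (z * (R ^ 2 * dd R y z)) =
      1 / z ^ 3 * (1 + z ^ 2 / (R ^ 2 * dd R y z)) := by field_simp
  rw [e, e2]
  have := h.split_dd hz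
  gcongr

theorem Par.norm_ell {Λ Z₀ R : ℝ} {y : ℂ} (h : Par Λ Z₀ R y) : ‖ell Z₀ R y‖ ≤ 5 * R := by
  have hR := h.R_pos
  have hR1 := h.z_ge h.R_mem
  have hg := h.g_pos h.R_mem
  have hg0 := h.g_pos h.Z_mem
  have hl : Real.log (R ^ 2) ≤ 2 * R := by
    rw [Real.log_pow]; push_cast; linarith [Real.log_le_self hR.le]
  have h1 : |Real.log (2 * (R ^ 2 - 2) / (Z₀ ^ 2 - 2))| ≤ 2 * R := by
    rw [abs_of_nonneg (Real.log_nonneg (by
      rw [le_div_iff₀ hg0]; linarith [h.zR h.Z_mem]))]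
    refine (Real.log_le_log (by positivity) ?_).trans hl
    rw [div_le_iff₀ hg0]
    nlinarith [h.zsq' h.Z_mem]
  have hy : 0 < ‖y‖ := h.re_pos.trans_le (Complex.re_le_norm y)
  have h2 : |Real.log ‖y‖| ≤ 2 * R := by
    rw [abs_le]
    constructor
    · have h3 : (R ^ 2)⁻¹ ≤ ‖y‖ := by
        rw [inv_le_iff_one_le_mul₀ (by positivity)]
        linarith [h.T_ge, h.hΛ]
      have h4 := Real.log_le_log (by positivity) h3
      rw [Real.log_inv] at h4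
      linarith
    · linarith [Real.log_le_self hy.le, h.norm_le]
  have h3 : ‖Complex.log y‖ ≤ 2 * R + 4 := by
    refine (Complex.norm_le_abs_re_add_abs_im _).trans ?_
    rw [Complex.log_re, Complex.log_im]
    linarith [Complex.abs_arg_le_pi y, Real.pi_le_four]
  rw [ell]
  refine (norm_sub_le _ _).trans ?_
  rw [Complex.norm_real, Real.norm_eq_abs]
  linarith

theorem Fix.H_diff {Λ Z₀ R : ℝ} {y : ℂ} {A B : ℝ → ℂ} (h : Fix Λ Z₀ R y A B) (hR : Z₀ ^ 2 ≤ R) :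
    ‖HH R y A B R - HH R y A B Z₀‖ ≤ 200000000 / R ^ 2 := by
  have hp := h.par
  have hR0 := hp.R_pos
  have hR1 : 10000000000 ≤ R := (hp.zsq' hp.Z_mem).trans hR
  have := ((hp.pE1.smul (c := 6.5 / R ^ 2) (by positivity)).add
    (((((Par.p5 hp.hZ).add hp.p3).smul (c := 3500000 / R ^ 2) (by positivity)).add hp.p4).smul
      (c := 55) (by norm_num))).fwd h.H_der (fun z hz => ?_) hp.R_mem
  · refine this.trans ?_
    have h1 : 1 / (R ^ 2 * dd R y R) ≤ 1 / 20000000000 :=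
      one_div_le_one_div_of_le (by norm_num) (by linarith [hp.Rdd_ge hp.R_mem, hp.hΛ])
    have h2 : 2 / R ≤ 2 / 10000000000 := by gcongr
    have h3 : 8 / R ^ 2 ≤ 1 / 10000000000 := by
      rw [div_le_div_iff₀ (by positivity) (by norm_num)]; nlinarith
    have h4 : 4 / (R ^ 2 * dd R y R) = 4 * (1 / (R ^ 2 * dd R y R)) := by ring
    have h5 : 1 / Z₀ ^ 2 ≤ 1 / 10000000000 :=
      one_div_le_one_div_of_le (by norm_num) (hp.zsq' hp.Z_mem)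
    have h6 : 8 / R ^ 4 ≤ 1 / R ^ 2 := by
      rw [div_le_div_iff₀ (by positivity) (by positivity)]
      nlinarith [hp.zsq' hp.R_mem, sq_nonneg R]
    calc _ ≤ 6.5 / R ^ 2 * 400 + 55 * (3500000 / R ^ 2 * 1 + 1 / R ^ 2) := by
          gcongr <;> linarith
      _ = 192502655 / R ^ 2 := by ring
      _ ≤ _ := by gcongr; norm_num
  · have h1 := h.E3_le hz
    have h2 := h.E4_le hz
    have hz0 := hp.z_pos hz
    have h3 : lm R y z ^ 2 / z ^ 3 ≤ 2 * (lm R y z / z ^ 3) := by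
      rw [← mul_div_assoc]
      gcongr
      nlinarith [hp.lm_pos hz, hp.lm_le hz]
    have h4 := hp.lm_div_le hz
    have h5 : ‖Y0 R y * E1 R y z (A z) (B z)‖ ≤ 6.5 / R ^ 2 * _ :=
      (norm_mul_le _ _).trans (mul_le_mul h.normY (h.E1_le hz) (norm_nonneg _) (by positivity))
    refine (norm_sub_le _ _).trans ((add_le_add (norm_sub_le _ _) le_rfl).trans ?_)
    linarith

theorem Fix.inv_expand {Λ Z₀ R : ℝ} {y : ℂ} {A B : ℝ → ℂ} (h : Fix Λ Z₀ R y A B)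
    (hR : Z₀ ^ 2 ≤ R) : ‖(A Z₀)⁻¹ - (1 - Y0 R y * ell Z₀ R y)‖ ≤ 300000000 / R ^ 2 := by
  have hp := h.par
  have hR0 := hp.R_pos
  have hR1 : 10000000000 ≤ R := (hp.zsq' hp.Z_mem).trans hR
  have hg := hp.g_pos hp.R_mem
  have hg0 := hp.g_pos hp.Z_mem
  have e : (A Z₀)⁻¹ - (1 - Y0 R y * ell Z₀ R y) = -(HH R y A B R - HH R y A B Z₀) -
      Y0 R y * (Complex.log (vv R y Z₀ (A Z₀)) - (Real.log 2 : ℝ)) -
      2 * B Z₀ * ((Z₀ : ℂ) * ((Z₀ : ℂ) ^ 2 - 2) ^ 2)⁻¹ * (A Z₀)⁻¹ ^ 2 +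
      -4 / ((R : ℂ) ^ 2 - 2) := by
    rw [HH, HH, h.Bt_R, h.log_gv hp.R_mem, h.log_gv hp.Z_mem, h.vv_R, h.hA1, ell,
      Real.log_div (by positivity) hg0.ne', Real.log_mul two_ne_zero hg.ne']
    push_cast; ring
  have h1 := h.H_diff hR
  have h2 : ‖Y0 R y * (Complex.log (vv R y Z₀ (A Z₀)) - (Real.log 2 : ℝ))‖ ≤ 6.5 / R ^ 2 * 1 := by
    refine (norm_mul_le _ _).trans (mul_le_mul h.normY ((h.log_Z hR).trans ?_) (norm_nonneg _)
      (by positivity))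
    rw [div_le_one hR0]; linarith
  have h3 := h.Bt_le hp.Z_mem
  have h4 : lm R y Z₀ / Z₀ ^ 2 ≤ 7000016 / R ^ 2 :=
    (div_le_self (hp.lm_pos hp.Z_mem).le (by linarith [hp.zsq' hp.Z_mem])).trans (hp.lm_Z hR)
  have h5 : ‖-4 / ((R : ℂ) ^ 2 - 2)‖ ≤ 4 * (1.001 / R ^ 2) := by
    rw [norm_div, norm_neg, hp.norm_g hp.R_mem, div_eq_mul_one_div]
    have h4 : ‖(4 : ℂ)‖ = 4 := by simp
    rw [h4]
    exact mul_le_mul_of_nonneg_left (hp.div_g hp.R_mem) (by norm_num)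
  rw [e]
  refine (norm_add_le _ _).trans ((add_le_add ((norm_sub_le _ _).trans
    (add_le_add (norm_sub_le _ _) le_rfl)) le_rfl).trans ?_)
  rw [norm_neg]
  calc _ ≤ 200000000 / R ^ 2 + 6.5 / R ^ 2 * 1 + 4.2 * (7000016 / R ^ 2) + 4 * (1.001 / R ^ 2) := by
        linarith
    _ = 229400077.704 / R ^ 2 := by ring
    _ ≤ _ := by gcongr; norm_num

theorem e_proof : EStmt := by
  refine ⟨30000000000, fun Λ Z₀ R y hp hR => ?_⟩
  have h := hp.fix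
  have hR0 := hp.R_pos
  rw [cc]
  set A : ℝ → ℂ := ⇑(Af Z₀ R (BB Z₀ R y))
  have hA := h.A_ne hp.Z_mem
  have e : Y0 R y * A Z₀ - (Y0 R y + Y0 R y ^ 2 * ell Z₀ R y) = Y0 R y *
      ((A Z₀ - 1) * (Y0 R y * ell Z₀ R y) - A Z₀ * ((A Z₀)⁻¹ - (1 - Y0 R y * ell Z₀ R y))) := by
    field_simp; ring
  rw [e, norm_mul]
  have h1 := h.normY
  have h2 := h.A_sharp hp.Z_mem
  have h3 := hp.norm_ell
  have h4 := h.A_le hp.Z_mem
  have h5 := h.inv_expand hR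
  calc _ ≤ 6.5 / R ^ 2 * (120000000 / R * (6.5 / R ^ 2 * (5 * R)) + 1.01 * (300000000 / R ^ 2)) := by
        gcongr
        refine (norm_sub_le _ _).trans ?_
        rw [norm_mul, norm_mul, norm_mul]
        gcongr
    _ = 27319500000 / R ^ 4 := by field_simp; ring
    _ ≤ _ := by gcongr; norm_num

end Vale.Agent.P218F.Sym
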