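import Vale.Agent.P218F.SymSpec

/-! Internal statements of block SYM. -/

open Set Filter Topology Metric
open scoped BoundedContinuousFunction

namespace Vale.Agent.P218F.Sym

/-- two solutions with the same parameter `c` and neighbouring end points -/
def LipRStmt : Prop :=
  ∀ C : ℝ, 1 ≤ C → ∃ C' Λ₁ : ℝ, ∀ (Λ Z₀ R R' : ℝ) (y y' c : ℂ) (v p v' p' : ℝ → ℂ), Λ₁ ≤ Λ →
    0 < Z₀ → 2 * Λ ≤ Z₀ ^ 2 → Z₀ + 10 ≤ R → R ≤ R' → R' ≤ R + 1 →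
    Sol C Λ Z₀ R y c v p → Sol C Λ Z₀ R' y' c v' p' → ∀ z ∈ Icc Z₀ R,
      ‖v' z - v z‖ ≤ C' * ‖c‖ * (R' - R) * R * ex R z ∧
        ‖p' z - p z‖ ≤ C' * ‖c‖ * (R' - R) * R ^ 2 * ex R z

/-- the tip relation at an intermediate point -/
def TipZ (C Λ Z₀ R₀ κ : ℝ) (V : ℝ → ℂ → BC) (cc : ℝ → ℂ → ℂ) : Prop :=
  ∀ R, R₀ ≤ R → ∀ y ∈ D Λ R, ‖y‖ ≤ 1 → ∀ z ∈ Icc (R / 2) R, Z₀ ≤ z →
    ‖-1 / cc R y - (((z : ℂ) ^ 2 - 2) / (2 - V R y z) +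
      Complex.log (((z : ℂ) ^ 2 - 2) / V R y z) + (κ + Real.log 4 : ℝ))‖ ≤
      C / (R ^ 2 * ‖y‖ + (R ^ 2 - z ^ 2)) + C * ex R z + C / R

/-- the inner limit -/
def Tip2Stmt : Prop :=
  ∀ (C Λ Z₀ R₀ κ : ℝ) (V P : ℝ → ℂ → BC) (cc Y : ℝ → ℂ → ℂ), 1 ≤ C → 0 < Z₀ →
    Fam C Λ Z₀ R₀ V P cc → Inv C Λ R₀ cc Y → TipZ C Λ Z₀ R₀ κ V cc → Tip2 Λ κ Y

end Vale.Agent.P218F.Sym
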