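import Vale.Agent.P218F.SymEx

/-! Internal statements of block SYM: the expansion of `cc` and the inverse map. -/

open Set Filter Topology Metric

namespace Vale.Agent.P218F.Sym

/-- the logarithmic drift -/
noncomputable def ell (Z₀ R : ℝ) (y : ℂ) : ℂ :=
  (Real.log (2 * (R ^ 2 - 2) / (Z₀ ^ 2 - 2)) : ℝ) - Complex.log y

/-- second order expansion of the parameter `c` -/
def EStmt : Prop :=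
  ∃ C : ℝ, ∀ (Λ Z₀ R : ℝ) (y : ℂ), Par Λ Z₀ R y → Z₀ ^ 2 ≤ R →
    ‖cc Z₀ R y - (Y0 R y + Y0 R y ^ 2 * ell Z₀ R y)‖ ≤ C / R ^ 4

/-- the inverse map -/
def InvStmt : Prop :=
  ∃ C Λ₀ : ℝ, ∀ C' Λ Z₀ : ℝ, C ≤ C' → C' ≤ Λ → Λ₀ ≤ Λ → 0 < Z₀ → 2 * Λ ≤ Z₀ ^ 2 →
    ∃ (R₁ : ℝ) (Y : ℝ → ℂ → ℂ), ∀ R₀, R₁ ≤ R₀ → Inv C' Λ R₀ (cc Z₀) Y

end Vale.Agent.P218F.Sym
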