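import Vale.Agent.P218F.SymH

/-! Block SYM: the tip relation. -/

open Set Filter Topology Metric
open scoped BoundedContinuousFunction

namespace Vale.Agent.P218F.Sym

open Vale.Agent.P218F.End

theorem der_sub {a b a' b' : ℝ} {f f' : ℝ → ℂ} (h : Der a b f f') (ha : a ≤ a') (hb : b' ≤ b) :
    Der a' b' f f' := fun z hz =>
  (h z (Icc_subset_Icc ha hb hz)).mono (Icc_subset_Icc ha hb)

/-- the solution of `W' = z W / 2 + z² g`, `W R = 0` -/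
noncomputable def WB (Z₀ R : ℝ) : BC := -(eB Z₀ R * JJ Z₀ R (eiB Z₀ R * (zB Z₀ R ^ 2 * gB Z₀ R)))

/-- `∫_z^R W φ` -/
noncomputable def SB (Z₀ R : ℝ) : BC := JJ Z₀ R (WB Z₀ R * clB Z₀ R fun z => (ph z : ℂ))

/-- the constant of the tip relation -/
noncomputable def kR (Z₀ R : ℝ) : ℂ :=
  -2 * SB Z₀ R Z₀ + 2 * WB Z₀ R Z₀ * ((Z₀ : ℂ) * ((Z₀ : ℂ) ^ 2 - 2) ^ 2)⁻¹ -
    ((Real.log (Z₀ ^ 2 - 2) : ℝ) - (Real.log 2 : ℝ))

theorem star_WB (Z₀ R : ℝ) : star (WB Z₀ R) = WB Z₀ R := by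
  simp only [WB, star_neg, star_mul', ← JJ_star, star_eB, star_eiB, star_pow, star_zB, star_gB]

theorem star_SB (Z₀ R : ℝ) : star (SB Z₀ R) = SB Z₀ R := by
  rw [SB, ← JJ_star, star_mul', star_WB, star_clB Z₀ R fun z => Complex.conj_ofReal _]

theorem kR_real (Z₀ R : ℝ) : ((kR Z₀ R).re : ℂ) = kR Z₀ R := by
  have h1 : (starRingEnd ℂ) (SB Z₀ R Z₀) = SB Z₀ R Z₀ := congrArg (fun G : BC => G Z₀) (star_SB Z₀ R)
  have h2 : (starRingEnd ℂ) (WB Z₀ R Z₀) = WB Z₀ R Z₀ := congrArg (fun G : BC => G Z₀) (star_WB Z₀ R)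
  refine Complex.conj_eq_iff_re.1 ?_
  simp only [kR, map_sub, map_add, map_mul, map_neg, map_inv₀, map_pow, map_ofNat,
    Complex.conj_ofReal, h1, h2]

namespace Par

variable {Λ Z₀ R z : ℝ} {ys : ℂ}

theorem relax5 (h : Par Λ Z₀ R ys) {B B' : ℝ → ℂ} {a b c : ℝ} (ha : 0 ≤ a) (hb : 0 ≤ b)
    (hc : 0 ≤ c) (hB : Der Z₀ R B B')
    (hN : ∀ z ∈ Icc Z₀ R, ‖B' z - (z / 2 : ℝ) * B z‖ ≤
      z ^ 6 * (3 / 8 * a / (R ^ 2 * dd R ys z) + 1 / 8 * b * ex R z) + 3 / 8 * c * z ^ 4)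
    (hR : ‖B R‖ ≤ R ^ 5 * b) (hz : z ∈ Icc Z₀ R) :
    ‖B z‖ ≤ z ^ 5 * (a / (R ^ 2 * dd R ys z) + b * ex R z) + c * z ^ 3 := by
  have hY : Der Z₀ R (fun z => z ^ 5 * (a * (1 / (R ^ 2 * dd R ys z)) + b * ex R z) + c * z ^ 3)
      (fun z => 5 * z ^ 4 * (a * (1 / (R ^ 2 * dd R ys z)) + b * ex R z) +
        z ^ 5 * (a * (2 * z / (R ^ 2 * dd R ys z) ^ 2) + b * (z / 4 * ex R z)) + c * (3 * z ^ 2)) :=
    Der.of_at fun z hz => by
      have := ((hasDerivAt_pow 5 z).mul (((h.hasDerivAt_inv_Rdd hz).const_mul a).add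
        ((hasDerivAt_ex R z).const_mul b))).add ((hasDerivAt_pow 3 z).const_mul c)
      refine this.congr_deriv ?_
      simp only [Pi.add_apply]
      push_cast; ring
  have hA : Der Z₀ R (fun z => z ^ 2 / 4) (fun z => z / 2) := Der.of_at fun z _ => by
    have := (hasDerivAt_pow 2 z).div_const 4
    refine this.congr_deriv ?_
    push_cast; ring
  have := fence1 hB hY hA (fun z hz => ?_) (hR.trans (by
    have hR := h.R_pos
    have := one_div_pos.2 (h.Rdd_pos h.R_mem)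
    have h1 : 0 ≤ R ^ 5 * (a * (1 / (R ^ 2 * dd R ys R))) := by positivity
    have h2 : 0 ≤ c * R ^ 3 := by positivity
    simp only [ex_self]
    linarith)) hz
  · simpa [div_eq_mul_inv] using this
  · have h1 := hN z hz
    have hD := h.Rdd_pos hz
    have hD' := h.Rdd_ge hz
    have hz0 := h.z_pos hz
    have hz2 := h.zsq' hz
    have hΛ := h.hΛ
    have he := ex_pos R z
    set D := R ^ 2 * dd R ys z
    set e := ex R z
    have hi : 0 < 1 / D := by positivity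
    have e1 : 2 * z / D ^ 2 = 2 * z * (1 / D) * (1 / D) := by field_simp
    have e2 : 3 / 8 * a / D = 3 / 8 * a * (1 / D) := by ring
    have hi' : 1 / D ≤ 1 / 32 := one_div_le_one_div_of_le (by norm_num) (by linarith)
    rw [e1]
    rw [e2] at h1
    set i := 1 / D
    have a1 : 5 * z ^ 4 ≤ z ^ 6 / 16 := by nlinarith [pow_pos hz0 4]
    have a2 : 3 * z ^ 2 ≤ z ^ 4 / 8 := by nlinarith
    have b1 : 5 * z ^ 4 * (a * i) ≤ z ^ 6 / 16 * (a * i) :=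
      mul_le_mul_of_nonneg_right a1 (by positivity)
    have b2 : 5 * z ^ 4 * (b * e) ≤ z ^ 6 / 16 * (b * e) :=
      mul_le_mul_of_nonneg_right a1 (by positivity)
    have b3 : z ^ 6 * (a * i) * i ≤ z ^ 6 * (a * i) * (1 / 32) :=
      mul_le_mul_of_nonneg_left hi' (by positivity)
    have b4 : c * (3 * z ^ 2) ≤ c * (z ^ 4 / 8) := mul_le_mul_of_nonneg_left a2 hc
    have b5 : 0 ≤ z ^ 6 * (b * e) := by positivity
    nlinarith

theorem W_der (h : Par Λ Z₀ R ys) : Der Z₀ R (WB Z₀ R) fun z =>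
    (z / 2 : ℝ) * WB Z₀ R z + z ^ 2 * ((z : ℂ) ^ 2 - 2) := by
  have e : ∀ z ∈ Icc Z₀ R, WB Z₀ R z = -((Real.exp (z ^ 2 / 4) : ℂ) *
      JJ Z₀ R (eiB Z₀ R * (zB Z₀ R ^ 2 * gB Z₀ R)) z) := fun z hz => by
    rw [← h.eB_apply hz]; rfl
  refine Der.congr (f' := fun z => -(((Real.exp (z ^ 2 / 4) * (z / 2) : ℝ) : ℂ) *
      JJ Z₀ R (eiB Z₀ R * (zB Z₀ R ^ 2 * gB Z₀ R)) z +
      (Real.exp (z ^ 2 / 4) : ℂ) * (-(eiB Z₀ R * (zB Z₀ R ^ 2 * gB Z₀ R)) z))) (fun z hz => ?_) e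
    fun z hz => ?_
  · have h1 : HasDerivAt (fun z : ℝ => z ^ 2 / 4) (z / 2) z := by
      have := (hasDerivAt_pow 2 z).div_const 4
      refine this.congr_deriv ?_
      push_cast; ring
    exact (h1.exp.ofReal_comp.hasDerivWithinAt.mul (JJ_der Z₀ R _ z hz)).neg
  · have e2 : (eiB Z₀ R * (zB Z₀ R ^ 2 * gB Z₀ R)) z = eiB Z₀ R z * (zB Z₀ R z ^ 2 * gB Z₀ R z) :=
      rfl
    have e3 : (Real.exp (z ^ 2 / 4) : ℂ) * (Real.exp (-(z ^ 2 / 4)) : ℂ) = 1 := by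
      rw [← Complex.ofReal_mul, ← Real.exp_add, add_neg_cancel, Real.exp_zero, Complex.ofReal_one]
    rw [e z hz, e2, h.eiB_apply hz, h.zB_apply hz, h.gB_apply hz, Complex.ofReal_mul]
    linear_combination (-((z : ℂ) ^ 2 * ((z : ℂ) ^ 2 - 2))) * e3

theorem W_right (h : Par Λ Z₀ R ys) : WB Z₀ R R = 0 := by
  have : WB Z₀ R R = -(eB Z₀ R R * JJ Z₀ R (eiB Z₀ R * (zB Z₀ R ^ 2 * gB Z₀ R)) R) := rfl
  rw [this, JJ_right h.hR, mul_zero, neg_zero]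

theorem W_le (h : Par Λ Z₀ R ys) (hz : z ∈ Icc Z₀ R) : ‖WB Z₀ R z‖ ≤ 3 * z ^ 3 := by
  have := h.relax5 (a := 0) (b := 0) (c := 3) le_rfl le_rfl (by norm_num) h.W_der
    (fun z hz => ?_) (by simp [h.W_right]) hz
  · simpa using this
  · rw [add_sub_cancel_left, norm_mul, norm_pow, h.norm_z hz, h.norm_g hz]
    have := h.z_pos hz
    simp only [mul_zero, zero_div, zero_mul, add_zero, zero_add]
    nlinarith [sq_nonneg z, pow_pos this 4]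

theorem S_der (h : Par Λ Z₀ R ys) : Der Z₀ R (SB Z₀ R) fun z => -(WB Z₀ R z * ph z) := by
  refine (JJ_der Z₀ R _).congr (fun _ _ => rfl) fun z hz => ?_
  have hc : ContinuousOn (fun z : ℝ => (ph z : ℂ)) (Icc Z₀ R) := by
    refine Complex.continuous_ofReal.comp_continuousOn ?_
    refine ContinuousOn.add (ContinuousOn.div continuousOn_const (by fun_prop) fun z hz => ?_)
      (ContinuousOn.div continuousOn_const (by fun_prop) fun z hz => ?_)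
    · have := h.z_pos hz
      have := h.g_pos hz
      positivity
    · have := h.g_pos hz
      positivity
  have : (WB Z₀ R * clB Z₀ R fun z => (ph z : ℂ)) z = WB Z₀ R z * clB Z₀ R (fun z => (ph z : ℂ)) z :=
    rfl
  rw [this, clB_apply h.hR hc, cl_of_mem hz]

theorem S_le (h : Par Λ Z₀ R ys) (hz : z ∈ Icc Z₀ R) : ‖SB Z₀ R z‖ ≤ 16 / z ^ 2 := by
  have := ((p5 (b := R) (h.z_pos hz)).smul (c := 16) (by norm_num)).bwd
    (der_sub h.S_der hz.1 le_rfl) (fun s hs => ?_) ⟨le_rfl, hz.2⟩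
  · rwa [SB, JJ_right h.hR, sub_zero, mul_one_div] at this
  · have hs' : s ∈ Icc Z₀ R := ⟨hz.1.trans hs.1, hs.2⟩
    have hs0 := h.z_pos hs'
    rw [norm_neg, norm_mul, Complex.norm_real, Real.norm_eq_abs, abs_of_nonneg (h.ph_le hs').1]
    calc _ ≤ 3 * s ^ 3 * (5.1 / s ^ 6) :=
          mul_le_mul (h.W_le hs') (h.ph_le hs').2 (h.ph_le hs').1 (by positivity)
      _ = 15.3 * (1 / s ^ 3) := by field_simp; ring
      _ ≤ _ := by gcongr; norm_num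

theorem k_cauchy {R' : ℝ} {ys' : ℂ} (h : Par Λ Z₀ R ys) (h' : Par Λ Z₀ R' ys') (hRR : R ≤ R') :
    ‖kR Z₀ R' - kR Z₀ R‖ ≤ 40 / R ^ 2 := by
  have hR := h.R_pos
  have hR' : R ∈ Icc Z₀ R' := ⟨h.hR, hRR⟩
  have d1 : Der Z₀ R (fun z => WB Z₀ R' z - WB Z₀ R z) _ := fun z hz =>
    (der_sub h'.W_der le_rfl hRR z hz).sub (h.W_der z hz)
  have hW : ∀ z ∈ Icc Z₀ R, ‖WB Z₀ R' z - WB Z₀ R z‖ ≤ z ^ 5 * (3 / R ^ 2 * ex R z) := by
    intro z hz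
    have := h.relax5 (a := 0) (b := 3 / R ^ 2) (c := 0) le_rfl (by positivity) le_rfl d1
      (fun z hz => ?_) ?_ hz
    · simpa using this
    · have e : (z / 2 : ℝ) * WB Z₀ R' z + z ^ 2 * ((z : ℂ) ^ 2 - 2) -
          ((z / 2 : ℝ) * WB Z₀ R z + z ^ 2 * ((z : ℂ) ^ 2 - 2)) -
          (z / 2 : ℝ) * (WB Z₀ R' z - WB Z₀ R z) = 0 := by ring
      have := ex_pos R z
      have := h.Rdd_pos hz
      simp only [e, norm_zero]
      positivity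
    · rw [h.W_right, sub_zero]
      refine (h'.W_le hR').trans (le_of_eq ?_)
      field_simp
  have d2 : Der Z₀ R (fun z => SB Z₀ R' z - SB Z₀ R z) _ := fun z hz =>
    (der_sub h'.S_der le_rfl hRR z hz).sub (h.S_der z hz)
  have h1 := (h.p6.smul (c := 16 / R ^ 2) (by positivity)).fwd d2 (fun z hz => ?_) h.R_mem
  · have h2 := h'.S_le hR'
    have hS : SB Z₀ R R = 0 := JJ_right h.hR _
    have e : kR Z₀ R' - kR Z₀ R =
        2 * (SB Z₀ R' R - SB Z₀ R R - (SB Z₀ R' Z₀ - SB Z₀ R Z₀)) - 2 * SB Z₀ R' R +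
        2 * ((WB Z₀ R' Z₀ - WB Z₀ R Z₀) * ((Z₀ : ℂ) * ((Z₀ : ℂ) ^ 2 - 2) ^ 2)⁻¹) := by
      rw [kR, kR, hS]; ring
    have h3 : ‖(WB Z₀ R' Z₀ - WB Z₀ R Z₀) * ((Z₀ : ℂ) * ((Z₀ : ℂ) ^ 2 - 2) ^ 2)⁻¹‖ ≤
        3.03 * (1 / R ^ 2) := by
      have hZ := h.hZ
      rw [norm_mul]
      calc _ ≤ Z₀ ^ 5 * (3 / R ^ 2 * 1) * (1.01 / Z₀ ^ 5) := by
            refine mul_le_mul ((hW Z₀ h.Z_mem).trans ?_) (h.norm_psi h.Z_mem) (norm_nonneg _)
              (by positivity)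
            have := h.ex_le h.Z_mem
            gcongr
        _ = _ := by field_simp; ring
    have h4 : 16 / R ^ 2 * (8 / R ^ 2) ≤ 0.5 * (1 / R ^ 2) := by
      have : 8 / R ^ 2 ≤ 1 / 32 := by
        rw [div_le_div_iff₀ (by positivity) (by norm_num)]; linarith [h.zsq' h.R_mem]
      calc _ ≤ 16 / R ^ 2 * (1 / 32) := by gcongr
        _ = _ := by ring
    have e1 : 16 / R ^ 2 = 16 * (1 / R ^ 2) := by ring
    have e2 : 40 / R ^ 2 = 40 * (1 / R ^ 2) := by ring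
    have h5 : 0 < 1 / R ^ 2 := by positivity
    rw [e]
    refine (norm_add_le _ _).trans ((add_le_add (norm_sub_le _ _) le_rfl).trans ?_)
    rw [norm_mul 2, norm_mul 2, norm_mul 2, Complex.norm_two]
    linarith
  · have hz0 := h.z_pos hz
    have he := ex_pos R z
    have e : -(WB Z₀ R' z * ph z) - -(WB Z₀ R z * ph z) = -((WB Z₀ R' z - WB Z₀ R z) * ph z) := by
      ring
    rw [e, norm_neg, norm_mul, Complex.norm_real, Real.norm_eq_abs, abs_of_nonneg (h.ph_le hz).1]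
    calc _ ≤ z ^ 5 * (3 / R ^ 2 * ex R z) * (5.1 / z ^ 6) :=
          mul_le_mul (hW z hz) (h.ph_le hz).2 (h.ph_le hz).1 (by positivity)
      _ = 15.3 / R ^ 2 * (ex R z / z) := by field_simp; ring
      _ ≤ _ := by gcongr; norm_num

end Par

theorem par_four {Λ Z₀ R : ℝ} (hΛ : 5000000000 ≤ Λ) (hZ : 0 < Z₀) (hZ2 : 2 * Λ ≤ Z₀ ^ 2)
    (hR : Z₀ ≤ R) : Par Λ Z₀ R 4 := by
  refine ⟨hΛ, hZ, hZ2, hR, by simp, ?_⟩
  have hR0 : 0 < R := hZ.trans_le hR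
  have := pow_le_pow_left₀ hZ.le hR 2
  rw [div_le_iff₀ (by positivity)]
  simp only [Complex.re_ofNat]
  nlinarith

theorem exists_kappa {Λ Z₀ : ℝ} (hΛ : 5000000000 ≤ Λ) (hZ : 0 < Z₀) (hZ2 : 2 * Λ ≤ Z₀ ^ 2) :
    ∃ κ : ℝ, ∀ R, Z₀ ≤ R → ‖kR Z₀ R - κ‖ ≤ 40 / R ^ 2 := by
  have key : ∀ R R', Z₀ ≤ R → R ≤ R' → |(kR Z₀ R').re - (kR Z₀ R).re| ≤ 40 / R ^ 2 :=
    fun R R' h1 h2 => by
      rw [← Complex.sub_re]
      exact (Complex.abs_re_le_norm _).trans ((par_four hΛ hZ hZ2 h1).k_cauchy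
        (par_four hΛ hZ hZ2 (h1.trans h2)) h2)
  have hc : CauchySeq fun R : ℝ => (kR Z₀ (max R Z₀)).re := by
    refine cauchySeq_of_le_tendsto_0' (fun R => 40 / max R Z₀ ^ 2) (fun n m hnm => ?_) ?_
    · rw [dist_comm, Real.dist_eq]
      exact key _ _ (le_max_right _ _) (max_le_max_right _ hnm)
    · exact tendsto_const_nhds.div_atTop ((tendsto_pow_atTop two_ne_zero).comp
        (tendsto_atTop_mono (fun R => le_max_left R Z₀) tendsto_id))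
  obtain ⟨κ, hκ⟩ := cauchySeq_tendsto_of_complete hc
  refine ⟨κ, fun R hR => ?_⟩
  rw [← kR_real, ← Complex.ofReal_sub, Complex.norm_real, Real.norm_eq_abs, abs_sub_comm]
  refine le_of_tendsto ((hκ.sub_const _).abs) ?_
  filter_upwards [eventually_ge_atTop R] with R' hR'
  exact key _ _ hR (hR'.trans (le_max_left _ _))

namespace Fix

variable {Λ Z₀ R z : ℝ} {y : ℂ} {A B : ℝ → ℂ}

theorem Y_ge (h : Fix Λ Z₀ R y A B) (hy : ‖y‖ ≤ 1) : 1 ≤ R ^ 2 * ‖Y0 R y‖ := by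
  have hp := h.par
  have h1 : 1 ≤ ‖y - 2‖ := by
    have := norm_sub_le y (y - 2)
    rw [sub_sub_cancel, Complex.norm_two] at this
    linarith
  rw [Y0, norm_div, hp.norm_g hp.R_mem, ← mul_div_assoc, le_div_iff₀ (hp.g_pos hp.R_mem)]
  nlinarith [sq_nonneg R]

theorem Y_ne (h : Fix Λ Z₀ R y A B) (hy : ‖y‖ ≤ 1) : Y0 R y ≠ 0 := fun h0 => by
  have := h.Y_ge hy
  rw [h0, norm_zero, mul_zero] at this
  linarith

theorem iY_le (h : Fix Λ Z₀ R y A B) (hy : ‖y‖ ≤ 1) : ‖(Y0 R y)⁻¹‖ ≤ R ^ 2 := by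
  rw [norm_inv, inv_le_iff_one_le_mul₀ (norm_pos_iff.2 (h.Y_ne hy))]
  exact h.Y_ge hy

theorem A_sq (h : Fix Λ Z₀ R y A B) (hz : z ∈ Icc Z₀ R) : ‖A z ^ 2 - 1‖ ≤ 241200000 / R := by
  have e : A z ^ 2 - 1 = (A z + 1) * (A z - 1) := by ring
  have h1 : ‖A z + 1‖ ≤ 2.01 := by
    have := norm_add_le (A z) 1
    rw [norm_one] at this
    linarith [h.A_le hz]
  rw [e, norm_mul]
  calc _ ≤ 2.01 * (120000000 / R) := mul_le_mul h1 (h.A_sharp hz) (norm_nonneg _) (by norm_num)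
    _ = _ := by ring

theorem inv_A_sq (h : Fix Λ Z₀ R y A B) (hz : z ∈ Icc Z₀ R) :
    ‖(A z)⁻¹ ^ 2 - 1‖ ≤ 250000000 / R := by
  have hA := h.A_ne hz
  have hR := h.par.R_pos
  have e : (A z)⁻¹ ^ 2 - 1 = -((A z)⁻¹ ^ 2 * (A z ^ 2 - 1)) := by field_simp; ring
  rw [e, norm_neg, norm_mul, norm_pow]
  calc _ ≤ 1.011 ^ 2 * (241200000 / R) := by
        have := h.inv_A_le hz
        have := h.A_sq hz
        gcongr
    _ = 246535585.2 / R := by ring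
    _ ≤ _ := by gcongr; norm_num

theorem src_le (h : Fix Λ Z₀ R y A B) (hy : ‖y‖ ≤ 1) (hR : Z₀ ^ 2 ≤ R) (hz : z ∈ Icc Z₀ R) :
    ‖NN R y z (A z) (B z) * (Y0 R y)⁻¹ - z ^ 2 * ((z : ℂ) ^ 2 - 2)‖ ≤
      z ^ 6 * (192 / (R ^ 2 * dd R y z) + 1 / 4 * ex R z) + 4875000000 / R * z ^ 4 := by
  have hp := h.par
  have hz0 := hp.z_pos hz
  have hd := hp.dd_pos hz
  have hR0 := hp.R_pos
  have hl := hp.lm_pos hz
  have he := ex_pos R z
  have hΛ := hp.Λ_pos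
  have hR1 : 10000000000 ≤ R := (hp.zsq' hp.Z_mem).trans hR
  have hv := h.v_ne hz
  have hY := h.Y_ne hy
  have e : NN R y z (A z) (B z) * (Y0 R y)⁻¹ - z ^ 2 * ((z : ℂ) ^ 2 - 2) = (vv R y z (A z))⁻¹ *
      (r1 R y z (A z) (B z) / 4 + z ^ 2 * ((z : ℂ) ^ 2 - 2) *
        (2 * (A z ^ 2 - 1) - (vv R y z (A z) - 2))) := by
    rw [NN, r1]
    generalize vv R y z (A z) = v at hv ⊢
    field_simp; ring
  have h1 : ‖r1 R y z (A z) (B z) / 4‖ ≤ z ^ 4 * (17500 * lm R y z + 15 / R ^ 2) := by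
    have h4 : ‖(4 : ℂ)‖ = 4 := by simp
    rw [norm_div, h4, div_le_iff₀ (by norm_num)]
    refine (h.r1_le hz).trans ?_
    rw [mul_assoc]
    refine mul_le_mul_of_nonneg_left ?_ (by positivity)
    have h5 := h.normY
    have h6 : 6.5 / R ^ 2 = 6.5 * (1 / R ^ 2) := by ring
    have h7 : 15 / R ^ 2 = 15 * (1 / R ^ 2) := by ring
    have h8 : 0 < 1 / R ^ 2 := by positivity
    linarith
  have h2 : ‖(z : ℂ) ^ 2 * ((z : ℂ) ^ 2 - 2) * (2 * (A z ^ 2 - 1) - (vv R y z (A z) - 2))‖ ≤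
      z ^ 4 * (482400000 / R + 6.6 * z ^ 2 / R ^ 2) := by
    rw [norm_mul, norm_mul, norm_pow, hp.norm_z hz, hp.norm_g hz]
    refine mul_le_mul (by nlinarith) ((norm_sub_le _ _).trans ?_) (norm_nonneg _) (by positivity)
    rw [norm_mul, Complex.norm_two]
    have := h.A_sq hz
    have e : 482400000 / R = 2 * (241200000 / R) := by ring
    linarith [h.v_sub_two hz]
  have h3 : 1 / dd R y z ≤ z ^ 2 / 5000000000 := by
    rw [div_le_div_iff₀ hd (by norm_num)]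
    linarith [hp.dd_sq hz, hp.hΛ]
  have h4 := hp.split_dd hz
  set D := R ^ 2 * dd R y z with hD
  have hD0 : 0 < D := hp.Rdd_pos hz
  rw [e, norm_mul]
  calc _ ≤ 10 / dd R y z * (z ^ 4 * (17500 * lm R y z + 15 / R ^ 2) +
        z ^ 4 * (482400000 / R + 6.6 * z ^ 2 / R ^ 2)) :=
        mul_le_mul (h.inv_le hz) ((norm_add_le _ _).trans (add_le_add h1 h2)) (norm_nonneg _)
          (by positivity)
    _ = z ^ 4 * (175000 * lm R y z * (1 / dd R y z) + 150 / D +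
        4824000000 / R * (1 / dd R y z) + 66 * z ^ 2 / D) := by
        rw [hD]; field_simp; ring
    _ ≤ z ^ 4 * (175000 * lm R y z * (z ^ 2 / 5000000000) + z ^ 2 / D +
        4824000000 / R * (1 + z ^ 2 / D) + 66 * z ^ 2 / D) := by
        have := hp.zsq' hz
        gcongr; linarith
    _ = z ^ 6 * ((189.5 + 4824000000 / R) / D + 0.000035 * ex R z) + 4824000000 / R * z ^ 4 := by
        rw [lm, ← hD]; field_simp; ring
    _ ≤ _ := by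
        have : 4824000000 / R ≤ 1 := by rw [div_le_one hR0]; linarith
        gcongr
        · linarith
        · norm_num
        · norm_num

theorem del_le (h : Fix Λ Z₀ R y A B) (hy : ‖y‖ ≤ 1) (hR : Z₀ ^ 2 ≤ R) (hz : z ∈ Icc Z₀ R) :
    ‖B z * (Y0 R y)⁻¹ - WB Z₀ R z‖ ≤
      z ^ 5 * (512 / (R ^ 2 * dd R y z) + 2 * ex R z) + 13000000000 / R * z ^ 3 := by
  have hp := h.par
  have hR0 := hp.R_pos
  have d1 : Der Z₀ R (fun z => B z * (Y0 R y)⁻¹ - WB Z₀ R z) _ := fun z hz =>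
    ((h.hB' z hz).mul_const _).sub (hp.W_der z hz)
  refine hp.relax5 (by norm_num) (by norm_num) (by positivity) d1 (fun z hz => ?_) ?_ hz
  · have e : ((z / 2 : ℝ) * B z + NN R y z (A z) (B z)) * (Y0 R y)⁻¹ -
        ((z / 2 : ℝ) * WB Z₀ R z + z ^ 2 * ((z : ℂ) ^ 2 - 2)) -
        (z / 2 : ℝ) * (B z * (Y0 R y)⁻¹ - WB Z₀ R z) =
        NN R y z (A z) (B z) * (Y0 R y)⁻¹ - z ^ 2 * ((z : ℂ) ^ 2 - 2) := by ring
    simp only [e]
    refine (h.src_le hy hR hz).trans (le_of_eq ?_)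
    ring
  · rw [hp.W_right, sub_zero, h.hBR, norm_mul, norm_mul, norm_mul, norm_neg, Complex.norm_two,
      hp.norm_z hp.R_mem, hp.norm_g hp.R_mem]
    calc _ ≤ 2 * R * R ^ 2 * R ^ 2 := by
          have := h.iY_le hy
          gcongr; linarith
      _ = _ := by ring

theorem mix_le (h : Fix Λ Z₀ R y A B) (hy : ‖y‖ ≤ 1) (hR : Z₀ ^ 2 ≤ R) (hz : z ∈ Icc Z₀ R) :
    ‖B z * (Y0 R y)⁻¹ * (A z)⁻¹ ^ 2 - WB Z₀ R z‖ ≤
      z ^ 5 * (530 / (R ^ 2 * dd R y z) + 2.1 * ex R z) + 15000000000 / R * z ^ 3 := by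
  have hp := h.par
  have hR0 := hp.R_pos
  have hz0 := hp.z_pos hz
  have hD := hp.Rdd_pos hz
  have he := ex_pos R z
  have e : B z * (Y0 R y)⁻¹ * (A z)⁻¹ ^ 2 - WB Z₀ R z =
      (B z * (Y0 R y)⁻¹ - WB Z₀ R z) * (A z)⁻¹ ^ 2 + WB Z₀ R z * ((A z)⁻¹ ^ 2 - 1) := by ring
  rw [e]
  refine (norm_add_le _ _).trans ?_
  rw [norm_mul, norm_mul, norm_pow]
  calc _ ≤ (z ^ 5 * (512 / (R ^ 2 * dd R y z) + 2 * ex R z) + 13000000000 / R * z ^ 3) *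
        1.011 ^ 2 + 3 * z ^ 3 * (250000000 / R) := by
        have := h.del_le hy hR hz
        have := h.inv_A_le hz
        have := hp.W_le hz
        have := h.inv_A_sq hz
        gcongr
    _ = z ^ 5 * (523.325952 / (R ^ 2 * dd R y z) + 2.044242 * ex R z) +
        14037573000 / R * z ^ 3 := by ring
    _ ≤ _ := by gcongr <;> norm_num

theorem F_diff (h : Fix Λ Z₀ R y A B) (hy : ‖y‖ ≤ 1) (hR : Z₀ ^ 2 ≤ R) (hz : z ∈ Icc Z₀ R)
    (hz' : R / 2 ≤ z) : ‖HH R y A B z * (Y0 R y)⁻¹ - 2 * SB Z₀ R z -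
      (HH R y A B Z₀ * (Y0 R y)⁻¹ - 2 * SB Z₀ R Z₀)‖ ≤
      500000000000000 / (R ^ 2 * dd R y z) + 900000000000000 / R := by
  have hp := h.par
  have hR0 := hp.R_pos
  have hR1 : 10000000000 ≤ R := (hp.zsq' hp.Z_mem).trans hR
  have d1 : Der Z₀ R (fun z => HH R y A B z * (Y0 R y)⁻¹ - 2 * SB Z₀ R z) _ := fun z hz =>
    ((h.H_der z hz).mul_const _).sub ((hp.S_der z hz).const_mul 2)
  have := ((((hp.pE1.add (hp.p1.smul (c := 416500000000000) (by norm_num))).add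
    (hp.p4.smul (c := 34 * R ^ 2) (by positivity))).add
    ((hp.p3.smul (c := 5406) (by norm_num)).add (hp.p6.smul (c := 22) (by norm_num)))).add
    ((Par.p5 hp.hZ).smul (c := 153000000000 / R) (by positivity))).fwd d1 (fun z hz => ?_) hz
  · refine this.trans ?_
    have hz0 := hp.z_pos hz
    have hD := hp.Rdd_pos hz
    have h1 : 8 / z ^ 2 ≤ 1 / R := by
      rw [div_le_div_iff₀ (by positivity) hR0]; nlinarith
    have h2 : 34 * R ^ 2 * (8 / z ^ 4) ≤ 1 / R := by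
      have h3 : (R / 2) ^ 4 ≤ z ^ 4 := by gcongr
      calc _ ≤ 34 * R ^ 2 * (8 / (R / 2) ^ 4) := by gcongr
        _ = 4352 / R * (1 / R) := by field_simp; ring
        _ ≤ 1 * (1 / R) := by
            gcongr
            rw [div_le_one hR0]; linarith
        _ = _ := one_mul _
    have h3 : 153000000000 / R * (1 / Z₀ ^ 2) ≤ 153000000000 / R * 1 := by
      gcongr
      rw [div_le_one (pow_pos hp.hZ 2)]; linarith [hp.zsq' hp.Z_mem]
    have e1 : ∀ a : ℝ, a / R = a * (1 / R) := fun a => by ring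
    have e2 : ∀ a : ℝ, a / (R ^ 2 * dd R y z) = a * (1 / (R ^ 2 * dd R y z)) := fun a => by ring
    have h4 : 0 < 1 / R := by positivity
    have h5 : 0 < 1 / (R ^ 2 * dd R y z) := by positivity
    rw [e1 2, e1 900000000000000, e2 4, e2 500000000000000]
    rw [e1 153000000000] at h3 ⊢
    linarith
  · have hz0 := hp.z_pos hz
    have hD := hp.Rdd_pos hz
    have he := ex_pos R z
    have hY := h.Y_ne hy
    have e : (Y0 R y * E1 R y z (A z) (B z) - 2 * B z * ph z * (A z)⁻¹ ^ 2 - E4 z (A z) (B z)) *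
        (Y0 R y)⁻¹ - 2 * -(WB Z₀ R z * ph z) = E1 R y z (A z) (B z) - E4 z (A z) (B z) * (Y0 R y)⁻¹ -
          2 * ph z * (B z * (Y0 R y)⁻¹ * (A z)⁻¹ ^ 2 - WB Z₀ R z) := by
      field_simp; ring
    have h1 := h.E1_le hz
    have h2 : ‖E4 z (A z) (B z) * (Y0 R y)⁻¹‖ ≤
        416500000000000 * (R ^ 2 / (z * (R ^ 2 * dd R y z) ^ 2)) +
          34 * R ^ 2 * (ex R z / z ^ 3) := by
      have hl : lm R y z ^ 2 ≤ 2 * (3500000 / (R ^ 2 * dd R y z)) ^ 2 + 2 * ex R z := by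
        rw [lm]
        nlinarith [sq_nonneg (3500000 / (R ^ 2 * dd R y z) - ex R z), hp.ex_le hz]
      rw [norm_mul]
      calc _ ≤ 17 * ((2 * (3500000 / (R ^ 2 * dd R y z)) ^ 2 + 2 * ex R z) / z ^ 3) * R ^ 2 := by
            refine mul_le_mul ((h.E4_le hz).trans ?_) (h.iY_le hy) (norm_nonneg _) (by positivity)
            gcongr
        _ = 416500000000000 * (R ^ 2 / (z * (R ^ 2 * dd R y z) ^ 2)) * (1 / z ^ 2) +
              34 * R ^ 2 * (ex R z / z ^ 3) := by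
            generalize R ^ 2 * dd R y z = D at hD ⊢
            field_simp; ring
        _ ≤ 416500000000000 * (R ^ 2 / (z * (R ^ 2 * dd R y z) ^ 2)) * 1 +
              34 * R ^ 2 * (ex R z / z ^ 3) := by
            gcongr
            rw [div_le_one (by positivity)]; linarith [hp.zsq' hz]
        _ = _ := by rw [mul_one]
    have h3 : ‖2 * (ph z : ℂ) * (B z * (Y0 R y)⁻¹ * (A z)⁻¹ ^ 2 - WB Z₀ R z)‖ ≤
        5406 * (1 / (z * (R ^ 2 * dd R y z))) + 22 * (ex R z / z) +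
          153000000000 / R * (1 / z ^ 3) := by
      rw [norm_mul, norm_mul, Complex.norm_two, Complex.norm_real, Real.norm_eq_abs,
        abs_of_nonneg (hp.ph_le hz).1]
      calc _ ≤ 2 * (5.1 / z ^ 6) * (z ^ 5 * (530 / (R ^ 2 * dd R y z) + 2.1 * ex R z) +
            15000000000 / R * z ^ 3) := by
            have := (hp.ph_le hz).2
            have := h.mix_le hy hR hz
            gcongr
        _ = 5406 * (1 / (z * (R ^ 2 * dd R y z))) + 21.42 * (ex R z / z) +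
            153000000000 / R * (1 / z ^ 3) := by
            generalize R ^ 2 * dd R y z = D at hD ⊢
            field_simp; ring
        _ ≤ _ := by gcongr; norm_num
    simp only [e]
    refine (norm_sub_le _ _).trans ((add_le_add (norm_sub_le _ _) le_rfl).trans ?_)
    linarith

/-- the tip relation with the boundary term -/
theorem core (h : Fix Λ Z₀ R y A B) (hy : ‖y‖ ≤ 1) (hR : Z₀ ^ 2 ≤ R) (hz : z ∈ Icc Z₀ R)
    (hz' : R / 2 ≤ z) : ‖-1 / (Y0 R y * A Z₀) - (((z : ℂ) ^ 2 - 2) / (2 - vv R y z (A z)) +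
      Complex.log (((z : ℂ) ^ 2 - 2) / vv R y z (A z)) -
      2 * B z * ((z : ℂ) * ((z : ℂ) ^ 2 - 2) ^ 2)⁻¹ * (A z)⁻¹ ^ 2 * (Y0 R y)⁻¹ + kR Z₀ R)‖ ≤
      500000000000000 / (R ^ 2 * dd R y z) + 950000000000000 / R := by
  have hp := h.par
  have hR0 := hp.R_pos
  have hZ := hp.hZ
  have hz0 := hp.z_pos hz
  have hR1 : 10000000000 ≤ R := (hp.zsq' hp.Z_mem).trans hR
  have hY := h.Y_ne hy
  have e0 : ((z : ℂ) ^ 2 - 2) / (2 - vv R y z (A z)) = -((A z)⁻¹ * (Y0 R y)⁻¹) := by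
    have := hp.g_ne hz
    have := h.A_ne hz
    have e : 2 - vv R y z (A z) = -(((z : ℂ) ^ 2 - 2) * Y0 R y * A z) := by rw [vv]; ring
    rw [e]; field_simp
  have e : -1 / (Y0 R y * A Z₀) - (((z : ℂ) ^ 2 - 2) / (2 - vv R y z (A z)) +
      Complex.log (((z : ℂ) ^ 2 - 2) / vv R y z (A z)) -
      2 * B z * ((z : ℂ) * ((z : ℂ) ^ 2 - 2) ^ 2)⁻¹ * (A z)⁻¹ ^ 2 * (Y0 R y)⁻¹ + kR Z₀ R) =
      (HH R y A B z * (Y0 R y)⁻¹ - 2 * SB Z₀ R z - (HH R y A B Z₀ * (Y0 R y)⁻¹ - 2 * SB Z₀ R Z₀)) +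
      2 * SB Z₀ R z + (Complex.log (vv R y Z₀ (A Z₀)) - (Real.log 2 : ℝ)) +
      2 * (((Z₀ : ℂ) * ((Z₀ : ℂ) ^ 2 - 2) ^ 2)⁻¹ *
        (B Z₀ * (Y0 R y)⁻¹ * (A Z₀)⁻¹ ^ 2 - WB Z₀ R Z₀)) := by
    have := h.A_ne hp.Z_mem
    rw [e0, HH, HH, kR, h.log_gv hp.Z_mem]
    generalize ((Z₀ : ℂ) * ((Z₀ : ℂ) ^ 2 - 2) ^ 2)⁻¹ = ψ₀
    generalize ((z : ℂ) * ((z : ℂ) ^ 2 - 2) ^ 2)⁻¹ = ψ
    generalize (A z)⁻¹ = a
    field_simp; ring
  have h1 := h.F_diff hy hR hz hz'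
  have h2 : ‖SB Z₀ R z‖ ≤ 1 / R := by
    refine (hp.S_le hz).trans ?_
    rw [div_le_div_iff₀ (by positivity) hR0]; nlinarith
  have h3 := h.log_Z hR
  have h4 : ‖((Z₀ : ℂ) * ((Z₀ : ℂ) ^ 2 - 2) ^ 2)⁻¹ *
      (B Z₀ * (Y0 R y)⁻¹ * (A Z₀)⁻¹ ^ 2 - WB Z₀ R Z₀)‖ ≤ 16000000000 * (1 / R) := by
    have h5 : 530 / (R ^ 2 * dd R y Z₀) ≤ 1 / R := by
      rw [div_le_div_iff₀ (hp.Rdd_pos hp.Z_mem) hR0]
      nlinarith [hp.D_Z hR]
    have h6 : ex R Z₀ ≤ 1 / R := by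
      refine (hp.ex_Z hR).trans ?_
      rw [div_le_div_iff₀ (by positivity) hR0]; nlinarith
    have h7 : Z₀ ^ 3 ≤ Z₀ ^ 5 := pow_le_pow_right₀ (by linarith [hp.Z_ge]) (by norm_num)
    rw [norm_mul]
    calc _ ≤ 1.01 / Z₀ ^ 5 * (Z₀ ^ 5 * (1 / R + 2.1 * (1 / R)) + 15000000000 / R * Z₀ ^ 5) := by
          refine mul_le_mul (hp.norm_psi hp.Z_mem) ((h.mix_le hy hR hp.Z_mem).trans ?_)
            (norm_nonneg _) (by positivity)
          gcongr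
      _ = 15150000003.131 * (1 / R) := by field_simp; ring
      _ ≤ _ := by gcongr; norm_num
  have e1 : ∀ a : ℝ, a / R = a * (1 / R) := fun a => by ring
  have h8 : 0 < 1 / R := by positivity
  rw [e]
  refine (norm_add_le _ _).trans ((add_le_add (norm_add₃_le) le_rfl).trans ?_)
  rw [norm_mul 2, norm_mul 2, Complex.norm_two, e1 950000000000000]
  rw [e1 900000000000000] at h1
  rw [e1 5] at h3
  linarith

end Fix

theorem tipZ_of {C Λ Z₀ R₀ κ : ℝ} (hC : 1000000000000000 ≤ C) (hΛ : 5000000000 ≤ Λ) (hZ : 0 < Z₀)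
    (hZ2 : 2 * Λ ≤ Z₀ ^ 2) (hR : Z₀ ≤ R₀) (hR' : Z₀ ^ 2 ≤ R₀)
    (hκ : ∀ R, Z₀ ≤ R → ‖kR Z₀ R - κ‖ ≤ 40 / R ^ 2) :
    TipZ C Λ Z₀ R₀ (κ - Real.log 4) (VV Z₀) (cc Z₀) := by
  intro R hRR y hy hy1 z hz hZz
  have hp := par_of_mem hΛ hZ hZ2 (hR.trans hRR) hy
  have h := hp.fix
  have hz' : z ∈ Icc Z₀ R := ⟨hZz, hz.2⟩
  have hR0 := hp.R_pos
  have hz0 := hp.z_pos hz'
  have hD := hp.Rdd_pos hz'
  have he := ex_pos R z
  have h1 := h.core hy1 (hR'.trans hRR) hz' hz.1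
  have h2 := hκ R hp.hR
  rw [hp.VV_apply hz', cc, ← hp.Rdd_eq, sub_add_cancel]
  set A : ℝ → ℂ := ⇑(Af Z₀ R (BB Z₀ R y))
  set B : ℝ → ℂ := ⇑(BB Z₀ R y)
  have h3 : ‖2 * B z * ((z : ℂ) * ((z : ℂ) ^ 2 - 2) ^ 2)⁻¹ * (A z)⁻¹ ^ 2 * (Y0 R y)⁻¹‖ ≤
      17 * lm R y z := by
    have hl := hp.lm_pos hz'
    rw [norm_mul]
    calc _ ≤ 4.2 * (lm R y z / (R / 2) ^ 2) * R ^ 2 := by
          refine mul_le_mul ((h.Bt_le hz').trans ?_) (h.iY_le hy1) (norm_nonneg _) (by positivity)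
          have := hz.1
          gcongr
      _ = 16.8 * lm R y z := by field_simp; ring
      _ ≤ _ := by gcongr; norm_num
  have h4 : 40 / R ^ 2 ≤ 1 / R := by
    rw [div_le_div_iff₀ (by positivity) hR0]; nlinarith [hp.z_ge hp.R_mem]
  have key : ∀ a b c d k : ℂ, a - (b + k) = (a - (b - c + d)) - c + (d - k) := fun a b c d k => by
    ring
  rw [key _ _ (2 * B z * ((z : ℂ) * ((z : ℂ) ^ 2 - 2) ^ 2)⁻¹ * (A z)⁻¹ ^ 2 * (Y0 R y)⁻¹) (kR Z₀ R)]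
  refine (norm_add_le _ _).trans ((add_le_add (norm_sub_le _ _) le_rfl).trans ?_)
  have e1 : ∀ a : ℝ, a / R = a * (1 / R) := fun a => by ring
  have e2 : ∀ a : ℝ, a / (R ^ 2 * dd R y z) = a * (1 / (R ^ 2 * dd R y z)) := fun a => by ring
  have h8 : 0 < 1 / R := by positivity
  have h9 : 0 < 1 / (R ^ 2 * dd R y z) := by positivity
  rw [lm, e2] at h3
  rw [e1 950000000000000, e2] at h1
  rw [e1 C, e2 C]
  nlinarith

theorem tip1_of {C Λ Z₀ R₀ κ : ℝ} (hC : 1000000000000000 ≤ C) (hΛ : 5000000000 ≤ Λ) (hZ : 0 < Z₀)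
    (hZ2 : 2 * Λ ≤ Z₀ ^ 2) (hR : Z₀ ≤ R₀) (hR' : Z₀ ^ 2 ≤ R₀)
    (hκ : ∀ R, Z₀ ≤ R → ‖kR Z₀ R - κ‖ ≤ 40 / R ^ 2) :
    Tip1 C Λ R₀ (κ - Real.log 4) (cc Z₀) := by
  intro R hRR y hy hy1
  have hp := par_of_mem hΛ hZ hZ2 (hR.trans hRR) hy
  have h := hp.fix
  have hR0 := hp.R_pos
  have hD := hp.Rdd_pos hp.R_mem
  have hg := hp.g_pos hp.R_mem
  have h1 := h.core hy1 (hR'.trans hRR) hp.R_mem (by linarith)
  have h2 := hκ R hp.hR
  have hy0 : y ≠ 0 := fun h0 => by have := hp.re_pos; rw [h0] at this; simp at this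
  have hy2 : y - 2 ≠ 0 := fun h0 => h.Y_ne hy1 (by rw [Y0, h0, zero_div])
  rw [h.Bt_R, h.log_gv hp.R_mem, h.vv_R, hp.Rdd_eq, sub_self, add_zero] at h1
  rw [hp.Rdd_eq, sub_self, add_zero] at hD
  have e0 : Complex.log ((R : ℂ) ^ 2 * y / 4) =
      ((2 * Real.log R - Real.log 4 : ℝ) : ℂ) + Complex.log y := by
    have e : (R : ℂ) ^ 2 * y / 4 = ((R ^ 2 / 4 : ℝ) : ℂ) * y := by push_cast; ring
    rw [e, Complex.log_ofReal_mul (by positivity) hy0, Real.log_div (by positivity) (by norm_num),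
      Real.log_pow]
    push_cast; ring
  have e : -1 / cc Z₀ R y - (((R : ℂ) ^ 2 - 6) / (2 - y) + 4 * Real.log R -
      Complex.log ((R : ℂ) ^ 2 * y / 4) + (κ - Real.log 4 : ℝ)) =
      (-1 / (Y0 R y * Af Z₀ R (BB Z₀ R y) Z₀) - (((R : ℂ) ^ 2 - 2) / (2 - y) +
        ((Real.log (R ^ 2 - 2) : ℝ) - Complex.log y) - -4 / ((R : ℂ) ^ 2 - 2) * (Y0 R y)⁻¹ +
        kR Z₀ R)) + (kR Z₀ R - κ) + ((Real.log (R ^ 2 - 2) - 2 * Real.log R : ℝ) : ℂ) := by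
    have hg' := hp.g_ne hp.R_mem
    have h2y : 2 - y ≠ 0 := fun h0 => hy2 (by linear_combination -h0)
    have e1 : -4 / ((R : ℂ) ^ 2 - 2) * (Y0 R y)⁻¹ = 4 / (2 - y) := by
      rw [Y0]; field_simp; ring
    have e2 : ((R : ℂ) ^ 2 - 6) / (2 - y) = ((R : ℂ) ^ 2 - 2) / (2 - y) - 4 / (2 - y) := by
      field_simp; ring
    rw [e0, e1, e2, cc]
    push_cast; ring
  have h3 : |Real.log (R ^ 2 - 2) - 2 * Real.log R| ≤ 1 / R := by
    have hR1 := hp.z_ge hp.R_mem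
    have e1 : 2 * Real.log R - Real.log (R ^ 2 - 2) = Real.log (R ^ 2 / (R ^ 2 - 2)) := by
      rw [Real.log_div (by positivity) hg.ne', Real.log_pow]; push_cast; ring
    rw [abs_sub_comm, e1, abs_of_nonneg (Real.log_nonneg (by
      rw [le_div_iff₀ hg]; linarith))]
    refine (Real.log_le_sub_one_of_pos (by positivity)).trans ?_
    rw [div_sub_one hg.ne', div_le_div_iff₀ hg hR0]
    nlinarith
  have h4 : 40 / R ^ 2 ≤ 1 / R := by
    rw [div_le_div_iff₀ (by positivity) hR0]; nlinarith [hp.z_ge hp.R_mem]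
  rw [e]
  refine norm_add₃_le.trans ?_
  rw [Complex.norm_real, Real.norm_eq_abs]
  have e1 : ∀ a : ℝ, a / R = a * (1 / R) := fun a => by ring
  have e2 : ∀ a : ℝ, a / (R ^ 2 * ‖y‖) = a * (1 / (R ^ 2 * ‖y‖)) := fun a => by ring
  have h8 : 0 < 1 / R := by positivity
  have h9 : 0 < 1 / (R ^ 2 * ‖y‖) := by positivity
  rw [e1 950000000000000, e2] at h1
  rw [e1 C, e2 C]
  nlinarith

/-- block SYM from its three remaining parts -/
theorem sym_of (hL : LipRStmt) (hI : InvStmt) (hT : Tip2Stmt) : SymStmt := by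
  obtain ⟨C₁, Λ₁, h1⟩ := hL 200000000 (by norm_num)
  obtain ⟨C₂, Λ₂, h2⟩ := hI
  set C := max 1000000000000000 (max C₁ C₂) with hC
  have hC0 : 1000000000000000 ≤ C := le_max_left _ _
  have hC1 : C₁ ≤ C := (le_max_left _ _).trans (le_max_right _ _)
  have hC2 : C₂ ≤ C := (le_max_right _ _).trans (le_max_right _ _)
  refine ⟨C, max C (max Λ₁ Λ₂), by linarith, le_trans (by linarith) (le_max_left _ _),
    fun Λ Z₀ hΛ hZ hZ2 => ?_⟩
  have hΛC : C ≤ Λ := (le_max_left _ _).trans hΛ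
  have hΛ1 : Λ₁ ≤ Λ := ((le_max_left _ _).trans (le_max_right _ _)).trans hΛ
  have hΛ2 : Λ₂ ≤ Λ := ((le_max_right _ _).trans (le_max_right _ _)).trans hΛ
  have hΛ0 : 5000000000 ≤ Λ := by linarith
  obtain ⟨R₁, Y, hY⟩ := h2 C Λ Z₀ hC2 hΛC hΛ2 hZ hZ2
  obtain ⟨κ, hκ⟩ := exists_kappa hΛ0 hZ hZ2
  set R₀ := max R₁ (max (Z₀ + 10) (Z₀ ^ 2))
  have hR1 : Z₀ + 10 ≤ R₀ := (le_max_left _ _).trans (le_max_right _ _)
  have hR2 : Z₀ ^ 2 ≤ R₀ := (le_max_right _ _).trans (le_max_right _ _)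
  have hF : Fam C Λ Z₀ R₀ (VV Z₀) (PP Z₀) (cc Z₀) :=
    fam (by linarith) hΛ0 hZ hZ2 hR1 (by nlinarith)
  have hInv := hY R₀ (le_max_left _ _)
  refine ⟨R₀, κ - Real.log 4, VV Z₀, PP Z₀, cc Z₀, Y, hF, ?_, hInv,
    tip1_of hC0 hΛ0 hZ hZ2 (by linarith) hR2 hκ,
    hT C Λ Z₀ R₀ _ _ _ _ _ (by linarith) hZ hF hInv
      (tipZ_of hC0 hΛ0 hZ hZ2 (by linarith) hR2 hκ)⟩
  intro R R' hR hRR hRR' y hy y' hy' hc z hz
  have hp := par_of_mem hΛ0 hZ hZ2 (by linarith : Z₀ ≤ R) hy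
  have hp' := par_of_mem hΛ0 hZ hZ2 (by linarith : Z₀ ≤ R') hy'
  obtain ⟨h3, h4⟩ := h1 Λ Z₀ R R' y y' (cc Z₀ R y) _ _ _ _ hΛ1 hZ hZ2 (by linarith) hRR hRR' hp.sol
    (hc ▸ hp'.sol) z hz
  have hR0 := hp.R_pos
  have he := ex_pos R z
  have hd : 0 ≤ R' - R := by linarith
  exact ⟨h3.trans (by gcongr), h4.trans (by gcongr)⟩

end Vale.Agent.P218F.Sym
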