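import Vale.Agent.P273.H604.ParHol

/-!
# P218F, block TIP: tools (fixed points of functions, linear differential inequalities, mixed
derivatives, divergence of the formal series)
-/

open Filter Topology Set Metric Function

noncomputable section

namespace Vale.Agent.P218F.Tip

/-- Picard iteration in a class of functions. -/
theorem exists_fix_fun {α : Type*} {A : Set α} {P : (α → ℂ) → Prop} {T : (α → ℂ) → α → ℂ} {M : ℝ}
    {f₀ : α → ℂ} (h0 : P f₀) (hT : ∀ f, P f → P (T f)) (hM : ∀ f, P f → ∀ x ∈ A, ‖f x‖ ≤ M)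
    (hc : ∀ f g d, P f → P g → (∀ x ∈ A, ‖f x - g x‖ ≤ d) → ∀ x ∈ A, ‖T f x - T g x‖ ≤ d / 2)
    (hl : ∀ (F : ℕ → α → ℂ) f, (∀ n, P (F n)) → TendstoUniformlyOn F f atTop A → P f) :
    ∃ f, P f ∧ ∀ x ∈ A, T f x = f x := by
  set F : ℕ → α → ℂ := fun n => T^[n] f₀ with hF
  have hs : ∀ n, F (n + 1) = T (F n) := fun n => iterate_succ_apply' T n f₀
  have hP : ∀ n, P (F n) := fun n => n.rec h0 fun n h => hs n ▸ hT _ h
  have hd : ∀ n, ∀ x ∈ A, ‖F n x - F (n + 1) x‖ ≤ 4 * M / 2 / 2 ^ n := by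
    intro n
    induction n with
    | zero =>
      intro x hx
      linarith [norm_sub_le (F 0 x) (F (0 + 1) x), hM _ (hP 0) x hx, hM _ (hP (0 + 1)) x hx]
    | succ n ih =>
      intro x hx
      have := hc _ _ _ (hP n) (hP (n + 1)) ih x hx
      rw [← hs, ← hs] at this
      refine this.trans (le_of_eq ?_)
      ring
  set f : α → ℂ := fun x => limUnder atTop fun n => F n x with hf
  have hb : ∀ n, ∀ x ∈ A, ‖F n x - f x‖ ≤ 4 * M / 2 ^ n := by
    intro n x hx
    have h1 : ∀ n, dist (F n x) (F (n + 1) x) ≤ 4 * M / 2 / 2 ^ n := fun n => by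
      rw [dist_eq_norm]; exact hd n x hx
    rw [← dist_eq_norm]
    exact dist_le_of_le_geometric_two_of_tendsto h1
      (cauchySeq_of_le_geometric_two h1).tendsto_limUnder n
  have h0' : Tendsto (fun n : ℕ => 4 * M / 2 ^ n) atTop (𝓝 0) :=
    tendsto_const_nhds.div_atTop (tendsto_pow_atTop_atTop_of_one_lt one_lt_two)
  have hu : TendstoUniformlyOn F f atTop A := by
    refine Metric.tendstoUniformlyOn_iff.2 fun ε hε => ?_
    filter_upwards [h0'.eventually (gt_mem_nhds hε)] with n hn x hx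
    rw [dist_comm, dist_eq_norm]
    exact (hb n x hx).trans_lt hn
  have hPf := hl F f hP hu
  refine ⟨f, hPf, fun x hx => ?_⟩
  rw [← sub_eq_zero, ← norm_le_zero_iff]
  refine ge_of_tendsto' h0' fun n => ?_
  have h1 := hc _ _ _ (hP n) hPf (hb n) x hx
  have h2 := hb (n + 1) x hx
  rw [hs] at h2
  have h3 : ‖T f x - f x‖ ≤ ‖T (F n) x - f x‖ + ‖T (F n) x - T f x‖ := by
    rw [show T f x - f x = (T (F n) x - f x) - (T (F n) x - T f x) by ring]
    exact norm_sub_le _ _
  have h4 : 4 * M / 2 ^ (n + 1) = 4 * M / 2 ^ n / 2 := by ring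
  linarith

/-- the derivative of `|f|² exp (-2 Γ)` for a solution of `f' = c f` -/
theorem dnormSq {f : ℝ → ℂ} {c : ℂ} {Γ : ℝ → ℝ} {g t : ℝ} {S : Set ℝ}
    (hf : HasDerivWithinAt f (c * f t) S t) (hΓ : HasDerivWithinAt Γ g S t) :
    HasDerivWithinAt (fun t => ‖f t‖ ^ 2 * Real.exp (-2 * Γ t))
      (2 * (c.re - g) * (‖f t‖ ^ 2 * Real.exp (-2 * Γ t))) S t := by
  refine (hf.norm_sq.mul (hΓ.const_mul (-2)).exp).congr_deriv ?_
  have : inner ℝ (f t) (c * f t) = c.re * ‖f t‖ ^ 2 := by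
    rw [Complex.sq_norm, Complex.normSq_apply, Complex.inner]
    simp only [Complex.mul_re, Complex.mul_im, Complex.conj_re, Complex.conj_im]
    ring
  rw [this]
  ring

theorem within_right {E : Type*} [NormedAddCommGroup E] [NormedSpace ℝ E] {f f' : ℝ → E} {a b : ℝ}
    (ha : 0 ≤ a) (h : ∀ t, 0 ≤ t → HasDerivWithinAt f (f' t) (Ici 0) t) :
    ContinuousOn f (Icc a b) ∧ ∀ x ∈ Ico a b, HasDerivWithinAt f (f' x) (Ici x) x :=
  ⟨fun t ht => (h t (ha.trans ht.1)).continuousWithinAt.mono fun _ hx => ha.trans hx.1,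
    fun t ht => (h t (ha.trans ht.1)).mono (Ici_subset_Ici.2 (ha.trans ht.1))⟩

/-- upper bound for solutions of `f' = c f` -/
theorem mono_le {f c : ℝ → ℂ} {Γ g : ℝ → ℝ}
    (hf : ∀ t, 0 ≤ t → HasDerivWithinAt f (c t * f t) (Ici 0) t)
    (hΓ : ∀ t, 0 ≤ t → HasDerivWithinAt Γ (g t) (Ici 0) t) (h : ∀ t, 0 ≤ t → (c t).re ≤ g t)
    {a b : ℝ} (ha : 0 ≤ a) (hab : a ≤ b) : ‖f b‖ ≤ ‖f a‖ * Real.exp (Γ b - Γ a) := by
  obtain ⟨h1, h2⟩ := within_right (b := b) ha fun t ht => dnormSq (hf t ht) (hΓ t ht)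
  have h3 := image_le_of_deriv_right_le_deriv_boundary h1 h2 (B' := fun _ => 0) le_rfl
    continuousOn_const (fun x _ => hasDerivWithinAt_const x _ _)
    (fun x hx => mul_nonpos_of_nonpos_of_nonneg (by linarith [h x (ha.trans hx.1)])
      (by positivity)) (right_mem_Icc.2 hab)
  refine (pow_le_pow_iff_left₀ (norm_nonneg _) (by positivity) two_ne_zero).1 ?_
  have h4 := mul_le_mul_of_nonneg_right h3 (Real.exp_pos (2 * Γ b)).le
  rw [mul_assoc, mul_assoc, ← Real.exp_add, ← Real.exp_add] at h4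
  rw [mul_pow, ← Real.exp_nat_mul]
  convert h4 using 2
  · simp
  · congr 1
    push_cast
    ring

/-- lower bound for solutions of `f' = c f` -/
theorem mono_ge {f c : ℝ → ℂ} {Γ g : ℝ → ℝ}
    (hf : ∀ t, 0 ≤ t → HasDerivWithinAt f (c t * f t) (Ici 0) t)
    (hΓ : ∀ t, 0 ≤ t → HasDerivWithinAt Γ (g t) (Ici 0) t) (h : ∀ t, 0 ≤ t → g t ≤ (c t).re)
    {a b : ℝ} (ha : 0 ≤ a) (hab : a ≤ b) : ‖f a‖ * Real.exp (Γ b - Γ a) ≤ ‖f b‖ := by
  obtain ⟨h1, h2⟩ := within_right (b := b) ha fun t ht => dnormSq (hf t ht) (hΓ t ht)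
  have h3 := image_le_of_deriv_right_le_deriv_boundary (f' := fun _ => 0) continuousOn_const
    (fun x _ => hasDerivWithinAt_const x _ _) le_rfl h1 h2
    (fun x hx => mul_nonneg (by linarith [h x (ha.trans hx.1)])
      (by positivity)) (right_mem_Icc.2 hab)
  refine (pow_le_pow_iff_left₀ (by positivity) (norm_nonneg _) two_ne_zero).1 ?_
  have h4 := mul_le_mul_of_nonneg_right h3 (Real.exp_pos (2 * Γ b)).le
  rw [mul_assoc, mul_assoc, ← Real.exp_add, ← Real.exp_add] at h4
  rw [mul_pow, ← Real.exp_nat_mul]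
  convert h4 using 2
  · congr 1
    push_cast
    ring
  · simp

/-- a function with an integrable derivative has a limit -/
theorem exists_lim {f f' : ℝ → ℂ} {G g : ℝ → ℝ}
    (hf : ∀ t, 0 ≤ t → HasDerivWithinAt f (f' t) (Ici 0) t)
    (hG : ∀ t, 0 ≤ t → HasDerivWithinAt G (-g t) (Ici 0) t) (h : ∀ t, 0 ≤ t → ‖f' t‖ ≤ g t)
    (h0 : Tendsto G atTop (𝓝 0)) :
    ∃ l, Tendsto f atTop (𝓝 l) ∧ ∀ a, 0 ≤ a → ‖f a - l‖ ≤ G a := by
  have key : ∀ a b, 0 ≤ a → a ≤ b → ‖f b - f a‖ ≤ G a - G b := by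
    intro a b ha hab
    obtain ⟨h1, h2⟩ := within_right (b := b) ha fun t ht => (hf t ht).sub_const (f a)
    obtain ⟨h3, h4⟩ := within_right (b := b) ha fun t ht => (hG t ht).const_sub (G a)
    exact image_norm_le_of_norm_deriv_right_le_deriv_boundary' h1 h2 (by simp) h3 h4
      (fun x hx => by simpa using h x (ha.trans hx.1)) (right_mem_Icc.2 hab)
  have hc : CauchySeq f := by
    refine Metric.cauchySeq_iff'.2 fun ε hε => ?_
    have h1 : ∀ᶠ a in atTop, |G a| < ε / 2 := by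
      simpa using h0.abs.eventually (gt_mem_nhds (by simpa using half_pos hε))
    obtain ⟨N, hN⟩ := eventually_atTop.1 (h1.and (eventually_ge_atTop 0))
    refine ⟨N, fun b hb => ?_⟩
    rw [dist_eq_norm]
    have h2 := abs_lt.1 (hN N le_rfl).1
    have h3 := abs_lt.1 (hN b hb).1
    linarith [key N b (hN N le_rfl).2 hb, h2.2, h3.1]
  obtain ⟨l, hl⟩ := cauchySeq_tendsto_of_complete hc
  refine ⟨l, hl, fun a ha => ?_⟩
  rw [norm_sub_rev]
  refine le_of_tendsto_of_tendsto (hl.sub_const (f a)).norm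
    (by simpa using h0.const_sub (G a) : Tendsto (fun b => G a - G b) atTop (𝓝 (G a))) ?_
  filter_upwards [eventually_ge_atTop a] with b hb using key a b ha hb

/-- solutions of `f' = c f` with an integrable coefficient -/
theorem exists_lim_lin {f c : ℝ → ℂ} {G g : ℝ → ℝ}
    (hf : ∀ t, 0 ≤ t → HasDerivWithinAt f (c t * f t) (Ici 0) t)
    (hG : ∀ t, 0 ≤ t → HasDerivWithinAt G (-g t) (Ici 0) t) (h : ∀ t, 0 ≤ t → ‖c t‖ ≤ g t)
    (h0 : Tendsto G atTop (𝓝 0)) (hp : ∀ t, 0 ≤ t → 0 ≤ G t) :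
    ∃ l, Tendsto f atTop (𝓝 l) ∧ (∀ a, 0 ≤ a → ‖f a‖ ≤ ‖f 0‖ * Real.exp (G 0)) ∧
      (∀ a, 0 ≤ a → ‖f a - l‖ ≤ ‖f 0‖ * Real.exp (G 0) * G a) ∧ (l = 0 → f 0 = 0) := by
  have h1 : ∀ a, 0 ≤ a → ‖f a‖ ≤ ‖f 0‖ * Real.exp (G 0) := by
    intro a ha
    refine (mono_le hf (Γ := fun t => -G t) (g := g) (fun t ht => by simpa using (hG t ht).fun_neg)
      (fun t ht => (Complex.re_le_norm _).trans (h t ht)) le_rfl ha).trans ?_
    gcongr
    linarith [hp a ha]
  obtain ⟨l, h2, h3⟩ := exists_lim hf (G := fun t => ‖f 0‖ * Real.exp (G 0) * G t)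
    (g := fun t => ‖f 0‖ * Real.exp (G 0) * g t)
    (fun t ht => by simpa using (hG t ht).const_mul (‖f 0‖ * Real.exp (G 0)))
    (fun t ht => by
      rw [norm_mul, mul_comm]
      exact mul_le_mul (h1 t ht) (h t ht) (norm_nonneg _) (by positivity))
    (by simpa using h0.const_mul (‖f 0‖ * Real.exp (G 0)))
  refine ⟨l, h2, h1, h3, fun hl => ?_⟩
  have h4 : ‖f 0‖ * Real.exp (-G 0) ≤ ‖l‖ := by
    refine ge_of_tendsto h2.norm ?_
    filter_upwards [eventually_ge_atTop 0] with b hb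
    refine le_trans ?_ (mono_ge hf hG
      (fun t ht => by linarith [h t ht, abs_le.1 (Complex.abs_re_le_norm (c t))]) le_rfl hb)
    gcongr
    linarith [hp b hb]
  rw [hl, norm_zero] at h4
  exact norm_le_zero_iff.1 (le_of_mul_le_mul_right (by simpa using h4) (Real.exp_pos (-G 0)))

/-- uniform limits of holomorphic functions -/
theorem lim_deriv {U : Set ℂ} (hU : IsOpen U) {F : ℝ → ℂ → ℂ} {Φ : ℂ → ℂ} {G : ℝ → ℝ}
    (hG : Tendsto G atTop (𝓝 0)) (hF : ∀ t, 0 ≤ t → DifferentiableOn ℂ (F t) U)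
    (hb : ∀ t, 0 ≤ t → ∀ z ∈ U, ‖F t z - Φ z‖ ≤ G t) :
    DifferentiableOn ℂ Φ U ∧ ∀ z ∈ U, Tendsto (fun t => deriv (F t) z) atTop (𝓝 (deriv Φ z)) := by
  have hu : TendstoUniformlyOn F Φ atTop U := by
    refine Metric.tendstoUniformlyOn_iff.2 fun ε hε => ?_
    filter_upwards [hG.eventually (gt_mem_nhds hε), eventually_ge_atTop 0] with t h1 h2 z hz
    rw [dist_comm, dist_eq_norm]
    exact (hb t h2 z hz).trans_lt h1
  have hd : ∀ᶠ t in atTop, DifferentiableOn ℂ (F t) U := (eventually_ge_atTop 0).mono hF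
  exact ⟨hu.tendstoLocallyUniformlyOn.differentiableOn hd hU,
    fun z hz => (hu.tendstoLocallyUniformlyOn.deriv hd hU).tendsto_at hz⟩

/-- the derivative in a complex parameter commutes with the derivative in time -/
theorem mixed {U : Set ℂ} (hU : IsOpen U) {f g : ℂ → ℝ → ℂ}
    (hf : ∀ t, 0 ≤ t → DifferentiableOn ℂ (fun z => f z t) U)
    (hg : ∀ t, 0 ≤ t → DifferentiableOn ℂ (fun z => g z t) U)
    (hc : ∀ z ∈ U, ∀ t, 0 ≤ t → ContinuousAt (fun p : ℝ × ℂ => g p.2 p.1) (t, z))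
    (hd : ∀ z ∈ U, ∀ t, 0 ≤ t → HasDerivAt (f z) (g z t) t) {y : ℂ} (hy : y ∈ U) {t : ℝ}
    (ht : 0 ≤ t) :
    HasDerivWithinAt (fun t => deriv (fun z => f z t) y) (deriv (fun z => g z t) y) (Ici 0) t := by
  obtain ⟨r, hr, hs⟩ := Metric.nhds_basis_closedBall.mem_iff.1 (hU.mem_nhds hy)
  rw [hasDerivWithinAt_iff_isLittleO, Asymptotics.isLittleO_iff]
  intro ε hε
  have h1 : ∀ᶠ τ in 𝓝 t, ∀ z ∈ closedBall y r, ‖g z τ - g z t‖ ≤ ε * r := by
    refine (isCompact_closedBall y r).eventually_forall_of_forall_eventually fun z hz => ?_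
    have h2 : ContinuousAt (fun p : ℝ × ℂ => g p.2 t) (t, z) :=
      ContinuousAt.comp (f := fun p : ℝ × ℂ => (t, p.2)) (x := (t, z)) (hc z (hs hz) t ht)
        (by fun_prop)
    exact (((hc z (hs hz) t ht).sub h2).norm.eventually_lt continuousAt_const
      (by simpa using mul_pos hε hr)).mono fun _ h => h.le
  obtain ⟨δ, hδ, h2⟩ := Metric.eventually_nhds_iff_ball.1 h1
  filter_upwards [mem_nhdsWithin_of_mem_nhds (ball_mem_nhds t hδ), self_mem_nhdsWithin]
    with τ h3 (h4 : 0 ≤ τ)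
  have hn := hU.mem_nhds hy
  have h5 : deriv (fun z => f z τ) y - deriv (fun z => f z t) y -
      (τ - t) • deriv (fun z => g z t) y =
      deriv (fun z => f z τ - f z t - (τ - t) • g z t) y :=
    (((((hf τ h4).differentiableAt hn).hasDerivAt.sub
      ((hf t ht).differentiableAt hn).hasDerivAt).sub
      (((hg t ht).differentiableAt hn).hasDerivAt.const_smul (τ - t))).deriv).symm
  rw [h5]
  refine (Complex.norm_deriv_le_of_forall_mem_sphere_norm_le (C := ε * r * ‖τ - t‖) hr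
    ((((hf τ h4).sub (hf t ht)).sub ((hg t ht).const_smul (τ - t))).diffContOnCl_ball hs)
    fun z hz => ?_).trans (le_of_eq (by field_simp))
  have hz' := sphere_subset_closedBall hz
  have h6 := Convex.norm_image_sub_le_of_norm_hasDerivWithin_le (𝕜 := ℝ)
    (f := fun σ : ℝ => f z σ - σ • g z t) (f' := fun σ => g z σ - g z t)
    (s := ball t δ ∩ Ici 0) (C := ε * r)
    (fun σ hσ => ((hd z (hs hz') σ hσ.2).sub
      (by simpa using (hasDerivAt_id σ).smul_const (g z t))).hasDerivWithinAt)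
    (fun σ hσ => h2 σ hσ.1 z hz') ((convex_ball t δ).inter (convex_Ici 0))
    ⟨mem_ball_self hδ, ht⟩ ⟨h3, h4⟩
  convert h6 using 2
  simp only [Pi.sub_apply, Pi.smul_apply, sub_smul]
  ring

section series

open PowerSeries

/-- the coefficients of the formal slow solution are positive and grow factorially -/
theorem coeff_grow {R : Type*} [CommRing R] [PartialOrder R] [IsOrderedRing R] {W : R⟦X⟧}
    (h0 : coeff 0 W = 0)
    (h : W * (1 - W) ^ 2 = X * (1 - 2 * W) + 2 * X ^ 2 * PowerSeries.derivative R W) (n : ℕ) :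
    (n.factorial : R) ≤ coeff (n + 2) W := by
  have hrec : ∀ n, coeff (n + 1) W = (if n = 0 then 1 else 0) + 2 * (n - 1 : R) * coeff n W +
      (2 * coeff (n + 1) (W * W) - coeff (n + 1) (W * W * W)) := by
    intro n
    have h1 : W = X * (1 - 2 * W + 2 * (X * PowerSeries.derivative R W)) +
        (2 * (W * W) - W * W * W) := by linear_combination h
    have h2 : coeff n (X * PowerSeries.derivative R W) = n * coeff n W := by
      rcases n with _ | n
      · simp
      · rw [coeff_succ_X_mul, coeff_derivative]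
        push_cast
        ring
    have h3 : ∀ (V : R⟦X⟧) k, coeff k (2 * V) = 2 * coeff k V := fun V k => by
      rw [two_mul, map_add, two_mul]
    conv_lhs => rw [h1]
    rw [map_add, coeff_succ_X_mul, map_add, map_sub, map_sub, h3, h3, h3, h2, coeff_one]
    ring
  have hpos : ∀ n, ∀ k ≤ n, 0 ≤ coeff k W ∧ coeff k (W * W) ≤ coeff k W := by
    intro n
    induction n with
    | zero =>
      intro k hk
      rw [Nat.le_zero.1 hk]
      simp [coeff_zero_eq_constantCoeff_apply] at h0 ⊢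
      simp [h0]
    | succ n ih =>
      intro k hk
      rcases Nat.of_le_succ hk with hk | rfl
      · exact ih k hk
      have h00 : coeff 0 (W * W) = 0 := by simp [coeff_mul, h0]
      have h1 : 0 ≤ coeff (n + 1) (W * W) := by
        rw [coeff_mul]
        refine Finset.sum_nonneg fun p hp => ?_
        rw [Finset.HasAntidiagonal.mem_antidiagonal] at hp
        rcases Nat.eq_zero_or_pos p.1 with h | h
        · simp [h, h0]
        rcases Nat.eq_zero_or_pos p.2 with h' | h'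
        · simp [h', h0]
        exact mul_nonneg (ih _ (by omega)).1 (ih _ (by omega)).1
      have h2 : coeff (n + 1) (W * W * W) ≤ coeff (n + 1) (W * W) := by
        rw [coeff_mul (n + 1) (W * W), coeff_mul (n + 1) W W]
        refine Finset.sum_le_sum fun p hp => ?_
        rw [Finset.HasAntidiagonal.mem_antidiagonal] at hp
        rcases Nat.eq_zero_or_pos p.1 with h | h
        · rw [h, h0, h00]
        rcases Nat.eq_zero_or_pos p.2 with h' | h'
        · simp [h', h0]
        exact mul_le_mul_of_nonneg_right (ih _ (by omega)).2 (ih _ (by omega)).1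
      have h3 : 0 ≤ (if n = 0 then 1 else 0) + 2 * (n - 1 : R) * coeff n W := by
        rcases n with _ | n
        · simp [h0]
        · simp only [Nat.add_eq_zero_iff, one_ne_zero, and_false, if_false, zero_add, Nat.cast_add,
            Nat.cast_one, add_sub_cancel_right]
          exact mul_nonneg (mul_nonneg zero_le_two n.cast_nonneg) (ih _ le_rfl).1
      have h4 : coeff (n + 1) (W * W) ≤ coeff (n + 1) W := by
        rw [hrec n, two_mul (coeff (n + 1) (W * W)), add_sub_assoc]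
        exact le_add_of_nonneg_of_le h3 (le_add_of_nonneg_right (sub_nonneg.2 h2))
      exact ⟨h1.trans h4, h4⟩
  have hsq : ∀ n, 0 ≤ 2 * coeff (n + 1) (W * W) - coeff (n + 1) (W * W * W) := by
    intro n
    have h1 : coeff (n + 1) (W * W * W) ≤ coeff (n + 1) (W * W) := by
      rw [coeff_mul (n + 1) (W * W), coeff_mul (n + 1) W W]
      exact Finset.sum_le_sum fun p _ =>
        mul_le_mul_of_nonneg_right (hpos _ _ le_rfl).2 (hpos _ _ le_rfl).1
    have h2 : 0 ≤ coeff (n + 1) (W * W) := by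
      rw [coeff_mul]
      exact Finset.sum_nonneg fun p _ => mul_nonneg (hpos _ _ le_rfl).1 (hpos _ _ le_rfl).1
    rw [two_mul, add_sub_assoc]
    exact add_nonneg h2 (sub_nonneg.2 h1)
  induction n with
  | zero =>
    have h1 : coeff 1 W = 1 := by
      rw [hrec 0]
      simp [coeff_mul, Finset.Nat.antidiagonal_succ, h0]
    have h2 : coeff 2 (W * W) = 1 := by simp [coeff_mul, Finset.Nat.antidiagonal_succ, h0, h1]
    simpa [h2] using (hpos 2 2 le_rfl).2
  | succ n ih =>
    rw [hrec (n + 2), Nat.factorial_succ]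
    refine le_add_of_le_of_nonneg ?_ (hsq _)
    simp only [Nat.add_eq_zero_iff, OfNat.ofNat_ne_zero, and_false, if_false, zero_add]
    have h1 : (0 : R) ≤ (n + 1 : ℕ) := Nat.cast_nonneg _
    have h2 := mul_le_mul_of_nonneg_left ih h1
    have h3 := mul_nonneg h1 (hpos _ (n + 2) le_rfl).1
    calc (((n + 1) * n.factorial : ℕ) : R) = ((n + 1 : ℕ) : R) * n.factorial := Nat.cast_mul _ _
      _ ≤ _ := h2
      _ ≤ _ := le_add_of_nonneg_right h3
      _ = _ := by push_cast; ring

/-- the Taylor series at `0` -/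
def tay (f : ℂ → ℂ) : ℂ⟦X⟧ := PowerSeries.mk fun n => iteratedDeriv n f 0 / n.factorial

theorem tay_congr {f g : ℂ → ℂ} (h : f =ᶠ[𝓝 0] g) : tay f = tay g := by
  ext n
  simp only [tay, coeff_mk, h.iteratedDeriv_eq n]

theorem tay_add {f g : ℂ → ℂ} (hf : AnalyticAt ℂ f 0) (hg : AnalyticAt ℂ g 0) :
    tay (f + g) = tay f + tay g := by
  ext n
  simp only [tay, coeff_mk, map_add, iteratedDeriv_add hf.contDiffAt hg.contDiffAt, add_div]

theorem tay_mul {f g : ℂ → ℂ} (hf : AnalyticAt ℂ f 0) (hg : AnalyticAt ℂ g 0) :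
    tay (f * g) = tay f * tay g := by
  ext n
  simp only [tay, coeff_mk, coeff_mul, iteratedDeriv_mul hf.contDiffAt hg.contDiffAt,
    Finset.Nat.sum_antidiagonal_eq_sum_range_succ_mk, Finset.sum_div]
  refine Finset.sum_congr rfl fun i hi => ?_
  have h1 : i ≤ n := Nat.lt_succ_iff.1 (Finset.mem_range.1 hi)
  have h2 : (n.factorial : ℂ) = n.choose i * i.factorial * (n - i).factorial := by
    exact_mod_cast (Nat.choose_mul_factorial_mul_factorial h1).symm
  have h3 : (n.choose i : ℂ) ≠ 0 := Nat.cast_ne_zero.2 (Nat.choose_pos h1).ne'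
  have h4 : ∀ k : ℕ, (k.factorial : ℂ) ≠ 0 := fun k => Nat.cast_ne_zero.2 k.factorial_ne_zero
  rw [h2]
  field_simp [h4 i, h4 (n - i)]

theorem tay_deriv (f : ℂ → ℂ) : tay (deriv f) = PowerSeries.derivative ℂ (tay f) := by
  ext n
  have h4 : ∀ k : ℕ, (k.factorial : ℂ) ≠ 0 := fun k => Nat.cast_ne_zero.2 k.factorial_ne_zero
  have h5 : (n + 1 : ℂ) ≠ 0 := by exact_mod_cast n.succ_ne_zero
  simp only [tay, coeff_mk, coeff_derivative, iteratedDeriv_succ', Nat.factorial_succ]
  push_cast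
  field_simp [h4 n]

theorem tay_id : tay id = X := by
  ext n
  simp only [tay, coeff_mk, coeff_X]
  rcases n with _ | _ | n
  · simp
  · simp
  · rw [iteratedDeriv_succ', deriv_id', iteratedDeriv_succ']
    simp

/-- The equation of the slow solution has no solution which is holomorphic at infinity. -/
theorem no_analytic {w : ℂ → ℂ} (hw : AnalyticAt ℂ w 0) (h0 : w 0 ≠ 1)
    (h : ∀ᶠ x in 𝓝[≠] 0, w x * (1 - w x) ^ 2 = x * (1 - 2 * w x) + 2 * x ^ 2 * deriv w x) :
    False := by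
  have hi : AnalyticAt ℂ (id : ℂ → ℂ) 0 := analyticAt_id
  have h1 : w + w * w * w + id * w + id * w =ᶠ[𝓝 0]
      id + (w * w + w * w) + (id * id * deriv w + id * id * deriv w) := by
    refine AnalyticAt.frequently_eq_iff_eventually_eq (by fun_prop) (by fun_prop) |>.1
      (Eventually.frequently ?_)
    filter_upwards [h] with x hx
    simp only [Pi.add_apply, Pi.mul_apply, id]
    linear_combination hx
  have h2 := tay_congr h1
  have hd := hw.deriv
  rw [tay_add (by fun_prop) (by fun_prop), tay_add (by fun_prop) (by fun_prop),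
    tay_add (by fun_prop) (by fun_prop), tay_add (by fun_prop) (by fun_prop),
    tay_add (by fun_prop) (by fun_prop), tay_add (by fun_prop) (by fun_prop),
    tay_add (by fun_prop) (by fun_prop), tay_mul (by fun_prop) hw, tay_mul hw hw, tay_mul hi hw,
    tay_mul (by fun_prop) hd, tay_mul hi hi, tay_id, tay_deriv] at h2
  have h3 : w 0 = 0 := by
    have h4 := h1.eq_of_nhds
    simp only [Pi.add_apply, Pi.mul_apply, id, zero_mul, add_zero, zero_add] at h4
    have h5 : w 0 * (1 - w 0) ^ 2 = 0 := by linear_combination h4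
    exact (mul_eq_zero.1 h5).resolve_right (pow_ne_zero _ (sub_ne_zero.2 h0.symm))
  have h4 : ∀ n : ℕ, (n.factorial : ℝ) ≤ ‖coeff (n + 2) (tay w)‖ := by
    intro n
    open ComplexOrder in
    have h5 := coeff_grow (W := tay w) (by simp [tay, h3]) (by linear_combination h2) n
    have h6 := (Complex.le_def.1 h5).1
    rw [Complex.natCast_re] at h6
    exact h6.trans (Complex.re_le_norm _)
  obtain ⟨r, hr, hs⟩ := Metric.nhds_basis_closedBall.mem_iff.1 hw.eventually_analyticAt
  have h5 : DifferentiableOn ℂ w (closedBall 0 r) := fun x hx =>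
    (hs hx).differentiableAt.differentiableWithinAt
  obtain ⟨C, hC⟩ := (isCompact_closedBall (0 : ℂ) r).exists_bound_of_continuousOn h5.continuousOn
  have h6 : ∀ n : ℕ, 1 ≤ C / r ^ 2 * ((1 / r) ^ n / n.factorial) := by
    intro n
    have h7 := Complex.norm_iteratedDeriv_le_of_forall_mem_sphere_norm_le (n + 2) hr
      (h5.diffContOnCl_ball subset_rfl) fun z hz => hC z (sphere_subset_closedBall hz)
    have h8 := h4 n
    have h9 : ∀ k : ℕ, (0 : ℝ) < k.factorial := fun k => Nat.cast_pos.2 k.factorial_pos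
    simp only [tay, coeff_mk, norm_div, Complex.norm_natCast] at h8
    rw [le_div_iff₀ (h9 _)] at h8
    have h10 := h8.trans h7
    rw [mul_div_assoc, mul_comm, mul_le_mul_iff_right₀ (h9 _)] at h10
    rw [← mul_div_assoc, le_div_iff₀ (h9 _), one_mul]
    refine h10.trans (le_of_eq ?_)
    rw [one_div, inv_pow]
    field_simp
    ring
  have h7 := (FloorSemiring.tendsto_pow_div_factorial_atTop (1 / r)).const_mul (C / r ^ 2)
  have h8 := ge_of_tendsto' h7 h6
  norm_num at h8

end series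

end Vale.Agent.P218F.Tip
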