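import Vale.Agent.P218F.TipA

/-!
# P218F, block TIP: the trajectories with Neumann data and the slow solutions
-/

open Filter Topology Set Metric Function MeasureTheory

noncomputable section

namespace Vale.Agent.P218F.Tip

open Vale.Agent.P273.H604

/-- the right side of the equation of `u` -/
def Fu (s u : ℂ) : ℂ := 1 - u + u ^ 2 * (2 - u) / s

/-- the half plane of initial values -/
def HH : Set ℂ := {y | 300 < y.re}

theorem isOpen_HH : IsOpen HH := isOpen_lt continuous_const Complex.continuous_re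

/-- retraction on the closed half plane -/
def yc (y : ℂ) : ℂ := y + (max (300 - y.re) 0 : ℝ)

theorem yc_re (y : ℂ) : 300 ≤ (yc y).re := by
  simp only [yc, Complex.add_re, Complex.ofReal_re]
  linarith [le_max_left (300 - y.re) 0]

theorem yc_eq {y : ℂ} (hy : y ∈ HH) : yc y = y := by
  rw [yc, max_eq_right (by linarith [show 300 < y.re from hy])]
  simp

theorem continuous_yc : Continuous yc := by unfold yc; fun_prop

theorem norm_sh_ge {y s : ℂ} {t : ℝ} (hy : 300 ≤ y.re) (ht : 0 ≤ t)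
    (h : ‖s - (y + 2 * t)‖ ≤ 2 + t / 5) : ‖y‖ + t ≤ 2 * ‖s‖ := by
  have h1 : 3 / 5 * ‖y‖ + 8 / 5 * t ≤ ‖y + 2 * t‖ := by
    refine (pow_le_pow_iff_left₀ (by positivity) (norm_nonneg _) two_ne_zero).1 ?_
    have h2 : ‖y + 2 * t‖ ^ 2 = ‖y‖ ^ 2 + 4 * t * y.re + 4 * t ^ 2 := by
      simp only [Complex.sq_norm, Complex.normSq_apply, Complex.add_re, Complex.add_im,
        Complex.mul_re, Complex.mul_im, Complex.re_ofNat, Complex.im_ofNat, Complex.ofReal_re,
        Complex.ofReal_im]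
      ring
    nlinarith [sq_nonneg (4 / 5 * ‖y‖ - 6 / 5 * t)]
  have h2 : ‖y + 2 * t‖ ≤ ‖s‖ + ‖s - (y + 2 * t)‖ := by
    simpa using norm_sub_le s (s - (y + 2 * t))
  linarith [Complex.re_le_norm y]

def uw (w : ℂ × ℝ → ℂ) (p : ℂ × ℝ) : ℂ := 1 - (Real.exp (-max p.2 0) : ℝ) + w p

def sw (w : ℂ × ℝ → ℂ) (p : ℂ × ℝ) : ℂ := yc p.1 + ∫ τ in (0 : ℝ)..max p.2 0, 2 * uw w (p.1, τ)

def Hw (w : ℂ × ℝ → ℂ) (p : ℂ × ℝ) : ℂ := uw w p ^ 2 * (2 - uw w p) / sw w p

def Tw (w : ℂ × ℝ → ℂ) (p : ℂ × ℝ) : ℂ :=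
  ∫ τ in (0 : ℝ)..max p.2 0, (Real.exp (τ - max p.2 0) : ℝ) * Hw w (p.1, τ)

/-- the class of functions of the iteration -/
structure Cl (w : ℂ × ℝ → ℂ) : Prop where
  cont : Continuous w
  bd : ∀ p, ‖w p‖ ≤ 24 / (‖yc p.1‖ + max p.2 0)
  hol : ∀ t, DifferentiableOn ℂ (fun y => w (y, t)) HH

theorem bb_ge (p : ℂ × ℝ) : 300 ≤ ‖yc p.1‖ + max p.2 0 := by
  linarith [yc_re p.1, Complex.re_le_norm (yc p.1), le_max_right p.2 0]

theorem int_exp_le {c t : ℝ} (hc : 0 < c) : ∫ τ in (0 : ℝ)..t, Real.exp (c * (τ - t)) ≤ 1 / c := by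
  have h : ∀ τ ∈ uIcc 0 t, HasDerivAt (fun τ => Real.exp (c * (τ - t)) / c)
      (Real.exp (c * (τ - t))) τ := fun τ _ => by
    have := (((hasDerivAt_id τ).sub_const t).const_mul c).exp.div_const c
    simpa [hc.ne'] using this
  rw [intervalIntegral.integral_eq_sub_of_hasDerivAt h (Continuous.intervalIntegrable (by fun_prop) _ _)]
  have : 0 < Real.exp (c * (0 - t)) / c := by positivity
  simp only [sub_self, mul_zero, Real.exp_zero]
  linarith

namespace Cl

variable {w : ℂ × ℝ → ℂ} (h : Cl w)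
include h

theorem sm (p : ℂ × ℝ) : ‖w p‖ ≤ 2 / 25 :=
  (h.bd p).trans (by rw [div_le_iff₀ (by linarith [bb_ge p])]; linarith [bb_ge p])

theorem cu : Continuous (uw w) := by
  have := h.cont
  unfold uw
  fun_prop

omit h in
theorem u1 (p : ℂ × ℝ) : ‖uw w p - 1‖ ≤ Real.exp (-max p.2 0) + ‖w p‖ := by
  rw [uw, show ∀ a b : ℂ, 1 - a + b - 1 = b - a from fun a b => by ring]
  refine (norm_sub_le _ _).trans ?_
  rw [Complex.norm_real, Real.norm_of_nonneg (Real.exp_pos _).le, add_comm]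

theorem nu (p : ℂ × ℝ) : ‖uw w p‖ ≤ 27 / 25 := by
  have h1 : Real.exp (-max p.2 0) ≤ 1 := Real.exp_le_one_iff.2 (by simp)
  have h2 : ‖(1 : ℂ) - (Real.exp (-max p.2 0) : ℝ)‖ ≤ 1 := by
    rw [← Complex.ofReal_one, ← Complex.ofReal_sub, Complex.norm_real, Real.norm_eq_abs, abs_le]
    constructor <;> linarith [Real.exp_pos (-max p.2 0)]
  linarith [norm_add_le ((1 : ℂ) - (Real.exp (-max p.2 0) : ℝ)) (w p), h.sm p, show
    ‖uw w p‖ = ‖(1 : ℂ) - (Real.exp (-max p.2 0) : ℝ) + w p‖ from rfl]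

theorem np (p : ℂ × ℝ) : ‖uw w p ^ 2 * (2 - uw w p)‖ ≤ 3 := by
  have h1 : Real.exp (-max p.2 0) ≤ 1 := Real.exp_le_one_iff.2 (by simp)
  have h2 : ‖2 - uw w p‖ ≤ 1 + ‖uw w p - 1‖ := by
    rw [show 2 - uw w p = 1 - (uw w p - 1) by ring]
    simpa using norm_sub_le 1 (uw w p - 1)
  have h3 := pow_le_pow_left₀ (norm_nonneg _) (h.nu p) 2
  rw [norm_mul, norm_pow]
  nlinarith [u1 (w := w) p, h.sm p, norm_nonneg (2 - uw w p)]

theorem cs : Continuous (sw w) := by
  have := h.cu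
  exact (continuous_yc.comp continuous_fst).add
    (intervalIntegral.continuous_parametric_intervalIntegral_of_continuous
      (f := fun (p : ℂ × ℝ) τ => 2 * uw w (p.1, τ)) (by fun_prop) (by fun_prop))

theorem ds (y : ℂ) (t : ℝ) :
    HasDerivAt (fun t => ∫ τ in (0 : ℝ)..t, 2 * uw w (y, τ)) (2 * uw w (y, t)) t := by
  have := h.cu
  exact (Continuous.integral_hasStrictDerivAt (f := fun τ => 2 * uw w (y, τ)) (by fun_prop)
    0 t).hasDerivAt

theorem sb (y : ℂ) {t : ℝ} (ht : 0 ≤ t) :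
    ‖(∫ τ in (0 : ℝ)..t, 2 * uw w (y, τ)) - 2 * t‖ ≤ 2 + min (t / 5) (48 * Real.log (1 + t)) := by
  have h1 : ∀ t : ℝ, 0 ≤ t → HasDerivWithinAt (fun t : ℝ => (∫ τ in (0 : ℝ)..t, 2 * uw w (y, τ)) - 2 * t)
      (2 * (uw w (y, t) - 1)) (Ici 0) t := fun t _ =>
    (((h.ds y t).sub (Complex.ofRealCLM.hasDerivAt.const_mul 2)).congr_deriv
      (by simp; ring)).hasDerivWithinAt
  obtain ⟨h2, h3⟩ := within_right (b := t) le_rfl h1
  have h4 : ∀ x, HasDerivAt (fun t : ℝ => 2 - 2 * Real.exp (-t)) (2 * Real.exp (-x)) x := fun x => by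
    simpa using ((hasDerivAt_neg x).exp.const_mul 2).const_sub 2
  have h5 : ∀ x ∈ Ico 0 t, ‖2 * (uw w (y, x) - 1)‖ ≤ 2 * Real.exp (-x) + 2 * ‖w (y, x)‖ := by
    intro x hx
    have := u1 (w := w) (y, x)
    rw [max_eq_left hx.1] at this
    rw [norm_mul, Complex.norm_ofNat]
    linarith
  have h6 := Real.exp_pos (-t)
  rw [← min_add_add_left, le_min_iff]
  constructor
  · have := image_norm_le_of_norm_deriv_right_le_deriv_boundary h2 h3
      (B := fun t => 2 - 2 * Real.exp (-t) + t / 5) (by simp)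
      (fun x => (h4 x).add ((hasDerivAt_id x).div_const 5))
      (fun x hx => by linarith [h5 x hx, h.sm (y, x)]) (right_mem_Icc.2 ht)
    linarith
  · obtain ⟨h7, h8⟩ := within_right (b := t) le_rfl
      (f := fun t => 2 - 2 * Real.exp (-t) + 48 * Real.log (1 + t))
      (f' := fun t => 2 * Real.exp (-t) + 48 * (1 / (1 + t))) fun x hx =>
      ((h4 x).add ((((hasDerivAt_id x).const_add 1).log
        (by simp only [id]; linarith)).const_mul 48)).hasDerivWithinAt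
    have := image_norm_le_of_norm_deriv_right_le_deriv_boundary' h2 h3 (by simp) h7 h8
      (fun x hx => by
        have h9 := h.bd (y, x)
        have h10 : 24 / (‖yc y‖ + max x 0) ≤ 24 * (1 / (1 + x)) := by
          rw [max_eq_left hx.1, mul_one_div]
          have := hx.1
          gcongr
          linarith [yc_re y, Complex.re_le_norm (yc y)]
        linarith [h5 x hx]) (right_mem_Icc.2 ht)
    linarith

theorem ns (p : ℂ × ℝ) : ‖yc p.1‖ + max p.2 0 ≤ 2 * ‖sw w p‖ := by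
  refine norm_sh_ge (yc_re _) (le_max_right _ _) ?_
  rw [sw, add_sub_add_left_eq_sub]
  exact (h.sb p.1 (le_max_right _ _)).trans (by gcongr; exact min_le_left _ _)

theorem s0 (p : ℂ × ℝ) : sw w p ≠ 0 := norm_pos_iff.1 (by linarith [h.ns p, bb_ge p])

theorem nH (p : ℂ × ℝ) : ‖Hw w p‖ ≤ 6 / (‖yc p.1‖ + max p.2 0) := by
  rw [Hw, norm_div, div_le_div_iff₀ (norm_pos_iff.2 (h.s0 p)) (by linarith [bb_ge p])]
  nlinarith [h.np p, h.ns p, bb_ge p, norm_nonneg (uw w p ^ 2 * (2 - uw w p))]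

theorem cH : Continuous (Hw w) := by
  have := h.cu
  exact Continuous.div (by fun_prop) h.cs h.s0

theorem hu (t : ℝ) : DifferentiableOn ℂ (fun y => uw w (y, t)) HH :=
  (h.hol t).const_add ((1 : ℂ) - ((Real.exp (-max t 0) : ℝ) : ℂ))

theorem hint {t : ℝ} (ht : 0 ≤ t) :
    DifferentiableOn ℂ (fun y => ∫ τ in (0 : ℝ)..t, 2 * uw w (y, τ)) HH := by
  have := h.cu
  exact differentiableOn_intervalIntegral isOpen_HH ht (f := fun y τ => 2 * uw w (y, τ))
    (by fun_prop) fun t _ => (h.hu t).const_mul 2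

theorem hs (t : ℝ) : DifferentiableOn ℂ (fun y => sw w (y, t)) HH :=
  (differentiableOn_id.congr fun _ hy => yc_eq hy).add (h.hint (le_max_right _ _))

theorem hH (t : ℝ) : DifferentiableOn ℂ (fun y => Hw w (y, t)) HH :=
  (((h.hu t).pow 2).mul ((h.hu t).const_sub 2)).div (h.hs t) fun _ _ => h.s0 _

theorem step : Cl (Tw w) := by
  have hc := h.cH
  refine ⟨intervalIntegral.continuous_parametric_intervalIntegral_of_continuous
    (f := fun (p : ℂ × ℝ) τ => (Real.exp (τ - max p.2 0) : ℝ) * Hw w (p.1, τ))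
    (by fun_prop) (by fun_prop), fun p => ?_, fun t => ?_⟩
  · have hb := bb_ge p
    have hy : 1 ≤ ‖yc p.1‖ := by linarith [yc_re p.1, Complex.re_le_norm (yc p.1)]
    set t := max p.2 0 with ht
    set b := ‖yc p.1‖ with hb'
    refine (intervalIntegral.norm_integral_le_of_norm_le (le_max_right _ _)
      (g := fun τ => 12 / (b + t) * Real.exp (1 / 2 * (τ - t)))
      (Eventually.of_forall fun τ hτ => ?_) (Continuous.intervalIntegrable (by fun_prop) _ _)).trans ?_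
    · have h1 := h.nH (p.1, τ)
      rw [max_eq_left hτ.1.le] at h1
      have h2 : 0 < b + τ := by linarith [hτ.1]
      have h3 : 6 / (b + τ) ≤ 12 / (b + t) * Real.exp (1 / 2 * (t - τ)) := by
        rw [div_mul_eq_mul_div, div_le_div_iff₀ h2 (by linarith)]
        have h4 := Real.add_one_le_exp (1 / 2 * (t - τ))
        have h5 : τ ≤ t := hτ.2
        nlinarith [mul_nonneg (sub_nonneg.2 h5) (show 0 ≤ b + τ - 1 by linarith [hτ.1]),
          mul_le_mul_of_nonneg_right h4 h2.le]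
      rw [norm_mul, Complex.norm_real, Real.norm_of_nonneg (Real.exp_pos _).le]
      refine (mul_le_mul_of_nonneg_left (h1.trans h3) (Real.exp_pos _).le).trans (le_of_eq ?_)
      rw [mul_left_comm, ← Real.exp_add]
      congr 2
      ring
    · rw [intervalIntegral.integral_const_mul]
      refine (mul_le_mul_of_nonneg_left (int_exp_le one_half_pos) (by positivity)).trans
        (le_of_eq (by ring))
  · exact differentiableOn_intervalIntegral isOpen_HH (le_max_right t 0)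
      (f := fun y τ => (Real.exp (τ - max t 0) : ℝ) * Hw w (y, τ)) (by fun_prop)
      fun τ _ => (h.hH τ).const_mul _

theorem contr {w' : ℂ × ℝ → ℂ} (h' : Cl w') {d : ℝ} (hd : ∀ p, ‖w p - w' p‖ ≤ d) (p : ℂ × ℝ) :
    ‖Tw w p - Tw w' p‖ ≤ d / 2 := by
  have d0 : 0 ≤ d := (norm_nonneg _).trans (hd p)
  have h1 : ∀ q, ‖uw w q - uw w' q‖ ≤ d := fun q => by
    rw [uw, uw, add_sub_add_left_eq_sub]; exact hd q
  have c1 := h.cu
  have c2 := h'.cu
  have c3 := h.cH
  have c4 := h'.cH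
  have h2 : ∀ q, ‖sw w q - sw w' q‖ ≤ 2 * d * max q.2 0 := fun q => by
    rw [sw, sw, add_sub_add_left_eq_sub, ← intervalIntegral.integral_sub
      (Continuous.intervalIntegrable (by fun_prop) _ _)
      (Continuous.intervalIntegrable (by fun_prop) _ _)]
    refine (intervalIntegral.norm_integral_le_of_norm_le_const (C := 2 * d) fun τ _ => ?_).trans
      (by rw [sub_zero, abs_of_nonneg (le_max_right _ _)])
    rw [← mul_sub, norm_mul, Complex.norm_ofNat]
    linarith [h1 (q.1, τ)]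
  have h3 : ∀ q, ‖Hw w q - Hw w' q‖ ≤ d / 2 := fun q => by
    have e : Hw w q - Hw w' q = (uw w q - uw w' q) * (2 * (uw w q + uw w' q) -
        (uw w q ^ 2 + uw w q * uw w' q + uw w' q ^ 2)) / sw w q -
        Hw w' q * (sw w q - sw w' q) / sw w q := by
      have := h.s0 q
      have := h'.s0 q
      simp only [Hw]
      field_simp
      ring
    have n1 := h.nu q
    have n2 := h'.nu q
    have n3 : ‖2 * (uw w q + uw w' q) - (uw w q ^ 2 + uw w q * uw w' q + uw w' q ^ 2)‖ ≤ 8 := by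
      refine (norm_sub_le _ _).trans ?_
      have a1 := norm_add_le (uw w q) (uw w' q)
      have a2 := norm_add₃_le (a := uw w q ^ 2) (b := uw w q * uw w' q) (c := uw w' q ^ 2)
      rw [norm_mul, norm_pow, norm_pow] at a2
      rw [norm_mul, Complex.norm_ofNat]
      nlinarith [norm_nonneg (uw w q), norm_nonneg (uw w' q)]
    have n4 : ‖Hw w' q * (sw w q - sw w' q)‖ ≤ 12 * d := by
      rw [norm_mul]
      refine (mul_le_mul (h'.nH q) (h2 q) (norm_nonneg _)
        (by linarith [norm_nonneg (Hw w' q), h'.nH q])).trans ?_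
      rw [div_mul_eq_mul_div, div_le_iff₀ (by linarith [bb_ge q])]
      nlinarith [norm_nonneg (yc q.1)]
    have n5 : 150 ≤ ‖sw w q‖ := by linarith [h.ns q, bb_ge q]
    rw [e, ← sub_div, norm_div, div_le_iff₀ (by linarith)]
    refine (norm_sub_le _ _).trans ?_
    rw [norm_mul]
    nlinarith [mul_le_mul (h1 q) n3 (norm_nonneg _) d0]
  rw [Tw, Tw, ← intervalIntegral.integral_sub (Continuous.intervalIntegrable (by fun_prop) _ _)
    (Continuous.intervalIntegrable (by fun_prop) _ _)]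
  refine (intervalIntegral.norm_integral_le_of_norm_le (le_max_right _ _)
    (g := fun τ => d / 2 * Real.exp (1 * (τ - max p.2 0)))
    (Eventually.of_forall fun τ _ => ?_) (Continuous.intervalIntegrable (by fun_prop) _ _)).trans ?_
  · rw [← mul_sub, norm_mul, Complex.norm_real, Real.norm_of_nonneg (Real.exp_pos _).le, one_mul,
      mul_comm]
    exact mul_le_mul_of_nonneg_right (h3 _) (Real.exp_pos _).le
  · rw [intervalIntegral.integral_const_mul]
    exact (mul_le_mul_of_nonneg_left (int_exp_le one_pos) (by positivity)).trans (by simp)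

end Cl

/-- the family of trajectories with Neumann data -/
structure Traj (s u : ℂ → ℝ → ℂ) : Prop where
  cs : Continuous fun p : ℝ × ℂ => s p.2 p.1
  cu : Continuous fun p : ℝ × ℂ => u p.2 p.1
  hs : ∀ t, 0 ≤ t → DifferentiableOn ℂ (fun y => s y t) HH
  hu : ∀ t, 0 ≤ t → DifferentiableOn ℂ (fun y => u y t) HH
  s0 : ∀ y ∈ HH, s y 0 = y
  u0 : ∀ y ∈ HH, u y 0 = 0
  ds : ∀ y ∈ HH, ∀ t, 0 ≤ t → HasDerivAt (s y) (2 * u y t) t
  du : ∀ y ∈ HH, ∀ t, 0 ≤ t → HasDerivAt (u y) (Fu (s y t) (u y t)) t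
  bu : ∀ y ∈ HH, ∀ t, 0 ≤ t → ‖u y t - (1 - (Real.exp (-t) : ℝ))‖ ≤ 24 / (‖y‖ + t)
  bs : ∀ y ∈ HH, ∀ t, 0 ≤ t → ‖s y t - (y + 2 * t)‖ ≤ 2 + min (t / 5) (48 * Real.log (1 + t))

theorem exists_traj : ∃ s u, Traj s u := by
  obtain ⟨w, h, hw⟩ := exists_fix_fun (A := univ) (P := Cl) (T := Tw) (M := 2 / 25) (f₀ := 0)
    ⟨continuous_zero, fun p => by have := bb_ge p; simp only [Pi.zero_apply, norm_zero]; positivity,
      fun _ => differentiableOn_const 0⟩ (fun _ h => h.step) (fun _ h p _ => h.sm p)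
    (fun _ _ _ h h' hd p _ => h.contr h' (fun q => hd q trivial) p)
    (fun F f hF hu => ⟨(tendstoUniformlyOn_univ.1 hu).continuous
        (Frequently.of_forall fun n => (hF n).cont),
      fun p => le_of_tendsto' (hu.tendsto_at (mem_univ p)).norm fun n => (hF n).bd p,
      fun t => (((hu.comp fun y => (y, t)).mono (subset_univ HH)).tendstoLocallyUniformlyOn).differentiableOn
        (Eventually.of_forall fun n => (hF n).hol t) isOpen_HH⟩)
  have hc := h.cH
  have hc' := h.cu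
  set u : ℂ → ℝ → ℂ := fun y t => 1 - (Real.exp (-t) : ℝ) +
    (Real.exp (-t) : ℝ) * ∫ τ in (0 : ℝ)..t, (Real.exp τ : ℝ) * Hw w (y, τ) with hu
  have e1 : ∀ y t, 0 ≤ t → u y t = uw w (y, t) := by
    intro y t ht
    simp only [hu, uw, max_eq_left ht]
    rw [← hw (y, t) trivial, Tw, max_eq_left ht, ← intervalIntegral.integral_const_mul]
    congr 2
    funext τ
    rw [← mul_assoc, ← Complex.ofReal_mul, ← Real.exp_add, neg_add_eq_sub]
  have e2 : ∀ y t, 0 ≤ t → yc y + ∫ τ in (0 : ℝ)..t, 2 * uw w (y, τ) = sw w (y, t) :=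
    fun y t ht => by simp only [sw, max_eq_left ht]
  refine ⟨fun y t => yc y + ∫ τ in (0 : ℝ)..t, 2 * uw w (y, τ), u, ?_, ?_, fun t ht => ?_,
    fun t ht => ?_, fun y hy => by simp [yc_eq hy], fun y _ => by simp [hu], fun y _ t ht => ?_,
    fun y _ t ht => ?_, fun y hy t ht => ?_, fun y hy t ht => ?_⟩
  · exact (continuous_yc.comp continuous_snd).add
      (intervalIntegral.continuous_parametric_intervalIntegral_of_continuous
        (f := fun (p : ℝ × ℂ) τ => 2 * uw w (p.2, τ)) (by fun_prop) continuous_fst)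
  · have := intervalIntegral.continuous_parametric_intervalIntegral_of_continuous (a₀ := 0)
      (μ := volume) (f := fun (p : ℝ × ℂ) τ => (Real.exp τ : ℝ) * Hw w (p.2, τ)) (by fun_prop)
      continuous_fst
    simp only [hu]
    fun_prop
  · simp only [e2 _ t ht]
    exact h.hs t
  · simp only [e1 _ t ht]
    exact h.hu t
  · rw [e1 y t ht]
    exact (h.ds y t).const_add _
  · have d1 : HasDerivAt (fun t : ℝ => ((Real.exp (-t) : ℝ) : ℂ)) (-(Real.exp (-t) : ℝ)) t := by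
      simpa using (hasDerivAt_neg t).exp.ofReal_comp
    have d2 := (Continuous.integral_hasStrictDerivAt
      (f := fun τ => ((Real.exp τ : ℝ) : ℂ) * Hw w (y, τ)) (by fun_prop) 0 t).hasDerivAt
    refine ((d1.const_sub 1).add (d1.mul d2)).congr_deriv ?_
    have e3 : ((Real.exp (-t) : ℝ) : ℂ) * (Real.exp t : ℝ) = 1 := by
      rw [← Complex.ofReal_mul, ← Real.exp_add]
      simp
    have e4 : Hw w (y, t) = u y t ^ 2 * (2 - u y t) / sw w (y, t) := by rw [e1 y t ht, Hw]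
    rw [Fu, e2 y t ht, ← e4, ← mul_assoc, e3]
    simp only [hu]
    ring
  · have := h.bd (y, t)
    rw [yc_eq hy, max_eq_left ht] at this
    rw [e1 y t ht, uw, max_eq_left ht, add_sub_cancel_left]
    exact this
  · simp only [yc_eq hy, add_sub_add_left_eq_sub]
    exact h.sb y ht

/-! ### The slow solutions -/

/-- the domain of the slow solution, `ε = 1` or `ε = -1` -/
def DD (ε : ℝ) : Set ℂ := {s | 200 < s.re + ε * s.im ∨ 200 < ε * s.im - s.re}

/-- the direction of integration -/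
def om (ε : ℝ) : ℂ := 1 - ε * Complex.I

def Nv (s v : ℂ) : ℂ := v ^ 2 / (2 * (1 + v)) + (1 - v ^ 2) / (2 * s)

def Mv (s a b : ℂ) : ℂ := (a + b + a * b) / (2 * ((1 + a) * (1 + b))) - (a + b) / (2 * s)

def ker (ε : ℝ) (n : ℂ → ℂ) (s : ℂ) (τ : ℝ) : ℂ :=
  om ε * Complex.exp (-(τ * om ε) / 2) * n (s - τ * om ε)

def Op (ε : ℝ) (n : ℂ → ℂ) (s : ℂ) : ℂ := ∫ τ in Ioi (0 : ℝ), ker ε n s τ

theorem isOpen_DD (ε : ℝ) : IsOpen (DD ε) :=
  (isOpen_lt (g := fun s : ℂ => s.re + ε * s.im) continuous_const (by fun_prop)).union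
    (isOpen_lt (g := fun s : ℂ => ε * s.im - s.re) continuous_const (by fun_prop))

theorem one_add_ge {v : ℂ} (hv : ‖v‖ ≤ 1 / 20) : 19 / 20 ≤ ‖1 + v‖ := by
  have := norm_sub_le (1 + v) v
  simp only [add_sub_cancel_right, norm_one] at this
  linarith

theorem Nv_le {s v : ℂ} (hs : 100 ≤ ‖s‖) (hv : ‖v‖ ≤ 1 / 20) : ‖Nv s v‖ ≤ 1 / 100 := by
  have h1 := one_add_ge hv
  have h2 : ‖v‖ ^ 2 ≤ (1 / 20) ^ 2 := pow_le_pow_left₀ (norm_nonneg _) hv 2
  have h3 : ‖v ^ 2 / (2 * (1 + v))‖ ≤ 1 / 400 := by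
    rw [norm_div, norm_mul, norm_pow, Complex.norm_ofNat, div_le_iff₀ (by linarith)]
    linarith
  have h4 : ‖(1 - v ^ 2) / (2 * s)‖ ≤ 1 / 150 := by
    have := norm_sub_le 1 (v ^ 2)
    rw [norm_one, norm_pow] at this
    rw [norm_div, norm_mul, Complex.norm_ofNat, div_le_iff₀ (by linarith)]
    linarith
  linarith [norm_add_le (v ^ 2 / (2 * (1 + v))) ((1 - v ^ 2) / (2 * s)), show ‖Nv s v‖ =
    ‖v ^ 2 / (2 * (1 + v)) + (1 - v ^ 2) / (2 * s)‖ from rfl]

theorem Nv_sub {s a b : ℂ} (hs : 100 ≤ ‖s‖) (ha : ‖a‖ ≤ 1 / 20) (hb : ‖b‖ ≤ 1 / 20) :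
    Nv s a - Nv s b = Mv s a b * (a - b) := by
  have h1 : 1 + a ≠ 0 := norm_pos_iff.1 (by linarith [one_add_ge ha])
  have h2 : 1 + b ≠ 0 := norm_pos_iff.1 (by linarith [one_add_ge hb])
  have h3 : s ≠ 0 := norm_pos_iff.1 (by linarith)
  simp only [Nv, Mv]
  field_simp
  ring

theorem Mv_le {s a b : ℂ} (hs : 100 ≤ ‖s‖) (ha : ‖a‖ ≤ 1 / 20) (hb : ‖b‖ ≤ 1 / 20) :
    ‖Mv s a b‖ ≤ 1 / 16 := by
  have h1 := mul_le_mul (one_add_ge ha) (one_add_ge hb) (by norm_num) (norm_nonneg _)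
  have h2 := mul_le_mul ha hb (norm_nonneg _) (by norm_num)
  have h3 : ‖(a + b + a * b) / (2 * ((1 + a) * (1 + b)))‖ ≤ 6 / 100 := by
    have := norm_add₃_le (a := a) (b := b) (c := a * b)
    rw [norm_mul] at this
    rw [norm_div, norm_mul, norm_mul, Complex.norm_ofNat, div_le_iff₀ (by linarith)]
    linarith
  have h4 : ‖(a + b) / (2 * s)‖ ≤ 1 / 1000 := by
    rw [norm_div, norm_mul, Complex.norm_ofNat, div_le_iff₀ (by linarith)]
    linarith [norm_add_le a b]
  linarith [norm_sub_le ((a + b + a * b) / (2 * ((1 + a) * (1 + b)))) ((a + b) / (2 * s)),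
    show ‖Mv s a b‖ = ‖(a + b + a * b) / (2 * ((1 + a) * (1 + b))) - (a + b) / (2 * s)‖ from rfl]

section slow

variable {ε : ℝ} (hε : ε = 1 ∨ ε = -1)
include hε

theorem DD_norm {s : ℂ} (hs : s ∈ DD ε) : 100 ≤ ‖s‖ := by
  have h1 := abs_le.1 (Complex.abs_re_le_norm s)
  have h2 := abs_le.1 (Complex.abs_im_le_norm s)
  rcases hε with rfl | rfl <;> rcases hs with h | h <;> linarith [h1.1, h1.2, h2.1, h2.2]

theorem DD_ray {s : ℂ} (hs : s ∈ DD ε) {τ : ℝ} (hτ : 0 ≤ τ) : s - τ * om ε ∈ DD ε := by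
  rcases hε with rfl | rfl <;> rcases hs with h | h <;> simp [DD, om] at h ⊢ <;>
    first | (left; linarith) | (right; linarith)

theorem om_norm : ‖om ε‖ ≤ 2 := by
  refine (norm_sub_le _ _).trans ?_
  rcases hε with rfl | rfl <;> norm_num

variable {n : ℂ → ℂ} {c : ℝ} {s : ℂ}

theorem ker_le (hb : ∀ z ∈ DD ε, ‖n z‖ ≤ c) (hs : s ∈ DD ε) {τ : ℝ} (hτ : 0 ≤ τ) :
    ‖ker ε n s τ‖ ≤ 2 * c * Real.exp (-(1 / 2) * τ) := by
  have h1 : (-(τ * om ε) / 2).re = -(1 / 2) * τ := by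
    simp [om]
    ring
  have h2 := hb _ (DD_ray hε hs hτ)
  rw [ker, norm_mul, norm_mul, Complex.norm_exp, h1, mul_right_comm]
  exact mul_le_mul_of_nonneg_right (mul_le_mul (om_norm hε) h2 (norm_nonneg _) zero_le_two)
    (Real.exp_pos _).le

theorem ker_cont (hn : ContinuousOn n (DD ε)) (hs : s ∈ DD ε) : ContinuousOn (ker ε n s) (Ici 0) :=
  ContinuousOn.mul (by fun_prop) (hn.comp (by fun_prop) fun _ hτ => DD_ray hε hs hτ)

theorem ker_meas (hn : ContinuousOn n (DD ε)) (hs : s ∈ DD ε) :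
    AEStronglyMeasurable (ker ε n s) (volume.restrict (Ioi 0)) :=
  ((ker_cont hε hn hs).mono Ioi_subset_Ici_self).aestronglyMeasurable measurableSet_Ioi

omit hε in
theorem exp_int (c : ℝ) :
    Integrable (fun τ => 2 * c * Real.exp (-(1 / 2) * τ)) (volume.restrict (Ioi 0)) :=
  Integrable.const_mul (integrableOn_exp_mul_Ioi (by norm_num) 0) _

theorem ker_ae (hb : ∀ z ∈ DD ε, ‖n z‖ ≤ c) (hs : s ∈ DD ε) :
    ∀ᵐ τ ∂(volume.restrict (Ioi 0)), ‖ker ε n s τ‖ ≤ 2 * c * Real.exp (-(1 / 2) * τ) :=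
  (ae_restrict_mem measurableSet_Ioi).mono fun _ hτ => ker_le hε hb hs (le_of_lt hτ)

theorem ker_int (hn : ContinuousOn n (DD ε)) (hb : ∀ z ∈ DD ε, ‖n z‖ ≤ c) (hs : s ∈ DD ε) :
    IntegrableOn (ker ε n s) (Ioi 0) :=
  (exp_int c).mono' (ker_meas hε hn hs) (ker_ae hε hb hs)

theorem op_le (hb : ∀ z ∈ DD ε, ‖n z‖ ≤ c) (hs : s ∈ DD ε) : ‖Op ε n s‖ ≤ 4 * c := by
  refine (norm_integral_le_of_norm_le (exp_int c) (ker_ae hε hb hs)).trans (le_of_eq ?_)
  rw [integral_const_mul, integral_exp_mul_Ioi (by norm_num)]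
  simp
  ring

theorem op_hol (hn : DifferentiableOn ℂ n (DD ε)) (hb : ∀ z ∈ DD ε, ‖n z‖ ≤ c) :
    DifferentiableOn ℂ (Op ε n) (DD ε) := by
  refine differentiableOn_integral (isOpen_DD ε) (fun z hz => ker_meas hε hn.continuousOn hz)
    ((ae_restrict_mem measurableSet_Ioi).mono fun τ hτ => DifferentiableOn.const_mul
      (hn.comp (by fun_prop) fun _ hz => DD_ray hε hz (le_of_lt hτ)) _) fun z hz => ?_
  obtain ⟨r, hr, h⟩ := Metric.isOpen_iff.1 (isOpen_DD ε) z hz
  exact ⟨r, hr, _, exp_int c, (ae_restrict_mem measurableSet_Ioi).mono fun τ hτ w hw =>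
    ker_le hε hb (h hw) (le_of_lt hτ)⟩

theorem op_deriv (hn : DifferentiableOn ℂ n (DD ε)) (hb : ∀ z ∈ DD ε, ‖n z‖ ≤ c) (hs : s ∈ DD ε) :
    HasDerivAt (Op ε n) (-Op ε n s / 2 + n s) s := by
  have hd := ((op_hol hε hn hb).differentiableAt ((isOpen_DD ε).mem_nhds hs)).hasDerivAt
  have l1 : HasDerivAt (fun x : ℝ => (x : ℂ) * om ε) (om ε) 0 := by
    simpa using Complex.ofRealCLM.hasDerivAt.mul_const (om ε)
  have h1 : HasDerivAt (fun x : ℝ => Op ε n (s - x * om ε)) (deriv (Op ε n) s * -om ε) 0 :=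
    HasDerivAt.comp_of_eq (h := fun x : ℝ => s - x * om ε) 0 hd (l1.const_sub s) (by simp)
  have hc := (ker_cont hε hn.continuousOn hs).mono Ioi_subset_Ici_self
  have h2 : HasDerivWithinAt (fun x => ∫ τ in (0 : ℝ)..x, ker ε n s τ) (ker ε n s 0) (Ici 0) 0 :=
    intervalIntegral.integral_hasDerivWithinAt_right (t := Ioi 0) IntervalIntegrable.refl
      (hc.stronglyMeasurableAtFilter_nhdsWithin measurableSet_Ioi 0)
      ((ker_cont hε hn.continuousOn hs 0 self_mem_Ici).mono Ioi_subset_Ici_self)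
  have h3 := ((l1.div_const 2).cexp.hasDerivWithinAt.mul (h2.const_sub (Op ε n s))).congr
    (f₁ := fun x : ℝ => Op ε n (s - x * om ε)) (fun x (hx : 0 ≤ x) => ?_) (by simp)
  · have h4 := (uniqueDiffWithinAt_Ici (0 : ℝ)).eq_deriv _ h1.hasDerivWithinAt h3
    have h5 : om ε ≠ 0 := fun h => by simpa [om] using congrArg Complex.re h
    refine hd.congr_deriv (mul_right_cancel₀ h5 ?_)
    simp only [ker, Complex.ofReal_zero, zero_mul, zero_div, Complex.exp_zero, neg_zero,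
      intervalIntegral.integral_same, sub_zero, mul_one, one_mul] at h4
    linear_combination -h4
  · have h4 := (measurePreserving_add_right volume x).setIntegral_preimage_emb
      (measurableEmbedding_addRight x) (ker ε n s) (Ioi x)
    rw [preimage_add_const_Ioi, sub_self] at h4
    rw [Pi.mul_apply, ← intervalIntegral.integral_Ioi_sub_Ioi (ker_int hε hn.continuousOn hb hs) hx,
      ← h4, Op, Op, sub_sub_cancel, ← integral_const_mul]
    congr 1
    funext τ
    simp only [ker]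
    rw [← mul_assoc, mul_left_comm, ← Complex.exp_add]
    push_cast
    congr 2 <;> ring_nf

/-- the slow solution `1 + v` on the domain `DD ε` -/
theorem exists_slow : ∃ v : ℂ → ℂ, ∀ s ∈ DD ε,
    ‖v s‖ ≤ 1 / 20 ∧ HasDerivAt v (-v s / 2 + Nv s (v s)) s := by
  have hN : ∀ v : ℂ → ℂ, (DifferentiableOn ℂ v (DD ε) ∧ ∀ s ∈ DD ε, ‖v s‖ ≤ 1 / 20) →
      DifferentiableOn ℂ (fun s => Nv s (v s)) (DD ε) ∧ ∀ s ∈ DD ε, ‖Nv s (v s)‖ ≤ 1 / 100 := by
    rintro v ⟨h1, h2⟩
    refine ⟨((h1.pow 2).div ((h1.const_add 1).const_mul 2) fun s hs => mul_ne_zero two_ne_zero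
      (norm_pos_iff.1 (by linarith [one_add_ge (h2 s hs)]))).add (((h1.pow 2).const_sub 1).div
      (differentiableOn_id.const_mul 2) fun s hs => mul_ne_zero two_ne_zero
      (norm_pos_iff.1 (by linarith [DD_norm hε hs]))), fun s hs => Nv_le (DD_norm hε hs) (h2 s hs)⟩
  obtain ⟨v, hv, e⟩ := exists_fix_fun (A := DD ε)
    (P := fun v => DifferentiableOn ℂ v (DD ε) ∧ ∀ s ∈ DD ε, ‖v s‖ ≤ 1 / 20)
    (T := fun v => Op ε fun s => Nv s (v s)) (M := 1 / 20) (f₀ := 0)
    ⟨differentiableOn_const 0, fun _ _ => by simp⟩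
    (fun v h => ⟨op_hol hε (hN v h).1 (hN v h).2, fun s hs =>
      (op_le hε (hN v h).2 hs).trans (by norm_num)⟩) (fun _ h => h.2)
    (fun v v' d h h' hd s hs => by
      have h1 := op_le hε (n := fun s => Nv s (v s) - Nv s (v' s)) (c := 1 / 16 * d)
        (fun z hz => by
          rw [Nv_sub (DD_norm hε hz) (h.2 z hz) (h'.2 z hz), norm_mul]
          exact mul_le_mul (Mv_le (DD_norm hε hz) (h.2 z hz) (h'.2 z hz)) (hd z hz)
            (norm_nonneg _) (by norm_num)) hs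
      have d0 : 0 ≤ d := (norm_nonneg _).trans (hd s hs)
      rw [Op, Op, ← integral_sub (ker_int hε (hN v h).1.continuousOn (hN v h).2 hs)
        (ker_int hε (hN v' h').1.continuousOn (hN v' h').2 hs)]
      simp only [Op, ker, mul_sub] at h1 ⊢
      linarith)
    (fun F f hF hu => ⟨hu.tendstoLocallyUniformlyOn.differentiableOn
        (Eventually.of_forall fun n => (hF n).1) (isOpen_DD ε),
      fun s hs => le_of_tendsto' (hu.tendsto_at hs).norm fun n => (hF n).2 s hs⟩)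
  refine ⟨v, fun s hs => ⟨hv.2 s hs, ?_⟩⟩
  have h1 := op_deriv hε (hN v hv).1 (hN v hv).2 hs
  rw [e s hs] at h1
  exact h1.congr_of_eventuallyEq
    (mem_of_superset ((isOpen_DD ε).mem_nhds hs) fun z hz => (e z hz).symm)

end slow

end Vale.Agent.P218F.Tip
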