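import Vale.Agent.P218F.TipB

/-!
# P218F, block TIP: the phase, the first integrals and the Stokes constant
-/

open Filter Topology Set Metric Function Complex

noncomputable section

namespace Vale.Agent.P218F.Tip

def kf (s u : ℂ) : ℂ := s ^ 2 / (s + u ^ 2)

def jf (s u : ℂ) : ℂ := s * u / (s + u ^ 2)

def Dl (s u a b : ℂ) : ℂ := exp (s / 2 + (u - 1)) / s * (kf s a - kf s b)

def cf (s u a b : ℂ) : ℂ :=
  u * (2 - u) * (u - 1) / s - ((u - a) + (u - b) + u / s * (a * (u - b) + b * (u - a))) / (a + b)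

def GG (t : ℝ) : ℝ := 10 * Real.exp (-(3 / 4) * t) + 144 / (300 + t)

def gg (t : ℝ) : ℝ := 15 / 2 * Real.exp (-(3 / 4) * t) + 144 / (300 + t) ^ 2

theorem d_inv (a c : ℝ) {t : ℝ} (h : 0 < a + t) :
    HasDerivAt (fun t => c / (a + t)) (-(c / (a + t) ^ 2)) t := by
  refine ((hasDerivAt_const t c).div ((hasDerivAt_id t).const_add a) h.ne').congr_deriv ?_
  simp only [id]
  ring

theorem t_inv (a c : ℝ) : Tendsto (fun t => c / (a + t)) atTop (𝓝 0) :=
  tendsto_const_nhds.div_atTop (tendsto_atTop_add_const_left _ _ tendsto_id)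

theorem dGG (t : ℝ) (ht : 0 ≤ t) : HasDerivWithinAt GG (-gg t) (Ici 0) t := by
  refine ((((hasDerivAt_id t).const_mul (-(3 / 4))).exp.const_mul 10).add
    (d_inv 300 144 (by linarith))).hasDerivWithinAt.congr_deriv ?_
  simp only [gg, id]
  ring

theorem tGG : Tendsto GG atTop (𝓝 0) := by
  have := ((Real.tendsto_exp_atBot.comp (tendsto_id.const_mul_atTop_of_neg
    (show -(3 / 4 : ℝ) < 0 by norm_num))).const_mul 10).add (t_inv 300 144)
  rw [mul_zero, add_zero] at this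
  exact this

theorem GG_nonneg (t : ℝ) (ht : 0 ≤ t) : 0 ≤ GG t := by unfold GG; positivity

section calculus

variable {𝕜 : Type*} [NontriviallyNormedField 𝕜] [NormedAlgebra 𝕜 ℂ] {s u : 𝕜 → ℂ} {s' u' : ℂ}
  {x : 𝕜}

theorem kf_deriv (hs : HasDerivAt s s' x) (hu : HasDerivAt u u' x) (h : s x + u x ^ 2 ≠ 0) :
    HasDerivAt (fun x => kf (s x) (u x))
      ((s x * (s x + 2 * u x ^ 2) * s' - 2 * s x ^ 2 * u x * u') / (s x + u x ^ 2) ^ 2) x := by
  refine ((hs.pow 2).div (hs.add (hu.pow 2)) h).congr_deriv ?_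
  simp only [Pi.pow_apply, Pi.add_apply]
  push_cast
  ring

theorem jf_deriv (hs : HasDerivAt s s' x) (hu : HasDerivAt u u' x) (h : s x + u x ^ 2 ≠ 0) :
    HasDerivAt (fun x => jf (s x) (u x))
      ((u x ^ 3 * s' + s x * (s x - u x ^ 2) * u') / (s x + u x ^ 2) ^ 2) x := by
  refine ((hs.mul hu).div (hs.add (hu.pow 2)) h).congr_deriv ?_
  simp only [Pi.pow_apply, Pi.add_apply, Pi.mul_apply]
  push_cast
  ring

end calculus

theorem add_sq_ge {s u : ℂ} (hs : 100 ≤ ‖s‖) (hu : ‖u‖ ≤ 27 / 25) :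
    49 / 50 * ‖s‖ ≤ ‖s + u ^ 2‖ := by
  have h1 := norm_sub_le (s + u ^ 2) (u ^ 2)
  rw [add_sub_cancel_right, norm_pow] at h1
  nlinarith [norm_nonneg u]

theorem add_sq_ne {s u : ℂ} (hs : 100 ≤ ‖s‖) (hu : ‖u‖ ≤ 27 / 25) : s + u ^ 2 ≠ 0 :=
  norm_pos_iff.1 (by linarith [add_sq_ge hs hu])

theorem one_add_le {v : ℂ} (hv : ‖v‖ ≤ 1 / 20) : ‖1 + v‖ ≤ 27 / 25 := by
  linarith [norm_add_le 1 v, norm_one (α := ℂ)]

theorem dDl {s u a b : ℝ → ℂ} {t : ℝ} (hs : HasDerivAt s (2 * u t) t)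
    (hu : HasDerivAt u (Fu (s t) (u t)) t)
    (ha : HasDerivAt (fun t => kf (s t) (a t)) (2 * u t * jf (s t) (a t)) t)
    (hb : HasDerivAt (fun t => kf (s t) (b t)) (2 * u t * jf (s t) (b t)) t) (h0 : s t ≠ 0)
    (h1 : s t + a t ^ 2 ≠ 0) (h2 : s t + b t ^ 2 ≠ 0) (h3 : a t + b t ≠ 0) :
    HasDerivAt (fun t => Dl (s t) (u t) (a t) (b t))
      (cf (s t) (u t) (a t) (b t) * Dl (s t) (u t) (a t) (b t)) t := by
  refine (((((hs.div_const 2).add (hu.sub_const 1)).cexp).div hs h0).mul (ha.sub hb)).congr_deriv ?_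
  simp only [Pi.add_apply, Pi.div_apply, Pi.sub_apply, Dl, cf, kf, jf, Fu]
  field_simp
  ring

theorem cf_le {s u a b : ℂ} {t : ℝ} (ht : 0 ≤ t) (hs : 300 + t ≤ 2 * ‖s‖) (hu : ‖u‖ ≤ 27 / 25)
    (hu1 : ‖u - 1‖ ≤ Real.exp (-t) + 24 / (300 + t)) (ha : ‖a‖ ≤ 27 / 25) (hb : ‖b‖ ≤ 27 / 25)
    (hab : 4 / 5 ≤ ‖a + b‖) (h1 : ‖u - a‖ ≤ 2 * Real.exp (-(3 / 4) * t))
    (h2 : ‖u - b‖ ≤ 2 * Real.exp (-(3 / 4) * t)) : ‖cf s u a b‖ ≤ gg t := by
  have e1 : Real.exp (-t) ≤ Real.exp (-(3 / 4) * t) := Real.exp_le_exp.2 (by linarith)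
  have e2 : Real.exp (-t) ≤ 1 := Real.exp_le_one_iff.2 (by linarith)
  have e3 : 24 / (300 + t) ≤ 2 / 25 := by rw [div_le_iff₀ (by linarith)]; linarith
  set E := Real.exp (-(3 / 4) * t) with hE
  have E0 : 0 < E := Real.exp_pos _
  have n1 : ‖u * (2 - u)‖ ≤ 3 := by
    have : ‖2 - u‖ ≤ 1 + ‖u - 1‖ := by
      rw [show 2 - u = 1 - (u - 1) by ring]
      simpa using norm_sub_le 1 (u - 1)
    rw [norm_mul]
    nlinarith [norm_nonneg u, norm_nonneg (2 - u)]
  have n2 : ‖u * (2 - u) * (u - 1) / s‖ ≤ E / 50 + 144 / (300 + t) ^ 2 := by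
    rw [norm_div, norm_mul, div_le_iff₀ (by linarith)]
    have a1 := mul_le_mul n1 (hu1.trans (add_le_add_left e1 _)) (norm_nonneg _) zero_le_three
    have a2 : (E / 50 + 144 / (300 + t) ^ 2) * ((300 + t) / 2) ≤
        (E / 50 + 144 / (300 + t) ^ 2) * ‖s‖ := by gcongr; linarith
    have a3 : 144 / (300 + t) ^ 2 * ((300 + t) / 2) = 3 * (24 / (300 + t)) := by
      field_simp
      norm_num
    nlinarith
  have n3 : ‖u / s‖ ≤ 1 / 100 := by
    rw [norm_div, div_le_iff₀ (by linarith)]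
    linarith
  have n4 : ‖a * (u - b) + b * (u - a)‖ ≤ 5 * E := by
    refine (norm_add_le _ _).trans ?_
    rw [norm_mul, norm_mul]
    nlinarith [norm_nonneg (u - a), norm_nonneg (u - b)]
  have n5 : ‖((u - a) + (u - b) + u / s * (a * (u - b) + b * (u - a))) / (a + b)‖ ≤ 6 * E := by
    rw [norm_div, div_le_iff₀ (by linarith)]
    refine norm_add₃_le.trans ?_
    rw [norm_mul]
    nlinarith [mul_le_mul n3 n4 (norm_nonneg _) (by norm_num)]
  refine (norm_sub_le _ _).trans ?_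
  rw [gg]
  linarith

/-- the half planes on which the first integrals are defined -/
def YY (ε : ℝ) : Set ℂ := {y | y ∈ HH ∧ 204 < y.re + ε * y.im}

theorem isOpen_YY (ε : ℝ) : IsOpen (YY ε) :=
  isOpen_HH.inter (isOpen_lt (g := fun s : ℂ => s.re + ε * s.im) continuous_const (by fun_prop))

/-- a slow solution -/
def Slow (ε : ℝ) (v : ℂ → ℂ) : Prop :=
  ∀ s ∈ DD ε, ‖v s‖ ≤ 1 / 20 ∧ HasDerivAt v (-v s / 2 + Nv s (v s)) s

theorem Slow.dk {ε : ℝ} (hε : ε = 1 ∨ ε = -1) {v : ℂ → ℂ} (hv : Slow ε v) {z : ℂ} (hz : z ∈ DD ε) :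
    HasDerivAt (fun z => kf z (1 + v z)) (jf z (1 + v z)) z := by
  have h1 := DD_norm hε hz
  have h2 := add_sq_ne h1 (one_add_le (hv z hz).1)
  have h3 : 1 + v z ≠ 0 := norm_pos_iff.1 (by linarith [one_add_ge (hv z hz).1])
  have h4 : z ≠ 0 := norm_pos_iff.1 (by linarith)
  refine (kf_deriv (hasDerivAt_id' z) ((hv z hz).2.const_add 1) h2).congr_deriv ?_
  simp only [jf, Nv]
  field_simp
  ring

namespace Traj

variable {s u : ℂ → ℝ → ℂ} (T : Traj s u) {y : ℂ} {t : ℝ}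
include T

theorem sm (hy : y ∈ HH) (ht : 0 ≤ t) : ‖u y t - (1 - (Real.exp (-t) : ℝ))‖ ≤ 24 / (300 + t) :=
  (T.bu y hy t ht).trans (by gcongr; linarith [re_le_norm y, show 300 < y.re from hy])

theorem sm' (hy : y ∈ HH) (ht : 0 ≤ t) : ‖u y t - (1 - (Real.exp (-t) : ℝ))‖ ≤ 2 / 25 :=
  (T.sm hy ht).trans (by rw [div_le_iff₀ (by linarith)]; linarith)

theorem u1 (hy : y ∈ HH) (ht : 0 ≤ t) : ‖u y t - 1‖ ≤ Real.exp (-t) + 24 / (‖y‖ + t) := by
  have h := norm_sub_le (u y t - (1 - (Real.exp (-t) : ℝ))) (Real.exp (-t) : ℝ)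
  rw [norm_real, Real.norm_of_nonneg (Real.exp_pos _).le,
    show ∀ a b : ℂ, a - (1 - b) - b = a - 1 from fun a b => by ring] at h
  linarith [T.bu y hy t ht]

theorem u1' (hy : y ∈ HH) (ht : 0 ≤ t) : ‖u y t - 1‖ ≤ Real.exp (-t) + 24 / (300 + t) :=
  (T.u1 hy ht).trans (by gcongr; linarith [re_le_norm y, show 300 < y.re from hy])

theorem nu (hy : y ∈ HH) (ht : 0 ≤ t) : ‖u y t‖ ≤ 27 / 25 := by
  have h1 : Real.exp (-t) ≤ 1 := Real.exp_le_one_iff.2 (by linarith)
  have h2 : ‖(1 : ℂ) - (Real.exp (-t) : ℝ)‖ ≤ 1 := by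
    rw [← ofReal_one, ← ofReal_sub, norm_real, Real.norm_eq_abs, abs_le]
    constructor <;> linarith [Real.exp_pos (-t)]
  linarith [norm_le_norm_add_norm_sub' (u y t) (1 - (Real.exp (-t) : ℝ)), T.sm' hy ht]

theorem reu (hy : y ∈ HH) (ht : 0 ≤ t) : -(2 / 25) ≤ (u y t).re := by
  have h1 : Real.exp (-t) ≤ 1 := Real.exp_le_one_iff.2 (by linarith)
  have h2 := (abs_le.1 ((abs_re_le_norm _).trans (T.sm' hy ht))).1
  simp only [sub_re, one_re, ofReal_re] at h2
  linarith

theorem bs' (hy : y ∈ HH) (ht : 0 ≤ t) : ‖s y t - (y + 2 * t)‖ ≤ 2 + t / 5 :=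
  (T.bs y hy t ht).trans (by gcongr; exact min_le_left _ _)

theorem ns (hy : y ∈ HH) (ht : 0 ≤ t) : ‖y‖ + t ≤ 2 * ‖s y t‖ :=
  norm_sh_ge (le_of_lt hy) ht (T.bs' hy ht)

theorem ns' (hy : y ∈ HH) (ht : 0 ≤ t) : 300 + t ≤ 2 * ‖s y t‖ := by
  linarith [T.ns hy ht, re_le_norm y, show 300 < y.re from hy]

theorem s100 (hy : y ∈ HH) (ht : 0 ≤ t) : 100 ≤ ‖s y t‖ := by linarith [T.ns' hy ht]

theorem sne (hy : y ∈ HH) (ht : 0 ≤ t) : s y t ≠ 0 := norm_pos_iff.1 (by linarith [T.s100 hy ht])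

theorem qne (hy : y ∈ HH) (ht : 0 ≤ t) : s y t + u y t ^ 2 ≠ 0 :=
  add_sq_ne (T.s100 hy ht) (T.nu hy ht)

theorem res (hy : y ∈ HH) (ht : 0 ≤ t) : y.re - 2 + t ≤ (s y t).re := by
  have h := (abs_le.1 ((abs_re_le_norm _).trans (T.bs' hy ht))).1
  simp only [sub_re, add_re, mul_re, re_ofNat, ofReal_re, im_ofNat, ofReal_im] at h
  linarith

theorem slit (hy : y ∈ HH) (ht : 0 ≤ t) : s y t ∈ slitPlane :=
  Or.inl (by linarith [T.res hy ht, show 300 < y.re from hy])

theorem slit' (hy : y ∈ HH) (ht : 0 ≤ t) : 1 + u y t ^ 2 / s y t ∈ slitPlane := by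
  refine mem_slitPlane_of_norm_lt_one ?_
  rw [norm_div, norm_pow, div_lt_one (by linarith [T.s100 hy ht])]
  nlinarith [T.s100 hy ht, T.nu hy ht, norm_nonneg (u y t)]

theorem dk (hy : y ∈ HH) (ht : 0 ≤ t) :
    HasDerivAt (fun t => kf (s y t) (u y t)) (2 * u y t * jf (s y t) (u y t)) t := by
  refine (kf_deriv (T.ds y hy t ht) (T.du y hy t ht) (T.qne hy ht)).congr_deriv ?_
  have := T.sne hy ht
  have := T.qne hy ht
  simp only [jf, Fu]
  field_simp
  ring

theorem tu (hy : y ∈ HH) : Tendsto (u y) atTop (𝓝 1) := by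
  refine tendsto_iff_norm_sub_tendsto_zero.2 (squeeze_zero' (Eventually.of_forall fun _ =>
    norm_nonneg _) ((eventually_ge_atTop 0).mono fun t ht => T.u1' hy ht) ?_)
  simpa using Real.tendsto_exp_neg_atTop_nhds_zero.add (t_inv 300 24)

theorem ts (hy : y ∈ HH) : Tendsto (fun t => (s y t)⁻¹) atTop (𝓝 0) := by
  refine squeeze_zero_norm' ((eventually_ge_atTop 0).mono fun t ht => ?_) (t_inv 300 2)
  rw [norm_inv, inv_eq_one_div, div_le_div_iff₀ (by linarith [T.s100 hy ht]) (by linarith)]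
  linarith [T.ns' hy ht]

/-- the asymptotic phase -/
theorem exists_eta : ∃ η : ℂ → ℂ, DifferentiableOn ℂ η HH ∧ ∀ y ∈ HH,
    Tendsto (fun t => s y t / 2 - log (s y t) / 2 - t) atTop (𝓝 (η y)) ∧
    ‖η y - (y / 2 - log y / 2 - 1)‖ ≤ 15 / ‖y‖ := by
  set E : ℝ → ℂ → ℂ := fun t y => s y t / 2 - log (s y t) / 2 - t + u y t with hE
  have key : ∀ y ∈ HH, ∃ l, Tendsto (fun t => E t y) atTop (𝓝 l) ∧
      ∀ a, 0 ≤ a → ‖E a y - l‖ ≤ 5 / ‖y‖ * Real.exp (-a) + 10 / (‖y‖ + a) := by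
    intro y hy
    have hy' : 300 ≤ ‖y‖ := by linarith [re_le_norm y, show 300 < y.re from hy]
    refine exists_lim (f' := fun t => -(u y t * (u y t - 1) ^ 2 / s y t))
      (g := fun t => 5 / ‖y‖ * Real.exp (-t) + 10 / (‖y‖ + t) ^ 2) (fun t ht => ?_)
      (fun t ht => ?_) (fun t ht => ?_) ?_
    · refine ((((((T.ds y hy t ht).div_const 2).sub (((T.ds y hy t ht).clog_real
        (T.slit hy ht)).div_const 2)).sub ofRealCLM.hasDerivAt).add
        (T.du y hy t ht)).congr_deriv ?_).hasDerivWithinAt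
      have := T.sne hy ht
      simp only [Fu, ofRealCLM_apply, ofReal_one]
      field_simp
      ring
    · refine ((((hasDerivAt_neg t).exp.const_mul (5 / ‖y‖)).add
        (d_inv ‖y‖ 10 (by linarith))).congr_deriv (by ring)).hasDerivWithinAt
    · have h1 := T.ns hy ht
      have h2 := pow_le_pow_left₀ (norm_nonneg _) (T.u1 hy ht) 2
      have e2 : Real.exp (-t) ≤ 1 := Real.exp_le_one_iff.2 (by linarith)
      have e0 := Real.exp_pos (-t)
      set b := ‖y‖ + t with hb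
      have b0 : 300 ≤ b := by linarith
      have h3 : (Real.exp (-t) + 24 / b) ^ 2 ≤ 2 * Real.exp (-t) + 4 / b := by
        have h4 : 24 / b * (24 / b) ≤ 2 / b := by
          rw [div_mul_div_comm, div_le_div_iff₀ (by positivity) (by positivity)]
          nlinarith
        nlinarith [sq_nonneg (Real.exp (-t) - 24 / b), show 4 / b = 2 * (2 / b) by ring]
      rw [norm_neg, norm_div, norm_mul, norm_pow, div_le_iff₀ (by linarith)]
      have h5 : (5 / ‖y‖ * Real.exp (-t) + 10 / b ^ 2) * (b / 2) ≤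
          (5 / ‖y‖ * Real.exp (-t) + 10 / b ^ 2) * ‖s y t‖ := by gcongr; linarith
      have h6 : 10 / b ^ 2 * (b / 2) = 5 / 4 * (4 / b) := by field_simp; norm_num
      have h7 : 5 / 2 ≤ 5 / ‖y‖ * (b / 2) := by
        rw [div_mul_eq_mul_div, le_div_iff₀ (by linarith)]
        linarith
      have h8 : 0 < 4 / b := by positivity
      nlinarith [mul_le_mul (T.nu hy ht) (h2.trans h3) (by positivity) (by norm_num)]
    · simpa using (Real.tendsto_exp_neg_atTop_nhds_zero.const_mul (5 / ‖y‖)).add (t_inv ‖y‖ 10)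
  choose! l hl hl' using key
  have h1 := (lim_deriv isOpen_HH (F := E) (Φ := l)
    (G := fun t => 5 / 300 * Real.exp (-t) + 10 / (300 + t))
    (by simpa using (Real.tendsto_exp_neg_atTop_nhds_zero.const_mul (5 / 300)).add (t_inv 300 10))
    (fun t ht => ((((T.hs t ht).div_const 2).sub (((T.hs t ht).clog
      fun y hy => T.slit hy ht).div_const 2)).sub_const _).add (T.hu t ht))
    fun t ht y hy => (hl' y hy t ht).trans (by
      have hy' : 300 ≤ ‖y‖ := by linarith [re_le_norm y, show 300 < y.re from hy]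
      gcongr)).1
  refine ⟨fun y => l y - 1, h1.sub_const 1, fun y hy => ⟨?_, ?_⟩⟩
  · simpa [hE] using (hl y hy).sub (T.tu hy)
  · have := hl' y hy 0 le_rfl
    simp only [hE, T.s0 y hy, T.u0 y hy, ofReal_zero, sub_zero, add_zero, neg_zero, Real.exp_zero,
      mul_one] at this
    rw [sub_sub_sub_cancel_right, norm_sub_rev]
    exact this.trans (le_of_eq (by ring))

/-- the Wronskian identity -/
theorem wronski (hy : y ∈ HH) (ht : 0 ≤ t) :
    exp (s y t / 2) / s y t * (deriv (fun z => kf (s z t) (u z t)) y -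
      jf (s y t) (u y t) * deriv (fun z => s z t) y) =
    exp (s y t / 2 - log (s y t) / 2 - t - log (1 + u y t ^ 2 / s y t) / 2 - log y / 2) := by
  have hn := isOpen_HH.mem_nhds hy
  have hk : ∀ t, 0 ≤ t → DifferentiableOn ℂ (fun z => kf (s z t) (u z t)) HH := fun t ht =>
    ((T.hs t ht).pow 2).div ((T.hs t ht).add ((T.hu t ht).pow 2)) fun z hz => T.qne hz ht
  have cs := T.cs
  have cu := T.cu
  have key := mono_le (f := fun t => exp (s y t / 2) / s y t *
      (deriv (fun z => kf (s z t) (u z t)) y - jf (s y t) (u y t) * deriv (fun z => s z t) y) -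
      exp (s y t / 2 - log (s y t) / 2 - t - log (1 + u y t ^ 2 / s y t) / 2 - log y / 2))
    (c := fun t => u y t - 1 + u y t * (u y t - 2) / s y t) (Γ := fun t => 4 * t) (g := fun _ => 4)
    (fun t ht => ?_) (fun t _ => by simpa using ((hasDerivAt_id t).const_mul 4).hasDerivWithinAt)
    (fun t ht => ?_) le_rfl ht
  · have h0 : y ≠ 0 := slitPlane_ne_zero (Or.inl (by linarith [show 300 < y.re from hy]))
    have h1 : deriv (fun z => kf (s z 0) (u z 0)) y = 1 := by
      rw [EventuallyEq.deriv_eq (f := id), deriv_id]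
      filter_upwards [hn] with z hz
      have h0 : z ≠ 0 := slitPlane_ne_zero (Or.inl (by linarith [show 300 < z.re from hz]))
      simp [T.s0 z hz, T.u0 z hz, kf, sq, h0]
    have h2 : exp (y / 2) / y = exp (y / 2 - log y / 2 - log y / 2) := by
      rw [sub_sub, add_halves, exp_sub, exp_log h0]
    simp only [h1, T.s0 y hy, T.u0 y hy, jf, mul_zero, zero_div, zero_mul, sub_zero, mul_one,
      ofReal_zero, ne_eq, OfNat.ofNat_ne_zero, not_false_eq_true, zero_pow, add_zero, log_one, h2,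
      sub_self, norm_zero] at key
    exact sub_eq_zero.1 (norm_le_zero_iff.1 key)
  · have dS := mixed isOpen_HH T.hs (fun t ht => (T.hu t ht).const_mul 2)
      (fun _ _ _ _ => (continuous_const.mul cu).continuousAt) T.ds hy ht
    have dK := mixed isOpen_HH (g := fun z t => 2 * (s z t - kf (s z t) (u z t))) hk
      (fun t ht => ((T.hs t ht).sub (hk t ht)).const_mul 2)
      (fun z hz t ht => continuousAt_const.mul (cs.continuousAt.sub
        ((cs.continuousAt.pow 2).div (cs.continuousAt.add (cu.continuousAt.pow 2)) (T.qne hz ht))))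
      (fun z hz t ht => (T.dk hz ht).congr_deriv (by
        have := T.qne hz ht
        simp only [jf, kf]
        field_simp
        ring)) hy ht
    have a1 := ((T.hs t ht).differentiableAt hn).hasDerivAt
    have a2 := ((T.hu t ht).differentiableAt hn).hasDerivAt
    have a3 := kf_deriv a1 a2 (T.qne hy ht)
    rw [(a2.const_mul 2).deriv] at dS
    rw [((a1.fun_sub a3).const_mul 2).deriv] at dK
    have ds := T.ds y hy t ht
    have du := T.du y hy t ht
    have d1 := (ds.div_const 2).cexp.div ds (T.sne hy ht)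
    have d2 := (jf_deriv ds du (T.qne hy ht)).hasDerivWithinAt (s := Ici 0)
    have d3 := (((((ds.div_const 2).sub ((ds.clog_real (T.slit hy ht)).div_const 2)).sub
      ofRealCLM.hasDerivAt).sub (((((du.pow 2).div ds (T.sne hy ht)).const_add 1).clog_real
      (T.slit' hy ht)).div_const 2)).sub_const (log y / 2)).cexp
    refine ((d1.hasDerivWithinAt.mul (dK.sub (d2.mul dS))).sub d3.hasDerivWithinAt).congr_deriv ?_
    have b1 := T.sne hy ht
    have b2 := T.qne hy ht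
    simp only [Pi.div_apply, Pi.sub_apply, Pi.mul_apply, Pi.pow_apply, a3.deriv, jf, Fu,
      ofRealCLM_apply, ofReal_one]
    generalize exp (s y t / 2 - log (s y t) / 2 - t - log (1 + u y t ^ 2 / s y t) / 2 -
      log y / 2) = P
    have b3 : 1 + u y t ^ 2 / s y t = (s y t + u y t ^ 2) / s y t := by field_simp
    rw [b3]
    push_cast
    field_simp
    ring
  · have h1 : ‖u y t * (u y t - 2) / s y t‖ ≤ 1 := by
      rw [norm_div, norm_mul, div_le_one (by linarith [T.s100 hy ht])]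
      have := norm_sub_le (u y t) 2
      rw [Complex.norm_ofNat] at this
      nlinarith [T.s100 hy ht, T.nu hy ht, norm_nonneg (u y t), norm_nonneg (u y t - 2)]
    have h2 := norm_sub_le (u y t) 1
    rw [norm_one] at h2
    linarith [re_le_norm (u y t - 1 + u y t * (u y t - 2) / s y t),
      norm_add_le (u y t - 1) (u y t * (u y t - 2) / s y t), T.nu hy ht]

variable {ε : ℝ} (hε : ε = 1 ∨ ε = -1) {v : ℂ → ℂ} (hv : Slow ε v)
include hε

theorem mem_DD (hy : y ∈ YY ε) (ht : 0 ≤ t) : s y t ∈ DD ε := by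
  have h1 := abs_le.1 ((abs_re_le_norm _).trans (T.bs' hy.1 ht))
  have h2 := abs_le.1 ((abs_im_le_norm _).trans (T.bs' hy.1 ht))
  simp only [sub_re, add_re, mul_re, re_ofNat, ofReal_re, im_ofNat, ofReal_im, sub_im, add_im,
    mul_im] at h1 h2
  have h3 := hy.2
  left
  rcases hε with rfl | rfl <;> linarith [h1.1, h2.1, h2.2]

include hv

theorem dkv (hy : y ∈ YY ε) (ht : 0 ≤ t) : HasDerivAt (fun t => kf (s y t) (1 + v (s y t)))
    (2 * u y t * jf (s y t) (1 + v (s y t))) t :=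
  ((hv.dk hε (T.mem_DD hε hy ht)).comp t (T.ds y hy.1 t ht)).congr_deriv (mul_comm _ _)

theorem sum_ge (hy : y ∈ YY ε) (ht : 0 ≤ t) : 4 / 5 ≤ ‖u y t + (1 + v (s y t))‖ := by
  have h1 := (abs_le.1 ((abs_re_le_norm _).trans (hv _ (T.mem_DD hε hy ht)).1)).1
  have h2 := re_le_norm (u y t + (1 + v (s y t)))
  simp only [add_re, one_re] at h2
  linarith [T.reu hy.1 ht]

theorem decay (hy : y ∈ YY ε) (ht : 0 ≤ t) :
    ‖u y t - (1 + v (s y t))‖ ≤ 2 * Real.exp (-(3 / 4) * t) := by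
  have key := mono_le (f := fun t => u y t - (1 + v (s y t)))
    (c := fun t => -1 + (2 * (u y t + (1 + v (s y t))) - (u y t ^ 2 + u y t * (1 + v (s y t)) +
      (1 + v (s y t)) ^ 2)) / s y t - 2 * (-v (s y t) / 2 + Nv (s y t) (v (s y t))))
    (Γ := fun t => -(3 / 4) * t) (g := fun _ => -(3 / 4)) (fun t ht => ?_)
    (fun t _ => by simpa using ((hasDerivAt_id t).const_mul (-(3 / 4))).hasDerivWithinAt)
    (fun t ht => ?_) le_rfl ht
  · simp only [T.u0 y hy.1, zero_sub, norm_neg, mul_zero, sub_zero] at key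
    refine key.trans (mul_le_mul_of_nonneg_right ?_ (Real.exp_pos _).le)
    linarith [one_add_le (hv _ (T.mem_DD hε hy le_rfl)).1]
  · obtain ⟨h1, h2⟩ := hv _ (T.mem_DD hε hy ht)
    refine (((T.du y hy.1 t ht).sub
      ((h2.comp t (T.ds y hy.1 t ht)).const_add 1)).congr_deriv ?_).hasDerivWithinAt
    have h3 : 1 + v (s y t) ≠ 0 := norm_pos_iff.1 (by linarith [one_add_ge h1])
    have := T.sne hy.1 ht
    simp only [Fu, Nv]
    field_simp
    ring
  · have h1 := (hv _ (T.mem_DD hε hy ht)).1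
    have n1 := T.nu hy.1 ht
    have n2 := one_add_le h1
    generalize 1 + v (s y t) = V at n2 ⊢
    have n3 : ‖(2 * (u y t + V) - (u y t ^ 2 + u y t * V + V ^ 2)) / s y t‖ ≤ 8 / 100 := by
      rw [norm_div, div_le_iff₀ (by linarith [T.s100 hy.1 ht])]
      refine (norm_sub_le _ _).trans ?_
      have a1 := norm_add_le (u y t) V
      have a2 := norm_add₃_le (a := u y t ^ 2) (b := u y t * V) (c := V ^ 2)
      rw [norm_mul, norm_pow, norm_pow] at a2
      rw [norm_mul, Complex.norm_ofNat]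
      nlinarith [norm_nonneg (u y t), norm_nonneg V, T.s100 hy.1 ht]
    have n4 : ‖2 * (-v (s y t) / 2 + Nv (s y t) (v (s y t)))‖ ≤ 7 / 100 := by
      have := norm_add_le (-v (s y t) / 2) (Nv (s y t) (v (s y t)))
      rw [norm_div, norm_neg, Complex.norm_ofNat] at this
      rw [norm_mul, Complex.norm_ofNat]
      linarith [Nv_le (T.s100 hy.1 ht) h1]
    have n5 := (re_le_norm _).trans n3
    have n6 := (abs_le.1 ((abs_re_le_norm _).trans n4)).1
    simp only [sub_re, add_re, neg_re, one_re] at n5 n6 ⊢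
    linarith

/-- the first integral attached to a slow solution -/
theorem exists_phi {η : ℂ → ℂ}
    (hη : ∀ y ∈ HH, Tendsto (fun t => s y t / 2 - log (s y t) / 2 - t) atTop (𝓝 (η y))) :
    ∃ Φ : ℂ → ℂ, ∀ y ∈ YY ε,
      Tendsto (fun t => Dl (s y t) (u y t) (u y t) (1 + v (s y t))) atTop (𝓝 (Φ y)) ∧
      ‖Φ y‖ ≤ 2 * Real.exp (GG 0) * (Real.exp (y.re / 2) / ‖y‖) ∧
      HasDerivAt Φ (exp (η y - log y / 2)) y := by
  set Ψ : ℝ → ℂ → ℂ := fun t y => Dl (s y t) (u y t) (u y t) (1 + v (s y t)) with hΨ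
  have nV : ∀ y ∈ YY ε, ∀ t, 0 ≤ t → ‖1 + v (s y t)‖ ≤ 27 / 25 := fun y hy t ht =>
    one_add_le (hv _ (T.mem_DD hε hy ht)).1
  have qV : ∀ y ∈ YY ε, ∀ t, 0 ≤ t → s y t + (1 + v (s y t)) ^ 2 ≠ 0 := fun y hy t ht =>
    add_sq_ne (T.s100 hy.1 ht) (nV y hy t ht)
  have sV : ∀ y ∈ YY ε, ∀ t, 0 ≤ t → u y t + (1 + v (s y t)) ≠ 0 := fun y hy t ht =>
    norm_pos_iff.1 (by linarith [T.sum_ge hε hv hy ht])
  choose! Φ h1 h2 h3 h4 using fun y (hy : y ∈ YY ε) => exists_lim_lin (f := fun t => Ψ t y)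
    (c := fun t => cf (s y t) (u y t) (u y t) (1 + v (s y t)))
    (fun t ht => (dDl (T.ds y hy.1 t ht) (T.du y hy.1 t ht) (T.dk hy.1 ht) (T.dkv hε hv hy ht)
      (T.sne hy.1 ht) (T.qne hy.1 ht) (qV y hy t ht) (sV y hy t ht)).hasDerivWithinAt) dGG
    (fun t ht => cf_le ht (T.ns' hy.1 ht) (T.nu hy.1 ht) (T.u1' hy.1 ht) (T.nu hy.1 ht)
      (nV y hy t ht) (T.sum_ge hε hv hy ht) (by simp; positivity) (T.decay hε hv hy ht))
    tGG GG_nonneg
  have h5 : ∀ y ∈ YY ε, ‖Ψ 0 y‖ ≤ 2 * (Real.exp (y.re / 2) / ‖y‖) := by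
    intro y hy
    have a1 := nV y hy 0 le_rfl
    have a2 := qV y hy 0 le_rfl
    have a3 := T.s100 hy.1 le_rfl
    have a4 := add_sq_ge a3 a1
    simp only [hΨ, T.s0 y hy.1, T.u0 y hy.1] at a1 a2 a3 a4 ⊢
    have a5 : y ≠ 0 := norm_pos_iff.1 (by linarith)
    have a6 : Dl y 0 0 (1 + v y) = exp (y / 2 + (0 - 1)) * ((1 + v y) ^ 2 / (y + (1 + v y) ^ 2)) := by
      simp only [Dl, kf, ne_eq, OfNat.ofNat_ne_zero, not_false_eq_true, zero_pow, add_zero]
      field_simp
      ring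
    have a7 : ‖(1 + v y) ^ 2 / (y + (1 + v y) ^ 2)‖ ≤ 2 / ‖y‖ := by
      rw [norm_div, norm_pow, div_le_div_iff₀ (by linarith) (by linarith)]
      nlinarith [pow_le_pow_left₀ (norm_nonneg _) a1 2]
    have a8 : ‖exp (y / 2 + (0 - 1))‖ ≤ Real.exp (y.re / 2) := by
      rw [norm_exp]
      exact Real.exp_le_exp.2 (by simp)
    rw [a6, norm_mul]
    exact (mul_le_mul a8 a7 (norm_nonneg _) (Real.exp_pos _).le).trans (le_of_eq (by ring))
  refine ⟨Φ, fun y hy => ⟨h1 y hy, ?_, ?_⟩⟩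
  · refine (le_of_tendsto (h1 y hy).norm ((eventually_ge_atTop 0).mono (h2 y hy))).trans ?_
    exact (mul_le_mul_of_nonneg_right (h5 y hy) (Real.exp_pos _).le).trans (le_of_eq (by ring))
  have hU : IsOpen (YY ε ∩ ball y 1) := (isOpen_YY ε).inter isOpen_ball
  have hyU : y ∈ YY ε ∩ ball y 1 := ⟨hy, mem_ball_self one_pos⟩
  have dΨ : ∀ t, 0 ≤ t → ∀ z ∈ YY ε, HasDerivAt (Ψ t)
      (exp (u z t - 1) * exp (s z t / 2 - log (s z t) / 2 - t - log (1 + u z t ^ 2 / s z t) / 2 -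
        log z / 2) + Ψ t z * (deriv (fun z => u z t) z - deriv (fun z => s z t) z *
        ((1 - u z t + (u z t - (1 + v (s z t))) / 2 + (u z t + (1 + v (s z t)) -
          u z t * (1 + v (s z t))) / s z t) / (u z t + (1 + v (s z t)))))) z := by
    intro t ht z hz
    have hn := isOpen_HH.mem_nhds hz.1
    have a1 := ((T.hs t ht).differentiableAt hn).hasDerivAt
    have a2 := ((T.hu t ht).differentiableAt hn).hasDerivAt
    have a3 := (kf_deriv a1 a2 (T.qne hz.1 ht)).differentiableAt.hasDerivAt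
    have a4 := (hv.dk hε (T.mem_DD hε hz ht)).comp z a1
    refine (((((a1.div_const 2).add (a2.sub_const 1)).cexp).div a1 (T.sne hz.1 ht)).mul
      (a3.sub a4)).congr_deriv ?_
    rw [← T.wronski hz.1 ht]
    have b1 := T.sne hz.1 ht
    have b2 := T.qne hz.1 ht
    have b3 := qV z hz t ht
    have b4 := sV z hz t ht
    simp only [hΨ, Pi.add_apply, Pi.div_apply, Pi.sub_apply, comp_apply, Dl, exp_add]
    generalize deriv (fun z => kf (s z t) (u z t)) z = K
    simp only [kf, jf]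
    field_simp
    ring
  obtain ⟨h6, h7⟩ := lim_deriv hU (F := Ψ) (Φ := Φ)
    (G := fun t => 2 * Real.exp ((y.re + 1) / 2) * Real.exp (GG 0) * GG t)
    (by simpa using tGG.const_mul (2 * Real.exp ((y.re + 1) / 2) * Real.exp (GG 0)))
    (fun t ht z hz => (dΨ t ht z hz.1).differentiableAt.differentiableWithinAt)
    (fun t ht z hz => (h3 z hz.1 t ht).trans (by
      have b0 := GG_nonneg t ht
      have b1 : z.re ≤ y.re + 1 := by
        have := (re_le_norm (z - y)).trans (mem_ball_iff_norm.1 hz.2).le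
        rw [sub_re] at this
        linarith
      have b2 : 1 ≤ ‖z‖ := by linarith [re_le_norm z, show 300 < z.re from hz.1.1]
      have b3 : Real.exp (z.re / 2) / ‖z‖ ≤ Real.exp ((y.re + 1) / 2) :=
        (div_le_self (Real.exp_pos _).le b2).trans (by gcongr)
      gcongr
      linarith [h5 z hz.1]))
  refine (h6.differentiableAt (hU.mem_nhds hyU)).hasDerivAt.congr_deriv
    (tendsto_nhds_unique (h7 y hyU) ?_)
  refine Tendsto.congr' ((eventually_ge_atTop 0).mono fun t ht => (dΨ t ht y hy).deriv.symm) ?_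
  obtain ⟨r, hr, hs⟩ := Metric.nhds_basis_closedBall.mem_iff.1 (isOpen_HH.mem_nhds hy.1)
  have tu := T.tu hy.1
  have t1 : Tendsto (fun t => log (1 + u y t ^ 2 / s y t)) atTop (𝓝 0) := by
    have := (((tu.pow 2).mul (T.ts hy.1)).const_add 1).clog (by simp)
    simpa [div_eq_mul_inv] using this
  have t2 : Tendsto (fun t => deriv (fun z => u z t) y) atTop (𝓝 0) := by
    refine squeeze_zero_norm' ((eventually_ge_atTop 0).mono fun t ht => ?_)
      (by simpa using (t_inv 300 24).div_const r)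
    rw [← deriv_sub_const ((1 : ℂ) - ((Real.exp (-t) : ℝ) : ℂ))]
    exact norm_deriv_le_of_forall_mem_sphere_norm_le hr
      (((T.hu t ht).sub_const _).diffContOnCl_ball hs)
      fun z hz => T.sm (hs (sphere_subset_closedBall hz)) ht
  have t3 : Tendsto (fun t : ℝ => (1 + (2 + 48 * Real.log (1 + t)) / r) * (50 / (1 + t))) atTop
      (𝓝 0) := by
    have a1 := (Real.isLittleO_log_id_atTop.tendsto_div_nhds_zero).comp
      (tendsto_atTop_add_const_left _ 1 tendsto_id)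
    have a2 := (t_inv 1 ((1 + 2 / r) * 50)).add (a1.const_mul (48 / r * 50))
    simp only [mul_zero, add_zero] at a2
    refine a2.congr fun t => ?_
    simp only [comp_apply, id]
    ring
  have t4 : Tendsto (fun t => deriv (fun z => s z t) y *
      ((1 - u y t + (u y t - (1 + v (s y t))) / 2 + (u y t + (1 + v (s y t)) -
        u y t * (1 + v (s y t))) / s y t) / (u y t + (1 + v (s y t))))) atTop (𝓝 0) := by
    refine squeeze_zero_norm' ((eventually_ge_atTop 0).mono fun t ht => ?_) t3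
    have a1 : ‖deriv (fun z => s z t) y‖ ≤ 1 + (2 + 48 * Real.log (1 + t)) / r := by
      have b1 := norm_deriv_le_of_forall_mem_sphere_norm_le hr
        (((T.hs t ht).sub (differentiableOn_id.add_const (2 * (t : ℂ)))).diffContOnCl_ball hs)
        fun z hz => (T.bs z (hs (sphere_subset_closedBall hz)) t ht).trans
          (add_le_add_right (min_le_right _ _) _)
      rw [(((T.hs t ht).differentiableAt (isOpen_HH.mem_nhds hy.1)).hasDerivAt.sub
        ((hasDerivAt_id y).add_const (2 * (t : ℂ)))).deriv] at b1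
      linarith [norm_le_norm_add_norm_sub' (deriv (fun z => s z t) y) 1, norm_one (α := ℂ)]
    rw [norm_mul]
    refine mul_le_mul a1 ?_ (norm_nonneg _) ((norm_nonneg _).trans a1)
    have a2 := T.sum_ge hε hv hy ht
    have a3 := T.decay hε hv hy ht
    have a4 := nV y hy t ht
    have a5 := T.nu hy.1 ht
    generalize 1 + v (s y t) = V at a2 a3 a4 ⊢
    set q := 1 / (1 + t) with hq
    have q0 : 0 < q := by positivity
    have e1 : Real.exp (-t) ≤ q := by
      rw [Real.exp_neg, hq, one_div]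
      exact inv_anti₀ (by linarith) (by linarith [Real.add_one_le_exp t])
    have e2 : Real.exp (-(3 / 4) * t) ≤ 2 * q := by
      rw [neg_mul, Real.exp_neg, hq, mul_one_div, inv_eq_one_div,
        div_le_div_iff₀ (Real.exp_pos _) (by linarith)]
      linarith [Real.add_one_le_exp (3 / 4 * t)]
    have e3 : 24 / (300 + t) ≤ 24 * q := by
      rw [hq, mul_one_div]
      gcongr
      norm_num
    have e4 : ‖(u y t + V - u y t * V) / s y t‖ ≤ 8 * q := by
      rw [norm_div, hq, mul_one_div, div_le_div_iff₀ (by linarith [T.s100 hy.1 ht]) (by linarith)]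
      have b1 := norm_sub_le (u y t + V) (u y t * V)
      rw [norm_mul] at b1
      have b2 : ‖u y t + V - u y t * V‖ ≤ 4 := by
        nlinarith [norm_add_le (u y t) V, norm_nonneg (u y t), norm_nonneg V]
      nlinarith [T.ns' hy.1 ht]
    have e5 := norm_add₃_le (a := 1 - u y t) (b := (u y t - V) / 2)
      (c := (u y t + V - u y t * V) / s y t)
    rw [norm_sub_rev, norm_div, Complex.norm_ofNat] at e5
    rw [norm_div, div_le_iff₀ (by linarith), show 50 / (1 + t) = 50 * q by rw [hq]; ring]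
    nlinarith [T.u1' hy.1 ht]
  have t5 := ((tu.sub_const 1).cexp.mul ((((hη y hy.1).sub (t1.div_const 2)).sub_const
    (log y / 2)).cexp)).add ((h1 y hy).mul (t2.sub t4))
  simpa using t5

end Traj

end Vale.Agent.P218F.Tip
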