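import Vale.Agent.P218F.LgbFin
import Vale.Agent.P218F.DynFin
import Vale.Agent.P218F.DynStatic
import Vale.Agent.P218F.DynST4
import Vale.Agent.P218F.DynST5
import Vale.Agent.P218F.DynST56
import Vale.Agent.P218F.DynST6
import Vale.Agent.P218F.DynF2
import Vale.Agent.P218F.DynShrBd
import Vale.Agent.P218F.EndsFin
import Vale.Agent.P218F.TubeSD
import Vale.Agent.P218F.DynGeo
import Vale.Agent.P218F.DynSlice
import Vale.Agent.P218F.MeshB
import Vale.Agent.P218F.DynAF
import Vale.Agent.P218FT.ConvAll
import Vale.Agent.P218FT.ConvB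

/-! Top assembly: the final statement from the finite dimensional reduction. -/

namespace Vale.Agent.P218F.Top

universe u

open Vale.Agent.P218FT

theorem static_of_LS (hLS : Dyn.LSStmt) : Dyn.StaticStmt :=
  Dyn.static_of (Dyn.shrBd_of Ends.ends_proof) Tube.sd_proof hLS
    (Dyn.Ge.geo_proof Tube.sd_proof (Dyn.Sl.slice_proof fv_proof)) Dyn.st14_proof
    (Dyn.st56_of (Dyn.st5_of DynF.field_proof) Dyn.st6_proof) Mesh.net_proof

theorem core_of_staticStmt (hS : Dyn.StaticStmt) : P218FS.CoreStmt :=
  DynCore.core_of_static fv_proof ev_proof cont_proof t1_all conv_all Conv.slice_proof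
    Conv.slimInt_proof (Dyn.staticLoj_of Dyn.Af.af_proof Mesh.poinc_proof Mesh.close_proof hS)

theorem final_of_LS (hLS : Dyn.LSStmt) : P218FS.FinalStmt.{u} :=
  Lgb.final_of_core (core_of_staticStmt (static_of_LS hLS))

end Vale.Agent.P218F.Top
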