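import Vale.Agent.P218F.TubeSign
import Mathlib.Analysis.Calculus.LagrangeMultipliers
import Mathlib.Analysis.InnerProductSpace.Calculus
import Mathlib.Analysis.InnerProductSpace.Dual
import Mathlib.Analysis.Calculus.ContDiff.RCLike
import Mathlib.Analysis.Convex.Contractible
import Mathlib.AlgebraicTopology.FundamentalGroupoid.SimplyConnected
import Mathlib.Topology.MetricSpace.HausdorffDistance
import Mathlib.Analysis.Normed.Module.FiniteDimension
import Mathlib.Topology.Order.IntermediateValue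

/-! Closed hypersurfaces of positive reach: foot points and the signed distance function. -/

open Set Filter Topology Metric
open scoped RealInnerProductSpace

namespace Vale.Agent.P218F.Tube

set_option linter.unusedSectionVars false
set_option linter.style.haveILetI false

variable {E : Type*} [NormedAddCommGroup E] [InnerProductSpace ℝ E] [FiniteDimensional ℝ E]

/-- `w` is a local equation of class `C^k` of `N` at `p` -/
def LEq (k : WithTop ℕ∞) (N : Set E) (p : E) (w : E → ℝ) : Prop :=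
  ContDiffAt ℝ k w p ∧ fderiv ℝ w p ≠ 0 ∧ ∀ᶠ y in 𝓝 p, y ∈ N ↔ w y = 0

/-- a closed `C¹` hypersurface with unit normals `n` (no orientation) and reach at least `r` -/
structure Hyp (N : Set E) (n : E → E) (r : ℝ) : Prop where
  pos : 0 < r
  closed : IsClosed N
  nonempty : N.Nonempty
  unit : ∀ p ∈ N, ‖n p‖ = 1
  loc : ∀ p ∈ N, ∃ w, LEq 1 N p w
  two : ∀ p ∈ N, ∀ q ∈ N, 2 * r * |⟪q - p, n p⟫| ≤ ‖q - p‖ ^ 2

/-- the gradient -/
noncomputable def gr (w : E → ℝ) (y : E) : E :=
  haveI := FiniteDimensional.complete ℝ E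
  (InnerProductSpace.toDual ℝ E).symm (fderiv ℝ w y)

/-- the normalised gradient -/
noncomputable def nw (w : E → ℝ) (y : E) : E := ‖gr w y‖⁻¹ • gr w y

open Classical in
/-- a nearest point -/
noncomputable def ft (N : Set E) (y : E) : E :=
  if h : ∃ p ∈ N, infDist y N = dist y p then h.choose else y

variable {N : Set E} {n : E → E} {r : ℝ} {p q y : E} {w : E → ℝ} {k : WithTop ℕ∞}

lemma inner_gr (w : E → ℝ) (y v : E) : ⟪gr w y, v⟫ = fderiv ℝ w y v := by
  simp [gr]

lemma norm_gr (w : E → ℝ) (y : E) : ‖gr w y‖ = ‖fderiv ℝ w y‖ := by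
  simp [gr]

lemma gr_eq_of_hasFDerivAt {v : E} (h : HasFDerivAt w (innerSL ℝ v) y) : gr w y = v := by
  apply ext_inner_right ℝ
  intro u
  rw [inner_gr, h.fderiv, innerSL_apply_apply]

lemma contDiffAt_gr {m : WithTop ℕ∞} (h : ContDiffAt ℝ k w p) (hm : m + 1 ≤ k) :
    ContDiffAt ℝ m (gr w) p := by
  haveI := FiniteDimensional.complete ℝ E
  exact (InnerProductSpace.toDual ℝ E).symm.contDiff.contDiffAt.comp p (h.fderiv_right hm)

lemma LEq.of_le {m : WithTop ℕ∞} (h : LEq k N p w) (hm : m ≤ k) : LEq m N p w :=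
  ⟨h.1.of_le hm, h.2⟩

lemma LEq.gr_ne (h : LEq k N p w) : gr w p ≠ 0 := by
  rw [← norm_ne_zero_iff, norm_gr, norm_ne_zero_iff]
  exact h.2.1

lemma LEq.norm_nw (h : LEq k N p w) : ‖nw w p‖ = 1 := by
  rw [nw, norm_smul, norm_inv, norm_norm, inv_mul_cancel₀ (norm_ne_zero_iff.2 h.gr_ne)]

lemma LEq.contDiffAt_nw {m : WithTop ℕ∞} (h : LEq k N p w) (hm : m + 1 ≤ k) :
    ContDiffAt ℝ m (nw w) p :=
  (((contDiffAt_gr h.1 hm).norm ℝ h.gr_ne).inv (norm_ne_zero_iff.2 h.gr_ne)).smul
    (contDiffAt_gr h.1 hm)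

lemma LEq.continuousAt_nw (h : LEq 1 N p w) : ContinuousAt (nw w) p :=
  (h.contDiffAt_nw (m := 0) (by norm_num)).continuousAt

lemma LEq.eventually (h : LEq 1 N p w) : ∀ᶠ q in 𝓝 p, LEq 1 N q w := by
  have h1 : ContinuousAt (fderiv ℝ w) p := h.1.continuousAt_fderiv (by norm_num)
  filter_upwards [h.1.eventually (by simp), h1.eventually_ne h.2.1, h.2.2.eventually_nhds]
    with q h2 h3 h4
  exact ⟨h2, h3, h4⟩

lemma LEq.zero (h : LEq k N p w) (hp : p ∈ N) : w p = 0 := h.2.2.self_of_nhds.1 hp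

lemma LEq.lagrange (h : LEq 1 N p w) (hp : p ∈ N) {φ : E → ℝ} {φ' : E →L[ℝ] ℝ}
    (hφ : HasStrictFDerivAt φ φ' p) (he : IsLocalExtrOn φ N p) :
    ∃ b : ℝ, φ' = b • fderiv ℝ w p := by
  haveI := FiniteDimensional.complete ℝ E
  have e : 𝓝[N] p = 𝓝[{x | w x = w p}] p := by
    rw [nhdsWithin_eq_iff_eventuallyEq]
    filter_upwards [h.2.2] with y hy
    rw [h.zero hp]
    exact propext hy
  have he' : IsLocalExtrOn φ {x | w x = w p} p := by
    unfold IsLocalExtrOn at he ⊢
    rwa [← e]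
  obtain ⟨a, b, hab, h1⟩ := he'.exists_multipliers_of_hasStrictFDerivAt_1d
    (h.1.hasStrictFDerivAt (by norm_num)) hφ
  have hb : b ≠ 0 := by
    rintro rfl
    rw [zero_smul, add_zero, smul_eq_zero] at h1
    rcases h1 with h1 | h1
    · exact hab (by simp [h1])
    · exact h.2.1 h1
  refine ⟨-(a / b), ?_⟩
  have h2 : b • φ' = -(a • fderiv ℝ w p) := eq_neg_of_add_eq_zero_right h1
  calc φ' = b⁻¹ • (b • φ') := by rw [smul_smul, inv_mul_cancel₀ hb, one_smul]
    _ = _ := by rw [h2, smul_neg, smul_smul, neg_smul, div_eq_inv_mul]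

lemma sign_of_unit {u v : E} {b : ℝ} (hu : ‖u‖ = 1) (hv : ‖v‖ = 1) (h : u = b • v) :
    u = v ∨ u = -v := by
  have h1 : |b| = 1 := by rw [h, norm_smul, hv, mul_one, Real.norm_eq_abs] at hu; exact hu
  rcases abs_eq (zero_le_one) |>.1 h1 with h2 | h2
  · left; rw [h, h2, one_smul]
  · right; rw [h, h2, neg_one_smul]

namespace Hyp

variable (h : Hyp N n r)
include h

lemma nw_eq (hp : p ∈ N) (hw : LEq 1 N p w) : nw w p = n p ∨ nw w p = -n p := by
  have h1 : HasStrictFDerivAt (fun q : E => q - p) (ContinuousLinearMap.id ℝ E) p :=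
    (hasStrictFDerivAt_id p).sub_const p
  have h0 := HasStrictFDerivAt.comp p (f := fun q : E => q - p)
    (hasStrictFDerivAt_norm_sq (p - p)) h1
  have h2 : HasStrictFDerivAt (fun q : E => 2 * r * ⟪n p, q - p⟫ - ‖q - p‖ ^ 2)
      ((2 * r) • innerSL ℝ (n p)) p := by
    have h3 := (((innerSL ℝ (n p)).hasStrictFDerivAt.comp p h1).const_mul (2 * r)).sub h0
    refine HasStrictFDerivAt.congr_fderiv h3 ?_
    simp
  have h3 : IsLocalExtrOn (fun q : E => 2 * r * ⟪n p, q - p⟫ - ‖q - p‖ ^ 2) N p := by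
    refine IsExtrOn.localize (IsMaxOn.isExtr fun q hq => ?_)
    have h4 := h.two p hp q hq
    have h5 := le_abs_self ⟪q - p, n p⟫
    have h6 := h.pos
    simp only [mem_ofPred_eq, sub_self, inner_zero_right, norm_zero]
    rw [real_inner_comm]
    nlinarith
  obtain ⟨b, hb⟩ := hw.lagrange hp h2 h3
  have h4 : n p = ((2 * r)⁻¹ * b * ‖gr w p‖) • nw w p := by
    apply ext_inner_right ℝ
    intro v
    have h5 := congrArg (fun L : E →L[ℝ] ℝ => L v) hb
    simp only [smul_apply, innerSL_apply_apply, smul_eq_mul] at h5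
    have h6 := norm_ne_zero_iff.2 hw.gr_ne
    have h7 := h.pos.ne'
    rw [nw, real_inner_smul_left, real_inner_smul_left, inner_gr]
    field_simp
    linarith
  rcases sign_of_unit (h.unit p hp) hw.norm_nw h4 with h5 | h5
  · exact Or.inl h5.symm
  · exact Or.inr (by rw [h5, neg_neg])

lemma dist_ray (hp : p ∈ N) (hq : q ∈ N) (t : ℝ) :
    r * t ^ 2 + (r - |t|) * ‖q - p‖ ^ 2 ≤ r * ‖p + t • n p - q‖ ^ 2 := by
  have e : p + t • n p - q = t • n p - (q - p) := by abel
  rw [e, norm_sub_sq_real (t • n p), norm_smul, h.unit p hp, real_inner_smul_left, real_inner_comm,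
    Real.norm_eq_abs, mul_one, sq_abs]
  have h1 := h.two p hp q hq
  have h2 : t * ⟪q - p, n p⟫ ≤ |t| * |⟪q - p, n p⟫| := by rw [← abs_mul]; exact le_abs_self _
  have h3 := h.pos
  have h4 := abs_nonneg t
  nlinarith

lemma infDist_ray (hp : p ∈ N) {t : ℝ} (ht : |t| ≤ r) : infDist (p + t • n p) N = |t| := by
  apply le_antisymm
  · refine (infDist_le_dist_of_mem hp).trans_eq ?_
    rw [dist_eq_norm, add_sub_cancel_left, norm_smul, h.unit p hp, mul_one, Real.norm_eq_abs]
  · rw [le_infDist h.nonempty]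
    intro q hq
    have h1 := h.dist_ray hp hq t
    have h2 : t ^ 2 ≤ ‖p + t • n p - q‖ ^ 2 := by
      have h3 := h.pos
      have h4 : 0 ≤ (r - |t|) * ‖q - p‖ ^ 2 := mul_nonneg (by linarith) (sq_nonneg _)
      nlinarith
    rw [dist_eq_norm]
    exact abs_le_of_sq_le_sq' h2 (norm_nonneg _) |> abs_le.2

lemma ft_spec (y : E) : ft N y ∈ N ∧ infDist y N = dist y (ft N y) := by
  haveI := FiniteDimensional.proper_real E
  have h1 := h.closed.exists_infDist_eq_dist h.nonempty y
  rw [ft, dif_pos h1]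
  exact h1.choose_spec

lemma ft_mem (y : E) : ft N y ∈ N := (h.ft_spec y).1

lemma norm_sub_ft (y : E) : ‖y - ft N y‖ = infDist y N := by
  rw [(h.ft_spec y).2, dist_eq_norm]

lemma ft_normal (y : E) : y - ft N y = ⟪y - ft N y, n (ft N y)⟫ • n (ft N y) := by
  have hp := h.ft_mem y
  have hd := h.norm_sub_ft y
  generalize ft N y = p at hp hd ⊢
  obtain ⟨w, hw⟩ := h.loc p hp
  have h1 : HasStrictFDerivAt (fun q : E => q - y) (ContinuousLinearMap.id ℝ E) p :=
    (hasStrictFDerivAt_id p).sub_const y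
  have h3 : IsLocalExtrOn (fun q : E => ‖q - y‖ ^ 2) N p := by
    refine IsExtrOn.localize (IsMinOn.isExtr fun q hq => ?_)
    have h4 : ‖p - y‖ ≤ ‖q - y‖ := by
      rw [norm_sub_rev, hd, norm_sub_rev, ← dist_eq_norm]
      exact infDist_le_dist_of_mem hq
    exact pow_le_pow_left₀ (norm_nonneg _) h4 2
  obtain ⟨b, hb⟩ := hw.lagrange hp ((hasStrictFDerivAt_norm_sq (p - y)).comp p h1) h3
  have h4 : y - p = (-(b / 2) * ‖gr w p‖) • nw w p := by
    apply ext_inner_right ℝ
    intro v
    have h5 := congrArg (fun L : E →L[ℝ] ℝ => L v) hb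
    simp only [smul_apply, innerSL_apply_apply, smul_eq_mul,
      ContinuousLinearMap.comp_id, two_smul,
      add_apply] at h5
    have h6 := norm_ne_zero_iff.2 hw.gr_ne
    rw [nw, real_inner_smul_left, real_inner_smul_left, inner_gr, ← neg_sub, inner_neg_left]
    field_simp
    linarith
  have h5 : ⟪n p, n p⟫ = 1 := by rw [real_inner_self_eq_norm_sq, h.unit p hp]; norm_num
  rcases h.nw_eq hp hw with h6 | h6
  · rw [h4, h6, real_inner_smul_left, h5, mul_one]
  · rw [h4, h6, real_inner_smul_left, inner_neg_left, h5, smul_neg, ← neg_smul, mul_neg, mul_one]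

lemma abs_inner_ft (y : E) : |⟪y - ft N y, n (ft N y)⟫| = infDist y N := by
  rw [← h.norm_sub_ft]
  conv_rhs => rw [h.ft_normal y, norm_smul, h.unit _ (h.ft_mem y), mul_one, Real.norm_eq_abs]

lemma ft_ray (hp : p ∈ N) {t : ℝ} (ht : |t| < r) : ft N (p + t • n p) = p := by
  have h1 := h.dist_ray hp (h.ft_mem (p + t • n p)) t
  rw [h.norm_sub_ft, h.infDist_ray hp ht.le, sq_abs] at h1
  have h2 : ‖ft N (p + t • n p) - p‖ ^ 2 ≤ 0 := by
    by_contra h3
    have := mul_pos (sub_pos.2 ht) (not_le.1 h3)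
    linarith
  have h3 : ‖ft N (p + t • n p) - p‖ = 0 := by nlinarith [norm_nonneg (ft N (p + t • n p) - p)]
  exact sub_eq_zero.1 (norm_eq_zero.1 h3)

lemma ft_self (hp : p ∈ N) : ft N p = p := by
  simpa using h.ft_ray hp (t := 0) (by simpa using h.pos)

lemma infDist_eq_zero : infDist y N = 0 ↔ y ∈ N :=
  (h.closed.mem_iff_infDist_zero h.nonempty).symm

lemma continuousAt_ft (hy : infDist y N < r) : ContinuousAt (ft N) y := by
  have hr := h.pos
  set d := infDist y N with hd
  have key : ∀ z, ‖ft N z - ft N y‖ ^ 2 ≤ (r - d)⁻¹ * (r * ((d + 2 * ‖z - y‖) ^ 2 - d ^ 2)) := by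
    intro z
    have h1 := h.dist_ray (h.ft_mem y) (h.ft_mem z) ⟪y - ft N y, n (ft N y)⟫
    rw [← h.ft_normal y, ← sq_abs, h.abs_inner_ft, add_sub_cancel] at h1
    have h2 : ‖y - ft N z‖ ≤ d + 2 * ‖z - y‖ := by
      have h3 := norm_sub_le_norm_sub_add_norm_sub y z (ft N z)
      have h4 := infDist_le_infDist_add_dist (x := z) (y := y) (s := N)
      rw [h.norm_sub_ft, norm_sub_rev y z] at h3
      rw [dist_eq_norm] at h4
      linarith
    have h3 := pow_le_pow_left₀ (norm_nonneg _) h2 2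
    rw [← div_eq_inv_mul, le_div_iff₀ (sub_pos.2 hy)]
    nlinarith
  have h1 : Tendsto (fun z => √((r - d)⁻¹ * (r * ((d + 2 * ‖z - y‖) ^ 2 - d ^ 2)))) (𝓝 y)
      (𝓝 0) := by
    have h2 : Continuous fun z => √((r - d)⁻¹ * (r * ((d + 2 * ‖z - y‖) ^ 2 - d ^ 2))) := by
      fun_prop
    simpa using h2.tendsto y
  rw [ContinuousAt, tendsto_iff_norm_sub_tendsto_zero]
  exact squeeze_zero (fun _ => norm_nonneg _) (fun z => Real.le_sqrt_of_sq_le (key z)) h1

lemma tendsto_ft (hp : p ∈ N) : Tendsto (ft N) (𝓝 p) (𝓝 p) := by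
  have h1 := h.continuousAt_ft (y := p) (by rw [h.infDist_eq_zero.2 hp]; exact h.pos)
  rwa [ContinuousAt, h.ft_self hp] at h1

lemma neg {n' : E → E} (hn : ∀ p ∈ N, n' p = n p ∨ n' p = -n p) : Hyp N n' r where
  pos := h.pos
  closed := h.closed
  nonempty := h.nonempty
  unit p hp := by rcases hn p hp with e | e <;> simp [e, h.unit p hp]
  loc := h.loc
  two p hp q hq := by
    rcases hn p hp with e | e <;> simpa [e, inner_neg_right] using h.two p hp q hq

end Hyp

lemma pm_of_abs {X : Type*} [TopologicalSpace X] {f d : X → ℝ} {b : X} (hf : ContinuousAt f b)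
    (h : ∀ᶠ y in 𝓝 b, |f y| = d y) (hd : d b ≠ 0) : PM f d b := by
  have h1 : f b ≠ 0 := by rw [← abs_ne_zero, h.self_of_nhds]; exact hd
  rcases h1.lt_or_gt with h2 | h2
  · right
    filter_upwards [h, hf.eventually_lt continuousAt_const h2] with y h3 h4
    rw [← h3, abs_of_neg h4, neg_neg]
  · left
    filter_upwards [h, continuousAt_const.eventually_lt hf h2] with y h3 h4
    rw [← h3, abs_of_pos h4]

/-- two fields of unit vectors which agree up to sign agree up to a locally constant sign -/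
lemma sign_const {X : Type*} {l : Filter X} {u v : X → E} {a b : E} (hu : Tendsto u l (𝓝 a))
    (hv : Tendsto v l (𝓝 b)) (hb : ‖b‖ = 1) (hab : a = b) (h : ∀ᶠ x in l, u x = v x ∨ u x = -v x) :
    ∀ᶠ x in l, u x = v x := by
  subst hab
  have h1 : Tendsto (fun x => u x + v x) l (𝓝 (a + a)) := hu.add hv
  have h2 : a + a ≠ 0 := by
    rw [← two_smul ℝ, smul_ne_zero_iff, ← norm_ne_zero_iff (a := a), hb]
    norm_num
  filter_upwards [h, h1.eventually_ne h2] with x h3 h4
  exact h3.resolve_right fun h5 => h4 (by rw [h5, neg_add_cancel])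

/-- the signed distance function `s` of a hypersurface of reach `r` with oriented normal `n` -/
structure SD (N : Set E) (n : E → E) (r : ℝ) (s : E → ℝ) : Prop extends Hyp N n r where
  cont : Continuous s
  abs : ∀ y, |s y| = infDist y N
  ray : ∀ p ∈ N, ∀ t : ℝ, |t| ≤ r → s (p + t • n p) = t

lemma sign_ray {f : ℝ → ℝ} {r : ℝ} (hf : Continuous f) (h : ∀ t, 0 ≤ t → t ≤ r → |f t| = t)
    (h0 : ∀ᶠ t in 𝓝[>] 0, f t = t) {t : ℝ} (h1 : 0 ≤ t) (h2 : t ≤ r) : f t = t := by
  rcases h1.eq_or_lt with h3 | h3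
  · subst h3
    exact abs_eq_zero.1 (h 0 le_rfl h2)
  obtain ⟨u, hu, hu2⟩ := (h0.and (Ioo_mem_nhdsGT h3)).exists
  rcases (abs_eq h1).1 (h t h1 h2) with h4 | h4
  · exact h4
  · obtain ⟨z, hz, hz0⟩ := intermediate_value_Icc' hu2.2.le hf.continuousOn
      (show (0 : ℝ) ∈ Icc (f t) (f u) from ⟨by linarith, by linarith [hu2.1]⟩)
    have h5 := h z (by linarith [hz.1, hu2.1]) (hz.2.trans h2)
    rw [hz0, abs_zero] at h5
    linarith [hz.1, hu2.1]

theorem Hyp.exists_sd (h : Hyp N n r) :
    ∃ (n' : E → E) (s : E → ℝ), (∀ p ∈ N, n' p = n p ∨ n' p = -n p) ∧ SD N n' r s := by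
  classical
  choose! w hw using h.loc
  let g : E → E → ℝ := fun a y =>
    if a ∈ N then ⟪y - ft N y, nw (w a) (ft N y)⟫ else infDist y N
  have hg1 : ∀ a ∈ N, g a = fun y => ⟪y - ft N y, nw (w a) (ft N y)⟫ := fun a ha => by
    ext y; simp [g, ha]
  have hg2 : ∀ a ∉ N, g a = fun y => infDist y N := fun a ha => by ext y; simp [g, ha]
  have hA : ∀ a, ∀ᶠ y in 𝓝 a, ContinuousAt (g a) y ∧ |g a y| = infDist y N := by
    intro a
    by_cases ha : a ∈ N
    · rw [hg1 a ha]
      have h0 : infDist a N < r := by rw [h.infDist_eq_zero.2 ha]; exact h.pos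
      filter_upwards [(h.tendsto_ft ha).eventually (hw a ha).eventually,
        (continuous_infDist_pt N).continuousAt.eventually_lt continuousAt_const h0] with y h1 h2
      have h3 := h.continuousAt_ft h2
      refine ⟨(continuousAt_id.sub h3).inner (h1.continuousAt_nw.comp h3), ?_⟩
      rcases h.nw_eq (h.ft_mem y) h1 with e | e
      · rw [e, h.abs_inner_ft]
      · rw [e, inner_neg_right, abs_neg, h.abs_inner_ft]
    · rw [hg2 a ha]
      exact Eventually.of_forall fun y =>
        ⟨(continuous_infDist_pt N).continuousAt, abs_of_nonneg infDist_nonneg⟩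
  have hR : ∀ a ∈ N, ∀ t : ℝ, |t| < r → g a (a + t • n a) = t * ⟪n a, nw (w a) a⟫ := by
    intro a ha t ht
    rw [hg1 a ha]
    simp only [h.ft_ray ha ht, add_sub_cancel_left, real_inner_smul_left]
  have hT : ∀ a v : E, Tendsto (fun t : ℝ => a + t • v) (𝓝 0) (𝓝 a) := fun a v => by
    have : Continuous fun t : ℝ => a + t • v := by fun_prop
    simpa using this.tendsto 0
  have hS : ∀ᶠ t : ℝ in 𝓝 0, |t| < r :=
    continuous_abs.continuousAt.eventually_lt continuousAt_const (by simpa using h.pos)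
  have hI : ∀ a ∈ N, ⟪n a, nw (w a) a⟫ = 1 ∨ ⟪n a, nw (w a) a⟫ = -1 := by
    intro a ha
    have h5 : ⟪n a, n a⟫ = 1 := by rw [real_inner_self_eq_norm_sq, h.unit a ha]; norm_num
    rcases h.nw_eq ha (hw a ha) with e | e
    · left; rw [e, h5]
    · right; rw [e, inner_neg_right, h5]
  have hc : ∀ a, ∀ᶠ b in 𝓝 a, PM (g a) (g b) b := by
    intro a
    have hoff : ∀ᶠ b in 𝓝 a, b ∉ N → PM (g a) (g b) b := by
      filter_upwards [(hA a).eventually_nhds] with b hb hbN
      rw [hg2 b hbN]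
      exact pm_of_abs hb.self_of_nhds.1 (hb.mono fun y hy => hy.2)
        fun h0 => hbN (h.infDist_eq_zero.1 h0)
    by_cases ha : a ∈ N
    · filter_upwards [hoff, (hw a ha).eventually] with b h1 h2
      by_cases hb : b ∈ N
      · have h3 := h.tendsto_ft hb
        have h4 : ∀ᶠ y in 𝓝 b, nw (w a) (ft N y) = nw (w b) (ft N y) ∨
            nw (w a) (ft N y) = -nw (w b) (ft N y) := by
          filter_upwards [h3.eventually h2.eventually, h3.eventually (hw b hb).eventually]
            with y h5 h6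
          rcases h.nw_eq (h.ft_mem y) h5 with e | e <;>
            rcases h.nw_eq (h.ft_mem y) h6 with e' | e' <;> simp [e, e']
        have h5 := h2.continuousAt_nw.tendsto.comp h3
        have h6 := (hw b hb).continuousAt_nw.tendsto.comp h3
        have h7 := h4.self_of_nhds
        rw [h.ft_self hb] at h7
        rw [hg1 a ha, hg1 b hb]
        rcases h7 with h7 | h7
        · left
          filter_upwards [sign_const h5 h6 (hw b hb).norm_nw h7 h4] with y hy
          exact congrArg (fun v => ⟪y - ft N y, v⟫) hy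
        · right
          filter_upwards [sign_const h5 h6.neg (by rw [norm_neg]; exact (hw b hb).norm_nw) h7
            (h4.mono fun y hy => by simpa using hy.symm)] with y hy
          exact (congrArg (fun v => ⟪y - ft N y, v⟫) hy).trans (inner_neg_right _ _)
      · exact h1 hb
    · filter_upwards [hoff, h.closed.isOpen_compl.mem_nhds ha] with b h1 h2
      exact h1 h2
  have hn : ∀ a, ¬ g a =ᶠ[𝓝 a] fun _ => 0 := by
    intro a h0
    by_cases ha : a ∈ N
    · have h1 : ∀ᶠ t : ℝ in 𝓝[≠] 0, t = 0 := by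
        refine Eventually.filter_mono nhdsWithin_le_nhds ?_
        filter_upwards [(hT a (n a)).eventually h0, hS] with t h1 h2
        rw [hR a ha t h2] at h1
        rcases hI a ha with e | e <;> rw [e] at h1 <;> linarith
      obtain ⟨t, h2, h3⟩ := (h1.and self_mem_nhdsWithin).exists
      exact h3 h2
    · have h1 := h0.self_of_nhds
      rw [hg2 a ha] at h1
      exact ha (h.infDist_eq_zero.1 h1)
  obtain ⟨s, hs⟩ := exists_glue g hc hn
  · have hsc : Continuous s := by
      refine continuous_iff_continuousAt.2 fun a => ?_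
      rcases hs a with e | e
      · exact (hA a).self_of_nhds.1.congr e.symm
      · exact (hA a).self_of_nhds.1.neg.congr e.symm
    have hsa : ∀ y, |s y| = infDist y N := fun a => by
      rcases hs a with e | e
      · rw [e.self_of_nhds]; exact (hA a).self_of_nhds.2
      · rw [e.self_of_nhds, abs_neg]; exact (hA a).self_of_nhds.2
    have hE : ∀ a ∈ N, ∃ v, (v = n a ∨ v = -n a) ∧ ∀ᶠ t : ℝ in 𝓝 0, s (a + t • v) = t := by
      intro a ha
      have hneg : Tendsto (fun t : ℝ => -t) (𝓝 0) (𝓝 0) := by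
        simpa using (continuous_neg (G := ℝ)).tendsto 0
      have h1 : (∀ᶠ t : ℝ in 𝓝 0, s (a + t • n a) = t) ∨ ∀ᶠ t : ℝ in 𝓝 0, s (a + t • n a) = -t := by
        rcases hs a with e | e <;> rcases hI a ha with e' | e'
        · left
          filter_upwards [(hT a (n a)).eventually e, hS] with t h1 h2
          rw [h1, hR a ha t h2, e', mul_one]
        · right
          filter_upwards [(hT a (n a)).eventually e, hS] with t h1 h2
          rw [h1, hR a ha t h2, e', mul_neg_one]
        · right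
          filter_upwards [(hT a (n a)).eventually e, hS] with t h1 h2
          rw [h1, hR a ha t h2, e', mul_one]
        · left
          filter_upwards [(hT a (n a)).eventually e, hS] with t h1 h2
          rw [h1, hR a ha t h2, e', mul_neg_one, neg_neg]
      rcases h1 with h1 | h1
      · exact ⟨n a, Or.inl rfl, h1⟩
      · refine ⟨-n a, Or.inr rfl, (hneg.eventually h1).mono fun t ht => ?_⟩
        rw [smul_neg, ← neg_smul, ht, neg_neg]
    choose! n' hn' hn'' using hE
    have h' := h.neg hn'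
    refine ⟨n', s, hn', h', hsc, hsa, fun p hp t ht => ?_⟩
    rcases le_total 0 t with h0 | h0
    · refine sign_ray (f := fun t => s (p + t • n' p)) (r := r) (by fun_prop) (fun u h1 h2 => ?_)
        ((hn'' p hp).filter_mono nhdsWithin_le_nhds) h0 ((le_abs_self t).trans ht)
      rw [hsa, h'.infDist_ray hp (by rwa [abs_of_nonneg h1]), abs_of_nonneg h1]
    · have hneg : Tendsto (fun t : ℝ => -t) (𝓝 0) (𝓝 0) := by
        simpa using (continuous_neg (G := ℝ)).tendsto 0
      have h1 := sign_ray (f := fun t => -s (p + (-t) • n' p)) (r := r) (by fun_prop)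
        (fun u h1 h2 => ?_) (((hneg.eventually (hn'' p hp)).mono fun u hu => ?_).filter_mono
          nhdsWithin_le_nhds) (neg_nonneg.2 h0) ((neg_le_abs t).trans ht)
      · simpa using h1
      · rw [abs_neg, hsa, h'.infDist_ray hp (by rwa [abs_neg, abs_of_nonneg h1]), abs_neg,
          abs_of_nonneg h1]
      · rw [hu, neg_neg]

end Vale.Agent.P218F.Tube
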