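import Vale.Agent.P218F.Tube1
import Mathlib.Analysis.Calculus.InverseFunctionTheorem.ContDiff
import Mathlib.Analysis.Calculus.FDeriv.CompCLM

/-! Regularity of the signed distance function in the tube. -/

open Set Filter Topology Metric Asymptotics
open scoped RealInnerProductSpace

namespace Vale.Agent.P218F.Tube

set_option linter.unusedSectionVars false
set_option linter.style.haveILetI false

variable {E : Type*} [NormedAddCommGroup E] [InnerProductSpace ℝ E] [FiniteDimensional ℝ E]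
variable {N : Set E} {n : E → E} {r : ℝ} {p q y z : E} {w s : E → ℝ} {k : WithTop ℕ∞}

lemma hasFDerivAt_of_quad {F : Type*} [NormedAddCommGroup F] [NormedSpace ℝ F] {f : E → F}
    {L : E →L[ℝ] F} {C : ℝ} (h : ∀ᶠ z in 𝓝 y, ‖f z - f y - L (z - y)‖ ≤ C * ‖z - y‖ ^ 2) :
    HasFDerivAt f L y := by
  refine HasFDerivAt.of_isLittleO (IsBigO.trans_isLittleO (IsBigO.of_bound C ?_)
    (isLittleO_pow_sub_sub y (m := 2) (by norm_num)))
  filter_upwards [h] with z hz
  rwa [Real.norm_of_nonneg (by positivity)]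

lemma norm_ray_le {ρ : ℝ} (hρ : 0 < ρ) {v : E} (hv : ‖v‖ = 1) (d : E) :
    ‖ρ • v - d‖ ≤ ρ - ⟪v, d⟫ + ‖d‖ ^ 2 / (2 * ρ) := by
  have h1 : ‖ρ • v - d‖ ^ 2 = ρ ^ 2 - 2 * ρ * ⟪v, d⟫ + ‖d‖ ^ 2 := by
    rw [norm_sub_sq_real, norm_smul, hv, real_inner_smul_left, Real.norm_eq_abs, mul_one, sq_abs]
    ring
  have h2 : ‖ρ • v - d‖ - (ρ - ⟪v, d⟫) ≤ ‖d‖ ^ 2 / (2 * ρ) := by
    rw [le_div_iff₀ (by positivity)]
    nlinarith [sq_nonneg (‖ρ • v - d‖ - ρ)]
  linarith

lemma LEq.neg (h : LEq k N p w) : LEq k N p fun y => -w y := by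
  refine ⟨h.1.neg, ?_, h.2.2.mono fun y hy => by rw [neg_eq_zero]; exact hy⟩
  rw [fderiv_fun_neg, neg_ne_zero]
  exact h.2.1

lemma gr_neg (w : E → ℝ) (y : E) : gr (fun y => -w y) y = -gr w y := by
  apply ext_inner_right ℝ
  intro v
  rw [inner_neg_left, inner_gr, inner_gr, fderiv_fun_neg]
  rfl

lemma nw_neg (w : E → ℝ) (y : E) : nw (fun y => -w y) y = -nw w y := by
  rw [nw, nw, gr_neg, norm_neg, smul_neg]

namespace SD

variable (h : SD N n r s)
include h

lemma eq_zero : s y = 0 ↔ y ∈ N := by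
  rw [← abs_eq_zero, h.abs, h.toHyp.infDist_eq_zero]

lemma ft_mem (y : E) : ft N y ∈ N := h.toHyp.ft_mem y

lemma norm_n (y : E) : ‖n (ft N y)‖ = 1 := h.unit _ (h.ft_mem y)

lemma decomp (hy : |s y| ≤ r) : ft N y + s y • n (ft N y) = y := by
  have h1 := h.toHyp.ft_normal y
  have h2 : |⟪y - ft N y, n (ft N y)⟫| ≤ r := by rw [h.toHyp.abs_inner_ft, ← h.abs]; exact hy
  have h3 := h.ray _ (h.ft_mem y) _ h2
  rw [← h1, add_sub_cancel] at h3
  rw [h3, ← h1, add_sub_cancel]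

lemma ft_eq (hy : |s y| ≤ r) : ft N y = y - s y • n (ft N y) := eq_sub_of_add_eq (h.decomp hy)

lemma lip (y z : E) : |s y - s z| ≤ ‖y - z‖ := by
  have key : ∀ y z, s y ≤ 0 → 0 ≤ s z → s z - s y ≤ ‖z - y‖ := by
    intro y z hy hz
    have hc : Continuous fun t : ℝ => s (y + t • (z - y)) := h.cont.comp (by fun_prop)
    obtain ⟨t, ht, h0⟩ := intermediate_value_Icc zero_le_one hc.continuousOn
      (show (0 : ℝ) ∈ Icc _ _ from ⟨by simpa using hy, by simpa using hz⟩)
    have h1 := h.eq_zero.1 h0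
    have h2 := infDist_le_dist_of_mem (x := y) h1
    have h3 := infDist_le_dist_of_mem (x := z) h1
    have e : z - (y + t • (z - y)) = (1 - t) • (z - y) := by rw [sub_smul, one_smul]; abel
    rw [← h.abs, abs_of_nonpos hy, dist_comm, dist_eq_norm, add_sub_cancel_left, norm_smul,
      Real.norm_of_nonneg ht.1] at h2
    rw [← h.abs, abs_of_nonneg hz, dist_eq_norm, e, norm_smul,
      Real.norm_of_nonneg (sub_nonneg.2 ht.2)] at h3
    linarith
  have h1 := infDist_le_infDist_add_dist (x := y) (y := z) (s := N)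
  have h2 := infDist_le_infDist_add_dist (x := z) (y := y) (s := N)
  rw [← h.abs, ← h.abs, dist_eq_norm] at h1 h2
  have h3 := norm_sub_rev y z
  rw [abs_le]
  rcases le_total 0 (s y) with hy | hy <;> rcases le_total 0 (s z) with hz | hz
  · rw [abs_of_nonneg hy, abs_of_nonneg hz] at h1 h2
    constructor <;> linarith
  · have := key z y hz hy
    constructor <;> linarith [norm_nonneg (y - z)]
  · have := key y z hy hz
    constructor <;> linarith [norm_nonneg (y - z)]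
  · rw [abs_of_nonpos hy, abs_of_nonpos hz] at h1 h2
    constructor <;> linarith

lemma quad (hy : |s y| ≤ r / 2) (z : E) :
    |s z - s y - ⟪n (ft N y), z - y⟫| ≤ r⁻¹ * ‖z - y‖ ^ 2 := by
  have hr := h.pos
  have hd := h.decomp (hy.trans (by linarith))
  have hp := h.ft_mem y
  have hn := h.norm_n y
  generalize ft N y = p at hd hp hn ⊢
  obtain ⟨ht1, ht2⟩ := abs_le.1 hy
  have key : ∀ ρ : ℝ, r / 2 ≤ ρ → ‖z - y‖ ^ 2 / (2 * ρ) ≤ r⁻¹ * ‖z - y‖ ^ 2 := fun ρ hρ => by
    rw [← div_eq_inv_mul]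
    exact div_le_div_of_nonneg_left (sq_nonneg _) hr (by linarith)
  have h1 := h.lip (p + r • n p) z
  have h2 := h.lip (p + (-r) • n p) z
  have e1 : p + r • n p - z = (r - s y) • n p - (z - y) := by
    linear_combination (norm := module) hd
  have e2 : p + (-r) • n p - z = (r + s y) • (-n p) - (z - y) := by
    linear_combination (norm := module) hd
  rw [h.ray p hp r (abs_of_pos hr).le, e1] at h1
  rw [h.ray p hp (-r) (by rw [abs_neg, abs_of_pos hr]), e2] at h2
  have h3 := norm_ray_le (ρ := r - s y) (by linarith) hn (z - y)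
  have h4 := norm_ray_le (ρ := r + s y) (v := -n p) (by linarith) (by rwa [norm_neg]) (z - y)
  rw [inner_neg_left] at h4
  have h5 := key (r - s y) (by linarith)
  have h6 := key (r + s y) (by linarith)
  rw [abs_le] at h1 h2 ⊢
  constructor <;> linarith [h1.2, h2.1]

lemma hasFDerivAt (hy : |s y| ≤ r / 2) : HasFDerivAt s (innerSL ℝ (n (ft N y))) y :=
  hasFDerivAt_of_quad (C := r⁻¹) (Eventually.of_forall fun z => h.quad hy z)

lemma gr_eq (hy : |s y| ≤ r / 2) : gr s y = n (ft N y) := gr_eq_of_hasFDerivAt (h.hasFDerivAt hy)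

lemma lip_n (hy : |s y| ≤ r / 2) (hz : |s z| ≤ r / 2) :
    ‖n (ft N z) - n (ft N y)‖ ≤ 6 / r * ‖z - y‖ := by
  have hr := h.pos
  by_cases h0 : n (ft N z) - n (ft N y) = 0
  · rw [h0, norm_zero]; positivity
  by_cases h1 : z - y = 0
  · exact absurd (by rw [sub_eq_zero.1 h1, sub_self]) h0
  set u := n (ft N z) - n (ft N y) with hu
  have hu0 : 0 < ‖u‖ := norm_pos_iff.2 h0
  have hd0 : 0 < ‖z - y‖ := norm_pos_iff.2 h1
  set v := (‖z - y‖ / ‖u‖) • u with hv
  have hvn : ‖v‖ = ‖z - y‖ := by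
    rw [hv, norm_smul, Real.norm_of_nonneg (by positivity)]; field_simp
  have hA := h.quad hy (z + v)
  have hB := h.quad hz (z + v)
  have hC := h.quad hy z
  have e1 : z + v - y = (z - y) + v := by abel
  rw [e1, inner_add_right] at hA
  rw [add_sub_cancel_left, hvn] at hB
  have h2 : ‖z - y + v‖ ^ 2 ≤ (2 * ‖z - y‖) ^ 2 :=
    pow_le_pow_left₀ (norm_nonneg _) ((norm_add_le _ _).trans (by rw [hvn]; linarith)) 2
  have h3 : ⟪n (ft N z), v⟫ - ⟪n (ft N y), v⟫ = ‖z - y‖ * ‖u‖ := by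
    rw [← inner_sub_left, ← hu, hv, real_inner_smul_right, real_inner_self_eq_norm_sq]
    field_simp
  have h4 : r⁻¹ * ‖z - y + v‖ ^ 2 ≤ r⁻¹ * (2 * ‖z - y‖) ^ 2 := by gcongr
  rw [abs_le] at hA hB hC
  have h5 : ‖z - y‖ * ‖u‖ ≤ ‖z - y‖ * (6 / r * ‖z - y‖) := by
    rw [div_eq_mul_inv]
    nlinarith [hA.2, hB.1, hC.1]
  exact le_of_mul_le_mul_left h5 hd0

lemma ev_lt {a : ℝ} (hy : |s y| < a) : ∀ᶠ z in 𝓝 y, |s z| < a :=
  h.cont.abs.continuousAt.eventually_lt continuousAt_const hy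

lemma abs_ft (y : E) : |s (ft N y)| = 0 := by rw [h.eq_zero.2 (h.ft_mem y), abs_zero]

lemma continuousAt_ft (hy : |s y| < r) : ContinuousAt (ft N) y :=
  h.toHyp.continuousAt_ft (by rwa [← h.abs])

lemma continuousAt_n (hy : |s y| < r / 2) : ContinuousAt (fun z => n (ft N z)) y := by
  rw [ContinuousAt, tendsto_iff_norm_sub_tendsto_zero]
  have h1 : Continuous fun z => 6 / r * ‖z - y‖ := by fun_prop
  refine squeeze_zero' (Eventually.of_forall fun _ => norm_nonneg _)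
    ((h.ev_lt hy).mono fun z hz => h.lip_n hy.le hz.le) (by simpa using h1.tendsto y)

lemma gr_ev (hy : |s y| < r / 2) : gr s =ᶠ[𝓝 y] fun z => n (ft N z) :=
  (h.ev_lt hy).mono fun _ hz => h.gr_eq hz.le

lemma norm_hess (hy : |s y| < r / 2) : ‖fderiv ℝ (gr s) y‖ ≤ 6 / r := by
  have hr := h.pos
  refine norm_fderiv_le_of_lip' ℝ (by positivity) ((h.ev_lt hy).mono fun z hz => ?_)
  rw [h.gr_eq hz.le, h.gr_eq hy.le]
  exact h.lip_n hy.le hz.le

lemma exists_eqn (hp : p ∈ N) (hk : 1 ≤ k) (hw : LEq k N p w) :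
    ∃ w', (w' = w ∨ w' = fun y => -w y) ∧ LEq k N p w' ∧ nw w' p = n p := by
  rcases h.toHyp.nw_eq hp (hw.of_le hk) with e | e
  · exact ⟨w, Or.inl rfl, hw, e⟩
  · exact ⟨_, Or.inr rfl, hw.neg, by rw [nw_neg, e, neg_neg]⟩

lemma n_ev (hy : |s y| < r / 2) (hw : LEq 1 N (ft N y) w) (e : nw w (ft N y) = n (ft N y)) :
    ∀ᶠ z in 𝓝 y, n (ft N z) = nw w (ft N z) := by
  have h1 := h.continuousAt_ft (y := y) (by linarith [h.pos])
  refine sign_const (h.continuousAt_n hy) (hw.continuousAt_nw.tendsto.comp h1) hw.norm_nw e.symm ?_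
  filter_upwards [h1.eventually hw.eventually] with z hz
  rcases h.toHyp.nw_eq (h.ft_mem z) hz with e' | e'
  · exact Or.inl e'.symm
  · exact Or.inr (by rw [e', neg_neg])

lemma hasFDerivAt_ft_self (hp : p ∈ N) :
    HasFDerivAt (ft N) (ContinuousLinearMap.id ℝ E - (innerSL ℝ (n p)).smulRight (n p)) p := by
  have hr := h.pos
  have h0 : |s p| < r / 2 := by rw [h.eq_zero.2 hp, abs_zero]; positivity
  refine hasFDerivAt_of_quad (C := 7 / r) ((h.ev_lt h0).mono fun z hz => ?_)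
  have h1 := h.quad h0.le z
  have h2 := h.lip_n h0.le hz.le
  have h3 := h.decomp (y := z) (by linarith)
  have h4 := h.norm_n z
  rw [h.toHyp.ft_self hp] at h1 h2 ⊢
  rw [h.eq_zero.2 hp, sub_zero] at h1
  have e : ft N z - p - (ContinuousLinearMap.id ℝ E - (innerSL ℝ (n p)).smulRight (n p)) (z - p)
      = -((s z - ⟪n p, z - p⟫) • n (ft N z) + ⟪n p, z - p⟫ • (n (ft N z) - n p)) := by
    simp only [sub_apply, ContinuousLinearMap.id_apply,
      ContinuousLinearMap.smulRight_apply, innerSL_apply_apply]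
    linear_combination (norm := module) h3
  rw [e, norm_neg]
  refine (norm_add_le _ _).trans ?_
  rw [norm_smul, norm_smul, h4, Real.norm_eq_abs, Real.norm_eq_abs]
  have h5 : |⟪n p, z - p⟫| ≤ ‖z - p‖ := by
    simpa [h.unit p hp] using abs_real_inner_le_norm (n p) (z - p)
  have h6 := mul_le_mul h5 h2 (norm_nonneg _) (norm_nonneg _)
  rw [div_eq_mul_inv] at h6 ⊢
  nlinarith

/-- the bound for the Weingarten map -/
lemma norm_fderiv_nw (hp : p ∈ N) (hw : LEq 1 N p w) (e : nw w p = n p)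
    (hd : DifferentiableAt ℝ (nw w) p) {v : E} (hv : ⟪n p, v⟫ = 0) :
    ‖fderiv ℝ (nw w) p v‖ ≤ 6 / r * ‖v‖ := by
  have hr := h.pos
  have h0 : |s p| < r / 2 := by rw [h.eq_zero.2 hp, abs_zero]; positivity
  have hf := h.toHyp.ft_self hp
  have h1 : HasFDerivAt (nw w) (fderiv ℝ (nw w) p) (ft N p) := by rw [hf]; exact hd.hasFDerivAt
  have h2 := h1.comp p (h.hasFDerivAt_ft_self hp)
  have h3 := h.n_ev h0 (by rwa [hf]) (by rwa [hf])
  have h4 := h2.le_of_lip' (C := 6 / r) (by positivity) (by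
    filter_upwards [h3, h.ev_lt h0] with z h5 h6
    rw [Function.comp, Function.comp, ← h5, ← h3.self_of_nhds]
    exact h.lip_n h0.le h6.le)
  have h5 := ContinuousLinearMap.le_of_opNorm_le _ h4 v
  simpa [hv] using h5

theorem contDiffAt_ft {m : ℕ} (hm : m ≠ 0) (hy : |s y| ≤ r / 8)
    (hw : LEq (m + 1) N (ft N y) w) : ContDiffAt ℝ m (ft N) y := by
  haveI := FiniteDimensional.complete ℝ E
  have hr := h.pos
  have hm1 : (1 : WithTop ℕ∞) ≤ m := by exact_mod_cast Nat.one_le_iff_ne_zero.2 hm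
  have hm0 : (m : WithTop ℕ∞) ≠ 0 := by exact_mod_cast hm
  have hp := h.ft_mem y
  obtain ⟨w, -, hw, e⟩ := h.exists_eqn hp (hm1.trans le_self_add) hw
  have hd := h.decomp (y := y) (by linarith)
  generalize ft N y = p at hw e hp hd
  have hw1 : LEq 1 N p w := hw.of_le (hm1.trans le_self_add)
  have hF : ContDiffAt ℝ m (nw w) p := hw.contDiffAt_nw le_rfl
  let G : E × ℝ → E × ℝ := fun a => (a.1 + a.2 • nw w a.1, w a.1)
  have hG : ContDiffAt ℝ m G (p, s y) :=
    (contDiffAt_fst.add (contDiffAt_snd.smul (ContDiffAt.comp (p, s y) hF contDiffAt_fst))).prodMk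
      (ContDiffAt.comp (p, s y) (hw.1.of_le le_self_add) contDiffAt_fst)
  have hF1 := (hF.differentiableAt hm0).hasFDerivAt
  have hw2 := (hw1.1.differentiableAt one_ne_zero).hasFDerivAt
  have hfst : HasFDerivAt (Prod.fst : E × ℝ → E) (ContinuousLinearMap.fst ℝ E ℝ) (p, s y) :=
    hasFDerivAt_fst
  have hsnd : HasFDerivAt (Prod.snd : E × ℝ → ℝ) (ContinuousLinearMap.snd ℝ E ℝ) (p, s y) :=
    hasFDerivAt_snd
  have hG1 := (hfst.add (hsnd.smul (HasFDerivAt.comp (p, s y) (f := Prod.fst) hF1 hfst))).prodMk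
    (HasFDerivAt.comp (p, s y) (f := Prod.fst) hw2 hfst)
  obtain ⟨L, hL, hinj⟩ : ∃ L : E × ℝ →L[ℝ] E × ℝ, HasFDerivAt G L (p, s y) ∧
      Function.Injective L := by
    refine ⟨_, hG1, (injective_iff_map_eq_zero _).2 fun a ha => ?_⟩
    obtain ⟨v, τ⟩ := a
    have h1 : v + (s y • fderiv ℝ (nw w) p v + τ • nw w p) = 0 := by
      simpa using congrArg Prod.fst ha
    have h2 : fderiv ℝ w p v = 0 := by simpa using congrArg Prod.snd ha
    have h3 : ⟪n p, v⟫ = 0 := by rw [← e, nw, real_inner_smul_left, inner_gr, h2, mul_zero]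
    have h4 := h.norm_fderiv_nw hp hw1 e hF1.differentiableAt h3
    have h5 := congrArg (fun u => ⟪u, v⟫) h1
    simp only [inner_add_left, real_inner_smul_left, e, h3, mul_zero, add_zero, inner_zero_left,
      real_inner_self_eq_norm_sq] at h5
    have h6 : |s y * ⟪fderiv ℝ (nw w) p v, v⟫| ≤ r / 8 * (6 / r * ‖v‖ * ‖v‖) := by
      rw [abs_mul]
      exact mul_le_mul hy ((abs_real_inner_le_norm _ _).trans
        (mul_le_mul_of_nonneg_right h4 (norm_nonneg _))) (abs_nonneg _) (by positivity)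
    have h7 : r / 8 * (6 / r * ‖v‖ * ‖v‖) = 3 / 4 * ‖v‖ ^ 2 := by field_simp; ring
    have h8 : v = 0 := by
      rw [h7, abs_le] at h6
      have : ‖v‖ ^ 2 = 0 := by nlinarith [h6.1, sq_nonneg ‖v‖]
      exact norm_eq_zero.1 (pow_eq_zero_iff two_ne_zero |>.1 this)
    rw [h8, map_zero, smul_zero, zero_add, zero_add, smul_eq_zero] at h1
    have h9 : τ = 0 := h1.resolve_right (by rw [← norm_eq_zero, hw.norm_nw]; norm_num)
    rw [h8, h9]; rfl
  let L' : (E × ℝ) ≃L[ℝ] (E × ℝ) :=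
    (LinearEquiv.ofInjectiveEndo L.toLinearMap hinj).toContinuousLinearEquiv
  have hL' : HasFDerivAt G (L' : E × ℝ →L[ℝ] E × ℝ) (p, s y) := hL
  have hG0 : G (p, s y) = (y, 0) := by simp only [G, e, hd, hw.zero hp]
  have hH := hG.to_localInverse hL' hm0
  have hS := hG.hasStrictFDerivAt' hL' hm0
  have hR := hS.eventually_right_inverse
  have hT := hS.localInverse_tendsto
  rw [hG0] at hH hR hT
  have hi : ContDiffAt ℝ m (fun z : E => (z, (0 : ℝ))) y := contDiffAt_id.prodMk contDiffAt_const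
  refine (contDiffAt_fst.comp y (hH.comp y hi)).congr_of_eventuallyEq ?_
  have hT2 := hT.comp hi.continuousAt
  have hT3 := (continuous_fst.tendsto _).comp hT2
  have hT4 := (continuous_snd.tendsto _).comp hT2
  have h9 : ∀ᶠ t in 𝓝 (s y), |t| < r :=
    continuous_abs.continuousAt.eventually_lt continuousAt_const (by linarith)
  filter_upwards [hi.continuousAt.eventually hR, hT3.eventually hw1.eventually,
    hT3.eventually hw.2.2, hT4.eventually h9] with z h1 h2 h3 h4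
  simp only [Function.comp] at h2 h3 h4
  change ft N z = (hS.localInverse G L' (p, s y) (z, 0)).1
  generalize hS.localInverse G L' (p, s y) (z, 0) = a at h1 h2 h3 h4
  have h5 : a.1 ∈ N := h3.2 (congrArg Prod.snd h1)
  have h6 : a.1 + a.2 • nw w a.1 = z := congrArg Prod.fst h1
  rcases h.toHyp.nw_eq h5 h2 with e' | e'
  · rw [← h6, e', h.toHyp.ft_ray h5 h4]
  · rw [← h6, e', smul_neg, ← neg_smul, h.toHyp.ft_ray h5 (by rwa [abs_neg])]

theorem contDiffAt {m : ℕ} (hm : m ≠ 0) (hy : |s y| ≤ r / 8)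
    (hw : LEq (m + 1) N (ft N y) w) : ContDiffAt ℝ (m + 1) s y := by
  have hr := h.pos
  have hy2 : |s y| < r / 2 := by linarith
  have h1 := h.contDiffAt_ft hm hy hw
  obtain ⟨w, -, hw, e⟩ := h.exists_eqn (h.ft_mem y) le_add_self hw
  have h2 : ContDiffAt ℝ m (fun z => n (ft N z)) y :=
    ((hw.contDiffAt_nw le_rfl).comp y h1).congr_of_eventuallyEq
      (h.n_ev hy2 (hw.of_le le_add_self) e)
  refine contDiffAt_succ_iff_hasFDerivAt.2 ⟨fun z => innerSL ℝ (n (ft N z)),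
    ⟨_, h.ev_lt hy2, fun z hz => h.hasFDerivAt (le_of_lt hz)⟩, ?_⟩
  exact (innerSL ℝ (E := E)).contDiff.contDiffAt.comp y h2

end SD

end Vale.Agent.P218F.Tube
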