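import Vale.Agent.P218F.Tube2
import Mathlib.Analysis.Calculus.FDeriv.Mul

/-! The third derivative of the signed distance function. -/

open Set Filter Topology Metric Asymptotics
open scoped RealInnerProductSpace

namespace Vale.Agent.P218F.Tube

set_option linter.unusedSectionVars false
set_option linter.style.haveILetI false
set_option maxSynthPendingDepth 3

lemma norm_fderiv2_comp {E F G : Type*} [NormedAddCommGroup E] [NormedSpace ℝ E]
    [NormedAddCommGroup F] [NormedSpace ℝ F] [NormedAddCommGroup G] [NormedSpace ℝ G]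
    {f : F → G} {g : E → F} {x : E} (hf : ContDiffAt ℝ 2 f (g x)) (hg : ContDiffAt ℝ 2 g x) :
    ‖fderiv ℝ (fderiv ℝ (f ∘ g)) x‖ ≤ ‖fderiv ℝ (fderiv ℝ f) (g x)‖ * ‖fderiv ℝ g x‖ ^ 2
      + ‖fderiv ℝ f (g x)‖ * ‖fderiv ℝ (fderiv ℝ g) x‖ := by
  have e : fderiv ℝ (f ∘ g) =ᶠ[𝓝 x] fun z => (fderiv ℝ f (g z)).comp (fderiv ℝ g z) := by
    filter_upwards [hg.continuousAt.eventually (hf.eventually (by simp)), hg.eventually (by simp)]
      with z h1 h2
    exact fderiv_comp z (h1.differentiableAt (by norm_num)) (h2.differentiableAt (by norm_num))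
  have h1 := ((hf.fderiv_right (m := 1) (by norm_num)).differentiableAt one_ne_zero).hasFDerivAt
  have h2 := ((hg.fderiv_right (m := 1) (by norm_num)).differentiableAt one_ne_zero).hasFDerivAt
  have h3 := (hg.differentiableAt (by norm_num)).hasFDerivAt
  have h4 := (HasFDerivAt.comp x h1 h3).clm_comp h2
  rw [e.fderiv_eq]
  refine (congrArg norm h4.fderiv).trans_le ?_
  refine ContinuousLinearMap.opNorm_le_bound _ (by positivity) fun v => ?_
  simp only [add_apply, ContinuousLinearMap.comp_apply, ContinuousLinearMap.compL_apply,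
    ContinuousLinearMap.flip_apply, Function.comp_apply]
  refine (norm_add_le _ _).trans ?_
  have h5 := ((fderiv ℝ f (g x)).opNorm_comp_le (fderiv ℝ (fderiv ℝ g) x v)).trans
    (mul_le_mul_of_nonneg_left ((fderiv ℝ (fderiv ℝ g) x).le_opNorm v) (norm_nonneg _))
  have h6 := ((fderiv ℝ (fderiv ℝ f) (g x) (fderiv ℝ g x v)).opNorm_comp_le (fderiv ℝ g x)).trans
    (mul_le_mul_of_nonneg_right (((fderiv ℝ (fderiv ℝ f) (g x)).le_opNorm (fderiv ℝ g x v)).trans
      (mul_le_mul_of_nonneg_left ((fderiv ℝ g x).le_opNorm v) (norm_nonneg _))) (norm_nonneg _))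
  nlinarith

variable {E : Type*} [NormedAddCommGroup E] [InnerProductSpace ℝ E] [FiniteDimensional ℝ E]
variable {N : Set E} {n : E → E} {r : ℝ} {p q y z : E} {w s : E → ℝ} {k : WithTop ℕ∞}

variable (E) in
lemma exists_unit_bound : ∃ c : ℝ, 0 < c ∧ ∀ v : E, ‖v‖ = 1 →
    ‖fderiv ℝ (fun u : E => ‖u‖⁻¹ • u) v‖ ≤ c ∧
      ‖fderiv ℝ (fderiv ℝ fun u : E => ‖u‖⁻¹ • u) v‖ ≤ c := by
  haveI := FiniteDimensional.proper_real E
  have h : ∀ v ∈ sphere (0 : E) 1, ContDiffAt ℝ 2 (fun u : E => ‖u‖⁻¹ • u) v := fun v hv => by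
    have h1 : ‖v‖ ≠ 0 := by rw [mem_sphere_zero_iff_norm.1 hv]; norm_num
    exact ((contDiffAt_norm ℝ (norm_ne_zero_iff.1 h1)).inv h1).smul contDiffAt_id
  obtain ⟨c₁, h₁⟩ := (isCompact_sphere (0 : E) 1).exists_bound_of_continuousOn
    fun v hv => ((h v hv).continuousAt_fderiv (by norm_num)).continuousWithinAt
  obtain ⟨c₂, h₂⟩ := (isCompact_sphere (0 : E) 1).exists_bound_of_continuousOn fun v hv =>
    (((h v hv).fderiv_right (m := 1) (by norm_num)).continuousAt_fderiv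
      (by norm_num)).continuousWithinAt
  refine ⟨max 1 (max c₁ c₂), by positivity, fun v hv => ⟨?_, ?_⟩⟩
  · exact (h₁ v (mem_sphere_zero_iff_norm.2 hv)).trans (by simp)
  · exact (h₂ v (mem_sphere_zero_iff_norm.2 hv)).trans (by simp)

variable (E) in
/-- bounds for the derivatives of the normalised gradient -/
lemma exists_nw_bound : ∃ c : ℝ, 0 < c ∧ ∀ (w : E → ℝ) (p : E), ContDiffAt ℝ 3 w p →
    ‖gr w p‖ = 1 → ‖fderiv ℝ (nw w) p‖ ≤ c * ‖fderiv ℝ (gr w) p‖ ∧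
      ‖fderiv ℝ (fderiv ℝ (nw w)) p‖
        ≤ c * ‖fderiv ℝ (gr w) p‖ ^ 2 + c * ‖fderiv ℝ (fderiv ℝ (gr w)) p‖ := by
  obtain ⟨c, hc, h⟩ := exists_unit_bound E
  refine ⟨c, hc, fun w p hw h1 => ?_⟩
  have h2 : ContDiffAt ℝ 2 (gr w) p := contDiffAt_gr hw (by norm_num)
  have h0 : ‖gr w p‖ ≠ 0 := by rw [h1]; norm_num
  have h3 : ContDiffAt ℝ 2 (fun u : E => ‖u‖⁻¹ • u) (gr w p) :=
    ((contDiffAt_norm ℝ (norm_ne_zero_iff.1 h0)).inv h0).smul contDiffAt_id
  have e : nw w = (fun u : E => ‖u‖⁻¹ • u) ∘ gr w := rfl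
  obtain ⟨h4, h5⟩ := h _ h1
  rw [e]
  constructor
  · rw [fderiv_comp p (h3.differentiableAt (by norm_num)) (h2.differentiableAt (by norm_num))]
    exact (ContinuousLinearMap.opNorm_comp_le _ _).trans (by gcongr)
  · exact (norm_fderiv2_comp h3 h2).trans (by gcongr)

namespace SD

variable (h : SD N n r s)
include h

lemma ft_ev (hy : |s y| < r / 2) : ft N =ᶠ[𝓝 y] fun z => z - s z • gr s z := by
  filter_upwards [h.ev_lt hy] with z hz
  rw [h.gr_eq hz.le]
  exact h.ft_eq (by linarith [h.pos])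

lemma hasFDerivAt_ft (hy : |s y| < r / 2) (hd : DifferentiableAt ℝ (gr s) y) :
    HasFDerivAt (ft N) (ContinuousLinearMap.id ℝ E -
      (s y • fderiv ℝ (gr s) y + (innerSL ℝ (gr s y)).smulRight (gr s y))) y := by
  have h1 := h.hasFDerivAt hy.le
  rw [← h.gr_eq hy.le] at h1
  exact ((hasFDerivAt_id y).sub (h1.smul hd.hasFDerivAt)).congr_of_eventuallyEq (h.ft_ev hy)

lemma norm_gr (hy : |s y| ≤ r / 2) : ‖gr s y‖ = 1 := by rw [h.gr_eq hy, h.norm_n]

lemma norm_fderiv_ft (hy : |s y| ≤ r / 8) (hd : DifferentiableAt ℝ (gr s) y) :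
    ‖fderiv ℝ (ft N) y‖ ≤ 3 := by
  have hr := h.pos
  have hy2 : |s y| < r / 2 := by linarith
  rw [(h.hasFDerivAt_ft hy2 hd).fderiv]
  refine (norm_sub_le _ _).trans ((add_le_add ContinuousLinearMap.norm_id_le
    (norm_add_le _ _)).trans ?_)
  rw [norm_smul, ContinuousLinearMap.norm_smulRight_apply, innerSL_apply_norm, h.norm_gr hy2.le,
    Real.norm_eq_abs]
  have h1 := mul_le_mul hy (h.norm_hess hy2) (norm_nonneg _) (by positivity)
  have h2 : r / 8 * (6 / r) = 3 / 4 := by field_simp; norm_num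
  linarith

lemma norm_fderiv2_ft (hy : |s y| < r / 2) (hd : ContDiffAt ℝ 2 (gr s) y) :
    ‖fderiv ℝ (fderiv ℝ (ft N)) y‖ ≤ 18 / r + |s y| * ‖fderiv ℝ (fderiv ℝ (gr s)) y‖ := by
  have hr := h.pos
  have e : fderiv ℝ (ft N) =ᶠ[𝓝 y] fun z => ContinuousLinearMap.id ℝ E -
      (s z • fderiv ℝ (gr s) z
        + ContinuousLinearMap.smulRightL ℝ E E (innerSL ℝ (gr s z)) (gr s z)) := by
    filter_upwards [h.ev_lt hy, hd.eventually (by simp)] with z h1 h2
    exact (h.hasFDerivAt_ft h1 (h2.differentiableAt (by norm_num))).fderiv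
  have h1 := h.hasFDerivAt hy.le
  rw [← h.gr_eq hy.le] at h1
  have h2 := ((hd.fderiv_right (m := 1) (by norm_num)).differentiableAt one_ne_zero).hasFDerivAt
  have h3 := (hd.differentiableAt (by norm_num)).hasFDerivAt
  have h4 := (((ContinuousLinearMap.smulRightL ℝ E E).comp (innerSL ℝ)).hasFDerivAt.comp y
    h3).clm_apply h3
  have h5 := ((h1.smul h2).add h4).const_sub (ContinuousLinearMap.id ℝ E)
  rw [e.fderiv_eq]
  refine (congrArg norm h5.fderiv).trans_le ?_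
  refine ContinuousLinearMap.opNorm_le_bound _ (by positivity) fun v => ?_
  have hA := h.norm_hess hy
  have hg := h.norm_gr hy.le
  have hAv : ‖fderiv ℝ (gr s) y v‖ ≤ 6 / r * ‖v‖ := ContinuousLinearMap.le_of_opNorm_le _ hA v
  have hv : |⟪gr s y, v⟫| ≤ ‖v‖ := by simpa [hg] using abs_real_inner_le_norm (gr s y) v
  simp only [neg_apply, add_apply, smul_apply, ContinuousLinearMap.comp_apply,
    ContinuousLinearMap.smulRight_apply, ContinuousLinearMap.flip_apply, norm_neg,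
    Function.comp_apply, innerSL_apply_apply, ContinuousLinearMap.smulRightL_apply_apply]
  refine (norm_add_le _ _).trans ((add_le_add (norm_add_le _ _) (norm_add_le _ _)).trans ?_)
  rw [norm_smul, norm_smul, ContinuousLinearMap.norm_smulRight_apply,
    ContinuousLinearMap.norm_smulRight_apply, innerSL_apply_norm, innerSL_apply_norm, hg,
    Real.norm_eq_abs, Real.norm_eq_abs]
  have h6 := mul_le_mul_of_nonneg_left ((fderiv ℝ (fderiv ℝ (gr s)) y).le_opNorm v)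
    (abs_nonneg (s y))
  have h7 := mul_le_mul hv hA (norm_nonneg _) (norm_nonneg _)
  have e2 : 18 / r = 3 * (6 / r) := by ring
  rw [e2]
  nlinarith

theorem norm_third (hy : |s y| ≤ r / 8) (hw : LEq 3 N (ft N y) w) {a₁ a₂ : ℝ}
    (h₁ : ‖fderiv ℝ (nw w) (ft N y)‖ ≤ a₁) (h₂ : ‖fderiv ℝ (fderiv ℝ (nw w)) (ft N y)‖ ≤ a₂)
    (ha : a₁ * |s y| ≤ 1 / 2) : ‖fderiv ℝ (fderiv ℝ (gr s)) y‖ ≤ 18 * a₂ + 36 / r * a₁ := by
  have hr := h.pos
  have hy2 : |s y| < r / 2 := by linarith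
  have e3 : (3 : WithTop ℕ∞) = (2 : ℕ) + 1 := by norm_num
  have hft : ContDiffAt ℝ 2 (ft N) y := h.contDiffAt_ft (m := 2) two_ne_zero hy (e3 ▸ hw)
  have hs : ContDiffAt ℝ 2 (gr s) y :=
    contDiffAt_gr (h.contDiffAt (m := 2) two_ne_zero hy (e3 ▸ hw)) le_rfl
  obtain ⟨w', hw', hw2, e⟩ := h.exists_eqn (h.ft_mem y) (by norm_num) hw
  have h₁' : ‖fderiv ℝ (nw w') (ft N y)‖ ≤ a₁ ∧ ‖fderiv ℝ (fderiv ℝ (nw w')) (ft N y)‖ ≤ a₂ := by
    rcases hw' with rfl | rfl
    · exact ⟨h₁, h₂⟩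
    · have e1 : nw (fun y => -w y) = fun y => -nw w y := funext (nw_neg w)
      have e2 : fderiv ℝ (fun y => -nw w y) = fun y => -fderiv ℝ (nw w) y :=
        funext fun _ => fderiv_fun_neg
      rw [e1, e2, fderiv_fun_neg, norm_neg, norm_neg]
      exact ⟨h₁, h₂⟩
  have e1 : gr s =ᶠ[𝓝 y] nw w' ∘ ft N :=
    (h.gr_ev hy2).trans (h.n_ev hy2 (hw2.of_le (by norm_num)) e)
  have h3 := norm_fderiv2_comp (hw2.contDiffAt_nw (m := 2) (by norm_num)) hft
  rw [← e1.fderiv.fderiv_eq] at h3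
  have h4 := h.norm_fderiv_ft hy (hs.differentiableAt (by norm_num))
  have h5 := h.norm_fderiv2_ft hy2 hs
  have ha1 : 0 ≤ a₁ := (norm_nonneg _).trans h₁
  have h6 := mul_le_mul h₁'.2 (pow_le_pow_left₀ (norm_nonneg _) h4 2) (by positivity)
    ((norm_nonneg _).trans h₂)
  have h7 := mul_le_mul h₁'.1 h5 (norm_nonneg _) ha1
  have h8 := mul_le_mul_of_nonneg_right ha (norm_nonneg (fderiv ℝ (fderiv ℝ (gr s)) y))
  have e2 : 36 / r = 2 * (18 / r) := by ring
  rw [e2]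
  nlinarith

end SD

end Vale.Agent.P218F.Tube
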