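import Mathlib.Analysis.Normed.Lp.lpSpace
import Mathlib.Analysis.Normed.Operator.Bilinear
import Mathlib.Analysis.Normed.Operator.Mul
import Mathlib.Analysis.Normed.Operator.Completeness
import Mathlib.Analysis.Normed.Ring.InfiniteSum
import Mathlib.Analysis.Complex.Basic

/-!
# Weighted Wiener spaces and algebras

`WA G s E` is the Banach space of families `(u_k)_{k ∈ G}` in `E` with
`∑ (1 + ‖k‖) ^ s * ‖u_k‖ < ∞`.  Everything is built from `lift` (a bounded operator out of
`WA G s E` from operators on the modes) and `ext_clm` (two such operators agree if they agree on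
single modes).
-/

noncomputable section

namespace Vale.Agent.P218F.Wien

open scoped ENNReal

variable {G : Type*} [SeminormedAddCommGroup G]

/-- The weight `(1 + ‖k‖) ^ s`. -/
def wt (s : ℕ) (k : G) : ℝ := (1 + ‖k‖) ^ s

theorem one_le_wt (s : ℕ) (k : G) : 1 ≤ wt s k :=
  one_le_pow₀ (by linarith [norm_nonneg k])

theorem wt_pos (s : ℕ) (k : G) : 0 < wt s k := lt_of_lt_of_le one_pos (one_le_wt s k)

@[simp] theorem wt_zero (s : ℕ) : wt s (0 : G) = 1 := by simp [wt]

@[simp] theorem wt_zero_left (k : G) : wt 0 k = 1 := by simp [wt]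

theorem wt_neg (s : ℕ) (k : G) : wt s (-k) = wt s k := by simp [wt]

theorem wt_add_le (s : ℕ) (j k : G) : wt s (j + k) ≤ wt s j * wt s k := by
  unfold wt
  rw [← mul_pow]
  apply pow_le_pow_left₀ (by positivity)
  nlinarith [norm_add_le j k, norm_nonneg j, norm_nonneg k, mul_nonneg (norm_nonneg j) (norm_nonneg k)]

theorem wt_succ (s : ℕ) (k : G) : wt (s + 1) k = (1 + ‖k‖) * wt s k := by
  simp [wt, pow_succ, mul_comm]

theorem wt_add_exp (s t : ℕ) (k : G) : wt (s + t) k = wt s k * wt t k := by
  simp [wt, pow_add]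

theorem wt_mono {s t : ℕ} (h : s ≤ t) (k : G) : wt s k ≤ wt t k :=
  pow_le_pow_right₀ (by linarith [norm_nonneg k]) h

/-- The weighted Wiener space. -/
def WA (G : Type*) (_s : ℕ) (E : Type*) [NormedAddCommGroup E] : Type _ :=
  lp (fun _ : G => E) 1

section Space

variable {s t : ℕ} {E F H : Type*} [NormedAddCommGroup E] [NormedAddCommGroup F]
  [NormedAddCommGroup H]

instance (G : Type*) (s : ℕ) (E : Type*) [NormedAddCommGroup E] :
    NormedAddCommGroup (WA G s E) :=
  inferInstanceAs (NormedAddCommGroup (lp (fun _ : G => E) 1))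

instance (G : Type*) (s : ℕ) (E : Type*) [NormedAddCommGroup E] [NormedSpace ℂ E] :
    NormedSpace ℂ (WA G s E) :=
  inferInstanceAs (NormedSpace ℂ (lp (fun _ : G => E) 1))

instance (G : Type*) (s : ℕ) (E : Type*) [NormedAddCommGroup E] [CompleteSpace E] :
    CompleteSpace (WA G s E) :=
  inferInstanceAs (CompleteSpace (lp (fun _ : G => E) 1))

variable [NormedSpace ℂ E] [NormedSpace ℂ F] [NormedSpace ℂ H]

/-- The underlying element of `ℓ¹`. -/
def toLp (u : WA G s E) : lp (fun _ : G => E) 1 := u

/-- The coefficient of the mode `k`. -/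
def cf (u : WA G s E) (k : G) : E := ((wt s k : ℂ)⁻¹) • (toLp u : G → E) k

theorem wt_ne (s : ℕ) (k : G) : (wt s k : ℂ) ≠ 0 := by
  exact_mod_cast (wt_pos s k).ne'

theorem norm_wt (s : ℕ) (k : G) : ‖(wt s k : ℂ)‖ = wt s k := by
  rw [Complex.norm_real, Real.norm_of_nonneg (wt_pos s k).le]

theorem smul_cf (u : WA G s E) (k : G) : (wt s k : ℂ) • cf u k = (toLp u : G → E) k := by
  rw [cf, smul_smul, mul_inv_cancel₀ (wt_ne s k), one_smul]

theorem wt_mul_norm_cf (u : WA G s E) (k : G) : wt s k * ‖cf u k‖ = ‖(toLp u : G → E) k‖ := by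
  rw [← smul_cf, norm_smul, norm_wt]

theorem hasSum_norm (u : WA G s E) : HasSum (fun k => wt s k * ‖cf u k‖) ‖u‖ := by
  have h := lp.hasSum_norm (p := 1) (by simp) (toLp u)
  simp only [ENNReal.toReal_one, Real.rpow_one] at h
  simp only [wt_mul_norm_cf]
  exact h

theorem summable_norm (u : WA G s E) : Summable fun k => wt s k * ‖cf u k‖ :=
  (hasSum_norm u).summable

theorem norm_eq (u : WA G s E) : ‖u‖ = ∑' k, wt s k * ‖cf u k‖ := (hasSum_norm u).tsum_eq.symm

theorem wt_norm_cf_le (u : WA G s E) (k : G) : wt s k * ‖cf u k‖ ≤ ‖u‖ :=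
  le_hasSum (hasSum_norm u) k fun j _ => mul_nonneg (wt_pos s j).le (norm_nonneg _)

theorem norm_cf_le (u : WA G s E) (k : G) : ‖cf u k‖ ≤ ‖u‖ :=
  le_trans (le_mul_of_one_le_left (norm_nonneg _) (one_le_wt s k)) (wt_norm_cf_le u k)

theorem summable_norm_cf (u : WA G s E) : Summable fun k => ‖cf u k‖ :=
  (summable_norm u).of_nonneg_of_le (fun _ => norm_nonneg _)
    fun k => le_mul_of_one_le_left (norm_nonneg _) (one_le_wt s k)

@[ext] theorem ext {u v : WA G s E} (h : ∀ k, cf u k = cf v k) : u = v := by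
  apply lp.ext
  funext k
  have := smul_cf u k
  rw [h k, smul_cf] at this
  exact this.symm

/-- The element with prescribed coefficients. -/
def mk (f : G → E) (h : Summable fun k => wt s k * ‖f k‖) : WA G s E :=
  (⟨fun k => (wt s k : ℂ) • f k, memℓp_gen (by
    simpa only [ENNReal.toReal_one, Real.rpow_one, norm_smul, norm_wt] using h)⟩ :
      lp (fun _ : G => E) 1)

@[simp] theorem cf_mk (f : G → E) (h : Summable fun k => wt s k * ‖f k‖) (k : G) :
    cf (mk f h) k = f k := by
  change ((wt s k : ℂ)⁻¹) • ((wt s k : ℂ) • f k) = f k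
  rw [smul_smul, inv_mul_cancel₀ (wt_ne s k), one_smul]

theorem norm_mk (f : G → E) (h : Summable fun k => wt s k * ‖f k‖) :
    ‖mk f h‖ = ∑' k, wt s k * ‖f k‖ := by
  simp [norm_eq]

@[simp] theorem cf_add (u v : WA G s E) (k : G) : cf (u + v) k = cf u k + cf v k := by
  unfold cf
  rw [← smul_add]
  rfl

@[simp] theorem cf_smul (c : ℂ) (u : WA G s E) (k : G) : cf (c • u) k = c • cf u k := by
  unfold cf
  rw [smul_comm]
  rfl

/-- The coefficient as a continuous linear map. -/
def cfL (s : ℕ) (E : Type*) [NormedAddCommGroup E] [NormedSpace ℂ E] (k : G) :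
    WA G s E →L[ℂ] E :=
  LinearMap.mkContinuous
    { toFun := fun u => cf u k
      map_add' := fun u v => cf_add u v k
      map_smul' := fun c u => cf_smul c u k } 1 fun u => by simpa using norm_cf_le u k

@[simp] theorem cfL_apply (k : G) (u : WA G s E) : cfL s E k u = cf u k := rfl

@[simp] theorem cf_zero (k : G) : cf (0 : WA G s E) k = 0 := map_zero (cfL s E k)

@[simp] theorem cf_neg (u : WA G s E) (k : G) : cf (-u) k = -cf u k := map_neg (cfL s E k) u

@[simp] theorem cf_sub (u v : WA G s E) (k : G) : cf (u - v) k = cf u k - cf v k :=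
  map_sub (cfL s E k) u v

theorem norm_le_of_cf {u : WA G s E} {v : WA G t F} {C : ℝ}
    (h : ∀ k, wt s k * ‖cf u k‖ ≤ C * (wt t k * ‖cf v k‖)) : ‖u‖ ≤ C * ‖v‖ :=
  hasSum_le h (hasSum_norm u) ((hasSum_norm v).mul_left C)

omit [NormedSpace ℂ E] in
open Classical in
theorem summable_single (s : ℕ) (k : G) (a : E) :
    Summable fun j => wt s j * ‖(if j = k then a else 0)‖ := by
  apply summable_of_ne_finset_zero (s := {k})
  intro j hj
  have : j ≠ k := by simpa using hj
  simp [this]

open Classical in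
/-- The element with one mode. -/
def single (s : ℕ) (k : G) : E →L[ℂ] WA G s E :=
  LinearMap.mkContinuous
    { toFun := fun a => mk (fun j => if j = k then a else 0) (summable_single s k a)
      map_add' := fun a b => by
        ext j
        by_cases h : j = k <;> simp [h]
      map_smul' := fun c a => by
        ext j
        by_cases h : j = k <;> simp [h] } (wt s k) fun a => by
      change ‖mk _ (summable_single s k a)‖ ≤ _
      rw [norm_mk, tsum_eq_single k]
      · simp
      · intro j hj
        simp [hj]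

theorem cf_single (k j : G) (a : E) [Decidable (j = k)] :
    cf (single s k a) j = if j = k then a else 0 := by
  change cf (mk _ (summable_single s k a)) j = _
  rw [cf_mk]
  congr

@[simp] theorem cf_single_same (k : G) (a : E) : cf (single s k a) k = a := by
  classical
  simp [cf_single]

theorem cf_single_ne {k j : G} (h : j ≠ k) (a : E) : cf (single s k a) j = 0 := by
  classical
  simp [cf_single, h]

theorem norm_single (k : G) (a : E) : ‖single s k a‖ = wt s k * ‖a‖ := by
  rw [norm_eq, tsum_eq_single k]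
  · simp
  · intro j hj
    simp [cf_single_ne hj]

theorem norm_single_le (k : G) : ‖(single s k : E →L[ℂ] WA G s E)‖ ≤ wt s k :=
  ContinuousLinearMap.opNorm_le_bound _ (wt_pos s k).le fun a => (norm_single k a).le

theorem hasSum_single (u : WA G s E) : HasSum (fun k => single s k (cf u k)) u := by
  classical
  have h := lp.hasSum_single (E := fun _ : G => E) (p := 1) (by simp) (toLp u)
  have e : ∀ k, single s k (cf u k) =
      (show WA G s E from (lp.single 1 k ((toLp u : G → E) k) : lp (fun _ : G => E) 1)) := by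
    intro k
    apply ext
    intro j
    change _ = ((wt s j : ℂ)⁻¹) • (lp.single 1 k ((toLp u : G → E) k) : lp (fun _ : G => E) 1) j
    by_cases hj : j = k
    · subst hj
      rw [cf_single_same, lp.single_apply_self]
      rfl
    · rw [cf_single_ne hj, lp.single_apply_ne _ _ _ hj, smul_zero]
  simp only [e]
  exact h

/-- Two bounded operators which agree on single modes agree. -/
theorem ext_clm {S T : WA G s E →L[ℂ] F} (h : ∀ k a, S (single s k a) = T (single s k a)) :
    S = T := by
  ext u
  have h1 := (hasSum_single u).mapL S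
  have h2 := (hasSum_single u).mapL T
  simp only [h] at h1
  exact h1.unique h2

/-- Two continuous additive maps which agree on single modes agree. -/
theorem ext_cont {F' : Type*} [NormedAddCommGroup F'] {S T : WA G s E →+ F'} (hS : Continuous S)
    (hT : Continuous T) (h : ∀ k a, S (single s k a) = T (single s k a)) (u : WA G s E) :
    S u = T u := by
  have h1 := (hasSum_single u).map S hS
  have h2 := (hasSum_single u).map T hT
  have : (S ∘ fun k => single s k (cf u k)) = T ∘ fun k => single s k (cf u k) := by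
    funext k
    exact h _ _
  rw [this] at h1
  exact h1.unique h2

theorem summable_lift_norm (T : G → E →L[ℂ] F) {C : ℝ} (h : ∀ k, ‖T k‖ ≤ C * wt s k)
    (u : WA G s E) : Summable fun k => ‖T k (cf u k)‖ :=
  ((summable_norm u).mul_left C).of_nonneg_of_le (fun _ => norm_nonneg _) fun k =>
    ((T k).le_opNorm _).trans (by
      rw [← mul_assoc]; exact mul_le_mul_of_nonneg_right (h k) (norm_nonneg _))

variable [CompleteSpace F]

/-- The bounded operator `u ↦ ∑ T k (u k)`. -/
def lift (T : G → E →L[ℂ] F) (C : ℝ) (h : ∀ k, ‖T k‖ ≤ C * wt s k) : WA G s E →L[ℂ] F :=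
  LinearMap.mkContinuous
    { toFun := fun u => ∑' k, T k (cf u k)
      map_add' := fun u v => by
        simp only [cf_add, map_add]
        exact (summable_lift_norm T h u).of_norm.tsum_add (summable_lift_norm T h v).of_norm
      map_smul' := fun c u => by
        simp only [cf_smul, map_smul, RingHom.id_apply]
        exact (summable_lift_norm T h u).of_norm.tsum_const_smul c } C fun u => by
      refine tsum_of_norm_bounded ((hasSum_norm u).mul_left C) fun k => ?_
      exact ((T k).le_opNorm _).trans (by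
        rw [← mul_assoc]; exact mul_le_mul_of_nonneg_right (h k) (norm_nonneg _))

theorem lift_apply (T : G → E →L[ℂ] F) (C : ℝ) (h : ∀ k, ‖T k‖ ≤ C * wt s k) (u : WA G s E) :
    lift T C h u = ∑' k, T k (cf u k) := rfl

theorem hasSum_lift (T : G → E →L[ℂ] F) (C : ℝ) (h : ∀ k, ‖T k‖ ≤ C * wt s k) (u : WA G s E) :
    HasSum (fun k => T k (cf u k)) (lift T C h u) :=
  (summable_lift_norm T h u).of_norm.hasSum

@[simp] theorem lift_single (T : G → E →L[ℂ] F) (C : ℝ) (h : ∀ k, ‖T k‖ ≤ C * wt s k) (k : G)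
    (a : E) : lift T C h (single s k a) = T k a := by
  rw [lift_apply, tsum_eq_single k]
  · simp
  · intro j hj
    simp [cf_single_ne hj]

omit [CompleteSpace F] in
theorem nonneg_of_bound {T : G → E →L[ℂ] F} {C : ℝ} (h : ∀ k, ‖T k‖ ≤ C * wt s k) : 0 ≤ C := by
  have := (norm_nonneg _).trans (h 0)
  simpa using this

theorem norm_lift_le (T : G → E →L[ℂ] F) (C : ℝ) (h : ∀ k, ‖T k‖ ≤ C * wt s k) :
    ‖lift T C h‖ ≤ C :=
  LinearMap.mkContinuous_norm_le _ (nonneg_of_bound h) _

theorem norm_lift_apply_le (T : G → E →L[ℂ] F) (C : ℝ) (h : ∀ k, ‖T k‖ ≤ C * wt s k)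
    (u : WA G s E) : ‖lift T C h u‖ ≤ C * ‖u‖ :=
  ((lift T C h).le_opNorm u).trans
    (mul_le_mul_of_nonneg_right (norm_lift_le T C h) (norm_nonneg _))

omit [CompleteSpace F] in
theorem diag_bound {m : G → E →L[ℂ] F} {C : ℝ} (h : ∀ k, wt t k * ‖m k‖ ≤ C * wt s k) (k : G) :
    ‖(single t k).comp (m k)‖ ≤ C * wt s k :=
  ((single t k).opNorm_comp_le _).trans
    ((mul_le_mul_of_nonneg_right (norm_single_le k) (norm_nonneg _)).trans (h k))

/-- The operator acting on the mode `k` by `m k`. -/
def diag (m : G → E →L[ℂ] F) (C : ℝ) (h : ∀ k, wt t k * ‖m k‖ ≤ C * wt s k) :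
    WA G s E →L[ℂ] WA G t F :=
  lift (fun k => (single t k).comp (m k)) C (diag_bound h)

@[simp] theorem diag_single (m : G → E →L[ℂ] F) (C : ℝ)
    (h : ∀ k, wt t k * ‖m k‖ ≤ C * wt s k) (k : G) (a : E) :
    diag m C h (single s k a) = single t k (m k a) := by
  simp [diag]

@[simp] theorem cf_diag (m : G → E →L[ℂ] F) (C : ℝ) (h : ∀ k, wt t k * ‖m k‖ ≤ C * wt s k)
    (u : WA G s E) (k : G) : cf (diag m C h u) k = m k (cf u k) := by
  have : (cfL t F k).comp (diag m C h) = (m k).comp (cfL s E k) := by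
    apply ext_clm
    intro j a
    by_cases hj : k = j
    · subst hj; simp
    · simp [cf_single_ne hj]
  exact congrArg (fun T : WA G s E →L[ℂ] F => T u) this

theorem norm_diag_le (m : G → E →L[ℂ] F) (C : ℝ) (h : ∀ k, wt t k * ‖m k‖ ≤ C * wt s k) :
    ‖diag m C h‖ ≤ C := norm_lift_le _ _ _

theorem norm_diag_apply_le (m : G → E →L[ℂ] F) (C : ℝ)
    (h : ∀ k, wt t k * ‖m k‖ ≤ C * wt s k) (u : WA G s E) : ‖diag m C h u‖ ≤ C * ‖u‖ :=
  norm_lift_apply_le _ _ _ u

/-- The same operator on each mode. -/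
def mapL (G : Type*) [SeminormedAddCommGroup G] (s : ℕ) (T : E →L[ℂ] F) :
    WA G s E →L[ℂ] WA G s F :=
  diag (fun _ => T) ‖T‖ fun _ => (mul_comm _ _).le

@[simp] theorem cf_mapL (T : E →L[ℂ] F) (u : WA G s E) (k : G) :
    cf (mapL G s T u) k = T (cf u k) := cf_diag _ _ _ _ _

@[simp] theorem mapL_single (T : E →L[ℂ] F) (k : G) (a : E) :
    mapL G s T (single s k a) = single s k (T a) := diag_single _ _ _ _ _

theorem norm_mapL_le (T : E →L[ℂ] F) : ‖mapL G s T‖ ≤ ‖T‖ := norm_diag_le _ _ _

theorem norm_mapL_apply_le (T : E →L[ℂ] F) (u : WA G s E) : ‖mapL G s T u‖ ≤ ‖T‖ * ‖u‖ :=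
  norm_diag_apply_le _ _ _ u

/-- The inclusion into a space with fewer derivatives. -/
def incl (G : Type*) [SeminormedAddCommGroup G] (F : Type*) [NormedAddCommGroup F]
    [NormedSpace ℂ F] [CompleteSpace F] {s t : ℕ} (h : t ≤ s) : WA G s F →L[ℂ] WA G t F :=
  diag (fun _ => ContinuousLinearMap.id ℂ F) 1 fun k => by
    have h1 : ‖ContinuousLinearMap.id ℂ F‖ ≤ 1 := ContinuousLinearMap.norm_id_le
    have h2 := wt_mono h k
    have h3 := wt_pos t k
    nlinarith

@[simp] theorem cf_incl (h : t ≤ s) (u : WA G s F) (k : G) : cf (incl G F h u) k = cf u k :=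
  cf_diag _ _ _ _ _

@[simp] theorem incl_single (h : t ≤ s) (k : G) (a : F) :
    incl G F h (single s k a) = single t k a := diag_single _ _ _ _ _

theorem norm_incl_apply_le (h : t ≤ s) (u : WA G s F) : ‖incl G F h u‖ ≤ ‖u‖ :=
  (norm_diag_apply_le _ 1 _ u).trans_eq (one_mul _)

/-- Multiplication of the mode `k` by the number `c k`. -/
def mult (G : Type*) [SeminormedAddCommGroup G] (F : Type*) [NormedAddCommGroup F]
    [NormedSpace ℂ F] [CompleteSpace F] {s t : ℕ} (c : G → ℂ) (C : ℝ)
    (h : ∀ k, wt t k * ‖c k‖ ≤ C * wt s k) : WA G s F →L[ℂ] WA G t F :=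
  diag (fun k => c k • ContinuousLinearMap.id ℂ F) C fun k => by
    refine le_trans (mul_le_mul_of_nonneg_left ?_ (wt_pos t k).le) (h k)
    rw [norm_smul]
    exact mul_le_of_le_one_right (norm_nonneg _) ContinuousLinearMap.norm_id_le

@[simp] theorem cf_mult (c : G → ℂ) (C : ℝ) (h : ∀ k, wt t k * ‖c k‖ ≤ C * wt s k)
    (u : WA G s F) (k : G) : cf (mult G F c C h u) k = c k • cf u k := cf_diag _ _ _ _ _

@[simp] theorem mult_single (c : G → ℂ) (C : ℝ) (h : ∀ k, wt t k * ‖c k‖ ≤ C * wt s k)
    (k : G) (a : F) : mult G F c C h (single s k a) = single t k (c k • a) :=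
  diag_single _ _ _ _ _

theorem norm_mult_apply_le (c : G → ℂ) (C : ℝ) (h : ∀ k, wt t k * ‖c k‖ ≤ C * wt s k)
    (u : WA G s F) : ‖mult G F c C h u‖ ≤ C * ‖u‖ := norm_diag_apply_le _ _ _ u

end Space

section Conv

variable {s t : ℕ} {E F H : Type*} [NormedAddCommGroup E] [NormedAddCommGroup F]
  [NormedAddCommGroup H] [NormedSpace ℂ E] [NormedSpace ℂ F] [NormedSpace ℂ H]

/-- The map `b ↦ a ↦ single (j + k) (B a b)`. -/
def convMode (s : ℕ) (B : E →L[ℂ] F →L[ℂ] H) (j k : G) : F →L[ℂ] (E →L[ℂ] WA G s H) :=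
  ((ContinuousLinearMap.compL ℂ E H (WA G s H)) (single s (j + k))).comp B.flip

theorem convMode_apply (B : E →L[ℂ] F →L[ℂ] H) (j k : G) (a : E) (b : F) :
    convMode s B j k b a = single s (j + k) (B a b) := rfl

theorem conv_bound1 (B : E →L[ℂ] F →L[ℂ] H) (j k : G) :
    ‖convMode s B j k‖ ≤ (‖B‖ * wt s j) * wt s k := by
  refine ContinuousLinearMap.opNorm_le_bound _
    (by have := wt_pos s j; have := wt_pos s k; positivity) fun b => ?_
  refine ContinuousLinearMap.opNorm_le_bound _
    (by have := wt_pos s j; have := wt_pos s k; positivity) fun a => ?_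
  rw [convMode_apply, norm_single]
  have h1 := B.le_opNorm₂ a b
  have h2 := wt_add_le s j k
  have h3 := wt_pos s j
  have h4 := wt_pos s k
  calc wt s (j + k) * ‖B a b‖ ≤ (wt s j * wt s k) * (‖B‖ * ‖a‖ * ‖b‖) :=
        mul_le_mul h2 h1 (norm_nonneg _) (by positivity)
    _ = _ := by ring

variable [CompleteSpace H]

/-- The inner sum of the convolution. -/
def convIn (s : ℕ) (B : E →L[ℂ] F →L[ℂ] H) (j : G) : WA G s F →L[ℂ] (E →L[ℂ] WA G s H) :=
  lift (E := F) (F := E →L[ℂ] WA G s H) (fun k => convMode s B j k) (‖B‖ * wt s j)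
    (conv_bound1 B j)

theorem convIn_single (B : E →L[ℂ] F →L[ℂ] H) (j k : G) (b : F) :
    convIn s B j (single s k b) = convMode s B j k b :=
  lift_single (E := F) (F := E →L[ℂ] WA G s H) _ _ _ k b

theorem conv_bound2 (B : E →L[ℂ] F →L[ℂ] H) (j : G) :
    ‖(convIn s B j).flip‖ ≤ ‖B‖ * wt s j := by
  rw [ContinuousLinearMap.opNorm_flip]
  exact norm_lift_le (E := F) (F := E →L[ℂ] WA G s H) _ _ _

/-- Convolution with respect to a bounded bilinear map. -/
def conv (G : Type*) [SeminormedAddCommGroup G] (s : ℕ) (B : E →L[ℂ] F →L[ℂ] H) :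
    WA G s E →L[ℂ] WA G s F →L[ℂ] WA G s H :=
  lift (E := E) (F := WA G s F →L[ℂ] WA G s H) (fun j => (convIn s B j).flip) ‖B‖ (conv_bound2 B)

@[simp] theorem conv_single (B : E →L[ℂ] F →L[ℂ] H) (j k : G) (a : E) (b : F) :
    conv G s B (single s j a) (single s k b) = single s (j + k) (B a b) := by
  have h : conv G s B (single s j a) = (convIn s B j).flip a :=
    lift_single (E := E) (F := WA G s F →L[ℂ] WA G s H) _ _ _ j a
  rw [h, ContinuousLinearMap.flip_apply, convIn_single, convMode_apply]

theorem norm_conv_le (B : E →L[ℂ] F →L[ℂ] H) : ‖conv G s B‖ ≤ ‖B‖ :=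
  norm_lift_le (E := E) (F := WA G s F →L[ℂ] WA G s H) _ _ _

theorem norm_conv_apply_le (B : E →L[ℂ] F →L[ℂ] H) (u : WA G s E) (v : WA G s F) :
    ‖conv G s B u v‖ ≤ ‖B‖ * ‖u‖ * ‖v‖ :=
  ((conv G s B).le_opNorm₂ u v).trans (by gcongr; exact norm_conv_le B)

omit [CompleteSpace H] in
/-- Two bounded bilinear maps which agree on pairs of single modes agree. -/
theorem ext_clm₂ {S T : WA G s E →L[ℂ] WA G t F →L[ℂ] H}
    (h : ∀ j k a b, S (single s j a) (single t k b) = T (single s j a) (single t k b)) :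
    S = T :=
  ext_clm (F := WA G t F →L[ℂ] H) fun j a => ext_clm (F := H) fun k b => h j k a b

theorem hasSum_cf_conv (B : E →L[ℂ] F →L[ℂ] H) (u : WA G s E) (v : WA G s F) (k : G) :
    HasSum (fun j => B (cf u j) (cf v (k - j))) (cf (conv G s B u v) k) := by
  have h1 := (hasSum_single u).mapL ((cfL s H k).comp ((conv G s B).flip v))
  have e : ∀ j, ((cfL s H k).comp ((conv G s B).flip v)) (single s j (cf u j)) =
      B (cf u j) (cf v (k - j)) := by
    intro j
    have : (cfL s H k).comp (conv G s B (single s j (cf u j))) =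
        (B (cf u j)).comp (cfL s F (k - j)) := by
      apply ext_clm
      intro i b
      by_cases hi : k = j + i
      · subst hi; simp
      · have : k - j ≠ i := fun h => hi (by rw [← h]; abel)
        simp [cf_single_ne hi, cf_single_ne this]
    exact congrArg (fun T : WA G s F →L[ℂ] H => T v) this
  simp only [e] at h1
  exact h1

end Conv

section Algebra

variable {s : ℕ} {A : Type*} [NormedCommRing A] [NormedAlgebra ℂ A] [CompleteSpace A]

instance : Mul (WA G s A) := ⟨fun u v => conv G s (ContinuousLinearMap.mul ℂ A) u v⟩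

instance : One (WA G s A) := ⟨single s 0 1⟩

theorem mul_def (u v : WA G s A) : u * v = conv G s (ContinuousLinearMap.mul ℂ A) u v := rfl

omit [CompleteSpace A] in
theorem one_def : (1 : WA G s A) = single s 0 1 := rfl

theorem single_mul_single (j k : G) (a b : A) :
    (single s j a * single s k b : WA G s A) = single s (j + k) (a * b) := by
  simp [mul_def]

theorem mul_comm' (u v : WA G s A) : u * v = v * u := by
  have : conv G s (ContinuousLinearMap.mul ℂ A) = (conv G s (ContinuousLinearMap.mul ℂ A)).flip := by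
    apply ext_clm₂
    intro j k a b
    simp [add_comm, mul_comm]
  exact congrArg (fun T : WA G s A →L[ℂ] WA G s A →L[ℂ] WA G s A => T u v) this

theorem mul_assoc' (u v w : WA G s A) : u * v * w = u * (v * w) := by
  have key : ∀ (i : G) (c : A) (u v : WA G s A),
      u * v * single s i c = u * (v * single s i c) := by
    intro i c u v
    set M := conv G s (ContinuousLinearMap.mul ℂ A) with hM
    have : ((ContinuousLinearMap.compL ℂ (WA G s A) (WA G s A) (WA G s A))
        (M.flip (single s i c))).comp M =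
        ((ContinuousLinearMap.compL ℂ (WA G s A) (WA G s A) (WA G s A)).flip
          (M.flip (single s i c))).comp M := by
      apply ext_clm₂
      intro j k a b
      simp [hM, add_assoc, mul_assoc]
    exact congrArg (fun T : WA G s A →L[ℂ] WA G s A →L[ℂ] WA G s A => T u v) this
  set M := conv G s (ContinuousLinearMap.mul ℂ A) with hM
  have : M (M u v) = (M u).comp (M v) := ext_clm fun i c => key i c u v
  exact congrArg (fun T : WA G s A →L[ℂ] WA G s A => T w) this

theorem one_mul' (u : WA G s A) : 1 * u = u := by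
  have : conv G s (ContinuousLinearMap.mul ℂ A) (single s 0 1) = ContinuousLinearMap.id ℂ _ := by
    apply ext_clm
    intro k a
    simp
  exact congrArg (fun T : WA G s A →L[ℂ] WA G s A => T u) this

theorem norm_mul_le' (u v : WA G s A) : ‖u * v‖ ≤ ‖u‖ * ‖v‖ := by
  refine (norm_conv_apply_le _ u v).trans ?_
  have h : ‖ContinuousLinearMap.mul ℂ A‖ ≤ 1 := ContinuousLinearMap.opNorm_mul_le ℂ A
  calc _ ≤ 1 * ‖u‖ * ‖v‖ := by gcongr
    _ = _ := by ring

instance : NormedCommRing (WA G s A) :=
  { (inferInstance : NormedAddCommGroup (WA G s A)) with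
    mul := (· * ·)
    one := 1
    mul_assoc := mul_assoc'
    mul_comm := mul_comm'
    one_mul := one_mul'
    mul_one := fun u => (mul_comm' u 1).trans (one_mul' u)
    left_distrib := fun u v w => map_add (conv G s (ContinuousLinearMap.mul ℂ A) u) v w
    right_distrib := fun u v w => by
      change conv G s _ (u + v) w = conv G s _ u w + conv G s _ v w
      rw [map_add]; rfl
    zero_mul := fun u => by
      change conv G s _ 0 u = 0
      rw [map_zero]; rfl
    mul_zero := fun u => map_zero (conv G s (ContinuousLinearMap.mul ℂ A) u)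
    norm_mul_le := norm_mul_le' }

instance : Algebra ℂ (WA G s A) :=
  Algebra.ofModule
    (fun c u v => by
      change conv G s _ (c • u) v = c • conv G s _ u v
      rw [map_smul]; rfl)
    (fun c u v => map_smul (conv G s (ContinuousLinearMap.mul ℂ A) u) c v)

instance : NormedAlgebra ℂ (WA G s A) :=
  { (inferInstance : Algebra ℂ (WA G s A)) with
    norm_smul_le := norm_smul_le }

theorem hasSum_cf_mul (u v : WA G s A) (k : G) :
    HasSum (fun j => cf u j * cf v (k - j)) (cf (u * v) k) :=
  hasSum_cf_conv (ContinuousLinearMap.mul ℂ A) u v k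

/-- Elements of `A` as elements with only the mode zero. -/
def const (G : Type*) [SeminormedAddCommGroup G] (s : ℕ) (A : Type*) [NormedCommRing A]
    [NormedAlgebra ℂ A] [CompleteSpace A] : A →ₐ[ℂ] WA G s A :=
  AlgHom.ofLinearMap (single s (0 : G) : A →L[ℂ] WA G s A).toLinearMap rfl fun a b => by
    simp [single_mul_single]

theorem const_apply (a : A) : const G s A a = single s 0 a := rfl

@[simp] theorem norm_const (a : A) : ‖const G s A a‖ = ‖a‖ := by
  simp [const_apply, norm_single]

@[simp] theorem cf_const_mul (a : A) (u : WA G s A) (k : G) :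
    cf (const G s A a * u) k = a * cf u k := by
  have : conv G s (ContinuousLinearMap.mul ℂ A) (single s 0 a) =
      mapL G s (ContinuousLinearMap.mul ℂ A a) := by
    apply ext_clm
    intro j b
    simp
  have h2 := congrArg (fun T : WA G s A →L[ℂ] WA G s A => cf (T u) k) this
  simpa [const_apply, mul_def] using h2

instance [NormOneClass A] : NormOneClass (WA G s A) := ⟨by simp [one_def, norm_single]⟩

theorem incl_mul {t : ℕ} (h : t ≤ s) (u v : WA G s A) :
    incl G A h (u * v) = incl G A h u * incl G A h v := by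
  ext k
  simp only [cf_incl]
  have h1 := hasSum_cf_mul u v k
  have h2 := hasSum_cf_mul (incl G A h u) (incl G A h v) k
  simp only [cf_incl] at h2
  exact h1.unique h2

theorem incl_one {t : ℕ} (h : t ≤ s) : incl G A h (1 : WA G s A) = 1 := by
  simp [one_def]

/-- The inclusion as an algebra homomorphism. -/
def inclA (G : Type*) [SeminormedAddCommGroup G] (A : Type*) [NormedCommRing A]
    [NormedAlgebra ℂ A] [CompleteSpace A] {s t : ℕ} (h : t ≤ s) : WA G s A →ₐ[ℂ] WA G t A :=
  AlgHom.ofLinearMap (incl G A h).toLinearMap (incl_one h) (incl_mul h)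

theorem inclA_apply {t : ℕ} (h : t ≤ s) (u : WA G s A) : inclA G A h u = incl G A h u := rfl

/-- A multiplier which is additive in the mode is a derivation. -/
theorem mult_mul {t : ℕ} (h : t ≤ s) (c : G →+ ℂ) (C : ℝ)
    (hc : ∀ k, wt t k * ‖c k‖ ≤ C * wt s k) (u v : WA G s A) :
    mult G A c C hc (u * v) =
      mult G A c C hc u * incl G A h v + incl G A h u * mult G A c C hc v := by
  ext k
  have h1 := (hasSum_cf_mul u v k).const_smul (c k)
  have h2 := (hasSum_cf_mul (mult G A c C hc u) (incl G A h v) k).add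
    (hasSum_cf_mul (incl G A h u) (mult G A c C hc v) k)
  simp only [cf_mult, cf_incl, cf_add] at h2 ⊢
  refine h1.unique ?_
  convert h2 using 1
  funext j
  rw [smul_mul_assoc, mul_smul_comm, ← add_smul, ← map_add]
  congr 2
  abel

variable {A' : Type*} [NormedCommRing A'] [NormedAlgebra ℂ A'] [CompleteSpace A']

theorem mapL_mul (T : A →L[ℂ] A') (hT : ∀ a b, T (a * b) = T a * T b) (u v : WA G s A) :
    mapL G s T (u * v) = mapL G s T u * mapL G s T v := by
  ext k
  have h1 := (hasSum_cf_mul u v k).mapL T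
  have h2 := hasSum_cf_mul (mapL G s T u) (mapL G s T v) k
  simp only [cf_mapL, hT] at h1 h2 ⊢
  exact h1.unique h2

omit [CompleteSpace A] in
theorem mapL_one (T : A →L[ℂ] A') (hT : T 1 = 1) : mapL G s T (single s (0 : G) (1 : A)) = 1 := by
  simp [hT, one_def]

end Algebra

end Vale.Agent.P218F.Wien
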