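import Vale.Agent.P218F.Wien3
import Mathlib.Algebra.Order.Chebyshev
import Mathlib.Analysis.Complex.CauchyIntegral
import Mathlib.Analysis.Analytic.OfScalars
import Mathlib.Analysis.SpecialFunctions.Pow.Real

/-!
# Bernstein's theorem and the holomorphic functional calculus on a disc
-/

noncomputable section

namespace Vale.Agent.P218F.Wien

open Filter Topology Set MeasureTheory BoundedContinuousFunction Metric
open scoped Real NNReal

set_option maxSynthPendingDepth 3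

section Bernstein

theorem coef_shift {E : Type*} [NormedAddCommGroup E] [NormedSpace ℂ E] {f : ℝ → E}
    (hp : Function.Periodic f (2 * π)) (h : ℝ) (k : ℤ) :
    coef (fun θ => f (θ + h)) k = ch h k • coef f k := by
  unfold coef
  have e : ∀ θ, ch θ (-k) • f (θ + h) = ch h k • (ch (θ + h) (-k) • f (θ + h)) := fun θ => by
    rw [smul_smul, ch_add_left, mul_left_comm, ← ch_add, add_neg_cancel, ch_zero, mul_one]
  simp only [e]
  rw [intervalIntegral.integral_smul,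
    intervalIntegral.integral_comp_add_right (fun θ => ch θ (-k) • f θ) h, smul_comm]
  have hq : Function.Periodic (fun θ => ch θ (-k) • f θ) (2 * π) := fun θ => by
    simp only [hp θ, ch_add_left, ch_two_pi, mul_one]
  have := hq.intervalIntegral_add_eq h 0
  rw [zero_add, add_comm (2 * π) h, this, zero_add]

theorem one_le_norm_ch_sub_one {h : ℝ} {k : ℤ} (h1 : π / 2 ≤ |(k : ℝ)| * h)
    (h2 : |(k : ℝ)| * h ≤ π) (h0 : 0 ≤ h) : 1 ≤ ‖ch h k - 1‖ := by
  have hc : Real.cos (k * h) ≤ 0 := by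
    rw [← Real.cos_abs, abs_mul, abs_of_nonneg h0]
    exact Real.cos_nonpos_of_pi_div_two_le_of_le h1 (by linarith [Real.pi_pos])
  have hre : (ch h k - 1).re = Real.cos (k * h) - 1 := by
    have : Complex.I * k * h = ((k * h : ℝ) : ℂ) * Complex.I := by push_cast; ring
    rw [ch, this, Complex.sub_re, Complex.exp_ofReal_mul_I_re, Complex.one_re]
  have := Complex.abs_re_le_norm (ch h k - 1)
  rw [hre, abs_of_nonpos (by linarith)] at this
  linarith

theorem le_of_sq_le_sq' {x y : ℝ} (h : x ^ 2 ≤ y ^ 2) (hy : 0 ≤ y) : x ≤ y :=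
  (le_abs_self x).trans (abs_le_of_sq_le_sq h hy)

/-- The dyadic block estimate. -/
theorem block_le {f : ℝ → ℂ} (hf : Continuous f) (hp : Function.Periodic f (2 * π)) {a L : ℝ}
    (hL : 0 ≤ L) (hH : ∀ x y, ‖f x - f y‖ ≤ L * |x - y| ^ a) (n : ℕ) (B : Finset ℤ)
    (hB : ∀ k ∈ B, (2 : ℝ) ^ n ≤ |(k : ℝ)| ∧ |(k : ℝ)| < 2 ^ (n + 1)) :
    ∑ k ∈ B, ‖coef f k‖ ≤ 2 * (π / 2) ^ a * L * (√2 / 2 ^ a) ^ n := by
  set h : ℝ := π / 2 ^ (n + 1) with hh
  have h0 : 0 < h := by positivity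
  have hg : Continuous fun θ => f (θ + h) - f θ := by fun_prop
  have h1 := hasSum_sq_coef hg
  have h2 : (2 * π)⁻¹ * ∫ θ in (0 : ℝ)..(2 * π), ‖f (θ + h) - f θ‖ ^ 2 ≤ (L * h ^ a) ^ 2 := by
    have : ∫ θ in (0 : ℝ)..(2 * π), ‖f (θ + h) - f θ‖ ^ 2 ≤
        ∫ _ in (0 : ℝ)..(2 * π), (L * h ^ a) ^ 2 := by
      refine intervalIntegral.integral_mono_on (by positivity)
        ((by fun_prop : Continuous fun θ => ‖f (θ + h) - f θ‖ ^ 2).intervalIntegrable _ _)
        (continuous_const.intervalIntegrable _ _) fun θ _ => ?_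
      have := hH (θ + h) θ
      rw [add_sub_cancel_left, abs_of_pos h0] at this
      exact pow_le_pow_left₀ (norm_nonneg _) this 2
    rw [intervalIntegral.integral_const, sub_zero, smul_eq_mul] at this
    rw [inv_mul_le_iff₀ (by positivity)]
    exact this
  have h3 : ∑ k ∈ B, ‖coef f k‖ ^ 2 ≤ (L * h ^ a) ^ 2 := by
    refine le_trans ?_ ((sum_le_hasSum B (fun _ _ => by positivity) h1).trans h2)
    refine Finset.sum_le_sum fun k hk => pow_le_pow_left₀ (norm_nonneg _) ?_ 2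
    rw [coef_sub (by fun_prop) hf, coef_shift hp, smul_eq_mul, ← sub_one_mul, norm_mul]
    refine le_mul_of_one_le_left (norm_nonneg _) (one_le_norm_ch_sub_one ?_ ?_ h0.le)
    · calc π / 2 = 2 ^ n * h := by rw [hh]; field_simp; ring
        _ ≤ _ := mul_le_mul_of_nonneg_right (hB k hk).1 h0.le
    · calc _ ≤ 2 ^ (n + 1) * h := mul_le_mul_of_nonneg_right (hB k hk).2.le h0.le
        _ = π := by rw [hh]; field_simp
  have h4 : (B.card : ℝ) ≤ 4 * 2 ^ n := by
    have : B ⊆ Finset.Ico (-(2 : ℤ) ^ (n + 1)) (2 ^ (n + 1)) := fun k hk => by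
      have := (hB k hk).2
      have h5 : |k| < 2 ^ (n + 1) := by exact_mod_cast this
      rw [Finset.mem_Ico]
      exact ⟨(abs_lt.1 h5).1.le, (abs_lt.1 h5).2⟩
    have h5 := Finset.card_le_card this
    rw [Int.card_Ico] at h5
    have h6 : ((2 : ℤ) ^ (n + 1) - -2 ^ (n + 1)).toNat = 4 * 2 ^ n := by
      have : (2 : ℤ) ^ (n + 1) - -2 ^ (n + 1) = ((4 * 2 ^ n : ℕ) : ℤ) := by push_cast; ring
      rw [this, Int.toNat_natCast]
    rw [h6] at h5
    exact_mod_cast h5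
  have h5 : (∑ k ∈ B, ‖coef f k‖) ^ 2 ≤ (2 * (π / 2) ^ a * L * (√2 / 2 ^ a) ^ n) ^ 2 := by
    refine sq_sum_le_card_mul_sum_sq.trans ?_
    have e1 : h ^ a = (π / 2) ^ a / (2 ^ a) ^ n := by
      have : h = (π / 2) / 2 ^ n := by rw [hh]; field_simp; ring
      rw [this, Real.div_rpow (by positivity) (by positivity), ← Real.rpow_natCast,
        ← Real.rpow_natCast, ← Real.rpow_mul (by norm_num), ← Real.rpow_mul (by norm_num),
        mul_comm]
    have e2 : (√2 ^ n) ^ 2 = (2 : ℝ) ^ n := by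
      rw [← pow_mul, mul_comm, pow_mul, Real.sq_sqrt (by norm_num)]
    calc (B.card : ℝ) * ∑ k ∈ B, ‖coef f k‖ ^ 2 ≤ (4 * 2 ^ n) * (L * h ^ a) ^ 2 := by gcongr
      _ = _ := by
        rw [e1, div_pow, ← e2]
        ring
  exact le_of_sq_le_sq' h5 (by positivity)

/-- The ratio in Bernstein's theorem. -/
def bq (a : ℝ) : ℝ := √2 / 2 ^ a

/-- The constant in Bernstein's theorem. -/
def bC (a : ℝ) : ℝ := 2 * (π / 2) ^ a / (1 - bq a)

theorem bq_pos (a : ℝ) : 0 < bq a := by unfold bq; positivity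

theorem bq_lt_one {a : ℝ} (ha : 1 / 2 < a) : bq a < 1 := by
  unfold bq
  rw [div_lt_one (by positivity), Real.sqrt_eq_rpow]
  exact Real.rpow_lt_rpow_of_exponent_lt (by norm_num) ha

theorem bC_pos {a : ℝ} (ha : 1 / 2 < a) : 0 < bC a := by
  have := bq_lt_one ha
  unfold bC
  exact div_pos (by positivity) (by linarith)

theorem tail_le {f : ℝ → ℂ} (hf : Continuous f) (hp : Function.Periodic f (2 * π)) {a L : ℝ}
    (ha : 1 / 2 < a) (hL : 0 ≤ L) (hH : ∀ x y, ‖f x - f y‖ ≤ L * |x - y| ^ a) (N : ℕ)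
    (B : Finset ℤ) (hB : ∀ k ∈ B, (2 : ℝ) ^ N ≤ |(k : ℝ)|) :
    ∑ k ∈ B, ‖coef f k‖ ≤ bC a * L * bq a ^ N := by
  classical
  let g : ℤ → ℕ := fun k => Nat.log 2 k.natAbs - N
  have hg : ∀ k ∈ B, (2 : ℝ) ^ (N + g k) ≤ |(k : ℝ)| ∧ |(k : ℝ)| < 2 ^ (N + g k + 1) := by
    intro k hk
    have e : |(k : ℝ)| = (k.natAbs : ℝ) := by rw [Nat.cast_natAbs]; push_cast; rfl
    have h1 : 2 ^ N ≤ k.natAbs := by
      have := hB k hk
      rw [e] at this
      exact_mod_cast this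
    have h0 : k.natAbs ≠ 0 := by
      have : 0 < 2 ^ N := by positivity
      omega
    have h2 : N ≤ Nat.log 2 k.natAbs := (Nat.le_log_iff_pow_le one_lt_two h0).2 h1
    have h3 : N + g k = Nat.log 2 k.natAbs := by simp only [g]; omega
    rw [h3, e]
    exact ⟨by exact_mod_cast Nat.pow_log_le_self 2 h0,
      by exact_mod_cast Nat.lt_pow_succ_log_self one_lt_two _⟩
  rw [← Finset.sum_fiberwise_of_maps_to (t := B.image g) (g := g)
    (fun k hk => Finset.mem_image_of_mem g hk)]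
  have hq0 := (bq_pos a).le
  have hq1 := bq_lt_one ha
  have hs : HasSum (fun n : ℕ => 2 * (π / 2) ^ a * L * bq a ^ N * bq a ^ n)
      (2 * (π / 2) ^ a * L * bq a ^ N * (1 - bq a)⁻¹) :=
    (hasSum_geometric_of_lt_one hq0 hq1).mul_left _
  refine le_trans (Finset.sum_le_sum fun n _ => ?_)
    ((sum_le_hasSum _ (fun _ _ => by positivity) hs).trans_eq (by unfold bC; ring))
  refine (block_le hf hp hL hH (N + n) _ fun k hk => ?_).trans_eq (by rw [pow_add]; unfold bq; ring)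
  obtain ⟨hk1, hk2⟩ := Finset.mem_filter.1 hk
  rw [← hk2]
  exact hg k hk1

/-- **Bernstein's theorem** with `s` derivatives: a periodic function whose `s`-th derivative is
Hoelder continuous with exponent `a > 1/2` comes from `WA ℤ s ℂ`, with a bound for the tails. -/
theorem exists_of_holder {s : ℕ} {f : ℕ → ℝ → ℂ}
    (hf : ∀ j < s, ∀ θ, HasDerivAt (f j) (f (j + 1) θ) θ) (hc : Continuous (f s))
    (hp : Function.Periodic (f 0) (2 * π)) {a M L : ℝ} (ha : 1 / 2 < a) (hL : 0 ≤ L)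
    (hM : ∀ θ, ‖f 0 θ‖ ≤ M) (hH : ∀ x y, ‖f s x - f s y‖ ≤ L * |x - y| ^ a) :
    ∃ u : WA ℤ s ℂ, (∀ θ, ev s ℂ θ u = f 0 θ) ∧ ‖u‖ ≤ M + 2 ^ s * bC a * L ∧
      ∀ N : ℕ, ‖proj ℤ s ℂ {k | (2 : ℝ) ^ N ≤ |(k : ℝ)|} u‖ ≤ 2 ^ s * bC a * L * bq a ^ N := by
  classical
  have hper : ∀ j ≤ s, Function.Periodic (f j) (2 * π) := by
    intro j
    induction j with
    | zero => exact fun _ => hp
    | succ j ih => exact fun hj => periodic_deriv (hf j hj) (ih (Nat.le_of_succ_le hj))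
  have hc0 : Continuous (f 0) := by
    rcases Nat.eq_zero_or_pos s with h | h
    · rw [← h]; exact hc
    · exact continuous_iff_continuousAt.2 fun θ => (hf 0 h θ).continuousAt
  have hw : ∀ k : ℤ, 1 ≤ |(k : ℝ)| → wt s k * ‖coef (f 0) k‖ ≤ 2 ^ s * ‖coef (f s) k‖ := by
    intro k hk
    rw [coef_iter hf hc hp, norm_smul, norm_pow, norm_mul, Complex.norm_I, one_mul,
      Complex.norm_intCast, ← mul_assoc, ← mul_pow, wt_int]
    exact mul_le_mul_of_nonneg_right (pow_le_pow_left₀ (by positivity) (by linarith) s)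
      (norm_nonneg _)
  have hT : ∀ (N : ℕ) (B : Finset ℤ),
      ∑ k ∈ B, (if (2 : ℝ) ^ N ≤ |(k : ℝ)| then wt s k * ‖coef (f 0) k‖ else 0) ≤
        2 ^ s * bC a * L * bq a ^ N := by
    intro N B
    rw [← Finset.sum_filter]
    have h1 := tail_le hc (hper s le_rfl) ha hL hH N (B.filter fun k => (2 : ℝ) ^ N ≤ |(k : ℝ)|)
      fun k hk => (Finset.mem_filter.1 hk).2
    calc _ ≤ ∑ k ∈ B.filter fun k : ℤ => (2 : ℝ) ^ N ≤ |(k : ℝ)|, 2 ^ s * ‖coef (f s) k‖ :=
          Finset.sum_le_sum fun k hk =>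
            hw k ((one_le_pow₀ one_le_two).trans (Finset.mem_filter.1 hk).2)
      _ = 2 ^ s * ∑ k ∈ B.filter fun k : ℤ => (2 : ℝ) ^ N ≤ |(k : ℝ)|, ‖coef (f s) k‖ := by
          rw [Finset.mul_sum]
      _ ≤ 2 ^ s * (bC a * L * bq a ^ N) := by gcongr
      _ = _ := by ring
  have hM0 : 0 ≤ M := (norm_nonneg _).trans (hM 0)
  have hA : ∀ B : Finset ℤ, ∑ k ∈ B, wt s k * ‖coef (f 0) k‖ ≤ M + 2 ^ s * bC a * L := by
    intro B
    have h1 := hT 0 B
    have h2 : ∑ k ∈ B, (if k = 0 then M else 0) ≤ M := by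
      rw [Finset.sum_ite_eq']
      split_ifs
      · exact le_rfl
      · exact hM0
    rw [pow_zero, pow_zero, mul_one] at h1
    refine le_trans ?_ (add_le_add h2 h1)
    rw [← Finset.sum_add_distrib]
    refine Finset.sum_le_sum fun k _ => ?_
    by_cases hk : k = 0
    · subst hk
      have h3 := norm_coef_le (fun θ _ => hM θ) 0
      simpa [show ¬ ((1 : ℝ) ≤ 0) by norm_num] using h3
    · have : (1 : ℝ) ≤ |(k : ℝ)| := by exact_mod_cast Int.one_le_abs hk
      simp [hk, this]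
  have hs : Summable fun k => wt s k * ‖coef (f 0) k‖ :=
    summable_of_sum_le (fun k => mul_nonneg (wt_pos s k).le (norm_nonneg _)) hA
  refine ⟨mk _ hs, ev_mk_coef hc0 hp hs, ?_, fun N => ?_⟩
  · rw [norm_mk]
    exact hs.tsum_le_of_sum_le hA
  · rw [norm_eq]
    refine (summable_norm _).tsum_le_of_sum_le fun B => le_trans (le_of_eq ?_) (hT N B)
    refine Finset.sum_congr rfl fun k _ => ?_
    split_ifs with hk
    · rw [cf_proj_of_mem (by exact hk), cf_mk]
    · rw [cf_proj_of_notMem (by exact hk), norm_zero, mul_zero]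

theorem finite_low (N : ℕ) : ({k : ℤ | (2 : ℝ) ^ N ≤ |(k : ℝ)|}ᶜ).Finite := by
  refine (Set.finite_Icc (-(2 : ℤ) ^ N) (2 ^ N)).subset fun k hk => ?_
  have h1 : |(k : ℝ)| < 2 ^ N := not_le.1 hk
  have h2 : |k| < 2 ^ N := by exact_mod_cast h1
  exact ⟨(abs_lt.1 h2).1.le, (abs_lt.1 h2).2.le⟩

end Bernstein

section Calc

variable {A B : Type*} [NormedCommRing A] [NormedAlgebra ℂ A] [CompleteSpace A] [NormOneClass A]
  [NormedCommRing B] [NormedAlgebra ℂ B]

/-- Taylor coefficients given by the Cauchy formula. -/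
def tcoef (f : ℂ → ℂ) (c : ℂ) (R : ℝ) (n : ℕ) : ℂ := (cauchyPowerSeries f c R).coeff n

/-- The function `f`, holomorphic on the disc of radius `R` about `c`, applied to an element of a
Banach algebra. -/
def fcal (f : ℂ → ℂ) (c : ℂ) (R : ℝ) {A : Type*} [NormedCommRing A] [NormedAlgebra ℂ A] (u : A) :
    A := ∑' n, tcoef f c R n • (u - algebraMap ℂ A c) ^ n

theorem norm_tcoef_le {f : ℂ → ℂ} {c : ℂ} {R M : ℝ} (hR : 0 < R)
    (hM : ∀ z ∈ sphere c R, ‖f z‖ ≤ M) (n : ℕ) : ‖tcoef f c R n‖ ≤ M * R⁻¹ ^ n := by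
  rw [tcoef, ← FormalMultilinearSeries.norm_apply_eq_norm_coef]
  refine (norm_cauchyPowerSeries_le f c R n).trans ?_
  rw [abs_of_pos hR]
  refine mul_le_mul_of_nonneg_right ?_ (by positivity)
  have h1 : ‖∫ θ : ℝ in 0..2 * π, ‖f (circleMap c R θ)‖‖ ≤ M * |2 * π - 0| :=
    intervalIntegral.norm_integral_le_of_norm_le_const fun θ _ => by
      rw [norm_norm]; exact hM _ (circleMap_mem_sphere c hR.le θ)
  rw [sub_zero, abs_of_pos (by positivity)] at h1
  rw [inv_mul_le_iff₀ (by positivity), mul_comm (2 * π)]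
  exact (le_abs_self _).trans h1

theorem exists_sphere_bound {f : ℂ → ℂ} {c : ℂ} {R : ℝ}
    (hf : DifferentiableOn ℂ f (closedBall c R)) : ∃ M, ∀ z ∈ sphere c R, ‖f z‖ ≤ M :=
  (isCompact_sphere c R).exists_bound_of_continuousOn
    (hf.continuousOn.mono sphere_subset_closedBall)

omit [CompleteSpace A] in
theorem norm_fcal_term_le {f : ℂ → ℂ} {c : ℂ} {R M : ℝ} (hR : 0 < R)
    (hM : ∀ z ∈ sphere c R, ‖f z‖ ≤ M) (u : A) (n : ℕ) :
    ‖tcoef f c R n • (u - algebraMap ℂ A c) ^ n‖ ≤ M * (‖u - algebraMap ℂ A c‖ / R) ^ n := by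
  rw [norm_smul, div_eq_inv_mul, mul_pow, ← mul_assoc]
  exact mul_le_mul (norm_tcoef_le hR hM n) (norm_pow_le _ n) (norm_nonneg _)
    ((norm_nonneg _).trans (norm_tcoef_le hR hM n))

theorem hasSum_fcal {f : ℂ → ℂ} {c : ℂ} {R : ℝ} (hf : DifferentiableOn ℂ f (closedBall c R))
    {u : A} (hu : ‖u - algebraMap ℂ A c‖ < R) :
    HasSum (fun n => tcoef f c R n • (u - algebraMap ℂ A c) ^ n) (fcal f c R u) := by
  have hR : 0 < R := (norm_nonneg _).trans_lt hu
  obtain ⟨M, hM⟩ := exists_sphere_bound hf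
  refine (Summable.of_norm_bounded ?_ (norm_fcal_term_le hR hM u)).hasSum
  exact (summable_geometric_of_lt_one (by positivity) ((div_lt_one hR).2 hu)).mul_left M

omit [CompleteSpace A] in
theorem norm_fcal_le {f : ℂ → ℂ} {c : ℂ} {R M : ℝ} (hM : ∀ z ∈ sphere c R, ‖f z‖ ≤ M) {u : A}
    (hu : ‖u - algebraMap ℂ A c‖ < R) :
    ‖fcal f c R u‖ ≤ M * (1 - ‖u - algebraMap ℂ A c‖ / R)⁻¹ := by
  have hR : 0 < R := (norm_nonneg _).trans_lt hu
  exact tsum_of_norm_bounded
    ((hasSum_geometric_of_lt_one (by positivity) ((div_lt_one hR).2 hu)).mul_left M)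
    (norm_fcal_term_le hR hM u)

theorem fcal_complex {f : ℂ → ℂ} {c : ℂ} {R : ℝ} (hf : DifferentiableOn ℂ f (closedBall c R))
    {z : ℂ} (hz : ‖z - c‖ < R) : fcal f c R z = f z := by
  have hR : 0 < R := (norm_nonneg _).trans_lt hz
  lift R to ℝ≥0 using hR.le
  have h := (hf.hasFPowerSeriesOnBall (by exact_mod_cast hR)).hasSum (y := z - c)
    (by rw [Metric.eball_coe, mem_ball_zero_iff]; exact hz)
  simp only [FormalMultilinearSeries.apply_eq_pow_smul_coeff, add_sub_cancel] at h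
  refine (hasSum_fcal hf (by simpa using hz)).unique ?_
  simpa [tcoef, mul_comm] using h

/-- Continuous homomorphisms commute with the functional calculus. -/
theorem hom_fcal {f : ℂ → ℂ} {c : ℂ} {R : ℝ} (hf : DifferentiableOn ℂ f (closedBall c R))
    (φ : A →ₐ[ℂ] B) (hφ : Continuous φ) {u : A} (hu : ‖u - algebraMap ℂ A c‖ < R) :
    φ (fcal f c R u) = fcal f c R (φ u) := by
  have h := (hasSum_fcal hf hu).map φ hφ
  have e : (φ ∘ fun n => tcoef f c R n • (u - algebraMap ℂ A c) ^ n) =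
      fun n => tcoef f c R n • (φ u - algebraMap ℂ B c) ^ n := by
    funext n
    simp
  rw [e] at h
  exact h.tsum_eq.symm

theorem analyticOnNhd_fcal {f : ℂ → ℂ} {c : ℂ} {R : ℝ}
    (hf : DifferentiableOn ℂ f (closedBall c R)) :
    AnalyticOnNhd ℂ (fcal f c R : A → A) (ball (algebraMap ℂ A c) R) := by
  rcases le_or_gt R 0 with hR | hR
  · rw [ball_eq_empty.2 hR]; exact analyticOnNhd_empty
  obtain ⟨M, hM⟩ := exists_sphere_bound hf
  lift R to ℝ≥0 using hR.le
  set p := FormalMultilinearSeries.ofScalars A (tcoef f c R) with hp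
  have h1 : (R : ENNReal) ≤ p.radius := p.le_radius_of_bound M fun n => by
    rw [hp, FormalMultilinearSeries.ofScalars_norm]
    have := norm_tcoef_le hR hM n
    rwa [inv_pow, ← div_eq_mul_inv, le_div_iff₀ (by positivity)] at this
  have h0 : (0 : ENNReal) < R := by exact_mod_cast hR
  have h2 := ((p.hasFPowerSeriesOnBall (h0.trans_le h1)).mono h0 h1).comp_sub (algebraMap ℂ A c)
  have h3 := h2.analyticOnNhd
  rw [zero_add, Metric.eball_coe] at h3
  have e : (fcal f c R : A → A) = fun z => p.sum (z - algebraMap ℂ A c) := by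
    funext z
    exact (FormalMultilinearSeries.ofScalars_sum_eq (tcoef f c R) (z - algebraMap ℂ A c)).symm
  rw [e]
  exact h3

variable {s t : ℕ} {X : Type*} [TopologicalSpace X] [Nonempty X]

omit [Nonempty X] in
theorem norm_val_sub_le (u : WA ℤ s (X →ᵇ ℂ)) (c : ℂ) (x : X) (θ : ℝ) :
    ‖val u x θ - c‖ ≤ ‖u - algebraMap ℂ _ c‖ := by
  have := norm_val_le (u - algebraMap ℂ _ c) x θ
  simpa using this

theorem val_fcal {f : ℂ → ℂ} {c : ℂ} {R : ℝ} (hf : DifferentiableOn ℂ f (closedBall c R))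
    {u : WA ℤ s (X →ᵇ ℂ)} (hu : ‖u - algebraMap ℂ _ c‖ < R) (x : X) (θ : ℝ) :
    val (fcal f c R u) x θ = f (val u x θ) := by
  rw [← valA_apply, hom_fcal hf _ (continuous_valA x θ) hu, valA_apply,
    fcal_complex hf ((norm_val_sub_le u c x θ).trans_lt hu)]

theorem ev_fcal {f : ℂ → ℂ} {c : ℂ} {R : ℝ} (hf : DifferentiableOn ℂ f (closedBall c R))
    {u : WA ℤ s ℂ} (hu : ‖u - algebraMap ℂ _ c‖ < R) (θ : ℝ) :
    ev s ℂ θ (fcal f c R u) = f (ev s ℂ θ u) := by
  have h : ‖ev s ℂ θ u - c‖ ≤ ‖u - algebraMap ℂ _ c‖ := by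
    have := norm_ev_apply_le θ (u - algebraMap ℂ _ c)
    rwa [map_sub, ← evA_apply θ (algebraMap ℂ _ c), AlgHom.commutes] at this
  rw [← evA_apply, hom_fcal hf _ (continuous_evA θ) hu, evA_apply, fcal_complex hf (h.trans_lt hu)]

theorem star_fcal {f : ℂ → ℂ} {c : ℂ} {R : ℝ} (hf : DifferentiableOn ℂ f (closedBall c R))
    (hc : star c = c) (hs : ∀ z, ‖z - c‖ < R → star (f z) = f (star z))
    {u : WA ℤ s (X →ᵇ ℂ)} (hu : ‖u - algebraMap ℂ _ c‖ < R) :
    star (fcal f c R u) = fcal f c R (star u) := by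
  have hu' : ‖star u - algebraMap ℂ _ c‖ < R := by
    have : star u - algebraMap ℂ (WA ℤ s (X →ᵇ ℂ)) c = star (u - algebraMap ℂ _ c) :=
      ext_val fun x θ => by
        rw [val_star, val_sub, val_sub, val_star, val_algebraMap, star_sub]
        exact congrArg _ hc.symm
    rwa [this, norm_star]
  refine ext_val fun x θ => ?_
  rw [val_star, val_fcal hf hu, val_fcal hf hu', val_star,
    hs _ ((norm_val_sub_le u c x θ).trans_lt hu)]

end Calc

end Vale.Agent.P218F.Wien
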